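import Vale.Agent.Lib.P154.PChain.BB.R7_0

set_option linter.all false

namespace Vale.Agent.Lib.P154.PChain.BB.S8

open Vale.Agent.Lib.P154.Chain

noncomputable def pc0 : PT := (PT.nd (nat_lit 12691224) (PT.nd (nat_lit 12366666) (PT.nd (nat_lit 12285390) (PT.nd (nat_lit 4169568) (PT.nd (nat_lit 4169490) (PT.nd (nat_lit 4088370) PT.nil (PT.lf (nat_lit 76) (nat_lit 3) (nat_lit 1) (nat_lit 1) (nat_lit 365) (nat_lit 50) (nat_lit 365))) (PT.lf (nat_lit 152) (nat_lit 6) (nat_lit 2) (nat_lit 3) (nat_lit 364) (nat_lit 51) (nat_lit 365))) (PT.nd (nat_lit 8034702) (PT.lf (nat_lit 152) (nat_lit 6) (nat_lit 2) (nat_lit 1) (nat_lit 365) (nat_lit 51) (nat_lit 364)) (PT.lf (nat_lit 836) (nat_lit 3) (nat_lit 11) (nat_lit 1) (nat_lit 315) (nat_lit 150) (nat_lit 315)))) (PT.nd (nat_lit 81120) (PT.nd (nat_lit 78) (PT.lf (nat_lit 912) (nat_lit 6) (nat_lit 12) (nat_lit 3) (nat_lit 314) (nat_lit 151) (nat_lit 315)) (PT.lf (nat_lit 912) (nat_lit 6) (nat_lit 12) (nat_lit 1) (nat_lit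 315) (nat_lit 151) (nat_lit 314))) (PT.nd (nat_lit 78) (PT.lf (nat_lit 988) (nat_lit 6) (nat_lit 13) (nat_lit 3) (nat_lit 313) (nat_lit 152) (nat_lit 315)) (PT.lf (nat_lit 1064) (nat_lit 3) (nat_lit 14) (nat_lit 1) (nat_lit 314) (nat_lit 152) (nat_lit 314))))) (PT.nd (nat_lit 162240) (PT.nd (nat_lit 81120) (PT.nd (nat_lit 81042) (PT.lf (nat_lit 988) (nat_lit 6) (nat_lit 13) (nat_lit 1) (nat_lit 315) (nat_lit 152) (nat_lit 313)) (PT.lf (nat_lit 1216) (nat_lit 6) (nat_lit 16) (nat_lit 3) (nat_lit 313) (nat_lit 153) (nat_lit 314))) (PT.nd (nat_lit 81042) (PT.lf (nat_lit 1216) (nat_lit 6) (nat_lit 16) (nat_lit 1) (nat_lit 314) (nat_lit 153) (nat_lit 313)) (PT.lf (nat_lit 1292) (nat_lit 6) (nat_lit 17) (nat_lit 3) (nat_lit 312) (nat_lit 154) (nat_lit 314)))) (PT.nd (nat_lit 81120) (PT.nd (nat_lit 78) (PT.lf (nat_lit 1368) (nat_lit 3) (nat_lit 18) (nat_lit 1) (nat_lit 313) (nat_lit 154) (nat_lit 313)) (PT.lf (nat_lit 1292) (nat_lit 6) (nat_lit 17) (nat_lit 1)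 (nat_lit 314) (nat_lit 154) (nat_lit 312))) (PT.nd (nat_lit 78) (PT.lf (nat_lit 1520) (nat_lit 6) (nat_lit 20) (nat_lit 3) (nat_lit 312) (nat_lit 155) (nat_lit 313)) (PT.nd (nat_lit 81042) (PT.lf (nat_lit 1520) (nat_lit 6) (nat_lit 20) (nat_lit 1) (nat_lit 313) (nat_lit 155) (nat_lit 312)) (PT.lf (nat_lit 1596) (nat_lit 6) (nat_lit 21) (nat_lit 3) (nat_lit 311) (nat_lit 156) (nat_lit 313))))))) (PT.nd (nat_lit 162396) (PT.nd (nat_lit 81198) (PT.nd (nat_lit 81042) (PT.nd (nat_lit 78) (PT.lf (nat_lit 1672) (nat_lit 3) (nat_lit 22) (nat_lit 1) (nat_lit 312) (nat_lit 156) (nat_lit 312)) (PT.lf (nat_lit 1596) (nat_lit 6) (nat_lit 21) (nat_lit 1) (nat_lit 313) (nat_lit 156) (nat_lit 311))) (PT.nd (nat_lit 78) (PT.lf (nat_lit 1748) (nat_lit 6) (nat_lit 23) (nat_lit 3) (nat_lit 310) (nat_lit 157) (nat_lit 313)) (PT.lf (nat_lit 1824) (nat_lit 6) (nat_lit 24) (nat_lit 3) (nat_lit 311) (nat_lit 157) (nat_lit 312)))) (PT.nd (nat_lit 81042) (PT.nd (nat_lit 78) (PT.lf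 (nat_lit 1824) (nat_lit 6) (nat_lit 24) (nat_lit 1) (nat_lit 312) (nat_lit 157) (nat_lit 311)) (PT.lf (nat_lit 1748) (nat_lit 6) (nat_lit 23) (nat_lit 1) (nat_lit 313) (nat_lit 157) (nat_lit 310))) (PT.nd (nat_lit 78) (PT.lf (nat_lit 1900) (nat_lit 6) (nat_lit 25) (nat_lit 3) (nat_lit 310) (nat_lit 158) (nat_lit 312)) (PT.lf (nat_lit 1976) (nat_lit 3) (nat_lit 26) (nat_lit 1) (nat_lit 311) (nat_lit 158) (nat_lit 311))))) (PT.nd (nat_lit 81198) (PT.nd (nat_lit 81042) (PT.nd (nat_lit 80964) (PT.lf (nat_lit 1900) (nat_lit 6) (nat_lit 25) (nat_lit 1) (nat_lit 312) (nat_lit 158) (nat_lit 310)) (PT.lf (nat_lit 2052) (nat_lit 6) (nat_lit 27) (nat_lit 3) (nat_lit 309) (nat_lit 159) (nat_lit 312))) (PT.nd (nat_lit 78) (PT.lf (nat_lit 2128) (nat_lit 6) (nat_lit 28) (nat_lit 3) (nat_lit 310) (nat_lit 159) (nat_lit 311)) (PT.lf (nat_lit 2128) (nat_lit 6) (nat_lit 28) (nat_lit 1) (nat_lit 311) (nat_lit 159) (nat_lit 310)))) (PT.nd (nat_lit 81042) (PT.nd (nat_lit 80964)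 (PT.lf (nat_lit 2052) (nat_lit 6) (nat_lit 27) (nat_lit 1) (nat_lit 312) (nat_lit 159) (nat_lit 309)) (PT.lf (nat_lit 2204) (nat_lit 6) (nat_lit 29) (nat_lit 3) (nat_lit 309) (nat_lit 160) (nat_lit 311))) (PT.nd (nat_lit 78) (PT.lf (nat_lit 2280) (nat_lit 3) (nat_lit 30) (nat_lit 1) (nat_lit 310) (nat_lit 160) (nat_lit 310)) (PT.nd (nat_lit 80964) (PT.lf (nat_lit 2204) (nat_lit 6) (nat_lit 29) (nat_lit 1) (nat_lit 311) (nat_lit 160) (nat_lit 309)) (PT.lf (nat_lit 2356) (nat_lit 6) (nat_lit 31) (nat_lit 3) (nat_lit 308) (nat_lit 161) (nat_lit 311))))))))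
noncomputable def pc1 : PT := (PT.nd (nat_lit 405678) (PT.nd (nat_lit 162396) (PT.nd (nat_lit 81198) (PT.nd (nat_lit 156) (PT.nd (nat_lit 78) (PT.lf (nat_lit 2432) (nat_lit 6) (nat_lit 32) (nat_lit 3) (nat_lit 309) (nat_lit 161) (nat_lit 310)) (PT.lf (nat_lit 2432) (nat_lit 6) (nat_lit 32) (nat_lit 1) (nat_lit 310) (nat_lit 161) (nat_lit 309))) (PT.nd (nat_lit 80964) (PT.lf (nat_lit 2356) (nat_lit 6) (nat_lit 31) (nat_lit 1) (nat_lit 311) (nat_lit 161) (nat_lit 308)) (PT.lf (nat_lit 2508) (nat_lit 6) (nat_lit 33) (nat_lit 3) (nat_lit 308) (nat_lit 162) (nat_lit 310)))) (PT.nd (nat_lit 81042) (PT.nd (nat_lit 78) (PT.lf (nat_lit 2584) (nat_lit 3) (nat_lit 34) (nat_lit 1) (nat_lit 309) (nat_lit 162) (nat_lit 309)) (PT.lf (nat_lit 2508) (nat_lit 6) (nat_lit 33) (nat_lit 1) (nat_lit 310) (nat_lit 162) (nat_lit 308))) (PT.nd (nat_lit 78) (PT.lf (nat_lit 2660) (nat_lit 6) (nat_lit 35) (nat_lit 3) (nat_lit 307) (nat_lit 163) (nat_lit 310)) (PT.lf (nat_lit 2736)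 (nat_lit 6) (nat_lit 36) (nat_lit 3) (nat_lit 308) (nat_lit 163) (nat_lit 309))))) (PT.nd (nat_lit 81198) (PT.nd (nat_lit 81042) (PT.nd (nat_lit 78) (PT.lf (nat_lit 2736) (nat_lit 6) (nat_lit 36) (nat_lit 1) (nat_lit 309) (nat_lit 163) (nat_lit 308)) (PT.lf (nat_lit 2660) (nat_lit 6) (nat_lit 35) (nat_lit 1) (nat_lit 310) (nat_lit 163) (nat_lit 307))) (PT.nd (nat_lit 78) (PT.lf (nat_lit 2888) (nat_lit 6) (nat_lit 38) (nat_lit 3) (nat_lit 307) (nat_lit 164) (nat_lit 309)) (PT.lf (nat_lit 2964) (nat_lit 3) (nat_lit 39) (nat_lit 1) (nat_lit 308) (nat_lit 164) (nat_lit 308)))) (PT.nd (nat_lit 81042) (PT.nd (nat_lit 80964) (PT.lf (nat_lit 2888) (nat_lit 6) (nat_lit 38) (nat_lit 1) (nat_lit 309) (nat_lit 164) (nat_lit 307)) (PT.lf (nat_lit 3040) (nat_lit 6) (nat_lit 40) (nat_lit 3) (nat_lit 306) (nat_lit 165) (nat_lit 309))) (PT.nd (nat_lit 78) (PT.lf (nat_lit 3116) (nat_lit 6) (nat_lit 41) (nat_lit 3) (nat_lit 307) (nat_lit 165) (nat_lit 308)) (PT.nd (nat_lit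 78) (PT.lf (nat_lit 3116) (nat_lit 6) (nat_lit 41) (nat_lit 1) (nat_lit 308) (nat_lit 165) (nat_lit 307)) (PT.lf (nat_lit 3040) (nat_lit 6) (nat_lit 40) (nat_lit 1) (nat_lit 309) (nat_lit 165) (nat_lit 306))))))) (PT.nd (nat_lit 162318) (PT.nd (nat_lit 312) (PT.nd (nat_lit 156) (PT.nd (nat_lit 78) (PT.lf (nat_lit 3192) (nat_lit 6) (nat_lit 42) (nat_lit 3) (nat_lit 305) (nat_lit 166) (nat_lit 309)) (PT.lf (nat_lit 3268) (nat_lit 6) (nat_lit 43) (nat_lit 3) (nat_lit 306) (nat_lit 166) (nat_lit 308))) (PT.nd (nat_lit 78) (PT.lf (nat_lit 3344) (nat_lit 3) (nat_lit 44) (nat_lit 1) (nat_lit 307) (nat_lit 166) (nat_lit 307)) (PT.lf (nat_lit 3268) (nat_lit 6) (nat_lit 43) (nat_lit 1) (nat_lit 308) (nat_lit 166) (nat_lit 306)))) (PT.nd (nat_lit 80964) (PT.nd (nat_lit 80886) (PT.lf (nat_lit 3192) (nat_lit 6) (nat_lit 42) (nat_lit 1) (nat_lit 309) (nat_lit 166) (nat_lit 305)) (PT.lf (nat_lit 3420) (nat_lit 6) (nat_lit 45) (nat_lit 3) (nat_lit 305) (nat_lit 167) (nat_lit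 308))) (PT.nd (nat_lit 78) (PT.lf (nat_lit 3496) (nat_lit 6) (nat_lit 46) (nat_lit 3) (nat_lit 306) (nat_lit 167) (nat_lit 307)) (PT.nd (nat_lit 78) (PT.lf (nat_lit 3496) (nat_lit 6) (nat_lit 46) (nat_lit 1) (nat_lit 307) (nat_lit 167) (nat_lit 306)) (PT.lf (nat_lit 3420) (nat_lit 6) (nat_lit 45) (nat_lit 1) (nat_lit 308) (nat_lit 167) (nat_lit 305)))))) (PT.nd (nat_lit 312) (PT.nd (nat_lit 156) (PT.nd (nat_lit 78) (PT.lf (nat_lit 3572) (nat_lit 6) (nat_lit 47) (nat_lit 3) (nat_lit 304) (nat_lit 168) (nat_lit 308)) (PT.lf (nat_lit 3648) (nat_lit 6) (nat_lit 48) (nat_lit 3) (nat_lit 305) (nat_lit 168) (nat_lit 307))) (PT.nd (nat_lit 78) (PT.lf (nat_lit 3724) (nat_lit 3) (nat_lit 49) (nat_lit 1) (nat_lit 306) (nat_lit 168) (nat_lit 306)) (PT.lf (nat_lit 3648) (nat_lit 6) (nat_lit 48) (nat_lit 1) (nat_lit 307) (nat_lit 168) (nat_lit 305)))) (PT.nd (nat_lit 80964) (PT.nd (nat_lit 80886) (PT.lf (nat_lit 3572) (nat_lit 6) (nat_lit 47) (nat_lit 1) (nat_lit 308)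 (nat_lit 168) (nat_lit 304)) (PT.lf (nat_lit 3800) (nat_lit 6) (nat_lit 50) (nat_lit 3) (nat_lit 304) (nat_lit 169) (nat_lit 307))) (PT.nd (nat_lit 78) (PT.lf (nat_lit 3876) (nat_lit 6) (nat_lit 51) (nat_lit 3) (nat_lit 305) (nat_lit 169) (nat_lit 306)) (PT.nd (nat_lit 78) (PT.lf (nat_lit 3876) (nat_lit 6) (nat_lit 51) (nat_lit 1) (nat_lit 306) (nat_lit 169) (nat_lit 305)) (PT.lf (nat_lit 3800) (nat_lit 6) (nat_lit 50) (nat_lit 1) (nat_lit 307) (nat_lit 169) (nat_lit 304))))))))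
noncomputable def pc2 : PT := (PT.nd (nat_lit 243750) (PT.nd (nat_lit 81432) (PT.nd (nat_lit 312) (PT.nd (nat_lit 156) (PT.nd (nat_lit 78) (PT.lf (nat_lit 3952) (nat_lit 6) (nat_lit 52) (nat_lit 3) (nat_lit 303) (nat_lit 170) (nat_lit 307)) (PT.lf (nat_lit 4028) (nat_lit 6) (nat_lit 53) (nat_lit 3) (nat_lit 304) (nat_lit 170) (nat_lit 306))) (PT.nd (nat_lit 78) (PT.lf (nat_lit 4104) (nat_lit 3) (nat_lit 54) (nat_lit 1) (nat_lit 305) (nat_lit 170) (nat_lit 305)) (PT.lf (nat_lit 4028) (nat_lit 6) (nat_lit 53) (nat_lit 1) (nat_lit 306) (nat_lit 170) (nat_lit 304)))) (PT.nd (nat_lit 80964) (PT.nd (nat_lit 80886) (PT.lf (nat_lit 3952) (nat_lit 6) (nat_lit 52) (nat_lit 1) (nat_lit 307) (nat_lit 170) (nat_lit 303)) (PT.lf (nat_lit 4256) (nat_lit 6) (nat_lit 56) (nat_lit 3) (nat_lit 303) (nat_lit 171) (nat_lit 306))) (PT.nd (nat_lit 78) (PT.lf (nat_lit 4332) (nat_lit 6) (nat_lit 57) (nat_lit 3) (nat_lit 304) (nat_lit 171) (nat_lit 305)) (PT.lf (nat_lit 4332) (nat_lit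 6) (nat_lit 57) (nat_lit 1) (nat_lit 305) (nat_lit 171) (nat_lit 304))))) (PT.nd (nat_lit 81120) (PT.nd (nat_lit 80964) (PT.nd (nat_lit 80886) (PT.lf (nat_lit 4256) (nat_lit 6) (nat_lit 56) (nat_lit 1) (nat_lit 306) (nat_lit 171) (nat_lit 303)) (PT.lf (nat_lit 4408) (nat_lit 6) (nat_lit 58) (nat_lit 3) (nat_lit 302) (nat_lit 172) (nat_lit 306))) (PT.nd (nat_lit 78) (PT.lf (nat_lit 4484) (nat_lit 6) (nat_lit 59) (nat_lit 3) (nat_lit 303) (nat_lit 172) (nat_lit 305)) (PT.lf (nat_lit 4560) (nat_lit 3) (nat_lit 60) (nat_lit 1) (nat_lit 304) (nat_lit 172) (nat_lit 304)))) (PT.nd (nat_lit 80964) (PT.nd (nat_lit 78) (PT.lf (nat_lit 4484) (nat_lit 6) (nat_lit 59) (nat_lit 1) (nat_lit 305) (nat_lit 172) (nat_lit 303)) (PT.lf (nat_lit 4408) (nat_lit 6) (nat_lit 58) (nat_lit 1) (nat_lit 306) (nat_lit 172) (nat_lit 302))) (PT.nd (nat_lit 78) (PT.lf (nat_lit 4712) (nat_lit 6) (nat_lit 62) (nat_lit 3) (nat_lit 302) (nat_lit 173) (nat_lit 305)) (PT.nd (nat_lit 78) (PT.lf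 (nat_lit 4788) (nat_lit 6) (nat_lit 63) (nat_lit 3) (nat_lit 303) (nat_lit 173) (nat_lit 304)) (PT.lf (nat_lit 4788) (nat_lit 6) (nat_lit 63) (nat_lit 1) (nat_lit 304) (nat_lit 173) (nat_lit 303))))))) (PT.nd (nat_lit 162240) (PT.nd (nat_lit 81120) (PT.nd (nat_lit 80964) (PT.nd (nat_lit 80886) (PT.lf (nat_lit 4712) (nat_lit 6) (nat_lit 62) (nat_lit 1) (nat_lit 305) (nat_lit 173) (nat_lit 302)) (PT.lf (nat_lit 4864) (nat_lit 6) (nat_lit 64) (nat_lit 3) (nat_lit 301) (nat_lit 174) (nat_lit 305))) (PT.nd (nat_lit 78) (PT.lf (nat_lit 4940) (nat_lit 6) (nat_lit 65) (nat_lit 3) (nat_lit 302) (nat_lit 174) (nat_lit 304)) (PT.lf (nat_lit 5016) (nat_lit 3) (nat_lit 66) (nat_lit 1) (nat_lit 303) (nat_lit 174) (nat_lit 303)))) (PT.nd (nat_lit 80886) (PT.nd (nat_lit 78) (PT.lf (nat_lit 4940) (nat_lit 6) (nat_lit 65) (nat_lit 1) (nat_lit 304) (nat_lit 174) (nat_lit 302)) (PT.lf (nat_lit 4864) (nat_lit 6) (nat_lit 64) (nat_lit 1) (nat_lit 305) (nat_lit 174) (nat_lit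 301))) (PT.nd (nat_lit 78) (PT.lf (nat_lit 5092) (nat_lit 6) (nat_lit 67) (nat_lit 3) (nat_lit 300) (nat_lit 175) (nat_lit 305)) (PT.nd (nat_lit 78) (PT.lf (nat_lit 5168) (nat_lit 6) (nat_lit 68) (nat_lit 3) (nat_lit 301) (nat_lit 175) (nat_lit 304)) (PT.lf (nat_lit 5244) (nat_lit 6) (nat_lit 69) (nat_lit 3) (nat_lit 302) (nat_lit 175) (nat_lit 303)))))) (PT.nd (nat_lit 81042) (PT.nd (nat_lit 156) (PT.nd (nat_lit 78) (PT.lf (nat_lit 5244) (nat_lit 6) (nat_lit 69) (nat_lit 1) (nat_lit 303) (nat_lit 175) (nat_lit 302)) (PT.lf (nat_lit 5168) (nat_lit 6) (nat_lit 68) (nat_lit 1) (nat_lit 304) (nat_lit 175) (nat_lit 301))) (PT.nd (nat_lit 80808) (PT.lf (nat_lit 5092) (nat_lit 6) (nat_lit 67) (nat_lit 1) (nat_lit 305) (nat_lit 175) (nat_lit 300)) (PT.lf (nat_lit 5320) (nat_lit 6) (nat_lit 70) (nat_lit 3) (nat_lit 300) (nat_lit 176) (nat_lit 304)))) (PT.nd (nat_lit 156) (PT.nd (nat_lit 78) (PT.lf (nat_lit 5396) (nat_lit 6) (nat_lit 71) (nat_lit 3) (nat_lit 301)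 (nat_lit 176) (nat_lit 303)) (PT.lf (nat_lit 5472) (nat_lit 3) (nat_lit 72) (nat_lit 1) (nat_lit 302) (nat_lit 176) (nat_lit 302))) (PT.nd (nat_lit 78) (PT.lf (nat_lit 5396) (nat_lit 6) (nat_lit 71) (nat_lit 1) (nat_lit 303) (nat_lit 176) (nat_lit 301)) (PT.nd (nat_lit 80808) (PT.lf (nat_lit 5320) (nat_lit 6) (nat_lit 70) (nat_lit 1) (nat_lit 304) (nat_lit 176) (nat_lit 300)) (PT.lf (nat_lit 5548) (nat_lit 6) (nat_lit 73) (nat_lit 3) (nat_lit 299) (nat_lit 177) (nat_lit 304))))))))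
noncomputable def pc3 : PT := (PT.nd (nat_lit 162630) (PT.nd (nat_lit 81276) (PT.nd (nat_lit 312) (PT.nd (nat_lit 156) (PT.nd (nat_lit 78) (PT.lf (nat_lit 5624) (nat_lit 6) (nat_lit 74) (nat_lit 3) (nat_lit 300) (nat_lit 177) (nat_lit 303)) (PT.lf (nat_lit 5700) (nat_lit 6) (nat_lit 75) (nat_lit 3) (nat_lit 301) (nat_lit 177) (nat_lit 302))) (PT.nd (nat_lit 78) (PT.lf (nat_lit 5700) (nat_lit 6) (nat_lit 75) (nat_lit 1) (nat_lit 302) (nat_lit 177) (nat_lit 301)) (PT.lf (nat_lit 5624) (nat_lit 6) (nat_lit 74) (nat_lit 1) (nat_lit 303) (nat_lit 177) (nat_lit 300)))) (PT.nd (nat_lit 80808) (PT.nd (nat_lit 80730) (PT.lf (nat_lit 5548) (nat_lit 6) (nat_lit 73) (nat_lit 1) (nat_lit 304) (nat_lit 177) (nat_lit 299)) (PT.lf (nat_lit 5776) (nat_lit 6) (nat_lit 76) (nat_lit 3) (nat_lit 298) (nat_lit 178) (nat_lit 304))) (PT.nd (nat_lit 78) (PT.lf (nat_lit 5852) (nat_lit 6) (nat_lit 77) (nat_lit 3) (nat_lit 299) (nat_lit 178) (nat_lit 303)) (PT.lf (nat_lit 5928) (nat_lit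 6) (nat_lit 78) (nat_lit 3) (nat_lit 300) (nat_lit 178) (nat_lit 302))))) (PT.nd (nat_lit 80964) (PT.nd (nat_lit 156) (PT.nd (nat_lit 78) (PT.lf (nat_lit 6004) (nat_lit 3) (nat_lit 79) (nat_lit 1) (nat_lit 301) (nat_lit 178) (nat_lit 301)) (PT.lf (nat_lit 5928) (nat_lit 6) (nat_lit 78) (nat_lit 1) (nat_lit 302) (nat_lit 178) (nat_lit 300))) (PT.nd (nat_lit 78) (PT.lf (nat_lit 5852) (nat_lit 6) (nat_lit 77) (nat_lit 1) (nat_lit 303) (nat_lit 178) (nat_lit 299)) (PT.lf (nat_lit 5776) (nat_lit 6) (nat_lit 76) (nat_lit 1) (nat_lit 304) (nat_lit 178) (nat_lit 298)))) (PT.nd (nat_lit 156) (PT.nd (nat_lit 78) (PT.lf (nat_lit 6080) (nat_lit 6) (nat_lit 80) (nat_lit 3) (nat_lit 298) (nat_lit 179) (nat_lit 303)) (PT.lf (nat_lit 6156) (nat_lit 6) (nat_lit 81) (nat_lit 3) (nat_lit 299) (nat_lit 179) (nat_lit 302))) (PT.nd (nat_lit 78) (PT.lf (nat_lit 6232) (nat_lit 6) (nat_lit 82) (nat_lit 3) (nat_lit 300) (nat_lit 179) (nat_lit 301)) (PT.nd (nat_lit 78) (PT.lf (nat_lit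 6232) (nat_lit 6) (nat_lit 82) (nat_lit 1) (nat_lit 301) (nat_lit 179) (nat_lit 300)) (PT.lf (nat_lit 6156) (nat_lit 6) (nat_lit 81) (nat_lit 1) (nat_lit 302) (nat_lit 179) (nat_lit 299))))))) (PT.nd (nat_lit 162006) (PT.nd (nat_lit 80964) (PT.nd (nat_lit 80808) (PT.nd (nat_lit 80730) (PT.lf (nat_lit 6080) (nat_lit 6) (nat_lit 80) (nat_lit 1) (nat_lit 303) (nat_lit 179) (nat_lit 298)) (PT.lf (nat_lit 6308) (nat_lit 6) (nat_lit 83) (nat_lit 3) (nat_lit 297) (nat_lit 180) (nat_lit 303))) (PT.nd (nat_lit 78) (PT.lf (nat_lit 6384) (nat_lit 6) (nat_lit 84) (nat_lit 3) (nat_lit 298) (nat_lit 180) (nat_lit 302)) (PT.lf (nat_lit 6460) (nat_lit 6) (nat_lit 85) (nat_lit 3) (nat_lit 299) (nat_lit 180) (nat_lit 301)))) (PT.nd (nat_lit 156) (PT.nd (nat_lit 78) (PT.lf (nat_lit 6536) (nat_lit 3) (nat_lit 86) (nat_lit 1) (nat_lit 300) (nat_lit 180) (nat_lit 300)) (PT.lf (nat_lit 6460) (nat_lit 6) (nat_lit 85) (nat_lit 1) (nat_lit 301) (nat_lit 180) (nat_lit 299))) (PT.nd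 (nat_lit 78) (PT.lf (nat_lit 6384) (nat_lit 6) (nat_lit 84) (nat_lit 1) (nat_lit 302) (nat_lit 180) (nat_lit 298)) (PT.nd (nat_lit 80730) (PT.lf (nat_lit 6308) (nat_lit 6) (nat_lit 83) (nat_lit 1) (nat_lit 303) (nat_lit 180) (nat_lit 297)) (PT.lf (nat_lit 6612) (nat_lit 6) (nat_lit 87) (nat_lit 3) (nat_lit 297) (nat_lit 181) (nat_lit 302)))))) (PT.nd (nat_lit 312) (PT.nd (nat_lit 156) (PT.nd (nat_lit 78) (PT.lf (nat_lit 6688) (nat_lit 6) (nat_lit 88) (nat_lit 3) (nat_lit 298) (nat_lit 181) (nat_lit 301)) (PT.lf (nat_lit 6764) (nat_lit 6) (nat_lit 89) (nat_lit 3) (nat_lit 299) (nat_lit 181) (nat_lit 300))) (PT.nd (nat_lit 78) (PT.lf (nat_lit 6764) (nat_lit 6) (nat_lit 89) (nat_lit 1) (nat_lit 300) (nat_lit 181) (nat_lit 299)) (PT.lf (nat_lit 6688) (nat_lit 6) (nat_lit 88) (nat_lit 1) (nat_lit 301) (nat_lit 181) (nat_lit 298)))) (PT.nd (nat_lit 80808) (PT.nd (nat_lit 80730) (PT.lf (nat_lit 6612) (nat_lit 6) (nat_lit 87) (nat_lit 1) (nat_lit 302) (nat_lit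 181) (nat_lit 297)) (PT.lf (nat_lit 6840) (nat_lit 6) (nat_lit 90) (nat_lit 3) (nat_lit 296) (nat_lit 182) (nat_lit 302))) (PT.nd (nat_lit 78) (PT.lf (nat_lit 6916) (nat_lit 6) (nat_lit 91) (nat_lit 3) (nat_lit 297) (nat_lit 182) (nat_lit 301)) (PT.nd (nat_lit 78) (PT.lf (nat_lit 6992) (nat_lit 6) (nat_lit 92) (nat_lit 3) (nat_lit 298) (nat_lit 182) (nat_lit 300)) (PT.lf (nat_lit 7068) (nat_lit 3) (nat_lit 93) (nat_lit 1) (nat_lit 299) (nat_lit 182) (nat_lit 299))))))))
noncomputable def pc4 : PT := (PT.nd (nat_lit 243204) (PT.nd (nat_lit 81276) (PT.nd (nat_lit 80964) (PT.nd (nat_lit 156) (PT.nd (nat_lit 78) (PT.lf (nat_lit 6992) (nat_lit 6) (nat_lit 92) (nat_lit 1) (nat_lit 300) (nat_lit 182) (nat_lit 298)) (PT.lf (nat_lit 6916) (nat_lit 6) (nat_lit 91) (nat_lit 1) (nat_lit 301) (nat_lit 182) (nat_lit 297))) (PT.nd (nat_lit 80730) (PT.lf (nat_lit 6840) (nat_lit 6) (nat_lit 90) (nat_lit 1) (nat_lit 302) (nat_lit 182) (nat_lit 296)) (PT.lf (nat_lit 7144)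 (nat_lit 6) (nat_lit 94) (nat_lit 3) (nat_lit 296) (nat_lit 183) (nat_lit 301)))) (PT.nd (nat_lit 156) (PT.nd (nat_lit 78) (PT.lf (nat_lit 7220) (nat_lit 6) (nat_lit 95) (nat_lit 3) (nat_lit 297) (nat_lit 183) (nat_lit 300)) (PT.lf (nat_lit 7296) (nat_lit 6) (nat_lit 96) (nat_lit 3) (nat_lit 298) (nat_lit 183) (nat_lit 299))) (PT.nd (nat_lit 78) (PT.lf (nat_lit 7296) (nat_lit 6) (nat_lit 96) (nat_lit 1) (nat_lit 299) (nat_lit 183) (nat_lit 298)) (PT.lf (nat_lit 7220) (nat_lit 6) (nat_lit 95) (nat_lit 1) (nat_lit 300) (nat_lit 183) (nat_lit 297))))) (PT.nd (nat_lit 80964) (PT.nd (nat_lit 80808) (PT.nd (nat_lit 80730) (PT.lf (nat_lit 7144) (nat_lit 6) (nat_lit 94) (nat_lit 1) (nat_lit 301) (nat_lit 183) (nat_lit 296)) (PT.lf (nat_lit 7372) (nat_lit 6) (nat_lit 97) (nat_lit 3) (nat_lit 295) (nat_lit 184) (nat_lit 301))) (PT.nd (nat_lit 78) (PT.lf (nat_lit 7448) (nat_lit 6) (nat_lit 98) (nat_lit 3) (nat_lit 296) (nat_lit 184) (nat_lit 300)) (PT.lf (nat_lit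 7524) (nat_lit 6) (nat_lit 99) (nat_lit 3) (nat_lit 297) (nat_lit 184) (nat_lit 299)))) (PT.nd (nat_lit 156) (PT.nd (nat_lit 78) (PT.lf (nat_lit 7600) (nat_lit 3) (nat_lit 100) (nat_lit 1) (nat_lit 298) (nat_lit 184) (nat_lit 298)) (PT.lf (nat_lit 7524) (nat_lit 6) (nat_lit 99) (nat_lit 1) (nat_lit 299) (nat_lit 184) (nat_lit 297))) (PT.nd (nat_lit 78) (PT.lf (nat_lit 7448) (nat_lit 6) (nat_lit 98) (nat_lit 1) (nat_lit 300) (nat_lit 184) (nat_lit 296)) (PT.nd (nat_lit 80652) (PT.lf (nat_lit 7372) (nat_lit 6) (nat_lit 97) (nat_lit 1) (nat_lit 301) (nat_lit 184) (nat_lit 295)) (PT.lf (nat_lit 7676) (nat_lit 6) (nat_lit 101) (nat_lit 3) (nat_lit 294) (nat_lit 185) (nat_lit 301))))))) (PT.nd (nat_lit 81276) (PT.nd (nat_lit 312) (PT.nd (nat_lit 156) (PT.nd (nat_lit 78) (PT.lf (nat_lit 7752) (nat_lit 6) (nat_lit 102) (nat_lit 3) (nat_lit 295) (nat_lit 185) (nat_lit 300)) (PT.lf (nat_lit 7828) (nat_lit 6) (nat_lit 103) (nat_lit 3) (nat_lit 296) (nat_lit 185)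 (nat_lit 299))) (PT.nd (nat_lit 78) (PT.lf (nat_lit 7904) (nat_lit 6) (nat_lit 104) (nat_lit 3) (nat_lit 297) (nat_lit 185) (nat_lit 298)) (PT.lf (nat_lit 7904) (nat_lit 6) (nat_lit 104) (nat_lit 1) (nat_lit 298) (nat_lit 185) (nat_lit 297)))) (PT.nd (nat_lit 156) (PT.nd (nat_lit 78) (PT.lf (nat_lit 7828) (nat_lit 6) (nat_lit 103) (nat_lit 1) (nat_lit 299) (nat_lit 185) (nat_lit 296)) (PT.lf (nat_lit 7752) (nat_lit 6) (nat_lit 102) (nat_lit 1) (nat_lit 300) (nat_lit 185) (nat_lit 295))) (PT.nd (nat_lit 80652) (PT.lf (nat_lit 7676) (nat_lit 6) (nat_lit 101) (nat_lit 1) (nat_lit 301) (nat_lit 185) (nat_lit 294)) (PT.nd (nat_lit 78) (PT.lf (nat_lit 7980) (nat_lit 6) (nat_lit 105) (nat_lit 3) (nat_lit 294) (nat_lit 186) (nat_lit 300)) (PT.lf (nat_lit 8056) (nat_lit 6) (nat_lit 106) (nat_lit 3) (nat_lit 295) (nat_lit 186) (nat_lit 299)))))) (PT.nd (nat_lit 312) (PT.nd (nat_lit 156) (PT.nd (nat_lit 78) (PT.lf (nat_lit 8132) (nat_lit 6) (nat_lit 107) (nat_lit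 3) (nat_lit 296) (nat_lit 186) (nat_lit 298)) (PT.lf (nat_lit 8208) (nat_lit 3) (nat_lit 108) (nat_lit 1) (nat_lit 297) (nat_lit 186) (nat_lit 297))) (PT.nd (nat_lit 78) (PT.lf (nat_lit 8132) (nat_lit 6) (nat_lit 107) (nat_lit 1) (nat_lit 298) (nat_lit 186) (nat_lit 296)) (PT.lf (nat_lit 8056) (nat_lit 6) (nat_lit 106) (nat_lit 1) (nat_lit 299) (nat_lit 186) (nat_lit 295)))) (PT.nd (nat_lit 80730) (PT.nd (nat_lit 80652) (PT.lf (nat_lit 7980) (nat_lit 6) (nat_lit 105) (nat_lit 1) (nat_lit 300) (nat_lit 186) (nat_lit 294)) (PT.lf (nat_lit 8284) (nat_lit 6) (nat_lit 109) (nat_lit 3) (nat_lit 293) (nat_lit 187) (nat_lit 300))) (PT.nd (nat_lit 78) (PT.lf (nat_lit 8360) (nat_lit 6) (nat_lit 110) (nat_lit 3) (nat_lit 294) (nat_lit 187) (nat_lit 299)) (PT.nd (nat_lit 78) (PT.lf (nat_lit 8436) (nat_lit 6) (nat_lit 111) (nat_lit 3) (nat_lit 295) (nat_lit 187) (nat_lit 298)) (PT.lf (nat_lit 8512) (nat_lit 6) (nat_lit 112) (nat_lit 3) (nat_lit 296) (nat_lit 187) (nat_lit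 297))))))))
noncomputable def pc5 : PT := (PT.nd (nat_lit 162474) (PT.nd (nat_lit 81198) (PT.nd (nat_lit 80886) (PT.nd (nat_lit 156) (PT.nd (nat_lit 78) (PT.lf (nat_lit 8512) (nat_lit 6) (nat_lit 112) (nat_lit 1) (nat_lit 297) (nat_lit 187) (nat_lit 296)) (PT.lf (nat_lit 8436) (nat_lit 6) (nat_lit 111) (nat_lit 1) (nat_lit 298) (nat_lit 187) (nat_lit 295))) (PT.nd (nat_lit 78) (PT.lf (nat_lit 8360) (nat_lit 6) (nat_lit 110) (nat_lit 1) (nat_lit 299) (nat_lit 187) (nat_lit 294)) (PT.lf (nat_lit 8284) (nat_lit 6) (nat_lit 109) (nat_lit 1) (nat_lit 300) (nat_lit 187) (nat_lit 293)))) (PT.nd (nat_lit 156) (PT.nd (nat_lit 78) (PT.lf (nat_lit 8588) (nat_lit 6) (nat_lit 113) (nat_lit 3) (nat_lit 293) (nat_lit 188) (nat_lit 299)) (PT.lf (nat_lit 8664) (nat_lit 6) (nat_lit 114) (nat_lit 3) (nat_lit 294) (nat_lit 188) (nat_lit 298))) (PT.nd (nat_lit 78) (PT.lf (nat_lit 8740) (nat_lit 6) (nat_lit 115) (nat_lit 3) (nat_lit 295) (nat_lit 188) (nat_lit 297)) (PT.lf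 (nat_lit 8816) (nat_lit 3) (nat_lit 116) (nat_lit 1) (nat_lit 296) (nat_lit 188) (nat_lit 296))))) (PT.nd (nat_lit 80886) (PT.nd (nat_lit 156) (PT.nd (nat_lit 78) (PT.lf (nat_lit 8740) (nat_lit 6) (nat_lit 115) (nat_lit 1) (nat_lit 297) (nat_lit 188) (nat_lit 295)) (PT.lf (nat_lit 8664) (nat_lit 6) (nat_lit 114) (nat_lit 1) (nat_lit 298) (nat_lit 188) (nat_lit 294))) (PT.nd (nat_lit 80652) (PT.lf (nat_lit 8588) (nat_lit 6) (nat_lit 113) (nat_lit 1) (nat_lit 299) (nat_lit 188) (nat_lit 293)) (PT.lf (nat_lit 8892) (nat_lit 6) (nat_lit 117) (nat_lit 3) (nat_lit 292) (nat_lit 189) (nat_lit 299)))) (PT.nd (nat_lit 156) (PT.nd (nat_lit 78) (PT.lf (nat_lit 8968) (nat_lit 6) (nat_lit 118) (nat_lit 3) (nat_lit 293) (nat_lit 189) (nat_lit 298)) (PT.lf (nat_lit 9044) (nat_lit 6) (nat_lit 119) (nat_lit 3) (nat_lit 294) (nat_lit 189) (nat_lit 297))) (PT.nd (nat_lit 78) (PT.lf (nat_lit 9120) (nat_lit 6) (nat_lit 120) (nat_lit 3) (nat_lit 295) (nat_lit 189) (nat_lit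 296)) (PT.nd (nat_lit 78) (PT.lf (nat_lit 9120) (nat_lit 6) (nat_lit 120) (nat_lit 1) (nat_lit 296) (nat_lit 189) (nat_lit 295)) (PT.lf (nat_lit 9044) (nat_lit 6) (nat_lit 119) (nat_lit 1) (nat_lit 297) (nat_lit 189) (nat_lit 294))))))) (PT.nd (nat_lit 81198) (PT.nd (nat_lit 80808) (PT.nd (nat_lit 80652) (PT.nd (nat_lit 78) (PT.lf (nat_lit 8968) (nat_lit 6) (nat_lit 118) (nat_lit 1) (nat_lit 298) (nat_lit 189) (nat_lit 293)) (PT.lf (nat_lit 8892) (nat_lit 6) (nat_lit 117) (nat_lit 1) (nat_lit 299) (nat_lit 189) (nat_lit 292))) (PT.nd (nat_lit 78) (PT.lf (nat_lit 9196) (nat_lit 6) (nat_lit 121) (nat_lit 3) (nat_lit 291) (nat_lit 190) (nat_lit 299)) (PT.lf (nat_lit 9272) (nat_lit 6) (nat_lit 122) (nat_lit 3) (nat_lit 292) (nat_lit 190) (nat_lit 298)))) (PT.nd (nat_lit 156) (PT.nd (nat_lit 78) (PT.lf (nat_lit 9348) (nat_lit 6) (nat_lit 123) (nat_lit 3) (nat_lit 293) (nat_lit 190) (nat_lit 297)) (PT.lf (nat_lit 9424) (nat_lit 6) (nat_lit 124) (nat_lit 3) (nat_lit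 294) (nat_lit 190) (nat_lit 296))) (PT.nd (nat_lit 78) (PT.lf (nat_lit 9500) (nat_lit 3) (nat_lit 125) (nat_lit 1) (nat_lit 295) (nat_lit 190) (nat_lit 295)) (PT.nd (nat_lit 78) (PT.lf (nat_lit 9424) (nat_lit 6) (nat_lit 124) (nat_lit 1) (nat_lit 296) (nat_lit 190) (nat_lit 294)) (PT.lf (nat_lit 9348) (nat_lit 6) (nat_lit 123) (nat_lit 1) (nat_lit 297) (nat_lit 190) (nat_lit 293)))))) (PT.nd (nat_lit 80808) (PT.nd (nat_lit 80652) (PT.nd (nat_lit 78) (PT.lf (nat_lit 9272) (nat_lit 6) (nat_lit 122) (nat_lit 1) (nat_lit 298) (nat_lit 190) (nat_lit 292)) (PT.lf (nat_lit 9196) (nat_lit 6) (nat_lit 121) (nat_lit 1) (nat_lit 299) (nat_lit 190) (nat_lit 291))) (PT.nd (nat_lit 78) (PT.lf (nat_lit 9576) (nat_lit 6) (nat_lit 126) (nat_lit 3) (nat_lit 291) (nat_lit 191) (nat_lit 298)) (PT.lf (nat_lit 9652) (nat_lit 6) (nat_lit 127) (nat_lit 3) (nat_lit 292) (nat_lit 191) (nat_lit 297)))) (PT.nd (nat_lit 156) (PT.nd (nat_lit 78) (PT.lf (nat_lit 9728) (nat_lit 6) (nat_lit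 128) (nat_lit 3) (nat_lit 293) (nat_lit 191) (nat_lit 296)) (PT.lf (nat_lit 9804) (nat_lit 6) (nat_lit 129) (nat_lit 3) (nat_lit 294) (nat_lit 191) (nat_lit 295))) (PT.nd (nat_lit 78) (PT.lf (nat_lit 9804) (nat_lit 6) (nat_lit 129) (nat_lit 1) (nat_lit 295) (nat_lit 191) (nat_lit 294)) (PT.nd (nat_lit 78) (PT.lf (nat_lit 9728) (nat_lit 6) (nat_lit 128) (nat_lit 1) (nat_lit 296) (nat_lit 191) (nat_lit 293)) (PT.lf (nat_lit 9652) (nat_lit 6) (nat_lit 127) (nat_lit 1) (nat_lit 297) (nat_lit 191) (nat_lit 292))))))))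
noncomputable def pc6 : PT := (PT.nd (nat_lit 162318) (PT.nd (nat_lit 81120) (PT.nd (nat_lit 80808) (PT.nd (nat_lit 80652) (PT.nd (nat_lit 80574) (PT.lf (nat_lit 9576) (nat_lit 6) (nat_lit 126) (nat_lit 1) (nat_lit 298) (nat_lit 191) (nat_lit 291)) (PT.lf (nat_lit 9880) (nat_lit 6) (nat_lit 130) (nat_lit 3) (nat_lit 290) (nat_lit 192) (nat_lit 298))) (PT.nd (nat_lit 78) (PT.lf (nat_lit 9956) (nat_lit 6) (nat_lit 131) (nat_lit 3) (nat_lit 291) (nat_lit 192) (nat_lit 297)) (PT.lf (nat_lit 10032) (nat_lit 6) (nat_lit 132) (nat_lit 3) (nat_lit 292) (nat_lit 192) (nat_lit 296)))) (PT.nd (nat_lit 156) (PT.nd (nat_lit 78) (PT.lf (nat_lit 10108) (nat_lit 6) (nat_lit 133) (nat_lit 3) (nat_lit 293) (nat_lit 192) (nat_lit 295)) (PT.lf (nat_lit 10184) (nat_lit 3) (nat_lit 134) (nat_lit 1) (nat_lit 294) (nat_lit 192) (nat_lit 294))) (PT.nd (nat_lit 78) (PT.lf (nat_lit 10108) (nat_lit 6) (nat_lit 133) (nat_lit 1) (nat_lit 295) (nat_lit 192) (nat_lit 293)) (PT.lf (nat_lit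 10032) (nat_lit 6) (nat_lit 132) (nat_lit 1) (nat_lit 296) (nat_lit 192) (nat_lit 292))))) (PT.nd (nat_lit 80808) (PT.nd (nat_lit 80652) (PT.nd (nat_lit 78) (PT.lf (nat_lit 9956) (nat_lit 6) (nat_lit 131) (nat_lit 1) (nat_lit 297) (nat_lit 192) (nat_lit 291)) (PT.lf (nat_lit 9880) (nat_lit 6) (nat_lit 130) (nat_lit 1) (nat_lit 298) (nat_lit 192) (nat_lit 290))) (PT.nd (nat_lit 78) (PT.lf (nat_lit 10260) (nat_lit 6) (nat_lit 135) (nat_lit 3) (nat_lit 290) (nat_lit 193) (nat_lit 297)) (PT.lf (nat_lit 10336) (nat_lit 6) (nat_lit 136) (nat_lit 3) (nat_lit 291) (nat_lit 193) (nat_lit 296)))) (PT.nd (nat_lit 156) (PT.nd (nat_lit 78) (PT.lf (nat_lit 10412) (nat_lit 6) (nat_lit 137) (nat_lit 3) (nat_lit 292) (nat_lit 193) (nat_lit 295)) (PT.lf (nat_lit 10488) (nat_lit 6) (nat_lit 138) (nat_lit 3) (nat_lit 293) (nat_lit 193) (nat_lit 294))) (PT.nd (nat_lit 78) (PT.lf (nat_lit 10488) (nat_lit 6) (nat_lit 138) (nat_lit 1) (nat_lit 294) (nat_lit 193) (nat_lit 293))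 (PT.nd (nat_lit 78) (PT.lf (nat_lit 10412) (nat_lit 6) (nat_lit 137) (nat_lit 1) (nat_lit 295) (nat_lit 193) (nat_lit 292)) (PT.lf (nat_lit 10336) (nat_lit 6) (nat_lit 136) (nat_lit 1) (nat_lit 296) (nat_lit 193) (nat_lit 291))))))) (PT.nd (nat_lit 81198) (PT.nd (nat_lit 80808) (PT.nd (nat_lit 80652) (PT.nd (nat_lit 80574) (PT.lf (nat_lit 10260) (nat_lit 6) (nat_lit 135) (nat_lit 1) (nat_lit 297) (nat_lit 193) (nat_lit 290)) (PT.lf (nat_lit 10564) (nat_lit 6) (nat_lit 139) (nat_lit 3) (nat_lit 289) (nat_lit 194) (nat_lit 297))) (PT.nd (nat_lit 78) (PT.lf (nat_lit 10640) (nat_lit 6) (nat_lit 140) (nat_lit 3) (nat_lit 290) (nat_lit 194) (nat_lit 296)) (PT.lf (nat_lit 10716) (nat_lit 6) (nat_lit 141) (nat_lit 3) (nat_lit 291) (nat_lit 194) (nat_lit 295)))) (PT.nd (nat_lit 156) (PT.nd (nat_lit 78) (PT.lf (nat_lit 10792) (nat_lit 6) (nat_lit 142) (nat_lit 3) (nat_lit 292) (nat_lit 194) (nat_lit 294)) (PT.lf (nat_lit 10868) (nat_lit 3) (nat_lit 143) (nat_lit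 1) (nat_lit 293) (nat_lit 194) (nat_lit 293))) (PT.nd (nat_lit 78) (PT.lf (nat_lit 10792) (nat_lit 6) (nat_lit 142) (nat_lit 1) (nat_lit 294) (nat_lit 194) (nat_lit 292)) (PT.nd (nat_lit 78) (PT.lf (nat_lit 10716) (nat_lit 6) (nat_lit 141) (nat_lit 1) (nat_lit 295) (nat_lit 194) (nat_lit 291)) (PT.lf (nat_lit 10640) (nat_lit 6) (nat_lit 140) (nat_lit 1) (nat_lit 296) (nat_lit 194) (nat_lit 290)))))) (PT.nd (nat_lit 80730) (PT.nd (nat_lit 80574) (PT.nd (nat_lit 80496) (PT.lf (nat_lit 10564) (nat_lit 6) (nat_lit 139) (nat_lit 1) (nat_lit 297) (nat_lit 194) (nat_lit 289)) (PT.lf (nat_lit 10944) (nat_lit 6) (nat_lit 144) (nat_lit 3) (nat_lit 288) (nat_lit 195) (nat_lit 297))) (PT.nd (nat_lit 78) (PT.lf (nat_lit 11020) (nat_lit 6) (nat_lit 145) (nat_lit 3) (nat_lit 289) (nat_lit 195) (nat_lit 296)) (PT.lf (nat_lit 11096) (nat_lit 6) (nat_lit 146) (nat_lit 3) (nat_lit 290) (nat_lit 195) (nat_lit 295)))) (PT.nd (nat_lit 156) (PT.nd (nat_lit 78) (PT.lf (nat_lit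 11172) (nat_lit 6) (nat_lit 147) (nat_lit 3) (nat_lit 291) (nat_lit 195) (nat_lit 294)) (PT.lf (nat_lit 11248) (nat_lit 6) (nat_lit 148) (nat_lit 3) (nat_lit 292) (nat_lit 195) (nat_lit 293))) (PT.nd (nat_lit 78) (PT.lf (nat_lit 11248) (nat_lit 6) (nat_lit 148) (nat_lit 1) (nat_lit 293) (nat_lit 195) (nat_lit 292)) (PT.nd (nat_lit 78) (PT.lf (nat_lit 11172) (nat_lit 6) (nat_lit 147) (nat_lit 1) (nat_lit 294) (nat_lit 195) (nat_lit 291)) (PT.lf (nat_lit 11096) (nat_lit 6) (nat_lit 146) (nat_lit 1) (nat_lit 295) (nat_lit 195) (nat_lit 290))))))))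
noncomputable def pc7 : PT := (PT.nd (nat_lit 162162) (PT.nd (nat_lit 81042) (PT.nd (nat_lit 80730) (PT.nd (nat_lit 80574) (PT.nd (nat_lit 78) (PT.lf (nat_lit 11020) (nat_lit 6) (nat_lit 145) (nat_lit 1) (nat_lit 296) (nat_lit 195) (nat_lit 289)) (PT.lf (nat_lit 10944) (nat_lit 6) (nat_lit 144) (nat_lit 1) (nat_lit 297) (nat_lit 195) (nat_lit 288))) (PT.nd (nat_lit 78) (PT.lf (nat_lit 11324) (nat_lit 6) (nat_lit 149) (nat_lit 3) (nat_lit 288) (nat_lit 196) (nat_lit 296)) (PT.lf (nat_lit 11400) (nat_lit 6) (nat_lit 150) (nat_lit 3) (nat_lit 289) (nat_lit 196) (nat_lit 295)))) (PT.nd (nat_lit 156) (PT.nd (nat_lit 78) (PT.lf (nat_lit 11476) (nat_lit 6) (nat_lit 151) (nat_lit 3) (nat_lit 290) (nat_lit 196) (nat_lit 294)) (PT.lf (nat_lit 11552) (nat_lit 6) (nat_lit 152) (nat_lit 3) (nat_lit 291) (nat_lit 196) (nat_lit 293))) (PT.nd (nat_lit 78) (PT.lf (nat_lit 11628) (nat_lit 3) (nat_lit 153) (nat_lit 1) (nat_lit 292) (nat_lit 196) (nat_lit 292)) (PT.lf (nat_lit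 11552) (nat_lit 6) (nat_lit 152) (nat_lit 1) (nat_lit 293) (nat_lit 196) (nat_lit 291))))) (PT.nd (nat_lit 80730) (PT.nd (nat_lit 156) (PT.nd (nat_lit 78) (PT.lf (nat_lit 11476) (nat_lit 6) (nat_lit 151) (nat_lit 1) (nat_lit 294) (nat_lit 196) (nat_lit 290)) (PT.lf (nat_lit 11400) (nat_lit 6) (nat_lit 150) (nat_lit 1) (nat_lit 295) (nat_lit 196) (nat_lit 289))) (PT.nd (nat_lit 80496) (PT.lf (nat_lit 11324) (nat_lit 6) (nat_lit 149) (nat_lit 1) (nat_lit 296) (nat_lit 196) (nat_lit 288)) (PT.lf (nat_lit 11704) (nat_lit 6) (nat_lit 154) (nat_lit 3) (nat_lit 287) (nat_lit 197) (nat_lit 296)))) (PT.nd (nat_lit 156) (PT.nd (nat_lit 78) (PT.lf (nat_lit 11780) (nat_lit 6) (nat_lit 155) (nat_lit 3) (nat_lit 288) (nat_lit 197) (nat_lit 295)) (PT.lf (nat_lit 11856) (nat_lit 6) (nat_lit 156) (nat_lit 3) (nat_lit 289) (nat_lit 197) (nat_lit 294))) (PT.nd (nat_lit 78) (PT.lf (nat_lit 11932) (nat_lit 6) (nat_lit 157) (nat_lit 3) (nat_lit 290) (nat_lit 197) (nat_lit 293))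 (PT.nd (nat_lit 78) (PT.lf (nat_lit 12008) (nat_lit 6) (nat_lit 158) (nat_lit 3) (nat_lit 291) (nat_lit 197) (nat_lit 292)) (PT.lf (nat_lit 12008) (nat_lit 6) (nat_lit 158) (nat_lit 1) (nat_lit 292) (nat_lit 197) (nat_lit 291))))))) (PT.nd (nat_lit 81120) (PT.nd (nat_lit 80730) (PT.nd (nat_lit 156) (PT.nd (nat_lit 78) (PT.lf (nat_lit 11932) (nat_lit 6) (nat_lit 157) (nat_lit 1) (nat_lit 293) (nat_lit 197) (nat_lit 290)) (PT.lf (nat_lit 11856) (nat_lit 6) (nat_lit 156) (nat_lit 1) (nat_lit 294) (nat_lit 197) (nat_lit 289))) (PT.nd (nat_lit 78) (PT.lf (nat_lit 11780) (nat_lit 6) (nat_lit 155) (nat_lit 1) (nat_lit 295) (nat_lit 197) (nat_lit 288)) (PT.lf (nat_lit 11704) (nat_lit 6) (nat_lit 154) (nat_lit 1) (nat_lit 296) (nat_lit 197) (nat_lit 287)))) (PT.nd (nat_lit 156) (PT.nd (nat_lit 78) (PT.lf (nat_lit 12084) (nat_lit 6) (nat_lit 159) (nat_lit 3) (nat_lit 287) (nat_lit 198) (nat_lit 295)) (PT.lf (nat_lit 12160) (nat_lit 6) (nat_lit 160) (nat_lit 3) (nat_lit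 288) (nat_lit 198) (nat_lit 294))) (PT.nd (nat_lit 78) (PT.lf (nat_lit 12236) (nat_lit 6) (nat_lit 161) (nat_lit 3) (nat_lit 289) (nat_lit 198) (nat_lit 293)) (PT.nd (nat_lit 78) (PT.lf (nat_lit 12312) (nat_lit 6) (nat_lit 162) (nat_lit 3) (nat_lit 290) (nat_lit 198) (nat_lit 292)) (PT.lf (nat_lit 12388) (nat_lit 3) (nat_lit 163) (nat_lit 1) (nat_lit 291) (nat_lit 198) (nat_lit 291)))))) (PT.nd (nat_lit 80730) (PT.nd (nat_lit 156) (PT.nd (nat_lit 78) (PT.lf (nat_lit 12312) (nat_lit 6) (nat_lit 162) (nat_lit 1) (nat_lit 292) (nat_lit 198) (nat_lit 290)) (PT.lf (nat_lit 12236) (nat_lit 6) (nat_lit 161) (nat_lit 1) (nat_lit 293) (nat_lit 198) (nat_lit 289))) (PT.nd (nat_lit 78) (PT.lf (nat_lit 12160) (nat_lit 6) (nat_lit 160) (nat_lit 1) (nat_lit 294) (nat_lit 198) (nat_lit 288)) (PT.lf (nat_lit 12084) (nat_lit 6) (nat_lit 159) (nat_lit 1) (nat_lit 295) (nat_lit 198) (nat_lit 287)))) (PT.nd (nat_lit 156) (PT.nd (nat_lit 78) (PT.lf (nat_lit 12464) (nat_lit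 6) (nat_lit 164) (nat_lit 3) (nat_lit 286) (nat_lit 199) (nat_lit 295)) (PT.lf (nat_lit 12540) (nat_lit 6) (nat_lit 165) (nat_lit 3) (nat_lit 287) (nat_lit 199) (nat_lit 294))) (PT.nd (nat_lit 78) (PT.lf (nat_lit 12616) (nat_lit 6) (nat_lit 166) (nat_lit 3) (nat_lit 288) (nat_lit 199) (nat_lit 293)) (PT.nd (nat_lit 78) (PT.lf (nat_lit 12692) (nat_lit 6) (nat_lit 167) (nat_lit 3) (nat_lit 289) (nat_lit 199) (nat_lit 292)) (PT.lf (nat_lit 12768) (nat_lit 6) (nat_lit 168) (nat_lit 3) (nat_lit 290) (nat_lit 199) (nat_lit 291))))))))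
noncomputable def pc8 : PT := (PT.nd (nat_lit 162006) (PT.nd (nat_lit 80964) (PT.nd (nat_lit 312) (PT.nd (nat_lit 156) (PT.nd (nat_lit 78) (PT.lf (nat_lit 12768) (nat_lit 6) (nat_lit 168) (nat_lit 1) (nat_lit 291) (nat_lit 199) (nat_lit 290)) (PT.lf (nat_lit 12692) (nat_lit 6) (nat_lit 167) (nat_lit 1) (nat_lit 292) (nat_lit 199) (nat_lit 289))) (PT.nd (nat_lit 78) (PT.lf (nat_lit 12616) (nat_lit 6) (nat_lit 166) (nat_lit 1) (nat_lit 293) (nat_lit 199) (nat_lit 288)) (PT.lf (nat_lit 12540) (nat_lit 6) (nat_lit 165) (nat_lit 1) (nat_lit 294) (nat_lit 199) (nat_lit 287)))) (PT.nd (nat_lit 80496) (PT.nd (nat_lit 80418) (PT.lf (nat_lit 12464) (nat_lit 6) (nat_lit 164) (nat_lit 1) (nat_lit 295) (nat_lit 199) (nat_lit 286)) (PT.lf (nat_lit 12844) (nat_lit 6) (nat_lit 169) (nat_lit 3) (nat_lit 285) (nat_lit 200) (nat_lit 295))) (PT.nd (nat_lit 78) (PT.lf (nat_lit 12920) (nat_lit 6) (nat_lit 170) (nat_lit 3) (nat_lit 286) (nat_lit 200) (nat_lit 294)) (PT.lf (nat_lit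 12996) (nat_lit 6) (nat_lit 171) (nat_lit 3) (nat_lit 287) (nat_lit 200) (nat_lit 293))))) (PT.nd (nat_lit 312) (PT.nd (nat_lit 156) (PT.nd (nat_lit 78) (PT.lf (nat_lit 13072) (nat_lit 6) (nat_lit 172) (nat_lit 3) (nat_lit 288) (nat_lit 200) (nat_lit 292)) (PT.lf (nat_lit 13148) (nat_lit 6) (nat_lit 173) (nat_lit 3) (nat_lit 289) (nat_lit 200) (nat_lit 291))) (PT.nd (nat_lit 78) (PT.lf (nat_lit 13224) (nat_lit 3) (nat_lit 174) (nat_lit 1) (nat_lit 290) (nat_lit 200) (nat_lit 290)) (PT.lf (nat_lit 13148) (nat_lit 6) (nat_lit 173) (nat_lit 1) (nat_lit 291) (nat_lit 200) (nat_lit 289)))) (PT.nd (nat_lit 156) (PT.nd (nat_lit 78) (PT.lf (nat_lit 13072) (nat_lit 6) (nat_lit 172) (nat_lit 1) (nat_lit 292) (nat_lit 200) (nat_lit 288)) (PT.lf (nat_lit 12996) (nat_lit 6) (nat_lit 171) (nat_lit 1) (nat_lit 293) (nat_lit 200) (nat_lit 287))) (PT.nd (nat_lit 78) (PT.lf (nat_lit 12920) (nat_lit 6) (nat_lit 170) (nat_lit 1) (nat_lit 294) (nat_lit 200) (nat_lit 286))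 (PT.nd (nat_lit 80418) (PT.lf (nat_lit 12844) (nat_lit 6) (nat_lit 169) (nat_lit 1) (nat_lit 295) (nat_lit 200) (nat_lit 285)) (PT.lf (nat_lit 13300) (nat_lit 6) (nat_lit 175) (nat_lit 3) (nat_lit 285) (nat_lit 201) (nat_lit 294))))))) (PT.nd (nat_lit 624) (PT.nd (nat_lit 312) (PT.nd (nat_lit 156) (PT.nd (nat_lit 78) (PT.lf (nat_lit 13376) (nat_lit 6) (nat_lit 176) (nat_lit 3) (nat_lit 286) (nat_lit 201) (nat_lit 293)) (PT.lf (nat_lit 13452) (nat_lit 6) (nat_lit 177) (nat_lit 3) (nat_lit 287) (nat_lit 201) (nat_lit 292))) (PT.nd (nat_lit 78) (PT.lf (nat_lit 13528) (nat_lit 6) (nat_lit 178) (nat_lit 3) (nat_lit 288) (nat_lit 201) (nat_lit 291)) (PT.lf (nat_lit 13604) (nat_lit 6) (nat_lit 179) (nat_lit 3) (nat_lit 289) (nat_lit 201) (nat_lit 290)))) (PT.nd (nat_lit 156) (PT.nd (nat_lit 78) (PT.lf (nat_lit 13604) (nat_lit 6) (nat_lit 179) (nat_lit 1) (nat_lit 290) (nat_lit 201) (nat_lit 289)) (PT.lf (nat_lit 13528) (nat_lit 6) (nat_lit 178) (nat_lit 1) (nat_lit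 291) (nat_lit 201) (nat_lit 288))) (PT.nd (nat_lit 78) (PT.lf (nat_lit 13452) (nat_lit 6) (nat_lit 177) (nat_lit 1) (nat_lit 292) (nat_lit 201) (nat_lit 287)) (PT.lf (nat_lit 13376) (nat_lit 6) (nat_lit 176) (nat_lit 1) (nat_lit 293) (nat_lit 201) (nat_lit 286))))) (PT.nd (nat_lit 80652) (PT.nd (nat_lit 80496) (PT.nd (nat_lit 80418) (PT.lf (nat_lit 13300) (nat_lit 6) (nat_lit 175) (nat_lit 1) (nat_lit 294) (nat_lit 201) (nat_lit 285)) (PT.lf (nat_lit 13680) (nat_lit 6) (nat_lit 180) (nat_lit 3) (nat_lit 284) (nat_lit 202) (nat_lit 294))) (PT.nd (nat_lit 78) (PT.lf (nat_lit 13756) (nat_lit 6) (nat_lit 181) (nat_lit 3) (nat_lit 285) (nat_lit 202) (nat_lit 293)) (PT.lf (nat_lit 13832) (nat_lit 6) (nat_lit 182) (nat_lit 3) (nat_lit 286) (nat_lit 202) (nat_lit 292)))) (PT.nd (nat_lit 156) (PT.nd (nat_lit 78) (PT.lf (nat_lit 13908) (nat_lit 6) (nat_lit 183) (nat_lit 3) (nat_lit 287) (nat_lit 202) (nat_lit 291)) (PT.lf (nat_lit 13984) (nat_lit 6) (nat_lit 184)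 (nat_lit 3) (nat_lit 288) (nat_lit 202) (nat_lit 290))) (PT.nd (nat_lit 78) (PT.lf (nat_lit 14060) (nat_lit 3) (nat_lit 185) (nat_lit 1) (nat_lit 289) (nat_lit 202) (nat_lit 289)) (PT.nd (nat_lit 78) (PT.lf (nat_lit 13984) (nat_lit 6) (nat_lit 184) (nat_lit 1) (nat_lit 290) (nat_lit 202) (nat_lit 288)) (PT.lf (nat_lit 13908) (nat_lit 6) (nat_lit 183) (nat_lit 1) (nat_lit 291) (nat_lit 202) (nat_lit 287))))))))
noncomputable def pc9 : PT := (PT.nd (nat_lit 162006) (PT.nd (nat_lit 80964) (PT.nd (nat_lit 80652) (PT.nd (nat_lit 156) (PT.nd (nat_lit 78) (PT.lf (nat_lit 13832) (nat_lit 6) (nat_lit 182) (nat_lit 1) (nat_lit 292) (nat_lit 202) (nat_lit 286)) (PT.lf (nat_lit 13756) (nat_lit 6) (nat_lit 181) (nat_lit 1) (nat_lit 293) (nat_lit 202) (nat_lit 285))) (PT.nd (nat_lit 80418) (PT.lf (nat_lit 13680) (nat_lit 6) (nat_lit 180) (nat_lit 1) (nat_lit 294) (nat_lit 202) (nat_lit 284)) (PT.lf (nat_lit 14136) (nat_lit 6) (nat_lit 186) (nat_lit 3) (nat_lit 284)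 (nat_lit 203) (nat_lit 293)))) (PT.nd (nat_lit 156) (PT.nd (nat_lit 78) (PT.lf (nat_lit 14212) (nat_lit 6) (nat_lit 187) (nat_lit 3) (nat_lit 285) (nat_lit 203) (nat_lit 292)) (PT.lf (nat_lit 14288) (nat_lit 6) (nat_lit 188) (nat_lit 3) (nat_lit 286) (nat_lit 203) (nat_lit 291))) (PT.nd (nat_lit 78) (PT.lf (nat_lit 14364) (nat_lit 6) (nat_lit 189) (nat_lit 3) (nat_lit 287) (nat_lit 203) (nat_lit 290)) (PT.lf (nat_lit 14440) (nat_lit 6) (nat_lit 190) (nat_lit 3) (nat_lit 288) (nat_lit 203) (nat_lit 289))))) (PT.nd (nat_lit 312) (PT.nd (nat_lit 156) (PT.nd (nat_lit 78) (PT.lf (nat_lit 14440) (nat_lit 6) (nat_lit 190) (nat_lit 1) (nat_lit 289) (nat_lit 203) (nat_lit 288)) (PT.lf (nat_lit 14364) (nat_lit 6) (nat_lit 189) (nat_lit 1) (nat_lit 290) (nat_lit 203) (nat_lit 287))) (PT.nd (nat_lit 78) (PT.lf (nat_lit 14288) (nat_lit 6) (nat_lit 188) (nat_lit 1) (nat_lit 291) (nat_lit 203) (nat_lit 286)) (PT.lf (nat_lit 14212) (nat_lit 6) (nat_lit 187) (nat_lit 1)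 (nat_lit 292) (nat_lit 203) (nat_lit 285)))) (PT.nd (nat_lit 80496) (PT.nd (nat_lit 80418) (PT.lf (nat_lit 14136) (nat_lit 6) (nat_lit 186) (nat_lit 1) (nat_lit 293) (nat_lit 203) (nat_lit 284)) (PT.lf (nat_lit 14516) (nat_lit 6) (nat_lit 191) (nat_lit 3) (nat_lit 283) (nat_lit 204) (nat_lit 293))) (PT.nd (nat_lit 78) (PT.lf (nat_lit 14592) (nat_lit 6) (nat_lit 192) (nat_lit 3) (nat_lit 284) (nat_lit 204) (nat_lit 292)) (PT.nd (nat_lit 78) (PT.lf (nat_lit 14668) (nat_lit 6) (nat_lit 193) (nat_lit 3) (nat_lit 285) (nat_lit 204) (nat_lit 291)) (PT.lf (nat_lit 14744) (nat_lit 6) (nat_lit 194) (nat_lit 3) (nat_lit 286) (nat_lit 204) (nat_lit 290))))))) (PT.nd (nat_lit 80964) (PT.nd (nat_lit 312) (PT.nd (nat_lit 156) (PT.nd (nat_lit 78) (PT.lf (nat_lit 14820) (nat_lit 6) (nat_lit 195) (nat_lit 3) (nat_lit 287) (nat_lit 204) (nat_lit 289)) (PT.lf (nat_lit 14896) (nat_lit 3) (nat_lit 196) (nat_lit 1) (nat_lit 288) (nat_lit 204) (nat_lit 288))) (PT.nd (nat_lit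 78) (PT.lf (nat_lit 14820) (nat_lit 6) (nat_lit 195) (nat_lit 1) (nat_lit 289) (nat_lit 204) (nat_lit 287)) (PT.lf (nat_lit 14744) (nat_lit 6) (nat_lit 194) (nat_lit 1) (nat_lit 290) (nat_lit 204) (nat_lit 286)))) (PT.nd (nat_lit 156) (PT.nd (nat_lit 78) (PT.lf (nat_lit 14668) (nat_lit 6) (nat_lit 193) (nat_lit 1) (nat_lit 291) (nat_lit 204) (nat_lit 285)) (PT.lf (nat_lit 14592) (nat_lit 6) (nat_lit 192) (nat_lit 1) (nat_lit 292) (nat_lit 204) (nat_lit 284))) (PT.nd (nat_lit 80340) (PT.lf (nat_lit 14516) (nat_lit 6) (nat_lit 191) (nat_lit 1) (nat_lit 293) (nat_lit 204) (nat_lit 283)) (PT.nd (nat_lit 78) (PT.lf (nat_lit 14972) (nat_lit 6) (nat_lit 197) (nat_lit 3) (nat_lit 282) (nat_lit 205) (nat_lit 293)) (PT.lf (nat_lit 15048) (nat_lit 6) (nat_lit 198) (nat_lit 3) (nat_lit 283) (nat_lit 205) (nat_lit 292)))))) (PT.nd (nat_lit 312) (PT.nd (nat_lit 156) (PT.nd (nat_lit 78) (PT.lf (nat_lit 15124) (nat_lit 6) (nat_lit 199) (nat_lit 3) (nat_lit 284) (nat_lit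 205) (nat_lit 291)) (PT.lf (nat_lit 15200) (nat_lit 6) (nat_lit 200) (nat_lit 3) (nat_lit 285) (nat_lit 205) (nat_lit 290))) (PT.nd (nat_lit 78) (PT.lf (nat_lit 15276) (nat_lit 6) (nat_lit 201) (nat_lit 3) (nat_lit 286) (nat_lit 205) (nat_lit 289)) (PT.lf (nat_lit 15352) (nat_lit 6) (nat_lit 202) (nat_lit 3) (nat_lit 287) (nat_lit 205) (nat_lit 288)))) (PT.nd (nat_lit 156) (PT.nd (nat_lit 78) (PT.lf (nat_lit 15352) (nat_lit 6) (nat_lit 202) (nat_lit 1) (nat_lit 288) (nat_lit 205) (nat_lit 287)) (PT.lf (nat_lit 15276) (nat_lit 6) (nat_lit 201) (nat_lit 1) (nat_lit 289) (nat_lit 205) (nat_lit 286))) (PT.nd (nat_lit 78) (PT.lf (nat_lit 15200) (nat_lit 6) (nat_lit 200) (nat_lit 1) (nat_lit 290) (nat_lit 205) (nat_lit 285)) (PT.nd (nat_lit 78) (PT.lf (nat_lit 15124) (nat_lit 6) (nat_lit 199) (nat_lit 1) (nat_lit 291) (nat_lit 205) (nat_lit 284)) (PT.lf (nat_lit 15048) (nat_lit 6) (nat_lit 198) (nat_lit 1) (nat_lit 292) (nat_lit 205) (nat_lit 283))))))))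
noncomputable def pc10 : PT := (PT.nd (nat_lit 161850) (PT.nd (nat_lit 80886) (PT.nd (nat_lit 80574) (PT.nd (nat_lit 80418) (PT.nd (nat_lit 80340) (PT.lf (nat_lit 14972) (nat_lit 6) (nat_lit 197) (nat_lit 1) (nat_lit 293) (nat_lit 205) (nat_lit 282)) (PT.lf (nat_lit 15428) (nat_lit 6) (nat_lit 203) (nat_lit 3) (nat_lit 282) (nat_lit 206) (nat_lit 292))) (PT.nd (nat_lit 78) (PT.lf (nat_lit 15504) (nat_lit 6) (nat_lit 204) (nat_lit 3) (nat_lit 283) (nat_lit 206) (nat_lit 291)) (PT.lf (nat_lit 15580) (nat_lit 6) (nat_lit 205) (nat_lit 3) (nat_lit 284) (nat_lit 206) (nat_lit 290)))) (PT.nd (nat_lit 156) (PT.nd (nat_lit 78) (PT.lf (nat_lit 15656) (nat_lit 6) (nat_lit 206) (nat_lit 3) (nat_lit 285) (nat_lit 206) (nat_lit 289)) (PT.lf (nat_lit 15732) (nat_lit 6) (nat_lit 207) (nat_lit 3) (nat_lit 286) (nat_lit 206) (nat_lit 288))) (PT.nd (nat_lit 78) (PT.lf (nat_lit 15808) (nat_lit 3) (nat_lit 208) (nat_lit 1) (nat_lit 287) (nat_lit 206) (nat_lit 287)) (PT.lf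 (nat_lit 15732) (nat_lit 6) (nat_lit 207) (nat_lit 1) (nat_lit 288) (nat_lit 206) (nat_lit 286))))) (PT.nd (nat_lit 80574) (PT.nd (nat_lit 156) (PT.nd (nat_lit 78) (PT.lf (nat_lit 15656) (nat_lit 6) (nat_lit 206) (nat_lit 1) (nat_lit 289) (nat_lit 206) (nat_lit 285)) (PT.lf (nat_lit 15580) (nat_lit 6) (nat_lit 205) (nat_lit 1) (nat_lit 290) (nat_lit 206) (nat_lit 284))) (PT.nd (nat_lit 78) (PT.lf (nat_lit 15504) (nat_lit 6) (nat_lit 204) (nat_lit 1) (nat_lit 291) (nat_lit 206) (nat_lit 283)) (PT.lf (nat_lit 15428) (nat_lit 6) (nat_lit 203) (nat_lit 1) (nat_lit 292) (nat_lit 206) (nat_lit 282)))) (PT.nd (nat_lit 156) (PT.nd (nat_lit 78) (PT.lf (nat_lit 15884) (nat_lit 6) (nat_lit 209) (nat_lit 3) (nat_lit 281) (nat_lit 207) (nat_lit 292)) (PT.lf (nat_lit 15960) (nat_lit 6) (nat_lit 210) (nat_lit 3) (nat_lit 282) (nat_lit 207) (nat_lit 291))) (PT.nd (nat_lit 78) (PT.lf (nat_lit 16036) (nat_lit 6) (nat_lit 211) (nat_lit 3) (nat_lit 283) (nat_lit 207) (nat_lit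 290)) (PT.nd (nat_lit 78) (PT.lf (nat_lit 16112) (nat_lit 6) (nat_lit 212) (nat_lit 3) (nat_lit 284) (nat_lit 207) (nat_lit 289)) (PT.lf (nat_lit 16188) (nat_lit 6) (nat_lit 213) (nat_lit 3) (nat_lit 285) (nat_lit 207) (nat_lit 288))))))) (PT.nd (nat_lit 80886) (PT.nd (nat_lit 312) (PT.nd (nat_lit 156) (PT.nd (nat_lit 78) (PT.lf (nat_lit 16264) (nat_lit 6) (nat_lit 214) (nat_lit 3) (nat_lit 286) (nat_lit 207) (nat_lit 287)) (PT.lf (nat_lit 16264) (nat_lit 6) (nat_lit 214) (nat_lit 1) (nat_lit 287) (nat_lit 207) (nat_lit 286))) (PT.nd (nat_lit 78) (PT.lf (nat_lit 16188) (nat_lit 6) (nat_lit 213) (nat_lit 1) (nat_lit 288) (nat_lit 207) (nat_lit 285)) (PT.lf (nat_lit 16112) (nat_lit 6) (nat_lit 212) (nat_lit 1) (nat_lit 289) (nat_lit 207) (nat_lit 284)))) (PT.nd (nat_lit 156) (PT.nd (nat_lit 78) (PT.lf (nat_lit 16036) (nat_lit 6) (nat_lit 211) (nat_lit 1) (nat_lit 290) (nat_lit 207) (nat_lit 283)) (PT.lf (nat_lit 15960) (nat_lit 6) (nat_lit 210) (nat_lit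 1) (nat_lit 291) (nat_lit 207) (nat_lit 282))) (PT.nd (nat_lit 80262) (PT.lf (nat_lit 15884) (nat_lit 6) (nat_lit 209) (nat_lit 1) (nat_lit 292) (nat_lit 207) (nat_lit 281)) (PT.nd (nat_lit 78) (PT.lf (nat_lit 16340) (nat_lit 6) (nat_lit 215) (nat_lit 3) (nat_lit 280) (nat_lit 208) (nat_lit 292)) (PT.lf (nat_lit 16416) (nat_lit 6) (nat_lit 216) (nat_lit 3) (nat_lit 281) (nat_lit 208) (nat_lit 291)))))) (PT.nd (nat_lit 312) (PT.nd (nat_lit 156) (PT.nd (nat_lit 78) (PT.lf (nat_lit 16492) (nat_lit 6) (nat_lit 217) (nat_lit 3) (nat_lit 282) (nat_lit 208) (nat_lit 290)) (PT.lf (nat_lit 16568) (nat_lit 6) (nat_lit 218) (nat_lit 3) (nat_lit 283) (nat_lit 208) (nat_lit 289))) (PT.nd (nat_lit 78) (PT.lf (nat_lit 16644) (nat_lit 6) (nat_lit 219) (nat_lit 3) (nat_lit 284) (nat_lit 208) (nat_lit 288)) (PT.lf (nat_lit 16720) (nat_lit 6) (nat_lit 220) (nat_lit 3) (nat_lit 285) (nat_lit 208) (nat_lit 287)))) (PT.nd (nat_lit 156) (PT.nd (nat_lit 78) (PT.lf (nat_lit 16796)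 (nat_lit 3) (nat_lit 221) (nat_lit 1) (nat_lit 286) (nat_lit 208) (nat_lit 286)) (PT.lf (nat_lit 16720) (nat_lit 6) (nat_lit 220) (nat_lit 1) (nat_lit 287) (nat_lit 208) (nat_lit 285))) (PT.nd (nat_lit 78) (PT.lf (nat_lit 16644) (nat_lit 6) (nat_lit 219) (nat_lit 1) (nat_lit 288) (nat_lit 208) (nat_lit 284)) (PT.nd (nat_lit 78) (PT.lf (nat_lit 16568) (nat_lit 6) (nat_lit 218) (nat_lit 1) (nat_lit 289) (nat_lit 208) (nat_lit 283)) (PT.lf (nat_lit 16492) (nat_lit 6) (nat_lit 217) (nat_lit 1) (nat_lit 290) (nat_lit 208) (nat_lit 282))))))))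
noncomputable def pc11 : PT := (PT.nd (nat_lit 161694) (PT.nd (nat_lit 80808) (PT.nd (nat_lit 80496) (PT.nd (nat_lit 80340) (PT.nd (nat_lit 78) (PT.lf (nat_lit 16416) (nat_lit 6) (nat_lit 216) (nat_lit 1) (nat_lit 291) (nat_lit 208) (nat_lit 281)) (PT.lf (nat_lit 16340) (nat_lit 6) (nat_lit 215) (nat_lit 1) (nat_lit 292) (nat_lit 208) (nat_lit 280))) (PT.nd (nat_lit 78) (PT.lf (nat_lit 16872) (nat_lit 6) (nat_lit 222) (nat_lit 3) (nat_lit 280) (nat_lit 209) (nat_lit 291)) (PT.lf (nat_lit 16948) (nat_lit 6) (nat_lit 223) (nat_lit 3) (nat_lit 281) (nat_lit 209) (nat_lit 290)))) (PT.nd (nat_lit 156) (PT.nd (nat_lit 78) (PT.lf (nat_lit 17024) (nat_lit 6) (nat_lit 224) (nat_lit 3) (nat_lit 282) (nat_lit 209) (nat_lit 289)) (PT.lf (nat_lit 17100) (nat_lit 6) (nat_lit 225) (nat_lit 3) (nat_lit 283) (nat_lit 209) (nat_lit 288))) (PT.nd (nat_lit 78) (PT.lf (nat_lit 17176) (nat_lit 6) (nat_lit 226) (nat_lit 3) (nat_lit 284) (nat_lit 209) (nat_lit 287)) (PT.lf (nat_lit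 17252) (nat_lit 6) (nat_lit 227) (nat_lit 3) (nat_lit 285) (nat_lit 209) (nat_lit 286))))) (PT.nd (nat_lit 312) (PT.nd (nat_lit 156) (PT.nd (nat_lit 78) (PT.lf (nat_lit 17252) (nat_lit 6) (nat_lit 227) (nat_lit 1) (nat_lit 286) (nat_lit 209) (nat_lit 285)) (PT.lf (nat_lit 17176) (nat_lit 6) (nat_lit 226) (nat_lit 1) (nat_lit 287) (nat_lit 209) (nat_lit 284))) (PT.nd (nat_lit 78) (PT.lf (nat_lit 17100) (nat_lit 6) (nat_lit 225) (nat_lit 1) (nat_lit 288) (nat_lit 209) (nat_lit 283)) (PT.lf (nat_lit 17024) (nat_lit 6) (nat_lit 224) (nat_lit 1) (nat_lit 289) (nat_lit 209) (nat_lit 282)))) (PT.nd (nat_lit 80340) (PT.nd (nat_lit 78) (PT.lf (nat_lit 16948) (nat_lit 6) (nat_lit 223) (nat_lit 1) (nat_lit 290) (nat_lit 209) (nat_lit 281)) (PT.lf (nat_lit 16872) (nat_lit 6) (nat_lit 222) (nat_lit 1) (nat_lit 291) (nat_lit 209) (nat_lit 280))) (PT.nd (nat_lit 78) (PT.lf (nat_lit 17328) (nat_lit 6) (nat_lit 228) (nat_lit 3) (nat_lit 279) (nat_lit 210) (nat_lit 291))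 (PT.nd (nat_lit 78) (PT.lf (nat_lit 17404) (nat_lit 6) (nat_lit 229) (nat_lit 3) (nat_lit 280) (nat_lit 210) (nat_lit 290)) (PT.lf (nat_lit 17480) (nat_lit 6) (nat_lit 230) (nat_lit 3) (nat_lit 281) (nat_lit 210) (nat_lit 289))))))) (PT.nd (nat_lit 702) (PT.nd (nat_lit 312) (PT.nd (nat_lit 156) (PT.nd (nat_lit 78) (PT.lf (nat_lit 17556) (nat_lit 6) (nat_lit 231) (nat_lit 3) (nat_lit 282) (nat_lit 210) (nat_lit 288)) (PT.lf (nat_lit 17632) (nat_lit 6) (nat_lit 232) (nat_lit 3) (nat_lit 283) (nat_lit 210) (nat_lit 287))) (PT.nd (nat_lit 78) (PT.lf (nat_lit 17708) (nat_lit 6) (nat_lit 233) (nat_lit 3) (nat_lit 284) (nat_lit 210) (nat_lit 286)) (PT.lf (nat_lit 17784) (nat_lit 3) (nat_lit 234) (nat_lit 1) (nat_lit 285) (nat_lit 210) (nat_lit 285)))) (PT.nd (nat_lit 156) (PT.nd (nat_lit 78) (PT.lf (nat_lit 17708) (nat_lit 6) (nat_lit 233) (nat_lit 1) (nat_lit 286) (nat_lit 210) (nat_lit 284)) (PT.lf (nat_lit 17632) (nat_lit 6) (nat_lit 232) (nat_lit 1) (nat_lit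 287) (nat_lit 210) (nat_lit 283))) (PT.nd (nat_lit 78) (PT.lf (nat_lit 17556) (nat_lit 6) (nat_lit 231) (nat_lit 1) (nat_lit 288) (nat_lit 210) (nat_lit 282)) (PT.nd (nat_lit 78) (PT.lf (nat_lit 17480) (nat_lit 6) (nat_lit 230) (nat_lit 1) (nat_lit 289) (nat_lit 210) (nat_lit 281)) (PT.lf (nat_lit 17404) (nat_lit 6) (nat_lit 229) (nat_lit 1) (nat_lit 290) (nat_lit 210) (nat_lit 280)))))) (PT.nd (nat_lit 80418) (PT.nd (nat_lit 80262) (PT.nd (nat_lit 80184) (PT.lf (nat_lit 17328) (nat_lit 6) (nat_lit 228) (nat_lit 1) (nat_lit 291) (nat_lit 210) (nat_lit 279)) (PT.lf (nat_lit 17860) (nat_lit 6) (nat_lit 235) (nat_lit 3) (nat_lit 278) (nat_lit 211) (nat_lit 291))) (PT.nd (nat_lit 78) (PT.lf (nat_lit 17936) (nat_lit 6) (nat_lit 236) (nat_lit 3) (nat_lit 279) (nat_lit 211) (nat_lit 290)) (PT.lf (nat_lit 18012) (nat_lit 6) (nat_lit 237) (nat_lit 3) (nat_lit 280) (nat_lit 211) (nat_lit 289)))) (PT.nd (nat_lit 156) (PT.nd (nat_lit 78) (PT.lf (nat_lit 18088) (nat_lit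 6) (nat_lit 238) (nat_lit 3) (nat_lit 281) (nat_lit 211) (nat_lit 288)) (PT.lf (nat_lit 18164) (nat_lit 6) (nat_lit 239) (nat_lit 3) (nat_lit 282) (nat_lit 211) (nat_lit 287))) (PT.nd (nat_lit 78) (PT.lf (nat_lit 18240) (nat_lit 6) (nat_lit 240) (nat_lit 3) (nat_lit 283) (nat_lit 211) (nat_lit 286)) (PT.nd (nat_lit 78) (PT.lf (nat_lit 18316) (nat_lit 6) (nat_lit 241) (nat_lit 3) (nat_lit 284) (nat_lit 211) (nat_lit 285)) (PT.lf (nat_lit 18316) (nat_lit 6) (nat_lit 241) (nat_lit 1) (nat_lit 285) (nat_lit 211) (nat_lit 284))))))))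
noncomputable def pc12 : PT := (PT.nd (nat_lit 81432) (PT.nd (nat_lit 80730) (PT.nd (nat_lit 312) (PT.nd (nat_lit 156) (PT.nd (nat_lit 78) (PT.lf (nat_lit 18240) (nat_lit 6) (nat_lit 240) (nat_lit 1) (nat_lit 286) (nat_lit 211) (nat_lit 283)) (PT.lf (nat_lit 18164) (nat_lit 6) (nat_lit 239) (nat_lit 1) (nat_lit 287) (nat_lit 211) (nat_lit 282))) (PT.nd (nat_lit 78) (PT.lf (nat_lit 18088) (nat_lit 6) (nat_lit 238) (nat_lit 1) (nat_lit 288) (nat_lit 211) (nat_lit 281)) (PT.lf (nat_lit 18012) (nat_lit 6) (nat_lit 237) (nat_lit 1) (nat_lit 289) (nat_lit 211) (nat_lit 280)))) (PT.nd (nat_lit 80262) (PT.nd (nat_lit 78) (PT.lf (nat_lit 17936) (nat_lit 6) (nat_lit 236) (nat_lit 1) (nat_lit 290) (nat_lit 211) (nat_lit 279)) (PT.lf (nat_lit 17860) (nat_lit 6) (nat_lit 235) (nat_lit 1) (nat_lit 291) (nat_lit 211) (nat_lit 278))) (PT.nd (nat_lit 78) (PT.lf (nat_lit 18392) (nat_lit 6) (nat_lit 242) (nat_lit 3) (nat_lit 278) (nat_lit 212) (nat_lit 290)) (PT.lf (nat_lit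 18468) (nat_lit 6) (nat_lit 243) (nat_lit 3) (nat_lit 279) (nat_lit 212) (nat_lit 289))))) (PT.nd (nat_lit 312) (PT.nd (nat_lit 156) (PT.nd (nat_lit 78) (PT.lf (nat_lit 18544) (nat_lit 6) (nat_lit 244) (nat_lit 3) (nat_lit 280) (nat_lit 212) (nat_lit 288)) (PT.lf (nat_lit 18620) (nat_lit 6) (nat_lit 245) (nat_lit 3) (nat_lit 281) (nat_lit 212) (nat_lit 287))) (PT.nd (nat_lit 78) (PT.lf (nat_lit 18696) (nat_lit 6) (nat_lit 246) (nat_lit 3) (nat_lit 282) (nat_lit 212) (nat_lit 286)) (PT.lf (nat_lit 18772) (nat_lit 6) (nat_lit 247) (nat_lit 3) (nat_lit 283) (nat_lit 212) (nat_lit 285)))) (PT.nd (nat_lit 156) (PT.nd (nat_lit 78) (PT.lf (nat_lit 18848) (nat_lit 3) (nat_lit 248) (nat_lit 1) (nat_lit 284) (nat_lit 212) (nat_lit 284)) (PT.lf (nat_lit 18772) (nat_lit 6) (nat_lit 247) (nat_lit 1) (nat_lit 285) (nat_lit 212) (nat_lit 283))) (PT.nd (nat_lit 78) (PT.lf (nat_lit 18696) (nat_lit 6) (nat_lit 246) (nat_lit 1) (nat_lit 286) (nat_lit 212) (nat_lit 282))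 (PT.nd (nat_lit 78) (PT.lf (nat_lit 18620) (nat_lit 6) (nat_lit 245) (nat_lit 1) (nat_lit 287) (nat_lit 212) (nat_lit 281)) (PT.lf (nat_lit 18544) (nat_lit 6) (nat_lit 244) (nat_lit 1) (nat_lit 288) (nat_lit 212) (nat_lit 280))))))) (PT.nd (nat_lit 80808) (PT.nd (nat_lit 80418) (PT.nd (nat_lit 80262) (PT.nd (nat_lit 78) (PT.lf (nat_lit 18468) (nat_lit 6) (nat_lit 243) (nat_lit 1) (nat_lit 289) (nat_lit 212) (nat_lit 279)) (PT.lf (nat_lit 18392) (nat_lit 6) (nat_lit 242) (nat_lit 1) (nat_lit 290) (nat_lit 212) (nat_lit 278))) (PT.nd (nat_lit 78) (PT.lf (nat_lit 18924) (nat_lit 6) (nat_lit 249) (nat_lit 3) (nat_lit 277) (nat_lit 213) (nat_lit 290)) (PT.lf (nat_lit 19000) (nat_lit 6) (nat_lit 250) (nat_lit 3) (nat_lit 278) (nat_lit 213) (nat_lit 289)))) (PT.nd (nat_lit 156) (PT.nd (nat_lit 78) (PT.lf (nat_lit 19076) (nat_lit 6) (nat_lit 251) (nat_lit 3) (nat_lit 279) (nat_lit 213) (nat_lit 288)) (PT.lf (nat_lit 19152) (nat_lit 6) (nat_lit 252) (nat_lit 3)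 (nat_lit 280) (nat_lit 213) (nat_lit 287))) (PT.nd (nat_lit 78) (PT.lf (nat_lit 19228) (nat_lit 6) (nat_lit 253) (nat_lit 3) (nat_lit 281) (nat_lit 213) (nat_lit 286)) (PT.nd (nat_lit 78) (PT.lf (nat_lit 19304) (nat_lit 6) (nat_lit 254) (nat_lit 3) (nat_lit 282) (nat_lit 213) (nat_lit 285)) (PT.lf (nat_lit 19380) (nat_lit 6) (nat_lit 255) (nat_lit 3) (nat_lit 283) (nat_lit 213) (nat_lit 284)))))) (PT.nd (nat_lit 312) (PT.nd (nat_lit 156) (PT.nd (nat_lit 78) (PT.lf (nat_lit 19380) (nat_lit 6) (nat_lit 255) (nat_lit 1) (nat_lit 284) (nat_lit 213) (nat_lit 283)) (PT.lf (nat_lit 19304) (nat_lit 6) (nat_lit 254) (nat_lit 1) (nat_lit 285) (nat_lit 213) (nat_lit 282))) (PT.nd (nat_lit 78) (PT.lf (nat_lit 19228) (nat_lit 6) (nat_lit 253) (nat_lit 1) (nat_lit 286) (nat_lit 213) (nat_lit 281)) (PT.lf (nat_lit 19152) (nat_lit 6) (nat_lit 252) (nat_lit 1) (nat_lit 287) (nat_lit 213) (nat_lit 280)))) (PT.nd (nat_lit 156) (PT.nd (nat_lit 78) (PT.lf (nat_lit 19076) (nat_lit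 6) (nat_lit 251) (nat_lit 1) (nat_lit 288) (nat_lit 213) (nat_lit 279)) (PT.lf (nat_lit 19000) (nat_lit 6) (nat_lit 250) (nat_lit 1) (nat_lit 289) (nat_lit 213) (nat_lit 278))) (PT.nd (nat_lit 80106) (PT.lf (nat_lit 18924) (nat_lit 6) (nat_lit 249) (nat_lit 1) (nat_lit 290) (nat_lit 213) (nat_lit 277)) (PT.nd (nat_lit 78) (PT.lf (nat_lit 19456) (nat_lit 6) (nat_lit 256) (nat_lit 3) (nat_lit 276) (nat_lit 214) (nat_lit 290)) (PT.lf (nat_lit 19532) (nat_lit 6) (nat_lit 257) (nat_lit 3) (nat_lit 277) (nat_lit 214) (nat_lit 289))))))))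
noncomputable def pc13 : PT := (PT.nd (nat_lit 81276) (PT.nd (nat_lit 624) (PT.nd (nat_lit 312) (PT.nd (nat_lit 156) (PT.nd (nat_lit 78) (PT.lf (nat_lit 19608) (nat_lit 6) (nat_lit 258) (nat_lit 3) (nat_lit 278) (nat_lit 214) (nat_lit 288)) (PT.lf (nat_lit 19684) (nat_lit 6) (nat_lit 259) (nat_lit 3) (nat_lit 279) (nat_lit 214) (nat_lit 287))) (PT.nd (nat_lit 78) (PT.lf (nat_lit 19760) (nat_lit 6) (nat_lit 260) (nat_lit 3) (nat_lit 280) (nat_lit 214) (nat_lit 286)) (PT.lf (nat_lit 19836) (nat_lit 6) (nat_lit 261) (nat_lit 3) (nat_lit 281) (nat_lit 214) (nat_lit 285)))) (PT.nd (nat_lit 156) (PT.nd (nat_lit 78) (PT.lf (nat_lit 19912) (nat_lit 6) (nat_lit 262) (nat_lit 3) (nat_lit 282) (nat_lit 214) (nat_lit 284)) (PT.lf (nat_lit 19988) (nat_lit 3) (nat_lit 263) (nat_lit 1) (nat_lit 283) (nat_lit 214) (nat_lit 283))) (PT.nd (nat_lit 78) (PT.lf (nat_lit 19912) (nat_lit 6) (nat_lit 262) (nat_lit 1) (nat_lit 284) (nat_lit 214) (nat_lit 282)) (PT.lf (nat_lit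 19836) (nat_lit 6) (nat_lit 261) (nat_lit 1) (nat_lit 285) (nat_lit 214) (nat_lit 281))))) (PT.nd (nat_lit 312) (PT.nd (nat_lit 156) (PT.nd (nat_lit 78) (PT.lf (nat_lit 19760) (nat_lit 6) (nat_lit 260) (nat_lit 1) (nat_lit 286) (nat_lit 214) (nat_lit 280)) (PT.lf (nat_lit 19684) (nat_lit 6) (nat_lit 259) (nat_lit 1) (nat_lit 287) (nat_lit 214) (nat_lit 279))) (PT.nd (nat_lit 78) (PT.lf (nat_lit 19608) (nat_lit 6) (nat_lit 258) (nat_lit 1) (nat_lit 288) (nat_lit 214) (nat_lit 278)) (PT.lf (nat_lit 19532) (nat_lit 6) (nat_lit 257) (nat_lit 1) (nat_lit 289) (nat_lit 214) (nat_lit 277)))) (PT.nd (nat_lit 80106) (PT.nd (nat_lit 80028) (PT.lf (nat_lit 19456) (nat_lit 6) (nat_lit 256) (nat_lit 1) (nat_lit 290) (nat_lit 214) (nat_lit 276)) (PT.lf (nat_lit 20064) (nat_lit 6) (nat_lit 264) (nat_lit 3) (nat_lit 275) (nat_lit 215) (nat_lit 290))) (PT.nd (nat_lit 78) (PT.lf (nat_lit 20140) (nat_lit 6) (nat_lit 265) (nat_lit 3) (nat_lit 276) (nat_lit 215) (nat_lit 289))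 (PT.nd (nat_lit 78) (PT.lf (nat_lit 20216) (nat_lit 6) (nat_lit 266) (nat_lit 3) (nat_lit 277) (nat_lit 215) (nat_lit 288)) (PT.lf (nat_lit 20292) (nat_lit 6) (nat_lit 267) (nat_lit 3) (nat_lit 278) (nat_lit 215) (nat_lit 287))))))) (PT.nd (nat_lit 702) (PT.nd (nat_lit 312) (PT.nd (nat_lit 156) (PT.nd (nat_lit 78) (PT.lf (nat_lit 20368) (nat_lit 6) (nat_lit 268) (nat_lit 3) (nat_lit 279) (nat_lit 215) (nat_lit 286)) (PT.lf (nat_lit 20444) (nat_lit 6) (nat_lit 269) (nat_lit 3) (nat_lit 280) (nat_lit 215) (nat_lit 285))) (PT.nd (nat_lit 78) (PT.lf (nat_lit 20520) (nat_lit 6) (nat_lit 270) (nat_lit 3) (nat_lit 281) (nat_lit 215) (nat_lit 284)) (PT.lf (nat_lit 20596) (nat_lit 6) (nat_lit 271) (nat_lit 3) (nat_lit 282) (nat_lit 215) (nat_lit 283)))) (PT.nd (nat_lit 156) (PT.nd (nat_lit 78) (PT.lf (nat_lit 20596) (nat_lit 6) (nat_lit 271) (nat_lit 1) (nat_lit 283) (nat_lit 215) (nat_lit 282)) (PT.lf (nat_lit 20520) (nat_lit 6) (nat_lit 270) (nat_lit 1) (nat_lit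 284) (nat_lit 215) (nat_lit 281))) (PT.nd (nat_lit 78) (PT.lf (nat_lit 20444) (nat_lit 6) (nat_lit 269) (nat_lit 1) (nat_lit 285) (nat_lit 215) (nat_lit 280)) (PT.nd (nat_lit 78) (PT.lf (nat_lit 20368) (nat_lit 6) (nat_lit 268) (nat_lit 1) (nat_lit 286) (nat_lit 215) (nat_lit 279)) (PT.lf (nat_lit 20292) (nat_lit 6) (nat_lit 267) (nat_lit 1) (nat_lit 287) (nat_lit 215) (nat_lit 278)))))) (PT.nd (nat_lit 80262) (PT.nd (nat_lit 156) (PT.nd (nat_lit 78) (PT.lf (nat_lit 20216) (nat_lit 6) (nat_lit 266) (nat_lit 1) (nat_lit 288) (nat_lit 215) (nat_lit 277)) (PT.lf (nat_lit 20140) (nat_lit 6) (nat_lit 265) (nat_lit 1) (nat_lit 289) (nat_lit 215) (nat_lit 276))) (PT.nd (nat_lit 80028) (PT.lf (nat_lit 20064) (nat_lit 6) (nat_lit 264) (nat_lit 1) (nat_lit 290) (nat_lit 215) (nat_lit 275)) (PT.lf (nat_lit 20672) (nat_lit 6) (nat_lit 272) (nat_lit 3) (nat_lit 275) (nat_lit 216) (nat_lit 289)))) (PT.nd (nat_lit 156) (PT.nd (nat_lit 78) (PT.lf (nat_lit 20748) (nat_lit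 6) (nat_lit 273) (nat_lit 3) (nat_lit 276) (nat_lit 216) (nat_lit 288)) (PT.lf (nat_lit 20824) (nat_lit 6) (nat_lit 274) (nat_lit 3) (nat_lit 277) (nat_lit 216) (nat_lit 287))) (PT.nd (nat_lit 78) (PT.lf (nat_lit 20900) (nat_lit 6) (nat_lit 275) (nat_lit 3) (nat_lit 278) (nat_lit 216) (nat_lit 286)) (PT.nd (nat_lit 78) (PT.lf (nat_lit 20976) (nat_lit 6) (nat_lit 276) (nat_lit 3) (nat_lit 279) (nat_lit 216) (nat_lit 285)) (PT.lf (nat_lit 21052) (nat_lit 6) (nat_lit 277) (nat_lit 3) (nat_lit 280) (nat_lit 216) (nat_lit 284))))))))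
noncomputable def pc14 : PT := (PT.nd (nat_lit 81276) (PT.nd (nat_lit 624) (PT.nd (nat_lit 312) (PT.nd (nat_lit 156) (PT.nd (nat_lit 78) (PT.lf (nat_lit 21128) (nat_lit 6) (nat_lit 278) (nat_lit 3) (nat_lit 281) (nat_lit 216) (nat_lit 283)) (PT.lf (nat_lit 21204) (nat_lit 3) (nat_lit 279) (nat_lit 1) (nat_lit 282) (nat_lit 216) (nat_lit 282))) (PT.nd (nat_lit 78) (PT.lf (nat_lit 21128) (nat_lit 6) (nat_lit 278) (nat_lit 1) (nat_lit 283) (nat_lit 216) (nat_lit 281)) (PT.lf (nat_lit 21052) (nat_lit 6) (nat_lit 277) (nat_lit 1) (nat_lit 284) (nat_lit 216) (nat_lit 280)))) (PT.nd (nat_lit 156) (PT.nd (nat_lit 78) (PT.lf (nat_lit 20976) (nat_lit 6) (nat_lit 276) (nat_lit 1) (nat_lit 285) (nat_lit 216) (nat_lit 279)) (PT.lf (nat_lit 20900) (nat_lit 6) (nat_lit 275) (nat_lit 1) (nat_lit 286) (nat_lit 216) (nat_lit 278))) (PT.nd (nat_lit 78) (PT.lf (nat_lit 20824) (nat_lit 6) (nat_lit 274) (nat_lit 1) (nat_lit 287) (nat_lit 216) (nat_lit 277)) (PT.lf (nat_lit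 20748) (nat_lit 6) (nat_lit 273) (nat_lit 1) (nat_lit 288) (nat_lit 216) (nat_lit 276))))) (PT.nd (nat_lit 80262) (PT.nd (nat_lit 80106) (PT.nd (nat_lit 80028) (PT.lf (nat_lit 20672) (nat_lit 6) (nat_lit 272) (nat_lit 1) (nat_lit 289) (nat_lit 216) (nat_lit 275)) (PT.lf (nat_lit 21280) (nat_lit 6) (nat_lit 280) (nat_lit 3) (nat_lit 274) (nat_lit 217) (nat_lit 289))) (PT.nd (nat_lit 78) (PT.lf (nat_lit 21356) (nat_lit 6) (nat_lit 281) (nat_lit 3) (nat_lit 275) (nat_lit 217) (nat_lit 288)) (PT.lf (nat_lit 21432) (nat_lit 6) (nat_lit 282) (nat_lit 3) (nat_lit 276) (nat_lit 217) (nat_lit 287)))) (PT.nd (nat_lit 156) (PT.nd (nat_lit 78) (PT.lf (nat_lit 21508) (nat_lit 6) (nat_lit 283) (nat_lit 3) (nat_lit 277) (nat_lit 217) (nat_lit 286)) (PT.lf (nat_lit 21584) (nat_lit 6) (nat_lit 284) (nat_lit 3) (nat_lit 278) (nat_lit 217) (nat_lit 285))) (PT.nd (nat_lit 78) (PT.lf (nat_lit 21660) (nat_lit 6) (nat_lit 285) (nat_lit 3) (nat_lit 279) (nat_lit 217) (nat_lit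 284)) (PT.nd (nat_lit 78) (PT.lf (nat_lit 21736) (nat_lit 6) (nat_lit 286) (nat_lit 3) (nat_lit 280) (nat_lit 217) (nat_lit 283)) (PT.lf (nat_lit 21812) (nat_lit 6) (nat_lit 287) (nat_lit 3) (nat_lit 281) (nat_lit 217) (nat_lit 282))))))) (PT.nd (nat_lit 80574) (PT.nd (nat_lit 312) (PT.nd (nat_lit 156) (PT.nd (nat_lit 78) (PT.lf (nat_lit 21812) (nat_lit 6) (nat_lit 287) (nat_lit 1) (nat_lit 282) (nat_lit 217) (nat_lit 281)) (PT.lf (nat_lit 21736) (nat_lit 6) (nat_lit 286) (nat_lit 1) (nat_lit 283) (nat_lit 217) (nat_lit 280))) (PT.nd (nat_lit 78) (PT.lf (nat_lit 21660) (nat_lit 6) (nat_lit 285) (nat_lit 1) (nat_lit 284) (nat_lit 217) (nat_lit 279)) (PT.lf (nat_lit 21584) (nat_lit 6) (nat_lit 284) (nat_lit 1) (nat_lit 285) (nat_lit 217) (nat_lit 278)))) (PT.nd (nat_lit 156) (PT.nd (nat_lit 78) (PT.lf (nat_lit 21508) (nat_lit 6) (nat_lit 283) (nat_lit 1) (nat_lit 286) (nat_lit 217) (nat_lit 277)) (PT.lf (nat_lit 21432) (nat_lit 6) (nat_lit 282) (nat_lit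 1) (nat_lit 287) (nat_lit 217) (nat_lit 276))) (PT.nd (nat_lit 78) (PT.lf (nat_lit 21356) (nat_lit 6) (nat_lit 281) (nat_lit 1) (nat_lit 288) (nat_lit 217) (nat_lit 275)) (PT.nd (nat_lit 79950) (PT.lf (nat_lit 21280) (nat_lit 6) (nat_lit 280) (nat_lit 1) (nat_lit 289) (nat_lit 217) (nat_lit 274)) (PT.lf (nat_lit 21888) (nat_lit 6) (nat_lit 288) (nat_lit 3) (nat_lit 273) (nat_lit 218) (nat_lit 289)))))) (PT.nd (nat_lit 312) (PT.nd (nat_lit 156) (PT.nd (nat_lit 78) (PT.lf (nat_lit 21964) (nat_lit 6) (nat_lit 289) (nat_lit 3) (nat_lit 274) (nat_lit 218) (nat_lit 288)) (PT.lf (nat_lit 22040) (nat_lit 6) (nat_lit 290) (nat_lit 3) (nat_lit 275) (nat_lit 218) (nat_lit 287))) (PT.nd (nat_lit 78) (PT.lf (nat_lit 22116) (nat_lit 6) (nat_lit 291) (nat_lit 3) (nat_lit 276) (nat_lit 218) (nat_lit 286)) (PT.lf (nat_lit 22192) (nat_lit 6) (nat_lit 292) (nat_lit 3) (nat_lit 277) (nat_lit 218) (nat_lit 285)))) (PT.nd (nat_lit 156) (PT.nd (nat_lit 78) (PT.lf (nat_lit 22268)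 (nat_lit 6) (nat_lit 293) (nat_lit 3) (nat_lit 278) (nat_lit 218) (nat_lit 284)) (PT.lf (nat_lit 22344) (nat_lit 6) (nat_lit 294) (nat_lit 3) (nat_lit 279) (nat_lit 218) (nat_lit 283))) (PT.nd (nat_lit 78) (PT.lf (nat_lit 22420) (nat_lit 6) (nat_lit 295) (nat_lit 3) (nat_lit 280) (nat_lit 218) (nat_lit 282)) (PT.nd (nat_lit 78) (PT.lf (nat_lit 22496) (nat_lit 3) (nat_lit 296) (nat_lit 1) (nat_lit 281) (nat_lit 218) (nat_lit 281)) (PT.lf (nat_lit 22420) (nat_lit 6) (nat_lit 295) (nat_lit 1) (nat_lit 282) (nat_lit 218) (nat_lit 280))))))))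
noncomputable def pc15 : PT := (PT.nd (nat_lit 81198) (PT.nd (nat_lit 80496) (PT.nd (nat_lit 312) (PT.nd (nat_lit 156) (PT.nd (nat_lit 78) (PT.lf (nat_lit 22344) (nat_lit 6) (nat_lit 294) (nat_lit 1) (nat_lit 283) (nat_lit 218) (nat_lit 279)) (PT.lf (nat_lit 22268) (nat_lit 6) (nat_lit 293) (nat_lit 1) (nat_lit 284) (nat_lit 218) (nat_lit 278))) (PT.nd (nat_lit 78) (PT.lf (nat_lit 22192) (nat_lit 6) (nat_lit 292) (nat_lit 1) (nat_lit 285) (nat_lit 218) (nat_lit 277)) (PT.lf (nat_lit 22116) (nat_lit 6) (nat_lit 291) (nat_lit 1) (nat_lit 286) (nat_lit 218) (nat_lit 276)))) (PT.nd (nat_lit 156) (PT.nd (nat_lit 78) (PT.lf (nat_lit 22040) (nat_lit 6) (nat_lit 290) (nat_lit 1) (nat_lit 287) (nat_lit 218) (nat_lit 275)) (PT.lf (nat_lit 21964) (nat_lit 6) (nat_lit 289) (nat_lit 1) (nat_lit 288) (nat_lit 218) (nat_lit 274))) (PT.nd (nat_lit 79950) (PT.lf (nat_lit 21888) (nat_lit 6) (nat_lit 288) (nat_lit 1) (nat_lit 289) (nat_lit 218) (nat_lit 273)) (PT.lf (nat_lit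 22572) (nat_lit 6) (nat_lit 297) (nat_lit 3) (nat_lit 273) (nat_lit 219) (nat_lit 288))))) (PT.nd (nat_lit 312) (PT.nd (nat_lit 156) (PT.nd (nat_lit 78) (PT.lf (nat_lit 22648) (nat_lit 6) (nat_lit 298) (nat_lit 3) (nat_lit 274) (nat_lit 219) (nat_lit 287)) (PT.lf (nat_lit 22724) (nat_lit 6) (nat_lit 299) (nat_lit 3) (nat_lit 275) (nat_lit 219) (nat_lit 286))) (PT.nd (nat_lit 78) (PT.lf (nat_lit 22800) (nat_lit 6) (nat_lit 300) (nat_lit 3) (nat_lit 276) (nat_lit 219) (nat_lit 285)) (PT.lf (nat_lit 22876) (nat_lit 6) (nat_lit 301) (nat_lit 3) (nat_lit 277) (nat_lit 219) (nat_lit 284)))) (PT.nd (nat_lit 156) (PT.nd (nat_lit 78) (PT.lf (nat_lit 22952) (nat_lit 6) (nat_lit 302) (nat_lit 3) (nat_lit 278) (nat_lit 219) (nat_lit 283)) (PT.lf (nat_lit 23028) (nat_lit 6) (nat_lit 303) (nat_lit 3) (nat_lit 279) (nat_lit 219) (nat_lit 282))) (PT.nd (nat_lit 78) (PT.lf (nat_lit 23104) (nat_lit 6) (nat_lit 304) (nat_lit 3) (nat_lit 280) (nat_lit 219) (nat_lit 281))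 (PT.nd (nat_lit 78) (PT.lf (nat_lit 23104) (nat_lit 6) (nat_lit 304) (nat_lit 1) (nat_lit 281) (nat_lit 219) (nat_lit 280)) (PT.lf (nat_lit 23028) (nat_lit 6) (nat_lit 303) (nat_lit 1) (nat_lit 282) (nat_lit 219) (nat_lit 279))))))) (PT.nd (nat_lit 80574) (PT.nd (nat_lit 312) (PT.nd (nat_lit 156) (PT.nd (nat_lit 78) (PT.lf (nat_lit 22952) (nat_lit 6) (nat_lit 302) (nat_lit 1) (nat_lit 283) (nat_lit 219) (nat_lit 278)) (PT.lf (nat_lit 22876) (nat_lit 6) (nat_lit 301) (nat_lit 1) (nat_lit 284) (nat_lit 219) (nat_lit 277))) (PT.nd (nat_lit 78) (PT.lf (nat_lit 22800) (nat_lit 6) (nat_lit 300) (nat_lit 1) (nat_lit 285) (nat_lit 219) (nat_lit 276)) (PT.lf (nat_lit 22724) (nat_lit 6) (nat_lit 299) (nat_lit 1) (nat_lit 286) (nat_lit 219) (nat_lit 275)))) (PT.nd (nat_lit 80028) (PT.nd (nat_lit 78) (PT.lf (nat_lit 22648) (nat_lit 6) (nat_lit 298) (nat_lit 1) (nat_lit 287) (nat_lit 219) (nat_lit 274)) (PT.lf (nat_lit 22572) (nat_lit 6) (nat_lit 297) (nat_lit 1) (nat_lit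 288) (nat_lit 219) (nat_lit 273))) (PT.nd (nat_lit 78) (PT.lf (nat_lit 23180) (nat_lit 6) (nat_lit 305) (nat_lit 3) (nat_lit 272) (nat_lit 220) (nat_lit 288)) (PT.nd (nat_lit 78) (PT.lf (nat_lit 23256) (nat_lit 6) (nat_lit 306) (nat_lit 3) (nat_lit 273) (nat_lit 220) (nat_lit 287)) (PT.lf (nat_lit 23332) (nat_lit 6) (nat_lit 307) (nat_lit 3) (nat_lit 274) (nat_lit 220) (nat_lit 286)))))) (PT.nd (nat_lit 312) (PT.nd (nat_lit 156) (PT.nd (nat_lit 78) (PT.lf (nat_lit 23408) (nat_lit 6) (nat_lit 308) (nat_lit 3) (nat_lit 275) (nat_lit 220) (nat_lit 285)) (PT.lf (nat_lit 23484) (nat_lit 6) (nat_lit 309) (nat_lit 3) (nat_lit 276) (nat_lit 220) (nat_lit 284))) (PT.nd (nat_lit 78) (PT.lf (nat_lit 23560) (nat_lit 6) (nat_lit 310) (nat_lit 3) (nat_lit 277) (nat_lit 220) (nat_lit 283)) (PT.lf (nat_lit 23636) (nat_lit 6) (nat_lit 311) (nat_lit 3) (nat_lit 278) (nat_lit 220) (nat_lit 282)))) (PT.nd (nat_lit 156) (PT.nd (nat_lit 78) (PT.lf (nat_lit 23712) (nat_lit 6)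 (nat_lit 312) (nat_lit 3) (nat_lit 279) (nat_lit 220) (nat_lit 281)) (PT.lf (nat_lit 23788) (nat_lit 3) (nat_lit 313) (nat_lit 1) (nat_lit 280) (nat_lit 220) (nat_lit 280))) (PT.nd (nat_lit 78) (PT.lf (nat_lit 23712) (nat_lit 6) (nat_lit 312) (nat_lit 1) (nat_lit 281) (nat_lit 220) (nat_lit 279)) (PT.nd (nat_lit 78) (PT.lf (nat_lit 23636) (nat_lit 6) (nat_lit 311) (nat_lit 1) (nat_lit 282) (nat_lit 220) (nat_lit 278)) (PT.lf (nat_lit 23560) (nat_lit 6) (nat_lit 310) (nat_lit 1) (nat_lit 283) (nat_lit 220) (nat_lit 277))))))))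
noncomputable def pc16 : PT := (PT.nd (nat_lit 81120) (PT.nd (nat_lit 80418) (PT.nd (nat_lit 312) (PT.nd (nat_lit 156) (PT.nd (nat_lit 78) (PT.lf (nat_lit 23484) (nat_lit 6) (nat_lit 309) (nat_lit 1) (nat_lit 284) (nat_lit 220) (nat_lit 276)) (PT.lf (nat_lit 23408) (nat_lit 6) (nat_lit 308) (nat_lit 1) (nat_lit 285) (nat_lit 220) (nat_lit 275))) (PT.nd (nat_lit 78) (PT.lf (nat_lit 23332) (nat_lit 6) (nat_lit 307) (nat_lit 1) (nat_lit 286) (nat_lit 220) (nat_lit 274)) (PT.lf (nat_lit 23256) (nat_lit 6) (nat_lit 306) (nat_lit 1) (nat_lit 287) (nat_lit 220) (nat_lit 273)))) (PT.nd (nat_lit 79950) (PT.nd (nat_lit 79872) (PT.lf (nat_lit 23180) (nat_lit 6) (nat_lit 305) (nat_lit 1) (nat_lit 288) (nat_lit 220) (nat_lit 272)) (PT.lf (nat_lit 23864) (nat_lit 6) (nat_lit 314) (nat_lit 3) (nat_lit 271) (nat_lit 221) (nat_lit 288))) (PT.nd (nat_lit 78) (PT.lf (nat_lit 23940) (nat_lit 6) (nat_lit 315) (nat_lit 3) (nat_lit 272) (nat_lit 221) (nat_lit 287)) (PT.lf (nat_lit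 24016) (nat_lit 6) (nat_lit 316) (nat_lit 3) (nat_lit 273) (nat_lit 221) (nat_lit 286))))) (PT.nd (nat_lit 312) (PT.nd (nat_lit 156) (PT.nd (nat_lit 78) (PT.lf (nat_lit 24092) (nat_lit 6) (nat_lit 317) (nat_lit 3) (nat_lit 274) (nat_lit 221) (nat_lit 285)) (PT.lf (nat_lit 24168) (nat_lit 6) (nat_lit 318) (nat_lit 3) (nat_lit 275) (nat_lit 221) (nat_lit 284))) (PT.nd (nat_lit 78) (PT.lf (nat_lit 24244) (nat_lit 6) (nat_lit 319) (nat_lit 3) (nat_lit 276) (nat_lit 221) (nat_lit 283)) (PT.lf (nat_lit 24320) (nat_lit 6) (nat_lit 320) (nat_lit 3) (nat_lit 277) (nat_lit 221) (nat_lit 282)))) (PT.nd (nat_lit 156) (PT.nd (nat_lit 78) (PT.lf (nat_lit 24396) (nat_lit 6) (nat_lit 321) (nat_lit 3) (nat_lit 278) (nat_lit 221) (nat_lit 281)) (PT.lf (nat_lit 24472) (nat_lit 6) (nat_lit 322) (nat_lit 3) (nat_lit 279) (nat_lit 221) (nat_lit 280))) (PT.nd (nat_lit 78) (PT.lf (nat_lit 24472) (nat_lit 6) (nat_lit 322) (nat_lit 1) (nat_lit 280) (nat_lit 221) (nat_lit 279))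 (PT.nd (nat_lit 78) (PT.lf (nat_lit 24396) (nat_lit 6) (nat_lit 321) (nat_lit 1) (nat_lit 281) (nat_lit 221) (nat_lit 278)) (PT.lf (nat_lit 24320) (nat_lit 6) (nat_lit 320) (nat_lit 1) (nat_lit 282) (nat_lit 221) (nat_lit 277))))))) (PT.nd (nat_lit 80340) (PT.nd (nat_lit 312) (PT.nd (nat_lit 156) (PT.nd (nat_lit 78) (PT.lf (nat_lit 24244) (nat_lit 6) (nat_lit 319) (nat_lit 1) (nat_lit 283) (nat_lit 221) (nat_lit 276)) (PT.lf (nat_lit 24168) (nat_lit 6) (nat_lit 318) (nat_lit 1) (nat_lit 284) (nat_lit 221) (nat_lit 275))) (PT.nd (nat_lit 78) (PT.lf (nat_lit 24092) (nat_lit 6) (nat_lit 317) (nat_lit 1) (nat_lit 285) (nat_lit 221) (nat_lit 274)) (PT.lf (nat_lit 24016) (nat_lit 6) (nat_lit 316) (nat_lit 1) (nat_lit 286) (nat_lit 221) (nat_lit 273)))) (PT.nd (nat_lit 79872) (PT.nd (nat_lit 78) (PT.lf (nat_lit 23940) (nat_lit 6) (nat_lit 315) (nat_lit 1) (nat_lit 287) (nat_lit 221) (nat_lit 272)) (PT.lf (nat_lit 23864) (nat_lit 6) (nat_lit 314) (nat_lit 1) (nat_lit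 288) (nat_lit 221) (nat_lit 271))) (PT.nd (nat_lit 78) (PT.lf (nat_lit 24548) (nat_lit 6) (nat_lit 323) (nat_lit 3) (nat_lit 270) (nat_lit 222) (nat_lit 288)) (PT.lf (nat_lit 24624) (nat_lit 6) (nat_lit 324) (nat_lit 3) (nat_lit 271) (nat_lit 222) (nat_lit 287))))) (PT.nd (nat_lit 312) (PT.nd (nat_lit 156) (PT.nd (nat_lit 78) (PT.lf (nat_lit 24700) (nat_lit 6) (nat_lit 325) (nat_lit 3) (nat_lit 272) (nat_lit 222) (nat_lit 286)) (PT.lf (nat_lit 24776) (nat_lit 6) (nat_lit 326) (nat_lit 3) (nat_lit 273) (nat_lit 222) (nat_lit 285))) (PT.nd (nat_lit 78) (PT.lf (nat_lit 24852) (nat_lit 6) (nat_lit 327) (nat_lit 3) (nat_lit 274) (nat_lit 222) (nat_lit 284)) (PT.lf (nat_lit 24928) (nat_lit 6) (nat_lit 328) (nat_lit 3) (nat_lit 275) (nat_lit 222) (nat_lit 283)))) (PT.nd (nat_lit 156) (PT.nd (nat_lit 78) (PT.lf (nat_lit 25004) (nat_lit 6) (nat_lit 329) (nat_lit 3) (nat_lit 276) (nat_lit 222) (nat_lit 282)) (PT.lf (nat_lit 25080) (nat_lit 6) (nat_lit 330) (nat_lit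 3) (nat_lit 277) (nat_lit 222) (nat_lit 281))) (PT.nd (nat_lit 78) (PT.lf (nat_lit 25156) (nat_lit 6) (nat_lit 331) (nat_lit 3) (nat_lit 278) (nat_lit 222) (nat_lit 280)) (PT.nd (nat_lit 78) (PT.lf (nat_lit 25232) (nat_lit 3) (nat_lit 332) (nat_lit 1) (nat_lit 279) (nat_lit 222) (nat_lit 279)) (PT.lf (nat_lit 25156) (nat_lit 6) (nat_lit 331) (nat_lit 1) (nat_lit 280) (nat_lit 222) (nat_lit 278))))))))
noncomputable def pc17 : PT := (PT.nd (nat_lit 81042) (PT.nd (nat_lit 80340) (PT.nd (nat_lit 312) (PT.nd (nat_lit 156) (PT.nd (nat_lit 78) (PT.lf (nat_lit 25080) (nat_lit 6) (nat_lit 330) (nat_lit 1) (nat_lit 281) (nat_lit 222) (nat_lit 277)) (PT.lf (nat_lit 25004) (nat_lit 6) (nat_lit 329) (nat_lit 1) (nat_lit 282) (nat_lit 222) (nat_lit 276))) (PT.nd (nat_lit 78) (PT.lf (nat_lit 24928) (nat_lit 6) (nat_lit 328) (nat_lit 1) (nat_lit 283) (nat_lit 222) (nat_lit 275)) (PT.lf (nat_lit 24852) (nat_lit 6) (nat_lit 327) (nat_lit 1) (nat_lit 284) (nat_lit 222)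 (nat_lit 274)))) (PT.nd (nat_lit 156) (PT.nd (nat_lit 78) (PT.lf (nat_lit 24776) (nat_lit 6) (nat_lit 326) (nat_lit 1) (nat_lit 285) (nat_lit 222) (nat_lit 273)) (PT.lf (nat_lit 24700) (nat_lit 6) (nat_lit 325) (nat_lit 1) (nat_lit 286) (nat_lit 222) (nat_lit 272))) (PT.nd (nat_lit 78) (PT.lf (nat_lit 24624) (nat_lit 6) (nat_lit 324) (nat_lit 1) (nat_lit 287) (nat_lit 222) (nat_lit 271)) (PT.lf (nat_lit 24548) (nat_lit 6) (nat_lit 323) (nat_lit 1) (nat_lit 288) (nat_lit 222) (nat_lit 270))))) (PT.nd (nat_lit 312) (PT.nd (nat_lit 156) (PT.nd (nat_lit 78) (PT.lf (nat_lit 25308) (nat_lit 6) (nat_lit 333) (nat_lit 3) (nat_lit 270) (nat_lit 223) (nat_lit 287)) (PT.lf (nat_lit 25384) (nat_lit 6) (nat_lit 334) (nat_lit 3) (nat_lit 271) (nat_lit 223) (nat_lit 286))) (PT.nd (nat_lit 78) (PT.lf (nat_lit 25460) (nat_lit 6) (nat_lit 335) (nat_lit 3) (nat_lit 272) (nat_lit 223) (nat_lit 285)) (PT.lf (nat_lit 25536) (nat_lit 6) (nat_lit 336) (nat_lit 3) (nat_lit 273)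 (nat_lit 223) (nat_lit 284)))) (PT.nd (nat_lit 156) (PT.nd (nat_lit 78) (PT.lf (nat_lit 25612) (nat_lit 6) (nat_lit 337) (nat_lit 3) (nat_lit 274) (nat_lit 223) (nat_lit 283)) (PT.lf (nat_lit 25688) (nat_lit 6) (nat_lit 338) (nat_lit 3) (nat_lit 275) (nat_lit 223) (nat_lit 282))) (PT.nd (nat_lit 78) (PT.lf (nat_lit 25764) (nat_lit 6) (nat_lit 339) (nat_lit 3) (nat_lit 276) (nat_lit 223) (nat_lit 281)) (PT.nd (nat_lit 78) (PT.lf (nat_lit 25840) (nat_lit 6) (nat_lit 340) (nat_lit 3) (nat_lit 277) (nat_lit 223) (nat_lit 280)) (PT.lf (nat_lit 25916) (nat_lit 6) (nat_lit 341) (nat_lit 3) (nat_lit 278) (nat_lit 223) (nat_lit 279))))))) (PT.nd (nat_lit 80418) (PT.nd (nat_lit 312) (PT.nd (nat_lit 156) (PT.nd (nat_lit 78) (PT.lf (nat_lit 25916) (nat_lit 6) (nat_lit 341) (nat_lit 1) (nat_lit 279) (nat_lit 223) (nat_lit 278)) (PT.lf (nat_lit 25840) (nat_lit 6) (nat_lit 340) (nat_lit 1) (nat_lit 280) (nat_lit 223) (nat_lit 277))) (PT.nd (nat_lit 78) (PT.lf (nat_lit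 25764) (nat_lit 6) (nat_lit 339) (nat_lit 1) (nat_lit 281) (nat_lit 223) (nat_lit 276)) (PT.lf (nat_lit 25688) (nat_lit 6) (nat_lit 338) (nat_lit 1) (nat_lit 282) (nat_lit 223) (nat_lit 275)))) (PT.nd (nat_lit 156) (PT.nd (nat_lit 78) (PT.lf (nat_lit 25612) (nat_lit 6) (nat_lit 337) (nat_lit 1) (nat_lit 283) (nat_lit 223) (nat_lit 274)) (PT.lf (nat_lit 25536) (nat_lit 6) (nat_lit 336) (nat_lit 1) (nat_lit 284) (nat_lit 223) (nat_lit 273))) (PT.nd (nat_lit 78) (PT.lf (nat_lit 25460) (nat_lit 6) (nat_lit 335) (nat_lit 1) (nat_lit 285) (nat_lit 223) (nat_lit 272)) (PT.nd (nat_lit 78) (PT.lf (nat_lit 25384) (nat_lit 6) (nat_lit 334) (nat_lit 1) (nat_lit 286) (nat_lit 223) (nat_lit 271)) (PT.lf (nat_lit 25308) (nat_lit 6) (nat_lit 333) (nat_lit 1) (nat_lit 287) (nat_lit 223) (nat_lit 270)))))) (PT.nd (nat_lit 312) (PT.nd (nat_lit 156) (PT.nd (nat_lit 78) (PT.lf (nat_lit 25992) (nat_lit 6) (nat_lit 342) (nat_lit 3) (nat_lit 269) (nat_lit 224) (nat_lit 287))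 (PT.lf (nat_lit 26068) (nat_lit 6) (nat_lit 343) (nat_lit 3) (nat_lit 270) (nat_lit 224) (nat_lit 286))) (PT.nd (nat_lit 78) (PT.lf (nat_lit 26144) (nat_lit 6) (nat_lit 344) (nat_lit 3) (nat_lit 271) (nat_lit 224) (nat_lit 285)) (PT.lf (nat_lit 26220) (nat_lit 6) (nat_lit 345) (nat_lit 3) (nat_lit 272) (nat_lit 224) (nat_lit 284)))) (PT.nd (nat_lit 156) (PT.nd (nat_lit 78) (PT.lf (nat_lit 26296) (nat_lit 6) (nat_lit 346) (nat_lit 3) (nat_lit 273) (nat_lit 224) (nat_lit 283)) (PT.lf (nat_lit 26372) (nat_lit 6) (nat_lit 347) (nat_lit 3) (nat_lit 274) (nat_lit 224) (nat_lit 282))) (PT.nd (nat_lit 78) (PT.lf (nat_lit 26448) (nat_lit 6) (nat_lit 348) (nat_lit 3) (nat_lit 275) (nat_lit 224) (nat_lit 281)) (PT.nd (nat_lit 78) (PT.lf (nat_lit 26524) (nat_lit 6) (nat_lit 349) (nat_lit 3) (nat_lit 276) (nat_lit 224) (nat_lit 280)) (PT.lf (nat_lit 26600) (nat_lit 6) (nat_lit 350) (nat_lit 3) (nat_lit 277) (nat_lit 224) (nat_lit 279))))))))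
noncomputable def pc18 : PT := (PT.nd (nat_lit 80964) (PT.nd (nat_lit 624) (PT.nd (nat_lit 312) (PT.nd (nat_lit 156) (PT.nd (nat_lit 78) (PT.lf (nat_lit 26676) (nat_lit 3) (nat_lit 351) (nat_lit 1) (nat_lit 278) (nat_lit 224) (nat_lit 278)) (PT.lf (nat_lit 26600) (nat_lit 6) (nat_lit 350) (nat_lit 1) (nat_lit 279) (nat_lit 224) (nat_lit 277))) (PT.nd (nat_lit 78) (PT.lf (nat_lit 26524) (nat_lit 6) (nat_lit 349) (nat_lit 1) (nat_lit 280) (nat_lit 224) (nat_lit 276)) (PT.lf (nat_lit 26448) (nat_lit 6) (nat_lit 348) (nat_lit 1) (nat_lit 281) (nat_lit 224) (nat_lit 275)))) (PT.nd (nat_lit 156) (PT.nd (nat_lit 78) (PT.lf (nat_lit 26372) (nat_lit 6) (nat_lit 347) (nat_lit 1) (nat_lit 282) (nat_lit 224) (nat_lit 274)) (PT.lf (nat_lit 26296) (nat_lit 6) (nat_lit 346) (nat_lit 1) (nat_lit 283) (nat_lit 224) (nat_lit 273))) (PT.nd (nat_lit 78) (PT.lf (nat_lit 26220) (nat_lit 6) (nat_lit 345) (nat_lit 1) (nat_lit 284) (nat_lit 224) (nat_lit 272)) (PT.lf (nat_lit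 26144) (nat_lit 6) (nat_lit 344) (nat_lit 1) (nat_lit 285) (nat_lit 224) (nat_lit 271))))) (PT.nd (nat_lit 79950) (PT.nd (nat_lit 79794) (PT.nd (nat_lit 78) (PT.lf (nat_lit 26068) (nat_lit 6) (nat_lit 343) (nat_lit 1) (nat_lit 286) (nat_lit 224) (nat_lit 270)) (PT.lf (nat_lit 25992) (nat_lit 6) (nat_lit 342) (nat_lit 1) (nat_lit 287) (nat_lit 224) (nat_lit 269))) (PT.nd (nat_lit 78) (PT.lf (nat_lit 26752) (nat_lit 6) (nat_lit 352) (nat_lit 3) (nat_lit 268) (nat_lit 225) (nat_lit 287)) (PT.lf (nat_lit 26828) (nat_lit 6) (nat_lit 353) (nat_lit 3) (nat_lit 269) (nat_lit 225) (nat_lit 286)))) (PT.nd (nat_lit 156) (PT.nd (nat_lit 78) (PT.lf (nat_lit 26904) (nat_lit 6) (nat_lit 354) (nat_lit 3) (nat_lit 270) (nat_lit 225) (nat_lit 285)) (PT.lf (nat_lit 26980) (nat_lit 6) (nat_lit 355) (nat_lit 3) (nat_lit 271) (nat_lit 225) (nat_lit 284))) (PT.nd (nat_lit 78) (PT.lf (nat_lit 27056) (nat_lit 6) (nat_lit 356) (nat_lit 3) (nat_lit 272) (nat_lit 225) (nat_lit 283))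 (PT.nd (nat_lit 78) (PT.lf (nat_lit 27132) (nat_lit 6) (nat_lit 357) (nat_lit 3) (nat_lit 273) (nat_lit 225) (nat_lit 282)) (PT.lf (nat_lit 27208) (nat_lit 6) (nat_lit 358) (nat_lit 3) (nat_lit 274) (nat_lit 225) (nat_lit 281))))))) (PT.nd (nat_lit 702) (PT.nd (nat_lit 312) (PT.nd (nat_lit 156) (PT.nd (nat_lit 78) (PT.lf (nat_lit 27284) (nat_lit 6) (nat_lit 359) (nat_lit 3) (nat_lit 275) (nat_lit 225) (nat_lit 280)) (PT.lf (nat_lit 27360) (nat_lit 6) (nat_lit 360) (nat_lit 3) (nat_lit 276) (nat_lit 225) (nat_lit 279))) (PT.nd (nat_lit 78) (PT.lf (nat_lit 27436) (nat_lit 6) (nat_lit 361) (nat_lit 3) (nat_lit 277) (nat_lit 225) (nat_lit 278)) (PT.lf (nat_lit 27436) (nat_lit 6) (nat_lit 361) (nat_lit 1) (nat_lit 278) (nat_lit 225) (nat_lit 277)))) (PT.nd (nat_lit 156) (PT.nd (nat_lit 78) (PT.lf (nat_lit 27360) (nat_lit 6) (nat_lit 360) (nat_lit 1) (nat_lit 279) (nat_lit 225) (nat_lit 276)) (PT.lf (nat_lit 27284) (nat_lit 6) (nat_lit 359) (nat_lit 1) (nat_lit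 280) (nat_lit 225) (nat_lit 275))) (PT.nd (nat_lit 78) (PT.lf (nat_lit 27208) (nat_lit 6) (nat_lit 358) (nat_lit 1) (nat_lit 281) (nat_lit 225) (nat_lit 274)) (PT.nd (nat_lit 78) (PT.lf (nat_lit 27132) (nat_lit 6) (nat_lit 357) (nat_lit 1) (nat_lit 282) (nat_lit 225) (nat_lit 273)) (PT.lf (nat_lit 27056) (nat_lit 6) (nat_lit 356) (nat_lit 1) (nat_lit 283) (nat_lit 225) (nat_lit 272)))))) (PT.nd (nat_lit 79872) (PT.nd (nat_lit 156) (PT.nd (nat_lit 78) (PT.lf (nat_lit 26980) (nat_lit 6) (nat_lit 355) (nat_lit 1) (nat_lit 284) (nat_lit 225) (nat_lit 271)) (PT.lf (nat_lit 26904) (nat_lit 6) (nat_lit 354) (nat_lit 1) (nat_lit 285) (nat_lit 225) (nat_lit 270))) (PT.nd (nat_lit 78) (PT.lf (nat_lit 26828) (nat_lit 6) (nat_lit 353) (nat_lit 1) (nat_lit 286) (nat_lit 225) (nat_lit 269)) (PT.lf (nat_lit 26752) (nat_lit 6) (nat_lit 352) (nat_lit 1) (nat_lit 287) (nat_lit 225) (nat_lit 268)))) (PT.nd (nat_lit 156) (PT.nd (nat_lit 78) (PT.lf (nat_lit 27512) (nat_lit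 6) (nat_lit 362) (nat_lit 3) (nat_lit 267) (nat_lit 226) (nat_lit 287)) (PT.lf (nat_lit 27588) (nat_lit 6) (nat_lit 363) (nat_lit 3) (nat_lit 268) (nat_lit 226) (nat_lit 286))) (PT.nd (nat_lit 78) (PT.lf (nat_lit 27664) (nat_lit 6) (nat_lit 364) (nat_lit 3) (nat_lit 269) (nat_lit 226) (nat_lit 285)) (PT.nd (nat_lit 78) (PT.lf (nat_lit 27740) (nat_lit 6) (nat_lit 365) (nat_lit 3) (nat_lit 270) (nat_lit 226) (nat_lit 284)) (PT.lf (nat_lit 27816) (nat_lit 6) (nat_lit 366) (nat_lit 3) (nat_lit 271) (nat_lit 226) (nat_lit 283))))))))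
noncomputable def pc19 : PT := (PT.nd (nat_lit 80886) (PT.nd (nat_lit 624) (PT.nd (nat_lit 312) (PT.nd (nat_lit 156) (PT.nd (nat_lit 78) (PT.lf (nat_lit 27892) (nat_lit 6) (nat_lit 367) (nat_lit 3) (nat_lit 272) (nat_lit 226) (nat_lit 282)) (PT.lf (nat_lit 27968) (nat_lit 6) (nat_lit 368) (nat_lit 3) (nat_lit 273) (nat_lit 226) (nat_lit 281))) (PT.nd (nat_lit 78) (PT.lf (nat_lit 28044) (nat_lit 6) (nat_lit 369) (nat_lit 3) (nat_lit 274) (nat_lit 226) (nat_lit 280)) (PT.lf (nat_lit 28120) (nat_lit 6) (nat_lit 370) (nat_lit 3) (nat_lit 275) (nat_lit 226) (nat_lit 279)))) (PT.nd (nat_lit 156) (PT.nd (nat_lit 78) (PT.lf (nat_lit 28196) (nat_lit 6) (nat_lit 371) (nat_lit 3) (nat_lit 276) (nat_lit 226) (nat_lit 278)) (PT.lf (nat_lit 28272) (nat_lit 3) (nat_lit 372) (nat_lit 1) (nat_lit 277) (nat_lit 226) (nat_lit 277))) (PT.nd (nat_lit 78) (PT.lf (nat_lit 28196) (nat_lit 6) (nat_lit 371) (nat_lit 1) (nat_lit 278) (nat_lit 226) (nat_lit 276)) (PT.lf (nat_lit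 28120) (nat_lit 6) (nat_lit 370) (nat_lit 1) (nat_lit 279) (nat_lit 226) (nat_lit 275))))) (PT.nd (nat_lit 312) (PT.nd (nat_lit 156) (PT.nd (nat_lit 78) (PT.lf (nat_lit 28044) (nat_lit 6) (nat_lit 369) (nat_lit 1) (nat_lit 280) (nat_lit 226) (nat_lit 274)) (PT.lf (nat_lit 27968) (nat_lit 6) (nat_lit 368) (nat_lit 1) (nat_lit 281) (nat_lit 226) (nat_lit 273))) (PT.nd (nat_lit 78) (PT.lf (nat_lit 27892) (nat_lit 6) (nat_lit 367) (nat_lit 1) (nat_lit 282) (nat_lit 226) (nat_lit 272)) (PT.lf (nat_lit 27816) (nat_lit 6) (nat_lit 366) (nat_lit 1) (nat_lit 283) (nat_lit 226) (nat_lit 271)))) (PT.nd (nat_lit 156) (PT.nd (nat_lit 78) (PT.lf (nat_lit 27740) (nat_lit 6) (nat_lit 365) (nat_lit 1) (nat_lit 284) (nat_lit 226) (nat_lit 270)) (PT.lf (nat_lit 27664) (nat_lit 6) (nat_lit 364) (nat_lit 1) (nat_lit 285) (nat_lit 226) (nat_lit 269))) (PT.nd (nat_lit 78) (PT.lf (nat_lit 27588) (nat_lit 6) (nat_lit 363) (nat_lit 1) (nat_lit 286) (nat_lit 226) (nat_lit 268))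 (PT.nd (nat_lit 79638) (PT.lf (nat_lit 27512) (nat_lit 6) (nat_lit 362) (nat_lit 1) (nat_lit 287) (nat_lit 226) (nat_lit 267)) (PT.lf (nat_lit 28348) (nat_lit 6) (nat_lit 373) (nat_lit 3) (nat_lit 267) (nat_lit 227) (nat_lit 286))))))) (PT.nd (nat_lit 702) (PT.nd (nat_lit 312) (PT.nd (nat_lit 156) (PT.nd (nat_lit 78) (PT.lf (nat_lit 28424) (nat_lit 6) (nat_lit 374) (nat_lit 3) (nat_lit 268) (nat_lit 227) (nat_lit 285)) (PT.lf (nat_lit 28500) (nat_lit 6) (nat_lit 375) (nat_lit 3) (nat_lit 269) (nat_lit 227) (nat_lit 284))) (PT.nd (nat_lit 78) (PT.lf (nat_lit 28576) (nat_lit 6) (nat_lit 376) (nat_lit 3) (nat_lit 270) (nat_lit 227) (nat_lit 283)) (PT.lf (nat_lit 28652) (nat_lit 6) (nat_lit 377) (nat_lit 3) (nat_lit 271) (nat_lit 227) (nat_lit 282)))) (PT.nd (nat_lit 156) (PT.nd (nat_lit 78) (PT.lf (nat_lit 28728) (nat_lit 6) (nat_lit 378) (nat_lit 3) (nat_lit 272) (nat_lit 227) (nat_lit 281)) (PT.lf (nat_lit 28804) (nat_lit 6) (nat_lit 379) (nat_lit 3) (nat_lit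 273) (nat_lit 227) (nat_lit 280))) (PT.nd (nat_lit 78) (PT.lf (nat_lit 28880) (nat_lit 6) (nat_lit 380) (nat_lit 3) (nat_lit 274) (nat_lit 227) (nat_lit 279)) (PT.nd (nat_lit 78) (PT.lf (nat_lit 28956) (nat_lit 6) (nat_lit 381) (nat_lit 3) (nat_lit 275) (nat_lit 227) (nat_lit 278)) (PT.lf (nat_lit 29032) (nat_lit 6) (nat_lit 382) (nat_lit 3) (nat_lit 276) (nat_lit 227) (nat_lit 277)))))) (PT.nd (nat_lit 312) (PT.nd (nat_lit 156) (PT.nd (nat_lit 78) (PT.lf (nat_lit 29032) (nat_lit 6) (nat_lit 382) (nat_lit 1) (nat_lit 277) (nat_lit 227) (nat_lit 276)) (PT.lf (nat_lit 28956) (nat_lit 6) (nat_lit 381) (nat_lit 1) (nat_lit 278) (nat_lit 227) (nat_lit 275))) (PT.nd (nat_lit 78) (PT.lf (nat_lit 28880) (nat_lit 6) (nat_lit 380) (nat_lit 1) (nat_lit 279) (nat_lit 227) (nat_lit 274)) (PT.lf (nat_lit 28804) (nat_lit 6) (nat_lit 379) (nat_lit 1) (nat_lit 280) (nat_lit 227) (nat_lit 273)))) (PT.nd (nat_lit 156) (PT.nd (nat_lit 78) (PT.lf (nat_lit 28728) (nat_lit 6)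 (nat_lit 378) (nat_lit 1) (nat_lit 281) (nat_lit 227) (nat_lit 272)) (PT.lf (nat_lit 28652) (nat_lit 6) (nat_lit 377) (nat_lit 1) (nat_lit 282) (nat_lit 227) (nat_lit 271))) (PT.nd (nat_lit 78) (PT.lf (nat_lit 28576) (nat_lit 6) (nat_lit 376) (nat_lit 1) (nat_lit 283) (nat_lit 227) (nat_lit 270)) (PT.nd (nat_lit 78) (PT.lf (nat_lit 28500) (nat_lit 6) (nat_lit 375) (nat_lit 1) (nat_lit 284) (nat_lit 227) (nat_lit 269)) (PT.lf (nat_lit 28424) (nat_lit 6) (nat_lit 374) (nat_lit 1) (nat_lit 285) (nat_lit 227) (nat_lit 268))))))))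
noncomputable def pc20 : PT := (PT.nd (nat_lit 80886) (PT.nd (nat_lit 80184) (PT.nd (nat_lit 79872) (PT.nd (nat_lit 79716) (PT.nd (nat_lit 79638) (PT.lf (nat_lit 28348) (nat_lit 6) (nat_lit 373) (nat_lit 1) (nat_lit 286) (nat_lit 227) (nat_lit 267)) (PT.lf (nat_lit 29108) (nat_lit 6) (nat_lit 383) (nat_lit 3) (nat_lit 266) (nat_lit 228) (nat_lit 286))) (PT.nd (nat_lit 78) (PT.lf (nat_lit 29184) (nat_lit 6) (nat_lit 384) (nat_lit 3) (nat_lit 267) (nat_lit 228) (nat_lit 285)) (PT.lf (nat_lit 29260) (nat_lit 6) (nat_lit 385) (nat_lit 3) (nat_lit 268) (nat_lit 228) (nat_lit 284)))) (PT.nd (nat_lit 156) (PT.nd (nat_lit 78) (PT.lf (nat_lit 29336) (nat_lit 6) (nat_lit 386) (nat_lit 3) (nat_lit 269) (nat_lit 228) (nat_lit 283)) (PT.lf (nat_lit 29412) (nat_lit 6) (nat_lit 387) (nat_lit 3) (nat_lit 270) (nat_lit 228) (nat_lit 282))) (PT.nd (nat_lit 78) (PT.lf (nat_lit 29488) (nat_lit 6) (nat_lit 388) (nat_lit 3) (nat_lit 271) (nat_lit 228) (nat_lit 281)) (PT.lf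 (nat_lit 29564) (nat_lit 6) (nat_lit 389) (nat_lit 3) (nat_lit 272) (nat_lit 228) (nat_lit 280))))) (PT.nd (nat_lit 312) (PT.nd (nat_lit 156) (PT.nd (nat_lit 78) (PT.lf (nat_lit 29640) (nat_lit 6) (nat_lit 390) (nat_lit 3) (nat_lit 273) (nat_lit 228) (nat_lit 279)) (PT.lf (nat_lit 29716) (nat_lit 6) (nat_lit 391) (nat_lit 3) (nat_lit 274) (nat_lit 228) (nat_lit 278))) (PT.nd (nat_lit 78) (PT.lf (nat_lit 29792) (nat_lit 6) (nat_lit 392) (nat_lit 3) (nat_lit 275) (nat_lit 228) (nat_lit 277)) (PT.lf (nat_lit 29868) (nat_lit 3) (nat_lit 393) (nat_lit 1) (nat_lit 276) (nat_lit 228) (nat_lit 276)))) (PT.nd (nat_lit 156) (PT.nd (nat_lit 78) (PT.lf (nat_lit 29792) (nat_lit 6) (nat_lit 392) (nat_lit 1) (nat_lit 277) (nat_lit 228) (nat_lit 275)) (PT.lf (nat_lit 29716) (nat_lit 6) (nat_lit 391) (nat_lit 1) (nat_lit 278) (nat_lit 228) (nat_lit 274))) (PT.nd (nat_lit 78) (PT.lf (nat_lit 29640) (nat_lit 6) (nat_lit 390) (nat_lit 1) (nat_lit 279) (nat_lit 228) (nat_lit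 273)) (PT.nd (nat_lit 78) (PT.lf (nat_lit 29564) (nat_lit 6) (nat_lit 389) (nat_lit 1) (nat_lit 280) (nat_lit 228) (nat_lit 272)) (PT.lf (nat_lit 29488) (nat_lit 6) (nat_lit 388) (nat_lit 1) (nat_lit 281) (nat_lit 228) (nat_lit 271))))))) (PT.nd (nat_lit 80184) (PT.nd (nat_lit 312) (PT.nd (nat_lit 156) (PT.nd (nat_lit 78) (PT.lf (nat_lit 29412) (nat_lit 6) (nat_lit 387) (nat_lit 1) (nat_lit 282) (nat_lit 228) (nat_lit 270)) (PT.lf (nat_lit 29336) (nat_lit 6) (nat_lit 386) (nat_lit 1) (nat_lit 283) (nat_lit 228) (nat_lit 269))) (PT.nd (nat_lit 78) (PT.lf (nat_lit 29260) (nat_lit 6) (nat_lit 385) (nat_lit 1) (nat_lit 284) (nat_lit 228) (nat_lit 268)) (PT.lf (nat_lit 29184) (nat_lit 6) (nat_lit 384) (nat_lit 1) (nat_lit 285) (nat_lit 228) (nat_lit 267)))) (PT.nd (nat_lit 79638) (PT.nd (nat_lit 79560) (PT.lf (nat_lit 29108) (nat_lit 6) (nat_lit 383) (nat_lit 1) (nat_lit 286) (nat_lit 228) (nat_lit 266)) (PT.lf (nat_lit 29944) (nat_lit 6) (nat_lit 394) (nat_lit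 3) (nat_lit 265) (nat_lit 229) (nat_lit 286))) (PT.nd (nat_lit 78) (PT.lf (nat_lit 30020) (nat_lit 6) (nat_lit 395) (nat_lit 3) (nat_lit 266) (nat_lit 229) (nat_lit 285)) (PT.nd (nat_lit 78) (PT.lf (nat_lit 30096) (nat_lit 6) (nat_lit 396) (nat_lit 3) (nat_lit 267) (nat_lit 229) (nat_lit 284)) (PT.lf (nat_lit 30172) (nat_lit 6) (nat_lit 397) (nat_lit 3) (nat_lit 268) (nat_lit 229) (nat_lit 283)))))) (PT.nd (nat_lit 312) (PT.nd (nat_lit 156) (PT.nd (nat_lit 78) (PT.lf (nat_lit 30248) (nat_lit 6) (nat_lit 398) (nat_lit 3) (nat_lit 269) (nat_lit 229) (nat_lit 282)) (PT.lf (nat_lit 30324) (nat_lit 6) (nat_lit 399) (nat_lit 3) (nat_lit 270) (nat_lit 229) (nat_lit 281))) (PT.nd (nat_lit 78) (PT.lf (nat_lit 30400) (nat_lit 6) (nat_lit 400) (nat_lit 3) (nat_lit 271) (nat_lit 229) (nat_lit 280)) (PT.lf (nat_lit 30476) (nat_lit 6) (nat_lit 401) (nat_lit 3) (nat_lit 272) (nat_lit 229) (nat_lit 279)))) (PT.nd (nat_lit 156) (PT.nd (nat_lit 78) (PT.lf (nat_lit 30552)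 (nat_lit 6) (nat_lit 402) (nat_lit 3) (nat_lit 273) (nat_lit 229) (nat_lit 278)) (PT.lf (nat_lit 30628) (nat_lit 6) (nat_lit 403) (nat_lit 3) (nat_lit 274) (nat_lit 229) (nat_lit 277))) (PT.nd (nat_lit 78) (PT.lf (nat_lit 30704) (nat_lit 6) (nat_lit 404) (nat_lit 3) (nat_lit 275) (nat_lit 229) (nat_lit 276)) (PT.nd (nat_lit 78) (PT.lf (nat_lit 30704) (nat_lit 6) (nat_lit 404) (nat_lit 1) (nat_lit 276) (nat_lit 229) (nat_lit 275)) (PT.lf (nat_lit 30628) (nat_lit 6) (nat_lit 403) (nat_lit 1) (nat_lit 277) (nat_lit 229) (nat_lit 274))))))))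
noncomputable def pc21 : PT := (PT.nd (nat_lit 80730) (PT.nd (nat_lit 624) (PT.nd (nat_lit 312) (PT.nd (nat_lit 156) (PT.nd (nat_lit 78) (PT.lf (nat_lit 30552) (nat_lit 6) (nat_lit 402) (nat_lit 1) (nat_lit 278) (nat_lit 229) (nat_lit 273)) (PT.lf (nat_lit 30476) (nat_lit 6) (nat_lit 401) (nat_lit 1) (nat_lit 279) (nat_lit 229) (nat_lit 272))) (PT.nd (nat_lit 78) (PT.lf (nat_lit 30400) (nat_lit 6) (nat_lit 400) (nat_lit 1) (nat_lit 280) (nat_lit 229) (nat_lit 271)) (PT.lf (nat_lit 30324) (nat_lit 6) (nat_lit 399) (nat_lit 1) (nat_lit 281) (nat_lit 229) (nat_lit 270)))) (PT.nd (nat_lit 156) (PT.nd (nat_lit 78) (PT.lf (nat_lit 30248) (nat_lit 6) (nat_lit 398) (nat_lit 1) (nat_lit 282) (nat_lit 229) (nat_lit 269)) (PT.lf (nat_lit 30172) (nat_lit 6) (nat_lit 397) (nat_lit 1) (nat_lit 283) (nat_lit 229) (nat_lit 268))) (PT.nd (nat_lit 78) (PT.lf (nat_lit 30096) (nat_lit 6) (nat_lit 396) (nat_lit 1) (nat_lit 284) (nat_lit 229) (nat_lit 267)) (PT.lf (nat_lit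 30020) (nat_lit 6) (nat_lit 395) (nat_lit 1) (nat_lit 285) (nat_lit 229) (nat_lit 266))))) (PT.nd (nat_lit 79716) (PT.nd (nat_lit 79560) (PT.nd (nat_lit 79482) (PT.lf (nat_lit 29944) (nat_lit 6) (nat_lit 394) (nat_lit 1) (nat_lit 286) (nat_lit 229) (nat_lit 265)) (PT.lf (nat_lit 30780) (nat_lit 6) (nat_lit 405) (nat_lit 3) (nat_lit 264) (nat_lit 230) (nat_lit 286))) (PT.nd (nat_lit 78) (PT.lf (nat_lit 30856) (nat_lit 6) (nat_lit 406) (nat_lit 3) (nat_lit 265) (nat_lit 230) (nat_lit 285)) (PT.lf (nat_lit 30932) (nat_lit 6) (nat_lit 407) (nat_lit 3) (nat_lit 266) (nat_lit 230) (nat_lit 284)))) (PT.nd (nat_lit 156) (PT.nd (nat_lit 78) (PT.lf (nat_lit 31008) (nat_lit 6) (nat_lit 408) (nat_lit 3) (nat_lit 267) (nat_lit 230) (nat_lit 283)) (PT.lf (nat_lit 31084) (nat_lit 6) (nat_lit 409) (nat_lit 3) (nat_lit 268) (nat_lit 230) (nat_lit 282))) (PT.nd (nat_lit 78) (PT.lf (nat_lit 31160) (nat_lit 6) (nat_lit 410) (nat_lit 3) (nat_lit 269) (nat_lit 230) (nat_lit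 281)) (PT.nd (nat_lit 78) (PT.lf (nat_lit 31236) (nat_lit 6) (nat_lit 411) (nat_lit 3) (nat_lit 270) (nat_lit 230) (nat_lit 280)) (PT.lf (nat_lit 31312) (nat_lit 6) (nat_lit 412) (nat_lit 3) (nat_lit 271) (nat_lit 230) (nat_lit 279))))))) (PT.nd (nat_lit 702) (PT.nd (nat_lit 312) (PT.nd (nat_lit 156) (PT.nd (nat_lit 78) (PT.lf (nat_lit 31388) (nat_lit 6) (nat_lit 413) (nat_lit 3) (nat_lit 272) (nat_lit 230) (nat_lit 278)) (PT.lf (nat_lit 31464) (nat_lit 6) (nat_lit 414) (nat_lit 3) (nat_lit 273) (nat_lit 230) (nat_lit 277))) (PT.nd (nat_lit 78) (PT.lf (nat_lit 31540) (nat_lit 6) (nat_lit 415) (nat_lit 3) (nat_lit 274) (nat_lit 230) (nat_lit 276)) (PT.lf (nat_lit 31616) (nat_lit 3) (nat_lit 416) (nat_lit 1) (nat_lit 275) (nat_lit 230) (nat_lit 275)))) (PT.nd (nat_lit 156) (PT.nd (nat_lit 78) (PT.lf (nat_lit 31540) (nat_lit 6) (nat_lit 415) (nat_lit 1) (nat_lit 276) (nat_lit 230) (nat_lit 274)) (PT.lf (nat_lit 31464) (nat_lit 6) (nat_lit 414) (nat_lit 1)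 (nat_lit 277) (nat_lit 230) (nat_lit 273))) (PT.nd (nat_lit 78) (PT.lf (nat_lit 31388) (nat_lit 6) (nat_lit 413) (nat_lit 1) (nat_lit 278) (nat_lit 230) (nat_lit 272)) (PT.nd (nat_lit 78) (PT.lf (nat_lit 31312) (nat_lit 6) (nat_lit 412) (nat_lit 1) (nat_lit 279) (nat_lit 230) (nat_lit 271)) (PT.lf (nat_lit 31236) (nat_lit 6) (nat_lit 411) (nat_lit 1) (nat_lit 280) (nat_lit 230) (nat_lit 270)))))) (PT.nd (nat_lit 312) (PT.nd (nat_lit 156) (PT.nd (nat_lit 78) (PT.lf (nat_lit 31160) (nat_lit 6) (nat_lit 410) (nat_lit 1) (nat_lit 281) (nat_lit 230) (nat_lit 269)) (PT.lf (nat_lit 31084) (nat_lit 6) (nat_lit 409) (nat_lit 1) (nat_lit 282) (nat_lit 230) (nat_lit 268))) (PT.nd (nat_lit 78) (PT.lf (nat_lit 31008) (nat_lit 6) (nat_lit 408) (nat_lit 1) (nat_lit 283) (nat_lit 230) (nat_lit 267)) (PT.lf (nat_lit 30932) (nat_lit 6) (nat_lit 407) (nat_lit 1) (nat_lit 284) (nat_lit 230) (nat_lit 266)))) (PT.nd (nat_lit 79482) (PT.nd (nat_lit 78) (PT.lf (nat_lit 30856)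 (nat_lit 6) (nat_lit 406) (nat_lit 1) (nat_lit 285) (nat_lit 230) (nat_lit 265)) (PT.lf (nat_lit 30780) (nat_lit 6) (nat_lit 405) (nat_lit 1) (nat_lit 286) (nat_lit 230) (nat_lit 264))) (PT.nd (nat_lit 78) (PT.lf (nat_lit 31692) (nat_lit 6) (nat_lit 417) (nat_lit 3) (nat_lit 263) (nat_lit 231) (nat_lit 286)) (PT.nd (nat_lit 78) (PT.lf (nat_lit 31768) (nat_lit 6) (nat_lit 418) (nat_lit 3) (nat_lit 264) (nat_lit 231) (nat_lit 285)) (PT.lf (nat_lit 31844) (nat_lit 6) (nat_lit 419) (nat_lit 3) (nat_lit 265) (nat_lit 231) (nat_lit 284))))))))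
noncomputable def pc22 : PT := (PT.nd (nat_lit 1326) (PT.nd (nat_lit 624) (PT.nd (nat_lit 312) (PT.nd (nat_lit 156) (PT.nd (nat_lit 78) (PT.lf (nat_lit 31920) (nat_lit 6) (nat_lit 420) (nat_lit 3) (nat_lit 266) (nat_lit 231) (nat_lit 283)) (PT.lf (nat_lit 31996) (nat_lit 6) (nat_lit 421) (nat_lit 3) (nat_lit 267) (nat_lit 231) (nat_lit 282))) (PT.nd (nat_lit 78) (PT.lf (nat_lit 32072) (nat_lit 6) (nat_lit 422) (nat_lit 3) (nat_lit 268) (nat_lit 231) (nat_lit 281)) (PT.lf (nat_lit 32148) (nat_lit 6) (nat_lit 423) (nat_lit 3) (nat_lit 269) (nat_lit 231) (nat_lit 280)))) (PT.nd (nat_lit 156) (PT.nd (nat_lit 78) (PT.lf (nat_lit 32224) (nat_lit 6) (nat_lit 424) (nat_lit 3) (nat_lit 270) (nat_lit 231) (nat_lit 279)) (PT.lf (nat_lit 32300) (nat_lit 6) (nat_lit 425) (nat_lit 3) (nat_lit 271) (nat_lit 231) (nat_lit 278))) (PT.nd (nat_lit 78) (PT.lf (nat_lit 32376) (nat_lit 6) (nat_lit 426) (nat_lit 3) (nat_lit 272) (nat_lit 231) (nat_lit 277)) (PT.lf (nat_lit 32452)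 (nat_lit 6) (nat_lit 427) (nat_lit 3) (nat_lit 273) (nat_lit 231) (nat_lit 276))))) (PT.nd (nat_lit 312) (PT.nd (nat_lit 156) (PT.nd (nat_lit 78) (PT.lf (nat_lit 32528) (nat_lit 6) (nat_lit 428) (nat_lit 3) (nat_lit 274) (nat_lit 231) (nat_lit 275)) (PT.lf (nat_lit 32528) (nat_lit 6) (nat_lit 428) (nat_lit 1) (nat_lit 275) (nat_lit 231) (nat_lit 274))) (PT.nd (nat_lit 78) (PT.lf (nat_lit 32452) (nat_lit 6) (nat_lit 427) (nat_lit 1) (nat_lit 276) (nat_lit 231) (nat_lit 273)) (PT.lf (nat_lit 32376) (nat_lit 6) (nat_lit 426) (nat_lit 1) (nat_lit 277) (nat_lit 231) (nat_lit 272)))) (PT.nd (nat_lit 156) (PT.nd (nat_lit 78) (PT.lf (nat_lit 32300) (nat_lit 6) (nat_lit 425) (nat_lit 1) (nat_lit 278) (nat_lit 231) (nat_lit 271)) (PT.lf (nat_lit 32224) (nat_lit 6) (nat_lit 424) (nat_lit 1) (nat_lit 279) (nat_lit 231) (nat_lit 270))) (PT.nd (nat_lit 78) (PT.lf (nat_lit 32148) (nat_lit 6) (nat_lit 423) (nat_lit 1) (nat_lit 280) (nat_lit 231) (nat_lit 269)) (PT.nd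 (nat_lit 78) (PT.lf (nat_lit 32072) (nat_lit 6) (nat_lit 422) (nat_lit 1) (nat_lit 281) (nat_lit 231) (nat_lit 268)) (PT.lf (nat_lit 31996) (nat_lit 6) (nat_lit 421) (nat_lit 1) (nat_lit 282) (nat_lit 231) (nat_lit 267))))))) (PT.nd (nat_lit 80028) (PT.nd (nat_lit 79638) (PT.nd (nat_lit 156) (PT.nd (nat_lit 78) (PT.lf (nat_lit 31920) (nat_lit 6) (nat_lit 420) (nat_lit 1) (nat_lit 283) (nat_lit 231) (nat_lit 266)) (PT.lf (nat_lit 31844) (nat_lit 6) (nat_lit 419) (nat_lit 1) (nat_lit 284) (nat_lit 231) (nat_lit 265))) (PT.nd (nat_lit 78) (PT.lf (nat_lit 31768) (nat_lit 6) (nat_lit 418) (nat_lit 1) (nat_lit 285) (nat_lit 231) (nat_lit 264)) (PT.lf (nat_lit 31692) (nat_lit 6) (nat_lit 417) (nat_lit 1) (nat_lit 286) (nat_lit 231) (nat_lit 263)))) (PT.nd (nat_lit 156) (PT.nd (nat_lit 78) (PT.lf (nat_lit 32604) (nat_lit 6) (nat_lit 429) (nat_lit 3) (nat_lit 263) (nat_lit 232) (nat_lit 285)) (PT.lf (nat_lit 32680) (nat_lit 6) (nat_lit 430) (nat_lit 3) (nat_lit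 264) (nat_lit 232) (nat_lit 284))) (PT.nd (nat_lit 78) (PT.lf (nat_lit 32756) (nat_lit 6) (nat_lit 431) (nat_lit 3) (nat_lit 265) (nat_lit 232) (nat_lit 283)) (PT.nd (nat_lit 78) (PT.lf (nat_lit 32832) (nat_lit 6) (nat_lit 432) (nat_lit 3) (nat_lit 266) (nat_lit 232) (nat_lit 282)) (PT.lf (nat_lit 32908) (nat_lit 6) (nat_lit 433) (nat_lit 3) (nat_lit 267) (nat_lit 232) (nat_lit 281)))))) (PT.nd (nat_lit 312) (PT.nd (nat_lit 156) (PT.nd (nat_lit 78) (PT.lf (nat_lit 32984) (nat_lit 6) (nat_lit 434) (nat_lit 3) (nat_lit 268) (nat_lit 232) (nat_lit 280)) (PT.lf (nat_lit 33060) (nat_lit 6) (nat_lit 435) (nat_lit 3) (nat_lit 269) (nat_lit 232) (nat_lit 279))) (PT.nd (nat_lit 78) (PT.lf (nat_lit 33136) (nat_lit 6) (nat_lit 436) (nat_lit 3) (nat_lit 270) (nat_lit 232) (nat_lit 278)) (PT.lf (nat_lit 33212) (nat_lit 6) (nat_lit 437) (nat_lit 3) (nat_lit 271) (nat_lit 232) (nat_lit 277)))) (PT.nd (nat_lit 156) (PT.nd (nat_lit 78) (PT.lf (nat_lit 33288) (nat_lit 6)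 (nat_lit 438) (nat_lit 3) (nat_lit 272) (nat_lit 232) (nat_lit 276)) (PT.lf (nat_lit 33364) (nat_lit 6) (nat_lit 439) (nat_lit 3) (nat_lit 273) (nat_lit 232) (nat_lit 275))) (PT.nd (nat_lit 78) (PT.lf (nat_lit 33440) (nat_lit 3) (nat_lit 440) (nat_lit 1) (nat_lit 274) (nat_lit 232) (nat_lit 274)) (PT.nd (nat_lit 78) (PT.lf (nat_lit 33364) (nat_lit 6) (nat_lit 439) (nat_lit 1) (nat_lit 275) (nat_lit 232) (nat_lit 273)) (PT.lf (nat_lit 33288) (nat_lit 6) (nat_lit 438) (nat_lit 1) (nat_lit 276) (nat_lit 232) (nat_lit 272))))))))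
noncomputable def pc23 : PT := (PT.nd (nat_lit 80652) (PT.nd (nat_lit 624) (PT.nd (nat_lit 312) (PT.nd (nat_lit 156) (PT.nd (nat_lit 78) (PT.lf (nat_lit 33212) (nat_lit 6) (nat_lit 437) (nat_lit 1) (nat_lit 277) (nat_lit 232) (nat_lit 271)) (PT.lf (nat_lit 33136) (nat_lit 6) (nat_lit 436) (nat_lit 1) (nat_lit 278) (nat_lit 232) (nat_lit 270))) (PT.nd (nat_lit 78) (PT.lf (nat_lit 33060) (nat_lit 6) (nat_lit 435) (nat_lit 1) (nat_lit 279) (nat_lit 232) (nat_lit 269)) (PT.lf (nat_lit 32984) (nat_lit 6) (nat_lit 434) (nat_lit 1) (nat_lit 280) (nat_lit 232) (nat_lit 268)))) (PT.nd (nat_lit 156) (PT.nd (nat_lit 78) (PT.lf (nat_lit 32908) (nat_lit 6) (nat_lit 433) (nat_lit 1) (nat_lit 281) (nat_lit 232) (nat_lit 267)) (PT.lf (nat_lit 32832) (nat_lit 6) (nat_lit 432) (nat_lit 1) (nat_lit 282) (nat_lit 232) (nat_lit 266))) (PT.nd (nat_lit 78) (PT.lf (nat_lit 32756) (nat_lit 6) (nat_lit 431) (nat_lit 1) (nat_lit 283) (nat_lit 232) (nat_lit 265)) (PT.lf (nat_lit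 32680) (nat_lit 6) (nat_lit 430) (nat_lit 1) (nat_lit 284) (nat_lit 232) (nat_lit 264))))) (PT.nd (nat_lit 79638) (PT.nd (nat_lit 79482) (PT.nd (nat_lit 79404) (PT.lf (nat_lit 32604) (nat_lit 6) (nat_lit 429) (nat_lit 1) (nat_lit 285) (nat_lit 232) (nat_lit 263)) (PT.lf (nat_lit 33516) (nat_lit 6) (nat_lit 441) (nat_lit 3) (nat_lit 262) (nat_lit 233) (nat_lit 285))) (PT.nd (nat_lit 78) (PT.lf (nat_lit 33592) (nat_lit 6) (nat_lit 442) (nat_lit 3) (nat_lit 263) (nat_lit 233) (nat_lit 284)) (PT.lf (nat_lit 33668) (nat_lit 6) (nat_lit 443) (nat_lit 3) (nat_lit 264) (nat_lit 233) (nat_lit 283)))) (PT.nd (nat_lit 156) (PT.nd (nat_lit 78) (PT.lf (nat_lit 33744) (nat_lit 6) (nat_lit 444) (nat_lit 3) (nat_lit 265) (nat_lit 233) (nat_lit 282)) (PT.lf (nat_lit 33820) (nat_lit 6) (nat_lit 445) (nat_lit 3) (nat_lit 266) (nat_lit 233) (nat_lit 281))) (PT.nd (nat_lit 78) (PT.lf (nat_lit 33896) (nat_lit 6) (nat_lit 446) (nat_lit 3) (nat_lit 267) (nat_lit 233) (nat_lit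 280)) (PT.nd (nat_lit 78) (PT.lf (nat_lit 33972) (nat_lit 6) (nat_lit 447) (nat_lit 3) (nat_lit 268) (nat_lit 233) (nat_lit 279)) (PT.lf (nat_lit 34048) (nat_lit 6) (nat_lit 448) (nat_lit 3) (nat_lit 269) (nat_lit 233) (nat_lit 278))))))) (PT.nd (nat_lit 702) (PT.nd (nat_lit 312) (PT.nd (nat_lit 156) (PT.nd (nat_lit 78) (PT.lf (nat_lit 34124) (nat_lit 6) (nat_lit 449) (nat_lit 3) (nat_lit 270) (nat_lit 233) (nat_lit 277)) (PT.lf (nat_lit 34200) (nat_lit 6) (nat_lit 450) (nat_lit 3) (nat_lit 271) (nat_lit 233) (nat_lit 276))) (PT.nd (nat_lit 78) (PT.lf (nat_lit 34276) (nat_lit 6) (nat_lit 451) (nat_lit 3) (nat_lit 272) (nat_lit 233) (nat_lit 275)) (PT.lf (nat_lit 34352) (nat_lit 6) (nat_lit 452) (nat_lit 3) (nat_lit 273) (nat_lit 233) (nat_lit 274)))) (PT.nd (nat_lit 156) (PT.nd (nat_lit 78) (PT.lf (nat_lit 34352) (nat_lit 6) (nat_lit 452) (nat_lit 1) (nat_lit 274) (nat_lit 233) (nat_lit 273)) (PT.lf (nat_lit 34276) (nat_lit 6) (nat_lit 451) (nat_lit 1)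 (nat_lit 275) (nat_lit 233) (nat_lit 272))) (PT.nd (nat_lit 78) (PT.lf (nat_lit 34200) (nat_lit 6) (nat_lit 450) (nat_lit 1) (nat_lit 276) (nat_lit 233) (nat_lit 271)) (PT.nd (nat_lit 78) (PT.lf (nat_lit 34124) (nat_lit 6) (nat_lit 449) (nat_lit 1) (nat_lit 277) (nat_lit 233) (nat_lit 270)) (PT.lf (nat_lit 34048) (nat_lit 6) (nat_lit 448) (nat_lit 1) (nat_lit 278) (nat_lit 233) (nat_lit 269)))))) (PT.nd (nat_lit 312) (PT.nd (nat_lit 156) (PT.nd (nat_lit 78) (PT.lf (nat_lit 33972) (nat_lit 6) (nat_lit 447) (nat_lit 1) (nat_lit 279) (nat_lit 233) (nat_lit 268)) (PT.lf (nat_lit 33896) (nat_lit 6) (nat_lit 446) (nat_lit 1) (nat_lit 280) (nat_lit 233) (nat_lit 267))) (PT.nd (nat_lit 78) (PT.lf (nat_lit 33820) (nat_lit 6) (nat_lit 445) (nat_lit 1) (nat_lit 281) (nat_lit 233) (nat_lit 266)) (PT.lf (nat_lit 33744) (nat_lit 6) (nat_lit 444) (nat_lit 1) (nat_lit 282) (nat_lit 233) (nat_lit 265)))) (PT.nd (nat_lit 156) (PT.nd (nat_lit 78) (PT.lf (nat_lit 33668) (nat_lit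 6) (nat_lit 443) (nat_lit 1) (nat_lit 283) (nat_lit 233) (nat_lit 264)) (PT.lf (nat_lit 33592) (nat_lit 6) (nat_lit 442) (nat_lit 1) (nat_lit 284) (nat_lit 233) (nat_lit 263))) (PT.nd (nat_lit 79326) (PT.lf (nat_lit 33516) (nat_lit 6) (nat_lit 441) (nat_lit 1) (nat_lit 285) (nat_lit 233) (nat_lit 262)) (PT.nd (nat_lit 78) (PT.lf (nat_lit 34428) (nat_lit 6) (nat_lit 453) (nat_lit 3) (nat_lit 261) (nat_lit 234) (nat_lit 285)) (PT.lf (nat_lit 34504) (nat_lit 6) (nat_lit 454) (nat_lit 3) (nat_lit 262) (nat_lit 234) (nat_lit 284))))))))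
noncomputable def pc24 : PT := (PT.nd (nat_lit 1326) (PT.nd (nat_lit 624) (PT.nd (nat_lit 312) (PT.nd (nat_lit 156) (PT.nd (nat_lit 78) (PT.lf (nat_lit 34580) (nat_lit 6) (nat_lit 455) (nat_lit 3) (nat_lit 263) (nat_lit 234) (nat_lit 283)) (PT.lf (nat_lit 34656) (nat_lit 6) (nat_lit 456) (nat_lit 3) (nat_lit 264) (nat_lit 234) (nat_lit 282))) (PT.nd (nat_lit 78) (PT.lf (nat_lit 34732) (nat_lit 6) (nat_lit 457) (nat_lit 3) (nat_lit 265) (nat_lit 234) (nat_lit 281)) (PT.lf (nat_lit 34808) (nat_lit 6) (nat_lit 458) (nat_lit 3) (nat_lit 266) (nat_lit 234) (nat_lit 280)))) (PT.nd (nat_lit 156) (PT.nd (nat_lit 78) (PT.lf (nat_lit 34884) (nat_lit 6) (nat_lit 459) (nat_lit 3) (nat_lit 267) (nat_lit 234) (nat_lit 279)) (PT.lf (nat_lit 34960) (nat_lit 6) (nat_lit 460) (nat_lit 3) (nat_lit 268) (nat_lit 234) (nat_lit 278))) (PT.nd (nat_lit 78) (PT.lf (nat_lit 35036) (nat_lit 6) (nat_lit 461) (nat_lit 3) (nat_lit 269) (nat_lit 234) (nat_lit 277)) (PT.lf (nat_lit 35112)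 (nat_lit 6) (nat_lit 462) (nat_lit 3) (nat_lit 270) (nat_lit 234) (nat_lit 276))))) (PT.nd (nat_lit 312) (PT.nd (nat_lit 156) (PT.nd (nat_lit 78) (PT.lf (nat_lit 35188) (nat_lit 6) (nat_lit 463) (nat_lit 3) (nat_lit 271) (nat_lit 234) (nat_lit 275)) (PT.lf (nat_lit 35264) (nat_lit 6) (nat_lit 464) (nat_lit 3) (nat_lit 272) (nat_lit 234) (nat_lit 274))) (PT.nd (nat_lit 78) (PT.lf (nat_lit 35340) (nat_lit 3) (nat_lit 465) (nat_lit 1) (nat_lit 273) (nat_lit 234) (nat_lit 273)) (PT.lf (nat_lit 35264) (nat_lit 6) (nat_lit 464) (nat_lit 1) (nat_lit 274) (nat_lit 234) (nat_lit 272)))) (PT.nd (nat_lit 156) (PT.nd (nat_lit 78) (PT.lf (nat_lit 35188) (nat_lit 6) (nat_lit 463) (nat_lit 1) (nat_lit 275) (nat_lit 234) (nat_lit 271)) (PT.lf (nat_lit 35112) (nat_lit 6) (nat_lit 462) (nat_lit 1) (nat_lit 276) (nat_lit 234) (nat_lit 270))) (PT.nd (nat_lit 78) (PT.lf (nat_lit 35036) (nat_lit 6) (nat_lit 461) (nat_lit 1) (nat_lit 277) (nat_lit 234) (nat_lit 269)) (PT.nd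 (nat_lit 78) (PT.lf (nat_lit 34960) (nat_lit 6) (nat_lit 460) (nat_lit 1) (nat_lit 278) (nat_lit 234) (nat_lit 268)) (PT.lf (nat_lit 34884) (nat_lit 6) (nat_lit 459) (nat_lit 1) (nat_lit 279) (nat_lit 234) (nat_lit 267))))))) (PT.nd (nat_lit 79872) (PT.nd (nat_lit 312) (PT.nd (nat_lit 156) (PT.nd (nat_lit 78) (PT.lf (nat_lit 34808) (nat_lit 6) (nat_lit 458) (nat_lit 1) (nat_lit 280) (nat_lit 234) (nat_lit 266)) (PT.lf (nat_lit 34732) (nat_lit 6) (nat_lit 457) (nat_lit 1) (nat_lit 281) (nat_lit 234) (nat_lit 265))) (PT.nd (nat_lit 78) (PT.lf (nat_lit 34656) (nat_lit 6) (nat_lit 456) (nat_lit 1) (nat_lit 282) (nat_lit 234) (nat_lit 264)) (PT.lf (nat_lit 34580) (nat_lit 6) (nat_lit 455) (nat_lit 1) (nat_lit 283) (nat_lit 234) (nat_lit 263)))) (PT.nd (nat_lit 79326) (PT.nd (nat_lit 78) (PT.lf (nat_lit 34504) (nat_lit 6) (nat_lit 454) (nat_lit 1) (nat_lit 284) (nat_lit 234) (nat_lit 262)) (PT.lf (nat_lit 34428) (nat_lit 6) (nat_lit 453) (nat_lit 1) (nat_lit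 285) (nat_lit 234) (nat_lit 261))) (PT.nd (nat_lit 78) (PT.lf (nat_lit 35568) (nat_lit 6) (nat_lit 468) (nat_lit 3) (nat_lit 260) (nat_lit 235) (nat_lit 285)) (PT.nd (nat_lit 78) (PT.lf (nat_lit 35644) (nat_lit 6) (nat_lit 469) (nat_lit 3) (nat_lit 261) (nat_lit 235) (nat_lit 284)) (PT.lf (nat_lit 35720) (nat_lit 6) (nat_lit 470) (nat_lit 3) (nat_lit 262) (nat_lit 235) (nat_lit 283)))))) (PT.nd (nat_lit 312) (PT.nd (nat_lit 156) (PT.nd (nat_lit 78) (PT.lf (nat_lit 35796) (nat_lit 6) (nat_lit 471) (nat_lit 3) (nat_lit 263) (nat_lit 235) (nat_lit 282)) (PT.lf (nat_lit 35872) (nat_lit 6) (nat_lit 472) (nat_lit 3) (nat_lit 264) (nat_lit 235) (nat_lit 281))) (PT.nd (nat_lit 78) (PT.lf (nat_lit 35948) (nat_lit 6) (nat_lit 473) (nat_lit 3) (nat_lit 265) (nat_lit 235) (nat_lit 280)) (PT.lf (nat_lit 36024) (nat_lit 6) (nat_lit 474) (nat_lit 3) (nat_lit 266) (nat_lit 235) (nat_lit 279)))) (PT.nd (nat_lit 156) (PT.nd (nat_lit 78) (PT.lf (nat_lit 36100) (nat_lit 6)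 (nat_lit 475) (nat_lit 3) (nat_lit 267) (nat_lit 235) (nat_lit 278)) (PT.lf (nat_lit 36176) (nat_lit 6) (nat_lit 476) (nat_lit 3) (nat_lit 268) (nat_lit 235) (nat_lit 277))) (PT.nd (nat_lit 78) (PT.lf (nat_lit 36252) (nat_lit 6) (nat_lit 477) (nat_lit 3) (nat_lit 269) (nat_lit 235) (nat_lit 276)) (PT.nd (nat_lit 78) (PT.lf (nat_lit 36328) (nat_lit 6) (nat_lit 478) (nat_lit 3) (nat_lit 270) (nat_lit 235) (nat_lit 275)) (PT.lf (nat_lit 36404) (nat_lit 6) (nat_lit 479) (nat_lit 3) (nat_lit 271) (nat_lit 235) (nat_lit 274))))))))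
noncomputable def pc25 : PT := (PT.nd (nat_lit 80418) (PT.nd (nat_lit 624) (PT.nd (nat_lit 312) (PT.nd (nat_lit 156) (PT.nd (nat_lit 78) (PT.lf (nat_lit 36480) (nat_lit 6) (nat_lit 480) (nat_lit 3) (nat_lit 272) (nat_lit 235) (nat_lit 273)) (PT.lf (nat_lit 36480) (nat_lit 6) (nat_lit 480) (nat_lit 1) (nat_lit 273) (nat_lit 235) (nat_lit 272))) (PT.nd (nat_lit 78) (PT.lf (nat_lit 36404) (nat_lit 6) (nat_lit 479) (nat_lit 1) (nat_lit 274) (nat_lit 235) (nat_lit 271)) (PT.lf (nat_lit 36328) (nat_lit 6) (nat_lit 478) (nat_lit 1) (nat_lit 275) (nat_lit 235) (nat_lit 270)))) (PT.nd (nat_lit 156) (PT.nd (nat_lit 78) (PT.lf (nat_lit 36252) (nat_lit 6) (nat_lit 477) (nat_lit 1) (nat_lit 276) (nat_lit 235) (nat_lit 269)) (PT.lf (nat_lit 36176) (nat_lit 6) (nat_lit 476) (nat_lit 1) (nat_lit 277) (nat_lit 235) (nat_lit 268))) (PT.nd (nat_lit 78) (PT.lf (nat_lit 36100) (nat_lit 6) (nat_lit 475) (nat_lit 1) (nat_lit 278) (nat_lit 235) (nat_lit 267)) (PT.lf (nat_lit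 36024) (nat_lit 6) (nat_lit 474) (nat_lit 1) (nat_lit 279) (nat_lit 235) (nat_lit 266))))) (PT.nd (nat_lit 312) (PT.nd (nat_lit 156) (PT.nd (nat_lit 78) (PT.lf (nat_lit 35948) (nat_lit 6) (nat_lit 473) (nat_lit 1) (nat_lit 280) (nat_lit 235) (nat_lit 265)) (PT.lf (nat_lit 35872) (nat_lit 6) (nat_lit 472) (nat_lit 1) (nat_lit 281) (nat_lit 235) (nat_lit 264))) (PT.nd (nat_lit 78) (PT.lf (nat_lit 35796) (nat_lit 6) (nat_lit 471) (nat_lit 1) (nat_lit 282) (nat_lit 235) (nat_lit 263)) (PT.lf (nat_lit 35720) (nat_lit 6) (nat_lit 470) (nat_lit 1) (nat_lit 283) (nat_lit 235) (nat_lit 262)))) (PT.nd (nat_lit 79248) (PT.nd (nat_lit 78) (PT.lf (nat_lit 35644) (nat_lit 6) (nat_lit 469) (nat_lit 1) (nat_lit 284) (nat_lit 235) (nat_lit 261)) (PT.lf (nat_lit 35568) (nat_lit 6) (nat_lit 468) (nat_lit 1) (nat_lit 285) (nat_lit 235) (nat_lit 260))) (PT.nd (nat_lit 78) (PT.lf (nat_lit 35492) (nat_lit 6) (nat_lit 467) (nat_lit 3) (nat_lit 259) (nat_lit 236) (nat_lit 285))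 (PT.nd (nat_lit 78) (PT.lf (nat_lit 37468) (nat_lit 6) (nat_lit 493) (nat_lit 3) (nat_lit 260) (nat_lit 236) (nat_lit 284)) (PT.lf (nat_lit 37544) (nat_lit 6) (nat_lit 494) (nat_lit 3) (nat_lit 261) (nat_lit 236) (nat_lit 283))))))) (PT.nd (nat_lit 702) (PT.nd (nat_lit 312) (PT.nd (nat_lit 156) (PT.nd (nat_lit 78) (PT.lf (nat_lit 37620) (nat_lit 6) (nat_lit 495) (nat_lit 3) (nat_lit 262) (nat_lit 236) (nat_lit 282)) (PT.lf (nat_lit 37696) (nat_lit 6) (nat_lit 496) (nat_lit 3) (nat_lit 263) (nat_lit 236) (nat_lit 281))) (PT.nd (nat_lit 78) (PT.lf (nat_lit 37772) (nat_lit 6) (nat_lit 497) (nat_lit 3) (nat_lit 264) (nat_lit 236) (nat_lit 280)) (PT.lf (nat_lit 37848) (nat_lit 6) (nat_lit 498) (nat_lit 3) (nat_lit 265) (nat_lit 236) (nat_lit 279)))) (PT.nd (nat_lit 156) (PT.nd (nat_lit 78) (PT.lf (nat_lit 37924) (nat_lit 6) (nat_lit 499) (nat_lit 3) (nat_lit 266) (nat_lit 236) (nat_lit 278)) (PT.lf (nat_lit 38000) (nat_lit 6) (nat_lit 500) (nat_lit 3) (nat_lit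 267) (nat_lit 236) (nat_lit 277))) (PT.nd (nat_lit 78) (PT.lf (nat_lit 38076) (nat_lit 6) (nat_lit 501) (nat_lit 3) (nat_lit 268) (nat_lit 236) (nat_lit 276)) (PT.nd (nat_lit 78) (PT.lf (nat_lit 38152) (nat_lit 6) (nat_lit 502) (nat_lit 3) (nat_lit 269) (nat_lit 236) (nat_lit 275)) (PT.lf (nat_lit 38228) (nat_lit 6) (nat_lit 503) (nat_lit 3) (nat_lit 270) (nat_lit 236) (nat_lit 274)))))) (PT.nd (nat_lit 312) (PT.nd (nat_lit 156) (PT.nd (nat_lit 78) (PT.lf (nat_lit 38304) (nat_lit 6) (nat_lit 504) (nat_lit 3) (nat_lit 271) (nat_lit 236) (nat_lit 273)) (PT.lf (nat_lit 38380) (nat_lit 3) (nat_lit 505) (nat_lit 1) (nat_lit 272) (nat_lit 236) (nat_lit 272))) (PT.nd (nat_lit 78) (PT.lf (nat_lit 38304) (nat_lit 6) (nat_lit 504) (nat_lit 1) (nat_lit 273) (nat_lit 236) (nat_lit 271)) (PT.lf (nat_lit 38228) (nat_lit 6) (nat_lit 503) (nat_lit 1) (nat_lit 274) (nat_lit 236) (nat_lit 270)))) (PT.nd (nat_lit 156) (PT.nd (nat_lit 78) (PT.lf (nat_lit 38152) (nat_lit 6)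 (nat_lit 502) (nat_lit 1) (nat_lit 275) (nat_lit 236) (nat_lit 269)) (PT.lf (nat_lit 38076) (nat_lit 6) (nat_lit 501) (nat_lit 1) (nat_lit 276) (nat_lit 236) (nat_lit 268))) (PT.nd (nat_lit 78) (PT.lf (nat_lit 38000) (nat_lit 6) (nat_lit 500) (nat_lit 1) (nat_lit 277) (nat_lit 236) (nat_lit 267)) (PT.nd (nat_lit 78) (PT.lf (nat_lit 37924) (nat_lit 6) (nat_lit 499) (nat_lit 1) (nat_lit 278) (nat_lit 236) (nat_lit 266)) (PT.lf (nat_lit 37848) (nat_lit 6) (nat_lit 498) (nat_lit 1) (nat_lit 279) (nat_lit 236) (nat_lit 265))))))))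
noncomputable def pc26 : PT := (PT.nd (nat_lit 80340) (PT.nd (nat_lit 79638) (PT.nd (nat_lit 312) (PT.nd (nat_lit 156) (PT.nd (nat_lit 78) (PT.lf (nat_lit 37772) (nat_lit 6) (nat_lit 497) (nat_lit 1) (nat_lit 280) (nat_lit 236) (nat_lit 264)) (PT.lf (nat_lit 37696) (nat_lit 6) (nat_lit 496) (nat_lit 1) (nat_lit 281) (nat_lit 236) (nat_lit 263))) (PT.nd (nat_lit 78) (PT.lf (nat_lit 37620) (nat_lit 6) (nat_lit 495) (nat_lit 1) (nat_lit 282) (nat_lit 236) (nat_lit 262)) (PT.lf (nat_lit 37544) (nat_lit 6) (nat_lit 494) (nat_lit 1) (nat_lit 283) (nat_lit 236) (nat_lit 261)))) (PT.nd (nat_lit 79170) (PT.nd (nat_lit 78) (PT.lf (nat_lit 37468) (nat_lit 6) (nat_lit 493) (nat_lit 1) (nat_lit 284) (nat_lit 236) (nat_lit 260)) (PT.lf (nat_lit 35492) (nat_lit 6) (nat_lit 467) (nat_lit 1) (nat_lit 285) (nat_lit 236) (nat_lit 259))) (PT.nd (nat_lit 78) (PT.lf (nat_lit 35416) (nat_lit 6) (nat_lit 466) (nat_lit 3) (nat_lit 258) (nat_lit 237) (nat_lit 285)) (PT.lf (nat_lit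 37392) (nat_lit 6) (nat_lit 492) (nat_lit 3) (nat_lit 259) (nat_lit 237) (nat_lit 284))))) (PT.nd (nat_lit 312) (PT.nd (nat_lit 156) (PT.nd (nat_lit 78) (PT.lf (nat_lit 39292) (nat_lit 6) (nat_lit 517) (nat_lit 3) (nat_lit 260) (nat_lit 237) (nat_lit 283)) (PT.lf (nat_lit 39368) (nat_lit 6) (nat_lit 518) (nat_lit 3) (nat_lit 261) (nat_lit 237) (nat_lit 282))) (PT.nd (nat_lit 78) (PT.lf (nat_lit 39444) (nat_lit 6) (nat_lit 519) (nat_lit 3) (nat_lit 262) (nat_lit 237) (nat_lit 281)) (PT.lf (nat_lit 39520) (nat_lit 6) (nat_lit 520) (nat_lit 3) (nat_lit 263) (nat_lit 237) (nat_lit 280)))) (PT.nd (nat_lit 156) (PT.nd (nat_lit 78) (PT.lf (nat_lit 39596) (nat_lit 6) (nat_lit 521) (nat_lit 3) (nat_lit 264) (nat_lit 237) (nat_lit 279)) (PT.lf (nat_lit 39672) (nat_lit 6) (nat_lit 522) (nat_lit 3) (nat_lit 265) (nat_lit 237) (nat_lit 278))) (PT.nd (nat_lit 78) (PT.lf (nat_lit 39748) (nat_lit 6) (nat_lit 523) (nat_lit 3) (nat_lit 266) (nat_lit 237) (nat_lit 277))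 (PT.nd (nat_lit 78) (PT.lf (nat_lit 39824) (nat_lit 6) (nat_lit 524) (nat_lit 3) (nat_lit 267) (nat_lit 237) (nat_lit 276)) (PT.lf (nat_lit 39900) (nat_lit 6) (nat_lit 525) (nat_lit 3) (nat_lit 268) (nat_lit 237) (nat_lit 275))))))) (PT.nd (nat_lit 702) (PT.nd (nat_lit 312) (PT.nd (nat_lit 156) (PT.nd (nat_lit 78) (PT.lf (nat_lit 39976) (nat_lit 6) (nat_lit 526) (nat_lit 3) (nat_lit 269) (nat_lit 237) (nat_lit 274)) (PT.lf (nat_lit 40052) (nat_lit 6) (nat_lit 527) (nat_lit 3) (nat_lit 270) (nat_lit 237) (nat_lit 273))) (PT.nd (nat_lit 78) (PT.lf (nat_lit 40128) (nat_lit 6) (nat_lit 528) (nat_lit 3) (nat_lit 271) (nat_lit 237) (nat_lit 272)) (PT.lf (nat_lit 40128) (nat_lit 6) (nat_lit 528) (nat_lit 1) (nat_lit 272) (nat_lit 237) (nat_lit 271)))) (PT.nd (nat_lit 156) (PT.nd (nat_lit 78) (PT.lf (nat_lit 40052) (nat_lit 6) (nat_lit 527) (nat_lit 1) (nat_lit 273) (nat_lit 237) (nat_lit 270)) (PT.lf (nat_lit 39976) (nat_lit 6) (nat_lit 526) (nat_lit 1) (nat_lit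 274) (nat_lit 237) (nat_lit 269))) (PT.nd (nat_lit 78) (PT.lf (nat_lit 39900) (nat_lit 6) (nat_lit 525) (nat_lit 1) (nat_lit 275) (nat_lit 237) (nat_lit 268)) (PT.nd (nat_lit 78) (PT.lf (nat_lit 39824) (nat_lit 6) (nat_lit 524) (nat_lit 1) (nat_lit 276) (nat_lit 237) (nat_lit 267)) (PT.lf (nat_lit 39748) (nat_lit 6) (nat_lit 523) (nat_lit 1) (nat_lit 277) (nat_lit 237) (nat_lit 266)))))) (PT.nd (nat_lit 312) (PT.nd (nat_lit 156) (PT.nd (nat_lit 78) (PT.lf (nat_lit 39672) (nat_lit 6) (nat_lit 522) (nat_lit 1) (nat_lit 278) (nat_lit 237) (nat_lit 265)) (PT.lf (nat_lit 39596) (nat_lit 6) (nat_lit 521) (nat_lit 1) (nat_lit 279) (nat_lit 237) (nat_lit 264))) (PT.nd (nat_lit 78) (PT.lf (nat_lit 39520) (nat_lit 6) (nat_lit 520) (nat_lit 1) (nat_lit 280) (nat_lit 237) (nat_lit 263)) (PT.lf (nat_lit 39444) (nat_lit 6) (nat_lit 519) (nat_lit 1) (nat_lit 281) (nat_lit 237) (nat_lit 262)))) (PT.nd (nat_lit 156) (PT.nd (nat_lit 78) (PT.lf (nat_lit 39368) (nat_lit 6)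 (nat_lit 518) (nat_lit 1) (nat_lit 282) (nat_lit 237) (nat_lit 261)) (PT.lf (nat_lit 39292) (nat_lit 6) (nat_lit 517) (nat_lit 1) (nat_lit 283) (nat_lit 237) (nat_lit 260))) (PT.nd (nat_lit 78) (PT.lf (nat_lit 37392) (nat_lit 6) (nat_lit 492) (nat_lit 1) (nat_lit 284) (nat_lit 237) (nat_lit 259)) (PT.nd (nat_lit 79092) (PT.lf (nat_lit 35416) (nat_lit 6) (nat_lit 466) (nat_lit 1) (nat_lit 285) (nat_lit 237) (nat_lit 258)) (PT.lf (nat_lit 37316) (nat_lit 6) (nat_lit 491) (nat_lit 3) (nat_lit 258) (nat_lit 238) (nat_lit 284))))))))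
noncomputable def pc27 : PT := (PT.nd (nat_lit 1326) (PT.nd (nat_lit 624) (PT.nd (nat_lit 312) (PT.nd (nat_lit 156) (PT.nd (nat_lit 78) (PT.lf (nat_lit 39216) (nat_lit 6) (nat_lit 516) (nat_lit 3) (nat_lit 259) (nat_lit 238) (nat_lit 283)) (PT.lf (nat_lit 41040) (nat_lit 6) (nat_lit 540) (nat_lit 3) (nat_lit 260) (nat_lit 238) (nat_lit 282))) (PT.nd (nat_lit 78) (PT.lf (nat_lit 41116) (nat_lit 6) (nat_lit 541) (nat_lit 3) (nat_lit 261) (nat_lit 238) (nat_lit 281)) (PT.lf (nat_lit 41192) (nat_lit 6) (nat_lit 542) (nat_lit 3) (nat_lit 262) (nat_lit 238) (nat_lit 280)))) (PT.nd (nat_lit 156) (PT.nd (nat_lit 78) (PT.lf (nat_lit 41268) (nat_lit 6) (nat_lit 543) (nat_lit 3) (nat_lit 263) (nat_lit 238) (nat_lit 279)) (PT.lf (nat_lit 41344) (nat_lit 6) (nat_lit 544) (nat_lit 3) (nat_lit 264) (nat_lit 238) (nat_lit 278))) (PT.nd (nat_lit 78) (PT.lf (nat_lit 41420) (nat_lit 6) (nat_lit 545) (nat_lit 3) (nat_lit 265) (nat_lit 238) (nat_lit 277)) (PT.lf (nat_lit 41496)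 (nat_lit 6) (nat_lit 546) (nat_lit 3) (nat_lit 266) (nat_lit 238) (nat_lit 276))))) (PT.nd (nat_lit 312) (PT.nd (nat_lit 156) (PT.nd (nat_lit 78) (PT.lf (nat_lit 41572) (nat_lit 6) (nat_lit 547) (nat_lit 3) (nat_lit 267) (nat_lit 238) (nat_lit 275)) (PT.lf (nat_lit 41648) (nat_lit 6) (nat_lit 548) (nat_lit 3) (nat_lit 268) (nat_lit 238) (nat_lit 274))) (PT.nd (nat_lit 78) (PT.lf (nat_lit 41724) (nat_lit 6) (nat_lit 549) (nat_lit 3) (nat_lit 269) (nat_lit 238) (nat_lit 273)) (PT.lf (nat_lit 41800) (nat_lit 6) (nat_lit 550) (nat_lit 3) (nat_lit 270) (nat_lit 238) (nat_lit 272)))) (PT.nd (nat_lit 156) (PT.nd (nat_lit 78) (PT.lf (nat_lit 41876) (nat_lit 3) (nat_lit 551) (nat_lit 1) (nat_lit 271) (nat_lit 238) (nat_lit 271)) (PT.lf (nat_lit 41800) (nat_lit 6) (nat_lit 550) (nat_lit 1) (nat_lit 272) (nat_lit 238) (nat_lit 270))) (PT.nd (nat_lit 78) (PT.lf (nat_lit 41724) (nat_lit 6) (nat_lit 549) (nat_lit 1) (nat_lit 273) (nat_lit 238) (nat_lit 269)) (PT.nd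 (nat_lit 78) (PT.lf (nat_lit 41648) (nat_lit 6) (nat_lit 548) (nat_lit 1) (nat_lit 274) (nat_lit 238) (nat_lit 268)) (PT.lf (nat_lit 41572) (nat_lit 6) (nat_lit 547) (nat_lit 1) (nat_lit 275) (nat_lit 238) (nat_lit 267))))))) (PT.nd (nat_lit 79716) (PT.nd (nat_lit 312) (PT.nd (nat_lit 156) (PT.nd (nat_lit 78) (PT.lf (nat_lit 41496) (nat_lit 6) (nat_lit 546) (nat_lit 1) (nat_lit 276) (nat_lit 238) (nat_lit 266)) (PT.lf (nat_lit 41420) (nat_lit 6) (nat_lit 545) (nat_lit 1) (nat_lit 277) (nat_lit 238) (nat_lit 265))) (PT.nd (nat_lit 78) (PT.lf (nat_lit 41344) (nat_lit 6) (nat_lit 544) (nat_lit 1) (nat_lit 278) (nat_lit 238) (nat_lit 264)) (PT.lf (nat_lit 41268) (nat_lit 6) (nat_lit 543) (nat_lit 1) (nat_lit 279) (nat_lit 238) (nat_lit 263)))) (PT.nd (nat_lit 156) (PT.nd (nat_lit 78) (PT.lf (nat_lit 41192) (nat_lit 6) (nat_lit 542) (nat_lit 1) (nat_lit 280) (nat_lit 238) (nat_lit 262)) (PT.lf (nat_lit 41116) (nat_lit 6) (nat_lit 541) (nat_lit 1) (nat_lit 281)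 (nat_lit 238) (nat_lit 261))) (PT.nd (nat_lit 78) (PT.lf (nat_lit 41040) (nat_lit 6) (nat_lit 540) (nat_lit 1) (nat_lit 282) (nat_lit 238) (nat_lit 260)) (PT.nd (nat_lit 78) (PT.lf (nat_lit 39216) (nat_lit 6) (nat_lit 516) (nat_lit 1) (nat_lit 283) (nat_lit 238) (nat_lit 259)) (PT.lf (nat_lit 37316) (nat_lit 6) (nat_lit 491) (nat_lit 1) (nat_lit 284) (nat_lit 238) (nat_lit 258)))))) (PT.nd (nat_lit 312) (PT.nd (nat_lit 156) (PT.nd (nat_lit 78) (PT.lf (nat_lit 37240) (nat_lit 6) (nat_lit 490) (nat_lit 3) (nat_lit 257) (nat_lit 239) (nat_lit 284)) (PT.lf (nat_lit 39140) (nat_lit 6) (nat_lit 515) (nat_lit 3) (nat_lit 258) (nat_lit 239) (nat_lit 283))) (PT.nd (nat_lit 78) (PT.lf (nat_lit 40964) (nat_lit 6) (nat_lit 539) (nat_lit 3) (nat_lit 259) (nat_lit 239) (nat_lit 282)) (PT.lf (nat_lit 42712) (nat_lit 6) (nat_lit 562) (nat_lit 3) (nat_lit 260) (nat_lit 239) (nat_lit 281)))) (PT.nd (nat_lit 156) (PT.nd (nat_lit 78) (PT.lf (nat_lit 42788) (nat_lit 6) (nat_lit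 563) (nat_lit 3) (nat_lit 261) (nat_lit 239) (nat_lit 280)) (PT.lf (nat_lit 42864) (nat_lit 6) (nat_lit 564) (nat_lit 3) (nat_lit 262) (nat_lit 239) (nat_lit 279))) (PT.nd (nat_lit 78) (PT.lf (nat_lit 42940) (nat_lit 6) (nat_lit 565) (nat_lit 3) (nat_lit 263) (nat_lit 239) (nat_lit 278)) (PT.nd (nat_lit 78) (PT.lf (nat_lit 43016) (nat_lit 6) (nat_lit 566) (nat_lit 3) (nat_lit 264) (nat_lit 239) (nat_lit 277)) (PT.lf (nat_lit 43092) (nat_lit 6) (nat_lit 567) (nat_lit 3) (nat_lit 265) (nat_lit 239) (nat_lit 276))))))))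
noncomputable def pc28 : PT := (PT.nd (nat_lit 1326) (PT.nd (nat_lit 624) (PT.nd (nat_lit 312) (PT.nd (nat_lit 156) (PT.nd (nat_lit 78) (PT.lf (nat_lit 43168) (nat_lit 6) (nat_lit 568) (nat_lit 3) (nat_lit 266) (nat_lit 239) (nat_lit 275)) (PT.lf (nat_lit 43244) (nat_lit 6) (nat_lit 569) (nat_lit 3) (nat_lit 267) (nat_lit 239) (nat_lit 274))) (PT.nd (nat_lit 78) (PT.lf (nat_lit 43320) (nat_lit 6) (nat_lit 570) (nat_lit 3) (nat_lit 268) (nat_lit 239) (nat_lit 273)) (PT.lf (nat_lit 43396) (nat_lit 6) (nat_lit 571) (nat_lit 3) (nat_lit 269) (nat_lit 239) (nat_lit 272)))) (PT.nd (nat_lit 156) (PT.nd (nat_lit 78) (PT.lf (nat_lit 43472) (nat_lit 6) (nat_lit 572) (nat_lit 3) (nat_lit 270) (nat_lit 239) (nat_lit 271)) (PT.lf (nat_lit 43472) (nat_lit 6) (nat_lit 572) (nat_lit 1) (nat_lit 271) (nat_lit 239) (nat_lit 270))) (PT.nd (nat_lit 78) (PT.lf (nat_lit 43396) (nat_lit 6) (nat_lit 571) (nat_lit 1) (nat_lit 272) (nat_lit 239) (nat_lit 269)) (PT.lf (nat_lit 43320)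 (nat_lit 6) (nat_lit 570) (nat_lit 1) (nat_lit 273) (nat_lit 239) (nat_lit 268))))) (PT.nd (nat_lit 312) (PT.nd (nat_lit 156) (PT.nd (nat_lit 78) (PT.lf (nat_lit 43244) (nat_lit 6) (nat_lit 569) (nat_lit 1) (nat_lit 274) (nat_lit 239) (nat_lit 267)) (PT.lf (nat_lit 43168) (nat_lit 6) (nat_lit 568) (nat_lit 1) (nat_lit 275) (nat_lit 239) (nat_lit 266))) (PT.nd (nat_lit 78) (PT.lf (nat_lit 43092) (nat_lit 6) (nat_lit 567) (nat_lit 1) (nat_lit 276) (nat_lit 239) (nat_lit 265)) (PT.lf (nat_lit 43016) (nat_lit 6) (nat_lit 566) (nat_lit 1) (nat_lit 277) (nat_lit 239) (nat_lit 264)))) (PT.nd (nat_lit 156) (PT.nd (nat_lit 78) (PT.lf (nat_lit 42940) (nat_lit 6) (nat_lit 565) (nat_lit 1) (nat_lit 278) (nat_lit 239) (nat_lit 263)) (PT.lf (nat_lit 42864) (nat_lit 6) (nat_lit 564) (nat_lit 1) (nat_lit 279) (nat_lit 239) (nat_lit 262))) (PT.nd (nat_lit 78) (PT.lf (nat_lit 42788) (nat_lit 6) (nat_lit 563) (nat_lit 1) (nat_lit 280) (nat_lit 239) (nat_lit 261)) (PT.nd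 (nat_lit 78) (PT.lf (nat_lit 42712) (nat_lit 6) (nat_lit 562) (nat_lit 1) (nat_lit 281) (nat_lit 239) (nat_lit 260)) (PT.lf (nat_lit 40964) (nat_lit 6) (nat_lit 539) (nat_lit 1) (nat_lit 282) (nat_lit 239) (nat_lit 259))))))) (PT.nd (nat_lit 79638) (PT.nd (nat_lit 79248) (PT.nd (nat_lit 79092) (PT.nd (nat_lit 78) (PT.lf (nat_lit 39140) (nat_lit 6) (nat_lit 515) (nat_lit 1) (nat_lit 283) (nat_lit 239) (nat_lit 258)) (PT.lf (nat_lit 37240) (nat_lit 6) (nat_lit 490) (nat_lit 1) (nat_lit 284) (nat_lit 239) (nat_lit 257))) (PT.nd (nat_lit 78) (PT.lf (nat_lit 37164) (nat_lit 6) (nat_lit 489) (nat_lit 3) (nat_lit 256) (nat_lit 240) (nat_lit 284)) (PT.lf (nat_lit 39064) (nat_lit 6) (nat_lit 514) (nat_lit 3) (nat_lit 257) (nat_lit 240) (nat_lit 283)))) (PT.nd (nat_lit 156) (PT.nd (nat_lit 78) (PT.lf (nat_lit 40888) (nat_lit 6) (nat_lit 538) (nat_lit 3) (nat_lit 258) (nat_lit 240) (nat_lit 282)) (PT.lf (nat_lit 42636) (nat_lit 6) (nat_lit 561) (nat_lit 3) (nat_lit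 259) (nat_lit 240) (nat_lit 281))) (PT.nd (nat_lit 78) (PT.lf (nat_lit 44308) (nat_lit 6) (nat_lit 583) (nat_lit 3) (nat_lit 260) (nat_lit 240) (nat_lit 280)) (PT.nd (nat_lit 78) (PT.lf (nat_lit 44384) (nat_lit 6) (nat_lit 584) (nat_lit 3) (nat_lit 261) (nat_lit 240) (nat_lit 279)) (PT.lf (nat_lit 44460) (nat_lit 6) (nat_lit 585) (nat_lit 3) (nat_lit 262) (nat_lit 240) (nat_lit 278)))))) (PT.nd (nat_lit 312) (PT.nd (nat_lit 156) (PT.nd (nat_lit 78) (PT.lf (nat_lit 44536) (nat_lit 6) (nat_lit 586) (nat_lit 3) (nat_lit 263) (nat_lit 240) (nat_lit 277)) (PT.lf (nat_lit 44612) (nat_lit 6) (nat_lit 587) (nat_lit 3) (nat_lit 264) (nat_lit 240) (nat_lit 276))) (PT.nd (nat_lit 78) (PT.lf (nat_lit 44688) (nat_lit 6) (nat_lit 588) (nat_lit 3) (nat_lit 265) (nat_lit 240) (nat_lit 275)) (PT.lf (nat_lit 44764) (nat_lit 6) (nat_lit 589) (nat_lit 3) (nat_lit 266) (nat_lit 240) (nat_lit 274)))) (PT.nd (nat_lit 156) (PT.nd (nat_lit 78) (PT.lf (nat_lit 44840) (nat_lit 6)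 (nat_lit 590) (nat_lit 3) (nat_lit 267) (nat_lit 240) (nat_lit 273)) (PT.lf (nat_lit 44916) (nat_lit 6) (nat_lit 591) (nat_lit 3) (nat_lit 268) (nat_lit 240) (nat_lit 272))) (PT.nd (nat_lit 78) (PT.lf (nat_lit 44992) (nat_lit 6) (nat_lit 592) (nat_lit 3) (nat_lit 269) (nat_lit 240) (nat_lit 271)) (PT.nd (nat_lit 78) (PT.lf (nat_lit 45068) (nat_lit 3) (nat_lit 593) (nat_lit 1) (nat_lit 270) (nat_lit 240) (nat_lit 270)) (PT.lf (nat_lit 44992) (nat_lit 6) (nat_lit 592) (nat_lit 1) (nat_lit 271) (nat_lit 240) (nat_lit 269))))))))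
noncomputable def pc29 : PT := (PT.nd (nat_lit 80184) (PT.nd (nat_lit 624) (PT.nd (nat_lit 312) (PT.nd (nat_lit 156) (PT.nd (nat_lit 78) (PT.lf (nat_lit 44916) (nat_lit 6) (nat_lit 591) (nat_lit 1) (nat_lit 272) (nat_lit 240) (nat_lit 268)) (PT.lf (nat_lit 44840) (nat_lit 6) (nat_lit 590) (nat_lit 1) (nat_lit 273) (nat_lit 240) (nat_lit 267))) (PT.nd (nat_lit 78) (PT.lf (nat_lit 44764) (nat_lit 6) (nat_lit 589) (nat_lit 1) (nat_lit 274) (nat_lit 240) (nat_lit 266)) (PT.lf (nat_lit 44688) (nat_lit 6) (nat_lit 588) (nat_lit 1) (nat_lit 275) (nat_lit 240) (nat_lit 265)))) (PT.nd (nat_lit 156) (PT.nd (nat_lit 78) (PT.lf (nat_lit 44612) (nat_lit 6) (nat_lit 587) (nat_lit 1) (nat_lit 276) (nat_lit 240) (nat_lit 264)) (PT.lf (nat_lit 44536) (nat_lit 6) (nat_lit 586) (nat_lit 1) (nat_lit 277) (nat_lit 240) (nat_lit 263))) (PT.nd (nat_lit 78) (PT.lf (nat_lit 44460) (nat_lit 6) (nat_lit 585) (nat_lit 1) (nat_lit 278) (nat_lit 240) (nat_lit 262)) (PT.lf (nat_lit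 44384) (nat_lit 6) (nat_lit 584) (nat_lit 1) (nat_lit 279) (nat_lit 240) (nat_lit 261))))) (PT.nd (nat_lit 312) (PT.nd (nat_lit 156) (PT.nd (nat_lit 78) (PT.lf (nat_lit 44308) (nat_lit 6) (nat_lit 583) (nat_lit 1) (nat_lit 280) (nat_lit 240) (nat_lit 260)) (PT.lf (nat_lit 42636) (nat_lit 6) (nat_lit 561) (nat_lit 1) (nat_lit 281) (nat_lit 240) (nat_lit 259))) (PT.nd (nat_lit 78) (PT.lf (nat_lit 40888) (nat_lit 6) (nat_lit 538) (nat_lit 1) (nat_lit 282) (nat_lit 240) (nat_lit 258)) (PT.lf (nat_lit 39064) (nat_lit 6) (nat_lit 514) (nat_lit 1) (nat_lit 283) (nat_lit 240) (nat_lit 257)))) (PT.nd (nat_lit 79014) (PT.nd (nat_lit 78936) (PT.lf (nat_lit 37164) (nat_lit 6) (nat_lit 489) (nat_lit 1) (nat_lit 284) (nat_lit 240) (nat_lit 256)) (PT.lf (nat_lit 37088) (nat_lit 6) (nat_lit 488) (nat_lit 3) (nat_lit 255) (nat_lit 241) (nat_lit 284))) (PT.nd (nat_lit 78) (PT.lf (nat_lit 38988) (nat_lit 6) (nat_lit 513) (nat_lit 3) (nat_lit 256) (nat_lit 241) (nat_lit 283))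 (PT.nd (nat_lit 78) (PT.lf (nat_lit 40812) (nat_lit 6) (nat_lit 537) (nat_lit 3) (nat_lit 257) (nat_lit 241) (nat_lit 282)) (PT.lf (nat_lit 42560) (nat_lit 6) (nat_lit 560) (nat_lit 3) (nat_lit 258) (nat_lit 241) (nat_lit 281))))))) (PT.nd (nat_lit 702) (PT.nd (nat_lit 312) (PT.nd (nat_lit 156) (PT.nd (nat_lit 78) (PT.lf (nat_lit 44232) (nat_lit 6) (nat_lit 582) (nat_lit 3) (nat_lit 259) (nat_lit 241) (nat_lit 280)) (PT.lf (nat_lit 45828) (nat_lit 6) (nat_lit 603) (nat_lit 3) (nat_lit 260) (nat_lit 241) (nat_lit 279))) (PT.nd (nat_lit 78) (PT.lf (nat_lit 45904) (nat_lit 6) (nat_lit 604) (nat_lit 3) (nat_lit 261) (nat_lit 241) (nat_lit 278)) (PT.lf (nat_lit 45980) (nat_lit 6) (nat_lit 605) (nat_lit 3) (nat_lit 262) (nat_lit 241) (nat_lit 277)))) (PT.nd (nat_lit 156) (PT.nd (nat_lit 78) (PT.lf (nat_lit 46056) (nat_lit 6) (nat_lit 606) (nat_lit 3) (nat_lit 263) (nat_lit 241) (nat_lit 276)) (PT.lf (nat_lit 46132) (nat_lit 6) (nat_lit 607) (nat_lit 3) (nat_lit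 264) (nat_lit 241) (nat_lit 275))) (PT.nd (nat_lit 78) (PT.lf (nat_lit 46208) (nat_lit 6) (nat_lit 608) (nat_lit 3) (nat_lit 265) (nat_lit 241) (nat_lit 274)) (PT.nd (nat_lit 78) (PT.lf (nat_lit 46284) (nat_lit 6) (nat_lit 609) (nat_lit 3) (nat_lit 266) (nat_lit 241) (nat_lit 273)) (PT.lf (nat_lit 46360) (nat_lit 6) (nat_lit 610) (nat_lit 3) (nat_lit 267) (nat_lit 241) (nat_lit 272)))))) (PT.nd (nat_lit 312) (PT.nd (nat_lit 156) (PT.nd (nat_lit 78) (PT.lf (nat_lit 46436) (nat_lit 6) (nat_lit 611) (nat_lit 3) (nat_lit 268) (nat_lit 241) (nat_lit 271)) (PT.lf (nat_lit 46512) (nat_lit 6) (nat_lit 612) (nat_lit 3) (nat_lit 269) (nat_lit 241) (nat_lit 270))) (PT.nd (nat_lit 78) (PT.lf (nat_lit 46512) (nat_lit 6) (nat_lit 612) (nat_lit 1) (nat_lit 270) (nat_lit 241) (nat_lit 269)) (PT.lf (nat_lit 46436) (nat_lit 6) (nat_lit 611) (nat_lit 1) (nat_lit 271) (nat_lit 241) (nat_lit 268)))) (PT.nd (nat_lit 156) (PT.nd (nat_lit 78) (PT.lf (nat_lit 46360) (nat_lit 6)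 (nat_lit 610) (nat_lit 1) (nat_lit 272) (nat_lit 241) (nat_lit 267)) (PT.lf (nat_lit 46284) (nat_lit 6) (nat_lit 609) (nat_lit 1) (nat_lit 273) (nat_lit 241) (nat_lit 266))) (PT.nd (nat_lit 78) (PT.lf (nat_lit 46208) (nat_lit 6) (nat_lit 608) (nat_lit 1) (nat_lit 274) (nat_lit 241) (nat_lit 265)) (PT.nd (nat_lit 78) (PT.lf (nat_lit 46132) (nat_lit 6) (nat_lit 607) (nat_lit 1) (nat_lit 275) (nat_lit 241) (nat_lit 264)) (PT.lf (nat_lit 46056) (nat_lit 6) (nat_lit 606) (nat_lit 1) (nat_lit 276) (nat_lit 241) (nat_lit 263))))))))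
noncomputable def pc30 : PT := (PT.nd (nat_lit 80106) (PT.nd (nat_lit 79404) (PT.nd (nat_lit 312) (PT.nd (nat_lit 156) (PT.nd (nat_lit 78) (PT.lf (nat_lit 45980) (nat_lit 6) (nat_lit 605) (nat_lit 1) (nat_lit 277) (nat_lit 241) (nat_lit 262)) (PT.lf (nat_lit 45904) (nat_lit 6) (nat_lit 604) (nat_lit 1) (nat_lit 278) (nat_lit 241) (nat_lit 261))) (PT.nd (nat_lit 78) (PT.lf (nat_lit 45828) (nat_lit 6) (nat_lit 603) (nat_lit 1) (nat_lit 279) (nat_lit 241) (nat_lit 260)) (PT.lf (nat_lit 44232) (nat_lit 6) (nat_lit 582) (nat_lit 1) (nat_lit 280) (nat_lit 241) (nat_lit 259)))) (PT.nd (nat_lit 156) (PT.nd (nat_lit 78) (PT.lf (nat_lit 42560) (nat_lit 6) (nat_lit 560) (nat_lit 1) (nat_lit 281) (nat_lit 241) (nat_lit 258)) (PT.lf (nat_lit 40812) (nat_lit 6) (nat_lit 537) (nat_lit 1) (nat_lit 282) (nat_lit 241) (nat_lit 257))) (PT.nd (nat_lit 78) (PT.lf (nat_lit 38988) (nat_lit 6) (nat_lit 513) (nat_lit 1) (nat_lit 283) (nat_lit 241) (nat_lit 256)) (PT.lf (nat_lit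 37088) (nat_lit 6) (nat_lit 488) (nat_lit 1) (nat_lit 284) (nat_lit 241) (nat_lit 255))))) (PT.nd (nat_lit 312) (PT.nd (nat_lit 156) (PT.nd (nat_lit 78) (PT.lf (nat_lit 37012) (nat_lit 6) (nat_lit 487) (nat_lit 3) (nat_lit 254) (nat_lit 242) (nat_lit 284)) (PT.lf (nat_lit 38912) (nat_lit 6) (nat_lit 512) (nat_lit 3) (nat_lit 255) (nat_lit 242) (nat_lit 283))) (PT.nd (nat_lit 78) (PT.lf (nat_lit 40736) (nat_lit 6) (nat_lit 536) (nat_lit 3) (nat_lit 256) (nat_lit 242) (nat_lit 282)) (PT.lf (nat_lit 42484) (nat_lit 6) (nat_lit 559) (nat_lit 3) (nat_lit 257) (nat_lit 242) (nat_lit 281)))) (PT.nd (nat_lit 156) (PT.nd (nat_lit 78) (PT.lf (nat_lit 44156) (nat_lit 6) (nat_lit 581) (nat_lit 3) (nat_lit 258) (nat_lit 242) (nat_lit 280)) (PT.lf (nat_lit 45752) (nat_lit 6) (nat_lit 602) (nat_lit 3) (nat_lit 259) (nat_lit 242) (nat_lit 279))) (PT.nd (nat_lit 78) (PT.lf (nat_lit 47272) (nat_lit 6) (nat_lit 622) (nat_lit 3) (nat_lit 260) (nat_lit 242) (nat_lit 278))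 (PT.nd (nat_lit 78) (PT.lf (nat_lit 47348) (nat_lit 6) (nat_lit 623) (nat_lit 3) (nat_lit 261) (nat_lit 242) (nat_lit 277)) (PT.lf (nat_lit 47424) (nat_lit 6) (nat_lit 624) (nat_lit 3) (nat_lit 262) (nat_lit 242) (nat_lit 276))))))) (PT.nd (nat_lit 702) (PT.nd (nat_lit 312) (PT.nd (nat_lit 156) (PT.nd (nat_lit 78) (PT.lf (nat_lit 47500) (nat_lit 6) (nat_lit 625) (nat_lit 3) (nat_lit 263) (nat_lit 242) (nat_lit 275)) (PT.lf (nat_lit 47576) (nat_lit 6) (nat_lit 626) (nat_lit 3) (nat_lit 264) (nat_lit 242) (nat_lit 274))) (PT.nd (nat_lit 78) (PT.lf (nat_lit 47652) (nat_lit 6) (nat_lit 627) (nat_lit 3) (nat_lit 265) (nat_lit 242) (nat_lit 273)) (PT.lf (nat_lit 47728) (nat_lit 6) (nat_lit 628) (nat_lit 3) (nat_lit 266) (nat_lit 242) (nat_lit 272)))) (PT.nd (nat_lit 156) (PT.nd (nat_lit 78) (PT.lf (nat_lit 47804) (nat_lit 6) (nat_lit 629) (nat_lit 3) (nat_lit 267) (nat_lit 242) (nat_lit 271)) (PT.lf (nat_lit 47880) (nat_lit 6) (nat_lit 630) (nat_lit 3) (nat_lit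 268) (nat_lit 242) (nat_lit 270))) (PT.nd (nat_lit 78) (PT.lf (nat_lit 47956) (nat_lit 3) (nat_lit 631) (nat_lit 1) (nat_lit 269) (nat_lit 242) (nat_lit 269)) (PT.nd (nat_lit 78) (PT.lf (nat_lit 47880) (nat_lit 6) (nat_lit 630) (nat_lit 1) (nat_lit 270) (nat_lit 242) (nat_lit 268)) (PT.lf (nat_lit 47804) (nat_lit 6) (nat_lit 629) (nat_lit 1) (nat_lit 271) (nat_lit 242) (nat_lit 267)))))) (PT.nd (nat_lit 312) (PT.nd (nat_lit 156) (PT.nd (nat_lit 78) (PT.lf (nat_lit 47728) (nat_lit 6) (nat_lit 628) (nat_lit 1) (nat_lit 272) (nat_lit 242) (nat_lit 266)) (PT.lf (nat_lit 47652) (nat_lit 6) (nat_lit 627) (nat_lit 1) (nat_lit 273) (nat_lit 242) (nat_lit 265))) (PT.nd (nat_lit 78) (PT.lf (nat_lit 47576) (nat_lit 6) (nat_lit 626) (nat_lit 1) (nat_lit 274) (nat_lit 242) (nat_lit 264)) (PT.lf (nat_lit 47500) (nat_lit 6) (nat_lit 625) (nat_lit 1) (nat_lit 275) (nat_lit 242) (nat_lit 263)))) (PT.nd (nat_lit 156) (PT.nd (nat_lit 78) (PT.lf (nat_lit 47424) (nat_lit 6)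 (nat_lit 624) (nat_lit 1) (nat_lit 276) (nat_lit 242) (nat_lit 262)) (PT.lf (nat_lit 47348) (nat_lit 6) (nat_lit 623) (nat_lit 1) (nat_lit 277) (nat_lit 242) (nat_lit 261))) (PT.nd (nat_lit 78) (PT.lf (nat_lit 47272) (nat_lit 6) (nat_lit 622) (nat_lit 1) (nat_lit 278) (nat_lit 242) (nat_lit 260)) (PT.nd (nat_lit 78) (PT.lf (nat_lit 45752) (nat_lit 6) (nat_lit 602) (nat_lit 1) (nat_lit 279) (nat_lit 242) (nat_lit 259)) (PT.lf (nat_lit 44156) (nat_lit 6) (nat_lit 581) (nat_lit 1) (nat_lit 280) (nat_lit 242) (nat_lit 258))))))))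
noncomputable def pc31 : PT := (PT.nd (nat_lit 80028) (PT.nd (nat_lit 79326) (PT.nd (nat_lit 79014) (PT.nd (nat_lit 156) (PT.nd (nat_lit 78) (PT.lf (nat_lit 42484) (nat_lit 6) (nat_lit 559) (nat_lit 1) (nat_lit 281) (nat_lit 242) (nat_lit 257)) (PT.lf (nat_lit 40736) (nat_lit 6) (nat_lit 536) (nat_lit 1) (nat_lit 282) (nat_lit 242) (nat_lit 256))) (PT.nd (nat_lit 78) (PT.lf (nat_lit 38912) (nat_lit 6) (nat_lit 512) (nat_lit 1) (nat_lit 283) (nat_lit 242) (nat_lit 255)) (PT.lf (nat_lit 37012) (nat_lit 6) (nat_lit 487) (nat_lit 1) (nat_lit 284) (nat_lit 242) (nat_lit 254)))) (PT.nd (nat_lit 156) (PT.nd (nat_lit 78) (PT.lf (nat_lit 36936) (nat_lit 6) (nat_lit 486) (nat_lit 3) (nat_lit 253) (nat_lit 243) (nat_lit 284)) (PT.lf (nat_lit 38836) (nat_lit 6) (nat_lit 511) (nat_lit 3) (nat_lit 254) (nat_lit 243) (nat_lit 283))) (PT.nd (nat_lit 78) (PT.lf (nat_lit 40660) (nat_lit 6) (nat_lit 535) (nat_lit 3) (nat_lit 255) (nat_lit 243) (nat_lit 282)) (PT.lf (nat_lit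 42408) (nat_lit 6) (nat_lit 558) (nat_lit 3) (nat_lit 256) (nat_lit 243) (nat_lit 281))))) (PT.nd (nat_lit 312) (PT.nd (nat_lit 156) (PT.nd (nat_lit 78) (PT.lf (nat_lit 44080) (nat_lit 6) (nat_lit 580) (nat_lit 3) (nat_lit 257) (nat_lit 243) (nat_lit 280)) (PT.lf (nat_lit 45676) (nat_lit 6) (nat_lit 601) (nat_lit 3) (nat_lit 258) (nat_lit 243) (nat_lit 279))) (PT.nd (nat_lit 78) (PT.lf (nat_lit 47196) (nat_lit 6) (nat_lit 621) (nat_lit 3) (nat_lit 259) (nat_lit 243) (nat_lit 278)) (PT.lf (nat_lit 48640) (nat_lit 6) (nat_lit 640) (nat_lit 3) (nat_lit 260) (nat_lit 243) (nat_lit 277)))) (PT.nd (nat_lit 156) (PT.nd (nat_lit 78) (PT.lf (nat_lit 48716) (nat_lit 6) (nat_lit 641) (nat_lit 3) (nat_lit 261) (nat_lit 243) (nat_lit 276)) (PT.lf (nat_lit 48792) (nat_lit 6) (nat_lit 642) (nat_lit 3) (nat_lit 262) (nat_lit 243) (nat_lit 275))) (PT.nd (nat_lit 78) (PT.lf (nat_lit 48868) (nat_lit 6) (nat_lit 643) (nat_lit 3) (nat_lit 263) (nat_lit 243) (nat_lit 274))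 (PT.nd (nat_lit 78) (PT.lf (nat_lit 48944) (nat_lit 6) (nat_lit 644) (nat_lit 3) (nat_lit 264) (nat_lit 243) (nat_lit 273)) (PT.lf (nat_lit 49020) (nat_lit 6) (nat_lit 645) (nat_lit 3) (nat_lit 265) (nat_lit 243) (nat_lit 272))))))) (PT.nd (nat_lit 702) (PT.nd (nat_lit 312) (PT.nd (nat_lit 156) (PT.nd (nat_lit 78) (PT.lf (nat_lit 49096) (nat_lit 6) (nat_lit 646) (nat_lit 3) (nat_lit 266) (nat_lit 243) (nat_lit 271)) (PT.lf (nat_lit 49172) (nat_lit 6) (nat_lit 647) (nat_lit 3) (nat_lit 267) (nat_lit 243) (nat_lit 270))) (PT.nd (nat_lit 78) (PT.lf (nat_lit 49248) (nat_lit 6) (nat_lit 648) (nat_lit 3) (nat_lit 268) (nat_lit 243) (nat_lit 269)) (PT.lf (nat_lit 49248) (nat_lit 6) (nat_lit 648) (nat_lit 1) (nat_lit 269) (nat_lit 243) (nat_lit 268)))) (PT.nd (nat_lit 156) (PT.nd (nat_lit 78) (PT.lf (nat_lit 49172) (nat_lit 6) (nat_lit 647) (nat_lit 1) (nat_lit 270) (nat_lit 243) (nat_lit 267)) (PT.lf (nat_lit 49096) (nat_lit 6) (nat_lit 646) (nat_lit 1) (nat_lit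 271) (nat_lit 243) (nat_lit 266))) (PT.nd (nat_lit 78) (PT.lf (nat_lit 49020) (nat_lit 6) (nat_lit 645) (nat_lit 1) (nat_lit 272) (nat_lit 243) (nat_lit 265)) (PT.nd (nat_lit 78) (PT.lf (nat_lit 48944) (nat_lit 6) (nat_lit 644) (nat_lit 1) (nat_lit 273) (nat_lit 243) (nat_lit 264)) (PT.lf (nat_lit 48868) (nat_lit 6) (nat_lit 643) (nat_lit 1) (nat_lit 274) (nat_lit 243) (nat_lit 263)))))) (PT.nd (nat_lit 312) (PT.nd (nat_lit 156) (PT.nd (nat_lit 78) (PT.lf (nat_lit 48792) (nat_lit 6) (nat_lit 642) (nat_lit 1) (nat_lit 275) (nat_lit 243) (nat_lit 262)) (PT.lf (nat_lit 48716) (nat_lit 6) (nat_lit 641) (nat_lit 1) (nat_lit 276) (nat_lit 243) (nat_lit 261))) (PT.nd (nat_lit 78) (PT.lf (nat_lit 48640) (nat_lit 6) (nat_lit 640) (nat_lit 1) (nat_lit 277) (nat_lit 243) (nat_lit 260)) (PT.lf (nat_lit 47196) (nat_lit 6) (nat_lit 621) (nat_lit 1) (nat_lit 278) (nat_lit 243) (nat_lit 259)))) (PT.nd (nat_lit 156) (PT.nd (nat_lit 78) (PT.lf (nat_lit 45676) (nat_lit 6)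 (nat_lit 601) (nat_lit 1) (nat_lit 279) (nat_lit 243) (nat_lit 258)) (PT.lf (nat_lit 44080) (nat_lit 6) (nat_lit 580) (nat_lit 1) (nat_lit 280) (nat_lit 243) (nat_lit 257))) (PT.nd (nat_lit 78) (PT.lf (nat_lit 42408) (nat_lit 6) (nat_lit 558) (nat_lit 1) (nat_lit 281) (nat_lit 243) (nat_lit 256)) (PT.nd (nat_lit 78) (PT.lf (nat_lit 40660) (nat_lit 6) (nat_lit 535) (nat_lit 1) (nat_lit 282) (nat_lit 243) (nat_lit 255)) (PT.lf (nat_lit 38836) (nat_lit 6) (nat_lit 511) (nat_lit 1) (nat_lit 283) (nat_lit 243) (nat_lit 254))))))))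
noncomputable def pc32 : PT := (PT.nd (nat_lit 79950) (PT.nd (nat_lit 79248) (PT.nd (nat_lit 78936) (PT.nd (nat_lit 78780) (PT.nd (nat_lit 78702) (PT.lf (nat_lit 36936) (nat_lit 6) (nat_lit 486) (nat_lit 1) (nat_lit 284) (nat_lit 243) (nat_lit 253)) (PT.lf (nat_lit 36860) (nat_lit 6) (nat_lit 485) (nat_lit 3) (nat_lit 252) (nat_lit 244) (nat_lit 284))) (PT.nd (nat_lit 78) (PT.lf (nat_lit 38760) (nat_lit 6) (nat_lit 510) (nat_lit 3) (nat_lit 253) (nat_lit 244) (nat_lit 283)) (PT.lf (nat_lit 40584) (nat_lit 6) (nat_lit 534) (nat_lit 3) (nat_lit 254) (nat_lit 244) (nat_lit 282)))) (PT.nd (nat_lit 156) (PT.nd (nat_lit 78) (PT.lf (nat_lit 42332) (nat_lit 6) (nat_lit 557) (nat_lit 3) (nat_lit 255) (nat_lit 244) (nat_lit 281)) (PT.lf (nat_lit 44004) (nat_lit 6) (nat_lit 579) (nat_lit 3) (nat_lit 256) (nat_lit 244) (nat_lit 280))) (PT.nd (nat_lit 78) (PT.lf (nat_lit 45600) (nat_lit 6) (nat_lit 600) (nat_lit 3) (nat_lit 257) (nat_lit 244) (nat_lit 279)) (PT.lf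 (nat_lit 47120) (nat_lit 6) (nat_lit 620) (nat_lit 3) (nat_lit 258) (nat_lit 244) (nat_lit 278))))) (PT.nd (nat_lit 312) (PT.nd (nat_lit 156) (PT.nd (nat_lit 78) (PT.lf (nat_lit 48564) (nat_lit 6) (nat_lit 639) (nat_lit 3) (nat_lit 259) (nat_lit 244) (nat_lit 277)) (PT.lf (nat_lit 49932) (nat_lit 6) (nat_lit 657) (nat_lit 3) (nat_lit 260) (nat_lit 244) (nat_lit 276))) (PT.nd (nat_lit 78) (PT.lf (nat_lit 50008) (nat_lit 6) (nat_lit 658) (nat_lit 3) (nat_lit 261) (nat_lit 244) (nat_lit 275)) (PT.lf (nat_lit 50084) (nat_lit 6) (nat_lit 659) (nat_lit 3) (nat_lit 262) (nat_lit 244) (nat_lit 274)))) (PT.nd (nat_lit 156) (PT.nd (nat_lit 78) (PT.lf (nat_lit 50160) (nat_lit 6) (nat_lit 660) (nat_lit 3) (nat_lit 263) (nat_lit 244) (nat_lit 273)) (PT.lf (nat_lit 50236) (nat_lit 6) (nat_lit 661) (nat_lit 3) (nat_lit 264) (nat_lit 244) (nat_lit 272))) (PT.nd (nat_lit 78) (PT.lf (nat_lit 50312) (nat_lit 6) (nat_lit 662) (nat_lit 3) (nat_lit 265) (nat_lit 244) (nat_lit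 271)) (PT.nd (nat_lit 78) (PT.lf (nat_lit 50388) (nat_lit 6) (nat_lit 663) (nat_lit 3) (nat_lit 266) (nat_lit 244) (nat_lit 270)) (PT.lf (nat_lit 50464) (nat_lit 6) (nat_lit 664) (nat_lit 3) (nat_lit 267) (nat_lit 244) (nat_lit 269))))))) (PT.nd (nat_lit 624) (PT.nd (nat_lit 312) (PT.nd (nat_lit 156) (PT.nd (nat_lit 78) (PT.lf (nat_lit 50540) (nat_lit 3) (nat_lit 665) (nat_lit 1) (nat_lit 268) (nat_lit 244) (nat_lit 268)) (PT.lf (nat_lit 50464) (nat_lit 6) (nat_lit 664) (nat_lit 1) (nat_lit 269) (nat_lit 244) (nat_lit 267))) (PT.nd (nat_lit 78) (PT.lf (nat_lit 50388) (nat_lit 6) (nat_lit 663) (nat_lit 1) (nat_lit 270) (nat_lit 244) (nat_lit 266)) (PT.lf (nat_lit 50312) (nat_lit 6) (nat_lit 662) (nat_lit 1) (nat_lit 271) (nat_lit 244) (nat_lit 265)))) (PT.nd (nat_lit 156) (PT.nd (nat_lit 78) (PT.lf (nat_lit 50236) (nat_lit 6) (nat_lit 661) (nat_lit 1) (nat_lit 272) (nat_lit 244) (nat_lit 264)) (PT.lf (nat_lit 50160) (nat_lit 6) (nat_lit 660) (nat_lit 1)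 (nat_lit 273) (nat_lit 244) (nat_lit 263))) (PT.nd (nat_lit 78) (PT.lf (nat_lit 50084) (nat_lit 6) (nat_lit 659) (nat_lit 1) (nat_lit 274) (nat_lit 244) (nat_lit 262)) (PT.lf (nat_lit 50008) (nat_lit 6) (nat_lit 658) (nat_lit 1) (nat_lit 275) (nat_lit 244) (nat_lit 261))))) (PT.nd (nat_lit 312) (PT.nd (nat_lit 156) (PT.nd (nat_lit 78) (PT.lf (nat_lit 49932) (nat_lit 6) (nat_lit 657) (nat_lit 1) (nat_lit 276) (nat_lit 244) (nat_lit 260)) (PT.lf (nat_lit 48564) (nat_lit 6) (nat_lit 639) (nat_lit 1) (nat_lit 277) (nat_lit 244) (nat_lit 259))) (PT.nd (nat_lit 78) (PT.lf (nat_lit 47120) (nat_lit 6) (nat_lit 620) (nat_lit 1) (nat_lit 278) (nat_lit 244) (nat_lit 258)) (PT.lf (nat_lit 45600) (nat_lit 6) (nat_lit 600) (nat_lit 1) (nat_lit 279) (nat_lit 244) (nat_lit 257)))) (PT.nd (nat_lit 156) (PT.nd (nat_lit 78) (PT.lf (nat_lit 44004) (nat_lit 6) (nat_lit 579) (nat_lit 1) (nat_lit 280) (nat_lit 244) (nat_lit 256)) (PT.lf (nat_lit 42332) (nat_lit 6) (nat_lit 557)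 (nat_lit 1) (nat_lit 281) (nat_lit 244) (nat_lit 255))) (PT.nd (nat_lit 78) (PT.lf (nat_lit 40584) (nat_lit 6) (nat_lit 534) (nat_lit 1) (nat_lit 282) (nat_lit 244) (nat_lit 254)) (PT.nd (nat_lit 78) (PT.lf (nat_lit 38760) (nat_lit 6) (nat_lit 510) (nat_lit 1) (nat_lit 283) (nat_lit 244) (nat_lit 253)) (PT.lf (nat_lit 36860) (nat_lit 6) (nat_lit 485) (nat_lit 1) (nat_lit 284) (nat_lit 244) (nat_lit 252))))))))
noncomputable def pc33 : PT := (PT.nd (nat_lit 1326) (PT.nd (nat_lit 624) (PT.nd (nat_lit 312) (PT.nd (nat_lit 156) (PT.nd (nat_lit 78) (PT.lf (nat_lit 36784) (nat_lit 6) (nat_lit 484) (nat_lit 3) (nat_lit 251) (nat_lit 245) (nat_lit 284)) (PT.lf (nat_lit 38684) (nat_lit 6) (nat_lit 509) (nat_lit 3) (nat_lit 252) (nat_lit 245) (nat_lit 283))) (PT.nd (nat_lit 78) (PT.lf (nat_lit 40508) (nat_lit 6) (nat_lit 533) (nat_lit 3) (nat_lit 253) (nat_lit 245) (nat_lit 282)) (PT.lf (nat_lit 42256) (nat_lit 6) (nat_lit 556) (nat_lit 3) (nat_lit 254) (nat_lit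 245) (nat_lit 281)))) (PT.nd (nat_lit 156) (PT.nd (nat_lit 78) (PT.lf (nat_lit 43928) (nat_lit 6) (nat_lit 578) (nat_lit 3) (nat_lit 255) (nat_lit 245) (nat_lit 280)) (PT.lf (nat_lit 45524) (nat_lit 6) (nat_lit 599) (nat_lit 3) (nat_lit 256) (nat_lit 245) (nat_lit 279))) (PT.nd (nat_lit 78) (PT.lf (nat_lit 47044) (nat_lit 6) (nat_lit 619) (nat_lit 3) (nat_lit 257) (nat_lit 245) (nat_lit 278)) (PT.lf (nat_lit 48488) (nat_lit 6) (nat_lit 638) (nat_lit 3) (nat_lit 258) (nat_lit 245) (nat_lit 277))))) (PT.nd (nat_lit 312) (PT.nd (nat_lit 156) (PT.nd (nat_lit 78) (PT.lf (nat_lit 49856) (nat_lit 6) (nat_lit 656) (nat_lit 3) (nat_lit 259) (nat_lit 245) (nat_lit 276)) (PT.lf (nat_lit 51148) (nat_lit 6) (nat_lit 673) (nat_lit 3) (nat_lit 260) (nat_lit 245) (nat_lit 275))) (PT.nd (nat_lit 78) (PT.lf (nat_lit 51224) (nat_lit 6) (nat_lit 674) (nat_lit 3) (nat_lit 261) (nat_lit 245) (nat_lit 274)) (PT.lf (nat_lit 51300) (nat_lit 6) (nat_lit 675) (nat_lit 3) (nat_lit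 262) (nat_lit 245) (nat_lit 273)))) (PT.nd (nat_lit 156) (PT.nd (nat_lit 78) (PT.lf (nat_lit 51376) (nat_lit 6) (nat_lit 676) (nat_lit 3) (nat_lit 263) (nat_lit 245) (nat_lit 272)) (PT.lf (nat_lit 51452) (nat_lit 6) (nat_lit 677) (nat_lit 3) (nat_lit 264) (nat_lit 245) (nat_lit 271))) (PT.nd (nat_lit 78) (PT.lf (nat_lit 51528) (nat_lit 6) (nat_lit 678) (nat_lit 3) (nat_lit 265) (nat_lit 245) (nat_lit 270)) (PT.nd (nat_lit 78) (PT.lf (nat_lit 51604) (nat_lit 6) (nat_lit 679) (nat_lit 3) (nat_lit 266) (nat_lit 245) (nat_lit 269)) (PT.lf (nat_lit 51680) (nat_lit 6) (nat_lit 680) (nat_lit 3) (nat_lit 267) (nat_lit 245) (nat_lit 268))))))) (PT.nd (nat_lit 702) (PT.nd (nat_lit 312) (PT.nd (nat_lit 156) (PT.nd (nat_lit 78) (PT.lf (nat_lit 51680) (nat_lit 6) (nat_lit 680) (nat_lit 1) (nat_lit 268) (nat_lit 245) (nat_lit 267)) (PT.lf (nat_lit 51604) (nat_lit 6) (nat_lit 679) (nat_lit 1) (nat_lit 269) (nat_lit 245) (nat_lit 266))) (PT.nd (nat_lit 78) (PT.lf (nat_lit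 51528) (nat_lit 6) (nat_lit 678) (nat_lit 1) (nat_lit 270) (nat_lit 245) (nat_lit 265)) (PT.lf (nat_lit 51452) (nat_lit 6) (nat_lit 677) (nat_lit 1) (nat_lit 271) (nat_lit 245) (nat_lit 264)))) (PT.nd (nat_lit 156) (PT.nd (nat_lit 78) (PT.lf (nat_lit 51376) (nat_lit 6) (nat_lit 676) (nat_lit 1) (nat_lit 272) (nat_lit 245) (nat_lit 263)) (PT.lf (nat_lit 51300) (nat_lit 6) (nat_lit 675) (nat_lit 1) (nat_lit 273) (nat_lit 245) (nat_lit 262))) (PT.nd (nat_lit 78) (PT.lf (nat_lit 51224) (nat_lit 6) (nat_lit 674) (nat_lit 1) (nat_lit 274) (nat_lit 245) (nat_lit 261)) (PT.nd (nat_lit 78) (PT.lf (nat_lit 51148) (nat_lit 6) (nat_lit 673) (nat_lit 1) (nat_lit 275) (nat_lit 245) (nat_lit 260)) (PT.lf (nat_lit 49856) (nat_lit 6) (nat_lit 656) (nat_lit 1) (nat_lit 276) (nat_lit 245) (nat_lit 259)))))) (PT.nd (nat_lit 312) (PT.nd (nat_lit 156) (PT.nd (nat_lit 78) (PT.lf (nat_lit 48488) (nat_lit 6) (nat_lit 638) (nat_lit 1) (nat_lit 277) (nat_lit 245) (nat_lit 258))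 (PT.lf (nat_lit 47044) (nat_lit 6) (nat_lit 619) (nat_lit 1) (nat_lit 278) (nat_lit 245) (nat_lit 257))) (PT.nd (nat_lit 78) (PT.lf (nat_lit 45524) (nat_lit 6) (nat_lit 599) (nat_lit 1) (nat_lit 279) (nat_lit 245) (nat_lit 256)) (PT.lf (nat_lit 43928) (nat_lit 6) (nat_lit 578) (nat_lit 1) (nat_lit 280) (nat_lit 245) (nat_lit 255)))) (PT.nd (nat_lit 156) (PT.nd (nat_lit 78) (PT.lf (nat_lit 42256) (nat_lit 6) (nat_lit 556) (nat_lit 1) (nat_lit 281) (nat_lit 245) (nat_lit 254)) (PT.lf (nat_lit 40508) (nat_lit 6) (nat_lit 533) (nat_lit 1) (nat_lit 282) (nat_lit 245) (nat_lit 253))) (PT.nd (nat_lit 78) (PT.lf (nat_lit 38684) (nat_lit 6) (nat_lit 509) (nat_lit 1) (nat_lit 283) (nat_lit 245) (nat_lit 252)) (PT.nd (nat_lit 78546) (PT.lf (nat_lit 36784) (nat_lit 6) (nat_lit 484) (nat_lit 1) (nat_lit 284) (nat_lit 245) (nat_lit 251)) (PT.lf (nat_lit 36708) (nat_lit 6) (nat_lit 483) (nat_lit 3) (nat_lit 250) (nat_lit 246) (nat_lit 284))))))))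
noncomputable def pc34 : PT := (PT.nd (nat_lit 1326) (PT.nd (nat_lit 624) (PT.nd (nat_lit 312) (PT.nd (nat_lit 156) (PT.nd (nat_lit 78) (PT.lf (nat_lit 38608) (nat_lit 6) (nat_lit 508) (nat_lit 3) (nat_lit 251) (nat_lit 246) (nat_lit 283)) (PT.lf (nat_lit 40432) (nat_lit 6) (nat_lit 532) (nat_lit 3) (nat_lit 252) (nat_lit 246) (nat_lit 282))) (PT.nd (nat_lit 78) (PT.lf (nat_lit 42180) (nat_lit 6) (nat_lit 555) (nat_lit 3) (nat_lit 253) (nat_lit 246) (nat_lit 281)) (PT.lf (nat_lit 43852) (nat_lit 6) (nat_lit 577) (nat_lit 3) (nat_lit 254) (nat_lit 246) (nat_lit 280)))) (PT.nd (nat_lit 156) (PT.nd (nat_lit 78) (PT.lf (nat_lit 45448) (nat_lit 6) (nat_lit 598) (nat_lit 3) (nat_lit 255) (nat_lit 246) (nat_lit 279)) (PT.lf (nat_lit 46968) (nat_lit 6) (nat_lit 618) (nat_lit 3) (nat_lit 256) (nat_lit 246) (nat_lit 278))) (PT.nd (nat_lit 78) (PT.lf (nat_lit 48412) (nat_lit 6) (nat_lit 637) (nat_lit 3) (nat_lit 257) (nat_lit 246) (nat_lit 277)) (PT.lf (nat_lit 49780)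 (nat_lit 6) (nat_lit 655) (nat_lit 3) (nat_lit 258) (nat_lit 246) (nat_lit 276))))) (PT.nd (nat_lit 312) (PT.nd (nat_lit 156) (PT.nd (nat_lit 78) (PT.lf (nat_lit 51072) (nat_lit 6) (nat_lit 672) (nat_lit 3) (nat_lit 259) (nat_lit 246) (nat_lit 275)) (PT.lf (nat_lit 52288) (nat_lit 6) (nat_lit 688) (nat_lit 3) (nat_lit 260) (nat_lit 246) (nat_lit 274))) (PT.nd (nat_lit 78) (PT.lf (nat_lit 52364) (nat_lit 6) (nat_lit 689) (nat_lit 3) (nat_lit 261) (nat_lit 246) (nat_lit 273)) (PT.lf (nat_lit 52440) (nat_lit 6) (nat_lit 690) (nat_lit 3) (nat_lit 262) (nat_lit 246) (nat_lit 272)))) (PT.nd (nat_lit 156) (PT.nd (nat_lit 78) (PT.lf (nat_lit 52516) (nat_lit 6) (nat_lit 691) (nat_lit 3) (nat_lit 263) (nat_lit 246) (nat_lit 271)) (PT.lf (nat_lit 52592) (nat_lit 6) (nat_lit 692) (nat_lit 3) (nat_lit 264) (nat_lit 246) (nat_lit 270))) (PT.nd (nat_lit 78) (PT.lf (nat_lit 52668) (nat_lit 6) (nat_lit 693) (nat_lit 3) (nat_lit 265) (nat_lit 246) (nat_lit 269)) (PT.nd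 (nat_lit 78) (PT.lf (nat_lit 52744) (nat_lit 6) (nat_lit 694) (nat_lit 3) (nat_lit 266) (nat_lit 246) (nat_lit 268)) (PT.lf (nat_lit 52820) (nat_lit 3) (nat_lit 695) (nat_lit 1) (nat_lit 267) (nat_lit 246) (nat_lit 267))))))) (PT.nd (nat_lit 702) (PT.nd (nat_lit 312) (PT.nd (nat_lit 156) (PT.nd (nat_lit 78) (PT.lf (nat_lit 52744) (nat_lit 6) (nat_lit 694) (nat_lit 1) (nat_lit 268) (nat_lit 246) (nat_lit 266)) (PT.lf (nat_lit 52668) (nat_lit 6) (nat_lit 693) (nat_lit 1) (nat_lit 269) (nat_lit 246) (nat_lit 265))) (PT.nd (nat_lit 78) (PT.lf (nat_lit 52592) (nat_lit 6) (nat_lit 692) (nat_lit 1) (nat_lit 270) (nat_lit 246) (nat_lit 264)) (PT.lf (nat_lit 52516) (nat_lit 6) (nat_lit 691) (nat_lit 1) (nat_lit 271) (nat_lit 246) (nat_lit 263)))) (PT.nd (nat_lit 156) (PT.nd (nat_lit 78) (PT.lf (nat_lit 52440) (nat_lit 6) (nat_lit 690) (nat_lit 1) (nat_lit 272) (nat_lit 246) (nat_lit 262)) (PT.lf (nat_lit 52364) (nat_lit 6) (nat_lit 689) (nat_lit 1) (nat_lit 273)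 (nat_lit 246) (nat_lit 261))) (PT.nd (nat_lit 78) (PT.lf (nat_lit 52288) (nat_lit 6) (nat_lit 688) (nat_lit 1) (nat_lit 274) (nat_lit 246) (nat_lit 260)) (PT.nd (nat_lit 78) (PT.lf (nat_lit 51072) (nat_lit 6) (nat_lit 672) (nat_lit 1) (nat_lit 275) (nat_lit 246) (nat_lit 259)) (PT.lf (nat_lit 49780) (nat_lit 6) (nat_lit 655) (nat_lit 1) (nat_lit 276) (nat_lit 246) (nat_lit 258)))))) (PT.nd (nat_lit 312) (PT.nd (nat_lit 156) (PT.nd (nat_lit 78) (PT.lf (nat_lit 48412) (nat_lit 6) (nat_lit 637) (nat_lit 1) (nat_lit 277) (nat_lit 246) (nat_lit 257)) (PT.lf (nat_lit 46968) (nat_lit 6) (nat_lit 618) (nat_lit 1) (nat_lit 278) (nat_lit 246) (nat_lit 256))) (PT.nd (nat_lit 78) (PT.lf (nat_lit 45448) (nat_lit 6) (nat_lit 598) (nat_lit 1) (nat_lit 279) (nat_lit 246) (nat_lit 255)) (PT.lf (nat_lit 43852) (nat_lit 6) (nat_lit 577) (nat_lit 1) (nat_lit 280) (nat_lit 246) (nat_lit 254)))) (PT.nd (nat_lit 156) (PT.nd (nat_lit 78) (PT.lf (nat_lit 42180) (nat_lit 6) (nat_lit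 555) (nat_lit 1) (nat_lit 281) (nat_lit 246) (nat_lit 253)) (PT.lf (nat_lit 40432) (nat_lit 6) (nat_lit 532) (nat_lit 1) (nat_lit 282) (nat_lit 246) (nat_lit 252))) (PT.nd (nat_lit 78) (PT.lf (nat_lit 38608) (nat_lit 6) (nat_lit 508) (nat_lit 1) (nat_lit 283) (nat_lit 246) (nat_lit 251)) (PT.nd (nat_lit 78468) (PT.lf (nat_lit 36708) (nat_lit 6) (nat_lit 483) (nat_lit 1) (nat_lit 284) (nat_lit 246) (nat_lit 250)) (PT.lf (nat_lit 36632) (nat_lit 6) (nat_lit 482) (nat_lit 3) (nat_lit 249) (nat_lit 247) (nat_lit 284))))))))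
noncomputable def pc35 : PT := (PT.nd (nat_lit 1326) (PT.nd (nat_lit 624) (PT.nd (nat_lit 312) (PT.nd (nat_lit 156) (PT.nd (nat_lit 78) (PT.lf (nat_lit 38532) (nat_lit 6) (nat_lit 507) (nat_lit 3) (nat_lit 250) (nat_lit 247) (nat_lit 283)) (PT.lf (nat_lit 40356) (nat_lit 6) (nat_lit 531) (nat_lit 3) (nat_lit 251) (nat_lit 247) (nat_lit 282))) (PT.nd (nat_lit 78) (PT.lf (nat_lit 42104) (nat_lit 6) (nat_lit 554) (nat_lit 3) (nat_lit 252) (nat_lit 247) (nat_lit 281)) (PT.lf (nat_lit 43776) (nat_lit 6) (nat_lit 576) (nat_lit 3) (nat_lit 253) (nat_lit 247) (nat_lit 280)))) (PT.nd (nat_lit 156) (PT.nd (nat_lit 78) (PT.lf (nat_lit 45372) (nat_lit 6) (nat_lit 597) (nat_lit 3) (nat_lit 254) (nat_lit 247) (nat_lit 279)) (PT.lf (nat_lit 46892) (nat_lit 6) (nat_lit 617) (nat_lit 3) (nat_lit 255) (nat_lit 247) (nat_lit 278))) (PT.nd (nat_lit 78) (PT.lf (nat_lit 48336) (nat_lit 6) (nat_lit 636) (nat_lit 3) (nat_lit 256) (nat_lit 247) (nat_lit 277)) (PT.lf (nat_lit 49704)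 (nat_lit 6) (nat_lit 654) (nat_lit 3) (nat_lit 257) (nat_lit 247) (nat_lit 276))))) (PT.nd (nat_lit 312) (PT.nd (nat_lit 156) (PT.nd (nat_lit 78) (PT.lf (nat_lit 50996) (nat_lit 6) (nat_lit 671) (nat_lit 3) (nat_lit 258) (nat_lit 247) (nat_lit 275)) (PT.lf (nat_lit 52212) (nat_lit 6) (nat_lit 687) (nat_lit 3) (nat_lit 259) (nat_lit 247) (nat_lit 274))) (PT.nd (nat_lit 78) (PT.lf (nat_lit 53352) (nat_lit 6) (nat_lit 702) (nat_lit 3) (nat_lit 260) (nat_lit 247) (nat_lit 273)) (PT.lf (nat_lit 53428) (nat_lit 6) (nat_lit 703) (nat_lit 3) (nat_lit 261) (nat_lit 247) (nat_lit 272)))) (PT.nd (nat_lit 156) (PT.nd (nat_lit 78) (PT.lf (nat_lit 53504) (nat_lit 6) (nat_lit 704) (nat_lit 3) (nat_lit 262) (nat_lit 247) (nat_lit 271)) (PT.lf (nat_lit 53580) (nat_lit 6) (nat_lit 705) (nat_lit 3) (nat_lit 263) (nat_lit 247) (nat_lit 270))) (PT.nd (nat_lit 78) (PT.lf (nat_lit 53656) (nat_lit 6) (nat_lit 706) (nat_lit 3) (nat_lit 264) (nat_lit 247) (nat_lit 269)) (PT.nd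 (nat_lit 78) (PT.lf (nat_lit 53732) (nat_lit 6) (nat_lit 707) (nat_lit 3) (nat_lit 265) (nat_lit 247) (nat_lit 268)) (PT.lf (nat_lit 53808) (nat_lit 6) (nat_lit 708) (nat_lit 3) (nat_lit 266) (nat_lit 247) (nat_lit 267))))))) (PT.nd (nat_lit 702) (PT.nd (nat_lit 312) (PT.nd (nat_lit 156) (PT.nd (nat_lit 78) (PT.lf (nat_lit 53808) (nat_lit 6) (nat_lit 708) (nat_lit 1) (nat_lit 267) (nat_lit 247) (nat_lit 266)) (PT.lf (nat_lit 53732) (nat_lit 6) (nat_lit 707) (nat_lit 1) (nat_lit 268) (nat_lit 247) (nat_lit 265))) (PT.nd (nat_lit 78) (PT.lf (nat_lit 53656) (nat_lit 6) (nat_lit 706) (nat_lit 1) (nat_lit 269) (nat_lit 247) (nat_lit 264)) (PT.lf (nat_lit 53580) (nat_lit 6) (nat_lit 705) (nat_lit 1) (nat_lit 270) (nat_lit 247) (nat_lit 263)))) (PT.nd (nat_lit 156) (PT.nd (nat_lit 78) (PT.lf (nat_lit 53504) (nat_lit 6) (nat_lit 704) (nat_lit 1) (nat_lit 271) (nat_lit 247) (nat_lit 262)) (PT.lf (nat_lit 53428) (nat_lit 6) (nat_lit 703) (nat_lit 1) (nat_lit 272)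 (nat_lit 247) (nat_lit 261))) (PT.nd (nat_lit 78) (PT.lf (nat_lit 53352) (nat_lit 6) (nat_lit 702) (nat_lit 1) (nat_lit 273) (nat_lit 247) (nat_lit 260)) (PT.nd (nat_lit 78) (PT.lf (nat_lit 52212) (nat_lit 6) (nat_lit 687) (nat_lit 1) (nat_lit 274) (nat_lit 247) (nat_lit 259)) (PT.lf (nat_lit 50996) (nat_lit 6) (nat_lit 671) (nat_lit 1) (nat_lit 275) (nat_lit 247) (nat_lit 258)))))) (PT.nd (nat_lit 312) (PT.nd (nat_lit 156) (PT.nd (nat_lit 78) (PT.lf (nat_lit 49704) (nat_lit 6) (nat_lit 654) (nat_lit 1) (nat_lit 276) (nat_lit 247) (nat_lit 257)) (PT.lf (nat_lit 48336) (nat_lit 6) (nat_lit 636) (nat_lit 1) (nat_lit 277) (nat_lit 247) (nat_lit 256))) (PT.nd (nat_lit 78) (PT.lf (nat_lit 46892) (nat_lit 6) (nat_lit 617) (nat_lit 1) (nat_lit 278) (nat_lit 247) (nat_lit 255)) (PT.lf (nat_lit 45372) (nat_lit 6) (nat_lit 597) (nat_lit 1) (nat_lit 279) (nat_lit 247) (nat_lit 254)))) (PT.nd (nat_lit 156) (PT.nd (nat_lit 78) (PT.lf (nat_lit 43776) (nat_lit 6) (nat_lit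 576) (nat_lit 1) (nat_lit 280) (nat_lit 247) (nat_lit 253)) (PT.lf (nat_lit 42104) (nat_lit 6) (nat_lit 554) (nat_lit 1) (nat_lit 281) (nat_lit 247) (nat_lit 252))) (PT.nd (nat_lit 78) (PT.lf (nat_lit 40356) (nat_lit 6) (nat_lit 531) (nat_lit 1) (nat_lit 282) (nat_lit 247) (nat_lit 251)) (PT.nd (nat_lit 78) (PT.lf (nat_lit 38532) (nat_lit 6) (nat_lit 507) (nat_lit 1) (nat_lit 283) (nat_lit 247) (nat_lit 250)) (PT.lf (nat_lit 36632) (nat_lit 6) (nat_lit 482) (nat_lit 1) (nat_lit 284) (nat_lit 247) (nat_lit 249))))))))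
noncomputable def pc36 : PT := (PT.nd (nat_lit 1326) (PT.nd (nat_lit 624) (PT.nd (nat_lit 312) (PT.nd (nat_lit 156) (PT.nd (nat_lit 78) (PT.lf (nat_lit 36556) (nat_lit 3) (nat_lit 481) (nat_lit 3) (nat_lit 248) (nat_lit 248) (nat_lit 284)) (PT.lf (nat_lit 38456) (nat_lit 6) (nat_lit 506) (nat_lit 3) (nat_lit 249) (nat_lit 248) (nat_lit 283))) (PT.nd (nat_lit 78) (PT.lf (nat_lit 40280) (nat_lit 6) (nat_lit 530) (nat_lit 3) (nat_lit 250) (nat_lit 248) (nat_lit 282)) (PT.lf (nat_lit 42028) (nat_lit 6) (nat_lit 553) (nat_lit 3) (nat_lit 251) (nat_lit 248) (nat_lit 281)))) (PT.nd (nat_lit 156) (PT.nd (nat_lit 78) (PT.lf (nat_lit 43700) (nat_lit 6) (nat_lit 575) (nat_lit 3) (nat_lit 252) (nat_lit 248) (nat_lit 280)) (PT.lf (nat_lit 45296) (nat_lit 6) (nat_lit 596) (nat_lit 3) (nat_lit 253) (nat_lit 248) (nat_lit 279))) (PT.nd (nat_lit 78) (PT.lf (nat_lit 46816) (nat_lit 6) (nat_lit 616) (nat_lit 3) (nat_lit 254) (nat_lit 248) (nat_lit 278)) (PT.lf (nat_lit 48260)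 (nat_lit 6) (nat_lit 635) (nat_lit 3) (nat_lit 255) (nat_lit 248) (nat_lit 277))))) (PT.nd (nat_lit 312) (PT.nd (nat_lit 156) (PT.nd (nat_lit 78) (PT.lf (nat_lit 49628) (nat_lit 6) (nat_lit 653) (nat_lit 3) (nat_lit 256) (nat_lit 248) (nat_lit 276)) (PT.lf (nat_lit 50920) (nat_lit 6) (nat_lit 670) (nat_lit 3) (nat_lit 257) (nat_lit 248) (nat_lit 275))) (PT.nd (nat_lit 78) (PT.lf (nat_lit 52136) (nat_lit 6) (nat_lit 686) (nat_lit 3) (nat_lit 258) (nat_lit 248) (nat_lit 274)) (PT.lf (nat_lit 53276) (nat_lit 6) (nat_lit 701) (nat_lit 3) (nat_lit 259) (nat_lit 248) (nat_lit 273)))) (PT.nd (nat_lit 156) (PT.nd (nat_lit 78) (PT.lf (nat_lit 54340) (nat_lit 6) (nat_lit 715) (nat_lit 3) (nat_lit 260) (nat_lit 248) (nat_lit 272)) (PT.lf (nat_lit 54416) (nat_lit 6) (nat_lit 716) (nat_lit 3) (nat_lit 261) (nat_lit 248) (nat_lit 271))) (PT.nd (nat_lit 78) (PT.lf (nat_lit 54492) (nat_lit 6) (nat_lit 717) (nat_lit 3) (nat_lit 262) (nat_lit 248) (nat_lit 270)) (PT.nd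 (nat_lit 78) (PT.lf (nat_lit 54568) (nat_lit 6) (nat_lit 718) (nat_lit 3) (nat_lit 263) (nat_lit 248) (nat_lit 269)) (PT.lf (nat_lit 54644) (nat_lit 6) (nat_lit 719) (nat_lit 3) (nat_lit 264) (nat_lit 248) (nat_lit 268))))))) (PT.nd (nat_lit 702) (PT.nd (nat_lit 312) (PT.nd (nat_lit 156) (PT.nd (nat_lit 78) (PT.lf (nat_lit 54720) (nat_lit 6) (nat_lit 720) (nat_lit 3) (nat_lit 265) (nat_lit 248) (nat_lit 267)) (PT.lf (nat_lit 54796) (nat_lit 3) (nat_lit 721) (nat_lit 1) (nat_lit 266) (nat_lit 248) (nat_lit 266))) (PT.nd (nat_lit 78) (PT.lf (nat_lit 54720) (nat_lit 6) (nat_lit 720) (nat_lit 1) (nat_lit 267) (nat_lit 248) (nat_lit 265)) (PT.lf (nat_lit 54644) (nat_lit 6) (nat_lit 719) (nat_lit 1) (nat_lit 268) (nat_lit 248) (nat_lit 264)))) (PT.nd (nat_lit 156) (PT.nd (nat_lit 78) (PT.lf (nat_lit 54568) (nat_lit 6) (nat_lit 718) (nat_lit 1) (nat_lit 269) (nat_lit 248) (nat_lit 263)) (PT.lf (nat_lit 54492) (nat_lit 6) (nat_lit 717) (nat_lit 1) (nat_lit 270)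 (nat_lit 248) (nat_lit 262))) (PT.nd (nat_lit 78) (PT.lf (nat_lit 54416) (nat_lit 6) (nat_lit 716) (nat_lit 1) (nat_lit 271) (nat_lit 248) (nat_lit 261)) (PT.nd (nat_lit 78) (PT.lf (nat_lit 54340) (nat_lit 6) (nat_lit 715) (nat_lit 1) (nat_lit 272) (nat_lit 248) (nat_lit 260)) (PT.lf (nat_lit 53276) (nat_lit 6) (nat_lit 701) (nat_lit 1) (nat_lit 273) (nat_lit 248) (nat_lit 259)))))) (PT.nd (nat_lit 312) (PT.nd (nat_lit 156) (PT.nd (nat_lit 78) (PT.lf (nat_lit 52136) (nat_lit 6) (nat_lit 686) (nat_lit 1) (nat_lit 274) (nat_lit 248) (nat_lit 258)) (PT.lf (nat_lit 50920) (nat_lit 6) (nat_lit 670) (nat_lit 1) (nat_lit 275) (nat_lit 248) (nat_lit 257))) (PT.nd (nat_lit 78) (PT.lf (nat_lit 49628) (nat_lit 6) (nat_lit 653) (nat_lit 1) (nat_lit 276) (nat_lit 248) (nat_lit 256)) (PT.lf (nat_lit 48260) (nat_lit 6) (nat_lit 635) (nat_lit 1) (nat_lit 277) (nat_lit 248) (nat_lit 255)))) (PT.nd (nat_lit 156) (PT.nd (nat_lit 78) (PT.lf (nat_lit 46816) (nat_lit 6) (nat_lit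 616) (nat_lit 1) (nat_lit 278) (nat_lit 248) (nat_lit 254)) (PT.lf (nat_lit 45296) (nat_lit 6) (nat_lit 596) (nat_lit 1) (nat_lit 279) (nat_lit 248) (nat_lit 253))) (PT.nd (nat_lit 78) (PT.lf (nat_lit 43700) (nat_lit 6) (nat_lit 575) (nat_lit 1) (nat_lit 280) (nat_lit 248) (nat_lit 252)) (PT.nd (nat_lit 78) (PT.lf (nat_lit 42028) (nat_lit 6) (nat_lit 553) (nat_lit 1) (nat_lit 281) (nat_lit 248) (nat_lit 251)) (PT.lf (nat_lit 40280) (nat_lit 6) (nat_lit 530) (nat_lit 1) (nat_lit 282) (nat_lit 248) (nat_lit 250))))))))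
noncomputable def pc37 : PT := (PT.nd (nat_lit 79560) (PT.nd (nat_lit 78858) (PT.nd (nat_lit 78546) (PT.nd (nat_lit 78390) (PT.nd (nat_lit 78) (PT.lf (nat_lit 38456) (nat_lit 6) (nat_lit 506) (nat_lit 1) (nat_lit 283) (nat_lit 248) (nat_lit 249)) (PT.lf (nat_lit 36556) (nat_lit 3) (nat_lit 481) (nat_lit 0) (nat_lit 284) (nat_lit 248) (nat_lit 248))) (PT.nd (nat_lit 78) (PT.lf (nat_lit 36632) (nat_lit 6) (nat_lit 482) (nat_lit 5) (nat_lit 247) (nat_lit 249) (nat_lit 284)) (PT.lf (nat_lit 38456) (nat_lit 6) (nat_lit 506) (nat_lit 5) (nat_lit 248) (nat_lit 249) (nat_lit 283)))) (PT.nd (nat_lit 156) (PT.nd (nat_lit 78) (PT.lf (nat_lit 40204) (nat_lit 3) (nat_lit 529) (nat_lit 3) (nat_lit 249) (nat_lit 249) (nat_lit 282)) (PT.lf (nat_lit 41952) (nat_lit 6) (nat_lit 552) (nat_lit 3) (nat_lit 250) (nat_lit 249) (nat_lit 281))) (PT.nd (nat_lit 78) (PT.lf (nat_lit 43624) (nat_lit 6) (nat_lit 574) (nat_lit 3) (nat_lit 251) (nat_lit 249) (nat_lit 280)) (PT.lf (nat_lit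 45220) (nat_lit 6) (nat_lit 595) (nat_lit 3) (nat_lit 252) (nat_lit 249) (nat_lit 279))))) (PT.nd (nat_lit 312) (PT.nd (nat_lit 156) (PT.nd (nat_lit 78) (PT.lf (nat_lit 46740) (nat_lit 6) (nat_lit 615) (nat_lit 3) (nat_lit 253) (nat_lit 249) (nat_lit 278)) (PT.lf (nat_lit 48184) (nat_lit 6) (nat_lit 634) (nat_lit 3) (nat_lit 254) (nat_lit 249) (nat_lit 277))) (PT.nd (nat_lit 78) (PT.lf (nat_lit 49552) (nat_lit 6) (nat_lit 652) (nat_lit 3) (nat_lit 255) (nat_lit 249) (nat_lit 276)) (PT.lf (nat_lit 50844) (nat_lit 6) (nat_lit 669) (nat_lit 3) (nat_lit 256) (nat_lit 249) (nat_lit 275)))) (PT.nd (nat_lit 156) (PT.nd (nat_lit 78) (PT.lf (nat_lit 52060) (nat_lit 6) (nat_lit 685) (nat_lit 3) (nat_lit 257) (nat_lit 249) (nat_lit 274)) (PT.lf (nat_lit 53200) (nat_lit 6) (nat_lit 700) (nat_lit 3) (nat_lit 258) (nat_lit 249) (nat_lit 273))) (PT.nd (nat_lit 78) (PT.lf (nat_lit 54264) (nat_lit 6) (nat_lit 714) (nat_lit 3) (nat_lit 259) (nat_lit 249) (nat_lit 272))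 (PT.nd (nat_lit 78) (PT.lf (nat_lit 55252) (nat_lit 6) (nat_lit 727) (nat_lit 3) (nat_lit 260) (nat_lit 249) (nat_lit 271)) (PT.lf (nat_lit 55328) (nat_lit 6) (nat_lit 728) (nat_lit 3) (nat_lit 261) (nat_lit 249) (nat_lit 270))))))) (PT.nd (nat_lit 702) (PT.nd (nat_lit 312) (PT.nd (nat_lit 156) (PT.nd (nat_lit 78) (PT.lf (nat_lit 55404) (nat_lit 6) (nat_lit 729) (nat_lit 3) (nat_lit 262) (nat_lit 249) (nat_lit 269)) (PT.lf (nat_lit 55480) (nat_lit 6) (nat_lit 730) (nat_lit 3) (nat_lit 263) (nat_lit 249) (nat_lit 268))) (PT.nd (nat_lit 78) (PT.lf (nat_lit 55556) (nat_lit 6) (nat_lit 731) (nat_lit 3) (nat_lit 264) (nat_lit 249) (nat_lit 267)) (PT.lf (nat_lit 55632) (nat_lit 6) (nat_lit 732) (nat_lit 3) (nat_lit 265) (nat_lit 249) (nat_lit 266)))) (PT.nd (nat_lit 156) (PT.nd (nat_lit 78) (PT.lf (nat_lit 55632) (nat_lit 6) (nat_lit 732) (nat_lit 1) (nat_lit 266) (nat_lit 249) (nat_lit 265)) (PT.lf (nat_lit 55556) (nat_lit 6) (nat_lit 731) (nat_lit 1) (nat_lit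 267) (nat_lit 249) (nat_lit 264))) (PT.nd (nat_lit 78) (PT.lf (nat_lit 55480) (nat_lit 6) (nat_lit 730) (nat_lit 1) (nat_lit 268) (nat_lit 249) (nat_lit 263)) (PT.nd (nat_lit 78) (PT.lf (nat_lit 55404) (nat_lit 6) (nat_lit 729) (nat_lit 1) (nat_lit 269) (nat_lit 249) (nat_lit 262)) (PT.lf (nat_lit 55328) (nat_lit 6) (nat_lit 728) (nat_lit 1) (nat_lit 270) (nat_lit 249) (nat_lit 261)))))) (PT.nd (nat_lit 312) (PT.nd (nat_lit 156) (PT.nd (nat_lit 78) (PT.lf (nat_lit 55252) (nat_lit 6) (nat_lit 727) (nat_lit 1) (nat_lit 271) (nat_lit 249) (nat_lit 260)) (PT.lf (nat_lit 54264) (nat_lit 6) (nat_lit 714) (nat_lit 1) (nat_lit 272) (nat_lit 249) (nat_lit 259))) (PT.nd (nat_lit 78) (PT.lf (nat_lit 53200) (nat_lit 6) (nat_lit 700) (nat_lit 1) (nat_lit 273) (nat_lit 249) (nat_lit 258)) (PT.lf (nat_lit 52060) (nat_lit 6) (nat_lit 685) (nat_lit 1) (nat_lit 274) (nat_lit 249) (nat_lit 257)))) (PT.nd (nat_lit 156) (PT.nd (nat_lit 78) (PT.lf (nat_lit 50844) (nat_lit 6)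 (nat_lit 669) (nat_lit 1) (nat_lit 275) (nat_lit 249) (nat_lit 256)) (PT.lf (nat_lit 49552) (nat_lit 6) (nat_lit 652) (nat_lit 1) (nat_lit 276) (nat_lit 249) (nat_lit 255))) (PT.nd (nat_lit 78) (PT.lf (nat_lit 48184) (nat_lit 6) (nat_lit 634) (nat_lit 1) (nat_lit 277) (nat_lit 249) (nat_lit 254)) (PT.nd (nat_lit 78) (PT.lf (nat_lit 46740) (nat_lit 6) (nat_lit 615) (nat_lit 1) (nat_lit 278) (nat_lit 249) (nat_lit 253)) (PT.lf (nat_lit 45220) (nat_lit 6) (nat_lit 595) (nat_lit 1) (nat_lit 279) (nat_lit 249) (nat_lit 252))))))))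
noncomputable def pc38 : PT := (PT.nd (nat_lit 79482) (PT.nd (nat_lit 78780) (PT.nd (nat_lit 312) (PT.nd (nat_lit 156) (PT.nd (nat_lit 78) (PT.lf (nat_lit 43624) (nat_lit 6) (nat_lit 574) (nat_lit 1) (nat_lit 280) (nat_lit 249) (nat_lit 251)) (PT.lf (nat_lit 41952) (nat_lit 6) (nat_lit 552) (nat_lit 1) (nat_lit 281) (nat_lit 249) (nat_lit 250))) (PT.nd (nat_lit 78) (PT.lf (nat_lit 40204) (nat_lit 3) (nat_lit 529) (nat_lit 0) (nat_lit 282) (nat_lit 249) (nat_lit 249)) (PT.lf (nat_lit 38456) (nat_lit 6) (nat_lit 506) (nat_lit 0) (nat_lit 283) (nat_lit 249) (nat_lit 248)))) (PT.nd (nat_lit 78312) (PT.nd (nat_lit 78234) (PT.lf (nat_lit 36632) (nat_lit 6) (nat_lit 482) (nat_lit 0) (nat_lit 284) (nat_lit 249) (nat_lit 247)) (PT.lf (nat_lit 36708) (nat_lit 6) (nat_lit 483) (nat_lit 5) (nat_lit 246) (nat_lit 250) (nat_lit 284))) (PT.nd (nat_lit 78) (PT.lf (nat_lit 38532) (nat_lit 6) (nat_lit 507) (nat_lit 5) (nat_lit 247) (nat_lit 250) (nat_lit 283)) (PT.lf (nat_lit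 40280) (nat_lit 6) (nat_lit 530) (nat_lit 5) (nat_lit 248) (nat_lit 250) (nat_lit 282))))) (PT.nd (nat_lit 312) (PT.nd (nat_lit 156) (PT.nd (nat_lit 78) (PT.lf (nat_lit 41952) (nat_lit 6) (nat_lit 552) (nat_lit 5) (nat_lit 249) (nat_lit 250) (nat_lit 281)) (PT.lf (nat_lit 43548) (nat_lit 3) (nat_lit 573) (nat_lit 3) (nat_lit 250) (nat_lit 250) (nat_lit 280))) (PT.nd (nat_lit 78) (PT.lf (nat_lit 45144) (nat_lit 6) (nat_lit 594) (nat_lit 3) (nat_lit 251) (nat_lit 250) (nat_lit 279)) (PT.lf (nat_lit 46664) (nat_lit 6) (nat_lit 614) (nat_lit 3) (nat_lit 252) (nat_lit 250) (nat_lit 278)))) (PT.nd (nat_lit 156) (PT.nd (nat_lit 78) (PT.lf (nat_lit 48108) (nat_lit 6) (nat_lit 633) (nat_lit 3) (nat_lit 253) (nat_lit 250) (nat_lit 277)) (PT.lf (nat_lit 49476) (nat_lit 6) (nat_lit 651) (nat_lit 3) (nat_lit 254) (nat_lit 250) (nat_lit 276))) (PT.nd (nat_lit 78) (PT.lf (nat_lit 50768) (nat_lit 6) (nat_lit 668) (nat_lit 3) (nat_lit 255) (nat_lit 250) (nat_lit 275))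 (PT.nd (nat_lit 78) (PT.lf (nat_lit 51984) (nat_lit 6) (nat_lit 684) (nat_lit 3) (nat_lit 256) (nat_lit 250) (nat_lit 274)) (PT.lf (nat_lit 53124) (nat_lit 6) (nat_lit 699) (nat_lit 3) (nat_lit 257) (nat_lit 250) (nat_lit 273))))))) (PT.nd (nat_lit 702) (PT.nd (nat_lit 312) (PT.nd (nat_lit 156) (PT.nd (nat_lit 78) (PT.lf (nat_lit 54188) (nat_lit 6) (nat_lit 713) (nat_lit 3) (nat_lit 258) (nat_lit 250) (nat_lit 272)) (PT.lf (nat_lit 55176) (nat_lit 6) (nat_lit 726) (nat_lit 3) (nat_lit 259) (nat_lit 250) (nat_lit 271))) (PT.nd (nat_lit 78) (PT.lf (nat_lit 56088) (nat_lit 6) (nat_lit 738) (nat_lit 3) (nat_lit 260) (nat_lit 250) (nat_lit 270)) (PT.lf (nat_lit 56164) (nat_lit 6) (nat_lit 739) (nat_lit 3) (nat_lit 261) (nat_lit 250) (nat_lit 269)))) (PT.nd (nat_lit 156) (PT.nd (nat_lit 78) (PT.lf (nat_lit 56240) (nat_lit 6) (nat_lit 740) (nat_lit 3) (nat_lit 262) (nat_lit 250) (nat_lit 268)) (PT.lf (nat_lit 56316) (nat_lit 6) (nat_lit 741) (nat_lit 3) (nat_lit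 263) (nat_lit 250) (nat_lit 267))) (PT.nd (nat_lit 78) (PT.lf (nat_lit 56392) (nat_lit 6) (nat_lit 742) (nat_lit 3) (nat_lit 264) (nat_lit 250) (nat_lit 266)) (PT.nd (nat_lit 78) (PT.lf (nat_lit 56468) (nat_lit 3) (nat_lit 743) (nat_lit 1) (nat_lit 265) (nat_lit 250) (nat_lit 265)) (PT.lf (nat_lit 56392) (nat_lit 6) (nat_lit 742) (nat_lit 1) (nat_lit 266) (nat_lit 250) (nat_lit 264)))))) (PT.nd (nat_lit 312) (PT.nd (nat_lit 156) (PT.nd (nat_lit 78) (PT.lf (nat_lit 56316) (nat_lit 6) (nat_lit 741) (nat_lit 1) (nat_lit 267) (nat_lit 250) (nat_lit 263)) (PT.lf (nat_lit 56240) (nat_lit 6) (nat_lit 740) (nat_lit 1) (nat_lit 268) (nat_lit 250) (nat_lit 262))) (PT.nd (nat_lit 78) (PT.lf (nat_lit 56164) (nat_lit 6) (nat_lit 739) (nat_lit 1) (nat_lit 269) (nat_lit 250) (nat_lit 261)) (PT.lf (nat_lit 56088) (nat_lit 6) (nat_lit 738) (nat_lit 1) (nat_lit 270) (nat_lit 250) (nat_lit 260)))) (PT.nd (nat_lit 156) (PT.nd (nat_lit 78) (PT.lf (nat_lit 55176) (nat_lit 6)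 (nat_lit 726) (nat_lit 1) (nat_lit 271) (nat_lit 250) (nat_lit 259)) (PT.lf (nat_lit 54188) (nat_lit 6) (nat_lit 713) (nat_lit 1) (nat_lit 272) (nat_lit 250) (nat_lit 258))) (PT.nd (nat_lit 78) (PT.lf (nat_lit 53124) (nat_lit 6) (nat_lit 699) (nat_lit 1) (nat_lit 273) (nat_lit 250) (nat_lit 257)) (PT.nd (nat_lit 78) (PT.lf (nat_lit 51984) (nat_lit 6) (nat_lit 684) (nat_lit 1) (nat_lit 274) (nat_lit 250) (nat_lit 256)) (PT.lf (nat_lit 50768) (nat_lit 6) (nat_lit 668) (nat_lit 1) (nat_lit 275) (nat_lit 250) (nat_lit 255))))))))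
noncomputable def pc39 : PT := (PT.nd (nat_lit 79404) (PT.nd (nat_lit 624) (PT.nd (nat_lit 312) (PT.nd (nat_lit 156) (PT.nd (nat_lit 78) (PT.lf (nat_lit 49476) (nat_lit 6) (nat_lit 651) (nat_lit 1) (nat_lit 276) (nat_lit 250) (nat_lit 254)) (PT.lf (nat_lit 48108) (nat_lit 6) (nat_lit 633) (nat_lit 1) (nat_lit 277) (nat_lit 250) (nat_lit 253))) (PT.nd (nat_lit 78) (PT.lf (nat_lit 46664) (nat_lit 6) (nat_lit 614) (nat_lit 1) (nat_lit 278) (nat_lit 250) (nat_lit 252)) (PT.lf (nat_lit 45144) (nat_lit 6) (nat_lit 594) (nat_lit 1) (nat_lit 279) (nat_lit 250) (nat_lit 251)))) (PT.nd (nat_lit 156) (PT.nd (nat_lit 78) (PT.lf (nat_lit 43548) (nat_lit 3) (nat_lit 573) (nat_lit 0) (nat_lit 280) (nat_lit 250) (nat_lit 250)) (PT.lf (nat_lit 41952) (nat_lit 6) (nat_lit 552) (nat_lit 0) (nat_lit 281) (nat_lit 250) (nat_lit 249))) (PT.nd (nat_lit 78) (PT.lf (nat_lit 40280) (nat_lit 6) (nat_lit 530) (nat_lit 0) (nat_lit 282) (nat_lit 250) (nat_lit 248)) (PT.lf (nat_lit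 38532) (nat_lit 6) (nat_lit 507) (nat_lit 0) (nat_lit 283) (nat_lit 250) (nat_lit 247))))) (PT.nd (nat_lit 78390) (PT.nd (nat_lit 78234) (PT.nd (nat_lit 78156) (PT.lf (nat_lit 36708) (nat_lit 6) (nat_lit 483) (nat_lit 0) (nat_lit 284) (nat_lit 250) (nat_lit 246)) (PT.lf (nat_lit 36784) (nat_lit 6) (nat_lit 484) (nat_lit 5) (nat_lit 245) (nat_lit 251) (nat_lit 284))) (PT.nd (nat_lit 78) (PT.lf (nat_lit 38608) (nat_lit 6) (nat_lit 508) (nat_lit 5) (nat_lit 246) (nat_lit 251) (nat_lit 283)) (PT.lf (nat_lit 40356) (nat_lit 6) (nat_lit 531) (nat_lit 5) (nat_lit 247) (nat_lit 251) (nat_lit 282)))) (PT.nd (nat_lit 156) (PT.nd (nat_lit 78) (PT.lf (nat_lit 42028) (nat_lit 6) (nat_lit 553) (nat_lit 5) (nat_lit 248) (nat_lit 251) (nat_lit 281)) (PT.lf (nat_lit 43624) (nat_lit 6) (nat_lit 574) (nat_lit 5) (nat_lit 249) (nat_lit 251) (nat_lit 280))) (PT.nd (nat_lit 78) (PT.lf (nat_lit 45144) (nat_lit 6) (nat_lit 594) (nat_lit 5) (nat_lit 250) (nat_lit 251) (nat_lit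 279)) (PT.nd (nat_lit 78) (PT.lf (nat_lit 46588) (nat_lit 3) (nat_lit 613) (nat_lit 3) (nat_lit 251) (nat_lit 251) (nat_lit 278)) (PT.lf (nat_lit 48032) (nat_lit 6) (nat_lit 632) (nat_lit 3) (nat_lit 252) (nat_lit 251) (nat_lit 277))))))) (PT.nd (nat_lit 702) (PT.nd (nat_lit 312) (PT.nd (nat_lit 156) (PT.nd (nat_lit 78) (PT.lf (nat_lit 49400) (nat_lit 6) (nat_lit 650) (nat_lit 3) (nat_lit 253) (nat_lit 251) (nat_lit 276)) (PT.lf (nat_lit 50692) (nat_lit 6) (nat_lit 667) (nat_lit 3) (nat_lit 254) (nat_lit 251) (nat_lit 275))) (PT.nd (nat_lit 78) (PT.lf (nat_lit 51908) (nat_lit 6) (nat_lit 683) (nat_lit 3) (nat_lit 255) (nat_lit 251) (nat_lit 274)) (PT.lf (nat_lit 53048) (nat_lit 6) (nat_lit 698) (nat_lit 3) (nat_lit 256) (nat_lit 251) (nat_lit 273)))) (PT.nd (nat_lit 156) (PT.nd (nat_lit 78) (PT.lf (nat_lit 54112) (nat_lit 6) (nat_lit 712) (nat_lit 3) (nat_lit 257) (nat_lit 251) (nat_lit 272)) (PT.lf (nat_lit 55100) (nat_lit 6) (nat_lit 725) (nat_lit 3)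 (nat_lit 258) (nat_lit 251) (nat_lit 271))) (PT.nd (nat_lit 78) (PT.lf (nat_lit 56012) (nat_lit 6) (nat_lit 737) (nat_lit 3) (nat_lit 259) (nat_lit 251) (nat_lit 270)) (PT.nd (nat_lit 78) (PT.lf (nat_lit 56848) (nat_lit 6) (nat_lit 748) (nat_lit 3) (nat_lit 260) (nat_lit 251) (nat_lit 269)) (PT.lf (nat_lit 56924) (nat_lit 6) (nat_lit 749) (nat_lit 3) (nat_lit 261) (nat_lit 251) (nat_lit 268)))))) (PT.nd (nat_lit 312) (PT.nd (nat_lit 156) (PT.nd (nat_lit 78) (PT.lf (nat_lit 57000) (nat_lit 6) (nat_lit 750) (nat_lit 3) (nat_lit 262) (nat_lit 251) (nat_lit 267)) (PT.lf (nat_lit 57076) (nat_lit 6) (nat_lit 751) (nat_lit 3) (nat_lit 263) (nat_lit 251) (nat_lit 266))) (PT.nd (nat_lit 78) (PT.lf (nat_lit 57152) (nat_lit 6) (nat_lit 752) (nat_lit 3) (nat_lit 264) (nat_lit 251) (nat_lit 265)) (PT.lf (nat_lit 57152) (nat_lit 6) (nat_lit 752) (nat_lit 1) (nat_lit 265) (nat_lit 251) (nat_lit 264)))) (PT.nd (nat_lit 156) (PT.nd (nat_lit 78) (PT.lf (nat_lit 57076) (nat_lit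 6) (nat_lit 751) (nat_lit 1) (nat_lit 266) (nat_lit 251) (nat_lit 263)) (PT.lf (nat_lit 57000) (nat_lit 6) (nat_lit 750) (nat_lit 1) (nat_lit 267) (nat_lit 251) (nat_lit 262))) (PT.nd (nat_lit 78) (PT.lf (nat_lit 56924) (nat_lit 6) (nat_lit 749) (nat_lit 1) (nat_lit 268) (nat_lit 251) (nat_lit 261)) (PT.nd (nat_lit 78) (PT.lf (nat_lit 56848) (nat_lit 6) (nat_lit 748) (nat_lit 1) (nat_lit 269) (nat_lit 251) (nat_lit 260)) (PT.lf (nat_lit 56012) (nat_lit 6) (nat_lit 737) (nat_lit 1) (nat_lit 270) (nat_lit 251) (nat_lit 259))))))))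
noncomputable def pc40 : PT := (PT.nd (nat_lit 79326) (PT.nd (nat_lit 624) (PT.nd (nat_lit 312) (PT.nd (nat_lit 156) (PT.nd (nat_lit 78) (PT.lf (nat_lit 55100) (nat_lit 6) (nat_lit 725) (nat_lit 1) (nat_lit 271) (nat_lit 251) (nat_lit 258)) (PT.lf (nat_lit 54112) (nat_lit 6) (nat_lit 712) (nat_lit 1) (nat_lit 272) (nat_lit 251) (nat_lit 257))) (PT.nd (nat_lit 78) (PT.lf (nat_lit 53048) (nat_lit 6) (nat_lit 698) (nat_lit 1) (nat_lit 273) (nat_lit 251) (nat_lit 256)) (PT.lf (nat_lit 51908) (nat_lit 6) (nat_lit 683) (nat_lit 1) (nat_lit 274) (nat_lit 251) (nat_lit 255)))) (PT.nd (nat_lit 156) (PT.nd (nat_lit 78) (PT.lf (nat_lit 50692) (nat_lit 6) (nat_lit 667) (nat_lit 1) (nat_lit 275) (nat_lit 251) (nat_lit 254)) (PT.lf (nat_lit 49400) (nat_lit 6) (nat_lit 650) (nat_lit 1) (nat_lit 276) (nat_lit 251) (nat_lit 253))) (PT.nd (nat_lit 78) (PT.lf (nat_lit 48032) (nat_lit 6) (nat_lit 632) (nat_lit 1) (nat_lit 277) (nat_lit 251) (nat_lit 252)) (PT.lf (nat_lit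 46588) (nat_lit 3) (nat_lit 613) (nat_lit 0) (nat_lit 278) (nat_lit 251) (nat_lit 251))))) (PT.nd (nat_lit 312) (PT.nd (nat_lit 156) (PT.nd (nat_lit 78) (PT.lf (nat_lit 45144) (nat_lit 6) (nat_lit 594) (nat_lit 0) (nat_lit 279) (nat_lit 251) (nat_lit 250)) (PT.lf (nat_lit 43624) (nat_lit 6) (nat_lit 574) (nat_lit 0) (nat_lit 280) (nat_lit 251) (nat_lit 249))) (PT.nd (nat_lit 78) (PT.lf (nat_lit 42028) (nat_lit 6) (nat_lit 553) (nat_lit 0) (nat_lit 281) (nat_lit 251) (nat_lit 248)) (PT.lf (nat_lit 40356) (nat_lit 6) (nat_lit 531) (nat_lit 0) (nat_lit 282) (nat_lit 251) (nat_lit 247)))) (PT.nd (nat_lit 78156) (PT.nd (nat_lit 78) (PT.lf (nat_lit 38608) (nat_lit 6) (nat_lit 508) (nat_lit 0) (nat_lit 283) (nat_lit 251) (nat_lit 246)) (PT.lf (nat_lit 36784) (nat_lit 6) (nat_lit 484) (nat_lit 0) (nat_lit 284) (nat_lit 251) (nat_lit 245))) (PT.nd (nat_lit 78) (PT.lf (nat_lit 36860) (nat_lit 6) (nat_lit 485) (nat_lit 5) (nat_lit 244) (nat_lit 252) (nat_lit 284))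 (PT.nd (nat_lit 78) (PT.lf (nat_lit 38684) (nat_lit 6) (nat_lit 509) (nat_lit 5) (nat_lit 245) (nat_lit 252) (nat_lit 283)) (PT.lf (nat_lit 40432) (nat_lit 6) (nat_lit 532) (nat_lit 5) (nat_lit 246) (nat_lit 252) (nat_lit 282))))))) (PT.nd (nat_lit 702) (PT.nd (nat_lit 312) (PT.nd (nat_lit 156) (PT.nd (nat_lit 78) (PT.lf (nat_lit 42104) (nat_lit 6) (nat_lit 554) (nat_lit 5) (nat_lit 247) (nat_lit 252) (nat_lit 281)) (PT.lf (nat_lit 43700) (nat_lit 6) (nat_lit 575) (nat_lit 5) (nat_lit 248) (nat_lit 252) (nat_lit 280))) (PT.nd (nat_lit 78) (PT.lf (nat_lit 45220) (nat_lit 6) (nat_lit 595) (nat_lit 5) (nat_lit 249) (nat_lit 252) (nat_lit 279)) (PT.lf (nat_lit 46664) (nat_lit 6) (nat_lit 614) (nat_lit 5) (nat_lit 250) (nat_lit 252) (nat_lit 278)))) (PT.nd (nat_lit 156) (PT.nd (nat_lit 78) (PT.lf (nat_lit 48032) (nat_lit 6) (nat_lit 632) (nat_lit 5) (nat_lit 251) (nat_lit 252) (nat_lit 277)) (PT.lf (nat_lit 49324) (nat_lit 3) (nat_lit 649) (nat_lit 3) (nat_lit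 252) (nat_lit 252) (nat_lit 276))) (PT.nd (nat_lit 78) (PT.lf (nat_lit 50616) (nat_lit 6) (nat_lit 666) (nat_lit 3) (nat_lit 253) (nat_lit 252) (nat_lit 275)) (PT.nd (nat_lit 78) (PT.lf (nat_lit 51832) (nat_lit 6) (nat_lit 682) (nat_lit 3) (nat_lit 254) (nat_lit 252) (nat_lit 274)) (PT.lf (nat_lit 52972) (nat_lit 6) (nat_lit 697) (nat_lit 3) (nat_lit 255) (nat_lit 252) (nat_lit 273)))))) (PT.nd (nat_lit 312) (PT.nd (nat_lit 156) (PT.nd (nat_lit 78) (PT.lf (nat_lit 54036) (nat_lit 6) (nat_lit 711) (nat_lit 3) (nat_lit 256) (nat_lit 252) (nat_lit 272)) (PT.lf (nat_lit 55024) (nat_lit 6) (nat_lit 724) (nat_lit 3) (nat_lit 257) (nat_lit 252) (nat_lit 271))) (PT.nd (nat_lit 78) (PT.lf (nat_lit 55936) (nat_lit 6) (nat_lit 736) (nat_lit 3) (nat_lit 258) (nat_lit 252) (nat_lit 270)) (PT.lf (nat_lit 56772) (nat_lit 6) (nat_lit 747) (nat_lit 3) (nat_lit 259) (nat_lit 252) (nat_lit 269)))) (PT.nd (nat_lit 156) (PT.nd (nat_lit 78) (PT.lf (nat_lit 57532) (nat_lit 6)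 (nat_lit 757) (nat_lit 3) (nat_lit 260) (nat_lit 252) (nat_lit 268)) (PT.lf (nat_lit 57608) (nat_lit 6) (nat_lit 758) (nat_lit 3) (nat_lit 261) (nat_lit 252) (nat_lit 267))) (PT.nd (nat_lit 78) (PT.lf (nat_lit 57684) (nat_lit 6) (nat_lit 759) (nat_lit 3) (nat_lit 262) (nat_lit 252) (nat_lit 266)) (PT.nd (nat_lit 78) (PT.lf (nat_lit 57760) (nat_lit 6) (nat_lit 760) (nat_lit 3) (nat_lit 263) (nat_lit 252) (nat_lit 265)) (PT.lf (nat_lit 57836) (nat_lit 3) (nat_lit 761) (nat_lit 1) (nat_lit 264) (nat_lit 252) (nat_lit 264))))))))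
noncomputable def pc41 : PT := (PT.nd (nat_lit 1326) (PT.nd (nat_lit 624) (PT.nd (nat_lit 312) (PT.nd (nat_lit 156) (PT.nd (nat_lit 78) (PT.lf (nat_lit 57760) (nat_lit 6) (nat_lit 760) (nat_lit 1) (nat_lit 265) (nat_lit 252) (nat_lit 263)) (PT.lf (nat_lit 57684) (nat_lit 6) (nat_lit 759) (nat_lit 1) (nat_lit 266) (nat_lit 252) (nat_lit 262))) (PT.nd (nat_lit 78) (PT.lf (nat_lit 57608) (nat_lit 6) (nat_lit 758) (nat_lit 1) (nat_lit 267) (nat_lit 252) (nat_lit 261)) (PT.lf (nat_lit 57532) (nat_lit 6) (nat_lit 757) (nat_lit 1) (nat_lit 268) (nat_lit 252) (nat_lit 260)))) (PT.nd (nat_lit 156) (PT.nd (nat_lit 78) (PT.lf (nat_lit 56772) (nat_lit 6) (nat_lit 747) (nat_lit 1) (nat_lit 269) (nat_lit 252) (nat_lit 259)) (PT.lf (nat_lit 55936) (nat_lit 6) (nat_lit 736) (nat_lit 1) (nat_lit 270) (nat_lit 252) (nat_lit 258))) (PT.nd (nat_lit 78) (PT.lf (nat_lit 55024) (nat_lit 6) (nat_lit 724) (nat_lit 1) (nat_lit 271) (nat_lit 252) (nat_lit 257)) (PT.lf (nat_lit 54036)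 (nat_lit 6) (nat_lit 711) (nat_lit 1) (nat_lit 272) (nat_lit 252) (nat_lit 256))))) (PT.nd (nat_lit 312) (PT.nd (nat_lit 156) (PT.nd (nat_lit 78) (PT.lf (nat_lit 52972) (nat_lit 6) (nat_lit 697) (nat_lit 1) (nat_lit 273) (nat_lit 252) (nat_lit 255)) (PT.lf (nat_lit 51832) (nat_lit 6) (nat_lit 682) (nat_lit 1) (nat_lit 274) (nat_lit 252) (nat_lit 254))) (PT.nd (nat_lit 78) (PT.lf (nat_lit 50616) (nat_lit 6) (nat_lit 666) (nat_lit 1) (nat_lit 275) (nat_lit 252) (nat_lit 253)) (PT.lf (nat_lit 49324) (nat_lit 3) (nat_lit 649) (nat_lit 0) (nat_lit 276) (nat_lit 252) (nat_lit 252)))) (PT.nd (nat_lit 156) (PT.nd (nat_lit 78) (PT.lf (nat_lit 48032) (nat_lit 6) (nat_lit 632) (nat_lit 0) (nat_lit 277) (nat_lit 252) (nat_lit 251)) (PT.lf (nat_lit 46664) (nat_lit 6) (nat_lit 614) (nat_lit 0) (nat_lit 278) (nat_lit 252) (nat_lit 250))) (PT.nd (nat_lit 78) (PT.lf (nat_lit 45220) (nat_lit 6) (nat_lit 595) (nat_lit 0) (nat_lit 279) (nat_lit 252) (nat_lit 249)) (PT.nd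 (nat_lit 78) (PT.lf (nat_lit 43700) (nat_lit 6) (nat_lit 575) (nat_lit 0) (nat_lit 280) (nat_lit 252) (nat_lit 248)) (PT.lf (nat_lit 42104) (nat_lit 6) (nat_lit 554) (nat_lit 0) (nat_lit 281) (nat_lit 252) (nat_lit 247))))))) (PT.nd (nat_lit 78624) (PT.nd (nat_lit 78234) (PT.nd (nat_lit 156) (PT.nd (nat_lit 78) (PT.lf (nat_lit 40432) (nat_lit 6) (nat_lit 532) (nat_lit 0) (nat_lit 282) (nat_lit 252) (nat_lit 246)) (PT.lf (nat_lit 38684) (nat_lit 6) (nat_lit 509) (nat_lit 0) (nat_lit 283) (nat_lit 252) (nat_lit 245))) (PT.nd (nat_lit 78000) (PT.lf (nat_lit 36860) (nat_lit 6) (nat_lit 485) (nat_lit 0) (nat_lit 284) (nat_lit 252) (nat_lit 244)) (PT.lf (nat_lit 36936) (nat_lit 6) (nat_lit 486) (nat_lit 5) (nat_lit 243) (nat_lit 253) (nat_lit 284)))) (PT.nd (nat_lit 156) (PT.nd (nat_lit 78) (PT.lf (nat_lit 38760) (nat_lit 6) (nat_lit 510) (nat_lit 5) (nat_lit 244) (nat_lit 253) (nat_lit 283)) (PT.lf (nat_lit 40508) (nat_lit 6) (nat_lit 533) (nat_lit 5) (nat_lit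 245) (nat_lit 253) (nat_lit 282))) (PT.nd (nat_lit 78) (PT.lf (nat_lit 42180) (nat_lit 6) (nat_lit 555) (nat_lit 5) (nat_lit 246) (nat_lit 253) (nat_lit 281)) (PT.nd (nat_lit 78) (PT.lf (nat_lit 43776) (nat_lit 6) (nat_lit 576) (nat_lit 5) (nat_lit 247) (nat_lit 253) (nat_lit 280)) (PT.lf (nat_lit 45296) (nat_lit 6) (nat_lit 596) (nat_lit 5) (nat_lit 248) (nat_lit 253) (nat_lit 279)))))) (PT.nd (nat_lit 312) (PT.nd (nat_lit 156) (PT.nd (nat_lit 78) (PT.lf (nat_lit 46740) (nat_lit 6) (nat_lit 615) (nat_lit 5) (nat_lit 249) (nat_lit 253) (nat_lit 278)) (PT.lf (nat_lit 48108) (nat_lit 6) (nat_lit 633) (nat_lit 5) (nat_lit 250) (nat_lit 253) (nat_lit 277))) (PT.nd (nat_lit 78) (PT.lf (nat_lit 49400) (nat_lit 6) (nat_lit 650) (nat_lit 5) (nat_lit 251) (nat_lit 253) (nat_lit 276)) (PT.lf (nat_lit 50616) (nat_lit 6) (nat_lit 666) (nat_lit 5) (nat_lit 252) (nat_lit 253) (nat_lit 275)))) (PT.nd (nat_lit 156) (PT.nd (nat_lit 78) (PT.lf (nat_lit 51756) (nat_lit 3)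 (nat_lit 681) (nat_lit 3) (nat_lit 253) (nat_lit 253) (nat_lit 274)) (PT.lf (nat_lit 52896) (nat_lit 6) (nat_lit 696) (nat_lit 3) (nat_lit 254) (nat_lit 253) (nat_lit 273))) (PT.nd (nat_lit 78) (PT.lf (nat_lit 53960) (nat_lit 6) (nat_lit 710) (nat_lit 3) (nat_lit 255) (nat_lit 253) (nat_lit 272)) (PT.nd (nat_lit 78) (PT.lf (nat_lit 54948) (nat_lit 6) (nat_lit 723) (nat_lit 3) (nat_lit 256) (nat_lit 253) (nat_lit 271)) (PT.lf (nat_lit 55860) (nat_lit 6) (nat_lit 735) (nat_lit 3) (nat_lit 257) (nat_lit 253) (nat_lit 270))))))))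
noncomputable def pc42 : PT := (PT.nd (nat_lit 1326) (PT.nd (nat_lit 624) (PT.nd (nat_lit 312) (PT.nd (nat_lit 156) (PT.nd (nat_lit 78) (PT.lf (nat_lit 56696) (nat_lit 6) (nat_lit 746) (nat_lit 3) (nat_lit 258) (nat_lit 253) (nat_lit 269)) (PT.lf (nat_lit 57456) (nat_lit 6) (nat_lit 756) (nat_lit 3) (nat_lit 259) (nat_lit 253) (nat_lit 268))) (PT.nd (nat_lit 78) (PT.lf (nat_lit 58140) (nat_lit 6) (nat_lit 765) (nat_lit 3) (nat_lit 260) (nat_lit 253) (nat_lit 267)) (PT.lf (nat_lit 58216) (nat_lit 6) (nat_lit 766) (nat_lit 3) (nat_lit 261) (nat_lit 253) (nat_lit 266)))) (PT.nd (nat_lit 156) (PT.nd (nat_lit 78) (PT.lf (nat_lit 58292) (nat_lit 6) (nat_lit 767) (nat_lit 3) (nat_lit 262) (nat_lit 253) (nat_lit 265)) (PT.lf (nat_lit 58368) (nat_lit 6) (nat_lit 768) (nat_lit 3) (nat_lit 263) (nat_lit 253) (nat_lit 264))) (PT.nd (nat_lit 78) (PT.lf (nat_lit 58368) (nat_lit 6) (nat_lit 768) (nat_lit 1) (nat_lit 264) (nat_lit 253) (nat_lit 263)) (PT.lf (nat_lit 58292)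 (nat_lit 6) (nat_lit 767) (nat_lit 1) (nat_lit 265) (nat_lit 253) (nat_lit 262))))) (PT.nd (nat_lit 312) (PT.nd (nat_lit 156) (PT.nd (nat_lit 78) (PT.lf (nat_lit 58216) (nat_lit 6) (nat_lit 766) (nat_lit 1) (nat_lit 266) (nat_lit 253) (nat_lit 261)) (PT.lf (nat_lit 58140) (nat_lit 6) (nat_lit 765) (nat_lit 1) (nat_lit 267) (nat_lit 253) (nat_lit 260))) (PT.nd (nat_lit 78) (PT.lf (nat_lit 57456) (nat_lit 6) (nat_lit 756) (nat_lit 1) (nat_lit 268) (nat_lit 253) (nat_lit 259)) (PT.lf (nat_lit 56696) (nat_lit 6) (nat_lit 746) (nat_lit 1) (nat_lit 269) (nat_lit 253) (nat_lit 258)))) (PT.nd (nat_lit 156) (PT.nd (nat_lit 78) (PT.lf (nat_lit 55860) (nat_lit 6) (nat_lit 735) (nat_lit 1) (nat_lit 270) (nat_lit 253) (nat_lit 257)) (PT.lf (nat_lit 54948) (nat_lit 6) (nat_lit 723) (nat_lit 1) (nat_lit 271) (nat_lit 253) (nat_lit 256))) (PT.nd (nat_lit 78) (PT.lf (nat_lit 53960) (nat_lit 6) (nat_lit 710) (nat_lit 1) (nat_lit 272) (nat_lit 253) (nat_lit 255)) (PT.nd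 (nat_lit 78) (PT.lf (nat_lit 52896) (nat_lit 6) (nat_lit 696) (nat_lit 1) (nat_lit 273) (nat_lit 253) (nat_lit 254)) (PT.lf (nat_lit 51756) (nat_lit 3) (nat_lit 681) (nat_lit 0) (nat_lit 274) (nat_lit 253) (nat_lit 253))))))) (PT.nd (nat_lit 702) (PT.nd (nat_lit 312) (PT.nd (nat_lit 156) (PT.nd (nat_lit 78) (PT.lf (nat_lit 50616) (nat_lit 6) (nat_lit 666) (nat_lit 0) (nat_lit 275) (nat_lit 253) (nat_lit 252)) (PT.lf (nat_lit 49400) (nat_lit 6) (nat_lit 650) (nat_lit 0) (nat_lit 276) (nat_lit 253) (nat_lit 251))) (PT.nd (nat_lit 78) (PT.lf (nat_lit 48108) (nat_lit 6) (nat_lit 633) (nat_lit 0) (nat_lit 277) (nat_lit 253) (nat_lit 250)) (PT.lf (nat_lit 46740) (nat_lit 6) (nat_lit 615) (nat_lit 0) (nat_lit 278) (nat_lit 253) (nat_lit 249)))) (PT.nd (nat_lit 156) (PT.nd (nat_lit 78) (PT.lf (nat_lit 45296) (nat_lit 6) (nat_lit 596) (nat_lit 0) (nat_lit 279) (nat_lit 253) (nat_lit 248)) (PT.lf (nat_lit 43776) (nat_lit 6) (nat_lit 576) (nat_lit 0) (nat_lit 280)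 (nat_lit 253) (nat_lit 247))) (PT.nd (nat_lit 78) (PT.lf (nat_lit 42180) (nat_lit 6) (nat_lit 555) (nat_lit 0) (nat_lit 281) (nat_lit 253) (nat_lit 246)) (PT.nd (nat_lit 78) (PT.lf (nat_lit 40508) (nat_lit 6) (nat_lit 533) (nat_lit 0) (nat_lit 282) (nat_lit 253) (nat_lit 245)) (PT.lf (nat_lit 38760) (nat_lit 6) (nat_lit 510) (nat_lit 0) (nat_lit 283) (nat_lit 253) (nat_lit 244)))))) (PT.nd (nat_lit 78156) (PT.nd (nat_lit 78000) (PT.nd (nat_lit 77922) (PT.lf (nat_lit 36936) (nat_lit 6) (nat_lit 486) (nat_lit 0) (nat_lit 284) (nat_lit 253) (nat_lit 243)) (PT.lf (nat_lit 37012) (nat_lit 6) (nat_lit 487) (nat_lit 5) (nat_lit 242) (nat_lit 254) (nat_lit 284))) (PT.nd (nat_lit 78) (PT.lf (nat_lit 38836) (nat_lit 6) (nat_lit 511) (nat_lit 5) (nat_lit 243) (nat_lit 254) (nat_lit 283)) (PT.lf (nat_lit 40584) (nat_lit 6) (nat_lit 534) (nat_lit 5) (nat_lit 244) (nat_lit 254) (nat_lit 282)))) (PT.nd (nat_lit 156) (PT.nd (nat_lit 78) (PT.lf (nat_lit 42256) (nat_lit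 6) (nat_lit 556) (nat_lit 5) (nat_lit 245) (nat_lit 254) (nat_lit 281)) (PT.lf (nat_lit 43852) (nat_lit 6) (nat_lit 577) (nat_lit 5) (nat_lit 246) (nat_lit 254) (nat_lit 280))) (PT.nd (nat_lit 78) (PT.lf (nat_lit 45372) (nat_lit 6) (nat_lit 597) (nat_lit 5) (nat_lit 247) (nat_lit 254) (nat_lit 279)) (PT.nd (nat_lit 78) (PT.lf (nat_lit 46816) (nat_lit 6) (nat_lit 616) (nat_lit 5) (nat_lit 248) (nat_lit 254) (nat_lit 278)) (PT.lf (nat_lit 48184) (nat_lit 6) (nat_lit 634) (nat_lit 5) (nat_lit 249) (nat_lit 254) (nat_lit 277))))))))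
noncomputable def pc43 : PT := (PT.nd (nat_lit 1326) (PT.nd (nat_lit 624) (PT.nd (nat_lit 312) (PT.nd (nat_lit 156) (PT.nd (nat_lit 78) (PT.lf (nat_lit 49476) (nat_lit 6) (nat_lit 651) (nat_lit 5) (nat_lit 250) (nat_lit 254) (nat_lit 276)) (PT.lf (nat_lit 50692) (nat_lit 6) (nat_lit 667) (nat_lit 5) (nat_lit 251) (nat_lit 254) (nat_lit 275))) (PT.nd (nat_lit 78) (PT.lf (nat_lit 51832) (nat_lit 6) (nat_lit 682) (nat_lit 5) (nat_lit 252) (nat_lit 254) (nat_lit 274)) (PT.lf (nat_lit 52896) (nat_lit 6) (nat_lit 696) (nat_lit 5) (nat_lit 253) (nat_lit 254) (nat_lit 273)))) (PT.nd (nat_lit 156) (PT.nd (nat_lit 78) (PT.lf (nat_lit 53884) (nat_lit 3) (nat_lit 709) (nat_lit 3) (nat_lit 254) (nat_lit 254) (nat_lit 272)) (PT.lf (nat_lit 54872) (nat_lit 6) (nat_lit 722) (nat_lit 3) (nat_lit 255) (nat_lit 254) (nat_lit 271))) (PT.nd (nat_lit 78) (PT.lf (nat_lit 55784) (nat_lit 6) (nat_lit 734) (nat_lit 3) (nat_lit 256) (nat_lit 254) (nat_lit 270)) (PT.lf (nat_lit 56620)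 (nat_lit 6) (nat_lit 745) (nat_lit 3) (nat_lit 257) (nat_lit 254) (nat_lit 269))))) (PT.nd (nat_lit 312) (PT.nd (nat_lit 156) (PT.nd (nat_lit 78) (PT.lf (nat_lit 57380) (nat_lit 6) (nat_lit 755) (nat_lit 3) (nat_lit 258) (nat_lit 254) (nat_lit 268)) (PT.lf (nat_lit 58064) (nat_lit 6) (nat_lit 764) (nat_lit 3) (nat_lit 259) (nat_lit 254) (nat_lit 267))) (PT.nd (nat_lit 78) (PT.lf (nat_lit 58672) (nat_lit 6) (nat_lit 772) (nat_lit 3) (nat_lit 260) (nat_lit 254) (nat_lit 266)) (PT.lf (nat_lit 58748) (nat_lit 6) (nat_lit 773) (nat_lit 3) (nat_lit 261) (nat_lit 254) (nat_lit 265)))) (PT.nd (nat_lit 156) (PT.nd (nat_lit 78) (PT.lf (nat_lit 58824) (nat_lit 6) (nat_lit 774) (nat_lit 3) (nat_lit 262) (nat_lit 254) (nat_lit 264)) (PT.lf (nat_lit 58900) (nat_lit 3) (nat_lit 775) (nat_lit 1) (nat_lit 263) (nat_lit 254) (nat_lit 263))) (PT.nd (nat_lit 78) (PT.lf (nat_lit 58824) (nat_lit 6) (nat_lit 774) (nat_lit 1) (nat_lit 264) (nat_lit 254) (nat_lit 262)) (PT.nd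 (nat_lit 78) (PT.lf (nat_lit 58748) (nat_lit 6) (nat_lit 773) (nat_lit 1) (nat_lit 265) (nat_lit 254) (nat_lit 261)) (PT.lf (nat_lit 58672) (nat_lit 6) (nat_lit 772) (nat_lit 1) (nat_lit 266) (nat_lit 254) (nat_lit 260))))))) (PT.nd (nat_lit 702) (PT.nd (nat_lit 312) (PT.nd (nat_lit 156) (PT.nd (nat_lit 78) (PT.lf (nat_lit 58064) (nat_lit 6) (nat_lit 764) (nat_lit 1) (nat_lit 267) (nat_lit 254) (nat_lit 259)) (PT.lf (nat_lit 57380) (nat_lit 6) (nat_lit 755) (nat_lit 1) (nat_lit 268) (nat_lit 254) (nat_lit 258))) (PT.nd (nat_lit 78) (PT.lf (nat_lit 56620) (nat_lit 6) (nat_lit 745) (nat_lit 1) (nat_lit 269) (nat_lit 254) (nat_lit 257)) (PT.lf (nat_lit 55784) (nat_lit 6) (nat_lit 734) (nat_lit 1) (nat_lit 270) (nat_lit 254) (nat_lit 256)))) (PT.nd (nat_lit 156) (PT.nd (nat_lit 78) (PT.lf (nat_lit 54872) (nat_lit 6) (nat_lit 722) (nat_lit 1) (nat_lit 271) (nat_lit 254) (nat_lit 255)) (PT.lf (nat_lit 53884) (nat_lit 3) (nat_lit 709) (nat_lit 0) (nat_lit 272)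 (nat_lit 254) (nat_lit 254))) (PT.nd (nat_lit 78) (PT.lf (nat_lit 52896) (nat_lit 6) (nat_lit 696) (nat_lit 0) (nat_lit 273) (nat_lit 254) (nat_lit 253)) (PT.nd (nat_lit 78) (PT.lf (nat_lit 51832) (nat_lit 6) (nat_lit 682) (nat_lit 0) (nat_lit 274) (nat_lit 254) (nat_lit 252)) (PT.lf (nat_lit 50692) (nat_lit 6) (nat_lit 667) (nat_lit 0) (nat_lit 275) (nat_lit 254) (nat_lit 251)))))) (PT.nd (nat_lit 312) (PT.nd (nat_lit 156) (PT.nd (nat_lit 78) (PT.lf (nat_lit 49476) (nat_lit 6) (nat_lit 651) (nat_lit 0) (nat_lit 276) (nat_lit 254) (nat_lit 250)) (PT.lf (nat_lit 48184) (nat_lit 6) (nat_lit 634) (nat_lit 0) (nat_lit 277) (nat_lit 254) (nat_lit 249))) (PT.nd (nat_lit 78) (PT.lf (nat_lit 46816) (nat_lit 6) (nat_lit 616) (nat_lit 0) (nat_lit 278) (nat_lit 254) (nat_lit 248)) (PT.lf (nat_lit 45372) (nat_lit 6) (nat_lit 597) (nat_lit 0) (nat_lit 279) (nat_lit 254) (nat_lit 247)))) (PT.nd (nat_lit 156) (PT.nd (nat_lit 78) (PT.lf (nat_lit 43852) (nat_lit 6) (nat_lit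 577) (nat_lit 0) (nat_lit 280) (nat_lit 254) (nat_lit 246)) (PT.lf (nat_lit 42256) (nat_lit 6) (nat_lit 556) (nat_lit 0) (nat_lit 281) (nat_lit 254) (nat_lit 245))) (PT.nd (nat_lit 78) (PT.lf (nat_lit 40584) (nat_lit 6) (nat_lit 534) (nat_lit 0) (nat_lit 282) (nat_lit 254) (nat_lit 244)) (PT.nd (nat_lit 78) (PT.lf (nat_lit 38836) (nat_lit 6) (nat_lit 511) (nat_lit 0) (nat_lit 283) (nat_lit 254) (nat_lit 243)) (PT.lf (nat_lit 37012) (nat_lit 6) (nat_lit 487) (nat_lit 0) (nat_lit 284) (nat_lit 254) (nat_lit 242))))))))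
noncomputable def pc44 : PT := (PT.nd (nat_lit 1326) (PT.nd (nat_lit 624) (PT.nd (nat_lit 312) (PT.nd (nat_lit 156) (PT.nd (nat_lit 78) (PT.lf (nat_lit 37088) (nat_lit 6) (nat_lit 488) (nat_lit 5) (nat_lit 241) (nat_lit 255) (nat_lit 284)) (PT.lf (nat_lit 38912) (nat_lit 6) (nat_lit 512) (nat_lit 5) (nat_lit 242) (nat_lit 255) (nat_lit 283))) (PT.nd (nat_lit 78) (PT.lf (nat_lit 40660) (nat_lit 6) (nat_lit 535) (nat_lit 5) (nat_lit 243) (nat_lit 255) (nat_lit 282)) (PT.lf (nat_lit 42332) (nat_lit 6) (nat_lit 557) (nat_lit 5) (nat_lit 244) (nat_lit 255) (nat_lit 281)))) (PT.nd (nat_lit 156) (PT.nd (nat_lit 78) (PT.lf (nat_lit 43928) (nat_lit 6) (nat_lit 578) (nat_lit 5) (nat_lit 245) (nat_lit 255) (nat_lit 280)) (PT.lf (nat_lit 45448) (nat_lit 6) (nat_lit 598) (nat_lit 5) (nat_lit 246) (nat_lit 255) (nat_lit 279))) (PT.nd (nat_lit 78) (PT.lf (nat_lit 46892) (nat_lit 6) (nat_lit 617) (nat_lit 5) (nat_lit 247) (nat_lit 255) (nat_lit 278)) (PT.lf (nat_lit 48260)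 (nat_lit 6) (nat_lit 635) (nat_lit 5) (nat_lit 248) (nat_lit 255) (nat_lit 277))))) (PT.nd (nat_lit 312) (PT.nd (nat_lit 156) (PT.nd (nat_lit 78) (PT.lf (nat_lit 49552) (nat_lit 6) (nat_lit 652) (nat_lit 5) (nat_lit 249) (nat_lit 255) (nat_lit 276)) (PT.lf (nat_lit 50768) (nat_lit 6) (nat_lit 668) (nat_lit 5) (nat_lit 250) (nat_lit 255) (nat_lit 275))) (PT.nd (nat_lit 78) (PT.lf (nat_lit 51908) (nat_lit 6) (nat_lit 683) (nat_lit 5) (nat_lit 251) (nat_lit 255) (nat_lit 274)) (PT.lf (nat_lit 52972) (nat_lit 6) (nat_lit 697) (nat_lit 5) (nat_lit 252) (nat_lit 255) (nat_lit 273)))) (PT.nd (nat_lit 156) (PT.nd (nat_lit 78) (PT.lf (nat_lit 53960) (nat_lit 6) (nat_lit 710) (nat_lit 5) (nat_lit 253) (nat_lit 255) (nat_lit 272)) (PT.lf (nat_lit 54872) (nat_lit 6) (nat_lit 722) (nat_lit 5) (nat_lit 254) (nat_lit 255) (nat_lit 271))) (PT.nd (nat_lit 78) (PT.lf (nat_lit 55708) (nat_lit 3) (nat_lit 733) (nat_lit 3) (nat_lit 255) (nat_lit 255) (nat_lit 270)) (PT.nd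 (nat_lit 78) (PT.lf (nat_lit 56544) (nat_lit 6) (nat_lit 744) (nat_lit 3) (nat_lit 256) (nat_lit 255) (nat_lit 269)) (PT.lf (nat_lit 57304) (nat_lit 6) (nat_lit 754) (nat_lit 3) (nat_lit 257) (nat_lit 255) (nat_lit 268))))))) (PT.nd (nat_lit 702) (PT.nd (nat_lit 312) (PT.nd (nat_lit 156) (PT.nd (nat_lit 78) (PT.lf (nat_lit 57988) (nat_lit 6) (nat_lit 763) (nat_lit 3) (nat_lit 258) (nat_lit 255) (nat_lit 267)) (PT.lf (nat_lit 58596) (nat_lit 6) (nat_lit 771) (nat_lit 3) (nat_lit 259) (nat_lit 255) (nat_lit 266))) (PT.nd (nat_lit 78) (PT.lf (nat_lit 59128) (nat_lit 6) (nat_lit 778) (nat_lit 3) (nat_lit 260) (nat_lit 255) (nat_lit 265)) (PT.lf (nat_lit 59204) (nat_lit 6) (nat_lit 779) (nat_lit 3) (nat_lit 261) (nat_lit 255) (nat_lit 264)))) (PT.nd (nat_lit 156) (PT.nd (nat_lit 78) (PT.lf (nat_lit 59280) (nat_lit 6) (nat_lit 780) (nat_lit 3) (nat_lit 262) (nat_lit 255) (nat_lit 263)) (PT.lf (nat_lit 59280) (nat_lit 6) (nat_lit 780) (nat_lit 1) (nat_lit 263)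 (nat_lit 255) (nat_lit 262))) (PT.nd (nat_lit 78) (PT.lf (nat_lit 59204) (nat_lit 6) (nat_lit 779) (nat_lit 1) (nat_lit 264) (nat_lit 255) (nat_lit 261)) (PT.nd (nat_lit 78) (PT.lf (nat_lit 59128) (nat_lit 6) (nat_lit 778) (nat_lit 1) (nat_lit 265) (nat_lit 255) (nat_lit 260)) (PT.lf (nat_lit 58596) (nat_lit 6) (nat_lit 771) (nat_lit 1) (nat_lit 266) (nat_lit 255) (nat_lit 259)))))) (PT.nd (nat_lit 312) (PT.nd (nat_lit 156) (PT.nd (nat_lit 78) (PT.lf (nat_lit 57988) (nat_lit 6) (nat_lit 763) (nat_lit 1) (nat_lit 267) (nat_lit 255) (nat_lit 258)) (PT.lf (nat_lit 57304) (nat_lit 6) (nat_lit 754) (nat_lit 1) (nat_lit 268) (nat_lit 255) (nat_lit 257))) (PT.nd (nat_lit 78) (PT.lf (nat_lit 56544) (nat_lit 6) (nat_lit 744) (nat_lit 1) (nat_lit 269) (nat_lit 255) (nat_lit 256)) (PT.lf (nat_lit 55708) (nat_lit 3) (nat_lit 733) (nat_lit 0) (nat_lit 270) (nat_lit 255) (nat_lit 255)))) (PT.nd (nat_lit 156) (PT.nd (nat_lit 78) (PT.lf (nat_lit 54872) (nat_lit 6) (nat_lit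 722) (nat_lit 0) (nat_lit 271) (nat_lit 255) (nat_lit 254)) (PT.lf (nat_lit 53960) (nat_lit 6) (nat_lit 710) (nat_lit 0) (nat_lit 272) (nat_lit 255) (nat_lit 253))) (PT.nd (nat_lit 78) (PT.lf (nat_lit 52972) (nat_lit 6) (nat_lit 697) (nat_lit 0) (nat_lit 273) (nat_lit 255) (nat_lit 252)) (PT.nd (nat_lit 78) (PT.lf (nat_lit 51908) (nat_lit 6) (nat_lit 683) (nat_lit 0) (nat_lit 274) (nat_lit 255) (nat_lit 251)) (PT.lf (nat_lit 50768) (nat_lit 6) (nat_lit 668) (nat_lit 0) (nat_lit 275) (nat_lit 255) (nat_lit 250))))))))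
noncomputable def pc45 : PT := (PT.nd (nat_lit 79014) (PT.nd (nat_lit 624) (PT.nd (nat_lit 312) (PT.nd (nat_lit 156) (PT.nd (nat_lit 78) (PT.lf (nat_lit 49552) (nat_lit 6) (nat_lit 652) (nat_lit 0) (nat_lit 276) (nat_lit 255) (nat_lit 249)) (PT.lf (nat_lit 48260) (nat_lit 6) (nat_lit 635) (nat_lit 0) (nat_lit 277) (nat_lit 255) (nat_lit 248))) (PT.nd (nat_lit 78) (PT.lf (nat_lit 46892) (nat_lit 6) (nat_lit 617) (nat_lit 0) (nat_lit 278) (nat_lit 255) (nat_lit 247)) (PT.lf (nat_lit 45448) (nat_lit 6) (nat_lit 598) (nat_lit 0) (nat_lit 279) (nat_lit 255) (nat_lit 246)))) (PT.nd (nat_lit 156) (PT.nd (nat_lit 78) (PT.lf (nat_lit 43928) (nat_lit 6) (nat_lit 578) (nat_lit 0) (nat_lit 280) (nat_lit 255) (nat_lit 245)) (PT.lf (nat_lit 42332) (nat_lit 6) (nat_lit 557) (nat_lit 0) (nat_lit 281) (nat_lit 255) (nat_lit 244))) (PT.nd (nat_lit 78) (PT.lf (nat_lit 40660) (nat_lit 6) (nat_lit 535) (nat_lit 0) (nat_lit 282) (nat_lit 255) (nat_lit 243)) (PT.lf (nat_lit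 38912) (nat_lit 6) (nat_lit 512) (nat_lit 0) (nat_lit 283) (nat_lit 255) (nat_lit 242))))) (PT.nd (nat_lit 78000) (PT.nd (nat_lit 77844) (PT.nd (nat_lit 77766) (PT.lf (nat_lit 37088) (nat_lit 6) (nat_lit 488) (nat_lit 0) (nat_lit 284) (nat_lit 255) (nat_lit 241)) (PT.lf (nat_lit 37164) (nat_lit 6) (nat_lit 489) (nat_lit 5) (nat_lit 240) (nat_lit 256) (nat_lit 284))) (PT.nd (nat_lit 78) (PT.lf (nat_lit 38988) (nat_lit 6) (nat_lit 513) (nat_lit 5) (nat_lit 241) (nat_lit 256) (nat_lit 283)) (PT.lf (nat_lit 40736) (nat_lit 6) (nat_lit 536) (nat_lit 5) (nat_lit 242) (nat_lit 256) (nat_lit 282)))) (PT.nd (nat_lit 156) (PT.nd (nat_lit 78) (PT.lf (nat_lit 42408) (nat_lit 6) (nat_lit 558) (nat_lit 5) (nat_lit 243) (nat_lit 256) (nat_lit 281)) (PT.lf (nat_lit 44004) (nat_lit 6) (nat_lit 579) (nat_lit 5) (nat_lit 244) (nat_lit 256) (nat_lit 280))) (PT.nd (nat_lit 78) (PT.lf (nat_lit 45524) (nat_lit 6) (nat_lit 599) (nat_lit 5) (nat_lit 245) (nat_lit 256) (nat_lit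 279)) (PT.nd (nat_lit 78) (PT.lf (nat_lit 46968) (nat_lit 6) (nat_lit 618) (nat_lit 5) (nat_lit 246) (nat_lit 256) (nat_lit 278)) (PT.lf (nat_lit 48336) (nat_lit 6) (nat_lit 636) (nat_lit 5) (nat_lit 247) (nat_lit 256) (nat_lit 277))))))) (PT.nd (nat_lit 702) (PT.nd (nat_lit 312) (PT.nd (nat_lit 156) (PT.nd (nat_lit 78) (PT.lf (nat_lit 49628) (nat_lit 6) (nat_lit 653) (nat_lit 5) (nat_lit 248) (nat_lit 256) (nat_lit 276)) (PT.lf (nat_lit 50844) (nat_lit 6) (nat_lit 669) (nat_lit 5) (nat_lit 249) (nat_lit 256) (nat_lit 275))) (PT.nd (nat_lit 78) (PT.lf (nat_lit 51984) (nat_lit 6) (nat_lit 684) (nat_lit 5) (nat_lit 250) (nat_lit 256) (nat_lit 274)) (PT.lf (nat_lit 53048) (nat_lit 6) (nat_lit 698) (nat_lit 5) (nat_lit 251) (nat_lit 256) (nat_lit 273)))) (PT.nd (nat_lit 156) (PT.nd (nat_lit 78) (PT.lf (nat_lit 54036) (nat_lit 6) (nat_lit 711) (nat_lit 5) (nat_lit 252) (nat_lit 256) (nat_lit 272)) (PT.lf (nat_lit 54948) (nat_lit 6) (nat_lit 723) (nat_lit 5)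 (nat_lit 253) (nat_lit 256) (nat_lit 271))) (PT.nd (nat_lit 78) (PT.lf (nat_lit 55784) (nat_lit 6) (nat_lit 734) (nat_lit 5) (nat_lit 254) (nat_lit 256) (nat_lit 270)) (PT.nd (nat_lit 78) (PT.lf (nat_lit 56544) (nat_lit 6) (nat_lit 744) (nat_lit 5) (nat_lit 255) (nat_lit 256) (nat_lit 269)) (PT.lf (nat_lit 57228) (nat_lit 3) (nat_lit 753) (nat_lit 3) (nat_lit 256) (nat_lit 256) (nat_lit 268)))))) (PT.nd (nat_lit 312) (PT.nd (nat_lit 156) (PT.nd (nat_lit 78) (PT.lf (nat_lit 57912) (nat_lit 6) (nat_lit 762) (nat_lit 3) (nat_lit 257) (nat_lit 256) (nat_lit 267)) (PT.lf (nat_lit 58520) (nat_lit 6) (nat_lit 770) (nat_lit 3) (nat_lit 258) (nat_lit 256) (nat_lit 266))) (PT.nd (nat_lit 78) (PT.lf (nat_lit 59052) (nat_lit 6) (nat_lit 777) (nat_lit 3) (nat_lit 259) (nat_lit 256) (nat_lit 265)) (PT.lf (nat_lit 59508) (nat_lit 6) (nat_lit 783) (nat_lit 3) (nat_lit 260) (nat_lit 256) (nat_lit 264)))) (PT.nd (nat_lit 156) (PT.nd (nat_lit 78) (PT.lf (nat_lit 59584) (nat_lit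 6) (nat_lit 784) (nat_lit 3) (nat_lit 261) (nat_lit 256) (nat_lit 263)) (PT.lf (nat_lit 59660) (nat_lit 3) (nat_lit 785) (nat_lit 1) (nat_lit 262) (nat_lit 256) (nat_lit 262))) (PT.nd (nat_lit 78) (PT.lf (nat_lit 59584) (nat_lit 6) (nat_lit 784) (nat_lit 1) (nat_lit 263) (nat_lit 256) (nat_lit 261)) (PT.nd (nat_lit 78) (PT.lf (nat_lit 59508) (nat_lit 6) (nat_lit 783) (nat_lit 1) (nat_lit 264) (nat_lit 256) (nat_lit 260)) (PT.lf (nat_lit 59052) (nat_lit 6) (nat_lit 777) (nat_lit 1) (nat_lit 265) (nat_lit 256) (nat_lit 259))))))))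
noncomputable def pc46 : PT := (PT.nd (nat_lit 1326) (PT.nd (nat_lit 624) (PT.nd (nat_lit 312) (PT.nd (nat_lit 156) (PT.nd (nat_lit 78) (PT.lf (nat_lit 58520) (nat_lit 6) (nat_lit 770) (nat_lit 1) (nat_lit 266) (nat_lit 256) (nat_lit 258)) (PT.lf (nat_lit 57912) (nat_lit 6) (nat_lit 762) (nat_lit 1) (nat_lit 267) (nat_lit 256) (nat_lit 257))) (PT.nd (nat_lit 78) (PT.lf (nat_lit 57228) (nat_lit 3) (nat_lit 753) (nat_lit 0) (nat_lit 268) (nat_lit 256) (nat_lit 256)) (PT.lf (nat_lit 56544) (nat_lit 6) (nat_lit 744) (nat_lit 0) (nat_lit 269) (nat_lit 256) (nat_lit 255)))) (PT.nd (nat_lit 156) (PT.nd (nat_lit 78) (PT.lf (nat_lit 55784) (nat_lit 6) (nat_lit 734) (nat_lit 0) (nat_lit 270) (nat_lit 256) (nat_lit 254)) (PT.lf (nat_lit 54948) (nat_lit 6) (nat_lit 723) (nat_lit 0) (nat_lit 271) (nat_lit 256) (nat_lit 253))) (PT.nd (nat_lit 78) (PT.lf (nat_lit 54036) (nat_lit 6) (nat_lit 711) (nat_lit 0) (nat_lit 272) (nat_lit 256) (nat_lit 252)) (PT.lf (nat_lit 53048)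 (nat_lit 6) (nat_lit 698) (nat_lit 0) (nat_lit 273) (nat_lit 256) (nat_lit 251))))) (PT.nd (nat_lit 312) (PT.nd (nat_lit 156) (PT.nd (nat_lit 78) (PT.lf (nat_lit 51984) (nat_lit 6) (nat_lit 684) (nat_lit 0) (nat_lit 274) (nat_lit 256) (nat_lit 250)) (PT.lf (nat_lit 50844) (nat_lit 6) (nat_lit 669) (nat_lit 0) (nat_lit 275) (nat_lit 256) (nat_lit 249))) (PT.nd (nat_lit 78) (PT.lf (nat_lit 49628) (nat_lit 6) (nat_lit 653) (nat_lit 0) (nat_lit 276) (nat_lit 256) (nat_lit 248)) (PT.lf (nat_lit 48336) (nat_lit 6) (nat_lit 636) (nat_lit 0) (nat_lit 277) (nat_lit 256) (nat_lit 247)))) (PT.nd (nat_lit 156) (PT.nd (nat_lit 78) (PT.lf (nat_lit 46968) (nat_lit 6) (nat_lit 618) (nat_lit 0) (nat_lit 278) (nat_lit 256) (nat_lit 246)) (PT.lf (nat_lit 45524) (nat_lit 6) (nat_lit 599) (nat_lit 0) (nat_lit 279) (nat_lit 256) (nat_lit 245))) (PT.nd (nat_lit 78) (PT.lf (nat_lit 44004) (nat_lit 6) (nat_lit 579) (nat_lit 0) (nat_lit 280) (nat_lit 256) (nat_lit 244)) (PT.nd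 (nat_lit 78) (PT.lf (nat_lit 42408) (nat_lit 6) (nat_lit 558) (nat_lit 0) (nat_lit 281) (nat_lit 256) (nat_lit 243)) (PT.lf (nat_lit 40736) (nat_lit 6) (nat_lit 536) (nat_lit 0) (nat_lit 282) (nat_lit 256) (nat_lit 242))))))) (PT.nd (nat_lit 78312) (PT.nd (nat_lit 77922) (PT.nd (nat_lit 77766) (PT.nd (nat_lit 78) (PT.lf (nat_lit 38988) (nat_lit 6) (nat_lit 513) (nat_lit 0) (nat_lit 283) (nat_lit 256) (nat_lit 241)) (PT.lf (nat_lit 37164) (nat_lit 6) (nat_lit 489) (nat_lit 0) (nat_lit 284) (nat_lit 256) (nat_lit 240))) (PT.nd (nat_lit 78) (PT.lf (nat_lit 37240) (nat_lit 6) (nat_lit 490) (nat_lit 5) (nat_lit 239) (nat_lit 257) (nat_lit 284)) (PT.lf (nat_lit 39064) (nat_lit 6) (nat_lit 514) (nat_lit 5) (nat_lit 240) (nat_lit 257) (nat_lit 283)))) (PT.nd (nat_lit 156) (PT.nd (nat_lit 78) (PT.lf (nat_lit 40812) (nat_lit 6) (nat_lit 537) (nat_lit 5) (nat_lit 241) (nat_lit 257) (nat_lit 282)) (PT.lf (nat_lit 42484) (nat_lit 6) (nat_lit 559) (nat_lit 5) (nat_lit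 242) (nat_lit 257) (nat_lit 281))) (PT.nd (nat_lit 78) (PT.lf (nat_lit 44080) (nat_lit 6) (nat_lit 580) (nat_lit 5) (nat_lit 243) (nat_lit 257) (nat_lit 280)) (PT.nd (nat_lit 78) (PT.lf (nat_lit 45600) (nat_lit 6) (nat_lit 600) (nat_lit 5) (nat_lit 244) (nat_lit 257) (nat_lit 279)) (PT.lf (nat_lit 47044) (nat_lit 6) (nat_lit 619) (nat_lit 5) (nat_lit 245) (nat_lit 257) (nat_lit 278)))))) (PT.nd (nat_lit 312) (PT.nd (nat_lit 156) (PT.nd (nat_lit 78) (PT.lf (nat_lit 48412) (nat_lit 6) (nat_lit 637) (nat_lit 5) (nat_lit 246) (nat_lit 257) (nat_lit 277)) (PT.lf (nat_lit 49704) (nat_lit 6) (nat_lit 654) (nat_lit 5) (nat_lit 247) (nat_lit 257) (nat_lit 276))) (PT.nd (nat_lit 78) (PT.lf (nat_lit 50920) (nat_lit 6) (nat_lit 670) (nat_lit 5) (nat_lit 248) (nat_lit 257) (nat_lit 275)) (PT.lf (nat_lit 52060) (nat_lit 6) (nat_lit 685) (nat_lit 5) (nat_lit 249) (nat_lit 257) (nat_lit 274)))) (PT.nd (nat_lit 156) (PT.nd (nat_lit 78) (PT.lf (nat_lit 53124) (nat_lit 6)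 (nat_lit 699) (nat_lit 5) (nat_lit 250) (nat_lit 257) (nat_lit 273)) (PT.lf (nat_lit 54112) (nat_lit 6) (nat_lit 712) (nat_lit 5) (nat_lit 251) (nat_lit 257) (nat_lit 272))) (PT.nd (nat_lit 78) (PT.lf (nat_lit 55024) (nat_lit 6) (nat_lit 724) (nat_lit 5) (nat_lit 252) (nat_lit 257) (nat_lit 271)) (PT.nd (nat_lit 78) (PT.lf (nat_lit 55860) (nat_lit 6) (nat_lit 735) (nat_lit 5) (nat_lit 253) (nat_lit 257) (nat_lit 270)) (PT.lf (nat_lit 56620) (nat_lit 6) (nat_lit 745) (nat_lit 5) (nat_lit 254) (nat_lit 257) (nat_lit 269))))))))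
noncomputable def pc47 : PT := (PT.nd (nat_lit 1326) (PT.nd (nat_lit 624) (PT.nd (nat_lit 312) (PT.nd (nat_lit 156) (PT.nd (nat_lit 78) (PT.lf (nat_lit 57304) (nat_lit 6) (nat_lit 754) (nat_lit 5) (nat_lit 255) (nat_lit 257) (nat_lit 268)) (PT.lf (nat_lit 57912) (nat_lit 6) (nat_lit 762) (nat_lit 5) (nat_lit 256) (nat_lit 257) (nat_lit 267))) (PT.nd (nat_lit 78) (PT.lf (nat_lit 58444) (nat_lit 3) (nat_lit 769) (nat_lit 3) (nat_lit 257) (nat_lit 257) (nat_lit 266)) (PT.lf (nat_lit 58976) (nat_lit 6) (nat_lit 776) (nat_lit 3) (nat_lit 258) (nat_lit 257) (nat_lit 265)))) (PT.nd (nat_lit 156) (PT.nd (nat_lit 78) (PT.lf (nat_lit 59432) (nat_lit 6) (nat_lit 782) (nat_lit 3) (nat_lit 259) (nat_lit 257) (nat_lit 264)) (PT.lf (nat_lit 59812) (nat_lit 6) (nat_lit 787) (nat_lit 3) (nat_lit 260) (nat_lit 257) (nat_lit 263))) (PT.nd (nat_lit 78) (PT.lf (nat_lit 59888) (nat_lit 6) (nat_lit 788) (nat_lit 3) (nat_lit 261) (nat_lit 257) (nat_lit 262)) (PT.lf (nat_lit 59888)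 (nat_lit 6) (nat_lit 788) (nat_lit 1) (nat_lit 262) (nat_lit 257) (nat_lit 261))))) (PT.nd (nat_lit 312) (PT.nd (nat_lit 156) (PT.nd (nat_lit 78) (PT.lf (nat_lit 59812) (nat_lit 6) (nat_lit 787) (nat_lit 1) (nat_lit 263) (nat_lit 257) (nat_lit 260)) (PT.lf (nat_lit 59432) (nat_lit 6) (nat_lit 782) (nat_lit 1) (nat_lit 264) (nat_lit 257) (nat_lit 259))) (PT.nd (nat_lit 78) (PT.lf (nat_lit 58976) (nat_lit 6) (nat_lit 776) (nat_lit 1) (nat_lit 265) (nat_lit 257) (nat_lit 258)) (PT.lf (nat_lit 58444) (nat_lit 3) (nat_lit 769) (nat_lit 0) (nat_lit 266) (nat_lit 257) (nat_lit 257)))) (PT.nd (nat_lit 156) (PT.nd (nat_lit 78) (PT.lf (nat_lit 57912) (nat_lit 6) (nat_lit 762) (nat_lit 0) (nat_lit 267) (nat_lit 257) (nat_lit 256)) (PT.lf (nat_lit 57304) (nat_lit 6) (nat_lit 754) (nat_lit 0) (nat_lit 268) (nat_lit 257) (nat_lit 255))) (PT.nd (nat_lit 78) (PT.lf (nat_lit 56620) (nat_lit 6) (nat_lit 745) (nat_lit 0) (nat_lit 269) (nat_lit 257) (nat_lit 254)) (PT.nd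 (nat_lit 78) (PT.lf (nat_lit 55860) (nat_lit 6) (nat_lit 735) (nat_lit 0) (nat_lit 270) (nat_lit 257) (nat_lit 253)) (PT.lf (nat_lit 55024) (nat_lit 6) (nat_lit 724) (nat_lit 0) (nat_lit 271) (nat_lit 257) (nat_lit 252))))))) (PT.nd (nat_lit 702) (PT.nd (nat_lit 312) (PT.nd (nat_lit 156) (PT.nd (nat_lit 78) (PT.lf (nat_lit 54112) (nat_lit 6) (nat_lit 712) (nat_lit 0) (nat_lit 272) (nat_lit 257) (nat_lit 251)) (PT.lf (nat_lit 53124) (nat_lit 6) (nat_lit 699) (nat_lit 0) (nat_lit 273) (nat_lit 257) (nat_lit 250))) (PT.nd (nat_lit 78) (PT.lf (nat_lit 52060) (nat_lit 6) (nat_lit 685) (nat_lit 0) (nat_lit 274) (nat_lit 257) (nat_lit 249)) (PT.lf (nat_lit 50920) (nat_lit 6) (nat_lit 670) (nat_lit 0) (nat_lit 275) (nat_lit 257) (nat_lit 248)))) (PT.nd (nat_lit 156) (PT.nd (nat_lit 78) (PT.lf (nat_lit 49704) (nat_lit 6) (nat_lit 654) (nat_lit 0) (nat_lit 276) (nat_lit 257) (nat_lit 247)) (PT.lf (nat_lit 48412) (nat_lit 6) (nat_lit 637) (nat_lit 0) (nat_lit 277)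 (nat_lit 257) (nat_lit 246))) (PT.nd (nat_lit 78) (PT.lf (nat_lit 47044) (nat_lit 6) (nat_lit 619) (nat_lit 0) (nat_lit 278) (nat_lit 257) (nat_lit 245)) (PT.nd (nat_lit 78) (PT.lf (nat_lit 45600) (nat_lit 6) (nat_lit 600) (nat_lit 0) (nat_lit 279) (nat_lit 257) (nat_lit 244)) (PT.lf (nat_lit 44080) (nat_lit 6) (nat_lit 580) (nat_lit 0) (nat_lit 280) (nat_lit 257) (nat_lit 243)))))) (PT.nd (nat_lit 77766) (PT.nd (nat_lit 156) (PT.nd (nat_lit 78) (PT.lf (nat_lit 42484) (nat_lit 6) (nat_lit 559) (nat_lit 0) (nat_lit 281) (nat_lit 257) (nat_lit 242)) (PT.lf (nat_lit 40812) (nat_lit 6) (nat_lit 537) (nat_lit 0) (nat_lit 282) (nat_lit 257) (nat_lit 241))) (PT.nd (nat_lit 78) (PT.lf (nat_lit 39064) (nat_lit 6) (nat_lit 514) (nat_lit 0) (nat_lit 283) (nat_lit 257) (nat_lit 240)) (PT.lf (nat_lit 37240) (nat_lit 6) (nat_lit 490) (nat_lit 0) (nat_lit 284) (nat_lit 257) (nat_lit 239)))) (PT.nd (nat_lit 156) (PT.nd (nat_lit 78) (PT.lf (nat_lit 35416) (nat_lit 6) (nat_lit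 466) (nat_lit 5) (nat_lit 237) (nat_lit 258) (nat_lit 285)) (PT.lf (nat_lit 37316) (nat_lit 6) (nat_lit 491) (nat_lit 5) (nat_lit 238) (nat_lit 258) (nat_lit 284))) (PT.nd (nat_lit 78) (PT.lf (nat_lit 39140) (nat_lit 6) (nat_lit 515) (nat_lit 5) (nat_lit 239) (nat_lit 258) (nat_lit 283)) (PT.nd (nat_lit 78) (PT.lf (nat_lit 40888) (nat_lit 6) (nat_lit 538) (nat_lit 5) (nat_lit 240) (nat_lit 258) (nat_lit 282)) (PT.lf (nat_lit 42560) (nat_lit 6) (nat_lit 560) (nat_lit 5) (nat_lit 241) (nat_lit 258) (nat_lit 281))))))))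
noncomputable def pc48 : PT := (PT.nd (nat_lit 1326) (PT.nd (nat_lit 624) (PT.nd (nat_lit 312) (PT.nd (nat_lit 156) (PT.nd (nat_lit 78) (PT.lf (nat_lit 44156) (nat_lit 6) (nat_lit 581) (nat_lit 5) (nat_lit 242) (nat_lit 258) (nat_lit 280)) (PT.lf (nat_lit 45676) (nat_lit 6) (nat_lit 601) (nat_lit 5) (nat_lit 243) (nat_lit 258) (nat_lit 279))) (PT.nd (nat_lit 78) (PT.lf (nat_lit 47120) (nat_lit 6) (nat_lit 620) (nat_lit 5) (nat_lit 244) (nat_lit 258) (nat_lit 278)) (PT.lf (nat_lit 48488) (nat_lit 6) (nat_lit 638) (nat_lit 5) (nat_lit 245) (nat_lit 258) (nat_lit 277)))) (PT.nd (nat_lit 156) (PT.nd (nat_lit 78) (PT.lf (nat_lit 49780) (nat_lit 6) (nat_lit 655) (nat_lit 5) (nat_lit 246) (nat_lit 258) (nat_lit 276)) (PT.lf (nat_lit 50996) (nat_lit 6) (nat_lit 671) (nat_lit 5) (nat_lit 247) (nat_lit 258) (nat_lit 275))) (PT.nd (nat_lit 78) (PT.lf (nat_lit 52136) (nat_lit 6) (nat_lit 686) (nat_lit 5) (nat_lit 248) (nat_lit 258) (nat_lit 274)) (PT.lf (nat_lit 53200)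 (nat_lit 6) (nat_lit 700) (nat_lit 5) (nat_lit 249) (nat_lit 258) (nat_lit 273))))) (PT.nd (nat_lit 312) (PT.nd (nat_lit 156) (PT.nd (nat_lit 78) (PT.lf (nat_lit 54188) (nat_lit 6) (nat_lit 713) (nat_lit 5) (nat_lit 250) (nat_lit 258) (nat_lit 272)) (PT.lf (nat_lit 55100) (nat_lit 6) (nat_lit 725) (nat_lit 5) (nat_lit 251) (nat_lit 258) (nat_lit 271))) (PT.nd (nat_lit 78) (PT.lf (nat_lit 55936) (nat_lit 6) (nat_lit 736) (nat_lit 5) (nat_lit 252) (nat_lit 258) (nat_lit 270)) (PT.lf (nat_lit 56696) (nat_lit 6) (nat_lit 746) (nat_lit 5) (nat_lit 253) (nat_lit 258) (nat_lit 269)))) (PT.nd (nat_lit 156) (PT.nd (nat_lit 78) (PT.lf (nat_lit 57380) (nat_lit 6) (nat_lit 755) (nat_lit 5) (nat_lit 254) (nat_lit 258) (nat_lit 268)) (PT.lf (nat_lit 57988) (nat_lit 6) (nat_lit 763) (nat_lit 5) (nat_lit 255) (nat_lit 258) (nat_lit 267))) (PT.nd (nat_lit 78) (PT.lf (nat_lit 58520) (nat_lit 6) (nat_lit 770) (nat_lit 5) (nat_lit 256) (nat_lit 258) (nat_lit 266)) (PT.nd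 (nat_lit 78) (PT.lf (nat_lit 58976) (nat_lit 6) (nat_lit 776) (nat_lit 5) (nat_lit 257) (nat_lit 258) (nat_lit 265)) (PT.lf (nat_lit 59356) (nat_lit 3) (nat_lit 781) (nat_lit 3) (nat_lit 258) (nat_lit 258) (nat_lit 264))))))) (PT.nd (nat_lit 624) (PT.nd (nat_lit 312) (PT.nd (nat_lit 156) (PT.nd (nat_lit 78) (PT.lf (nat_lit 59736) (nat_lit 6) (nat_lit 786) (nat_lit 3) (nat_lit 259) (nat_lit 258) (nat_lit 263)) (PT.lf (nat_lit 60040) (nat_lit 6) (nat_lit 790) (nat_lit 3) (nat_lit 260) (nat_lit 258) (nat_lit 262))) (PT.nd (nat_lit 78) (PT.lf (nat_lit 60116) (nat_lit 3) (nat_lit 791) (nat_lit 1) (nat_lit 261) (nat_lit 258) (nat_lit 261)) (PT.lf (nat_lit 60040) (nat_lit 6) (nat_lit 790) (nat_lit 1) (nat_lit 262) (nat_lit 258) (nat_lit 260)))) (PT.nd (nat_lit 156) (PT.nd (nat_lit 78) (PT.lf (nat_lit 59736) (nat_lit 6) (nat_lit 786) (nat_lit 1) (nat_lit 263) (nat_lit 258) (nat_lit 259)) (PT.lf (nat_lit 59356) (nat_lit 3) (nat_lit 781) (nat_lit 0) (nat_lit 264)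 (nat_lit 258) (nat_lit 258))) (PT.nd (nat_lit 78) (PT.lf (nat_lit 58976) (nat_lit 6) (nat_lit 776) (nat_lit 0) (nat_lit 265) (nat_lit 258) (nat_lit 257)) (PT.lf (nat_lit 58520) (nat_lit 6) (nat_lit 770) (nat_lit 0) (nat_lit 266) (nat_lit 258) (nat_lit 256))))) (PT.nd (nat_lit 312) (PT.nd (nat_lit 156) (PT.nd (nat_lit 78) (PT.lf (nat_lit 57988) (nat_lit 6) (nat_lit 763) (nat_lit 0) (nat_lit 267) (nat_lit 258) (nat_lit 255)) (PT.lf (nat_lit 57380) (nat_lit 6) (nat_lit 755) (nat_lit 0) (nat_lit 268) (nat_lit 258) (nat_lit 254))) (PT.nd (nat_lit 78) (PT.lf (nat_lit 56696) (nat_lit 6) (nat_lit 746) (nat_lit 0) (nat_lit 269) (nat_lit 258) (nat_lit 253)) (PT.lf (nat_lit 55936) (nat_lit 6) (nat_lit 736) (nat_lit 0) (nat_lit 270) (nat_lit 258) (nat_lit 252)))) (PT.nd (nat_lit 156) (PT.nd (nat_lit 78) (PT.lf (nat_lit 55100) (nat_lit 6) (nat_lit 725) (nat_lit 0) (nat_lit 271) (nat_lit 258) (nat_lit 251)) (PT.lf (nat_lit 54188) (nat_lit 6) (nat_lit 713) (nat_lit 0)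 (nat_lit 272) (nat_lit 258) (nat_lit 250))) (PT.nd (nat_lit 78) (PT.lf (nat_lit 53200) (nat_lit 6) (nat_lit 700) (nat_lit 0) (nat_lit 273) (nat_lit 258) (nat_lit 249)) (PT.nd (nat_lit 78) (PT.lf (nat_lit 52136) (nat_lit 6) (nat_lit 686) (nat_lit 0) (nat_lit 274) (nat_lit 258) (nat_lit 248)) (PT.lf (nat_lit 50996) (nat_lit 6) (nat_lit 671) (nat_lit 0) (nat_lit 275) (nat_lit 258) (nat_lit 247))))))))
noncomputable def pc49 : PT := (PT.nd (nat_lit 78624) (PT.nd (nat_lit 624) (PT.nd (nat_lit 312) (PT.nd (nat_lit 156) (PT.nd (nat_lit 78) (PT.lf (nat_lit 49780) (nat_lit 6) (nat_lit 655) (nat_lit 0) (nat_lit 276) (nat_lit 258) (nat_lit 246)) (PT.lf (nat_lit 48488) (nat_lit 6) (nat_lit 638) (nat_lit 0) (nat_lit 277) (nat_lit 258) (nat_lit 245))) (PT.nd (nat_lit 78) (PT.lf (nat_lit 47120) (nat_lit 6) (nat_lit 620) (nat_lit 0) (nat_lit 278) (nat_lit 258) (nat_lit 244)) (PT.lf (nat_lit 45676) (nat_lit 6) (nat_lit 601) (nat_lit 0) (nat_lit 279) (nat_lit 258) (nat_lit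 243)))) (PT.nd (nat_lit 156) (PT.nd (nat_lit 78) (PT.lf (nat_lit 44156) (nat_lit 6) (nat_lit 581) (nat_lit 0) (nat_lit 280) (nat_lit 258) (nat_lit 242)) (PT.lf (nat_lit 42560) (nat_lit 6) (nat_lit 560) (nat_lit 0) (nat_lit 281) (nat_lit 258) (nat_lit 241))) (PT.nd (nat_lit 78) (PT.lf (nat_lit 40888) (nat_lit 6) (nat_lit 538) (nat_lit 0) (nat_lit 282) (nat_lit 258) (nat_lit 240)) (PT.lf (nat_lit 39140) (nat_lit 6) (nat_lit 515) (nat_lit 0) (nat_lit 283) (nat_lit 258) (nat_lit 239))))) (PT.nd (nat_lit 77610) (PT.nd (nat_lit 77454) (PT.nd (nat_lit 78) (PT.lf (nat_lit 37316) (nat_lit 6) (nat_lit 491) (nat_lit 0) (nat_lit 284) (nat_lit 258) (nat_lit 238)) (PT.lf (nat_lit 35416) (nat_lit 6) (nat_lit 466) (nat_lit 0) (nat_lit 285) (nat_lit 258) (nat_lit 237))) (PT.nd (nat_lit 78) (PT.lf (nat_lit 35492) (nat_lit 6) (nat_lit 467) (nat_lit 5) (nat_lit 236) (nat_lit 259) (nat_lit 285)) (PT.lf (nat_lit 37392) (nat_lit 6) (nat_lit 492) (nat_lit 5) (nat_lit 237) (nat_lit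 259) (nat_lit 284)))) (PT.nd (nat_lit 156) (PT.nd (nat_lit 78) (PT.lf (nat_lit 39216) (nat_lit 6) (nat_lit 516) (nat_lit 5) (nat_lit 238) (nat_lit 259) (nat_lit 283)) (PT.lf (nat_lit 40964) (nat_lit 6) (nat_lit 539) (nat_lit 5) (nat_lit 239) (nat_lit 259) (nat_lit 282))) (PT.nd (nat_lit 78) (PT.lf (nat_lit 42636) (nat_lit 6) (nat_lit 561) (nat_lit 5) (nat_lit 240) (nat_lit 259) (nat_lit 281)) (PT.nd (nat_lit 78) (PT.lf (nat_lit 44232) (nat_lit 6) (nat_lit 582) (nat_lit 5) (nat_lit 241) (nat_lit 259) (nat_lit 280)) (PT.lf (nat_lit 45752) (nat_lit 6) (nat_lit 602) (nat_lit 5) (nat_lit 242) (nat_lit 259) (nat_lit 279))))))) (PT.nd (nat_lit 702) (PT.nd (nat_lit 312) (PT.nd (nat_lit 156) (PT.nd (nat_lit 78) (PT.lf (nat_lit 47196) (nat_lit 6) (nat_lit 621) (nat_lit 5) (nat_lit 243) (nat_lit 259) (nat_lit 278)) (PT.lf (nat_lit 48564) (nat_lit 6) (nat_lit 639) (nat_lit 5) (nat_lit 244) (nat_lit 259) (nat_lit 277))) (PT.nd (nat_lit 78) (PT.lf (nat_lit 49856) (nat_lit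 6) (nat_lit 656) (nat_lit 5) (nat_lit 245) (nat_lit 259) (nat_lit 276)) (PT.lf (nat_lit 51072) (nat_lit 6) (nat_lit 672) (nat_lit 5) (nat_lit 246) (nat_lit 259) (nat_lit 275)))) (PT.nd (nat_lit 156) (PT.nd (nat_lit 78) (PT.lf (nat_lit 52212) (nat_lit 6) (nat_lit 687) (nat_lit 5) (nat_lit 247) (nat_lit 259) (nat_lit 274)) (PT.lf (nat_lit 53276) (nat_lit 6) (nat_lit 701) (nat_lit 5) (nat_lit 248) (nat_lit 259) (nat_lit 273))) (PT.nd (nat_lit 78) (PT.lf (nat_lit 54264) (nat_lit 6) (nat_lit 714) (nat_lit 5) (nat_lit 249) (nat_lit 259) (nat_lit 272)) (PT.nd (nat_lit 78) (PT.lf (nat_lit 55176) (nat_lit 6) (nat_lit 726) (nat_lit 5) (nat_lit 250) (nat_lit 259) (nat_lit 271)) (PT.lf (nat_lit 56012) (nat_lit 6) (nat_lit 737) (nat_lit 5) (nat_lit 251) (nat_lit 259) (nat_lit 270)))))) (PT.nd (nat_lit 312) (PT.nd (nat_lit 156) (PT.nd (nat_lit 78) (PT.lf (nat_lit 56772) (nat_lit 6) (nat_lit 747) (nat_lit 5) (nat_lit 252) (nat_lit 259) (nat_lit 269)) (PT.lf (nat_lit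 57456) (nat_lit 6) (nat_lit 756) (nat_lit 5) (nat_lit 253) (nat_lit 259) (nat_lit 268))) (PT.nd (nat_lit 78) (PT.lf (nat_lit 58064) (nat_lit 6) (nat_lit 764) (nat_lit 5) (nat_lit 254) (nat_lit 259) (nat_lit 267)) (PT.lf (nat_lit 58596) (nat_lit 6) (nat_lit 771) (nat_lit 5) (nat_lit 255) (nat_lit 259) (nat_lit 266)))) (PT.nd (nat_lit 156) (PT.nd (nat_lit 78) (PT.lf (nat_lit 59052) (nat_lit 6) (nat_lit 777) (nat_lit 5) (nat_lit 256) (nat_lit 259) (nat_lit 265)) (PT.lf (nat_lit 59432) (nat_lit 6) (nat_lit 782) (nat_lit 5) (nat_lit 257) (nat_lit 259) (nat_lit 264))) (PT.nd (nat_lit 78) (PT.lf (nat_lit 59736) (nat_lit 6) (nat_lit 786) (nat_lit 5) (nat_lit 258) (nat_lit 259) (nat_lit 263)) (PT.nd (nat_lit 78) (PT.lf (nat_lit 59964) (nat_lit 3) (nat_lit 789) (nat_lit 3) (nat_lit 259) (nat_lit 259) (nat_lit 262)) (PT.lf (nat_lit 60192) (nat_lit 6) (nat_lit 792) (nat_lit 3) (nat_lit 260) (nat_lit 259) (nat_lit 261))))))))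
noncomputable def pc50 : PT := (PT.nd (nat_lit 1326) (PT.nd (nat_lit 624) (PT.nd (nat_lit 312) (PT.nd (nat_lit 156) (PT.nd (nat_lit 78) (PT.lf (nat_lit 60192) (nat_lit 6) (nat_lit 792) (nat_lit 1) (nat_lit 261) (nat_lit 259) (nat_lit 260)) (PT.lf (nat_lit 59964) (nat_lit 3) (nat_lit 789) (nat_lit 0) (nat_lit 262) (nat_lit 259) (nat_lit 259))) (PT.nd (nat_lit 78) (PT.lf (nat_lit 59736) (nat_lit 6) (nat_lit 786) (nat_lit 0) (nat_lit 263) (nat_lit 259) (nat_lit 258)) (PT.lf (nat_lit 59432) (nat_lit 6) (nat_lit 782) (nat_lit 0) (nat_lit 264) (nat_lit 259) (nat_lit 257)))) (PT.nd (nat_lit 156) (PT.nd (nat_lit 78) (PT.lf (nat_lit 59052) (nat_lit 6) (nat_lit 777) (nat_lit 0) (nat_lit 265) (nat_lit 259) (nat_lit 256)) (PT.lf (nat_lit 58596) (nat_lit 6) (nat_lit 771) (nat_lit 0) (nat_lit 266) (nat_lit 259) (nat_lit 255))) (PT.nd (nat_lit 78) (PT.lf (nat_lit 58064) (nat_lit 6) (nat_lit 764) (nat_lit 0) (nat_lit 267) (nat_lit 259) (nat_lit 254)) (PT.lf (nat_lit 57456)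 (nat_lit 6) (nat_lit 756) (nat_lit 0) (nat_lit 268) (nat_lit 259) (nat_lit 253))))) (PT.nd (nat_lit 312) (PT.nd (nat_lit 156) (PT.nd (nat_lit 78) (PT.lf (nat_lit 56772) (nat_lit 6) (nat_lit 747) (nat_lit 0) (nat_lit 269) (nat_lit 259) (nat_lit 252)) (PT.lf (nat_lit 56012) (nat_lit 6) (nat_lit 737) (nat_lit 0) (nat_lit 270) (nat_lit 259) (nat_lit 251))) (PT.nd (nat_lit 78) (PT.lf (nat_lit 55176) (nat_lit 6) (nat_lit 726) (nat_lit 0) (nat_lit 271) (nat_lit 259) (nat_lit 250)) (PT.lf (nat_lit 54264) (nat_lit 6) (nat_lit 714) (nat_lit 0) (nat_lit 272) (nat_lit 259) (nat_lit 249)))) (PT.nd (nat_lit 156) (PT.nd (nat_lit 78) (PT.lf (nat_lit 53276) (nat_lit 6) (nat_lit 701) (nat_lit 0) (nat_lit 273) (nat_lit 259) (nat_lit 248)) (PT.lf (nat_lit 52212) (nat_lit 6) (nat_lit 687) (nat_lit 0) (nat_lit 274) (nat_lit 259) (nat_lit 247))) (PT.nd (nat_lit 78) (PT.lf (nat_lit 51072) (nat_lit 6) (nat_lit 672) (nat_lit 0) (nat_lit 275) (nat_lit 259) (nat_lit 246)) (PT.nd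 (nat_lit 78) (PT.lf (nat_lit 49856) (nat_lit 6) (nat_lit 656) (nat_lit 0) (nat_lit 276) (nat_lit 259) (nat_lit 245)) (PT.lf (nat_lit 48564) (nat_lit 6) (nat_lit 639) (nat_lit 0) (nat_lit 277) (nat_lit 259) (nat_lit 244))))))) (PT.nd (nat_lit 77922) (PT.nd (nat_lit 312) (PT.nd (nat_lit 156) (PT.nd (nat_lit 78) (PT.lf (nat_lit 47196) (nat_lit 6) (nat_lit 621) (nat_lit 0) (nat_lit 278) (nat_lit 259) (nat_lit 243)) (PT.lf (nat_lit 45752) (nat_lit 6) (nat_lit 602) (nat_lit 0) (nat_lit 279) (nat_lit 259) (nat_lit 242))) (PT.nd (nat_lit 78) (PT.lf (nat_lit 44232) (nat_lit 6) (nat_lit 582) (nat_lit 0) (nat_lit 280) (nat_lit 259) (nat_lit 241)) (PT.lf (nat_lit 42636) (nat_lit 6) (nat_lit 561) (nat_lit 0) (nat_lit 281) (nat_lit 259) (nat_lit 240)))) (PT.nd (nat_lit 156) (PT.nd (nat_lit 78) (PT.lf (nat_lit 40964) (nat_lit 6) (nat_lit 539) (nat_lit 0) (nat_lit 282) (nat_lit 259) (nat_lit 239)) (PT.lf (nat_lit 39216) (nat_lit 6) (nat_lit 516) (nat_lit 0) (nat_lit 283)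 (nat_lit 259) (nat_lit 238))) (PT.nd (nat_lit 78) (PT.lf (nat_lit 37392) (nat_lit 6) (nat_lit 492) (nat_lit 0) (nat_lit 284) (nat_lit 259) (nat_lit 237)) (PT.nd (nat_lit 77298) (PT.lf (nat_lit 35492) (nat_lit 6) (nat_lit 467) (nat_lit 0) (nat_lit 285) (nat_lit 259) (nat_lit 236)) (PT.lf (nat_lit 35568) (nat_lit 6) (nat_lit 468) (nat_lit 5) (nat_lit 235) (nat_lit 260) (nat_lit 285)))))) (PT.nd (nat_lit 312) (PT.nd (nat_lit 156) (PT.nd (nat_lit 78) (PT.lf (nat_lit 37468) (nat_lit 6) (nat_lit 493) (nat_lit 5) (nat_lit 236) (nat_lit 260) (nat_lit 284)) (PT.lf (nat_lit 39292) (nat_lit 6) (nat_lit 517) (nat_lit 5) (nat_lit 237) (nat_lit 260) (nat_lit 283))) (PT.nd (nat_lit 78) (PT.lf (nat_lit 41040) (nat_lit 6) (nat_lit 540) (nat_lit 5) (nat_lit 238) (nat_lit 260) (nat_lit 282)) (PT.lf (nat_lit 42712) (nat_lit 6) (nat_lit 562) (nat_lit 5) (nat_lit 239) (nat_lit 260) (nat_lit 281)))) (PT.nd (nat_lit 156) (PT.nd (nat_lit 78) (PT.lf (nat_lit 44308) (nat_lit 6)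 (nat_lit 583) (nat_lit 5) (nat_lit 240) (nat_lit 260) (nat_lit 280)) (PT.lf (nat_lit 45828) (nat_lit 6) (nat_lit 603) (nat_lit 5) (nat_lit 241) (nat_lit 260) (nat_lit 279))) (PT.nd (nat_lit 78) (PT.lf (nat_lit 47272) (nat_lit 6) (nat_lit 622) (nat_lit 5) (nat_lit 242) (nat_lit 260) (nat_lit 278)) (PT.nd (nat_lit 78) (PT.lf (nat_lit 48640) (nat_lit 6) (nat_lit 640) (nat_lit 5) (nat_lit 243) (nat_lit 260) (nat_lit 277)) (PT.lf (nat_lit 49932) (nat_lit 6) (nat_lit 657) (nat_lit 5) (nat_lit 244) (nat_lit 260) (nat_lit 276))))))))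
noncomputable def pc51 : PT := (PT.nd (nat_lit 1326) (PT.nd (nat_lit 624) (PT.nd (nat_lit 312) (PT.nd (nat_lit 156) (PT.nd (nat_lit 78) (PT.lf (nat_lit 51148) (nat_lit 6) (nat_lit 673) (nat_lit 5) (nat_lit 245) (nat_lit 260) (nat_lit 275)) (PT.lf (nat_lit 52288) (nat_lit 6) (nat_lit 688) (nat_lit 5) (nat_lit 246) (nat_lit 260) (nat_lit 274))) (PT.nd (nat_lit 78) (PT.lf (nat_lit 53352) (nat_lit 6) (nat_lit 702) (nat_lit 5) (nat_lit 247) (nat_lit 260) (nat_lit 273)) (PT.lf (nat_lit 54340) (nat_lit 6) (nat_lit 715) (nat_lit 5) (nat_lit 248) (nat_lit 260) (nat_lit 272)))) (PT.nd (nat_lit 156) (PT.nd (nat_lit 78) (PT.lf (nat_lit 55252) (nat_lit 6) (nat_lit 727) (nat_lit 5) (nat_lit 249) (nat_lit 260) (nat_lit 271)) (PT.lf (nat_lit 56088) (nat_lit 6) (nat_lit 738) (nat_lit 5) (nat_lit 250) (nat_lit 260) (nat_lit 270))) (PT.nd (nat_lit 78) (PT.lf (nat_lit 56848) (nat_lit 6) (nat_lit 748) (nat_lit 5) (nat_lit 251) (nat_lit 260) (nat_lit 269)) (PT.lf (nat_lit 57532)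 (nat_lit 6) (nat_lit 757) (nat_lit 5) (nat_lit 252) (nat_lit 260) (nat_lit 268))))) (PT.nd (nat_lit 312) (PT.nd (nat_lit 156) (PT.nd (nat_lit 78) (PT.lf (nat_lit 58140) (nat_lit 6) (nat_lit 765) (nat_lit 5) (nat_lit 253) (nat_lit 260) (nat_lit 267)) (PT.lf (nat_lit 58672) (nat_lit 6) (nat_lit 772) (nat_lit 5) (nat_lit 254) (nat_lit 260) (nat_lit 266))) (PT.nd (nat_lit 78) (PT.lf (nat_lit 59128) (nat_lit 6) (nat_lit 778) (nat_lit 5) (nat_lit 255) (nat_lit 260) (nat_lit 265)) (PT.lf (nat_lit 59508) (nat_lit 6) (nat_lit 783) (nat_lit 5) (nat_lit 256) (nat_lit 260) (nat_lit 264)))) (PT.nd (nat_lit 156) (PT.nd (nat_lit 78) (PT.lf (nat_lit 59812) (nat_lit 6) (nat_lit 787) (nat_lit 5) (nat_lit 257) (nat_lit 260) (nat_lit 263)) (PT.lf (nat_lit 60040) (nat_lit 6) (nat_lit 790) (nat_lit 5) (nat_lit 258) (nat_lit 260) (nat_lit 262))) (PT.nd (nat_lit 78) (PT.lf (nat_lit 60192) (nat_lit 6) (nat_lit 792) (nat_lit 5) (nat_lit 259) (nat_lit 260) (nat_lit 261)) (PT.nd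 (nat_lit 78) (PT.lf (nat_lit 60268) (nat_lit 1) (nat_lit 793) (nat_lit 0) (nat_lit 260) (nat_lit 260) (nat_lit 260)) (PT.lf (nat_lit 60192) (nat_lit 6) (nat_lit 792) (nat_lit 0) (nat_lit 261) (nat_lit 260) (nat_lit 259))))))) (PT.nd (nat_lit 702) (PT.nd (nat_lit 312) (PT.nd (nat_lit 156) (PT.nd (nat_lit 78) (PT.lf (nat_lit 60040) (nat_lit 6) (nat_lit 790) (nat_lit 0) (nat_lit 262) (nat_lit 260) (nat_lit 258)) (PT.lf (nat_lit 59812) (nat_lit 6) (nat_lit 787) (nat_lit 0) (nat_lit 263) (nat_lit 260) (nat_lit 257))) (PT.nd (nat_lit 78) (PT.lf (nat_lit 59508) (nat_lit 6) (nat_lit 783) (nat_lit 0) (nat_lit 264) (nat_lit 260) (nat_lit 256)) (PT.lf (nat_lit 59128) (nat_lit 6) (nat_lit 778) (nat_lit 0) (nat_lit 265) (nat_lit 260) (nat_lit 255)))) (PT.nd (nat_lit 156) (PT.nd (nat_lit 78) (PT.lf (nat_lit 58672) (nat_lit 6) (nat_lit 772) (nat_lit 0) (nat_lit 266) (nat_lit 260) (nat_lit 254)) (PT.lf (nat_lit 58140) (nat_lit 6) (nat_lit 765) (nat_lit 0) (nat_lit 267)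 (nat_lit 260) (nat_lit 253))) (PT.nd (nat_lit 78) (PT.lf (nat_lit 57532) (nat_lit 6) (nat_lit 757) (nat_lit 0) (nat_lit 268) (nat_lit 260) (nat_lit 252)) (PT.nd (nat_lit 78) (PT.lf (nat_lit 56848) (nat_lit 6) (nat_lit 748) (nat_lit 0) (nat_lit 269) (nat_lit 260) (nat_lit 251)) (PT.lf (nat_lit 56088) (nat_lit 6) (nat_lit 738) (nat_lit 0) (nat_lit 270) (nat_lit 260) (nat_lit 250)))))) (PT.nd (nat_lit 312) (PT.nd (nat_lit 156) (PT.nd (nat_lit 78) (PT.lf (nat_lit 55252) (nat_lit 6) (nat_lit 727) (nat_lit 0) (nat_lit 271) (nat_lit 260) (nat_lit 249)) (PT.lf (nat_lit 54340) (nat_lit 6) (nat_lit 715) (nat_lit 0) (nat_lit 272) (nat_lit 260) (nat_lit 248))) (PT.nd (nat_lit 78) (PT.lf (nat_lit 53352) (nat_lit 6) (nat_lit 702) (nat_lit 0) (nat_lit 273) (nat_lit 260) (nat_lit 247)) (PT.lf (nat_lit 52288) (nat_lit 6) (nat_lit 688) (nat_lit 0) (nat_lit 274) (nat_lit 260) (nat_lit 246)))) (PT.nd (nat_lit 156) (PT.nd (nat_lit 78) (PT.lf (nat_lit 51148) (nat_lit 6) (nat_lit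 673) (nat_lit 0) (nat_lit 275) (nat_lit 260) (nat_lit 245)) (PT.lf (nat_lit 49932) (nat_lit 6) (nat_lit 657) (nat_lit 0) (nat_lit 276) (nat_lit 260) (nat_lit 244))) (PT.nd (nat_lit 78) (PT.lf (nat_lit 48640) (nat_lit 6) (nat_lit 640) (nat_lit 0) (nat_lit 277) (nat_lit 260) (nat_lit 243)) (PT.nd (nat_lit 78) (PT.lf (nat_lit 47272) (nat_lit 6) (nat_lit 622) (nat_lit 0) (nat_lit 278) (nat_lit 260) (nat_lit 242)) (PT.lf (nat_lit 45828) (nat_lit 6) (nat_lit 603) (nat_lit 0) (nat_lit 279) (nat_lit 260) (nat_lit 241))))))))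
noncomputable def pc52 : PT := (PT.nd (nat_lit 78468) (PT.nd (nat_lit 77766) (PT.nd (nat_lit 312) (PT.nd (nat_lit 156) (PT.nd (nat_lit 78) (PT.lf (nat_lit 44308) (nat_lit 6) (nat_lit 583) (nat_lit 0) (nat_lit 280) (nat_lit 260) (nat_lit 240)) (PT.lf (nat_lit 42712) (nat_lit 6) (nat_lit 562) (nat_lit 0) (nat_lit 281) (nat_lit 260) (nat_lit 239))) (PT.nd (nat_lit 78) (PT.lf (nat_lit 41040) (nat_lit 6) (nat_lit 540) (nat_lit 0) (nat_lit 282) (nat_lit 260) (nat_lit 238)) (PT.lf (nat_lit 39292) (nat_lit 6) (nat_lit 517) (nat_lit 0) (nat_lit 283) (nat_lit 260) (nat_lit 237)))) (PT.nd (nat_lit 77298) (PT.nd (nat_lit 78) (PT.lf (nat_lit 37468) (nat_lit 6) (nat_lit 493) (nat_lit 0) (nat_lit 284) (nat_lit 260) (nat_lit 236)) (PT.lf (nat_lit 35568) (nat_lit 6) (nat_lit 468) (nat_lit 0) (nat_lit 285) (nat_lit 260) (nat_lit 235))) (PT.nd (nat_lit 78) (PT.lf (nat_lit 34428) (nat_lit 6) (nat_lit 453) (nat_lit 5) (nat_lit 234) (nat_lit 261) (nat_lit 285)) (PT.lf (nat_lit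 35644) (nat_lit 6) (nat_lit 469) (nat_lit 5) (nat_lit 235) (nat_lit 261) (nat_lit 284))))) (PT.nd (nat_lit 312) (PT.nd (nat_lit 156) (PT.nd (nat_lit 78) (PT.lf (nat_lit 37544) (nat_lit 6) (nat_lit 494) (nat_lit 5) (nat_lit 236) (nat_lit 261) (nat_lit 283)) (PT.lf (nat_lit 39368) (nat_lit 6) (nat_lit 518) (nat_lit 5) (nat_lit 237) (nat_lit 261) (nat_lit 282))) (PT.nd (nat_lit 78) (PT.lf (nat_lit 41116) (nat_lit 6) (nat_lit 541) (nat_lit 5) (nat_lit 238) (nat_lit 261) (nat_lit 281)) (PT.lf (nat_lit 42788) (nat_lit 6) (nat_lit 563) (nat_lit 5) (nat_lit 239) (nat_lit 261) (nat_lit 280)))) (PT.nd (nat_lit 156) (PT.nd (nat_lit 78) (PT.lf (nat_lit 44384) (nat_lit 6) (nat_lit 584) (nat_lit 5) (nat_lit 240) (nat_lit 261) (nat_lit 279)) (PT.lf (nat_lit 45904) (nat_lit 6) (nat_lit 604) (nat_lit 5) (nat_lit 241) (nat_lit 261) (nat_lit 278))) (PT.nd (nat_lit 78) (PT.lf (nat_lit 47348) (nat_lit 6) (nat_lit 623) (nat_lit 5) (nat_lit 242) (nat_lit 261) (nat_lit 277))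 (PT.nd (nat_lit 78) (PT.lf (nat_lit 48716) (nat_lit 6) (nat_lit 641) (nat_lit 5) (nat_lit 243) (nat_lit 261) (nat_lit 276)) (PT.lf (nat_lit 50008) (nat_lit 6) (nat_lit 658) (nat_lit 5) (nat_lit 244) (nat_lit 261) (nat_lit 275))))))) (PT.nd (nat_lit 702) (PT.nd (nat_lit 312) (PT.nd (nat_lit 156) (PT.nd (nat_lit 78) (PT.lf (nat_lit 51224) (nat_lit 6) (nat_lit 674) (nat_lit 5) (nat_lit 245) (nat_lit 261) (nat_lit 274)) (PT.lf (nat_lit 52364) (nat_lit 6) (nat_lit 689) (nat_lit 5) (nat_lit 246) (nat_lit 261) (nat_lit 273))) (PT.nd (nat_lit 78) (PT.lf (nat_lit 53428) (nat_lit 6) (nat_lit 703) (nat_lit 5) (nat_lit 247) (nat_lit 261) (nat_lit 272)) (PT.lf (nat_lit 54416) (nat_lit 6) (nat_lit 716) (nat_lit 5) (nat_lit 248) (nat_lit 261) (nat_lit 271)))) (PT.nd (nat_lit 156) (PT.nd (nat_lit 78) (PT.lf (nat_lit 55328) (nat_lit 6) (nat_lit 728) (nat_lit 5) (nat_lit 249) (nat_lit 261) (nat_lit 270)) (PT.lf (nat_lit 56164) (nat_lit 6) (nat_lit 739) (nat_lit 5) (nat_lit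 250) (nat_lit 261) (nat_lit 269))) (PT.nd (nat_lit 78) (PT.lf (nat_lit 56924) (nat_lit 6) (nat_lit 749) (nat_lit 5) (nat_lit 251) (nat_lit 261) (nat_lit 268)) (PT.nd (nat_lit 78) (PT.lf (nat_lit 57608) (nat_lit 6) (nat_lit 758) (nat_lit 5) (nat_lit 252) (nat_lit 261) (nat_lit 267)) (PT.lf (nat_lit 58216) (nat_lit 6) (nat_lit 766) (nat_lit 5) (nat_lit 253) (nat_lit 261) (nat_lit 266)))))) (PT.nd (nat_lit 312) (PT.nd (nat_lit 156) (PT.nd (nat_lit 78) (PT.lf (nat_lit 58748) (nat_lit 6) (nat_lit 773) (nat_lit 5) (nat_lit 254) (nat_lit 261) (nat_lit 265)) (PT.lf (nat_lit 59204) (nat_lit 6) (nat_lit 779) (nat_lit 5) (nat_lit 255) (nat_lit 261) (nat_lit 264))) (PT.nd (nat_lit 78) (PT.lf (nat_lit 59584) (nat_lit 6) (nat_lit 784) (nat_lit 5) (nat_lit 256) (nat_lit 261) (nat_lit 263)) (PT.lf (nat_lit 59888) (nat_lit 6) (nat_lit 788) (nat_lit 5) (nat_lit 257) (nat_lit 261) (nat_lit 262)))) (PT.nd (nat_lit 156) (PT.nd (nat_lit 78) (PT.lf (nat_lit 60116) (nat_lit 3)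 (nat_lit 791) (nat_lit 4) (nat_lit 258) (nat_lit 261) (nat_lit 261)) (PT.lf (nat_lit 60192) (nat_lit 6) (nat_lit 792) (nat_lit 4) (nat_lit 259) (nat_lit 261) (nat_lit 260))) (PT.nd (nat_lit 78) (PT.lf (nat_lit 60192) (nat_lit 6) (nat_lit 792) (nat_lit 2) (nat_lit 260) (nat_lit 261) (nat_lit 259)) (PT.nd (nat_lit 78) (PT.lf (nat_lit 60116) (nat_lit 3) (nat_lit 791) (nat_lit 0) (nat_lit 261) (nat_lit 261) (nat_lit 258)) (PT.lf (nat_lit 59888) (nat_lit 6) (nat_lit 788) (nat_lit 0) (nat_lit 262) (nat_lit 261) (nat_lit 257))))))))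
noncomputable def pc53 : PT := (PT.nd (nat_lit 1326) (PT.nd (nat_lit 624) (PT.nd (nat_lit 312) (PT.nd (nat_lit 156) (PT.nd (nat_lit 78) (PT.lf (nat_lit 59584) (nat_lit 6) (nat_lit 784) (nat_lit 0) (nat_lit 263) (nat_lit 261) (nat_lit 256)) (PT.lf (nat_lit 59204) (nat_lit 6) (nat_lit 779) (nat_lit 0) (nat_lit 264) (nat_lit 261) (nat_lit 255))) (PT.nd (nat_lit 78) (PT.lf (nat_lit 58748) (nat_lit 6) (nat_lit 773) (nat_lit 0) (nat_lit 265) (nat_lit 261) (nat_lit 254)) (PT.lf (nat_lit 58216) (nat_lit 6) (nat_lit 766) (nat_lit 0) (nat_lit 266) (nat_lit 261) (nat_lit 253)))) (PT.nd (nat_lit 156) (PT.nd (nat_lit 78) (PT.lf (nat_lit 57608) (nat_lit 6) (nat_lit 758) (nat_lit 0) (nat_lit 267) (nat_lit 261) (nat_lit 252)) (PT.lf (nat_lit 56924) (nat_lit 6) (nat_lit 749) (nat_lit 0) (nat_lit 268) (nat_lit 261) (nat_lit 251))) (PT.nd (nat_lit 78) (PT.lf (nat_lit 56164) (nat_lit 6) (nat_lit 739) (nat_lit 0) (nat_lit 269) (nat_lit 261) (nat_lit 250)) (PT.lf (nat_lit 55328)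 (nat_lit 6) (nat_lit 728) (nat_lit 0) (nat_lit 270) (nat_lit 261) (nat_lit 249))))) (PT.nd (nat_lit 312) (PT.nd (nat_lit 156) (PT.nd (nat_lit 78) (PT.lf (nat_lit 54416) (nat_lit 6) (nat_lit 716) (nat_lit 0) (nat_lit 271) (nat_lit 261) (nat_lit 248)) (PT.lf (nat_lit 53428) (nat_lit 6) (nat_lit 703) (nat_lit 0) (nat_lit 272) (nat_lit 261) (nat_lit 247))) (PT.nd (nat_lit 78) (PT.lf (nat_lit 52364) (nat_lit 6) (nat_lit 689) (nat_lit 0) (nat_lit 273) (nat_lit 261) (nat_lit 246)) (PT.lf (nat_lit 51224) (nat_lit 6) (nat_lit 674) (nat_lit 0) (nat_lit 274) (nat_lit 261) (nat_lit 245)))) (PT.nd (nat_lit 156) (PT.nd (nat_lit 78) (PT.lf (nat_lit 50008) (nat_lit 6) (nat_lit 658) (nat_lit 0) (nat_lit 275) (nat_lit 261) (nat_lit 244)) (PT.lf (nat_lit 48716) (nat_lit 6) (nat_lit 641) (nat_lit 0) (nat_lit 276) (nat_lit 261) (nat_lit 243))) (PT.nd (nat_lit 78) (PT.lf (nat_lit 47348) (nat_lit 6) (nat_lit 623) (nat_lit 0) (nat_lit 277) (nat_lit 261) (nat_lit 242)) (PT.nd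 (nat_lit 78) (PT.lf (nat_lit 45904) (nat_lit 6) (nat_lit 604) (nat_lit 0) (nat_lit 278) (nat_lit 261) (nat_lit 241)) (PT.lf (nat_lit 44384) (nat_lit 6) (nat_lit 584) (nat_lit 0) (nat_lit 279) (nat_lit 261) (nat_lit 240))))))) (PT.nd (nat_lit 77766) (PT.nd (nat_lit 312) (PT.nd (nat_lit 156) (PT.nd (nat_lit 78) (PT.lf (nat_lit 42788) (nat_lit 6) (nat_lit 563) (nat_lit 0) (nat_lit 280) (nat_lit 261) (nat_lit 239)) (PT.lf (nat_lit 41116) (nat_lit 6) (nat_lit 541) (nat_lit 0) (nat_lit 281) (nat_lit 261) (nat_lit 238))) (PT.nd (nat_lit 78) (PT.lf (nat_lit 39368) (nat_lit 6) (nat_lit 518) (nat_lit 0) (nat_lit 282) (nat_lit 261) (nat_lit 237)) (PT.lf (nat_lit 37544) (nat_lit 6) (nat_lit 494) (nat_lit 0) (nat_lit 283) (nat_lit 261) (nat_lit 236)))) (PT.nd (nat_lit 77220) (PT.nd (nat_lit 78) (PT.lf (nat_lit 35644) (nat_lit 6) (nat_lit 469) (nat_lit 0) (nat_lit 284) (nat_lit 261) (nat_lit 235)) (PT.lf (nat_lit 34428) (nat_lit 6) (nat_lit 453) (nat_lit 0) (nat_lit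 285) (nat_lit 261) (nat_lit 234))) (PT.nd (nat_lit 78) (PT.lf (nat_lit 33516) (nat_lit 6) (nat_lit 441) (nat_lit 5) (nat_lit 233) (nat_lit 262) (nat_lit 285)) (PT.nd (nat_lit 78) (PT.lf (nat_lit 34504) (nat_lit 6) (nat_lit 454) (nat_lit 5) (nat_lit 234) (nat_lit 262) (nat_lit 284)) (PT.lf (nat_lit 35720) (nat_lit 6) (nat_lit 470) (nat_lit 5) (nat_lit 235) (nat_lit 262) (nat_lit 283)))))) (PT.nd (nat_lit 312) (PT.nd (nat_lit 156) (PT.nd (nat_lit 78) (PT.lf (nat_lit 37620) (nat_lit 6) (nat_lit 495) (nat_lit 5) (nat_lit 236) (nat_lit 262) (nat_lit 282)) (PT.lf (nat_lit 39444) (nat_lit 6) (nat_lit 519) (nat_lit 5) (nat_lit 237) (nat_lit 262) (nat_lit 281))) (PT.nd (nat_lit 78) (PT.lf (nat_lit 41192) (nat_lit 6) (nat_lit 542) (nat_lit 5) (nat_lit 238) (nat_lit 262) (nat_lit 280)) (PT.lf (nat_lit 42864) (nat_lit 6) (nat_lit 564) (nat_lit 5) (nat_lit 239) (nat_lit 262) (nat_lit 279)))) (PT.nd (nat_lit 156) (PT.nd (nat_lit 78) (PT.lf (nat_lit 44460) (nat_lit 6)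 (nat_lit 585) (nat_lit 5) (nat_lit 240) (nat_lit 262) (nat_lit 278)) (PT.lf (nat_lit 45980) (nat_lit 6) (nat_lit 605) (nat_lit 5) (nat_lit 241) (nat_lit 262) (nat_lit 277))) (PT.nd (nat_lit 78) (PT.lf (nat_lit 47424) (nat_lit 6) (nat_lit 624) (nat_lit 5) (nat_lit 242) (nat_lit 262) (nat_lit 276)) (PT.nd (nat_lit 78) (PT.lf (nat_lit 48792) (nat_lit 6) (nat_lit 642) (nat_lit 5) (nat_lit 243) (nat_lit 262) (nat_lit 275)) (PT.lf (nat_lit 50084) (nat_lit 6) (nat_lit 659) (nat_lit 5) (nat_lit 244) (nat_lit 262) (nat_lit 274))))))))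
noncomputable def pc54 : PT := (PT.nd (nat_lit 1326) (PT.nd (nat_lit 624) (PT.nd (nat_lit 312) (PT.nd (nat_lit 156) (PT.nd (nat_lit 78) (PT.lf (nat_lit 51300) (nat_lit 6) (nat_lit 675) (nat_lit 5) (nat_lit 245) (nat_lit 262) (nat_lit 273)) (PT.lf (nat_lit 52440) (nat_lit 6) (nat_lit 690) (nat_lit 5) (nat_lit 246) (nat_lit 262) (nat_lit 272))) (PT.nd (nat_lit 78) (PT.lf (nat_lit 53504) (nat_lit 6) (nat_lit 704) (nat_lit 5) (nat_lit 247) (nat_lit 262) (nat_lit 271)) (PT.lf (nat_lit 54492) (nat_lit 6) (nat_lit 717) (nat_lit 5) (nat_lit 248) (nat_lit 262) (nat_lit 270)))) (PT.nd (nat_lit 156) (PT.nd (nat_lit 78) (PT.lf (nat_lit 55404) (nat_lit 6) (nat_lit 729) (nat_lit 5) (nat_lit 249) (nat_lit 262) (nat_lit 269)) (PT.lf (nat_lit 56240) (nat_lit 6) (nat_lit 740) (nat_lit 5) (nat_lit 250) (nat_lit 262) (nat_lit 268))) (PT.nd (nat_lit 78) (PT.lf (nat_lit 57000) (nat_lit 6) (nat_lit 750) (nat_lit 5) (nat_lit 251) (nat_lit 262) (nat_lit 267)) (PT.lf (nat_lit 57684)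 (nat_lit 6) (nat_lit 759) (nat_lit 5) (nat_lit 252) (nat_lit 262) (nat_lit 266))))) (PT.nd (nat_lit 312) (PT.nd (nat_lit 156) (PT.nd (nat_lit 78) (PT.lf (nat_lit 58292) (nat_lit 6) (nat_lit 767) (nat_lit 5) (nat_lit 253) (nat_lit 262) (nat_lit 265)) (PT.lf (nat_lit 58824) (nat_lit 6) (nat_lit 774) (nat_lit 5) (nat_lit 254) (nat_lit 262) (nat_lit 264))) (PT.nd (nat_lit 78) (PT.lf (nat_lit 59280) (nat_lit 6) (nat_lit 780) (nat_lit 5) (nat_lit 255) (nat_lit 262) (nat_lit 263)) (PT.lf (nat_lit 59660) (nat_lit 3) (nat_lit 785) (nat_lit 4) (nat_lit 256) (nat_lit 262) (nat_lit 262)))) (PT.nd (nat_lit 156) (PT.nd (nat_lit 78) (PT.lf (nat_lit 59888) (nat_lit 6) (nat_lit 788) (nat_lit 4) (nat_lit 257) (nat_lit 262) (nat_lit 261)) (PT.lf (nat_lit 60040) (nat_lit 6) (nat_lit 790) (nat_lit 4) (nat_lit 258) (nat_lit 262) (nat_lit 260))) (PT.nd (nat_lit 78) (PT.lf (nat_lit 59964) (nat_lit 3) (nat_lit 789) (nat_lit 2) (nat_lit 259) (nat_lit 262) (nat_lit 259)) (PT.nd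 (nat_lit 78) (PT.lf (nat_lit 60040) (nat_lit 6) (nat_lit 790) (nat_lit 2) (nat_lit 260) (nat_lit 262) (nat_lit 258)) (PT.lf (nat_lit 59888) (nat_lit 6) (nat_lit 788) (nat_lit 2) (nat_lit 261) (nat_lit 262) (nat_lit 257))))))) (PT.nd (nat_lit 702) (PT.nd (nat_lit 312) (PT.nd (nat_lit 156) (PT.nd (nat_lit 78) (PT.lf (nat_lit 59660) (nat_lit 3) (nat_lit 785) (nat_lit 0) (nat_lit 262) (nat_lit 262) (nat_lit 256)) (PT.lf (nat_lit 59280) (nat_lit 6) (nat_lit 780) (nat_lit 0) (nat_lit 263) (nat_lit 262) (nat_lit 255))) (PT.nd (nat_lit 78) (PT.lf (nat_lit 58824) (nat_lit 6) (nat_lit 774) (nat_lit 0) (nat_lit 264) (nat_lit 262) (nat_lit 254)) (PT.lf (nat_lit 58292) (nat_lit 6) (nat_lit 767) (nat_lit 0) (nat_lit 265) (nat_lit 262) (nat_lit 253)))) (PT.nd (nat_lit 156) (PT.nd (nat_lit 78) (PT.lf (nat_lit 57684) (nat_lit 6) (nat_lit 759) (nat_lit 0) (nat_lit 266) (nat_lit 262) (nat_lit 252)) (PT.lf (nat_lit 57000) (nat_lit 6) (nat_lit 750) (nat_lit 0) (nat_lit 267)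 (nat_lit 262) (nat_lit 251))) (PT.nd (nat_lit 78) (PT.lf (nat_lit 56240) (nat_lit 6) (nat_lit 740) (nat_lit 0) (nat_lit 268) (nat_lit 262) (nat_lit 250)) (PT.nd (nat_lit 78) (PT.lf (nat_lit 55404) (nat_lit 6) (nat_lit 729) (nat_lit 0) (nat_lit 269) (nat_lit 262) (nat_lit 249)) (PT.lf (nat_lit 54492) (nat_lit 6) (nat_lit 717) (nat_lit 0) (nat_lit 270) (nat_lit 262) (nat_lit 248)))))) (PT.nd (nat_lit 312) (PT.nd (nat_lit 156) (PT.nd (nat_lit 78) (PT.lf (nat_lit 53504) (nat_lit 6) (nat_lit 704) (nat_lit 0) (nat_lit 271) (nat_lit 262) (nat_lit 247)) (PT.lf (nat_lit 52440) (nat_lit 6) (nat_lit 690) (nat_lit 0) (nat_lit 272) (nat_lit 262) (nat_lit 246))) (PT.nd (nat_lit 78) (PT.lf (nat_lit 51300) (nat_lit 6) (nat_lit 675) (nat_lit 0) (nat_lit 273) (nat_lit 262) (nat_lit 245)) (PT.lf (nat_lit 50084) (nat_lit 6) (nat_lit 659) (nat_lit 0) (nat_lit 274) (nat_lit 262) (nat_lit 244)))) (PT.nd (nat_lit 156) (PT.nd (nat_lit 78) (PT.lf (nat_lit 48792) (nat_lit 6) (nat_lit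 642) (nat_lit 0) (nat_lit 275) (nat_lit 262) (nat_lit 243)) (PT.lf (nat_lit 47424) (nat_lit 6) (nat_lit 624) (nat_lit 0) (nat_lit 276) (nat_lit 262) (nat_lit 242))) (PT.nd (nat_lit 78) (PT.lf (nat_lit 45980) (nat_lit 6) (nat_lit 605) (nat_lit 0) (nat_lit 277) (nat_lit 262) (nat_lit 241)) (PT.nd (nat_lit 78) (PT.lf (nat_lit 44460) (nat_lit 6) (nat_lit 585) (nat_lit 0) (nat_lit 278) (nat_lit 262) (nat_lit 240)) (PT.lf (nat_lit 42864) (nat_lit 6) (nat_lit 564) (nat_lit 0) (nat_lit 279) (nat_lit 262) (nat_lit 239))))))))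
noncomputable def pc55 : PT := (PT.nd (nat_lit 78234) (PT.nd (nat_lit 77532) (PT.nd (nat_lit 312) (PT.nd (nat_lit 156) (PT.nd (nat_lit 78) (PT.lf (nat_lit 41192) (nat_lit 6) (nat_lit 542) (nat_lit 0) (nat_lit 280) (nat_lit 262) (nat_lit 238)) (PT.lf (nat_lit 39444) (nat_lit 6) (nat_lit 519) (nat_lit 0) (nat_lit 281) (nat_lit 262) (nat_lit 237))) (PT.nd (nat_lit 78) (PT.lf (nat_lit 37620) (nat_lit 6) (nat_lit 495) (nat_lit 0) (nat_lit 282) (nat_lit 262) (nat_lit 236)) (PT.lf (nat_lit 35720) (nat_lit 6) (nat_lit 470) (nat_lit 0) (nat_lit 283) (nat_lit 262) (nat_lit 235)))) (PT.nd (nat_lit 77064) (PT.nd (nat_lit 78) (PT.lf (nat_lit 34504) (nat_lit 6) (nat_lit 454) (nat_lit 0) (nat_lit 284) (nat_lit 262) (nat_lit 234)) (PT.lf (nat_lit 33516) (nat_lit 6) (nat_lit 441) (nat_lit 0) (nat_lit 285) (nat_lit 262) (nat_lit 233))) (PT.nd (nat_lit 78) (PT.lf (nat_lit 31692) (nat_lit 6) (nat_lit 417) (nat_lit 5) (nat_lit 231) (nat_lit 263) (nat_lit 286)) (PT.lf (nat_lit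 32604) (nat_lit 6) (nat_lit 429) (nat_lit 5) (nat_lit 232) (nat_lit 263) (nat_lit 285))))) (PT.nd (nat_lit 312) (PT.nd (nat_lit 156) (PT.nd (nat_lit 78) (PT.lf (nat_lit 33592) (nat_lit 6) (nat_lit 442) (nat_lit 5) (nat_lit 233) (nat_lit 263) (nat_lit 284)) (PT.lf (nat_lit 34580) (nat_lit 6) (nat_lit 455) (nat_lit 5) (nat_lit 234) (nat_lit 263) (nat_lit 283))) (PT.nd (nat_lit 78) (PT.lf (nat_lit 35796) (nat_lit 6) (nat_lit 471) (nat_lit 5) (nat_lit 235) (nat_lit 263) (nat_lit 282)) (PT.lf (nat_lit 37696) (nat_lit 6) (nat_lit 496) (nat_lit 5) (nat_lit 236) (nat_lit 263) (nat_lit 281)))) (PT.nd (nat_lit 156) (PT.nd (nat_lit 78) (PT.lf (nat_lit 39520) (nat_lit 6) (nat_lit 520) (nat_lit 5) (nat_lit 237) (nat_lit 263) (nat_lit 280)) (PT.lf (nat_lit 41268) (nat_lit 6) (nat_lit 543) (nat_lit 5) (nat_lit 238) (nat_lit 263) (nat_lit 279))) (PT.nd (nat_lit 78) (PT.lf (nat_lit 42940) (nat_lit 6) (nat_lit 565) (nat_lit 5) (nat_lit 239) (nat_lit 263) (nat_lit 278))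 (PT.nd (nat_lit 78) (PT.lf (nat_lit 44536) (nat_lit 6) (nat_lit 586) (nat_lit 5) (nat_lit 240) (nat_lit 263) (nat_lit 277)) (PT.lf (nat_lit 46056) (nat_lit 6) (nat_lit 606) (nat_lit 5) (nat_lit 241) (nat_lit 263) (nat_lit 276))))))) (PT.nd (nat_lit 702) (PT.nd (nat_lit 312) (PT.nd (nat_lit 156) (PT.nd (nat_lit 78) (PT.lf (nat_lit 47500) (nat_lit 6) (nat_lit 625) (nat_lit 5) (nat_lit 242) (nat_lit 263) (nat_lit 275)) (PT.lf (nat_lit 48868) (nat_lit 6) (nat_lit 643) (nat_lit 5) (nat_lit 243) (nat_lit 263) (nat_lit 274))) (PT.nd (nat_lit 78) (PT.lf (nat_lit 50160) (nat_lit 6) (nat_lit 660) (nat_lit 5) (nat_lit 244) (nat_lit 263) (nat_lit 273)) (PT.lf (nat_lit 51376) (nat_lit 6) (nat_lit 676) (nat_lit 5) (nat_lit 245) (nat_lit 263) (nat_lit 272)))) (PT.nd (nat_lit 156) (PT.nd (nat_lit 78) (PT.lf (nat_lit 52516) (nat_lit 6) (nat_lit 691) (nat_lit 5) (nat_lit 246) (nat_lit 263) (nat_lit 271)) (PT.lf (nat_lit 53580) (nat_lit 6) (nat_lit 705) (nat_lit 5) (nat_lit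 247) (nat_lit 263) (nat_lit 270))) (PT.nd (nat_lit 78) (PT.lf (nat_lit 54568) (nat_lit 6) (nat_lit 718) (nat_lit 5) (nat_lit 248) (nat_lit 263) (nat_lit 269)) (PT.nd (nat_lit 78) (PT.lf (nat_lit 55480) (nat_lit 6) (nat_lit 730) (nat_lit 5) (nat_lit 249) (nat_lit 263) (nat_lit 268)) (PT.lf (nat_lit 56316) (nat_lit 6) (nat_lit 741) (nat_lit 5) (nat_lit 250) (nat_lit 263) (nat_lit 267)))))) (PT.nd (nat_lit 312) (PT.nd (nat_lit 156) (PT.nd (nat_lit 78) (PT.lf (nat_lit 57076) (nat_lit 6) (nat_lit 751) (nat_lit 5) (nat_lit 251) (nat_lit 263) (nat_lit 266)) (PT.lf (nat_lit 57760) (nat_lit 6) (nat_lit 760) (nat_lit 5) (nat_lit 252) (nat_lit 263) (nat_lit 265))) (PT.nd (nat_lit 78) (PT.lf (nat_lit 58368) (nat_lit 6) (nat_lit 768) (nat_lit 5) (nat_lit 253) (nat_lit 263) (nat_lit 264)) (PT.lf (nat_lit 58900) (nat_lit 3) (nat_lit 775) (nat_lit 4) (nat_lit 254) (nat_lit 263) (nat_lit 263)))) (PT.nd (nat_lit 156) (PT.nd (nat_lit 78) (PT.lf (nat_lit 59280) (nat_lit 6)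 (nat_lit 780) (nat_lit 4) (nat_lit 255) (nat_lit 263) (nat_lit 262)) (PT.lf (nat_lit 59584) (nat_lit 6) (nat_lit 784) (nat_lit 4) (nat_lit 256) (nat_lit 263) (nat_lit 261))) (PT.nd (nat_lit 78) (PT.lf (nat_lit 59812) (nat_lit 6) (nat_lit 787) (nat_lit 4) (nat_lit 257) (nat_lit 263) (nat_lit 260)) (PT.nd (nat_lit 78) (PT.lf (nat_lit 59736) (nat_lit 6) (nat_lit 786) (nat_lit 4) (nat_lit 258) (nat_lit 263) (nat_lit 259)) (PT.lf (nat_lit 59736) (nat_lit 6) (nat_lit 786) (nat_lit 2) (nat_lit 259) (nat_lit 263) (nat_lit 258))))))))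
noncomputable def pc56 : PT := (PT.nd (nat_lit 1326) (PT.nd (nat_lit 624) (PT.nd (nat_lit 312) (PT.nd (nat_lit 156) (PT.nd (nat_lit 78) (PT.lf (nat_lit 59812) (nat_lit 6) (nat_lit 787) (nat_lit 2) (nat_lit 260) (nat_lit 263) (nat_lit 257)) (PT.lf (nat_lit 59584) (nat_lit 6) (nat_lit 784) (nat_lit 2) (nat_lit 261) (nat_lit 263) (nat_lit 256))) (PT.nd (nat_lit 78) (PT.lf (nat_lit 59280) (nat_lit 6) (nat_lit 780) (nat_lit 2) (nat_lit 262) (nat_lit 263) (nat_lit 255)) (PT.lf (nat_lit 58900) (nat_lit 3) (nat_lit 775) (nat_lit 0) (nat_lit 263) (nat_lit 263) (nat_lit 254)))) (PT.nd (nat_lit 156) (PT.nd (nat_lit 78) (PT.lf (nat_lit 58368) (nat_lit 6) (nat_lit 768) (nat_lit 0) (nat_lit 264) (nat_lit 263) (nat_lit 253)) (PT.lf (nat_lit 57760) (nat_lit 6) (nat_lit 760) (nat_lit 0) (nat_lit 265) (nat_lit 263) (nat_lit 252))) (PT.nd (nat_lit 78) (PT.lf (nat_lit 57076) (nat_lit 6) (nat_lit 751) (nat_lit 0) (nat_lit 266) (nat_lit 263) (nat_lit 251)) (PT.lf (nat_lit 56316)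 (nat_lit 6) (nat_lit 741) (nat_lit 0) (nat_lit 267) (nat_lit 263) (nat_lit 250))))) (PT.nd (nat_lit 312) (PT.nd (nat_lit 156) (PT.nd (nat_lit 78) (PT.lf (nat_lit 55480) (nat_lit 6) (nat_lit 730) (nat_lit 0) (nat_lit 268) (nat_lit 263) (nat_lit 249)) (PT.lf (nat_lit 54568) (nat_lit 6) (nat_lit 718) (nat_lit 0) (nat_lit 269) (nat_lit 263) (nat_lit 248))) (PT.nd (nat_lit 78) (PT.lf (nat_lit 53580) (nat_lit 6) (nat_lit 705) (nat_lit 0) (nat_lit 270) (nat_lit 263) (nat_lit 247)) (PT.lf (nat_lit 52516) (nat_lit 6) (nat_lit 691) (nat_lit 0) (nat_lit 271) (nat_lit 263) (nat_lit 246)))) (PT.nd (nat_lit 156) (PT.nd (nat_lit 78) (PT.lf (nat_lit 51376) (nat_lit 6) (nat_lit 676) (nat_lit 0) (nat_lit 272) (nat_lit 263) (nat_lit 245)) (PT.lf (nat_lit 50160) (nat_lit 6) (nat_lit 660) (nat_lit 0) (nat_lit 273) (nat_lit 263) (nat_lit 244))) (PT.nd (nat_lit 78) (PT.lf (nat_lit 48868) (nat_lit 6) (nat_lit 643) (nat_lit 0) (nat_lit 274) (nat_lit 263) (nat_lit 243)) (PT.nd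 (nat_lit 78) (PT.lf (nat_lit 47500) (nat_lit 6) (nat_lit 625) (nat_lit 0) (nat_lit 275) (nat_lit 263) (nat_lit 242)) (PT.lf (nat_lit 46056) (nat_lit 6) (nat_lit 606) (nat_lit 0) (nat_lit 276) (nat_lit 263) (nat_lit 241))))))) (PT.nd (nat_lit 702) (PT.nd (nat_lit 312) (PT.nd (nat_lit 156) (PT.nd (nat_lit 78) (PT.lf (nat_lit 44536) (nat_lit 6) (nat_lit 586) (nat_lit 0) (nat_lit 277) (nat_lit 263) (nat_lit 240)) (PT.lf (nat_lit 42940) (nat_lit 6) (nat_lit 565) (nat_lit 0) (nat_lit 278) (nat_lit 263) (nat_lit 239))) (PT.nd (nat_lit 78) (PT.lf (nat_lit 41268) (nat_lit 6) (nat_lit 543) (nat_lit 0) (nat_lit 279) (nat_lit 263) (nat_lit 238)) (PT.lf (nat_lit 39520) (nat_lit 6) (nat_lit 520) (nat_lit 0) (nat_lit 280) (nat_lit 263) (nat_lit 237)))) (PT.nd (nat_lit 156) (PT.nd (nat_lit 78) (PT.lf (nat_lit 37696) (nat_lit 6) (nat_lit 496) (nat_lit 0) (nat_lit 281) (nat_lit 263) (nat_lit 236)) (PT.lf (nat_lit 35796) (nat_lit 6) (nat_lit 471) (nat_lit 0) (nat_lit 282)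 (nat_lit 263) (nat_lit 235))) (PT.nd (nat_lit 78) (PT.lf (nat_lit 34580) (nat_lit 6) (nat_lit 455) (nat_lit 0) (nat_lit 283) (nat_lit 263) (nat_lit 234)) (PT.nd (nat_lit 78) (PT.lf (nat_lit 33592) (nat_lit 6) (nat_lit 442) (nat_lit 0) (nat_lit 284) (nat_lit 263) (nat_lit 233)) (PT.lf (nat_lit 32604) (nat_lit 6) (nat_lit 429) (nat_lit 0) (nat_lit 285) (nat_lit 263) (nat_lit 232)))))) (PT.nd (nat_lit 77064) (PT.nd (nat_lit 76908) (PT.nd (nat_lit 76830) (PT.lf (nat_lit 31692) (nat_lit 6) (nat_lit 417) (nat_lit 0) (nat_lit 286) (nat_lit 263) (nat_lit 231)) (PT.lf (nat_lit 30780) (nat_lit 6) (nat_lit 405) (nat_lit 5) (nat_lit 230) (nat_lit 264) (nat_lit 286))) (PT.nd (nat_lit 78) (PT.lf (nat_lit 31768) (nat_lit 6) (nat_lit 418) (nat_lit 5) (nat_lit 231) (nat_lit 264) (nat_lit 285)) (PT.lf (nat_lit 32680) (nat_lit 6) (nat_lit 430) (nat_lit 5) (nat_lit 232) (nat_lit 264) (nat_lit 284)))) (PT.nd (nat_lit 156) (PT.nd (nat_lit 78) (PT.lf (nat_lit 33668) (nat_lit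 6) (nat_lit 443) (nat_lit 5) (nat_lit 233) (nat_lit 264) (nat_lit 283)) (PT.lf (nat_lit 34656) (nat_lit 6) (nat_lit 456) (nat_lit 5) (nat_lit 234) (nat_lit 264) (nat_lit 282))) (PT.nd (nat_lit 78) (PT.lf (nat_lit 35872) (nat_lit 6) (nat_lit 472) (nat_lit 5) (nat_lit 235) (nat_lit 264) (nat_lit 281)) (PT.nd (nat_lit 78) (PT.lf (nat_lit 37772) (nat_lit 6) (nat_lit 497) (nat_lit 5) (nat_lit 236) (nat_lit 264) (nat_lit 280)) (PT.lf (nat_lit 39596) (nat_lit 6) (nat_lit 521) (nat_lit 5) (nat_lit 237) (nat_lit 264) (nat_lit 279))))))))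
noncomputable def pc57 : PT := (PT.nd (nat_lit 1326) (PT.nd (nat_lit 624) (PT.nd (nat_lit 312) (PT.nd (nat_lit 156) (PT.nd (nat_lit 78) (PT.lf (nat_lit 41344) (nat_lit 6) (nat_lit 544) (nat_lit 5) (nat_lit 238) (nat_lit 264) (nat_lit 278)) (PT.lf (nat_lit 43016) (nat_lit 6) (nat_lit 566) (nat_lit 5) (nat_lit 239) (nat_lit 264) (nat_lit 277))) (PT.nd (nat_lit 78) (PT.lf (nat_lit 44612) (nat_lit 6) (nat_lit 587) (nat_lit 5) (nat_lit 240) (nat_lit 264) (nat_lit 276)) (PT.lf (nat_lit 46132) (nat_lit 6) (nat_lit 607) (nat_lit 5) (nat_lit 241) (nat_lit 264) (nat_lit 275)))) (PT.nd (nat_lit 156) (PT.nd (nat_lit 78) (PT.lf (nat_lit 47576) (nat_lit 6) (nat_lit 626) (nat_lit 5) (nat_lit 242) (nat_lit 264) (nat_lit 274)) (PT.lf (nat_lit 48944) (nat_lit 6) (nat_lit 644) (nat_lit 5) (nat_lit 243) (nat_lit 264) (nat_lit 273))) (PT.nd (nat_lit 78) (PT.lf (nat_lit 50236) (nat_lit 6) (nat_lit 661) (nat_lit 5) (nat_lit 244) (nat_lit 264) (nat_lit 272)) (PT.lf (nat_lit 51452)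 (nat_lit 6) (nat_lit 677) (nat_lit 5) (nat_lit 245) (nat_lit 264) (nat_lit 271))))) (PT.nd (nat_lit 312) (PT.nd (nat_lit 156) (PT.nd (nat_lit 78) (PT.lf (nat_lit 52592) (nat_lit 6) (nat_lit 692) (nat_lit 5) (nat_lit 246) (nat_lit 264) (nat_lit 270)) (PT.lf (nat_lit 53656) (nat_lit 6) (nat_lit 706) (nat_lit 5) (nat_lit 247) (nat_lit 264) (nat_lit 269))) (PT.nd (nat_lit 78) (PT.lf (nat_lit 54644) (nat_lit 6) (nat_lit 719) (nat_lit 5) (nat_lit 248) (nat_lit 264) (nat_lit 268)) (PT.lf (nat_lit 55556) (nat_lit 6) (nat_lit 731) (nat_lit 5) (nat_lit 249) (nat_lit 264) (nat_lit 267)))) (PT.nd (nat_lit 156) (PT.nd (nat_lit 78) (PT.lf (nat_lit 56392) (nat_lit 6) (nat_lit 742) (nat_lit 5) (nat_lit 250) (nat_lit 264) (nat_lit 266)) (PT.lf (nat_lit 57152) (nat_lit 6) (nat_lit 752) (nat_lit 5) (nat_lit 251) (nat_lit 264) (nat_lit 265))) (PT.nd (nat_lit 78) (PT.lf (nat_lit 57836) (nat_lit 3) (nat_lit 761) (nat_lit 4) (nat_lit 252) (nat_lit 264) (nat_lit 264)) (PT.nd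 (nat_lit 78) (PT.lf (nat_lit 58368) (nat_lit 6) (nat_lit 768) (nat_lit 4) (nat_lit 253) (nat_lit 264) (nat_lit 263)) (PT.lf (nat_lit 58824) (nat_lit 6) (nat_lit 774) (nat_lit 4) (nat_lit 254) (nat_lit 264) (nat_lit 262))))))) (PT.nd (nat_lit 702) (PT.nd (nat_lit 312) (PT.nd (nat_lit 156) (PT.nd (nat_lit 78) (PT.lf (nat_lit 59204) (nat_lit 6) (nat_lit 779) (nat_lit 4) (nat_lit 255) (nat_lit 264) (nat_lit 261)) (PT.lf (nat_lit 59508) (nat_lit 6) (nat_lit 783) (nat_lit 4) (nat_lit 256) (nat_lit 264) (nat_lit 260))) (PT.nd (nat_lit 78) (PT.lf (nat_lit 59432) (nat_lit 6) (nat_lit 782) (nat_lit 4) (nat_lit 257) (nat_lit 264) (nat_lit 259)) (PT.lf (nat_lit 59356) (nat_lit 3) (nat_lit 781) (nat_lit 2) (nat_lit 258) (nat_lit 264) (nat_lit 258)))) (PT.nd (nat_lit 156) (PT.nd (nat_lit 78) (PT.lf (nat_lit 59432) (nat_lit 6) (nat_lit 782) (nat_lit 2) (nat_lit 259) (nat_lit 264) (nat_lit 257)) (PT.lf (nat_lit 59508) (nat_lit 6) (nat_lit 783) (nat_lit 2) (nat_lit 260)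 (nat_lit 264) (nat_lit 256))) (PT.nd (nat_lit 78) (PT.lf (nat_lit 59204) (nat_lit 6) (nat_lit 779) (nat_lit 2) (nat_lit 261) (nat_lit 264) (nat_lit 255)) (PT.nd (nat_lit 78) (PT.lf (nat_lit 58824) (nat_lit 6) (nat_lit 774) (nat_lit 2) (nat_lit 262) (nat_lit 264) (nat_lit 254)) (PT.lf (nat_lit 58368) (nat_lit 6) (nat_lit 768) (nat_lit 2) (nat_lit 263) (nat_lit 264) (nat_lit 253)))))) (PT.nd (nat_lit 312) (PT.nd (nat_lit 156) (PT.nd (nat_lit 78) (PT.lf (nat_lit 57836) (nat_lit 3) (nat_lit 761) (nat_lit 0) (nat_lit 264) (nat_lit 264) (nat_lit 252)) (PT.lf (nat_lit 57152) (nat_lit 6) (nat_lit 752) (nat_lit 0) (nat_lit 265) (nat_lit 264) (nat_lit 251))) (PT.nd (nat_lit 78) (PT.lf (nat_lit 56392) (nat_lit 6) (nat_lit 742) (nat_lit 0) (nat_lit 266) (nat_lit 264) (nat_lit 250)) (PT.lf (nat_lit 55556) (nat_lit 6) (nat_lit 731) (nat_lit 0) (nat_lit 267) (nat_lit 264) (nat_lit 249)))) (PT.nd (nat_lit 156) (PT.nd (nat_lit 78) (PT.lf (nat_lit 54644) (nat_lit 6) (nat_lit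 719) (nat_lit 0) (nat_lit 268) (nat_lit 264) (nat_lit 248)) (PT.lf (nat_lit 53656) (nat_lit 6) (nat_lit 706) (nat_lit 0) (nat_lit 269) (nat_lit 264) (nat_lit 247))) (PT.nd (nat_lit 78) (PT.lf (nat_lit 52592) (nat_lit 6) (nat_lit 692) (nat_lit 0) (nat_lit 270) (nat_lit 264) (nat_lit 246)) (PT.nd (nat_lit 78) (PT.lf (nat_lit 51452) (nat_lit 6) (nat_lit 677) (nat_lit 0) (nat_lit 271) (nat_lit 264) (nat_lit 245)) (PT.lf (nat_lit 50236) (nat_lit 6) (nat_lit 661) (nat_lit 0) (nat_lit 272) (nat_lit 264) (nat_lit 244))))))))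
noncomputable def pc58 : PT := (PT.nd (nat_lit 78000) (PT.nd (nat_lit 624) (PT.nd (nat_lit 312) (PT.nd (nat_lit 156) (PT.nd (nat_lit 78) (PT.lf (nat_lit 48944) (nat_lit 6) (nat_lit 644) (nat_lit 0) (nat_lit 273) (nat_lit 264) (nat_lit 243)) (PT.lf (nat_lit 47576) (nat_lit 6) (nat_lit 626) (nat_lit 0) (nat_lit 274) (nat_lit 264) (nat_lit 242))) (PT.nd (nat_lit 78) (PT.lf (nat_lit 46132) (nat_lit 6) (nat_lit 607) (nat_lit 0) (nat_lit 275) (nat_lit 264) (nat_lit 241)) (PT.lf (nat_lit 44612) (nat_lit 6) (nat_lit 587) (nat_lit 0) (nat_lit 276) (nat_lit 264) (nat_lit 240)))) (PT.nd (nat_lit 156) (PT.nd (nat_lit 78) (PT.lf (nat_lit 43016) (nat_lit 6) (nat_lit 566) (nat_lit 0) (nat_lit 277) (nat_lit 264) (nat_lit 239)) (PT.lf (nat_lit 41344) (nat_lit 6) (nat_lit 544) (nat_lit 0) (nat_lit 278) (nat_lit 264) (nat_lit 238))) (PT.nd (nat_lit 78) (PT.lf (nat_lit 39596) (nat_lit 6) (nat_lit 521) (nat_lit 0) (nat_lit 279) (nat_lit 264) (nat_lit 237)) (PT.lf (nat_lit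 37772) (nat_lit 6) (nat_lit 497) (nat_lit 0) (nat_lit 280) (nat_lit 264) (nat_lit 236))))) (PT.nd (nat_lit 312) (PT.nd (nat_lit 156) (PT.nd (nat_lit 78) (PT.lf (nat_lit 35872) (nat_lit 6) (nat_lit 472) (nat_lit 0) (nat_lit 281) (nat_lit 264) (nat_lit 235)) (PT.lf (nat_lit 34656) (nat_lit 6) (nat_lit 456) (nat_lit 0) (nat_lit 282) (nat_lit 264) (nat_lit 234))) (PT.nd (nat_lit 78) (PT.lf (nat_lit 33668) (nat_lit 6) (nat_lit 443) (nat_lit 0) (nat_lit 283) (nat_lit 264) (nat_lit 233)) (PT.lf (nat_lit 32680) (nat_lit 6) (nat_lit 430) (nat_lit 0) (nat_lit 284) (nat_lit 264) (nat_lit 232)))) (PT.nd (nat_lit 76830) (PT.nd (nat_lit 78) (PT.lf (nat_lit 31768) (nat_lit 6) (nat_lit 418) (nat_lit 0) (nat_lit 285) (nat_lit 264) (nat_lit 231)) (PT.lf (nat_lit 30780) (nat_lit 6) (nat_lit 405) (nat_lit 0) (nat_lit 286) (nat_lit 264) (nat_lit 230))) (PT.nd (nat_lit 78) (PT.lf (nat_lit 29944) (nat_lit 6) (nat_lit 394) (nat_lit 5) (nat_lit 229) (nat_lit 265) (nat_lit 286))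 (PT.nd (nat_lit 78) (PT.lf (nat_lit 30856) (nat_lit 6) (nat_lit 406) (nat_lit 5) (nat_lit 230) (nat_lit 265) (nat_lit 285)) (PT.lf (nat_lit 31844) (nat_lit 6) (nat_lit 419) (nat_lit 5) (nat_lit 231) (nat_lit 265) (nat_lit 284))))))) (PT.nd (nat_lit 702) (PT.nd (nat_lit 312) (PT.nd (nat_lit 156) (PT.nd (nat_lit 78) (PT.lf (nat_lit 32756) (nat_lit 6) (nat_lit 431) (nat_lit 5) (nat_lit 232) (nat_lit 265) (nat_lit 283)) (PT.lf (nat_lit 33744) (nat_lit 6) (nat_lit 444) (nat_lit 5) (nat_lit 233) (nat_lit 265) (nat_lit 282))) (PT.nd (nat_lit 78) (PT.lf (nat_lit 34732) (nat_lit 6) (nat_lit 457) (nat_lit 5) (nat_lit 234) (nat_lit 265) (nat_lit 281)) (PT.lf (nat_lit 35948) (nat_lit 6) (nat_lit 473) (nat_lit 5) (nat_lit 235) (nat_lit 265) (nat_lit 280)))) (PT.nd (nat_lit 156) (PT.nd (nat_lit 78) (PT.lf (nat_lit 37848) (nat_lit 6) (nat_lit 498) (nat_lit 5) (nat_lit 236) (nat_lit 265) (nat_lit 279)) (PT.lf (nat_lit 39672) (nat_lit 6) (nat_lit 522) (nat_lit 5) (nat_lit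 237) (nat_lit 265) (nat_lit 278))) (PT.nd (nat_lit 78) (PT.lf (nat_lit 41420) (nat_lit 6) (nat_lit 545) (nat_lit 5) (nat_lit 238) (nat_lit 265) (nat_lit 277)) (PT.nd (nat_lit 78) (PT.lf (nat_lit 43092) (nat_lit 6) (nat_lit 567) (nat_lit 5) (nat_lit 239) (nat_lit 265) (nat_lit 276)) (PT.lf (nat_lit 44688) (nat_lit 6) (nat_lit 588) (nat_lit 5) (nat_lit 240) (nat_lit 265) (nat_lit 275)))))) (PT.nd (nat_lit 312) (PT.nd (nat_lit 156) (PT.nd (nat_lit 78) (PT.lf (nat_lit 46208) (nat_lit 6) (nat_lit 608) (nat_lit 5) (nat_lit 241) (nat_lit 265) (nat_lit 274)) (PT.lf (nat_lit 47652) (nat_lit 6) (nat_lit 627) (nat_lit 5) (nat_lit 242) (nat_lit 265) (nat_lit 273))) (PT.nd (nat_lit 78) (PT.lf (nat_lit 49020) (nat_lit 6) (nat_lit 645) (nat_lit 5) (nat_lit 243) (nat_lit 265) (nat_lit 272)) (PT.lf (nat_lit 50312) (nat_lit 6) (nat_lit 662) (nat_lit 5) (nat_lit 244) (nat_lit 265) (nat_lit 271)))) (PT.nd (nat_lit 156) (PT.nd (nat_lit 78) (PT.lf (nat_lit 51528) (nat_lit 6)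 (nat_lit 678) (nat_lit 5) (nat_lit 245) (nat_lit 265) (nat_lit 270)) (PT.lf (nat_lit 52668) (nat_lit 6) (nat_lit 693) (nat_lit 5) (nat_lit 246) (nat_lit 265) (nat_lit 269))) (PT.nd (nat_lit 78) (PT.lf (nat_lit 53732) (nat_lit 6) (nat_lit 707) (nat_lit 5) (nat_lit 247) (nat_lit 265) (nat_lit 268)) (PT.nd (nat_lit 78) (PT.lf (nat_lit 54720) (nat_lit 6) (nat_lit 720) (nat_lit 5) (nat_lit 248) (nat_lit 265) (nat_lit 267)) (PT.lf (nat_lit 55632) (nat_lit 6) (nat_lit 732) (nat_lit 5) (nat_lit 249) (nat_lit 265) (nat_lit 266))))))))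
noncomputable def pc59 : PT := (PT.nd (nat_lit 1326) (PT.nd (nat_lit 624) (PT.nd (nat_lit 312) (PT.nd (nat_lit 156) (PT.nd (nat_lit 78) (PT.lf (nat_lit 56468) (nat_lit 3) (nat_lit 743) (nat_lit 4) (nat_lit 250) (nat_lit 265) (nat_lit 265)) (PT.lf (nat_lit 57152) (nat_lit 6) (nat_lit 752) (nat_lit 4) (nat_lit 251) (nat_lit 265) (nat_lit 264))) (PT.nd (nat_lit 78) (PT.lf (nat_lit 57760) (nat_lit 6) (nat_lit 760) (nat_lit 4) (nat_lit 252) (nat_lit 265) (nat_lit 263)) (PT.lf (nat_lit 58292) (nat_lit 6) (nat_lit 767) (nat_lit 4) (nat_lit 253) (nat_lit 265) (nat_lit 262)))) (PT.nd (nat_lit 156) (PT.nd (nat_lit 78) (PT.lf (nat_lit 58748) (nat_lit 6) (nat_lit 773) (nat_lit 4) (nat_lit 254) (nat_lit 265) (nat_lit 261)) (PT.lf (nat_lit 59128) (nat_lit 6) (nat_lit 778) (nat_lit 4) (nat_lit 255) (nat_lit 265) (nat_lit 260))) (PT.nd (nat_lit 78) (PT.lf (nat_lit 59052) (nat_lit 6) (nat_lit 777) (nat_lit 4) (nat_lit 256) (nat_lit 265) (nat_lit 259)) (PT.lf (nat_lit 58976)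 (nat_lit 6) (nat_lit 776) (nat_lit 4) (nat_lit 257) (nat_lit 265) (nat_lit 258))))) (PT.nd (nat_lit 312) (PT.nd (nat_lit 156) (PT.nd (nat_lit 78) (PT.lf (nat_lit 58976) (nat_lit 6) (nat_lit 776) (nat_lit 2) (nat_lit 258) (nat_lit 265) (nat_lit 257)) (PT.lf (nat_lit 59052) (nat_lit 6) (nat_lit 777) (nat_lit 2) (nat_lit 259) (nat_lit 265) (nat_lit 256))) (PT.nd (nat_lit 78) (PT.lf (nat_lit 59128) (nat_lit 6) (nat_lit 778) (nat_lit 2) (nat_lit 260) (nat_lit 265) (nat_lit 255)) (PT.lf (nat_lit 58748) (nat_lit 6) (nat_lit 773) (nat_lit 2) (nat_lit 261) (nat_lit 265) (nat_lit 254)))) (PT.nd (nat_lit 156) (PT.nd (nat_lit 78) (PT.lf (nat_lit 58292) (nat_lit 6) (nat_lit 767) (nat_lit 2) (nat_lit 262) (nat_lit 265) (nat_lit 253)) (PT.lf (nat_lit 57760) (nat_lit 6) (nat_lit 760) (nat_lit 2) (nat_lit 263) (nat_lit 265) (nat_lit 252))) (PT.nd (nat_lit 78) (PT.lf (nat_lit 57152) (nat_lit 6) (nat_lit 752) (nat_lit 2) (nat_lit 264) (nat_lit 265) (nat_lit 251)) (PT.nd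 (nat_lit 78) (PT.lf (nat_lit 56468) (nat_lit 3) (nat_lit 743) (nat_lit 0) (nat_lit 265) (nat_lit 265) (nat_lit 250)) (PT.lf (nat_lit 55632) (nat_lit 6) (nat_lit 732) (nat_lit 0) (nat_lit 266) (nat_lit 265) (nat_lit 249))))))) (PT.nd (nat_lit 702) (PT.nd (nat_lit 312) (PT.nd (nat_lit 156) (PT.nd (nat_lit 78) (PT.lf (nat_lit 54720) (nat_lit 6) (nat_lit 720) (nat_lit 0) (nat_lit 267) (nat_lit 265) (nat_lit 248)) (PT.lf (nat_lit 53732) (nat_lit 6) (nat_lit 707) (nat_lit 0) (nat_lit 268) (nat_lit 265) (nat_lit 247))) (PT.nd (nat_lit 78) (PT.lf (nat_lit 52668) (nat_lit 6) (nat_lit 693) (nat_lit 0) (nat_lit 269) (nat_lit 265) (nat_lit 246)) (PT.lf (nat_lit 51528) (nat_lit 6) (nat_lit 678) (nat_lit 0) (nat_lit 270) (nat_lit 265) (nat_lit 245)))) (PT.nd (nat_lit 156) (PT.nd (nat_lit 78) (PT.lf (nat_lit 50312) (nat_lit 6) (nat_lit 662) (nat_lit 0) (nat_lit 271) (nat_lit 265) (nat_lit 244)) (PT.lf (nat_lit 49020) (nat_lit 6) (nat_lit 645) (nat_lit 0) (nat_lit 272)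 (nat_lit 265) (nat_lit 243))) (PT.nd (nat_lit 78) (PT.lf (nat_lit 47652) (nat_lit 6) (nat_lit 627) (nat_lit 0) (nat_lit 273) (nat_lit 265) (nat_lit 242)) (PT.nd (nat_lit 78) (PT.lf (nat_lit 46208) (nat_lit 6) (nat_lit 608) (nat_lit 0) (nat_lit 274) (nat_lit 265) (nat_lit 241)) (PT.lf (nat_lit 44688) (nat_lit 6) (nat_lit 588) (nat_lit 0) (nat_lit 275) (nat_lit 265) (nat_lit 240)))))) (PT.nd (nat_lit 312) (PT.nd (nat_lit 156) (PT.nd (nat_lit 78) (PT.lf (nat_lit 43092) (nat_lit 6) (nat_lit 567) (nat_lit 0) (nat_lit 276) (nat_lit 265) (nat_lit 239)) (PT.lf (nat_lit 41420) (nat_lit 6) (nat_lit 545) (nat_lit 0) (nat_lit 277) (nat_lit 265) (nat_lit 238))) (PT.nd (nat_lit 78) (PT.lf (nat_lit 39672) (nat_lit 6) (nat_lit 522) (nat_lit 0) (nat_lit 278) (nat_lit 265) (nat_lit 237)) (PT.lf (nat_lit 37848) (nat_lit 6) (nat_lit 498) (nat_lit 0) (nat_lit 279) (nat_lit 265) (nat_lit 236)))) (PT.nd (nat_lit 156) (PT.nd (nat_lit 78) (PT.lf (nat_lit 35948) (nat_lit 6) (nat_lit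 473) (nat_lit 0) (nat_lit 280) (nat_lit 265) (nat_lit 235)) (PT.lf (nat_lit 34732) (nat_lit 6) (nat_lit 457) (nat_lit 0) (nat_lit 281) (nat_lit 265) (nat_lit 234))) (PT.nd (nat_lit 78) (PT.lf (nat_lit 33744) (nat_lit 6) (nat_lit 444) (nat_lit 0) (nat_lit 282) (nat_lit 265) (nat_lit 233)) (PT.nd (nat_lit 78) (PT.lf (nat_lit 32756) (nat_lit 6) (nat_lit 431) (nat_lit 0) (nat_lit 283) (nat_lit 265) (nat_lit 232)) (PT.lf (nat_lit 31844) (nat_lit 6) (nat_lit 419) (nat_lit 0) (nat_lit 284) (nat_lit 265) (nat_lit 231))))))))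
noncomputable def pc60 : PT := (PT.nd (nat_lit 77922) (PT.nd (nat_lit 77220) (PT.nd (nat_lit 76908) (PT.nd (nat_lit 76752) (PT.nd (nat_lit 78) (PT.lf (nat_lit 30856) (nat_lit 6) (nat_lit 406) (nat_lit 0) (nat_lit 285) (nat_lit 265) (nat_lit 230)) (PT.lf (nat_lit 29944) (nat_lit 6) (nat_lit 394) (nat_lit 0) (nat_lit 286) (nat_lit 265) (nat_lit 229))) (PT.nd (nat_lit 78) (PT.lf (nat_lit 29108) (nat_lit 6) (nat_lit 383) (nat_lit 5) (nat_lit 228) (nat_lit 266) (nat_lit 286)) (PT.lf (nat_lit 30020) (nat_lit 6) (nat_lit 395) (nat_lit 5) (nat_lit 229) (nat_lit 266) (nat_lit 285)))) (PT.nd (nat_lit 156) (PT.nd (nat_lit 78) (PT.lf (nat_lit 30932) (nat_lit 6) (nat_lit 407) (nat_lit 5) (nat_lit 230) (nat_lit 266) (nat_lit 284)) (PT.lf (nat_lit 31920) (nat_lit 6) (nat_lit 420) (nat_lit 5) (nat_lit 231) (nat_lit 266) (nat_lit 283))) (PT.nd (nat_lit 78) (PT.lf (nat_lit 32832) (nat_lit 6) (nat_lit 432) (nat_lit 5) (nat_lit 232) (nat_lit 266) (nat_lit 282)) (PT.lf (nat_lit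 33820) (nat_lit 6) (nat_lit 445) (nat_lit 5) (nat_lit 233) (nat_lit 266) (nat_lit 281))))) (PT.nd (nat_lit 312) (PT.nd (nat_lit 156) (PT.nd (nat_lit 78) (PT.lf (nat_lit 34808) (nat_lit 6) (nat_lit 458) (nat_lit 5) (nat_lit 234) (nat_lit 266) (nat_lit 280)) (PT.lf (nat_lit 36024) (nat_lit 6) (nat_lit 474) (nat_lit 5) (nat_lit 235) (nat_lit 266) (nat_lit 279))) (PT.nd (nat_lit 78) (PT.lf (nat_lit 37924) (nat_lit 6) (nat_lit 499) (nat_lit 5) (nat_lit 236) (nat_lit 266) (nat_lit 278)) (PT.lf (nat_lit 39748) (nat_lit 6) (nat_lit 523) (nat_lit 5) (nat_lit 237) (nat_lit 266) (nat_lit 277)))) (PT.nd (nat_lit 156) (PT.nd (nat_lit 78) (PT.lf (nat_lit 41496) (nat_lit 6) (nat_lit 546) (nat_lit 5) (nat_lit 238) (nat_lit 266) (nat_lit 276)) (PT.lf (nat_lit 43168) (nat_lit 6) (nat_lit 568) (nat_lit 5) (nat_lit 239) (nat_lit 266) (nat_lit 275))) (PT.nd (nat_lit 78) (PT.lf (nat_lit 44764) (nat_lit 6) (nat_lit 589) (nat_lit 5) (nat_lit 240) (nat_lit 266) (nat_lit 274))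 (PT.nd (nat_lit 78) (PT.lf (nat_lit 46284) (nat_lit 6) (nat_lit 609) (nat_lit 5) (nat_lit 241) (nat_lit 266) (nat_lit 273)) (PT.lf (nat_lit 47728) (nat_lit 6) (nat_lit 628) (nat_lit 5) (nat_lit 242) (nat_lit 266) (nat_lit 272))))))) (PT.nd (nat_lit 702) (PT.nd (nat_lit 312) (PT.nd (nat_lit 156) (PT.nd (nat_lit 78) (PT.lf (nat_lit 49096) (nat_lit 6) (nat_lit 646) (nat_lit 5) (nat_lit 243) (nat_lit 266) (nat_lit 271)) (PT.lf (nat_lit 50388) (nat_lit 6) (nat_lit 663) (nat_lit 5) (nat_lit 244) (nat_lit 266) (nat_lit 270))) (PT.nd (nat_lit 78) (PT.lf (nat_lit 51604) (nat_lit 6) (nat_lit 679) (nat_lit 5) (nat_lit 245) (nat_lit 266) (nat_lit 269)) (PT.lf (nat_lit 52744) (nat_lit 6) (nat_lit 694) (nat_lit 5) (nat_lit 246) (nat_lit 266) (nat_lit 268)))) (PT.nd (nat_lit 156) (PT.nd (nat_lit 78) (PT.lf (nat_lit 53808) (nat_lit 6) (nat_lit 708) (nat_lit 5) (nat_lit 247) (nat_lit 266) (nat_lit 267)) (PT.lf (nat_lit 54796) (nat_lit 3) (nat_lit 721) (nat_lit 4) (nat_lit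 248) (nat_lit 266) (nat_lit 266))) (PT.nd (nat_lit 78) (PT.lf (nat_lit 55632) (nat_lit 6) (nat_lit 732) (nat_lit 4) (nat_lit 249) (nat_lit 266) (nat_lit 265)) (PT.nd (nat_lit 78) (PT.lf (nat_lit 56392) (nat_lit 6) (nat_lit 742) (nat_lit 4) (nat_lit 250) (nat_lit 266) (nat_lit 264)) (PT.lf (nat_lit 57076) (nat_lit 6) (nat_lit 751) (nat_lit 4) (nat_lit 251) (nat_lit 266) (nat_lit 263)))))) (PT.nd (nat_lit 312) (PT.nd (nat_lit 156) (PT.nd (nat_lit 78) (PT.lf (nat_lit 57684) (nat_lit 6) (nat_lit 759) (nat_lit 4) (nat_lit 252) (nat_lit 266) (nat_lit 262)) (PT.lf (nat_lit 58216) (nat_lit 6) (nat_lit 766) (nat_lit 4) (nat_lit 253) (nat_lit 266) (nat_lit 261))) (PT.nd (nat_lit 78) (PT.lf (nat_lit 58672) (nat_lit 6) (nat_lit 772) (nat_lit 4) (nat_lit 254) (nat_lit 266) (nat_lit 260)) (PT.lf (nat_lit 58596) (nat_lit 6) (nat_lit 771) (nat_lit 4) (nat_lit 255) (nat_lit 266) (nat_lit 259)))) (PT.nd (nat_lit 156) (PT.nd (nat_lit 78) (PT.lf (nat_lit 58520) (nat_lit 6)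 (nat_lit 770) (nat_lit 4) (nat_lit 256) (nat_lit 266) (nat_lit 258)) (PT.lf (nat_lit 58444) (nat_lit 3) (nat_lit 769) (nat_lit 2) (nat_lit 257) (nat_lit 266) (nat_lit 257))) (PT.nd (nat_lit 78) (PT.lf (nat_lit 58520) (nat_lit 6) (nat_lit 770) (nat_lit 2) (nat_lit 258) (nat_lit 266) (nat_lit 256)) (PT.nd (nat_lit 78) (PT.lf (nat_lit 58596) (nat_lit 6) (nat_lit 771) (nat_lit 2) (nat_lit 259) (nat_lit 266) (nat_lit 255)) (PT.lf (nat_lit 58672) (nat_lit 6) (nat_lit 772) (nat_lit 2) (nat_lit 260) (nat_lit 266) (nat_lit 254))))))))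
noncomputable def pc61 : PT := (PT.nd (nat_lit 1326) (PT.nd (nat_lit 624) (PT.nd (nat_lit 312) (PT.nd (nat_lit 156) (PT.nd (nat_lit 78) (PT.lf (nat_lit 58216) (nat_lit 6) (nat_lit 766) (nat_lit 2) (nat_lit 261) (nat_lit 266) (nat_lit 253)) (PT.lf (nat_lit 57684) (nat_lit 6) (nat_lit 759) (nat_lit 2) (nat_lit 262) (nat_lit 266) (nat_lit 252))) (PT.nd (nat_lit 78) (PT.lf (nat_lit 57076) (nat_lit 6) (nat_lit 751) (nat_lit 2) (nat_lit 263) (nat_lit 266) (nat_lit 251)) (PT.lf (nat_lit 56392) (nat_lit 6) (nat_lit 742) (nat_lit 2) (nat_lit 264) (nat_lit 266) (nat_lit 250)))) (PT.nd (nat_lit 156) (PT.nd (nat_lit 78) (PT.lf (nat_lit 55632) (nat_lit 6) (nat_lit 732) (nat_lit 2) (nat_lit 265) (nat_lit 266) (nat_lit 249)) (PT.lf (nat_lit 54796) (nat_lit 3) (nat_lit 721) (nat_lit 0) (nat_lit 266) (nat_lit 266) (nat_lit 248))) (PT.nd (nat_lit 78) (PT.lf (nat_lit 53808) (nat_lit 6) (nat_lit 708) (nat_lit 0) (nat_lit 267) (nat_lit 266) (nat_lit 247)) (PT.lf (nat_lit 52744)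 (nat_lit 6) (nat_lit 694) (nat_lit 0) (nat_lit 268) (nat_lit 266) (nat_lit 246))))) (PT.nd (nat_lit 312) (PT.nd (nat_lit 156) (PT.nd (nat_lit 78) (PT.lf (nat_lit 51604) (nat_lit 6) (nat_lit 679) (nat_lit 0) (nat_lit 269) (nat_lit 266) (nat_lit 245)) (PT.lf (nat_lit 50388) (nat_lit 6) (nat_lit 663) (nat_lit 0) (nat_lit 270) (nat_lit 266) (nat_lit 244))) (PT.nd (nat_lit 78) (PT.lf (nat_lit 49096) (nat_lit 6) (nat_lit 646) (nat_lit 0) (nat_lit 271) (nat_lit 266) (nat_lit 243)) (PT.lf (nat_lit 47728) (nat_lit 6) (nat_lit 628) (nat_lit 0) (nat_lit 272) (nat_lit 266) (nat_lit 242)))) (PT.nd (nat_lit 156) (PT.nd (nat_lit 78) (PT.lf (nat_lit 46284) (nat_lit 6) (nat_lit 609) (nat_lit 0) (nat_lit 273) (nat_lit 266) (nat_lit 241)) (PT.lf (nat_lit 44764) (nat_lit 6) (nat_lit 589) (nat_lit 0) (nat_lit 274) (nat_lit 266) (nat_lit 240))) (PT.nd (nat_lit 78) (PT.lf (nat_lit 43168) (nat_lit 6) (nat_lit 568) (nat_lit 0) (nat_lit 275) (nat_lit 266) (nat_lit 239)) (PT.nd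 (nat_lit 78) (PT.lf (nat_lit 41496) (nat_lit 6) (nat_lit 546) (nat_lit 0) (nat_lit 276) (nat_lit 266) (nat_lit 238)) (PT.lf (nat_lit 39748) (nat_lit 6) (nat_lit 523) (nat_lit 0) (nat_lit 277) (nat_lit 266) (nat_lit 237))))))) (PT.nd (nat_lit 77142) (PT.nd (nat_lit 312) (PT.nd (nat_lit 156) (PT.nd (nat_lit 78) (PT.lf (nat_lit 37924) (nat_lit 6) (nat_lit 499) (nat_lit 0) (nat_lit 278) (nat_lit 266) (nat_lit 236)) (PT.lf (nat_lit 36024) (nat_lit 6) (nat_lit 474) (nat_lit 0) (nat_lit 279) (nat_lit 266) (nat_lit 235))) (PT.nd (nat_lit 78) (PT.lf (nat_lit 34808) (nat_lit 6) (nat_lit 458) (nat_lit 0) (nat_lit 280) (nat_lit 266) (nat_lit 234)) (PT.lf (nat_lit 33820) (nat_lit 6) (nat_lit 445) (nat_lit 0) (nat_lit 281) (nat_lit 266) (nat_lit 233)))) (PT.nd (nat_lit 156) (PT.nd (nat_lit 78) (PT.lf (nat_lit 32832) (nat_lit 6) (nat_lit 432) (nat_lit 0) (nat_lit 282) (nat_lit 266) (nat_lit 232)) (PT.lf (nat_lit 31920) (nat_lit 6) (nat_lit 420) (nat_lit 0) (nat_lit 283)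 (nat_lit 266) (nat_lit 231))) (PT.nd (nat_lit 78) (PT.lf (nat_lit 30932) (nat_lit 6) (nat_lit 407) (nat_lit 0) (nat_lit 284) (nat_lit 266) (nat_lit 230)) (PT.nd (nat_lit 78) (PT.lf (nat_lit 30020) (nat_lit 6) (nat_lit 395) (nat_lit 0) (nat_lit 285) (nat_lit 266) (nat_lit 229)) (PT.lf (nat_lit 29108) (nat_lit 6) (nat_lit 383) (nat_lit 0) (nat_lit 286) (nat_lit 266) (nat_lit 228)))))) (PT.nd (nat_lit 312) (PT.nd (nat_lit 156) (PT.nd (nat_lit 78) (PT.lf (nat_lit 27512) (nat_lit 6) (nat_lit 362) (nat_lit 5) (nat_lit 226) (nat_lit 267) (nat_lit 287)) (PT.lf (nat_lit 28348) (nat_lit 6) (nat_lit 373) (nat_lit 5) (nat_lit 227) (nat_lit 267) (nat_lit 286))) (PT.nd (nat_lit 78) (PT.lf (nat_lit 29184) (nat_lit 6) (nat_lit 384) (nat_lit 5) (nat_lit 228) (nat_lit 267) (nat_lit 285)) (PT.lf (nat_lit 30096) (nat_lit 6) (nat_lit 396) (nat_lit 5) (nat_lit 229) (nat_lit 267) (nat_lit 284)))) (PT.nd (nat_lit 156) (PT.nd (nat_lit 78) (PT.lf (nat_lit 31008) (nat_lit 6) (nat_lit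 408) (nat_lit 5) (nat_lit 230) (nat_lit 267) (nat_lit 283)) (PT.lf (nat_lit 31996) (nat_lit 6) (nat_lit 421) (nat_lit 5) (nat_lit 231) (nat_lit 267) (nat_lit 282))) (PT.nd (nat_lit 78) (PT.lf (nat_lit 32908) (nat_lit 6) (nat_lit 433) (nat_lit 5) (nat_lit 232) (nat_lit 267) (nat_lit 281)) (PT.nd (nat_lit 78) (PT.lf (nat_lit 33896) (nat_lit 6) (nat_lit 446) (nat_lit 5) (nat_lit 233) (nat_lit 267) (nat_lit 280)) (PT.lf (nat_lit 34884) (nat_lit 6) (nat_lit 459) (nat_lit 5) (nat_lit 234) (nat_lit 267) (nat_lit 279))))))))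
noncomputable def pc62 : PT := (PT.nd (nat_lit 1326) (PT.nd (nat_lit 624) (PT.nd (nat_lit 312) (PT.nd (nat_lit 156) (PT.nd (nat_lit 78) (PT.lf (nat_lit 36100) (nat_lit 6) (nat_lit 475) (nat_lit 5) (nat_lit 235) (nat_lit 267) (nat_lit 278)) (PT.lf (nat_lit 38000) (nat_lit 6) (nat_lit 500) (nat_lit 5) (nat_lit 236) (nat_lit 267) (nat_lit 277))) (PT.nd (nat_lit 78) (PT.lf (nat_lit 39824) (nat_lit 6) (nat_lit 524) (nat_lit 5) (nat_lit 237) (nat_lit 267) (nat_lit 276)) (PT.lf (nat_lit 41572) (nat_lit 6) (nat_lit 547) (nat_lit 5) (nat_lit 238) (nat_lit 267) (nat_lit 275)))) (PT.nd (nat_lit 156) (PT.nd (nat_lit 78) (PT.lf (nat_lit 43244) (nat_lit 6) (nat_lit 569) (nat_lit 5) (nat_lit 239) (nat_lit 267) (nat_lit 274)) (PT.lf (nat_lit 44840) (nat_lit 6) (nat_lit 590) (nat_lit 5) (nat_lit 240) (nat_lit 267) (nat_lit 273))) (PT.nd (nat_lit 78) (PT.lf (nat_lit 46360) (nat_lit 6) (nat_lit 610) (nat_lit 5) (nat_lit 241) (nat_lit 267) (nat_lit 272)) (PT.lf (nat_lit 47804)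 (nat_lit 6) (nat_lit 629) (nat_lit 5) (nat_lit 242) (nat_lit 267) (nat_lit 271))))) (PT.nd (nat_lit 312) (PT.nd (nat_lit 156) (PT.nd (nat_lit 78) (PT.lf (nat_lit 49172) (nat_lit 6) (nat_lit 647) (nat_lit 5) (nat_lit 243) (nat_lit 267) (nat_lit 270)) (PT.lf (nat_lit 50464) (nat_lit 6) (nat_lit 664) (nat_lit 5) (nat_lit 244) (nat_lit 267) (nat_lit 269))) (PT.nd (nat_lit 78) (PT.lf (nat_lit 51680) (nat_lit 6) (nat_lit 680) (nat_lit 5) (nat_lit 245) (nat_lit 267) (nat_lit 268)) (PT.lf (nat_lit 52820) (nat_lit 3) (nat_lit 695) (nat_lit 4) (nat_lit 246) (nat_lit 267) (nat_lit 267)))) (PT.nd (nat_lit 156) (PT.nd (nat_lit 78) (PT.lf (nat_lit 53808) (nat_lit 6) (nat_lit 708) (nat_lit 4) (nat_lit 247) (nat_lit 267) (nat_lit 266)) (PT.lf (nat_lit 54720) (nat_lit 6) (nat_lit 720) (nat_lit 4) (nat_lit 248) (nat_lit 267) (nat_lit 265))) (PT.nd (nat_lit 78) (PT.lf (nat_lit 55556) (nat_lit 6) (nat_lit 731) (nat_lit 4) (nat_lit 249) (nat_lit 267) (nat_lit 264)) (PT.nd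 (nat_lit 78) (PT.lf (nat_lit 56316) (nat_lit 6) (nat_lit 741) (nat_lit 4) (nat_lit 250) (nat_lit 267) (nat_lit 263)) (PT.lf (nat_lit 57000) (nat_lit 6) (nat_lit 750) (nat_lit 4) (nat_lit 251) (nat_lit 267) (nat_lit 262))))))) (PT.nd (nat_lit 702) (PT.nd (nat_lit 312) (PT.nd (nat_lit 156) (PT.nd (nat_lit 78) (PT.lf (nat_lit 57608) (nat_lit 6) (nat_lit 758) (nat_lit 4) (nat_lit 252) (nat_lit 267) (nat_lit 261)) (PT.lf (nat_lit 58140) (nat_lit 6) (nat_lit 765) (nat_lit 4) (nat_lit 253) (nat_lit 267) (nat_lit 260))) (PT.nd (nat_lit 78) (PT.lf (nat_lit 58064) (nat_lit 6) (nat_lit 764) (nat_lit 4) (nat_lit 254) (nat_lit 267) (nat_lit 259)) (PT.lf (nat_lit 57988) (nat_lit 6) (nat_lit 763) (nat_lit 4) (nat_lit 255) (nat_lit 267) (nat_lit 258)))) (PT.nd (nat_lit 156) (PT.nd (nat_lit 78) (PT.lf (nat_lit 57912) (nat_lit 6) (nat_lit 762) (nat_lit 4) (nat_lit 256) (nat_lit 267) (nat_lit 257)) (PT.lf (nat_lit 57912) (nat_lit 6) (nat_lit 762) (nat_lit 2) (nat_lit 257)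 (nat_lit 267) (nat_lit 256))) (PT.nd (nat_lit 78) (PT.lf (nat_lit 57988) (nat_lit 6) (nat_lit 763) (nat_lit 2) (nat_lit 258) (nat_lit 267) (nat_lit 255)) (PT.nd (nat_lit 78) (PT.lf (nat_lit 58064) (nat_lit 6) (nat_lit 764) (nat_lit 2) (nat_lit 259) (nat_lit 267) (nat_lit 254)) (PT.lf (nat_lit 58140) (nat_lit 6) (nat_lit 765) (nat_lit 2) (nat_lit 260) (nat_lit 267) (nat_lit 253)))))) (PT.nd (nat_lit 312) (PT.nd (nat_lit 156) (PT.nd (nat_lit 78) (PT.lf (nat_lit 57608) (nat_lit 6) (nat_lit 758) (nat_lit 2) (nat_lit 261) (nat_lit 267) (nat_lit 252)) (PT.lf (nat_lit 57000) (nat_lit 6) (nat_lit 750) (nat_lit 2) (nat_lit 262) (nat_lit 267) (nat_lit 251))) (PT.nd (nat_lit 78) (PT.lf (nat_lit 56316) (nat_lit 6) (nat_lit 741) (nat_lit 2) (nat_lit 263) (nat_lit 267) (nat_lit 250)) (PT.lf (nat_lit 55556) (nat_lit 6) (nat_lit 731) (nat_lit 2) (nat_lit 264) (nat_lit 267) (nat_lit 249)))) (PT.nd (nat_lit 156) (PT.nd (nat_lit 78) (PT.lf (nat_lit 54720) (nat_lit 6) (nat_lit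 720) (nat_lit 2) (nat_lit 265) (nat_lit 267) (nat_lit 248)) (PT.lf (nat_lit 53808) (nat_lit 6) (nat_lit 708) (nat_lit 2) (nat_lit 266) (nat_lit 267) (nat_lit 247))) (PT.nd (nat_lit 78) (PT.lf (nat_lit 52820) (nat_lit 3) (nat_lit 695) (nat_lit 0) (nat_lit 267) (nat_lit 267) (nat_lit 246)) (PT.nd (nat_lit 78) (PT.lf (nat_lit 51680) (nat_lit 6) (nat_lit 680) (nat_lit 0) (nat_lit 268) (nat_lit 267) (nat_lit 245)) (PT.lf (nat_lit 50464) (nat_lit 6) (nat_lit 664) (nat_lit 0) (nat_lit 269) (nat_lit 267) (nat_lit 244))))))))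
noncomputable def pc63 : PT := (PT.nd (nat_lit 1326) (PT.nd (nat_lit 624) (PT.nd (nat_lit 312) (PT.nd (nat_lit 156) (PT.nd (nat_lit 78) (PT.lf (nat_lit 49172) (nat_lit 6) (nat_lit 647) (nat_lit 0) (nat_lit 270) (nat_lit 267) (nat_lit 243)) (PT.lf (nat_lit 47804) (nat_lit 6) (nat_lit 629) (nat_lit 0) (nat_lit 271) (nat_lit 267) (nat_lit 242))) (PT.nd (nat_lit 78) (PT.lf (nat_lit 46360) (nat_lit 6) (nat_lit 610) (nat_lit 0) (nat_lit 272) (nat_lit 267) (nat_lit 241)) (PT.lf (nat_lit 44840) (nat_lit 6) (nat_lit 590) (nat_lit 0) (nat_lit 273) (nat_lit 267) (nat_lit 240)))) (PT.nd (nat_lit 156) (PT.nd (nat_lit 78) (PT.lf (nat_lit 43244) (nat_lit 6) (nat_lit 569) (nat_lit 0) (nat_lit 274) (nat_lit 267) (nat_lit 239)) (PT.lf (nat_lit 41572) (nat_lit 6) (nat_lit 547) (nat_lit 0) (nat_lit 275) (nat_lit 267) (nat_lit 238))) (PT.nd (nat_lit 78) (PT.lf (nat_lit 39824) (nat_lit 6) (nat_lit 524) (nat_lit 0) (nat_lit 276) (nat_lit 267) (nat_lit 237)) (PT.lf (nat_lit 38000)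 (nat_lit 6) (nat_lit 500) (nat_lit 0) (nat_lit 277) (nat_lit 267) (nat_lit 236))))) (PT.nd (nat_lit 312) (PT.nd (nat_lit 156) (PT.nd (nat_lit 78) (PT.lf (nat_lit 36100) (nat_lit 6) (nat_lit 475) (nat_lit 0) (nat_lit 278) (nat_lit 267) (nat_lit 235)) (PT.lf (nat_lit 34884) (nat_lit 6) (nat_lit 459) (nat_lit 0) (nat_lit 279) (nat_lit 267) (nat_lit 234))) (PT.nd (nat_lit 78) (PT.lf (nat_lit 33896) (nat_lit 6) (nat_lit 446) (nat_lit 0) (nat_lit 280) (nat_lit 267) (nat_lit 233)) (PT.lf (nat_lit 32908) (nat_lit 6) (nat_lit 433) (nat_lit 0) (nat_lit 281) (nat_lit 267) (nat_lit 232)))) (PT.nd (nat_lit 156) (PT.nd (nat_lit 78) (PT.lf (nat_lit 31996) (nat_lit 6) (nat_lit 421) (nat_lit 0) (nat_lit 282) (nat_lit 267) (nat_lit 231)) (PT.lf (nat_lit 31008) (nat_lit 6) (nat_lit 408) (nat_lit 0) (nat_lit 283) (nat_lit 267) (nat_lit 230))) (PT.nd (nat_lit 78) (PT.lf (nat_lit 30096) (nat_lit 6) (nat_lit 396) (nat_lit 0) (nat_lit 284) (nat_lit 267) (nat_lit 229)) (PT.nd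 (nat_lit 78) (PT.lf (nat_lit 29184) (nat_lit 6) (nat_lit 384) (nat_lit 0) (nat_lit 285) (nat_lit 267) (nat_lit 228)) (PT.lf (nat_lit 28348) (nat_lit 6) (nat_lit 373) (nat_lit 0) (nat_lit 286) (nat_lit 267) (nat_lit 227))))))) (PT.nd (nat_lit 76986) (PT.nd (nat_lit 76596) (PT.nd (nat_lit 76440) (PT.nd (nat_lit 76362) (PT.lf (nat_lit 27512) (nat_lit 6) (nat_lit 362) (nat_lit 0) (nat_lit 287) (nat_lit 267) (nat_lit 226)) (PT.lf (nat_lit 26752) (nat_lit 6) (nat_lit 352) (nat_lit 5) (nat_lit 225) (nat_lit 268) (nat_lit 287))) (PT.nd (nat_lit 78) (PT.lf (nat_lit 27588) (nat_lit 6) (nat_lit 363) (nat_lit 5) (nat_lit 226) (nat_lit 268) (nat_lit 286)) (PT.lf (nat_lit 28424) (nat_lit 6) (nat_lit 374) (nat_lit 5) (nat_lit 227) (nat_lit 268) (nat_lit 285)))) (PT.nd (nat_lit 156) (PT.nd (nat_lit 78) (PT.lf (nat_lit 29260) (nat_lit 6) (nat_lit 385) (nat_lit 5) (nat_lit 228) (nat_lit 268) (nat_lit 284)) (PT.lf (nat_lit 30172) (nat_lit 6) (nat_lit 397) (nat_lit 5) (nat_lit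 229) (nat_lit 268) (nat_lit 283))) (PT.nd (nat_lit 78) (PT.lf (nat_lit 31084) (nat_lit 6) (nat_lit 409) (nat_lit 5) (nat_lit 230) (nat_lit 268) (nat_lit 282)) (PT.nd (nat_lit 78) (PT.lf (nat_lit 32072) (nat_lit 6) (nat_lit 422) (nat_lit 5) (nat_lit 231) (nat_lit 268) (nat_lit 281)) (PT.lf (nat_lit 32984) (nat_lit 6) (nat_lit 434) (nat_lit 5) (nat_lit 232) (nat_lit 268) (nat_lit 280)))))) (PT.nd (nat_lit 312) (PT.nd (nat_lit 156) (PT.nd (nat_lit 78) (PT.lf (nat_lit 33972) (nat_lit 6) (nat_lit 447) (nat_lit 5) (nat_lit 233) (nat_lit 268) (nat_lit 279)) (PT.lf (nat_lit 34960) (nat_lit 6) (nat_lit 460) (nat_lit 5) (nat_lit 234) (nat_lit 268) (nat_lit 278))) (PT.nd (nat_lit 78) (PT.lf (nat_lit 36176) (nat_lit 6) (nat_lit 476) (nat_lit 5) (nat_lit 235) (nat_lit 268) (nat_lit 277)) (PT.lf (nat_lit 38076) (nat_lit 6) (nat_lit 501) (nat_lit 5) (nat_lit 236) (nat_lit 268) (nat_lit 276)))) (PT.nd (nat_lit 156) (PT.nd (nat_lit 78) (PT.lf (nat_lit 39900) (nat_lit 6)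 (nat_lit 525) (nat_lit 5) (nat_lit 237) (nat_lit 268) (nat_lit 275)) (PT.lf (nat_lit 41648) (nat_lit 6) (nat_lit 548) (nat_lit 5) (nat_lit 238) (nat_lit 268) (nat_lit 274))) (PT.nd (nat_lit 78) (PT.lf (nat_lit 43320) (nat_lit 6) (nat_lit 570) (nat_lit 5) (nat_lit 239) (nat_lit 268) (nat_lit 273)) (PT.nd (nat_lit 78) (PT.lf (nat_lit 44916) (nat_lit 6) (nat_lit 591) (nat_lit 5) (nat_lit 240) (nat_lit 268) (nat_lit 272)) (PT.lf (nat_lit 46436) (nat_lit 6) (nat_lit 611) (nat_lit 5) (nat_lit 241) (nat_lit 268) (nat_lit 271))))))))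
noncomputable def pc64 : PT := (PT.nd (nat_lit 1326) (PT.nd (nat_lit 624) (PT.nd (nat_lit 312) (PT.nd (nat_lit 156) (PT.nd (nat_lit 78) (PT.lf (nat_lit 47880) (nat_lit 6) (nat_lit 630) (nat_lit 5) (nat_lit 242) (nat_lit 268) (nat_lit 270)) (PT.lf (nat_lit 49248) (nat_lit 6) (nat_lit 648) (nat_lit 5) (nat_lit 243) (nat_lit 268) (nat_lit 269))) (PT.nd (nat_lit 78) (PT.lf (nat_lit 50540) (nat_lit 3) (nat_lit 665) (nat_lit 4) (nat_lit 244) (nat_lit 268) (nat_lit 268)) (PT.lf (nat_lit 51680) (nat_lit 6) (nat_lit 680) (nat_lit 4) (nat_lit 245) (nat_lit 268) (nat_lit 267)))) (PT.nd (nat_lit 156) (PT.nd (nat_lit 78) (PT.lf (nat_lit 52744) (nat_lit 6) (nat_lit 694) (nat_lit 4) (nat_lit 246) (nat_lit 268) (nat_lit 266)) (PT.lf (nat_lit 53732) (nat_lit 6) (nat_lit 707) (nat_lit 4) (nat_lit 247) (nat_lit 268) (nat_lit 265))) (PT.nd (nat_lit 78) (PT.lf (nat_lit 54644) (nat_lit 6) (nat_lit 719) (nat_lit 4) (nat_lit 248) (nat_lit 268) (nat_lit 264)) (PT.lf (nat_lit 55480)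 (nat_lit 6) (nat_lit 730) (nat_lit 4) (nat_lit 249) (nat_lit 268) (nat_lit 263))))) (PT.nd (nat_lit 312) (PT.nd (nat_lit 156) (PT.nd (nat_lit 78) (PT.lf (nat_lit 56240) (nat_lit 6) (nat_lit 740) (nat_lit 4) (nat_lit 250) (nat_lit 268) (nat_lit 262)) (PT.lf (nat_lit 56924) (nat_lit 6) (nat_lit 749) (nat_lit 4) (nat_lit 251) (nat_lit 268) (nat_lit 261))) (PT.nd (nat_lit 78) (PT.lf (nat_lit 57532) (nat_lit 6) (nat_lit 757) (nat_lit 4) (nat_lit 252) (nat_lit 268) (nat_lit 260)) (PT.lf (nat_lit 57456) (nat_lit 6) (nat_lit 756) (nat_lit 4) (nat_lit 253) (nat_lit 268) (nat_lit 259)))) (PT.nd (nat_lit 156) (PT.nd (nat_lit 78) (PT.lf (nat_lit 57380) (nat_lit 6) (nat_lit 755) (nat_lit 4) (nat_lit 254) (nat_lit 268) (nat_lit 258)) (PT.lf (nat_lit 57304) (nat_lit 6) (nat_lit 754) (nat_lit 4) (nat_lit 255) (nat_lit 268) (nat_lit 257))) (PT.nd (nat_lit 78) (PT.lf (nat_lit 57228) (nat_lit 3) (nat_lit 753) (nat_lit 2) (nat_lit 256) (nat_lit 268) (nat_lit 256)) (PT.nd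 (nat_lit 78) (PT.lf (nat_lit 57304) (nat_lit 6) (nat_lit 754) (nat_lit 2) (nat_lit 257) (nat_lit 268) (nat_lit 255)) (PT.lf (nat_lit 57380) (nat_lit 6) (nat_lit 755) (nat_lit 2) (nat_lit 258) (nat_lit 268) (nat_lit 254))))))) (PT.nd (nat_lit 624) (PT.nd (nat_lit 312) (PT.nd (nat_lit 156) (PT.nd (nat_lit 78) (PT.lf (nat_lit 57456) (nat_lit 6) (nat_lit 756) (nat_lit 2) (nat_lit 259) (nat_lit 268) (nat_lit 253)) (PT.lf (nat_lit 57532) (nat_lit 6) (nat_lit 757) (nat_lit 2) (nat_lit 260) (nat_lit 268) (nat_lit 252))) (PT.nd (nat_lit 78) (PT.lf (nat_lit 56924) (nat_lit 6) (nat_lit 749) (nat_lit 2) (nat_lit 261) (nat_lit 268) (nat_lit 251)) (PT.lf (nat_lit 56240) (nat_lit 6) (nat_lit 740) (nat_lit 2) (nat_lit 262) (nat_lit 268) (nat_lit 250)))) (PT.nd (nat_lit 156) (PT.nd (nat_lit 78) (PT.lf (nat_lit 55480) (nat_lit 6) (nat_lit 730) (nat_lit 2) (nat_lit 263) (nat_lit 268) (nat_lit 249)) (PT.lf (nat_lit 54644) (nat_lit 6) (nat_lit 719) (nat_lit 2) (nat_lit 264)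 (nat_lit 268) (nat_lit 248))) (PT.nd (nat_lit 78) (PT.lf (nat_lit 53732) (nat_lit 6) (nat_lit 707) (nat_lit 2) (nat_lit 265) (nat_lit 268) (nat_lit 247)) (PT.lf (nat_lit 52744) (nat_lit 6) (nat_lit 694) (nat_lit 2) (nat_lit 266) (nat_lit 268) (nat_lit 246))))) (PT.nd (nat_lit 312) (PT.nd (nat_lit 156) (PT.nd (nat_lit 78) (PT.lf (nat_lit 51680) (nat_lit 6) (nat_lit 680) (nat_lit 2) (nat_lit 267) (nat_lit 268) (nat_lit 245)) (PT.lf (nat_lit 50540) (nat_lit 3) (nat_lit 665) (nat_lit 0) (nat_lit 268) (nat_lit 268) (nat_lit 244))) (PT.nd (nat_lit 78) (PT.lf (nat_lit 49248) (nat_lit 6) (nat_lit 648) (nat_lit 0) (nat_lit 269) (nat_lit 268) (nat_lit 243)) (PT.lf (nat_lit 47880) (nat_lit 6) (nat_lit 630) (nat_lit 0) (nat_lit 270) (nat_lit 268) (nat_lit 242)))) (PT.nd (nat_lit 156) (PT.nd (nat_lit 78) (PT.lf (nat_lit 46436) (nat_lit 6) (nat_lit 611) (nat_lit 0) (nat_lit 271) (nat_lit 268) (nat_lit 241)) (PT.lf (nat_lit 44916) (nat_lit 6) (nat_lit 591) (nat_lit 0)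 (nat_lit 272) (nat_lit 268) (nat_lit 240))) (PT.nd (nat_lit 78) (PT.lf (nat_lit 43320) (nat_lit 6) (nat_lit 570) (nat_lit 0) (nat_lit 273) (nat_lit 268) (nat_lit 239)) (PT.nd (nat_lit 78) (PT.lf (nat_lit 41648) (nat_lit 6) (nat_lit 548) (nat_lit 0) (nat_lit 274) (nat_lit 268) (nat_lit 238)) (PT.lf (nat_lit 39900) (nat_lit 6) (nat_lit 525) (nat_lit 0) (nat_lit 275) (nat_lit 268) (nat_lit 237))))))))
noncomputable def pc65 : PT := (PT.nd (nat_lit 77532) (PT.nd (nat_lit 624) (PT.nd (nat_lit 312) (PT.nd (nat_lit 156) (PT.nd (nat_lit 78) (PT.lf (nat_lit 38076) (nat_lit 6) (nat_lit 501) (nat_lit 0) (nat_lit 276) (nat_lit 268) (nat_lit 236)) (PT.lf (nat_lit 36176) (nat_lit 6) (nat_lit 476) (nat_lit 0) (nat_lit 277) (nat_lit 268) (nat_lit 235))) (PT.nd (nat_lit 78) (PT.lf (nat_lit 34960) (nat_lit 6) (nat_lit 460) (nat_lit 0) (nat_lit 278) (nat_lit 268) (nat_lit 234)) (PT.lf (nat_lit 33972) (nat_lit 6) (nat_lit 447) (nat_lit 0) (nat_lit 279) (nat_lit 268) (nat_lit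 233)))) (PT.nd (nat_lit 156) (PT.nd (nat_lit 78) (PT.lf (nat_lit 32984) (nat_lit 6) (nat_lit 434) (nat_lit 0) (nat_lit 280) (nat_lit 268) (nat_lit 232)) (PT.lf (nat_lit 32072) (nat_lit 6) (nat_lit 422) (nat_lit 0) (nat_lit 281) (nat_lit 268) (nat_lit 231))) (PT.nd (nat_lit 78) (PT.lf (nat_lit 31084) (nat_lit 6) (nat_lit 409) (nat_lit 0) (nat_lit 282) (nat_lit 268) (nat_lit 230)) (PT.lf (nat_lit 30172) (nat_lit 6) (nat_lit 397) (nat_lit 0) (nat_lit 283) (nat_lit 268) (nat_lit 229))))) (PT.nd (nat_lit 76518) (PT.nd (nat_lit 156) (PT.nd (nat_lit 78) (PT.lf (nat_lit 29260) (nat_lit 6) (nat_lit 385) (nat_lit 0) (nat_lit 284) (nat_lit 268) (nat_lit 228)) (PT.lf (nat_lit 28424) (nat_lit 6) (nat_lit 374) (nat_lit 0) (nat_lit 285) (nat_lit 268) (nat_lit 227))) (PT.nd (nat_lit 78) (PT.lf (nat_lit 27588) (nat_lit 6) (nat_lit 363) (nat_lit 0) (nat_lit 286) (nat_lit 268) (nat_lit 226)) (PT.lf (nat_lit 26752) (nat_lit 6) (nat_lit 352) (nat_lit 0) (nat_lit 287) (nat_lit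 268) (nat_lit 225)))) (PT.nd (nat_lit 156) (PT.nd (nat_lit 78) (PT.lf (nat_lit 25992) (nat_lit 6) (nat_lit 342) (nat_lit 5) (nat_lit 224) (nat_lit 269) (nat_lit 287)) (PT.lf (nat_lit 26828) (nat_lit 6) (nat_lit 353) (nat_lit 5) (nat_lit 225) (nat_lit 269) (nat_lit 286))) (PT.nd (nat_lit 78) (PT.lf (nat_lit 27664) (nat_lit 6) (nat_lit 364) (nat_lit 5) (nat_lit 226) (nat_lit 269) (nat_lit 285)) (PT.nd (nat_lit 78) (PT.lf (nat_lit 28500) (nat_lit 6) (nat_lit 375) (nat_lit 5) (nat_lit 227) (nat_lit 269) (nat_lit 284)) (PT.lf (nat_lit 29336) (nat_lit 6) (nat_lit 386) (nat_lit 5) (nat_lit 228) (nat_lit 269) (nat_lit 283))))))) (PT.nd (nat_lit 702) (PT.nd (nat_lit 312) (PT.nd (nat_lit 156) (PT.nd (nat_lit 78) (PT.lf (nat_lit 30248) (nat_lit 6) (nat_lit 398) (nat_lit 5) (nat_lit 229) (nat_lit 269) (nat_lit 282)) (PT.lf (nat_lit 31160) (nat_lit 6) (nat_lit 410) (nat_lit 5) (nat_lit 230) (nat_lit 269) (nat_lit 281))) (PT.nd (nat_lit 78) (PT.lf (nat_lit 32148) (nat_lit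 6) (nat_lit 423) (nat_lit 5) (nat_lit 231) (nat_lit 269) (nat_lit 280)) (PT.lf (nat_lit 33060) (nat_lit 6) (nat_lit 435) (nat_lit 5) (nat_lit 232) (nat_lit 269) (nat_lit 279)))) (PT.nd (nat_lit 156) (PT.nd (nat_lit 78) (PT.lf (nat_lit 34048) (nat_lit 6) (nat_lit 448) (nat_lit 5) (nat_lit 233) (nat_lit 269) (nat_lit 278)) (PT.lf (nat_lit 35036) (nat_lit 6) (nat_lit 461) (nat_lit 5) (nat_lit 234) (nat_lit 269) (nat_lit 277))) (PT.nd (nat_lit 78) (PT.lf (nat_lit 36252) (nat_lit 6) (nat_lit 477) (nat_lit 5) (nat_lit 235) (nat_lit 269) (nat_lit 276)) (PT.nd (nat_lit 78) (PT.lf (nat_lit 38152) (nat_lit 6) (nat_lit 502) (nat_lit 5) (nat_lit 236) (nat_lit 269) (nat_lit 275)) (PT.lf (nat_lit 39976) (nat_lit 6) (nat_lit 526) (nat_lit 5) (nat_lit 237) (nat_lit 269) (nat_lit 274)))))) (PT.nd (nat_lit 312) (PT.nd (nat_lit 156) (PT.nd (nat_lit 78) (PT.lf (nat_lit 41724) (nat_lit 6) (nat_lit 549) (nat_lit 5) (nat_lit 238) (nat_lit 269) (nat_lit 273)) (PT.lf (nat_lit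 43396) (nat_lit 6) (nat_lit 571) (nat_lit 5) (nat_lit 239) (nat_lit 269) (nat_lit 272))) (PT.nd (nat_lit 78) (PT.lf (nat_lit 44992) (nat_lit 6) (nat_lit 592) (nat_lit 5) (nat_lit 240) (nat_lit 269) (nat_lit 271)) (PT.lf (nat_lit 46512) (nat_lit 6) (nat_lit 612) (nat_lit 5) (nat_lit 241) (nat_lit 269) (nat_lit 270)))) (PT.nd (nat_lit 156) (PT.nd (nat_lit 78) (PT.lf (nat_lit 47956) (nat_lit 3) (nat_lit 631) (nat_lit 4) (nat_lit 242) (nat_lit 269) (nat_lit 269)) (PT.lf (nat_lit 49248) (nat_lit 6) (nat_lit 648) (nat_lit 4) (nat_lit 243) (nat_lit 269) (nat_lit 268))) (PT.nd (nat_lit 78) (PT.lf (nat_lit 50464) (nat_lit 6) (nat_lit 664) (nat_lit 4) (nat_lit 244) (nat_lit 269) (nat_lit 267)) (PT.nd (nat_lit 78) (PT.lf (nat_lit 51604) (nat_lit 6) (nat_lit 679) (nat_lit 4) (nat_lit 245) (nat_lit 269) (nat_lit 266)) (PT.lf (nat_lit 52668) (nat_lit 6) (nat_lit 693) (nat_lit 4) (nat_lit 246) (nat_lit 269) (nat_lit 265))))))))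
noncomputable def pc66 : PT := (PT.nd (nat_lit 1326) (PT.nd (nat_lit 624) (PT.nd (nat_lit 312) (PT.nd (nat_lit 156) (PT.nd (nat_lit 78) (PT.lf (nat_lit 53656) (nat_lit 6) (nat_lit 706) (nat_lit 4) (nat_lit 247) (nat_lit 269) (nat_lit 264)) (PT.lf (nat_lit 54568) (nat_lit 6) (nat_lit 718) (nat_lit 4) (nat_lit 248) (nat_lit 269) (nat_lit 263))) (PT.nd (nat_lit 78) (PT.lf (nat_lit 55404) (nat_lit 6) (nat_lit 729) (nat_lit 4) (nat_lit 249) (nat_lit 269) (nat_lit 262)) (PT.lf (nat_lit 56164) (nat_lit 6) (nat_lit 739) (nat_lit 4) (nat_lit 250) (nat_lit 269) (nat_lit 261)))) (PT.nd (nat_lit 156) (PT.nd (nat_lit 78) (PT.lf (nat_lit 56848) (nat_lit 6) (nat_lit 748) (nat_lit 4) (nat_lit 251) (nat_lit 269) (nat_lit 260)) (PT.lf (nat_lit 56772) (nat_lit 6) (nat_lit 747) (nat_lit 4) (nat_lit 252) (nat_lit 269) (nat_lit 259))) (PT.nd (nat_lit 78) (PT.lf (nat_lit 56696) (nat_lit 6) (nat_lit 746) (nat_lit 4) (nat_lit 253) (nat_lit 269) (nat_lit 258)) (PT.lf (nat_lit 56620)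 (nat_lit 6) (nat_lit 745) (nat_lit 4) (nat_lit 254) (nat_lit 269) (nat_lit 257))))) (PT.nd (nat_lit 312) (PT.nd (nat_lit 156) (PT.nd (nat_lit 78) (PT.lf (nat_lit 56544) (nat_lit 6) (nat_lit 744) (nat_lit 4) (nat_lit 255) (nat_lit 269) (nat_lit 256)) (PT.lf (nat_lit 56544) (nat_lit 6) (nat_lit 744) (nat_lit 2) (nat_lit 256) (nat_lit 269) (nat_lit 255))) (PT.nd (nat_lit 78) (PT.lf (nat_lit 56620) (nat_lit 6) (nat_lit 745) (nat_lit 2) (nat_lit 257) (nat_lit 269) (nat_lit 254)) (PT.lf (nat_lit 56696) (nat_lit 6) (nat_lit 746) (nat_lit 2) (nat_lit 258) (nat_lit 269) (nat_lit 253)))) (PT.nd (nat_lit 156) (PT.nd (nat_lit 78) (PT.lf (nat_lit 56772) (nat_lit 6) (nat_lit 747) (nat_lit 2) (nat_lit 259) (nat_lit 269) (nat_lit 252)) (PT.lf (nat_lit 56848) (nat_lit 6) (nat_lit 748) (nat_lit 2) (nat_lit 260) (nat_lit 269) (nat_lit 251))) (PT.nd (nat_lit 78) (PT.lf (nat_lit 56164) (nat_lit 6) (nat_lit 739) (nat_lit 2) (nat_lit 261) (nat_lit 269) (nat_lit 250)) (PT.nd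 (nat_lit 78) (PT.lf (nat_lit 55404) (nat_lit 6) (nat_lit 729) (nat_lit 2) (nat_lit 262) (nat_lit 269) (nat_lit 249)) (PT.lf (nat_lit 54568) (nat_lit 6) (nat_lit 718) (nat_lit 2) (nat_lit 263) (nat_lit 269) (nat_lit 248))))))) (PT.nd (nat_lit 702) (PT.nd (nat_lit 312) (PT.nd (nat_lit 156) (PT.nd (nat_lit 78) (PT.lf (nat_lit 53656) (nat_lit 6) (nat_lit 706) (nat_lit 2) (nat_lit 264) (nat_lit 269) (nat_lit 247)) (PT.lf (nat_lit 52668) (nat_lit 6) (nat_lit 693) (nat_lit 2) (nat_lit 265) (nat_lit 269) (nat_lit 246))) (PT.nd (nat_lit 78) (PT.lf (nat_lit 51604) (nat_lit 6) (nat_lit 679) (nat_lit 2) (nat_lit 266) (nat_lit 269) (nat_lit 245)) (PT.lf (nat_lit 50464) (nat_lit 6) (nat_lit 664) (nat_lit 2) (nat_lit 267) (nat_lit 269) (nat_lit 244)))) (PT.nd (nat_lit 156) (PT.nd (nat_lit 78) (PT.lf (nat_lit 49248) (nat_lit 6) (nat_lit 648) (nat_lit 2) (nat_lit 268) (nat_lit 269) (nat_lit 243)) (PT.lf (nat_lit 47956) (nat_lit 3) (nat_lit 631) (nat_lit 0) (nat_lit 269)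 (nat_lit 269) (nat_lit 242))) (PT.nd (nat_lit 78) (PT.lf (nat_lit 46512) (nat_lit 6) (nat_lit 612) (nat_lit 0) (nat_lit 270) (nat_lit 269) (nat_lit 241)) (PT.nd (nat_lit 78) (PT.lf (nat_lit 44992) (nat_lit 6) (nat_lit 592) (nat_lit 0) (nat_lit 271) (nat_lit 269) (nat_lit 240)) (PT.lf (nat_lit 43396) (nat_lit 6) (nat_lit 571) (nat_lit 0) (nat_lit 272) (nat_lit 269) (nat_lit 239)))))) (PT.nd (nat_lit 312) (PT.nd (nat_lit 156) (PT.nd (nat_lit 78) (PT.lf (nat_lit 41724) (nat_lit 6) (nat_lit 549) (nat_lit 0) (nat_lit 273) (nat_lit 269) (nat_lit 238)) (PT.lf (nat_lit 39976) (nat_lit 6) (nat_lit 526) (nat_lit 0) (nat_lit 274) (nat_lit 269) (nat_lit 237))) (PT.nd (nat_lit 78) (PT.lf (nat_lit 38152) (nat_lit 6) (nat_lit 502) (nat_lit 0) (nat_lit 275) (nat_lit 269) (nat_lit 236)) (PT.lf (nat_lit 36252) (nat_lit 6) (nat_lit 477) (nat_lit 0) (nat_lit 276) (nat_lit 269) (nat_lit 235)))) (PT.nd (nat_lit 156) (PT.nd (nat_lit 78) (PT.lf (nat_lit 35036) (nat_lit 6) (nat_lit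 461) (nat_lit 0) (nat_lit 277) (nat_lit 269) (nat_lit 234)) (PT.lf (nat_lit 34048) (nat_lit 6) (nat_lit 448) (nat_lit 0) (nat_lit 278) (nat_lit 269) (nat_lit 233))) (PT.nd (nat_lit 78) (PT.lf (nat_lit 33060) (nat_lit 6) (nat_lit 435) (nat_lit 0) (nat_lit 279) (nat_lit 269) (nat_lit 232)) (PT.nd (nat_lit 78) (PT.lf (nat_lit 32148) (nat_lit 6) (nat_lit 423) (nat_lit 0) (nat_lit 280) (nat_lit 269) (nat_lit 231)) (PT.lf (nat_lit 31160) (nat_lit 6) (nat_lit 410) (nat_lit 0) (nat_lit 281) (nat_lit 269) (nat_lit 230))))))))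
noncomputable def pc67 : PT := (PT.nd (nat_lit 77376) (PT.nd (nat_lit 76674) (PT.nd (nat_lit 312) (PT.nd (nat_lit 156) (PT.nd (nat_lit 78) (PT.lf (nat_lit 30248) (nat_lit 6) (nat_lit 398) (nat_lit 0) (nat_lit 282) (nat_lit 269) (nat_lit 229)) (PT.lf (nat_lit 29336) (nat_lit 6) (nat_lit 386) (nat_lit 0) (nat_lit 283) (nat_lit 269) (nat_lit 228))) (PT.nd (nat_lit 78) (PT.lf (nat_lit 28500) (nat_lit 6) (nat_lit 375) (nat_lit 0) (nat_lit 284) (nat_lit 269) (nat_lit 227)) (PT.lf (nat_lit 27664) (nat_lit 6) (nat_lit 364) (nat_lit 0) (nat_lit 285) (nat_lit 269) (nat_lit 226)))) (PT.nd (nat_lit 76206) (PT.nd (nat_lit 78) (PT.lf (nat_lit 26828) (nat_lit 6) (nat_lit 353) (nat_lit 0) (nat_lit 286) (nat_lit 269) (nat_lit 225)) (PT.lf (nat_lit 25992) (nat_lit 6) (nat_lit 342) (nat_lit 0) (nat_lit 287) (nat_lit 269) (nat_lit 224))) (PT.nd (nat_lit 78) (PT.lf (nat_lit 24548) (nat_lit 6) (nat_lit 323) (nat_lit 5) (nat_lit 222) (nat_lit 270) (nat_lit 288)) (PT.lf (nat_lit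 25308) (nat_lit 6) (nat_lit 333) (nat_lit 5) (nat_lit 223) (nat_lit 270) (nat_lit 287))))) (PT.nd (nat_lit 312) (PT.nd (nat_lit 156) (PT.nd (nat_lit 78) (PT.lf (nat_lit 26068) (nat_lit 6) (nat_lit 343) (nat_lit 5) (nat_lit 224) (nat_lit 270) (nat_lit 286)) (PT.lf (nat_lit 26904) (nat_lit 6) (nat_lit 354) (nat_lit 5) (nat_lit 225) (nat_lit 270) (nat_lit 285))) (PT.nd (nat_lit 78) (PT.lf (nat_lit 27740) (nat_lit 6) (nat_lit 365) (nat_lit 5) (nat_lit 226) (nat_lit 270) (nat_lit 284)) (PT.lf (nat_lit 28576) (nat_lit 6) (nat_lit 376) (nat_lit 5) (nat_lit 227) (nat_lit 270) (nat_lit 283)))) (PT.nd (nat_lit 156) (PT.nd (nat_lit 78) (PT.lf (nat_lit 29412) (nat_lit 6) (nat_lit 387) (nat_lit 5) (nat_lit 228) (nat_lit 270) (nat_lit 282)) (PT.lf (nat_lit 30324) (nat_lit 6) (nat_lit 399) (nat_lit 5) (nat_lit 229) (nat_lit 270) (nat_lit 281))) (PT.nd (nat_lit 78) (PT.lf (nat_lit 31236) (nat_lit 6) (nat_lit 411) (nat_lit 5) (nat_lit 230) (nat_lit 270) (nat_lit 280))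 (PT.nd (nat_lit 78) (PT.lf (nat_lit 32224) (nat_lit 6) (nat_lit 424) (nat_lit 5) (nat_lit 231) (nat_lit 270) (nat_lit 279)) (PT.lf (nat_lit 33136) (nat_lit 6) (nat_lit 436) (nat_lit 5) (nat_lit 232) (nat_lit 270) (nat_lit 278))))))) (PT.nd (nat_lit 702) (PT.nd (nat_lit 312) (PT.nd (nat_lit 156) (PT.nd (nat_lit 78) (PT.lf (nat_lit 34124) (nat_lit 6) (nat_lit 449) (nat_lit 5) (nat_lit 233) (nat_lit 270) (nat_lit 277)) (PT.lf (nat_lit 35112) (nat_lit 6) (nat_lit 462) (nat_lit 5) (nat_lit 234) (nat_lit 270) (nat_lit 276))) (PT.nd (nat_lit 78) (PT.lf (nat_lit 36328) (nat_lit 6) (nat_lit 478) (nat_lit 5) (nat_lit 235) (nat_lit 270) (nat_lit 275)) (PT.lf (nat_lit 38228) (nat_lit 6) (nat_lit 503) (nat_lit 5) (nat_lit 236) (nat_lit 270) (nat_lit 274)))) (PT.nd (nat_lit 156) (PT.nd (nat_lit 78) (PT.lf (nat_lit 40052) (nat_lit 6) (nat_lit 527) (nat_lit 5) (nat_lit 237) (nat_lit 270) (nat_lit 273)) (PT.lf (nat_lit 41800) (nat_lit 6) (nat_lit 550) (nat_lit 5) (nat_lit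 238) (nat_lit 270) (nat_lit 272))) (PT.nd (nat_lit 78) (PT.lf (nat_lit 43472) (nat_lit 6) (nat_lit 572) (nat_lit 5) (nat_lit 239) (nat_lit 270) (nat_lit 271)) (PT.nd (nat_lit 78) (PT.lf (nat_lit 45068) (nat_lit 3) (nat_lit 593) (nat_lit 4) (nat_lit 240) (nat_lit 270) (nat_lit 270)) (PT.lf (nat_lit 46512) (nat_lit 6) (nat_lit 612) (nat_lit 4) (nat_lit 241) (nat_lit 270) (nat_lit 269)))))) (PT.nd (nat_lit 312) (PT.nd (nat_lit 156) (PT.nd (nat_lit 78) (PT.lf (nat_lit 47880) (nat_lit 6) (nat_lit 630) (nat_lit 4) (nat_lit 242) (nat_lit 270) (nat_lit 268)) (PT.lf (nat_lit 49172) (nat_lit 6) (nat_lit 647) (nat_lit 4) (nat_lit 243) (nat_lit 270) (nat_lit 267))) (PT.nd (nat_lit 78) (PT.lf (nat_lit 50388) (nat_lit 6) (nat_lit 663) (nat_lit 4) (nat_lit 244) (nat_lit 270) (nat_lit 266)) (PT.lf (nat_lit 51528) (nat_lit 6) (nat_lit 678) (nat_lit 4) (nat_lit 245) (nat_lit 270) (nat_lit 265)))) (PT.nd (nat_lit 156) (PT.nd (nat_lit 78) (PT.lf (nat_lit 52592) (nat_lit 6)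 (nat_lit 692) (nat_lit 4) (nat_lit 246) (nat_lit 270) (nat_lit 264)) (PT.lf (nat_lit 53580) (nat_lit 6) (nat_lit 705) (nat_lit 4) (nat_lit 247) (nat_lit 270) (nat_lit 263))) (PT.nd (nat_lit 78) (PT.lf (nat_lit 54492) (nat_lit 6) (nat_lit 717) (nat_lit 4) (nat_lit 248) (nat_lit 270) (nat_lit 262)) (PT.nd (nat_lit 78) (PT.lf (nat_lit 55328) (nat_lit 6) (nat_lit 728) (nat_lit 4) (nat_lit 249) (nat_lit 270) (nat_lit 261)) (PT.lf (nat_lit 56088) (nat_lit 6) (nat_lit 738) (nat_lit 4) (nat_lit 250) (nat_lit 270) (nat_lit 260))))))))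
noncomputable def pc68 : PT := (PT.nd (nat_lit 1326) (PT.nd (nat_lit 624) (PT.nd (nat_lit 312) (PT.nd (nat_lit 156) (PT.nd (nat_lit 78) (PT.lf (nat_lit 56012) (nat_lit 6) (nat_lit 737) (nat_lit 4) (nat_lit 251) (nat_lit 270) (nat_lit 259)) (PT.lf (nat_lit 55936) (nat_lit 6) (nat_lit 736) (nat_lit 4) (nat_lit 252) (nat_lit 270) (nat_lit 258))) (PT.nd (nat_lit 78) (PT.lf (nat_lit 55860) (nat_lit 6) (nat_lit 735) (nat_lit 4) (nat_lit 253) (nat_lit 270) (nat_lit 257)) (PT.lf (nat_lit 55784) (nat_lit 6) (nat_lit 734) (nat_lit 4) (nat_lit 254) (nat_lit 270) (nat_lit 256)))) (PT.nd (nat_lit 156) (PT.nd (nat_lit 78) (PT.lf (nat_lit 55708) (nat_lit 3) (nat_lit 733) (nat_lit 2) (nat_lit 255) (nat_lit 270) (nat_lit 255)) (PT.lf (nat_lit 55784) (nat_lit 6) (nat_lit 734) (nat_lit 2) (nat_lit 256) (nat_lit 270) (nat_lit 254))) (PT.nd (nat_lit 78) (PT.lf (nat_lit 55860) (nat_lit 6) (nat_lit 735) (nat_lit 2) (nat_lit 257) (nat_lit 270) (nat_lit 253)) (PT.lf (nat_lit 55936)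 (nat_lit 6) (nat_lit 736) (nat_lit 2) (nat_lit 258) (nat_lit 270) (nat_lit 252))))) (PT.nd (nat_lit 312) (PT.nd (nat_lit 156) (PT.nd (nat_lit 78) (PT.lf (nat_lit 56012) (nat_lit 6) (nat_lit 737) (nat_lit 2) (nat_lit 259) (nat_lit 270) (nat_lit 251)) (PT.lf (nat_lit 56088) (nat_lit 6) (nat_lit 738) (nat_lit 2) (nat_lit 260) (nat_lit 270) (nat_lit 250))) (PT.nd (nat_lit 78) (PT.lf (nat_lit 55328) (nat_lit 6) (nat_lit 728) (nat_lit 2) (nat_lit 261) (nat_lit 270) (nat_lit 249)) (PT.lf (nat_lit 54492) (nat_lit 6) (nat_lit 717) (nat_lit 2) (nat_lit 262) (nat_lit 270) (nat_lit 248)))) (PT.nd (nat_lit 156) (PT.nd (nat_lit 78) (PT.lf (nat_lit 53580) (nat_lit 6) (nat_lit 705) (nat_lit 2) (nat_lit 263) (nat_lit 270) (nat_lit 247)) (PT.lf (nat_lit 52592) (nat_lit 6) (nat_lit 692) (nat_lit 2) (nat_lit 264) (nat_lit 270) (nat_lit 246))) (PT.nd (nat_lit 78) (PT.lf (nat_lit 51528) (nat_lit 6) (nat_lit 678) (nat_lit 2) (nat_lit 265) (nat_lit 270) (nat_lit 245)) (PT.nd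 (nat_lit 78) (PT.lf (nat_lit 50388) (nat_lit 6) (nat_lit 663) (nat_lit 2) (nat_lit 266) (nat_lit 270) (nat_lit 244)) (PT.lf (nat_lit 49172) (nat_lit 6) (nat_lit 647) (nat_lit 2) (nat_lit 267) (nat_lit 270) (nat_lit 243))))))) (PT.nd (nat_lit 702) (PT.nd (nat_lit 312) (PT.nd (nat_lit 156) (PT.nd (nat_lit 78) (PT.lf (nat_lit 47880) (nat_lit 6) (nat_lit 630) (nat_lit 2) (nat_lit 268) (nat_lit 270) (nat_lit 242)) (PT.lf (nat_lit 46512) (nat_lit 6) (nat_lit 612) (nat_lit 2) (nat_lit 269) (nat_lit 270) (nat_lit 241))) (PT.nd (nat_lit 78) (PT.lf (nat_lit 45068) (nat_lit 3) (nat_lit 593) (nat_lit 0) (nat_lit 270) (nat_lit 270) (nat_lit 240)) (PT.lf (nat_lit 43472) (nat_lit 6) (nat_lit 572) (nat_lit 0) (nat_lit 271) (nat_lit 270) (nat_lit 239)))) (PT.nd (nat_lit 156) (PT.nd (nat_lit 78) (PT.lf (nat_lit 41800) (nat_lit 6) (nat_lit 550) (nat_lit 0) (nat_lit 272) (nat_lit 270) (nat_lit 238)) (PT.lf (nat_lit 40052) (nat_lit 6) (nat_lit 527) (nat_lit 0) (nat_lit 273)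 (nat_lit 270) (nat_lit 237))) (PT.nd (nat_lit 78) (PT.lf (nat_lit 38228) (nat_lit 6) (nat_lit 503) (nat_lit 0) (nat_lit 274) (nat_lit 270) (nat_lit 236)) (PT.nd (nat_lit 78) (PT.lf (nat_lit 36328) (nat_lit 6) (nat_lit 478) (nat_lit 0) (nat_lit 275) (nat_lit 270) (nat_lit 235)) (PT.lf (nat_lit 35112) (nat_lit 6) (nat_lit 462) (nat_lit 0) (nat_lit 276) (nat_lit 270) (nat_lit 234)))))) (PT.nd (nat_lit 312) (PT.nd (nat_lit 156) (PT.nd (nat_lit 78) (PT.lf (nat_lit 34124) (nat_lit 6) (nat_lit 449) (nat_lit 0) (nat_lit 277) (nat_lit 270) (nat_lit 233)) (PT.lf (nat_lit 33136) (nat_lit 6) (nat_lit 436) (nat_lit 0) (nat_lit 278) (nat_lit 270) (nat_lit 232))) (PT.nd (nat_lit 78) (PT.lf (nat_lit 32224) (nat_lit 6) (nat_lit 424) (nat_lit 0) (nat_lit 279) (nat_lit 270) (nat_lit 231)) (PT.lf (nat_lit 31236) (nat_lit 6) (nat_lit 411) (nat_lit 0) (nat_lit 280) (nat_lit 270) (nat_lit 230)))) (PT.nd (nat_lit 156) (PT.nd (nat_lit 78) (PT.lf (nat_lit 30324) (nat_lit 6) (nat_lit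 399) (nat_lit 0) (nat_lit 281) (nat_lit 270) (nat_lit 229)) (PT.lf (nat_lit 29412) (nat_lit 6) (nat_lit 387) (nat_lit 0) (nat_lit 282) (nat_lit 270) (nat_lit 228))) (PT.nd (nat_lit 78) (PT.lf (nat_lit 28576) (nat_lit 6) (nat_lit 376) (nat_lit 0) (nat_lit 283) (nat_lit 270) (nat_lit 227)) (PT.nd (nat_lit 78) (PT.lf (nat_lit 27740) (nat_lit 6) (nat_lit 365) (nat_lit 0) (nat_lit 284) (nat_lit 270) (nat_lit 226)) (PT.lf (nat_lit 26904) (nat_lit 6) (nat_lit 354) (nat_lit 0) (nat_lit 285) (nat_lit 270) (nat_lit 225))))))))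
noncomputable def pc69 : PT := (PT.nd (nat_lit 77220) (PT.nd (nat_lit 76518) (PT.nd (nat_lit 76206) (PT.nd (nat_lit 156) (PT.nd (nat_lit 78) (PT.lf (nat_lit 26068) (nat_lit 6) (nat_lit 343) (nat_lit 0) (nat_lit 286) (nat_lit 270) (nat_lit 224)) (PT.lf (nat_lit 25308) (nat_lit 6) (nat_lit 333) (nat_lit 0) (nat_lit 287) (nat_lit 270) (nat_lit 223))) (PT.nd (nat_lit 75972) (PT.lf (nat_lit 24548) (nat_lit 6) (nat_lit 323) (nat_lit 0) (nat_lit 288) (nat_lit 270) (nat_lit 222)) (PT.lf (nat_lit 23864) (nat_lit 6) (nat_lit 314) (nat_lit 5) (nat_lit 221) (nat_lit 271) (nat_lit 288)))) (PT.nd (nat_lit 156) (PT.nd (nat_lit 78) (PT.lf (nat_lit 24624) (nat_lit 6) (nat_lit 324) (nat_lit 5) (nat_lit 222) (nat_lit 271) (nat_lit 287)) (PT.lf (nat_lit 25384) (nat_lit 6) (nat_lit 334) (nat_lit 5) (nat_lit 223) (nat_lit 271) (nat_lit 286))) (PT.nd (nat_lit 78) (PT.lf (nat_lit 26144) (nat_lit 6) (nat_lit 344) (nat_lit 5) (nat_lit 224) (nat_lit 271) (nat_lit 285)) (PT.lf (nat_lit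 26980) (nat_lit 6) (nat_lit 355) (nat_lit 5) (nat_lit 225) (nat_lit 271) (nat_lit 284))))) (PT.nd (nat_lit 312) (PT.nd (nat_lit 156) (PT.nd (nat_lit 78) (PT.lf (nat_lit 27816) (nat_lit 6) (nat_lit 366) (nat_lit 5) (nat_lit 226) (nat_lit 271) (nat_lit 283)) (PT.lf (nat_lit 28652) (nat_lit 6) (nat_lit 377) (nat_lit 5) (nat_lit 227) (nat_lit 271) (nat_lit 282))) (PT.nd (nat_lit 78) (PT.lf (nat_lit 29488) (nat_lit 6) (nat_lit 388) (nat_lit 5) (nat_lit 228) (nat_lit 271) (nat_lit 281)) (PT.lf (nat_lit 30400) (nat_lit 6) (nat_lit 400) (nat_lit 5) (nat_lit 229) (nat_lit 271) (nat_lit 280)))) (PT.nd (nat_lit 156) (PT.nd (nat_lit 78) (PT.lf (nat_lit 31312) (nat_lit 6) (nat_lit 412) (nat_lit 5) (nat_lit 230) (nat_lit 271) (nat_lit 279)) (PT.lf (nat_lit 32300) (nat_lit 6) (nat_lit 425) (nat_lit 5) (nat_lit 231) (nat_lit 271) (nat_lit 278))) (PT.nd (nat_lit 78) (PT.lf (nat_lit 33212) (nat_lit 6) (nat_lit 437) (nat_lit 5) (nat_lit 232) (nat_lit 271) (nat_lit 277))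 (PT.nd (nat_lit 78) (PT.lf (nat_lit 34200) (nat_lit 6) (nat_lit 450) (nat_lit 5) (nat_lit 233) (nat_lit 271) (nat_lit 276)) (PT.lf (nat_lit 35188) (nat_lit 6) (nat_lit 463) (nat_lit 5) (nat_lit 234) (nat_lit 271) (nat_lit 275))))))) (PT.nd (nat_lit 702) (PT.nd (nat_lit 312) (PT.nd (nat_lit 156) (PT.nd (nat_lit 78) (PT.lf (nat_lit 36404) (nat_lit 6) (nat_lit 479) (nat_lit 5) (nat_lit 235) (nat_lit 271) (nat_lit 274)) (PT.lf (nat_lit 38304) (nat_lit 6) (nat_lit 504) (nat_lit 5) (nat_lit 236) (nat_lit 271) (nat_lit 273))) (PT.nd (nat_lit 78) (PT.lf (nat_lit 40128) (nat_lit 6) (nat_lit 528) (nat_lit 5) (nat_lit 237) (nat_lit 271) (nat_lit 272)) (PT.lf (nat_lit 41876) (nat_lit 3) (nat_lit 551) (nat_lit 4) (nat_lit 238) (nat_lit 271) (nat_lit 271)))) (PT.nd (nat_lit 156) (PT.nd (nat_lit 78) (PT.lf (nat_lit 43472) (nat_lit 6) (nat_lit 572) (nat_lit 4) (nat_lit 239) (nat_lit 271) (nat_lit 270)) (PT.lf (nat_lit 44992) (nat_lit 6) (nat_lit 592) (nat_lit 4) (nat_lit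 240) (nat_lit 271) (nat_lit 269))) (PT.nd (nat_lit 78) (PT.lf (nat_lit 46436) (nat_lit 6) (nat_lit 611) (nat_lit 4) (nat_lit 241) (nat_lit 271) (nat_lit 268)) (PT.nd (nat_lit 78) (PT.lf (nat_lit 47804) (nat_lit 6) (nat_lit 629) (nat_lit 4) (nat_lit 242) (nat_lit 271) (nat_lit 267)) (PT.lf (nat_lit 49096) (nat_lit 6) (nat_lit 646) (nat_lit 4) (nat_lit 243) (nat_lit 271) (nat_lit 266)))))) (PT.nd (nat_lit 312) (PT.nd (nat_lit 156) (PT.nd (nat_lit 78) (PT.lf (nat_lit 50312) (nat_lit 6) (nat_lit 662) (nat_lit 4) (nat_lit 244) (nat_lit 271) (nat_lit 265)) (PT.lf (nat_lit 51452) (nat_lit 6) (nat_lit 677) (nat_lit 4) (nat_lit 245) (nat_lit 271) (nat_lit 264))) (PT.nd (nat_lit 78) (PT.lf (nat_lit 52516) (nat_lit 6) (nat_lit 691) (nat_lit 4) (nat_lit 246) (nat_lit 271) (nat_lit 263)) (PT.lf (nat_lit 53504) (nat_lit 6) (nat_lit 704) (nat_lit 4) (nat_lit 247) (nat_lit 271) (nat_lit 262)))) (PT.nd (nat_lit 156) (PT.nd (nat_lit 78) (PT.lf (nat_lit 54416) (nat_lit 6)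 (nat_lit 716) (nat_lit 4) (nat_lit 248) (nat_lit 271) (nat_lit 261)) (PT.lf (nat_lit 55252) (nat_lit 6) (nat_lit 727) (nat_lit 4) (nat_lit 249) (nat_lit 271) (nat_lit 260))) (PT.nd (nat_lit 78) (PT.lf (nat_lit 55176) (nat_lit 6) (nat_lit 726) (nat_lit 4) (nat_lit 250) (nat_lit 271) (nat_lit 259)) (PT.nd (nat_lit 78) (PT.lf (nat_lit 55100) (nat_lit 6) (nat_lit 725) (nat_lit 4) (nat_lit 251) (nat_lit 271) (nat_lit 258)) (PT.lf (nat_lit 55024) (nat_lit 6) (nat_lit 724) (nat_lit 4) (nat_lit 252) (nat_lit 271) (nat_lit 257))))))))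
noncomputable def pc70 : PT := (PT.nd (nat_lit 1326) (PT.nd (nat_lit 624) (PT.nd (nat_lit 312) (PT.nd (nat_lit 156) (PT.nd (nat_lit 78) (PT.lf (nat_lit 54948) (nat_lit 6) (nat_lit 723) (nat_lit 4) (nat_lit 253) (nat_lit 271) (nat_lit 256)) (PT.lf (nat_lit 54872) (nat_lit 6) (nat_lit 722) (nat_lit 4) (nat_lit 254) (nat_lit 271) (nat_lit 255))) (PT.nd (nat_lit 78) (PT.lf (nat_lit 54872) (nat_lit 6) (nat_lit 722) (nat_lit 2) (nat_lit 255) (nat_lit 271) (nat_lit 254)) (PT.lf (nat_lit 54948) (nat_lit 6) (nat_lit 723) (nat_lit 2) (nat_lit 256) (nat_lit 271) (nat_lit 253)))) (PT.nd (nat_lit 156) (PT.nd (nat_lit 78) (PT.lf (nat_lit 55024) (nat_lit 6) (nat_lit 724) (nat_lit 2) (nat_lit 257) (nat_lit 271) (nat_lit 252)) (PT.lf (nat_lit 55100) (nat_lit 6) (nat_lit 725) (nat_lit 2) (nat_lit 258) (nat_lit 271) (nat_lit 251))) (PT.nd (nat_lit 78) (PT.lf (nat_lit 55176) (nat_lit 6) (nat_lit 726) (nat_lit 2) (nat_lit 259) (nat_lit 271) (nat_lit 250)) (PT.lf (nat_lit 55252)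 (nat_lit 6) (nat_lit 727) (nat_lit 2) (nat_lit 260) (nat_lit 271) (nat_lit 249))))) (PT.nd (nat_lit 312) (PT.nd (nat_lit 156) (PT.nd (nat_lit 78) (PT.lf (nat_lit 54416) (nat_lit 6) (nat_lit 716) (nat_lit 2) (nat_lit 261) (nat_lit 271) (nat_lit 248)) (PT.lf (nat_lit 53504) (nat_lit 6) (nat_lit 704) (nat_lit 2) (nat_lit 262) (nat_lit 271) (nat_lit 247))) (PT.nd (nat_lit 78) (PT.lf (nat_lit 52516) (nat_lit 6) (nat_lit 691) (nat_lit 2) (nat_lit 263) (nat_lit 271) (nat_lit 246)) (PT.lf (nat_lit 51452) (nat_lit 6) (nat_lit 677) (nat_lit 2) (nat_lit 264) (nat_lit 271) (nat_lit 245)))) (PT.nd (nat_lit 156) (PT.nd (nat_lit 78) (PT.lf (nat_lit 50312) (nat_lit 6) (nat_lit 662) (nat_lit 2) (nat_lit 265) (nat_lit 271) (nat_lit 244)) (PT.lf (nat_lit 49096) (nat_lit 6) (nat_lit 646) (nat_lit 2) (nat_lit 266) (nat_lit 271) (nat_lit 243))) (PT.nd (nat_lit 78) (PT.lf (nat_lit 47804) (nat_lit 6) (nat_lit 629) (nat_lit 2) (nat_lit 267) (nat_lit 271) (nat_lit 242)) (PT.nd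 (nat_lit 78) (PT.lf (nat_lit 46436) (nat_lit 6) (nat_lit 611) (nat_lit 2) (nat_lit 268) (nat_lit 271) (nat_lit 241)) (PT.lf (nat_lit 44992) (nat_lit 6) (nat_lit 592) (nat_lit 2) (nat_lit 269) (nat_lit 271) (nat_lit 240))))))) (PT.nd (nat_lit 702) (PT.nd (nat_lit 312) (PT.nd (nat_lit 156) (PT.nd (nat_lit 78) (PT.lf (nat_lit 43472) (nat_lit 6) (nat_lit 572) (nat_lit 2) (nat_lit 270) (nat_lit 271) (nat_lit 239)) (PT.lf (nat_lit 41876) (nat_lit 3) (nat_lit 551) (nat_lit 0) (nat_lit 271) (nat_lit 271) (nat_lit 238))) (PT.nd (nat_lit 78) (PT.lf (nat_lit 40128) (nat_lit 6) (nat_lit 528) (nat_lit 0) (nat_lit 272) (nat_lit 271) (nat_lit 237)) (PT.lf (nat_lit 38304) (nat_lit 6) (nat_lit 504) (nat_lit 0) (nat_lit 273) (nat_lit 271) (nat_lit 236)))) (PT.nd (nat_lit 156) (PT.nd (nat_lit 78) (PT.lf (nat_lit 36404) (nat_lit 6) (nat_lit 479) (nat_lit 0) (nat_lit 274) (nat_lit 271) (nat_lit 235)) (PT.lf (nat_lit 35188) (nat_lit 6) (nat_lit 463) (nat_lit 0) (nat_lit 275)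 (nat_lit 271) (nat_lit 234))) (PT.nd (nat_lit 78) (PT.lf (nat_lit 34200) (nat_lit 6) (nat_lit 450) (nat_lit 0) (nat_lit 276) (nat_lit 271) (nat_lit 233)) (PT.nd (nat_lit 78) (PT.lf (nat_lit 33212) (nat_lit 6) (nat_lit 437) (nat_lit 0) (nat_lit 277) (nat_lit 271) (nat_lit 232)) (PT.lf (nat_lit 32300) (nat_lit 6) (nat_lit 425) (nat_lit 0) (nat_lit 278) (nat_lit 271) (nat_lit 231)))))) (PT.nd (nat_lit 312) (PT.nd (nat_lit 156) (PT.nd (nat_lit 78) (PT.lf (nat_lit 31312) (nat_lit 6) (nat_lit 412) (nat_lit 0) (nat_lit 279) (nat_lit 271) (nat_lit 230)) (PT.lf (nat_lit 30400) (nat_lit 6) (nat_lit 400) (nat_lit 0) (nat_lit 280) (nat_lit 271) (nat_lit 229))) (PT.nd (nat_lit 78) (PT.lf (nat_lit 29488) (nat_lit 6) (nat_lit 388) (nat_lit 0) (nat_lit 281) (nat_lit 271) (nat_lit 228)) (PT.lf (nat_lit 28652) (nat_lit 6) (nat_lit 377) (nat_lit 0) (nat_lit 282) (nat_lit 271) (nat_lit 227)))) (PT.nd (nat_lit 156) (PT.nd (nat_lit 78) (PT.lf (nat_lit 27816) (nat_lit 6) (nat_lit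 366) (nat_lit 0) (nat_lit 283) (nat_lit 271) (nat_lit 226)) (PT.lf (nat_lit 26980) (nat_lit 6) (nat_lit 355) (nat_lit 0) (nat_lit 284) (nat_lit 271) (nat_lit 225))) (PT.nd (nat_lit 78) (PT.lf (nat_lit 26144) (nat_lit 6) (nat_lit 344) (nat_lit 0) (nat_lit 285) (nat_lit 271) (nat_lit 224)) (PT.nd (nat_lit 78) (PT.lf (nat_lit 25384) (nat_lit 6) (nat_lit 334) (nat_lit 0) (nat_lit 286) (nat_lit 271) (nat_lit 223)) (PT.lf (nat_lit 24624) (nat_lit 6) (nat_lit 324) (nat_lit 0) (nat_lit 287) (nat_lit 271) (nat_lit 222))))))))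
noncomputable def pc71 : PT := (PT.nd (nat_lit 77142) (PT.nd (nat_lit 76440) (PT.nd (nat_lit 76128) (PT.nd (nat_lit 75972) (PT.nd (nat_lit 75894) (PT.lf (nat_lit 23864) (nat_lit 6) (nat_lit 314) (nat_lit 0) (nat_lit 288) (nat_lit 271) (nat_lit 221)) (PT.lf (nat_lit 23180) (nat_lit 6) (nat_lit 305) (nat_lit 5) (nat_lit 220) (nat_lit 272) (nat_lit 288))) (PT.nd (nat_lit 78) (PT.lf (nat_lit 23940) (nat_lit 6) (nat_lit 315) (nat_lit 5) (nat_lit 221) (nat_lit 272) (nat_lit 287)) (PT.lf (nat_lit 24700) (nat_lit 6) (nat_lit 325) (nat_lit 5) (nat_lit 222) (nat_lit 272) (nat_lit 286)))) (PT.nd (nat_lit 156) (PT.nd (nat_lit 78) (PT.lf (nat_lit 25460) (nat_lit 6) (nat_lit 335) (nat_lit 5) (nat_lit 223) (nat_lit 272) (nat_lit 285)) (PT.lf (nat_lit 26220) (nat_lit 6) (nat_lit 345) (nat_lit 5) (nat_lit 224) (nat_lit 272) (nat_lit 284))) (PT.nd (nat_lit 78) (PT.lf (nat_lit 27056) (nat_lit 6) (nat_lit 356) (nat_lit 5) (nat_lit 225) (nat_lit 272) (nat_lit 283)) (PT.lf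 (nat_lit 27892) (nat_lit 6) (nat_lit 367) (nat_lit 5) (nat_lit 226) (nat_lit 272) (nat_lit 282))))) (PT.nd (nat_lit 312) (PT.nd (nat_lit 156) (PT.nd (nat_lit 78) (PT.lf (nat_lit 28728) (nat_lit 6) (nat_lit 378) (nat_lit 5) (nat_lit 227) (nat_lit 272) (nat_lit 281)) (PT.lf (nat_lit 29564) (nat_lit 6) (nat_lit 389) (nat_lit 5) (nat_lit 228) (nat_lit 272) (nat_lit 280))) (PT.nd (nat_lit 78) (PT.lf (nat_lit 30476) (nat_lit 6) (nat_lit 401) (nat_lit 5) (nat_lit 229) (nat_lit 272) (nat_lit 279)) (PT.lf (nat_lit 31388) (nat_lit 6) (nat_lit 413) (nat_lit 5) (nat_lit 230) (nat_lit 272) (nat_lit 278)))) (PT.nd (nat_lit 156) (PT.nd (nat_lit 78) (PT.lf (nat_lit 32376) (nat_lit 6) (nat_lit 426) (nat_lit 5) (nat_lit 231) (nat_lit 272) (nat_lit 277)) (PT.lf (nat_lit 33288) (nat_lit 6) (nat_lit 438) (nat_lit 5) (nat_lit 232) (nat_lit 272) (nat_lit 276))) (PT.nd (nat_lit 78) (PT.lf (nat_lit 34276) (nat_lit 6) (nat_lit 451) (nat_lit 5) (nat_lit 233) (nat_lit 272) (nat_lit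 275)) (PT.nd (nat_lit 78) (PT.lf (nat_lit 35264) (nat_lit 6) (nat_lit 464) (nat_lit 5) (nat_lit 234) (nat_lit 272) (nat_lit 274)) (PT.lf (nat_lit 36480) (nat_lit 6) (nat_lit 480) (nat_lit 5) (nat_lit 235) (nat_lit 272) (nat_lit 273))))))) (PT.nd (nat_lit 702) (PT.nd (nat_lit 312) (PT.nd (nat_lit 156) (PT.nd (nat_lit 78) (PT.lf (nat_lit 38380) (nat_lit 3) (nat_lit 505) (nat_lit 4) (nat_lit 236) (nat_lit 272) (nat_lit 272)) (PT.lf (nat_lit 40128) (nat_lit 6) (nat_lit 528) (nat_lit 4) (nat_lit 237) (nat_lit 272) (nat_lit 271))) (PT.nd (nat_lit 78) (PT.lf (nat_lit 41800) (nat_lit 6) (nat_lit 550) (nat_lit 4) (nat_lit 238) (nat_lit 272) (nat_lit 270)) (PT.lf (nat_lit 43396) (nat_lit 6) (nat_lit 571) (nat_lit 4) (nat_lit 239) (nat_lit 272) (nat_lit 269)))) (PT.nd (nat_lit 156) (PT.nd (nat_lit 78) (PT.lf (nat_lit 44916) (nat_lit 6) (nat_lit 591) (nat_lit 4) (nat_lit 240) (nat_lit 272) (nat_lit 268)) (PT.lf (nat_lit 46360) (nat_lit 6) (nat_lit 610) (nat_lit 4)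 (nat_lit 241) (nat_lit 272) (nat_lit 267))) (PT.nd (nat_lit 78) (PT.lf (nat_lit 47728) (nat_lit 6) (nat_lit 628) (nat_lit 4) (nat_lit 242) (nat_lit 272) (nat_lit 266)) (PT.nd (nat_lit 78) (PT.lf (nat_lit 49020) (nat_lit 6) (nat_lit 645) (nat_lit 4) (nat_lit 243) (nat_lit 272) (nat_lit 265)) (PT.lf (nat_lit 50236) (nat_lit 6) (nat_lit 661) (nat_lit 4) (nat_lit 244) (nat_lit 272) (nat_lit 264)))))) (PT.nd (nat_lit 312) (PT.nd (nat_lit 156) (PT.nd (nat_lit 78) (PT.lf (nat_lit 51376) (nat_lit 6) (nat_lit 676) (nat_lit 4) (nat_lit 245) (nat_lit 272) (nat_lit 263)) (PT.lf (nat_lit 52440) (nat_lit 6) (nat_lit 690) (nat_lit 4) (nat_lit 246) (nat_lit 272) (nat_lit 262))) (PT.nd (nat_lit 78) (PT.lf (nat_lit 53428) (nat_lit 6) (nat_lit 703) (nat_lit 4) (nat_lit 247) (nat_lit 272) (nat_lit 261)) (PT.lf (nat_lit 54340) (nat_lit 6) (nat_lit 715) (nat_lit 4) (nat_lit 248) (nat_lit 272) (nat_lit 260)))) (PT.nd (nat_lit 156) (PT.nd (nat_lit 78) (PT.lf (nat_lit 54264) (nat_lit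 6) (nat_lit 714) (nat_lit 4) (nat_lit 249) (nat_lit 272) (nat_lit 259)) (PT.lf (nat_lit 54188) (nat_lit 6) (nat_lit 713) (nat_lit 4) (nat_lit 250) (nat_lit 272) (nat_lit 258))) (PT.nd (nat_lit 78) (PT.lf (nat_lit 54112) (nat_lit 6) (nat_lit 712) (nat_lit 4) (nat_lit 251) (nat_lit 272) (nat_lit 257)) (PT.nd (nat_lit 78) (PT.lf (nat_lit 54036) (nat_lit 6) (nat_lit 711) (nat_lit 4) (nat_lit 252) (nat_lit 272) (nat_lit 256)) (PT.lf (nat_lit 53960) (nat_lit 6) (nat_lit 710) (nat_lit 4) (nat_lit 253) (nat_lit 272) (nat_lit 255))))))))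
noncomputable def pc72 : PT := (PT.nd (nat_lit 1326) (PT.nd (nat_lit 624) (PT.nd (nat_lit 312) (PT.nd (nat_lit 156) (PT.nd (nat_lit 78) (PT.lf (nat_lit 53884) (nat_lit 3) (nat_lit 709) (nat_lit 2) (nat_lit 254) (nat_lit 272) (nat_lit 254)) (PT.lf (nat_lit 53960) (nat_lit 6) (nat_lit 710) (nat_lit 2) (nat_lit 255) (nat_lit 272) (nat_lit 253))) (PT.nd (nat_lit 78) (PT.lf (nat_lit 54036) (nat_lit 6) (nat_lit 711) (nat_lit 2) (nat_lit 256) (nat_lit 272) (nat_lit 252)) (PT.lf (nat_lit 54112) (nat_lit 6) (nat_lit 712) (nat_lit 2) (nat_lit 257) (nat_lit 272) (nat_lit 251)))) (PT.nd (nat_lit 156) (PT.nd (nat_lit 78) (PT.lf (nat_lit 54188) (nat_lit 6) (nat_lit 713) (nat_lit 2) (nat_lit 258) (nat_lit 272) (nat_lit 250)) (PT.lf (nat_lit 54264) (nat_lit 6) (nat_lit 714) (nat_lit 2) (nat_lit 259) (nat_lit 272) (nat_lit 249))) (PT.nd (nat_lit 78) (PT.lf (nat_lit 54340) (nat_lit 6) (nat_lit 715) (nat_lit 2) (nat_lit 260) (nat_lit 272) (nat_lit 248)) (PT.lf (nat_lit 53428)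 (nat_lit 6) (nat_lit 703) (nat_lit 2) (nat_lit 261) (nat_lit 272) (nat_lit 247))))) (PT.nd (nat_lit 312) (PT.nd (nat_lit 156) (PT.nd (nat_lit 78) (PT.lf (nat_lit 52440) (nat_lit 6) (nat_lit 690) (nat_lit 2) (nat_lit 262) (nat_lit 272) (nat_lit 246)) (PT.lf (nat_lit 51376) (nat_lit 6) (nat_lit 676) (nat_lit 2) (nat_lit 263) (nat_lit 272) (nat_lit 245))) (PT.nd (nat_lit 78) (PT.lf (nat_lit 50236) (nat_lit 6) (nat_lit 661) (nat_lit 2) (nat_lit 264) (nat_lit 272) (nat_lit 244)) (PT.lf (nat_lit 49020) (nat_lit 6) (nat_lit 645) (nat_lit 2) (nat_lit 265) (nat_lit 272) (nat_lit 243)))) (PT.nd (nat_lit 156) (PT.nd (nat_lit 78) (PT.lf (nat_lit 47728) (nat_lit 6) (nat_lit 628) (nat_lit 2) (nat_lit 266) (nat_lit 272) (nat_lit 242)) (PT.lf (nat_lit 46360) (nat_lit 6) (nat_lit 610) (nat_lit 2) (nat_lit 267) (nat_lit 272) (nat_lit 241))) (PT.nd (nat_lit 78) (PT.lf (nat_lit 44916) (nat_lit 6) (nat_lit 591) (nat_lit 2) (nat_lit 268) (nat_lit 272) (nat_lit 240)) (PT.nd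 (nat_lit 78) (PT.lf (nat_lit 43396) (nat_lit 6) (nat_lit 571) (nat_lit 2) (nat_lit 269) (nat_lit 272) (nat_lit 239)) (PT.lf (nat_lit 41800) (nat_lit 6) (nat_lit 550) (nat_lit 2) (nat_lit 270) (nat_lit 272) (nat_lit 238))))))) (PT.nd (nat_lit 702) (PT.nd (nat_lit 312) (PT.nd (nat_lit 156) (PT.nd (nat_lit 78) (PT.lf (nat_lit 40128) (nat_lit 6) (nat_lit 528) (nat_lit 2) (nat_lit 271) (nat_lit 272) (nat_lit 237)) (PT.lf (nat_lit 38380) (nat_lit 3) (nat_lit 505) (nat_lit 0) (nat_lit 272) (nat_lit 272) (nat_lit 236))) (PT.nd (nat_lit 78) (PT.lf (nat_lit 36480) (nat_lit 6) (nat_lit 480) (nat_lit 0) (nat_lit 273) (nat_lit 272) (nat_lit 235)) (PT.lf (nat_lit 35264) (nat_lit 6) (nat_lit 464) (nat_lit 0) (nat_lit 274) (nat_lit 272) (nat_lit 234)))) (PT.nd (nat_lit 156) (PT.nd (nat_lit 78) (PT.lf (nat_lit 34276) (nat_lit 6) (nat_lit 451) (nat_lit 0) (nat_lit 275) (nat_lit 272) (nat_lit 233)) (PT.lf (nat_lit 33288) (nat_lit 6) (nat_lit 438) (nat_lit 0) (nat_lit 276)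 (nat_lit 272) (nat_lit 232))) (PT.nd (nat_lit 78) (PT.lf (nat_lit 32376) (nat_lit 6) (nat_lit 426) (nat_lit 0) (nat_lit 277) (nat_lit 272) (nat_lit 231)) (PT.nd (nat_lit 78) (PT.lf (nat_lit 31388) (nat_lit 6) (nat_lit 413) (nat_lit 0) (nat_lit 278) (nat_lit 272) (nat_lit 230)) (PT.lf (nat_lit 30476) (nat_lit 6) (nat_lit 401) (nat_lit 0) (nat_lit 279) (nat_lit 272) (nat_lit 229)))))) (PT.nd (nat_lit 312) (PT.nd (nat_lit 156) (PT.nd (nat_lit 78) (PT.lf (nat_lit 29564) (nat_lit 6) (nat_lit 389) (nat_lit 0) (nat_lit 280) (nat_lit 272) (nat_lit 228)) (PT.lf (nat_lit 28728) (nat_lit 6) (nat_lit 378) (nat_lit 0) (nat_lit 281) (nat_lit 272) (nat_lit 227))) (PT.nd (nat_lit 78) (PT.lf (nat_lit 27892) (nat_lit 6) (nat_lit 367) (nat_lit 0) (nat_lit 282) (nat_lit 272) (nat_lit 226)) (PT.lf (nat_lit 27056) (nat_lit 6) (nat_lit 356) (nat_lit 0) (nat_lit 283) (nat_lit 272) (nat_lit 225)))) (PT.nd (nat_lit 156) (PT.nd (nat_lit 78) (PT.lf (nat_lit 26220) (nat_lit 6) (nat_lit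 345) (nat_lit 0) (nat_lit 284) (nat_lit 272) (nat_lit 224)) (PT.lf (nat_lit 25460) (nat_lit 6) (nat_lit 335) (nat_lit 0) (nat_lit 285) (nat_lit 272) (nat_lit 223))) (PT.nd (nat_lit 78) (PT.lf (nat_lit 24700) (nat_lit 6) (nat_lit 325) (nat_lit 0) (nat_lit 286) (nat_lit 272) (nat_lit 222)) (PT.nd (nat_lit 78) (PT.lf (nat_lit 23940) (nat_lit 6) (nat_lit 315) (nat_lit 0) (nat_lit 287) (nat_lit 272) (nat_lit 221)) (PT.lf (nat_lit 23180) (nat_lit 6) (nat_lit 305) (nat_lit 0) (nat_lit 288) (nat_lit 272) (nat_lit 220))))))))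
noncomputable def pc73 : PT := (PT.nd (nat_lit 1326) (PT.nd (nat_lit 624) (PT.nd (nat_lit 312) (PT.nd (nat_lit 156) (PT.nd (nat_lit 78) (PT.lf (nat_lit 21888) (nat_lit 6) (nat_lit 288) (nat_lit 5) (nat_lit 218) (nat_lit 273) (nat_lit 289)) (PT.lf (nat_lit 22572) (nat_lit 6) (nat_lit 297) (nat_lit 5) (nat_lit 219) (nat_lit 273) (nat_lit 288))) (PT.nd (nat_lit 78) (PT.lf (nat_lit 23256) (nat_lit 6) (nat_lit 306) (nat_lit 5) (nat_lit 220) (nat_lit 273) (nat_lit 287)) (PT.lf (nat_lit 24016) (nat_lit 6) (nat_lit 316) (nat_lit 5) (nat_lit 221) (nat_lit 273) (nat_lit 286)))) (PT.nd (nat_lit 156) (PT.nd (nat_lit 78) (PT.lf (nat_lit 24776) (nat_lit 6) (nat_lit 326) (nat_lit 5) (nat_lit 222) (nat_lit 273) (nat_lit 285)) (PT.lf (nat_lit 25536) (nat_lit 6) (nat_lit 336) (nat_lit 5) (nat_lit 223) (nat_lit 273) (nat_lit 284))) (PT.nd (nat_lit 78) (PT.lf (nat_lit 26296) (nat_lit 6) (nat_lit 346) (nat_lit 5) (nat_lit 224) (nat_lit 273) (nat_lit 283)) (PT.lf (nat_lit 27132)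 (nat_lit 6) (nat_lit 357) (nat_lit 5) (nat_lit 225) (nat_lit 273) (nat_lit 282))))) (PT.nd (nat_lit 312) (PT.nd (nat_lit 156) (PT.nd (nat_lit 78) (PT.lf (nat_lit 27968) (nat_lit 6) (nat_lit 368) (nat_lit 5) (nat_lit 226) (nat_lit 273) (nat_lit 281)) (PT.lf (nat_lit 28804) (nat_lit 6) (nat_lit 379) (nat_lit 5) (nat_lit 227) (nat_lit 273) (nat_lit 280))) (PT.nd (nat_lit 78) (PT.lf (nat_lit 29640) (nat_lit 6) (nat_lit 390) (nat_lit 5) (nat_lit 228) (nat_lit 273) (nat_lit 279)) (PT.lf (nat_lit 30552) (nat_lit 6) (nat_lit 402) (nat_lit 5) (nat_lit 229) (nat_lit 273) (nat_lit 278)))) (PT.nd (nat_lit 156) (PT.nd (nat_lit 78) (PT.lf (nat_lit 31464) (nat_lit 6) (nat_lit 414) (nat_lit 5) (nat_lit 230) (nat_lit 273) (nat_lit 277)) (PT.lf (nat_lit 32452) (nat_lit 6) (nat_lit 427) (nat_lit 5) (nat_lit 231) (nat_lit 273) (nat_lit 276))) (PT.nd (nat_lit 78) (PT.lf (nat_lit 33364) (nat_lit 6) (nat_lit 439) (nat_lit 5) (nat_lit 232) (nat_lit 273) (nat_lit 275)) (PT.nd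 (nat_lit 78) (PT.lf (nat_lit 34352) (nat_lit 6) (nat_lit 452) (nat_lit 5) (nat_lit 233) (nat_lit 273) (nat_lit 274)) (PT.lf (nat_lit 35340) (nat_lit 3) (nat_lit 465) (nat_lit 4) (nat_lit 234) (nat_lit 273) (nat_lit 273))))))) (PT.nd (nat_lit 702) (PT.nd (nat_lit 312) (PT.nd (nat_lit 156) (PT.nd (nat_lit 78) (PT.lf (nat_lit 36480) (nat_lit 6) (nat_lit 480) (nat_lit 4) (nat_lit 235) (nat_lit 273) (nat_lit 272)) (PT.lf (nat_lit 38304) (nat_lit 6) (nat_lit 504) (nat_lit 4) (nat_lit 236) (nat_lit 273) (nat_lit 271))) (PT.nd (nat_lit 78) (PT.lf (nat_lit 40052) (nat_lit 6) (nat_lit 527) (nat_lit 4) (nat_lit 237) (nat_lit 273) (nat_lit 270)) (PT.lf (nat_lit 41724) (nat_lit 6) (nat_lit 549) (nat_lit 4) (nat_lit 238) (nat_lit 273) (nat_lit 269)))) (PT.nd (nat_lit 156) (PT.nd (nat_lit 78) (PT.lf (nat_lit 43320) (nat_lit 6) (nat_lit 570) (nat_lit 4) (nat_lit 239) (nat_lit 273) (nat_lit 268)) (PT.lf (nat_lit 44840) (nat_lit 6) (nat_lit 590) (nat_lit 4) (nat_lit 240)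 (nat_lit 273) (nat_lit 267))) (PT.nd (nat_lit 78) (PT.lf (nat_lit 46284) (nat_lit 6) (nat_lit 609) (nat_lit 4) (nat_lit 241) (nat_lit 273) (nat_lit 266)) (PT.nd (nat_lit 78) (PT.lf (nat_lit 47652) (nat_lit 6) (nat_lit 627) (nat_lit 4) (nat_lit 242) (nat_lit 273) (nat_lit 265)) (PT.lf (nat_lit 48944) (nat_lit 6) (nat_lit 644) (nat_lit 4) (nat_lit 243) (nat_lit 273) (nat_lit 264)))))) (PT.nd (nat_lit 312) (PT.nd (nat_lit 156) (PT.nd (nat_lit 78) (PT.lf (nat_lit 50160) (nat_lit 6) (nat_lit 660) (nat_lit 4) (nat_lit 244) (nat_lit 273) (nat_lit 263)) (PT.lf (nat_lit 51300) (nat_lit 6) (nat_lit 675) (nat_lit 4) (nat_lit 245) (nat_lit 273) (nat_lit 262))) (PT.nd (nat_lit 78) (PT.lf (nat_lit 52364) (nat_lit 6) (nat_lit 689) (nat_lit 4) (nat_lit 246) (nat_lit 273) (nat_lit 261)) (PT.lf (nat_lit 53352) (nat_lit 6) (nat_lit 702) (nat_lit 4) (nat_lit 247) (nat_lit 273) (nat_lit 260)))) (PT.nd (nat_lit 156) (PT.nd (nat_lit 78) (PT.lf (nat_lit 53276) (nat_lit 6) (nat_lit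 701) (nat_lit 4) (nat_lit 248) (nat_lit 273) (nat_lit 259)) (PT.lf (nat_lit 53200) (nat_lit 6) (nat_lit 700) (nat_lit 4) (nat_lit 249) (nat_lit 273) (nat_lit 258))) (PT.nd (nat_lit 78) (PT.lf (nat_lit 53124) (nat_lit 6) (nat_lit 699) (nat_lit 4) (nat_lit 250) (nat_lit 273) (nat_lit 257)) (PT.nd (nat_lit 78) (PT.lf (nat_lit 53048) (nat_lit 6) (nat_lit 698) (nat_lit 4) (nat_lit 251) (nat_lit 273) (nat_lit 256)) (PT.lf (nat_lit 52972) (nat_lit 6) (nat_lit 697) (nat_lit 4) (nat_lit 252) (nat_lit 273) (nat_lit 255))))))))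
noncomputable def pc74 : PT := (PT.nd (nat_lit 1326) (PT.nd (nat_lit 624) (PT.nd (nat_lit 312) (PT.nd (nat_lit 156) (PT.nd (nat_lit 78) (PT.lf (nat_lit 52896) (nat_lit 6) (nat_lit 696) (nat_lit 4) (nat_lit 253) (nat_lit 273) (nat_lit 254)) (PT.lf (nat_lit 52896) (nat_lit 6) (nat_lit 696) (nat_lit 2) (nat_lit 254) (nat_lit 273) (nat_lit 253))) (PT.nd (nat_lit 78) (PT.lf (nat_lit 52972) (nat_lit 6) (nat_lit 697) (nat_lit 2) (nat_lit 255) (nat_lit 273) (nat_lit 252)) (PT.lf (nat_lit 53048) (nat_lit 6) (nat_lit 698) (nat_lit 2) (nat_lit 256) (nat_lit 273) (nat_lit 251)))) (PT.nd (nat_lit 156) (PT.nd (nat_lit 78) (PT.lf (nat_lit 53124) (nat_lit 6) (nat_lit 699) (nat_lit 2) (nat_lit 257) (nat_lit 273) (nat_lit 250)) (PT.lf (nat_lit 53200) (nat_lit 6) (nat_lit 700) (nat_lit 2) (nat_lit 258) (nat_lit 273) (nat_lit 249))) (PT.nd (nat_lit 78) (PT.lf (nat_lit 53276) (nat_lit 6) (nat_lit 701) (nat_lit 2) (nat_lit 259) (nat_lit 273) (nat_lit 248)) (PT.lf (nat_lit 53352)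 (nat_lit 6) (nat_lit 702) (nat_lit 2) (nat_lit 260) (nat_lit 273) (nat_lit 247))))) (PT.nd (nat_lit 312) (PT.nd (nat_lit 156) (PT.nd (nat_lit 78) (PT.lf (nat_lit 52364) (nat_lit 6) (nat_lit 689) (nat_lit 2) (nat_lit 261) (nat_lit 273) (nat_lit 246)) (PT.lf (nat_lit 51300) (nat_lit 6) (nat_lit 675) (nat_lit 2) (nat_lit 262) (nat_lit 273) (nat_lit 245))) (PT.nd (nat_lit 78) (PT.lf (nat_lit 50160) (nat_lit 6) (nat_lit 660) (nat_lit 2) (nat_lit 263) (nat_lit 273) (nat_lit 244)) (PT.lf (nat_lit 48944) (nat_lit 6) (nat_lit 644) (nat_lit 2) (nat_lit 264) (nat_lit 273) (nat_lit 243)))) (PT.nd (nat_lit 156) (PT.nd (nat_lit 78) (PT.lf (nat_lit 47652) (nat_lit 6) (nat_lit 627) (nat_lit 2) (nat_lit 265) (nat_lit 273) (nat_lit 242)) (PT.lf (nat_lit 46284) (nat_lit 6) (nat_lit 609) (nat_lit 2) (nat_lit 266) (nat_lit 273) (nat_lit 241))) (PT.nd (nat_lit 78) (PT.lf (nat_lit 44840) (nat_lit 6) (nat_lit 590) (nat_lit 2) (nat_lit 267) (nat_lit 273) (nat_lit 240)) (PT.nd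 (nat_lit 78) (PT.lf (nat_lit 43320) (nat_lit 6) (nat_lit 570) (nat_lit 2) (nat_lit 268) (nat_lit 273) (nat_lit 239)) (PT.lf (nat_lit 41724) (nat_lit 6) (nat_lit 549) (nat_lit 2) (nat_lit 269) (nat_lit 273) (nat_lit 238))))))) (PT.nd (nat_lit 702) (PT.nd (nat_lit 312) (PT.nd (nat_lit 156) (PT.nd (nat_lit 78) (PT.lf (nat_lit 40052) (nat_lit 6) (nat_lit 527) (nat_lit 2) (nat_lit 270) (nat_lit 273) (nat_lit 237)) (PT.lf (nat_lit 38304) (nat_lit 6) (nat_lit 504) (nat_lit 2) (nat_lit 271) (nat_lit 273) (nat_lit 236))) (PT.nd (nat_lit 78) (PT.lf (nat_lit 36480) (nat_lit 6) (nat_lit 480) (nat_lit 2) (nat_lit 272) (nat_lit 273) (nat_lit 235)) (PT.lf (nat_lit 35340) (nat_lit 3) (nat_lit 465) (nat_lit 0) (nat_lit 273) (nat_lit 273) (nat_lit 234)))) (PT.nd (nat_lit 156) (PT.nd (nat_lit 78) (PT.lf (nat_lit 34352) (nat_lit 6) (nat_lit 452) (nat_lit 0) (nat_lit 274) (nat_lit 273) (nat_lit 233)) (PT.lf (nat_lit 33364) (nat_lit 6) (nat_lit 439) (nat_lit 0) (nat_lit 275)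 (nat_lit 273) (nat_lit 232))) (PT.nd (nat_lit 78) (PT.lf (nat_lit 32452) (nat_lit 6) (nat_lit 427) (nat_lit 0) (nat_lit 276) (nat_lit 273) (nat_lit 231)) (PT.nd (nat_lit 78) (PT.lf (nat_lit 31464) (nat_lit 6) (nat_lit 414) (nat_lit 0) (nat_lit 277) (nat_lit 273) (nat_lit 230)) (PT.lf (nat_lit 30552) (nat_lit 6) (nat_lit 402) (nat_lit 0) (nat_lit 278) (nat_lit 273) (nat_lit 229)))))) (PT.nd (nat_lit 312) (PT.nd (nat_lit 156) (PT.nd (nat_lit 78) (PT.lf (nat_lit 29640) (nat_lit 6) (nat_lit 390) (nat_lit 0) (nat_lit 279) (nat_lit 273) (nat_lit 228)) (PT.lf (nat_lit 28804) (nat_lit 6) (nat_lit 379) (nat_lit 0) (nat_lit 280) (nat_lit 273) (nat_lit 227))) (PT.nd (nat_lit 78) (PT.lf (nat_lit 27968) (nat_lit 6) (nat_lit 368) (nat_lit 0) (nat_lit 281) (nat_lit 273) (nat_lit 226)) (PT.lf (nat_lit 27132) (nat_lit 6) (nat_lit 357) (nat_lit 0) (nat_lit 282) (nat_lit 273) (nat_lit 225)))) (PT.nd (nat_lit 156) (PT.nd (nat_lit 78) (PT.lf (nat_lit 26296) (nat_lit 6) (nat_lit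 346) (nat_lit 0) (nat_lit 283) (nat_lit 273) (nat_lit 224)) (PT.lf (nat_lit 25536) (nat_lit 6) (nat_lit 336) (nat_lit 0) (nat_lit 284) (nat_lit 273) (nat_lit 223))) (PT.nd (nat_lit 78) (PT.lf (nat_lit 24776) (nat_lit 6) (nat_lit 326) (nat_lit 0) (nat_lit 285) (nat_lit 273) (nat_lit 222)) (PT.nd (nat_lit 78) (PT.lf (nat_lit 24016) (nat_lit 6) (nat_lit 316) (nat_lit 0) (nat_lit 286) (nat_lit 273) (nat_lit 221)) (PT.lf (nat_lit 23256) (nat_lit 6) (nat_lit 306) (nat_lit 0) (nat_lit 287) (nat_lit 273) (nat_lit 220))))))))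
noncomputable def pc75 : PT := (PT.nd (nat_lit 76830) (PT.nd (nat_lit 76128) (PT.nd (nat_lit 75816) (PT.nd (nat_lit 75660) (PT.nd (nat_lit 78) (PT.lf (nat_lit 22572) (nat_lit 6) (nat_lit 297) (nat_lit 0) (nat_lit 288) (nat_lit 273) (nat_lit 219)) (PT.lf (nat_lit 21888) (nat_lit 6) (nat_lit 288) (nat_lit 0) (nat_lit 289) (nat_lit 273) (nat_lit 218))) (PT.nd (nat_lit 78) (PT.lf (nat_lit 21280) (nat_lit 6) (nat_lit 280) (nat_lit 5) (nat_lit 217) (nat_lit 274) (nat_lit 289)) (PT.lf (nat_lit 21964) (nat_lit 6) (nat_lit 289) (nat_lit 5) (nat_lit 218) (nat_lit 274) (nat_lit 288)))) (PT.nd (nat_lit 156) (PT.nd (nat_lit 78) (PT.lf (nat_lit 22648) (nat_lit 6) (nat_lit 298) (nat_lit 5) (nat_lit 219) (nat_lit 274) (nat_lit 287)) (PT.lf (nat_lit 23332) (nat_lit 6) (nat_lit 307) (nat_lit 5) (nat_lit 220) (nat_lit 274) (nat_lit 286))) (PT.nd (nat_lit 78) (PT.lf (nat_lit 24092) (nat_lit 6) (nat_lit 317) (nat_lit 5) (nat_lit 221) (nat_lit 274) (nat_lit 285)) (PT.lf (nat_lit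 24852) (nat_lit 6) (nat_lit 327) (nat_lit 5) (nat_lit 222) (nat_lit 274) (nat_lit 284))))) (PT.nd (nat_lit 312) (PT.nd (nat_lit 156) (PT.nd (nat_lit 78) (PT.lf (nat_lit 25612) (nat_lit 6) (nat_lit 337) (nat_lit 5) (nat_lit 223) (nat_lit 274) (nat_lit 283)) (PT.lf (nat_lit 26372) (nat_lit 6) (nat_lit 347) (nat_lit 5) (nat_lit 224) (nat_lit 274) (nat_lit 282))) (PT.nd (nat_lit 78) (PT.lf (nat_lit 27208) (nat_lit 6) (nat_lit 358) (nat_lit 5) (nat_lit 225) (nat_lit 274) (nat_lit 281)) (PT.lf (nat_lit 28044) (nat_lit 6) (nat_lit 369) (nat_lit 5) (nat_lit 226) (nat_lit 274) (nat_lit 280)))) (PT.nd (nat_lit 156) (PT.nd (nat_lit 78) (PT.lf (nat_lit 28880) (nat_lit 6) (nat_lit 380) (nat_lit 5) (nat_lit 227) (nat_lit 274) (nat_lit 279)) (PT.lf (nat_lit 29716) (nat_lit 6) (nat_lit 391) (nat_lit 5) (nat_lit 228) (nat_lit 274) (nat_lit 278))) (PT.nd (nat_lit 78) (PT.lf (nat_lit 30628) (nat_lit 6) (nat_lit 403) (nat_lit 5) (nat_lit 229) (nat_lit 274) (nat_lit 277))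 (PT.nd (nat_lit 78) (PT.lf (nat_lit 31540) (nat_lit 6) (nat_lit 415) (nat_lit 5) (nat_lit 230) (nat_lit 274) (nat_lit 276)) (PT.lf (nat_lit 32528) (nat_lit 6) (nat_lit 428) (nat_lit 5) (nat_lit 231) (nat_lit 274) (nat_lit 275))))))) (PT.nd (nat_lit 702) (PT.nd (nat_lit 312) (PT.nd (nat_lit 156) (PT.nd (nat_lit 78) (PT.lf (nat_lit 33440) (nat_lit 3) (nat_lit 440) (nat_lit 4) (nat_lit 232) (nat_lit 274) (nat_lit 274)) (PT.lf (nat_lit 34352) (nat_lit 6) (nat_lit 452) (nat_lit 4) (nat_lit 233) (nat_lit 274) (nat_lit 273))) (PT.nd (nat_lit 78) (PT.lf (nat_lit 35264) (nat_lit 6) (nat_lit 464) (nat_lit 4) (nat_lit 234) (nat_lit 274) (nat_lit 272)) (PT.lf (nat_lit 36404) (nat_lit 6) (nat_lit 479) (nat_lit 4) (nat_lit 235) (nat_lit 274) (nat_lit 271)))) (PT.nd (nat_lit 156) (PT.nd (nat_lit 78) (PT.lf (nat_lit 38228) (nat_lit 6) (nat_lit 503) (nat_lit 4) (nat_lit 236) (nat_lit 274) (nat_lit 270)) (PT.lf (nat_lit 39976) (nat_lit 6) (nat_lit 526) (nat_lit 4) (nat_lit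 237) (nat_lit 274) (nat_lit 269))) (PT.nd (nat_lit 78) (PT.lf (nat_lit 41648) (nat_lit 6) (nat_lit 548) (nat_lit 4) (nat_lit 238) (nat_lit 274) (nat_lit 268)) (PT.nd (nat_lit 78) (PT.lf (nat_lit 43244) (nat_lit 6) (nat_lit 569) (nat_lit 4) (nat_lit 239) (nat_lit 274) (nat_lit 267)) (PT.lf (nat_lit 44764) (nat_lit 6) (nat_lit 589) (nat_lit 4) (nat_lit 240) (nat_lit 274) (nat_lit 266)))))) (PT.nd (nat_lit 312) (PT.nd (nat_lit 156) (PT.nd (nat_lit 78) (PT.lf (nat_lit 46208) (nat_lit 6) (nat_lit 608) (nat_lit 4) (nat_lit 241) (nat_lit 274) (nat_lit 265)) (PT.lf (nat_lit 47576) (nat_lit 6) (nat_lit 626) (nat_lit 4) (nat_lit 242) (nat_lit 274) (nat_lit 264))) (PT.nd (nat_lit 78) (PT.lf (nat_lit 48868) (nat_lit 6) (nat_lit 643) (nat_lit 4) (nat_lit 243) (nat_lit 274) (nat_lit 263)) (PT.lf (nat_lit 50084) (nat_lit 6) (nat_lit 659) (nat_lit 4) (nat_lit 244) (nat_lit 274) (nat_lit 262)))) (PT.nd (nat_lit 156) (PT.nd (nat_lit 78) (PT.lf (nat_lit 51224) (nat_lit 6)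 (nat_lit 674) (nat_lit 4) (nat_lit 245) (nat_lit 274) (nat_lit 261)) (PT.lf (nat_lit 52288) (nat_lit 6) (nat_lit 688) (nat_lit 4) (nat_lit 246) (nat_lit 274) (nat_lit 260))) (PT.nd (nat_lit 78) (PT.lf (nat_lit 52212) (nat_lit 6) (nat_lit 687) (nat_lit 4) (nat_lit 247) (nat_lit 274) (nat_lit 259)) (PT.nd (nat_lit 78) (PT.lf (nat_lit 52136) (nat_lit 6) (nat_lit 686) (nat_lit 4) (nat_lit 248) (nat_lit 274) (nat_lit 258)) (PT.lf (nat_lit 52060) (nat_lit 6) (nat_lit 685) (nat_lit 4) (nat_lit 249) (nat_lit 274) (nat_lit 257))))))))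
noncomputable def pc76 : PT := (PT.nd (nat_lit 1326) (PT.nd (nat_lit 624) (PT.nd (nat_lit 312) (PT.nd (nat_lit 156) (PT.nd (nat_lit 78) (PT.lf (nat_lit 51984) (nat_lit 6) (nat_lit 684) (nat_lit 4) (nat_lit 250) (nat_lit 274) (nat_lit 256)) (PT.lf (nat_lit 51908) (nat_lit 6) (nat_lit 683) (nat_lit 4) (nat_lit 251) (nat_lit 274) (nat_lit 255))) (PT.nd (nat_lit 78) (PT.lf (nat_lit 51832) (nat_lit 6) (nat_lit 682) (nat_lit 4) (nat_lit 252) (nat_lit 274) (nat_lit 254)) (PT.lf (nat_lit 51756) (nat_lit 3) (nat_lit 681) (nat_lit 2) (nat_lit 253) (nat_lit 274) (nat_lit 253)))) (PT.nd (nat_lit 156) (PT.nd (nat_lit 78) (PT.lf (nat_lit 51832) (nat_lit 6) (nat_lit 682) (nat_lit 2) (nat_lit 254) (nat_lit 274) (nat_lit 252)) (PT.lf (nat_lit 51908) (nat_lit 6) (nat_lit 683) (nat_lit 2) (nat_lit 255) (nat_lit 274) (nat_lit 251))) (PT.nd (nat_lit 78) (PT.lf (nat_lit 51984) (nat_lit 6) (nat_lit 684) (nat_lit 2) (nat_lit 256) (nat_lit 274) (nat_lit 250)) (PT.lf (nat_lit 52060)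 (nat_lit 6) (nat_lit 685) (nat_lit 2) (nat_lit 257) (nat_lit 274) (nat_lit 249))))) (PT.nd (nat_lit 312) (PT.nd (nat_lit 156) (PT.nd (nat_lit 78) (PT.lf (nat_lit 52136) (nat_lit 6) (nat_lit 686) (nat_lit 2) (nat_lit 258) (nat_lit 274) (nat_lit 248)) (PT.lf (nat_lit 52212) (nat_lit 6) (nat_lit 687) (nat_lit 2) (nat_lit 259) (nat_lit 274) (nat_lit 247))) (PT.nd (nat_lit 78) (PT.lf (nat_lit 52288) (nat_lit 6) (nat_lit 688) (nat_lit 2) (nat_lit 260) (nat_lit 274) (nat_lit 246)) (PT.lf (nat_lit 51224) (nat_lit 6) (nat_lit 674) (nat_lit 2) (nat_lit 261) (nat_lit 274) (nat_lit 245)))) (PT.nd (nat_lit 156) (PT.nd (nat_lit 78) (PT.lf (nat_lit 50084) (nat_lit 6) (nat_lit 659) (nat_lit 2) (nat_lit 262) (nat_lit 274) (nat_lit 244)) (PT.lf (nat_lit 48868) (nat_lit 6) (nat_lit 643) (nat_lit 2) (nat_lit 263) (nat_lit 274) (nat_lit 243))) (PT.nd (nat_lit 78) (PT.lf (nat_lit 47576) (nat_lit 6) (nat_lit 626) (nat_lit 2) (nat_lit 264) (nat_lit 274) (nat_lit 242)) (PT.nd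 (nat_lit 78) (PT.lf (nat_lit 46208) (nat_lit 6) (nat_lit 608) (nat_lit 2) (nat_lit 265) (nat_lit 274) (nat_lit 241)) (PT.lf (nat_lit 44764) (nat_lit 6) (nat_lit 589) (nat_lit 2) (nat_lit 266) (nat_lit 274) (nat_lit 240))))))) (PT.nd (nat_lit 702) (PT.nd (nat_lit 312) (PT.nd (nat_lit 156) (PT.nd (nat_lit 78) (PT.lf (nat_lit 43244) (nat_lit 6) (nat_lit 569) (nat_lit 2) (nat_lit 267) (nat_lit 274) (nat_lit 239)) (PT.lf (nat_lit 41648) (nat_lit 6) (nat_lit 548) (nat_lit 2) (nat_lit 268) (nat_lit 274) (nat_lit 238))) (PT.nd (nat_lit 78) (PT.lf (nat_lit 39976) (nat_lit 6) (nat_lit 526) (nat_lit 2) (nat_lit 269) (nat_lit 274) (nat_lit 237)) (PT.lf (nat_lit 38228) (nat_lit 6) (nat_lit 503) (nat_lit 2) (nat_lit 270) (nat_lit 274) (nat_lit 236)))) (PT.nd (nat_lit 156) (PT.nd (nat_lit 78) (PT.lf (nat_lit 36404) (nat_lit 6) (nat_lit 479) (nat_lit 2) (nat_lit 271) (nat_lit 274) (nat_lit 235)) (PT.lf (nat_lit 35264) (nat_lit 6) (nat_lit 464) (nat_lit 2) (nat_lit 272)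 (nat_lit 274) (nat_lit 234))) (PT.nd (nat_lit 78) (PT.lf (nat_lit 34352) (nat_lit 6) (nat_lit 452) (nat_lit 2) (nat_lit 273) (nat_lit 274) (nat_lit 233)) (PT.nd (nat_lit 78) (PT.lf (nat_lit 33440) (nat_lit 3) (nat_lit 440) (nat_lit 0) (nat_lit 274) (nat_lit 274) (nat_lit 232)) (PT.lf (nat_lit 32528) (nat_lit 6) (nat_lit 428) (nat_lit 0) (nat_lit 275) (nat_lit 274) (nat_lit 231)))))) (PT.nd (nat_lit 312) (PT.nd (nat_lit 156) (PT.nd (nat_lit 78) (PT.lf (nat_lit 31540) (nat_lit 6) (nat_lit 415) (nat_lit 0) (nat_lit 276) (nat_lit 274) (nat_lit 230)) (PT.lf (nat_lit 30628) (nat_lit 6) (nat_lit 403) (nat_lit 0) (nat_lit 277) (nat_lit 274) (nat_lit 229))) (PT.nd (nat_lit 78) (PT.lf (nat_lit 29716) (nat_lit 6) (nat_lit 391) (nat_lit 0) (nat_lit 278) (nat_lit 274) (nat_lit 228)) (PT.lf (nat_lit 28880) (nat_lit 6) (nat_lit 380) (nat_lit 0) (nat_lit 279) (nat_lit 274) (nat_lit 227)))) (PT.nd (nat_lit 156) (PT.nd (nat_lit 78) (PT.lf (nat_lit 28044) (nat_lit 6) (nat_lit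 369) (nat_lit 0) (nat_lit 280) (nat_lit 274) (nat_lit 226)) (PT.lf (nat_lit 27208) (nat_lit 6) (nat_lit 358) (nat_lit 0) (nat_lit 281) (nat_lit 274) (nat_lit 225))) (PT.nd (nat_lit 78) (PT.lf (nat_lit 26372) (nat_lit 6) (nat_lit 347) (nat_lit 0) (nat_lit 282) (nat_lit 274) (nat_lit 224)) (PT.nd (nat_lit 78) (PT.lf (nat_lit 25612) (nat_lit 6) (nat_lit 337) (nat_lit 0) (nat_lit 283) (nat_lit 274) (nat_lit 223)) (PT.lf (nat_lit 24852) (nat_lit 6) (nat_lit 327) (nat_lit 0) (nat_lit 284) (nat_lit 274) (nat_lit 222))))))))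
noncomputable def pc77 : PT := (PT.nd (nat_lit 76674) (PT.nd (nat_lit 75972) (PT.nd (nat_lit 312) (PT.nd (nat_lit 156) (PT.nd (nat_lit 78) (PT.lf (nat_lit 24092) (nat_lit 6) (nat_lit 317) (nat_lit 0) (nat_lit 285) (nat_lit 274) (nat_lit 221)) (PT.lf (nat_lit 23332) (nat_lit 6) (nat_lit 307) (nat_lit 0) (nat_lit 286) (nat_lit 274) (nat_lit 220))) (PT.nd (nat_lit 78) (PT.lf (nat_lit 22648) (nat_lit 6) (nat_lit 298) (nat_lit 0) (nat_lit 287) (nat_lit 274) (nat_lit 219)) (PT.lf (nat_lit 21964) (nat_lit 6) (nat_lit 289) (nat_lit 0) (nat_lit 288) (nat_lit 274) (nat_lit 218)))) (PT.nd (nat_lit 75504) (PT.nd (nat_lit 75426) (PT.lf (nat_lit 21280) (nat_lit 6) (nat_lit 280) (nat_lit 0) (nat_lit 289) (nat_lit 274) (nat_lit 217)) (PT.lf (nat_lit 20064) (nat_lit 6) (nat_lit 264) (nat_lit 5) (nat_lit 215) (nat_lit 275) (nat_lit 290))) (PT.nd (nat_lit 78) (PT.lf (nat_lit 20672) (nat_lit 6) (nat_lit 272) (nat_lit 5) (nat_lit 216) (nat_lit 275) (nat_lit 289)) (PT.lf (nat_lit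 21356) (nat_lit 6) (nat_lit 281) (nat_lit 5) (nat_lit 217) (nat_lit 275) (nat_lit 288))))) (PT.nd (nat_lit 312) (PT.nd (nat_lit 156) (PT.nd (nat_lit 78) (PT.lf (nat_lit 22040) (nat_lit 6) (nat_lit 290) (nat_lit 5) (nat_lit 218) (nat_lit 275) (nat_lit 287)) (PT.lf (nat_lit 22724) (nat_lit 6) (nat_lit 299) (nat_lit 5) (nat_lit 219) (nat_lit 275) (nat_lit 286))) (PT.nd (nat_lit 78) (PT.lf (nat_lit 23408) (nat_lit 6) (nat_lit 308) (nat_lit 5) (nat_lit 220) (nat_lit 275) (nat_lit 285)) (PT.lf (nat_lit 24168) (nat_lit 6) (nat_lit 318) (nat_lit 5) (nat_lit 221) (nat_lit 275) (nat_lit 284)))) (PT.nd (nat_lit 156) (PT.nd (nat_lit 78) (PT.lf (nat_lit 24928) (nat_lit 6) (nat_lit 328) (nat_lit 5) (nat_lit 222) (nat_lit 275) (nat_lit 283)) (PT.lf (nat_lit 25688) (nat_lit 6) (nat_lit 338) (nat_lit 5) (nat_lit 223) (nat_lit 275) (nat_lit 282))) (PT.nd (nat_lit 78) (PT.lf (nat_lit 26448) (nat_lit 6) (nat_lit 348) (nat_lit 5) (nat_lit 224) (nat_lit 275) (nat_lit 281))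 (PT.nd (nat_lit 78) (PT.lf (nat_lit 27284) (nat_lit 6) (nat_lit 359) (nat_lit 5) (nat_lit 225) (nat_lit 275) (nat_lit 280)) (PT.lf (nat_lit 28120) (nat_lit 6) (nat_lit 370) (nat_lit 5) (nat_lit 226) (nat_lit 275) (nat_lit 279))))))) (PT.nd (nat_lit 702) (PT.nd (nat_lit 312) (PT.nd (nat_lit 156) (PT.nd (nat_lit 78) (PT.lf (nat_lit 28956) (nat_lit 6) (nat_lit 381) (nat_lit 5) (nat_lit 227) (nat_lit 275) (nat_lit 278)) (PT.lf (nat_lit 29792) (nat_lit 6) (nat_lit 392) (nat_lit 5) (nat_lit 228) (nat_lit 275) (nat_lit 277))) (PT.nd (nat_lit 78) (PT.lf (nat_lit 30704) (nat_lit 6) (nat_lit 404) (nat_lit 5) (nat_lit 229) (nat_lit 275) (nat_lit 276)) (PT.lf (nat_lit 31616) (nat_lit 3) (nat_lit 416) (nat_lit 4) (nat_lit 230) (nat_lit 275) (nat_lit 275)))) (PT.nd (nat_lit 156) (PT.nd (nat_lit 78) (PT.lf (nat_lit 32528) (nat_lit 6) (nat_lit 428) (nat_lit 4) (nat_lit 231) (nat_lit 275) (nat_lit 274)) (PT.lf (nat_lit 33364) (nat_lit 6) (nat_lit 439) (nat_lit 4) (nat_lit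 232) (nat_lit 275) (nat_lit 273))) (PT.nd (nat_lit 78) (PT.lf (nat_lit 34276) (nat_lit 6) (nat_lit 451) (nat_lit 4) (nat_lit 233) (nat_lit 275) (nat_lit 272)) (PT.nd (nat_lit 78) (PT.lf (nat_lit 35188) (nat_lit 6) (nat_lit 463) (nat_lit 4) (nat_lit 234) (nat_lit 275) (nat_lit 271)) (PT.lf (nat_lit 36328) (nat_lit 6) (nat_lit 478) (nat_lit 4) (nat_lit 235) (nat_lit 275) (nat_lit 270)))))) (PT.nd (nat_lit 312) (PT.nd (nat_lit 156) (PT.nd (nat_lit 78) (PT.lf (nat_lit 38152) (nat_lit 6) (nat_lit 502) (nat_lit 4) (nat_lit 236) (nat_lit 275) (nat_lit 269)) (PT.lf (nat_lit 39900) (nat_lit 6) (nat_lit 525) (nat_lit 4) (nat_lit 237) (nat_lit 275) (nat_lit 268))) (PT.nd (nat_lit 78) (PT.lf (nat_lit 41572) (nat_lit 6) (nat_lit 547) (nat_lit 4) (nat_lit 238) (nat_lit 275) (nat_lit 267)) (PT.lf (nat_lit 43168) (nat_lit 6) (nat_lit 568) (nat_lit 4) (nat_lit 239) (nat_lit 275) (nat_lit 266)))) (PT.nd (nat_lit 156) (PT.nd (nat_lit 78) (PT.lf (nat_lit 44688) (nat_lit 6)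 (nat_lit 588) (nat_lit 4) (nat_lit 240) (nat_lit 275) (nat_lit 265)) (PT.lf (nat_lit 46132) (nat_lit 6) (nat_lit 607) (nat_lit 4) (nat_lit 241) (nat_lit 275) (nat_lit 264))) (PT.nd (nat_lit 78) (PT.lf (nat_lit 47500) (nat_lit 6) (nat_lit 625) (nat_lit 4) (nat_lit 242) (nat_lit 275) (nat_lit 263)) (PT.nd (nat_lit 78) (PT.lf (nat_lit 48792) (nat_lit 6) (nat_lit 642) (nat_lit 4) (nat_lit 243) (nat_lit 275) (nat_lit 262)) (PT.lf (nat_lit 50008) (nat_lit 6) (nat_lit 658) (nat_lit 4) (nat_lit 244) (nat_lit 275) (nat_lit 261))))))))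
noncomputable def pc78 : PT := (PT.nd (nat_lit 1326) (PT.nd (nat_lit 624) (PT.nd (nat_lit 312) (PT.nd (nat_lit 156) (PT.nd (nat_lit 78) (PT.lf (nat_lit 51148) (nat_lit 6) (nat_lit 673) (nat_lit 4) (nat_lit 245) (nat_lit 275) (nat_lit 260)) (PT.lf (nat_lit 51072) (nat_lit 6) (nat_lit 672) (nat_lit 4) (nat_lit 246) (nat_lit 275) (nat_lit 259))) (PT.nd (nat_lit 78) (PT.lf (nat_lit 50996) (nat_lit 6) (nat_lit 671) (nat_lit 4) (nat_lit 247) (nat_lit 275) (nat_lit 258)) (PT.lf (nat_lit 50920) (nat_lit 6) (nat_lit 670) (nat_lit 4) (nat_lit 248) (nat_lit 275) (nat_lit 257)))) (PT.nd (nat_lit 156) (PT.nd (nat_lit 78) (PT.lf (nat_lit 50844) (nat_lit 6) (nat_lit 669) (nat_lit 4) (nat_lit 249) (nat_lit 275) (nat_lit 256)) (PT.lf (nat_lit 50768) (nat_lit 6) (nat_lit 668) (nat_lit 4) (nat_lit 250) (nat_lit 275) (nat_lit 255))) (PT.nd (nat_lit 78) (PT.lf (nat_lit 50692) (nat_lit 6) (nat_lit 667) (nat_lit 4) (nat_lit 251) (nat_lit 275) (nat_lit 254)) (PT.lf (nat_lit 50616)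 (nat_lit 6) (nat_lit 666) (nat_lit 4) (nat_lit 252) (nat_lit 275) (nat_lit 253))))) (PT.nd (nat_lit 312) (PT.nd (nat_lit 156) (PT.nd (nat_lit 78) (PT.lf (nat_lit 50616) (nat_lit 6) (nat_lit 666) (nat_lit 2) (nat_lit 253) (nat_lit 275) (nat_lit 252)) (PT.lf (nat_lit 50692) (nat_lit 6) (nat_lit 667) (nat_lit 2) (nat_lit 254) (nat_lit 275) (nat_lit 251))) (PT.nd (nat_lit 78) (PT.lf (nat_lit 50768) (nat_lit 6) (nat_lit 668) (nat_lit 2) (nat_lit 255) (nat_lit 275) (nat_lit 250)) (PT.lf (nat_lit 50844) (nat_lit 6) (nat_lit 669) (nat_lit 2) (nat_lit 256) (nat_lit 275) (nat_lit 249)))) (PT.nd (nat_lit 156) (PT.nd (nat_lit 78) (PT.lf (nat_lit 50920) (nat_lit 6) (nat_lit 670) (nat_lit 2) (nat_lit 257) (nat_lit 275) (nat_lit 248)) (PT.lf (nat_lit 50996) (nat_lit 6) (nat_lit 671) (nat_lit 2) (nat_lit 258) (nat_lit 275) (nat_lit 247))) (PT.nd (nat_lit 78) (PT.lf (nat_lit 51072) (nat_lit 6) (nat_lit 672) (nat_lit 2) (nat_lit 259) (nat_lit 275) (nat_lit 246)) (PT.nd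 (nat_lit 78) (PT.lf (nat_lit 51148) (nat_lit 6) (nat_lit 673) (nat_lit 2) (nat_lit 260) (nat_lit 275) (nat_lit 245)) (PT.lf (nat_lit 50008) (nat_lit 6) (nat_lit 658) (nat_lit 2) (nat_lit 261) (nat_lit 275) (nat_lit 244))))))) (PT.nd (nat_lit 702) (PT.nd (nat_lit 312) (PT.nd (nat_lit 156) (PT.nd (nat_lit 78) (PT.lf (nat_lit 48792) (nat_lit 6) (nat_lit 642) (nat_lit 2) (nat_lit 262) (nat_lit 275) (nat_lit 243)) (PT.lf (nat_lit 47500) (nat_lit 6) (nat_lit 625) (nat_lit 2) (nat_lit 263) (nat_lit 275) (nat_lit 242))) (PT.nd (nat_lit 78) (PT.lf (nat_lit 46132) (nat_lit 6) (nat_lit 607) (nat_lit 2) (nat_lit 264) (nat_lit 275) (nat_lit 241)) (PT.lf (nat_lit 44688) (nat_lit 6) (nat_lit 588) (nat_lit 2) (nat_lit 265) (nat_lit 275) (nat_lit 240)))) (PT.nd (nat_lit 156) (PT.nd (nat_lit 78) (PT.lf (nat_lit 43168) (nat_lit 6) (nat_lit 568) (nat_lit 2) (nat_lit 266) (nat_lit 275) (nat_lit 239)) (PT.lf (nat_lit 41572) (nat_lit 6) (nat_lit 547) (nat_lit 2) (nat_lit 267)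 (nat_lit 275) (nat_lit 238))) (PT.nd (nat_lit 78) (PT.lf (nat_lit 39900) (nat_lit 6) (nat_lit 525) (nat_lit 2) (nat_lit 268) (nat_lit 275) (nat_lit 237)) (PT.nd (nat_lit 78) (PT.lf (nat_lit 38152) (nat_lit 6) (nat_lit 502) (nat_lit 2) (nat_lit 269) (nat_lit 275) (nat_lit 236)) (PT.lf (nat_lit 36328) (nat_lit 6) (nat_lit 478) (nat_lit 2) (nat_lit 270) (nat_lit 275) (nat_lit 235)))))) (PT.nd (nat_lit 312) (PT.nd (nat_lit 156) (PT.nd (nat_lit 78) (PT.lf (nat_lit 35188) (nat_lit 6) (nat_lit 463) (nat_lit 2) (nat_lit 271) (nat_lit 275) (nat_lit 234)) (PT.lf (nat_lit 34276) (nat_lit 6) (nat_lit 451) (nat_lit 2) (nat_lit 272) (nat_lit 275) (nat_lit 233))) (PT.nd (nat_lit 78) (PT.lf (nat_lit 33364) (nat_lit 6) (nat_lit 439) (nat_lit 2) (nat_lit 273) (nat_lit 275) (nat_lit 232)) (PT.lf (nat_lit 32528) (nat_lit 6) (nat_lit 428) (nat_lit 2) (nat_lit 274) (nat_lit 275) (nat_lit 231)))) (PT.nd (nat_lit 156) (PT.nd (nat_lit 78) (PT.lf (nat_lit 31616) (nat_lit 3) (nat_lit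 416) (nat_lit 0) (nat_lit 275) (nat_lit 275) (nat_lit 230)) (PT.lf (nat_lit 30704) (nat_lit 6) (nat_lit 404) (nat_lit 0) (nat_lit 276) (nat_lit 275) (nat_lit 229))) (PT.nd (nat_lit 78) (PT.lf (nat_lit 29792) (nat_lit 6) (nat_lit 392) (nat_lit 0) (nat_lit 277) (nat_lit 275) (nat_lit 228)) (PT.nd (nat_lit 78) (PT.lf (nat_lit 28956) (nat_lit 6) (nat_lit 381) (nat_lit 0) (nat_lit 278) (nat_lit 275) (nat_lit 227)) (PT.lf (nat_lit 28120) (nat_lit 6) (nat_lit 370) (nat_lit 0) (nat_lit 279) (nat_lit 275) (nat_lit 226))))))))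
noncomputable def pc79 : PT := (PT.nd (nat_lit 76518) (PT.nd (nat_lit 624) (PT.nd (nat_lit 312) (PT.nd (nat_lit 156) (PT.nd (nat_lit 78) (PT.lf (nat_lit 27284) (nat_lit 6) (nat_lit 359) (nat_lit 0) (nat_lit 280) (nat_lit 275) (nat_lit 225)) (PT.lf (nat_lit 26448) (nat_lit 6) (nat_lit 348) (nat_lit 0) (nat_lit 281) (nat_lit 275) (nat_lit 224))) (PT.nd (nat_lit 78) (PT.lf (nat_lit 25688) (nat_lit 6) (nat_lit 338) (nat_lit 0) (nat_lit 282) (nat_lit 275) (nat_lit 223)) (PT.lf (nat_lit 24928) (nat_lit 6) (nat_lit 328) (nat_lit 0) (nat_lit 283) (nat_lit 275) (nat_lit 222)))) (PT.nd (nat_lit 156) (PT.nd (nat_lit 78) (PT.lf (nat_lit 24168) (nat_lit 6) (nat_lit 318) (nat_lit 0) (nat_lit 284) (nat_lit 275) (nat_lit 221)) (PT.lf (nat_lit 23408) (nat_lit 6) (nat_lit 308) (nat_lit 0) (nat_lit 285) (nat_lit 275) (nat_lit 220))) (PT.nd (nat_lit 78) (PT.lf (nat_lit 22724) (nat_lit 6) (nat_lit 299) (nat_lit 0) (nat_lit 286) (nat_lit 275) (nat_lit 219)) (PT.lf (nat_lit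 22040) (nat_lit 6) (nat_lit 290) (nat_lit 0) (nat_lit 287) (nat_lit 275) (nat_lit 218))))) (PT.nd (nat_lit 75504) (PT.nd (nat_lit 156) (PT.nd (nat_lit 78) (PT.lf (nat_lit 21356) (nat_lit 6) (nat_lit 281) (nat_lit 0) (nat_lit 288) (nat_lit 275) (nat_lit 217)) (PT.lf (nat_lit 20672) (nat_lit 6) (nat_lit 272) (nat_lit 0) (nat_lit 289) (nat_lit 275) (nat_lit 216))) (PT.nd (nat_lit 75270) (PT.lf (nat_lit 20064) (nat_lit 6) (nat_lit 264) (nat_lit 0) (nat_lit 290) (nat_lit 275) (nat_lit 215)) (PT.lf (nat_lit 19456) (nat_lit 6) (nat_lit 256) (nat_lit 5) (nat_lit 214) (nat_lit 276) (nat_lit 290)))) (PT.nd (nat_lit 156) (PT.nd (nat_lit 78) (PT.lf (nat_lit 20140) (nat_lit 6) (nat_lit 265) (nat_lit 5) (nat_lit 215) (nat_lit 276) (nat_lit 289)) (PT.lf (nat_lit 20748) (nat_lit 6) (nat_lit 273) (nat_lit 5) (nat_lit 216) (nat_lit 276) (nat_lit 288))) (PT.nd (nat_lit 78) (PT.lf (nat_lit 21432) (nat_lit 6) (nat_lit 282) (nat_lit 5) (nat_lit 217) (nat_lit 276) (nat_lit 287))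 (PT.nd (nat_lit 78) (PT.lf (nat_lit 22116) (nat_lit 6) (nat_lit 291) (nat_lit 5) (nat_lit 218) (nat_lit 276) (nat_lit 286)) (PT.lf (nat_lit 22800) (nat_lit 6) (nat_lit 300) (nat_lit 5) (nat_lit 219) (nat_lit 276) (nat_lit 285))))))) (PT.nd (nat_lit 702) (PT.nd (nat_lit 312) (PT.nd (nat_lit 156) (PT.nd (nat_lit 78) (PT.lf (nat_lit 23484) (nat_lit 6) (nat_lit 309) (nat_lit 5) (nat_lit 220) (nat_lit 276) (nat_lit 284)) (PT.lf (nat_lit 24244) (nat_lit 6) (nat_lit 319) (nat_lit 5) (nat_lit 221) (nat_lit 276) (nat_lit 283))) (PT.nd (nat_lit 78) (PT.lf (nat_lit 25004) (nat_lit 6) (nat_lit 329) (nat_lit 5) (nat_lit 222) (nat_lit 276) (nat_lit 282)) (PT.lf (nat_lit 25764) (nat_lit 6) (nat_lit 339) (nat_lit 5) (nat_lit 223) (nat_lit 276) (nat_lit 281)))) (PT.nd (nat_lit 156) (PT.nd (nat_lit 78) (PT.lf (nat_lit 26524) (nat_lit 6) (nat_lit 349) (nat_lit 5) (nat_lit 224) (nat_lit 276) (nat_lit 280)) (PT.lf (nat_lit 27360) (nat_lit 6) (nat_lit 360) (nat_lit 5) (nat_lit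 225) (nat_lit 276) (nat_lit 279))) (PT.nd (nat_lit 78) (PT.lf (nat_lit 28196) (nat_lit 6) (nat_lit 371) (nat_lit 5) (nat_lit 226) (nat_lit 276) (nat_lit 278)) (PT.nd (nat_lit 78) (PT.lf (nat_lit 29032) (nat_lit 6) (nat_lit 382) (nat_lit 5) (nat_lit 227) (nat_lit 276) (nat_lit 277)) (PT.lf (nat_lit 29868) (nat_lit 3) (nat_lit 393) (nat_lit 4) (nat_lit 228) (nat_lit 276) (nat_lit 276)))))) (PT.nd (nat_lit 312) (PT.nd (nat_lit 156) (PT.nd (nat_lit 78) (PT.lf (nat_lit 30704) (nat_lit 6) (nat_lit 404) (nat_lit 4) (nat_lit 229) (nat_lit 276) (nat_lit 275)) (PT.lf (nat_lit 31540) (nat_lit 6) (nat_lit 415) (nat_lit 4) (nat_lit 230) (nat_lit 276) (nat_lit 274))) (PT.nd (nat_lit 78) (PT.lf (nat_lit 32452) (nat_lit 6) (nat_lit 427) (nat_lit 4) (nat_lit 231) (nat_lit 276) (nat_lit 273)) (PT.lf (nat_lit 33288) (nat_lit 6) (nat_lit 438) (nat_lit 4) (nat_lit 232) (nat_lit 276) (nat_lit 272)))) (PT.nd (nat_lit 156) (PT.nd (nat_lit 78) (PT.lf (nat_lit 34200) (nat_lit 6)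 (nat_lit 450) (nat_lit 4) (nat_lit 233) (nat_lit 276) (nat_lit 271)) (PT.lf (nat_lit 35112) (nat_lit 6) (nat_lit 462) (nat_lit 4) (nat_lit 234) (nat_lit 276) (nat_lit 270))) (PT.nd (nat_lit 78) (PT.lf (nat_lit 36252) (nat_lit 6) (nat_lit 477) (nat_lit 4) (nat_lit 235) (nat_lit 276) (nat_lit 269)) (PT.nd (nat_lit 78) (PT.lf (nat_lit 38076) (nat_lit 6) (nat_lit 501) (nat_lit 4) (nat_lit 236) (nat_lit 276) (nat_lit 268)) (PT.lf (nat_lit 39824) (nat_lit 6) (nat_lit 524) (nat_lit 4) (nat_lit 237) (nat_lit 276) (nat_lit 267))))))))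
noncomputable def pc80 : PT := (PT.nd (nat_lit 1326) (PT.nd (nat_lit 624) (PT.nd (nat_lit 312) (PT.nd (nat_lit 156) (PT.nd (nat_lit 78) (PT.lf (nat_lit 41496) (nat_lit 6) (nat_lit 546) (nat_lit 4) (nat_lit 238) (nat_lit 276) (nat_lit 266)) (PT.lf (nat_lit 43092) (nat_lit 6) (nat_lit 567) (nat_lit 4) (nat_lit 239) (nat_lit 276) (nat_lit 265))) (PT.nd (nat_lit 78) (PT.lf (nat_lit 44612) (nat_lit 6) (nat_lit 587) (nat_lit 4) (nat_lit 240) (nat_lit 276) (nat_lit 264)) (PT.lf (nat_lit 46056) (nat_lit 6) (nat_lit 606) (nat_lit 4) (nat_lit 241) (nat_lit 276) (nat_lit 263)))) (PT.nd (nat_lit 156) (PT.nd (nat_lit 78) (PT.lf (nat_lit 47424) (nat_lit 6) (nat_lit 624) (nat_lit 4) (nat_lit 242) (nat_lit 276) (nat_lit 262)) (PT.lf (nat_lit 48716) (nat_lit 6) (nat_lit 641) (nat_lit 4) (nat_lit 243) (nat_lit 276) (nat_lit 261))) (PT.nd (nat_lit 78) (PT.lf (nat_lit 49932) (nat_lit 6) (nat_lit 657) (nat_lit 4) (nat_lit 244) (nat_lit 276) (nat_lit 260)) (PT.lf (nat_lit 49856)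 (nat_lit 6) (nat_lit 656) (nat_lit 4) (nat_lit 245) (nat_lit 276) (nat_lit 259))))) (PT.nd (nat_lit 312) (PT.nd (nat_lit 156) (PT.nd (nat_lit 78) (PT.lf (nat_lit 49780) (nat_lit 6) (nat_lit 655) (nat_lit 4) (nat_lit 246) (nat_lit 276) (nat_lit 258)) (PT.lf (nat_lit 49704) (nat_lit 6) (nat_lit 654) (nat_lit 4) (nat_lit 247) (nat_lit 276) (nat_lit 257))) (PT.nd (nat_lit 78) (PT.lf (nat_lit 49628) (nat_lit 6) (nat_lit 653) (nat_lit 4) (nat_lit 248) (nat_lit 276) (nat_lit 256)) (PT.lf (nat_lit 49552) (nat_lit 6) (nat_lit 652) (nat_lit 4) (nat_lit 249) (nat_lit 276) (nat_lit 255)))) (PT.nd (nat_lit 156) (PT.nd (nat_lit 78) (PT.lf (nat_lit 49476) (nat_lit 6) (nat_lit 651) (nat_lit 4) (nat_lit 250) (nat_lit 276) (nat_lit 254)) (PT.lf (nat_lit 49400) (nat_lit 6) (nat_lit 650) (nat_lit 4) (nat_lit 251) (nat_lit 276) (nat_lit 253))) (PT.nd (nat_lit 78) (PT.lf (nat_lit 49324) (nat_lit 3) (nat_lit 649) (nat_lit 2) (nat_lit 252) (nat_lit 276) (nat_lit 252)) (PT.nd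 (nat_lit 78) (PT.lf (nat_lit 49400) (nat_lit 6) (nat_lit 650) (nat_lit 2) (nat_lit 253) (nat_lit 276) (nat_lit 251)) (PT.lf (nat_lit 49476) (nat_lit 6) (nat_lit 651) (nat_lit 2) (nat_lit 254) (nat_lit 276) (nat_lit 250))))))) (PT.nd (nat_lit 624) (PT.nd (nat_lit 312) (PT.nd (nat_lit 156) (PT.nd (nat_lit 78) (PT.lf (nat_lit 49552) (nat_lit 6) (nat_lit 652) (nat_lit 2) (nat_lit 255) (nat_lit 276) (nat_lit 249)) (PT.lf (nat_lit 49628) (nat_lit 6) (nat_lit 653) (nat_lit 2) (nat_lit 256) (nat_lit 276) (nat_lit 248))) (PT.nd (nat_lit 78) (PT.lf (nat_lit 49704) (nat_lit 6) (nat_lit 654) (nat_lit 2) (nat_lit 257) (nat_lit 276) (nat_lit 247)) (PT.lf (nat_lit 49780) (nat_lit 6) (nat_lit 655) (nat_lit 2) (nat_lit 258) (nat_lit 276) (nat_lit 246)))) (PT.nd (nat_lit 156) (PT.nd (nat_lit 78) (PT.lf (nat_lit 49856) (nat_lit 6) (nat_lit 656) (nat_lit 2) (nat_lit 259) (nat_lit 276) (nat_lit 245)) (PT.lf (nat_lit 49932) (nat_lit 6) (nat_lit 657) (nat_lit 2) (nat_lit 260)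 (nat_lit 276) (nat_lit 244))) (PT.nd (nat_lit 78) (PT.lf (nat_lit 48716) (nat_lit 6) (nat_lit 641) (nat_lit 2) (nat_lit 261) (nat_lit 276) (nat_lit 243)) (PT.lf (nat_lit 47424) (nat_lit 6) (nat_lit 624) (nat_lit 2) (nat_lit 262) (nat_lit 276) (nat_lit 242))))) (PT.nd (nat_lit 312) (PT.nd (nat_lit 156) (PT.nd (nat_lit 78) (PT.lf (nat_lit 46056) (nat_lit 6) (nat_lit 606) (nat_lit 2) (nat_lit 263) (nat_lit 276) (nat_lit 241)) (PT.lf (nat_lit 44612) (nat_lit 6) (nat_lit 587) (nat_lit 2) (nat_lit 264) (nat_lit 276) (nat_lit 240))) (PT.nd (nat_lit 78) (PT.lf (nat_lit 43092) (nat_lit 6) (nat_lit 567) (nat_lit 2) (nat_lit 265) (nat_lit 276) (nat_lit 239)) (PT.lf (nat_lit 41496) (nat_lit 6) (nat_lit 546) (nat_lit 2) (nat_lit 266) (nat_lit 276) (nat_lit 238)))) (PT.nd (nat_lit 156) (PT.nd (nat_lit 78) (PT.lf (nat_lit 39824) (nat_lit 6) (nat_lit 524) (nat_lit 2) (nat_lit 267) (nat_lit 276) (nat_lit 237)) (PT.lf (nat_lit 38076) (nat_lit 6) (nat_lit 501) (nat_lit 2)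 (nat_lit 268) (nat_lit 276) (nat_lit 236))) (PT.nd (nat_lit 78) (PT.lf (nat_lit 36252) (nat_lit 6) (nat_lit 477) (nat_lit 2) (nat_lit 269) (nat_lit 276) (nat_lit 235)) (PT.nd (nat_lit 78) (PT.lf (nat_lit 35112) (nat_lit 6) (nat_lit 462) (nat_lit 2) (nat_lit 270) (nat_lit 276) (nat_lit 234)) (PT.lf (nat_lit 34200) (nat_lit 6) (nat_lit 450) (nat_lit 2) (nat_lit 271) (nat_lit 276) (nat_lit 233))))))))
noncomputable def pc81 : PT := (PT.nd (nat_lit 1326) (PT.nd (nat_lit 624) (PT.nd (nat_lit 312) (PT.nd (nat_lit 156) (PT.nd (nat_lit 78) (PT.lf (nat_lit 33288) (nat_lit 6) (nat_lit 438) (nat_lit 2) (nat_lit 272) (nat_lit 276) (nat_lit 232)) (PT.lf (nat_lit 32452) (nat_lit 6) (nat_lit 427) (nat_lit 2) (nat_lit 273) (nat_lit 276) (nat_lit 231))) (PT.nd (nat_lit 78) (PT.lf (nat_lit 31540) (nat_lit 6) (nat_lit 415) (nat_lit 2) (nat_lit 274) (nat_lit 276) (nat_lit 230)) (PT.lf (nat_lit 30704) (nat_lit 6) (nat_lit 404) (nat_lit 2) (nat_lit 275) (nat_lit 276) (nat_lit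 229)))) (PT.nd (nat_lit 156) (PT.nd (nat_lit 78) (PT.lf (nat_lit 29868) (nat_lit 3) (nat_lit 393) (nat_lit 0) (nat_lit 276) (nat_lit 276) (nat_lit 228)) (PT.lf (nat_lit 29032) (nat_lit 6) (nat_lit 382) (nat_lit 0) (nat_lit 277) (nat_lit 276) (nat_lit 227))) (PT.nd (nat_lit 78) (PT.lf (nat_lit 28196) (nat_lit 6) (nat_lit 371) (nat_lit 0) (nat_lit 278) (nat_lit 276) (nat_lit 226)) (PT.lf (nat_lit 27360) (nat_lit 6) (nat_lit 360) (nat_lit 0) (nat_lit 279) (nat_lit 276) (nat_lit 225))))) (PT.nd (nat_lit 312) (PT.nd (nat_lit 156) (PT.nd (nat_lit 78) (PT.lf (nat_lit 26524) (nat_lit 6) (nat_lit 349) (nat_lit 0) (nat_lit 280) (nat_lit 276) (nat_lit 224)) (PT.lf (nat_lit 25764) (nat_lit 6) (nat_lit 339) (nat_lit 0) (nat_lit 281) (nat_lit 276) (nat_lit 223))) (PT.nd (nat_lit 78) (PT.lf (nat_lit 25004) (nat_lit 6) (nat_lit 329) (nat_lit 0) (nat_lit 282) (nat_lit 276) (nat_lit 222)) (PT.lf (nat_lit 24244) (nat_lit 6) (nat_lit 319) (nat_lit 0) (nat_lit 283) (nat_lit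 276) (nat_lit 221)))) (PT.nd (nat_lit 156) (PT.nd (nat_lit 78) (PT.lf (nat_lit 23484) (nat_lit 6) (nat_lit 309) (nat_lit 0) (nat_lit 284) (nat_lit 276) (nat_lit 220)) (PT.lf (nat_lit 22800) (nat_lit 6) (nat_lit 300) (nat_lit 0) (nat_lit 285) (nat_lit 276) (nat_lit 219))) (PT.nd (nat_lit 78) (PT.lf (nat_lit 22116) (nat_lit 6) (nat_lit 291) (nat_lit 0) (nat_lit 286) (nat_lit 276) (nat_lit 218)) (PT.nd (nat_lit 78) (PT.lf (nat_lit 21432) (nat_lit 6) (nat_lit 282) (nat_lit 0) (nat_lit 287) (nat_lit 276) (nat_lit 217)) (PT.lf (nat_lit 20748) (nat_lit 6) (nat_lit 273) (nat_lit 0) (nat_lit 288) (nat_lit 276) (nat_lit 216))))))) (PT.nd (nat_lit 75816) (PT.nd (nat_lit 75426) (PT.nd (nat_lit 75270) (PT.nd (nat_lit 78) (PT.lf (nat_lit 20140) (nat_lit 6) (nat_lit 265) (nat_lit 0) (nat_lit 289) (nat_lit 276) (nat_lit 215)) (PT.lf (nat_lit 19456) (nat_lit 6) (nat_lit 256) (nat_lit 0) (nat_lit 290) (nat_lit 276) (nat_lit 214))) (PT.nd (nat_lit 78) (PT.lf (nat_lit 18924)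 (nat_lit 6) (nat_lit 249) (nat_lit 5) (nat_lit 213) (nat_lit 277) (nat_lit 290)) (PT.lf (nat_lit 19532) (nat_lit 6) (nat_lit 257) (nat_lit 5) (nat_lit 214) (nat_lit 277) (nat_lit 289)))) (PT.nd (nat_lit 156) (PT.nd (nat_lit 78) (PT.lf (nat_lit 20216) (nat_lit 6) (nat_lit 266) (nat_lit 5) (nat_lit 215) (nat_lit 277) (nat_lit 288)) (PT.lf (nat_lit 20824) (nat_lit 6) (nat_lit 274) (nat_lit 5) (nat_lit 216) (nat_lit 277) (nat_lit 287))) (PT.nd (nat_lit 78) (PT.lf (nat_lit 21508) (nat_lit 6) (nat_lit 283) (nat_lit 5) (nat_lit 217) (nat_lit 277) (nat_lit 286)) (PT.nd (nat_lit 78) (PT.lf (nat_lit 22192) (nat_lit 6) (nat_lit 292) (nat_lit 5) (nat_lit 218) (nat_lit 277) (nat_lit 285)) (PT.lf (nat_lit 22876) (nat_lit 6) (nat_lit 301) (nat_lit 5) (nat_lit 219) (nat_lit 277) (nat_lit 284)))))) (PT.nd (nat_lit 312) (PT.nd (nat_lit 156) (PT.nd (nat_lit 78) (PT.lf (nat_lit 23560) (nat_lit 6) (nat_lit 310) (nat_lit 5) (nat_lit 220) (nat_lit 277) (nat_lit 283)) (PT.lf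 (nat_lit 24320) (nat_lit 6) (nat_lit 320) (nat_lit 5) (nat_lit 221) (nat_lit 277) (nat_lit 282))) (PT.nd (nat_lit 78) (PT.lf (nat_lit 25080) (nat_lit 6) (nat_lit 330) (nat_lit 5) (nat_lit 222) (nat_lit 277) (nat_lit 281)) (PT.lf (nat_lit 25840) (nat_lit 6) (nat_lit 340) (nat_lit 5) (nat_lit 223) (nat_lit 277) (nat_lit 280)))) (PT.nd (nat_lit 156) (PT.nd (nat_lit 78) (PT.lf (nat_lit 26600) (nat_lit 6) (nat_lit 350) (nat_lit 5) (nat_lit 224) (nat_lit 277) (nat_lit 279)) (PT.lf (nat_lit 27436) (nat_lit 6) (nat_lit 361) (nat_lit 5) (nat_lit 225) (nat_lit 277) (nat_lit 278))) (PT.nd (nat_lit 78) (PT.lf (nat_lit 28272) (nat_lit 3) (nat_lit 372) (nat_lit 4) (nat_lit 226) (nat_lit 277) (nat_lit 277)) (PT.nd (nat_lit 78) (PT.lf (nat_lit 29032) (nat_lit 6) (nat_lit 382) (nat_lit 4) (nat_lit 227) (nat_lit 277) (nat_lit 276)) (PT.lf (nat_lit 29792) (nat_lit 6) (nat_lit 392) (nat_lit 4) (nat_lit 228) (nat_lit 277) (nat_lit 275))))))))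
noncomputable def pc82 : PT := (PT.nd (nat_lit 1326) (PT.nd (nat_lit 624) (PT.nd (nat_lit 312) (PT.nd (nat_lit 156) (PT.nd (nat_lit 78) (PT.lf (nat_lit 30628) (nat_lit 6) (nat_lit 403) (nat_lit 4) (nat_lit 229) (nat_lit 277) (nat_lit 274)) (PT.lf (nat_lit 31464) (nat_lit 6) (nat_lit 414) (nat_lit 4) (nat_lit 230) (nat_lit 277) (nat_lit 273))) (PT.nd (nat_lit 78) (PT.lf (nat_lit 32376) (nat_lit 6) (nat_lit 426) (nat_lit 4) (nat_lit 231) (nat_lit 277) (nat_lit 272)) (PT.lf (nat_lit 33212) (nat_lit 6) (nat_lit 437) (nat_lit 4) (nat_lit 232) (nat_lit 277) (nat_lit 271)))) (PT.nd (nat_lit 156) (PT.nd (nat_lit 78) (PT.lf (nat_lit 34124) (nat_lit 6) (nat_lit 449) (nat_lit 4) (nat_lit 233) (nat_lit 277) (nat_lit 270)) (PT.lf (nat_lit 35036) (nat_lit 6) (nat_lit 461) (nat_lit 4) (nat_lit 234) (nat_lit 277) (nat_lit 269))) (PT.nd (nat_lit 78) (PT.lf (nat_lit 36176) (nat_lit 6) (nat_lit 476) (nat_lit 4) (nat_lit 235) (nat_lit 277) (nat_lit 268)) (PT.lf (nat_lit 38000)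 (nat_lit 6) (nat_lit 500) (nat_lit 4) (nat_lit 236) (nat_lit 277) (nat_lit 267))))) (PT.nd (nat_lit 312) (PT.nd (nat_lit 156) (PT.nd (nat_lit 78) (PT.lf (nat_lit 39748) (nat_lit 6) (nat_lit 523) (nat_lit 4) (nat_lit 237) (nat_lit 277) (nat_lit 266)) (PT.lf (nat_lit 41420) (nat_lit 6) (nat_lit 545) (nat_lit 4) (nat_lit 238) (nat_lit 277) (nat_lit 265))) (PT.nd (nat_lit 78) (PT.lf (nat_lit 43016) (nat_lit 6) (nat_lit 566) (nat_lit 4) (nat_lit 239) (nat_lit 277) (nat_lit 264)) (PT.lf (nat_lit 44536) (nat_lit 6) (nat_lit 586) (nat_lit 4) (nat_lit 240) (nat_lit 277) (nat_lit 263)))) (PT.nd (nat_lit 156) (PT.nd (nat_lit 78) (PT.lf (nat_lit 45980) (nat_lit 6) (nat_lit 605) (nat_lit 4) (nat_lit 241) (nat_lit 277) (nat_lit 262)) (PT.lf (nat_lit 47348) (nat_lit 6) (nat_lit 623) (nat_lit 4) (nat_lit 242) (nat_lit 277) (nat_lit 261))) (PT.nd (nat_lit 78) (PT.lf (nat_lit 48640) (nat_lit 6) (nat_lit 640) (nat_lit 4) (nat_lit 243) (nat_lit 277) (nat_lit 260)) (PT.nd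 (nat_lit 78) (PT.lf (nat_lit 48564) (nat_lit 6) (nat_lit 639) (nat_lit 4) (nat_lit 244) (nat_lit 277) (nat_lit 259)) (PT.lf (nat_lit 48488) (nat_lit 6) (nat_lit 638) (nat_lit 4) (nat_lit 245) (nat_lit 277) (nat_lit 258))))))) (PT.nd (nat_lit 702) (PT.nd (nat_lit 312) (PT.nd (nat_lit 156) (PT.nd (nat_lit 78) (PT.lf (nat_lit 48412) (nat_lit 6) (nat_lit 637) (nat_lit 4) (nat_lit 246) (nat_lit 277) (nat_lit 257)) (PT.lf (nat_lit 48336) (nat_lit 6) (nat_lit 636) (nat_lit 4) (nat_lit 247) (nat_lit 277) (nat_lit 256))) (PT.nd (nat_lit 78) (PT.lf (nat_lit 48260) (nat_lit 6) (nat_lit 635) (nat_lit 4) (nat_lit 248) (nat_lit 277) (nat_lit 255)) (PT.lf (nat_lit 48184) (nat_lit 6) (nat_lit 634) (nat_lit 4) (nat_lit 249) (nat_lit 277) (nat_lit 254)))) (PT.nd (nat_lit 156) (PT.nd (nat_lit 78) (PT.lf (nat_lit 48108) (nat_lit 6) (nat_lit 633) (nat_lit 4) (nat_lit 250) (nat_lit 277) (nat_lit 253)) (PT.lf (nat_lit 48032) (nat_lit 6) (nat_lit 632) (nat_lit 4) (nat_lit 251)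 (nat_lit 277) (nat_lit 252))) (PT.nd (nat_lit 78) (PT.lf (nat_lit 48032) (nat_lit 6) (nat_lit 632) (nat_lit 2) (nat_lit 252) (nat_lit 277) (nat_lit 251)) (PT.nd (nat_lit 78) (PT.lf (nat_lit 48108) (nat_lit 6) (nat_lit 633) (nat_lit 2) (nat_lit 253) (nat_lit 277) (nat_lit 250)) (PT.lf (nat_lit 48184) (nat_lit 6) (nat_lit 634) (nat_lit 2) (nat_lit 254) (nat_lit 277) (nat_lit 249)))))) (PT.nd (nat_lit 312) (PT.nd (nat_lit 156) (PT.nd (nat_lit 78) (PT.lf (nat_lit 48260) (nat_lit 6) (nat_lit 635) (nat_lit 2) (nat_lit 255) (nat_lit 277) (nat_lit 248)) (PT.lf (nat_lit 48336) (nat_lit 6) (nat_lit 636) (nat_lit 2) (nat_lit 256) (nat_lit 277) (nat_lit 247))) (PT.nd (nat_lit 78) (PT.lf (nat_lit 48412) (nat_lit 6) (nat_lit 637) (nat_lit 2) (nat_lit 257) (nat_lit 277) (nat_lit 246)) (PT.lf (nat_lit 48488) (nat_lit 6) (nat_lit 638) (nat_lit 2) (nat_lit 258) (nat_lit 277) (nat_lit 245)))) (PT.nd (nat_lit 156) (PT.nd (nat_lit 78) (PT.lf (nat_lit 48564) (nat_lit 6) (nat_lit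 639) (nat_lit 2) (nat_lit 259) (nat_lit 277) (nat_lit 244)) (PT.lf (nat_lit 48640) (nat_lit 6) (nat_lit 640) (nat_lit 2) (nat_lit 260) (nat_lit 277) (nat_lit 243))) (PT.nd (nat_lit 78) (PT.lf (nat_lit 47348) (nat_lit 6) (nat_lit 623) (nat_lit 2) (nat_lit 261) (nat_lit 277) (nat_lit 242)) (PT.nd (nat_lit 78) (PT.lf (nat_lit 45980) (nat_lit 6) (nat_lit 605) (nat_lit 2) (nat_lit 262) (nat_lit 277) (nat_lit 241)) (PT.lf (nat_lit 44536) (nat_lit 6) (nat_lit 586) (nat_lit 2) (nat_lit 263) (nat_lit 277) (nat_lit 240))))))))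
noncomputable def pc83 : PT := (PT.nd (nat_lit 1326) (PT.nd (nat_lit 624) (PT.nd (nat_lit 312) (PT.nd (nat_lit 156) (PT.nd (nat_lit 78) (PT.lf (nat_lit 43016) (nat_lit 6) (nat_lit 566) (nat_lit 2) (nat_lit 264) (nat_lit 277) (nat_lit 239)) (PT.lf (nat_lit 41420) (nat_lit 6) (nat_lit 545) (nat_lit 2) (nat_lit 265) (nat_lit 277) (nat_lit 238))) (PT.nd (nat_lit 78) (PT.lf (nat_lit 39748) (nat_lit 6) (nat_lit 523) (nat_lit 2) (nat_lit 266) (nat_lit 277) (nat_lit 237)) (PT.lf (nat_lit 38000) (nat_lit 6) (nat_lit 500) (nat_lit 2) (nat_lit 267) (nat_lit 277) (nat_lit 236)))) (PT.nd (nat_lit 156) (PT.nd (nat_lit 78) (PT.lf (nat_lit 36176) (nat_lit 6) (nat_lit 476) (nat_lit 2) (nat_lit 268) (nat_lit 277) (nat_lit 235)) (PT.lf (nat_lit 35036) (nat_lit 6) (nat_lit 461) (nat_lit 2) (nat_lit 269) (nat_lit 277) (nat_lit 234))) (PT.nd (nat_lit 78) (PT.lf (nat_lit 34124) (nat_lit 6) (nat_lit 449) (nat_lit 2) (nat_lit 270) (nat_lit 277) (nat_lit 233)) (PT.lf (nat_lit 33212)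 (nat_lit 6) (nat_lit 437) (nat_lit 2) (nat_lit 271) (nat_lit 277) (nat_lit 232))))) (PT.nd (nat_lit 312) (PT.nd (nat_lit 156) (PT.nd (nat_lit 78) (PT.lf (nat_lit 32376) (nat_lit 6) (nat_lit 426) (nat_lit 2) (nat_lit 272) (nat_lit 277) (nat_lit 231)) (PT.lf (nat_lit 31464) (nat_lit 6) (nat_lit 414) (nat_lit 2) (nat_lit 273) (nat_lit 277) (nat_lit 230))) (PT.nd (nat_lit 78) (PT.lf (nat_lit 30628) (nat_lit 6) (nat_lit 403) (nat_lit 2) (nat_lit 274) (nat_lit 277) (nat_lit 229)) (PT.lf (nat_lit 29792) (nat_lit 6) (nat_lit 392) (nat_lit 2) (nat_lit 275) (nat_lit 277) (nat_lit 228)))) (PT.nd (nat_lit 156) (PT.nd (nat_lit 78) (PT.lf (nat_lit 29032) (nat_lit 6) (nat_lit 382) (nat_lit 2) (nat_lit 276) (nat_lit 277) (nat_lit 227)) (PT.lf (nat_lit 28272) (nat_lit 3) (nat_lit 372) (nat_lit 0) (nat_lit 277) (nat_lit 277) (nat_lit 226))) (PT.nd (nat_lit 78) (PT.lf (nat_lit 27436) (nat_lit 6) (nat_lit 361) (nat_lit 0) (nat_lit 278) (nat_lit 277) (nat_lit 225)) (PT.nd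 (nat_lit 78) (PT.lf (nat_lit 26600) (nat_lit 6) (nat_lit 350) (nat_lit 0) (nat_lit 279) (nat_lit 277) (nat_lit 224)) (PT.lf (nat_lit 25840) (nat_lit 6) (nat_lit 340) (nat_lit 0) (nat_lit 280) (nat_lit 277) (nat_lit 223))))))) (PT.nd (nat_lit 702) (PT.nd (nat_lit 312) (PT.nd (nat_lit 156) (PT.nd (nat_lit 78) (PT.lf (nat_lit 25080) (nat_lit 6) (nat_lit 330) (nat_lit 0) (nat_lit 281) (nat_lit 277) (nat_lit 222)) (PT.lf (nat_lit 24320) (nat_lit 6) (nat_lit 320) (nat_lit 0) (nat_lit 282) (nat_lit 277) (nat_lit 221))) (PT.nd (nat_lit 78) (PT.lf (nat_lit 23560) (nat_lit 6) (nat_lit 310) (nat_lit 0) (nat_lit 283) (nat_lit 277) (nat_lit 220)) (PT.lf (nat_lit 22876) (nat_lit 6) (nat_lit 301) (nat_lit 0) (nat_lit 284) (nat_lit 277) (nat_lit 219)))) (PT.nd (nat_lit 156) (PT.nd (nat_lit 78) (PT.lf (nat_lit 22192) (nat_lit 6) (nat_lit 292) (nat_lit 0) (nat_lit 285) (nat_lit 277) (nat_lit 218)) (PT.lf (nat_lit 21508) (nat_lit 6) (nat_lit 283) (nat_lit 0) (nat_lit 286)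 (nat_lit 277) (nat_lit 217))) (PT.nd (nat_lit 78) (PT.lf (nat_lit 20824) (nat_lit 6) (nat_lit 274) (nat_lit 0) (nat_lit 287) (nat_lit 277) (nat_lit 216)) (PT.nd (nat_lit 78) (PT.lf (nat_lit 20216) (nat_lit 6) (nat_lit 266) (nat_lit 0) (nat_lit 288) (nat_lit 277) (nat_lit 215)) (PT.lf (nat_lit 19532) (nat_lit 6) (nat_lit 257) (nat_lit 0) (nat_lit 289) (nat_lit 277) (nat_lit 214)))))) (PT.nd (nat_lit 75270) (PT.nd (nat_lit 75114) (PT.nd (nat_lit 75036) (PT.lf (nat_lit 18924) (nat_lit 6) (nat_lit 249) (nat_lit 0) (nat_lit 290) (nat_lit 277) (nat_lit 213)) (PT.lf (nat_lit 17860) (nat_lit 6) (nat_lit 235) (nat_lit 5) (nat_lit 211) (nat_lit 278) (nat_lit 291))) (PT.nd (nat_lit 78) (PT.lf (nat_lit 18392) (nat_lit 6) (nat_lit 242) (nat_lit 5) (nat_lit 212) (nat_lit 278) (nat_lit 290)) (PT.lf (nat_lit 19000) (nat_lit 6) (nat_lit 250) (nat_lit 5) (nat_lit 213) (nat_lit 278) (nat_lit 289)))) (PT.nd (nat_lit 156) (PT.nd (nat_lit 78) (PT.lf (nat_lit 19608) (nat_lit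 6) (nat_lit 258) (nat_lit 5) (nat_lit 214) (nat_lit 278) (nat_lit 288)) (PT.lf (nat_lit 20292) (nat_lit 6) (nat_lit 267) (nat_lit 5) (nat_lit 215) (nat_lit 278) (nat_lit 287))) (PT.nd (nat_lit 78) (PT.lf (nat_lit 20900) (nat_lit 6) (nat_lit 275) (nat_lit 5) (nat_lit 216) (nat_lit 278) (nat_lit 286)) (PT.nd (nat_lit 78) (PT.lf (nat_lit 21584) (nat_lit 6) (nat_lit 284) (nat_lit 5) (nat_lit 217) (nat_lit 278) (nat_lit 285)) (PT.lf (nat_lit 22268) (nat_lit 6) (nat_lit 293) (nat_lit 5) (nat_lit 218) (nat_lit 278) (nat_lit 284))))))))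
noncomputable def pc84 : PT := (PT.nd (nat_lit 1326) (PT.nd (nat_lit 624) (PT.nd (nat_lit 312) (PT.nd (nat_lit 156) (PT.nd (nat_lit 78) (PT.lf (nat_lit 22952) (nat_lit 6) (nat_lit 302) (nat_lit 5) (nat_lit 219) (nat_lit 278) (nat_lit 283)) (PT.lf (nat_lit 23636) (nat_lit 6) (nat_lit 311) (nat_lit 5) (nat_lit 220) (nat_lit 278) (nat_lit 282))) (PT.nd (nat_lit 78) (PT.lf (nat_lit 24396) (nat_lit 6) (nat_lit 321) (nat_lit 5) (nat_lit 221) (nat_lit 278) (nat_lit 281)) (PT.lf (nat_lit 25156) (nat_lit 6) (nat_lit 331) (nat_lit 5) (nat_lit 222) (nat_lit 278) (nat_lit 280)))) (PT.nd (nat_lit 156) (PT.nd (nat_lit 78) (PT.lf (nat_lit 25916) (nat_lit 6) (nat_lit 341) (nat_lit 5) (nat_lit 223) (nat_lit 278) (nat_lit 279)) (PT.lf (nat_lit 26676) (nat_lit 3) (nat_lit 351) (nat_lit 4) (nat_lit 224) (nat_lit 278) (nat_lit 278))) (PT.nd (nat_lit 78) (PT.lf (nat_lit 27436) (nat_lit 6) (nat_lit 361) (nat_lit 4) (nat_lit 225) (nat_lit 278) (nat_lit 277)) (PT.lf (nat_lit 28196)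 (nat_lit 6) (nat_lit 371) (nat_lit 4) (nat_lit 226) (nat_lit 278) (nat_lit 276))))) (PT.nd (nat_lit 312) (PT.nd (nat_lit 156) (PT.nd (nat_lit 78) (PT.lf (nat_lit 28956) (nat_lit 6) (nat_lit 381) (nat_lit 4) (nat_lit 227) (nat_lit 278) (nat_lit 275)) (PT.lf (nat_lit 29716) (nat_lit 6) (nat_lit 391) (nat_lit 4) (nat_lit 228) (nat_lit 278) (nat_lit 274))) (PT.nd (nat_lit 78) (PT.lf (nat_lit 30552) (nat_lit 6) (nat_lit 402) (nat_lit 4) (nat_lit 229) (nat_lit 278) (nat_lit 273)) (PT.lf (nat_lit 31388) (nat_lit 6) (nat_lit 413) (nat_lit 4) (nat_lit 230) (nat_lit 278) (nat_lit 272)))) (PT.nd (nat_lit 156) (PT.nd (nat_lit 78) (PT.lf (nat_lit 32300) (nat_lit 6) (nat_lit 425) (nat_lit 4) (nat_lit 231) (nat_lit 278) (nat_lit 271)) (PT.lf (nat_lit 33136) (nat_lit 6) (nat_lit 436) (nat_lit 4) (nat_lit 232) (nat_lit 278) (nat_lit 270))) (PT.nd (nat_lit 78) (PT.lf (nat_lit 34048) (nat_lit 6) (nat_lit 448) (nat_lit 4) (nat_lit 233) (nat_lit 278) (nat_lit 269)) (PT.nd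 (nat_lit 78) (PT.lf (nat_lit 34960) (nat_lit 6) (nat_lit 460) (nat_lit 4) (nat_lit 234) (nat_lit 278) (nat_lit 268)) (PT.lf (nat_lit 36100) (nat_lit 6) (nat_lit 475) (nat_lit 4) (nat_lit 235) (nat_lit 278) (nat_lit 267))))))) (PT.nd (nat_lit 702) (PT.nd (nat_lit 312) (PT.nd (nat_lit 156) (PT.nd (nat_lit 78) (PT.lf (nat_lit 37924) (nat_lit 6) (nat_lit 499) (nat_lit 4) (nat_lit 236) (nat_lit 278) (nat_lit 266)) (PT.lf (nat_lit 39672) (nat_lit 6) (nat_lit 522) (nat_lit 4) (nat_lit 237) (nat_lit 278) (nat_lit 265))) (PT.nd (nat_lit 78) (PT.lf (nat_lit 41344) (nat_lit 6) (nat_lit 544) (nat_lit 4) (nat_lit 238) (nat_lit 278) (nat_lit 264)) (PT.lf (nat_lit 42940) (nat_lit 6) (nat_lit 565) (nat_lit 4) (nat_lit 239) (nat_lit 278) (nat_lit 263)))) (PT.nd (nat_lit 156) (PT.nd (nat_lit 78) (PT.lf (nat_lit 44460) (nat_lit 6) (nat_lit 585) (nat_lit 4) (nat_lit 240) (nat_lit 278) (nat_lit 262)) (PT.lf (nat_lit 45904) (nat_lit 6) (nat_lit 604) (nat_lit 4) (nat_lit 241)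 (nat_lit 278) (nat_lit 261))) (PT.nd (nat_lit 78) (PT.lf (nat_lit 47272) (nat_lit 6) (nat_lit 622) (nat_lit 4) (nat_lit 242) (nat_lit 278) (nat_lit 260)) (PT.nd (nat_lit 78) (PT.lf (nat_lit 47196) (nat_lit 6) (nat_lit 621) (nat_lit 4) (nat_lit 243) (nat_lit 278) (nat_lit 259)) (PT.lf (nat_lit 47120) (nat_lit 6) (nat_lit 620) (nat_lit 4) (nat_lit 244) (nat_lit 278) (nat_lit 258)))))) (PT.nd (nat_lit 312) (PT.nd (nat_lit 156) (PT.nd (nat_lit 78) (PT.lf (nat_lit 47044) (nat_lit 6) (nat_lit 619) (nat_lit 4) (nat_lit 245) (nat_lit 278) (nat_lit 257)) (PT.lf (nat_lit 46968) (nat_lit 6) (nat_lit 618) (nat_lit 4) (nat_lit 246) (nat_lit 278) (nat_lit 256))) (PT.nd (nat_lit 78) (PT.lf (nat_lit 46892) (nat_lit 6) (nat_lit 617) (nat_lit 4) (nat_lit 247) (nat_lit 278) (nat_lit 255)) (PT.lf (nat_lit 46816) (nat_lit 6) (nat_lit 616) (nat_lit 4) (nat_lit 248) (nat_lit 278) (nat_lit 254)))) (PT.nd (nat_lit 156) (PT.nd (nat_lit 78) (PT.lf (nat_lit 46740) (nat_lit 6) (nat_lit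 615) (nat_lit 4) (nat_lit 249) (nat_lit 278) (nat_lit 253)) (PT.lf (nat_lit 46664) (nat_lit 6) (nat_lit 614) (nat_lit 4) (nat_lit 250) (nat_lit 278) (nat_lit 252))) (PT.nd (nat_lit 78) (PT.lf (nat_lit 46588) (nat_lit 3) (nat_lit 613) (nat_lit 2) (nat_lit 251) (nat_lit 278) (nat_lit 251)) (PT.nd (nat_lit 78) (PT.lf (nat_lit 46664) (nat_lit 6) (nat_lit 614) (nat_lit 2) (nat_lit 252) (nat_lit 278) (nat_lit 250)) (PT.lf (nat_lit 46740) (nat_lit 6) (nat_lit 615) (nat_lit 2) (nat_lit 253) (nat_lit 278) (nat_lit 249))))))))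
noncomputable def pc85 : PT := (PT.nd (nat_lit 1326) (PT.nd (nat_lit 624) (PT.nd (nat_lit 312) (PT.nd (nat_lit 156) (PT.nd (nat_lit 78) (PT.lf (nat_lit 46816) (nat_lit 6) (nat_lit 616) (nat_lit 2) (nat_lit 254) (nat_lit 278) (nat_lit 248)) (PT.lf (nat_lit 46892) (nat_lit 6) (nat_lit 617) (nat_lit 2) (nat_lit 255) (nat_lit 278) (nat_lit 247))) (PT.nd (nat_lit 78) (PT.lf (nat_lit 46968) (nat_lit 6) (nat_lit 618) (nat_lit 2) (nat_lit 256) (nat_lit 278) (nat_lit 246)) (PT.lf (nat_lit 47044) (nat_lit 6) (nat_lit 619) (nat_lit 2) (nat_lit 257) (nat_lit 278) (nat_lit 245)))) (PT.nd (nat_lit 156) (PT.nd (nat_lit 78) (PT.lf (nat_lit 47120) (nat_lit 6) (nat_lit 620) (nat_lit 2) (nat_lit 258) (nat_lit 278) (nat_lit 244)) (PT.lf (nat_lit 47196) (nat_lit 6) (nat_lit 621) (nat_lit 2) (nat_lit 259) (nat_lit 278) (nat_lit 243))) (PT.nd (nat_lit 78) (PT.lf (nat_lit 47272) (nat_lit 6) (nat_lit 622) (nat_lit 2) (nat_lit 260) (nat_lit 278) (nat_lit 242)) (PT.lf (nat_lit 45904)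 (nat_lit 6) (nat_lit 604) (nat_lit 2) (nat_lit 261) (nat_lit 278) (nat_lit 241))))) (PT.nd (nat_lit 312) (PT.nd (nat_lit 156) (PT.nd (nat_lit 78) (PT.lf (nat_lit 44460) (nat_lit 6) (nat_lit 585) (nat_lit 2) (nat_lit 262) (nat_lit 278) (nat_lit 240)) (PT.lf (nat_lit 42940) (nat_lit 6) (nat_lit 565) (nat_lit 2) (nat_lit 263) (nat_lit 278) (nat_lit 239))) (PT.nd (nat_lit 78) (PT.lf (nat_lit 41344) (nat_lit 6) (nat_lit 544) (nat_lit 2) (nat_lit 264) (nat_lit 278) (nat_lit 238)) (PT.lf (nat_lit 39672) (nat_lit 6) (nat_lit 522) (nat_lit 2) (nat_lit 265) (nat_lit 278) (nat_lit 237)))) (PT.nd (nat_lit 156) (PT.nd (nat_lit 78) (PT.lf (nat_lit 37924) (nat_lit 6) (nat_lit 499) (nat_lit 2) (nat_lit 266) (nat_lit 278) (nat_lit 236)) (PT.lf (nat_lit 36100) (nat_lit 6) (nat_lit 475) (nat_lit 2) (nat_lit 267) (nat_lit 278) (nat_lit 235))) (PT.nd (nat_lit 78) (PT.lf (nat_lit 34960) (nat_lit 6) (nat_lit 460) (nat_lit 2) (nat_lit 268) (nat_lit 278) (nat_lit 234)) (PT.nd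 (nat_lit 78) (PT.lf (nat_lit 34048) (nat_lit 6) (nat_lit 448) (nat_lit 2) (nat_lit 269) (nat_lit 278) (nat_lit 233)) (PT.lf (nat_lit 33136) (nat_lit 6) (nat_lit 436) (nat_lit 2) (nat_lit 270) (nat_lit 278) (nat_lit 232))))))) (PT.nd (nat_lit 702) (PT.nd (nat_lit 312) (PT.nd (nat_lit 156) (PT.nd (nat_lit 78) (PT.lf (nat_lit 32300) (nat_lit 6) (nat_lit 425) (nat_lit 2) (nat_lit 271) (nat_lit 278) (nat_lit 231)) (PT.lf (nat_lit 31388) (nat_lit 6) (nat_lit 413) (nat_lit 2) (nat_lit 272) (nat_lit 278) (nat_lit 230))) (PT.nd (nat_lit 78) (PT.lf (nat_lit 30552) (nat_lit 6) (nat_lit 402) (nat_lit 2) (nat_lit 273) (nat_lit 278) (nat_lit 229)) (PT.lf (nat_lit 29716) (nat_lit 6) (nat_lit 391) (nat_lit 2) (nat_lit 274) (nat_lit 278) (nat_lit 228)))) (PT.nd (nat_lit 156) (PT.nd (nat_lit 78) (PT.lf (nat_lit 28956) (nat_lit 6) (nat_lit 381) (nat_lit 2) (nat_lit 275) (nat_lit 278) (nat_lit 227)) (PT.lf (nat_lit 28196) (nat_lit 6) (nat_lit 371) (nat_lit 2) (nat_lit 276)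 (nat_lit 278) (nat_lit 226))) (PT.nd (nat_lit 78) (PT.lf (nat_lit 27436) (nat_lit 6) (nat_lit 361) (nat_lit 2) (nat_lit 277) (nat_lit 278) (nat_lit 225)) (PT.nd (nat_lit 78) (PT.lf (nat_lit 26676) (nat_lit 3) (nat_lit 351) (nat_lit 0) (nat_lit 278) (nat_lit 278) (nat_lit 224)) (PT.lf (nat_lit 25916) (nat_lit 6) (nat_lit 341) (nat_lit 0) (nat_lit 279) (nat_lit 278) (nat_lit 223)))))) (PT.nd (nat_lit 312) (PT.nd (nat_lit 156) (PT.nd (nat_lit 78) (PT.lf (nat_lit 25156) (nat_lit 6) (nat_lit 331) (nat_lit 0) (nat_lit 280) (nat_lit 278) (nat_lit 222)) (PT.lf (nat_lit 24396) (nat_lit 6) (nat_lit 321) (nat_lit 0) (nat_lit 281) (nat_lit 278) (nat_lit 221))) (PT.nd (nat_lit 78) (PT.lf (nat_lit 23636) (nat_lit 6) (nat_lit 311) (nat_lit 0) (nat_lit 282) (nat_lit 278) (nat_lit 220)) (PT.lf (nat_lit 22952) (nat_lit 6) (nat_lit 302) (nat_lit 0) (nat_lit 283) (nat_lit 278) (nat_lit 219)))) (PT.nd (nat_lit 156) (PT.nd (nat_lit 78) (PT.lf (nat_lit 22268) (nat_lit 6) (nat_lit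 293) (nat_lit 0) (nat_lit 284) (nat_lit 278) (nat_lit 218)) (PT.lf (nat_lit 21584) (nat_lit 6) (nat_lit 284) (nat_lit 0) (nat_lit 285) (nat_lit 278) (nat_lit 217))) (PT.nd (nat_lit 78) (PT.lf (nat_lit 20900) (nat_lit 6) (nat_lit 275) (nat_lit 0) (nat_lit 286) (nat_lit 278) (nat_lit 216)) (PT.nd (nat_lit 78) (PT.lf (nat_lit 20292) (nat_lit 6) (nat_lit 267) (nat_lit 0) (nat_lit 287) (nat_lit 278) (nat_lit 215)) (PT.lf (nat_lit 19608) (nat_lit 6) (nat_lit 258) (nat_lit 0) (nat_lit 288) (nat_lit 278) (nat_lit 214))))))))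
noncomputable def pc86 : PT := (PT.nd (nat_lit 76128) (PT.nd (nat_lit 75426) (PT.nd (nat_lit 75114) (PT.nd (nat_lit 156) (PT.nd (nat_lit 78) (PT.lf (nat_lit 19000) (nat_lit 6) (nat_lit 250) (nat_lit 0) (nat_lit 289) (nat_lit 278) (nat_lit 213)) (PT.lf (nat_lit 18392) (nat_lit 6) (nat_lit 242) (nat_lit 0) (nat_lit 290) (nat_lit 278) (nat_lit 212))) (PT.nd (nat_lit 74880) (PT.lf (nat_lit 17860) (nat_lit 6) (nat_lit 235) (nat_lit 0) (nat_lit 291) (nat_lit 278) (nat_lit 211)) (PT.lf (nat_lit 17328) (nat_lit 6) (nat_lit 228) (nat_lit 5) (nat_lit 210) (nat_lit 279) (nat_lit 291)))) (PT.nd (nat_lit 156) (PT.nd (nat_lit 78) (PT.lf (nat_lit 17936) (nat_lit 6) (nat_lit 236) (nat_lit 5) (nat_lit 211) (nat_lit 279) (nat_lit 290)) (PT.lf (nat_lit 18468) (nat_lit 6) (nat_lit 243) (nat_lit 5) (nat_lit 212) (nat_lit 279) (nat_lit 289))) (PT.nd (nat_lit 78) (PT.lf (nat_lit 19076) (nat_lit 6) (nat_lit 251) (nat_lit 5) (nat_lit 213) (nat_lit 279) (nat_lit 288)) (PT.lf (nat_lit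 19684) (nat_lit 6) (nat_lit 259) (nat_lit 5) (nat_lit 214) (nat_lit 279) (nat_lit 287))))) (PT.nd (nat_lit 312) (PT.nd (nat_lit 156) (PT.nd (nat_lit 78) (PT.lf (nat_lit 20368) (nat_lit 6) (nat_lit 268) (nat_lit 5) (nat_lit 215) (nat_lit 279) (nat_lit 286)) (PT.lf (nat_lit 20976) (nat_lit 6) (nat_lit 276) (nat_lit 5) (nat_lit 216) (nat_lit 279) (nat_lit 285))) (PT.nd (nat_lit 78) (PT.lf (nat_lit 21660) (nat_lit 6) (nat_lit 285) (nat_lit 5) (nat_lit 217) (nat_lit 279) (nat_lit 284)) (PT.lf (nat_lit 22344) (nat_lit 6) (nat_lit 294) (nat_lit 5) (nat_lit 218) (nat_lit 279) (nat_lit 283)))) (PT.nd (nat_lit 156) (PT.nd (nat_lit 78) (PT.lf (nat_lit 23028) (nat_lit 6) (nat_lit 303) (nat_lit 5) (nat_lit 219) (nat_lit 279) (nat_lit 282)) (PT.lf (nat_lit 23712) (nat_lit 6) (nat_lit 312) (nat_lit 5) (nat_lit 220) (nat_lit 279) (nat_lit 281))) (PT.nd (nat_lit 78) (PT.lf (nat_lit 24472) (nat_lit 6) (nat_lit 322) (nat_lit 5) (nat_lit 221) (nat_lit 279) (nat_lit 280))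 (PT.nd (nat_lit 78) (PT.lf (nat_lit 25232) (nat_lit 3) (nat_lit 332) (nat_lit 4) (nat_lit 222) (nat_lit 279) (nat_lit 279)) (PT.lf (nat_lit 25916) (nat_lit 6) (nat_lit 341) (nat_lit 4) (nat_lit 223) (nat_lit 279) (nat_lit 278))))))) (PT.nd (nat_lit 702) (PT.nd (nat_lit 312) (PT.nd (nat_lit 156) (PT.nd (nat_lit 78) (PT.lf (nat_lit 26600) (nat_lit 6) (nat_lit 350) (nat_lit 4) (nat_lit 224) (nat_lit 279) (nat_lit 277)) (PT.lf (nat_lit 27360) (nat_lit 6) (nat_lit 360) (nat_lit 4) (nat_lit 225) (nat_lit 279) (nat_lit 276))) (PT.nd (nat_lit 78) (PT.lf (nat_lit 28120) (nat_lit 6) (nat_lit 370) (nat_lit 4) (nat_lit 226) (nat_lit 279) (nat_lit 275)) (PT.lf (nat_lit 28880) (nat_lit 6) (nat_lit 380) (nat_lit 4) (nat_lit 227) (nat_lit 279) (nat_lit 274)))) (PT.nd (nat_lit 156) (PT.nd (nat_lit 78) (PT.lf (nat_lit 29640) (nat_lit 6) (nat_lit 390) (nat_lit 4) (nat_lit 228) (nat_lit 279) (nat_lit 273)) (PT.lf (nat_lit 30476) (nat_lit 6) (nat_lit 401) (nat_lit 4) (nat_lit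 229) (nat_lit 279) (nat_lit 272))) (PT.nd (nat_lit 78) (PT.lf (nat_lit 31312) (nat_lit 6) (nat_lit 412) (nat_lit 4) (nat_lit 230) (nat_lit 279) (nat_lit 271)) (PT.nd (nat_lit 78) (PT.lf (nat_lit 32224) (nat_lit 6) (nat_lit 424) (nat_lit 4) (nat_lit 231) (nat_lit 279) (nat_lit 270)) (PT.lf (nat_lit 33060) (nat_lit 6) (nat_lit 435) (nat_lit 4) (nat_lit 232) (nat_lit 279) (nat_lit 269)))))) (PT.nd (nat_lit 312) (PT.nd (nat_lit 156) (PT.nd (nat_lit 78) (PT.lf (nat_lit 33972) (nat_lit 6) (nat_lit 447) (nat_lit 4) (nat_lit 233) (nat_lit 279) (nat_lit 268)) (PT.lf (nat_lit 34884) (nat_lit 6) (nat_lit 459) (nat_lit 4) (nat_lit 234) (nat_lit 279) (nat_lit 267))) (PT.nd (nat_lit 78) (PT.lf (nat_lit 36024) (nat_lit 6) (nat_lit 474) (nat_lit 4) (nat_lit 235) (nat_lit 279) (nat_lit 266)) (PT.lf (nat_lit 37848) (nat_lit 6) (nat_lit 498) (nat_lit 4) (nat_lit 236) (nat_lit 279) (nat_lit 265)))) (PT.nd (nat_lit 156) (PT.nd (nat_lit 78) (PT.lf (nat_lit 39596) (nat_lit 6)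 (nat_lit 521) (nat_lit 4) (nat_lit 237) (nat_lit 279) (nat_lit 264)) (PT.lf (nat_lit 41268) (nat_lit 6) (nat_lit 543) (nat_lit 4) (nat_lit 238) (nat_lit 279) (nat_lit 263))) (PT.nd (nat_lit 78) (PT.lf (nat_lit 42864) (nat_lit 6) (nat_lit 564) (nat_lit 4) (nat_lit 239) (nat_lit 279) (nat_lit 262)) (PT.nd (nat_lit 78) (PT.lf (nat_lit 44384) (nat_lit 6) (nat_lit 584) (nat_lit 4) (nat_lit 240) (nat_lit 279) (nat_lit 261)) (PT.lf (nat_lit 45828) (nat_lit 6) (nat_lit 603) (nat_lit 4) (nat_lit 241) (nat_lit 279) (nat_lit 260))))))))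
noncomputable def pc87 : PT := (PT.nd (nat_lit 1326) (PT.nd (nat_lit 624) (PT.nd (nat_lit 312) (PT.nd (nat_lit 156) (PT.nd (nat_lit 78) (PT.lf (nat_lit 45752) (nat_lit 6) (nat_lit 602) (nat_lit 4) (nat_lit 242) (nat_lit 279) (nat_lit 259)) (PT.lf (nat_lit 45676) (nat_lit 6) (nat_lit 601) (nat_lit 4) (nat_lit 243) (nat_lit 279) (nat_lit 258))) (PT.nd (nat_lit 78) (PT.lf (nat_lit 45600) (nat_lit 6) (nat_lit 600) (nat_lit 4) (nat_lit 244) (nat_lit 279) (nat_lit 257)) (PT.lf (nat_lit 45524) (nat_lit 6) (nat_lit 599) (nat_lit 4) (nat_lit 245) (nat_lit 279) (nat_lit 256)))) (PT.nd (nat_lit 156) (PT.nd (nat_lit 78) (PT.lf (nat_lit 45448) (nat_lit 6) (nat_lit 598) (nat_lit 4) (nat_lit 246) (nat_lit 279) (nat_lit 255)) (PT.lf (nat_lit 45372) (nat_lit 6) (nat_lit 597) (nat_lit 4) (nat_lit 247) (nat_lit 279) (nat_lit 254))) (PT.nd (nat_lit 78) (PT.lf (nat_lit 45296) (nat_lit 6) (nat_lit 596) (nat_lit 4) (nat_lit 248) (nat_lit 279) (nat_lit 253)) (PT.lf (nat_lit 45220)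 (nat_lit 6) (nat_lit 595) (nat_lit 4) (nat_lit 249) (nat_lit 279) (nat_lit 252))))) (PT.nd (nat_lit 312) (PT.nd (nat_lit 156) (PT.nd (nat_lit 78) (PT.lf (nat_lit 45144) (nat_lit 6) (nat_lit 594) (nat_lit 4) (nat_lit 250) (nat_lit 279) (nat_lit 251)) (PT.lf (nat_lit 45144) (nat_lit 6) (nat_lit 594) (nat_lit 2) (nat_lit 251) (nat_lit 279) (nat_lit 250))) (PT.nd (nat_lit 78) (PT.lf (nat_lit 45220) (nat_lit 6) (nat_lit 595) (nat_lit 2) (nat_lit 252) (nat_lit 279) (nat_lit 249)) (PT.lf (nat_lit 45296) (nat_lit 6) (nat_lit 596) (nat_lit 2) (nat_lit 253) (nat_lit 279) (nat_lit 248)))) (PT.nd (nat_lit 156) (PT.nd (nat_lit 78) (PT.lf (nat_lit 45372) (nat_lit 6) (nat_lit 597) (nat_lit 2) (nat_lit 254) (nat_lit 279) (nat_lit 247)) (PT.lf (nat_lit 45448) (nat_lit 6) (nat_lit 598) (nat_lit 2) (nat_lit 255) (nat_lit 279) (nat_lit 246))) (PT.nd (nat_lit 78) (PT.lf (nat_lit 45524) (nat_lit 6) (nat_lit 599) (nat_lit 2) (nat_lit 256) (nat_lit 279) (nat_lit 245)) (PT.nd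 (nat_lit 78) (PT.lf (nat_lit 45600) (nat_lit 6) (nat_lit 600) (nat_lit 2) (nat_lit 257) (nat_lit 279) (nat_lit 244)) (PT.lf (nat_lit 45676) (nat_lit 6) (nat_lit 601) (nat_lit 2) (nat_lit 258) (nat_lit 279) (nat_lit 243))))))) (PT.nd (nat_lit 702) (PT.nd (nat_lit 312) (PT.nd (nat_lit 156) (PT.nd (nat_lit 78) (PT.lf (nat_lit 45752) (nat_lit 6) (nat_lit 602) (nat_lit 2) (nat_lit 259) (nat_lit 279) (nat_lit 242)) (PT.lf (nat_lit 45828) (nat_lit 6) (nat_lit 603) (nat_lit 2) (nat_lit 260) (nat_lit 279) (nat_lit 241))) (PT.nd (nat_lit 78) (PT.lf (nat_lit 44384) (nat_lit 6) (nat_lit 584) (nat_lit 2) (nat_lit 261) (nat_lit 279) (nat_lit 240)) (PT.lf (nat_lit 42864) (nat_lit 6) (nat_lit 564) (nat_lit 2) (nat_lit 262) (nat_lit 279) (nat_lit 239)))) (PT.nd (nat_lit 156) (PT.nd (nat_lit 78) (PT.lf (nat_lit 41268) (nat_lit 6) (nat_lit 543) (nat_lit 2) (nat_lit 263) (nat_lit 279) (nat_lit 238)) (PT.lf (nat_lit 39596) (nat_lit 6) (nat_lit 521) (nat_lit 2) (nat_lit 264)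 (nat_lit 279) (nat_lit 237))) (PT.nd (nat_lit 78) (PT.lf (nat_lit 37848) (nat_lit 6) (nat_lit 498) (nat_lit 2) (nat_lit 265) (nat_lit 279) (nat_lit 236)) (PT.nd (nat_lit 78) (PT.lf (nat_lit 36024) (nat_lit 6) (nat_lit 474) (nat_lit 2) (nat_lit 266) (nat_lit 279) (nat_lit 235)) (PT.lf (nat_lit 34884) (nat_lit 6) (nat_lit 459) (nat_lit 2) (nat_lit 267) (nat_lit 279) (nat_lit 234)))))) (PT.nd (nat_lit 312) (PT.nd (nat_lit 156) (PT.nd (nat_lit 78) (PT.lf (nat_lit 33972) (nat_lit 6) (nat_lit 447) (nat_lit 2) (nat_lit 268) (nat_lit 279) (nat_lit 233)) (PT.lf (nat_lit 33060) (nat_lit 6) (nat_lit 435) (nat_lit 2) (nat_lit 269) (nat_lit 279) (nat_lit 232))) (PT.nd (nat_lit 78) (PT.lf (nat_lit 32224) (nat_lit 6) (nat_lit 424) (nat_lit 2) (nat_lit 270) (nat_lit 279) (nat_lit 231)) (PT.lf (nat_lit 31312) (nat_lit 6) (nat_lit 412) (nat_lit 2) (nat_lit 271) (nat_lit 279) (nat_lit 230)))) (PT.nd (nat_lit 156) (PT.nd (nat_lit 78) (PT.lf (nat_lit 30476) (nat_lit 6) (nat_lit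 401) (nat_lit 2) (nat_lit 272) (nat_lit 279) (nat_lit 229)) (PT.lf (nat_lit 29640) (nat_lit 6) (nat_lit 390) (nat_lit 2) (nat_lit 273) (nat_lit 279) (nat_lit 228))) (PT.nd (nat_lit 78) (PT.lf (nat_lit 28880) (nat_lit 6) (nat_lit 380) (nat_lit 2) (nat_lit 274) (nat_lit 279) (nat_lit 227)) (PT.nd (nat_lit 78) (PT.lf (nat_lit 28120) (nat_lit 6) (nat_lit 370) (nat_lit 2) (nat_lit 275) (nat_lit 279) (nat_lit 226)) (PT.lf (nat_lit 27360) (nat_lit 6) (nat_lit 360) (nat_lit 2) (nat_lit 276) (nat_lit 279) (nat_lit 225))))))))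
noncomputable def pc88 : PT := (PT.nd (nat_lit 75972) (PT.nd (nat_lit 624) (PT.nd (nat_lit 312) (PT.nd (nat_lit 156) (PT.nd (nat_lit 78) (PT.lf (nat_lit 26600) (nat_lit 6) (nat_lit 350) (nat_lit 2) (nat_lit 277) (nat_lit 279) (nat_lit 224)) (PT.lf (nat_lit 25916) (nat_lit 6) (nat_lit 341) (nat_lit 2) (nat_lit 278) (nat_lit 279) (nat_lit 223))) (PT.nd (nat_lit 78) (PT.lf (nat_lit 25232) (nat_lit 3) (nat_lit 332) (nat_lit 0) (nat_lit 279) (nat_lit 279) (nat_lit 222)) (PT.lf (nat_lit 24472) (nat_lit 6) (nat_lit 322) (nat_lit 0) (nat_lit 280) (nat_lit 279) (nat_lit 221)))) (PT.nd (nat_lit 156) (PT.nd (nat_lit 78) (PT.lf (nat_lit 23712) (nat_lit 6) (nat_lit 312) (nat_lit 0) (nat_lit 281) (nat_lit 279) (nat_lit 220)) (PT.lf (nat_lit 23028) (nat_lit 6) (nat_lit 303) (nat_lit 0) (nat_lit 282) (nat_lit 279) (nat_lit 219))) (PT.nd (nat_lit 78) (PT.lf (nat_lit 22344) (nat_lit 6) (nat_lit 294) (nat_lit 0) (nat_lit 283) (nat_lit 279) (nat_lit 218)) (PT.lf (nat_lit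 21660) (nat_lit 6) (nat_lit 285) (nat_lit 0) (nat_lit 284) (nat_lit 279) (nat_lit 217))))) (PT.nd (nat_lit 312) (PT.nd (nat_lit 156) (PT.nd (nat_lit 78) (PT.lf (nat_lit 20976) (nat_lit 6) (nat_lit 276) (nat_lit 0) (nat_lit 285) (nat_lit 279) (nat_lit 216)) (PT.lf (nat_lit 20368) (nat_lit 6) (nat_lit 268) (nat_lit 0) (nat_lit 286) (nat_lit 279) (nat_lit 215))) (PT.nd (nat_lit 78) (PT.lf (nat_lit 19684) (nat_lit 6) (nat_lit 259) (nat_lit 0) (nat_lit 287) (nat_lit 279) (nat_lit 214)) (PT.lf (nat_lit 19076) (nat_lit 6) (nat_lit 251) (nat_lit 0) (nat_lit 288) (nat_lit 279) (nat_lit 213)))) (PT.nd (nat_lit 156) (PT.nd (nat_lit 78) (PT.lf (nat_lit 18468) (nat_lit 6) (nat_lit 243) (nat_lit 0) (nat_lit 289) (nat_lit 279) (nat_lit 212)) (PT.lf (nat_lit 17936) (nat_lit 6) (nat_lit 236) (nat_lit 0) (nat_lit 290) (nat_lit 279) (nat_lit 211))) (PT.nd (nat_lit 74724) (PT.lf (nat_lit 17328) (nat_lit 6) (nat_lit 228) (nat_lit 0) (nat_lit 291) (nat_lit 279) (nat_lit 210))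 (PT.nd (nat_lit 78) (PT.lf (nat_lit 16340) (nat_lit 6) (nat_lit 215) (nat_lit 5) (nat_lit 208) (nat_lit 280) (nat_lit 292)) (PT.lf (nat_lit 16872) (nat_lit 6) (nat_lit 222) (nat_lit 5) (nat_lit 209) (nat_lit 280) (nat_lit 291))))))) (PT.nd (nat_lit 702) (PT.nd (nat_lit 312) (PT.nd (nat_lit 156) (PT.nd (nat_lit 78) (PT.lf (nat_lit 17404) (nat_lit 6) (nat_lit 229) (nat_lit 5) (nat_lit 210) (nat_lit 280) (nat_lit 290)) (PT.lf (nat_lit 18012) (nat_lit 6) (nat_lit 237) (nat_lit 5) (nat_lit 211) (nat_lit 280) (nat_lit 289))) (PT.nd (nat_lit 78) (PT.lf (nat_lit 18544) (nat_lit 6) (nat_lit 244) (nat_lit 5) (nat_lit 212) (nat_lit 280) (nat_lit 288)) (PT.lf (nat_lit 19152) (nat_lit 6) (nat_lit 252) (nat_lit 5) (nat_lit 213) (nat_lit 280) (nat_lit 287)))) (PT.nd (nat_lit 156) (PT.nd (nat_lit 78) (PT.lf (nat_lit 19760) (nat_lit 6) (nat_lit 260) (nat_lit 5) (nat_lit 214) (nat_lit 280) (nat_lit 286)) (PT.lf (nat_lit 20444) (nat_lit 6) (nat_lit 269) (nat_lit 5) (nat_lit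 215) (nat_lit 280) (nat_lit 285))) (PT.nd (nat_lit 78) (PT.lf (nat_lit 21052) (nat_lit 6) (nat_lit 277) (nat_lit 5) (nat_lit 216) (nat_lit 280) (nat_lit 284)) (PT.nd (nat_lit 78) (PT.lf (nat_lit 21736) (nat_lit 6) (nat_lit 286) (nat_lit 5) (nat_lit 217) (nat_lit 280) (nat_lit 283)) (PT.lf (nat_lit 22420) (nat_lit 6) (nat_lit 295) (nat_lit 5) (nat_lit 218) (nat_lit 280) (nat_lit 282)))))) (PT.nd (nat_lit 312) (PT.nd (nat_lit 156) (PT.nd (nat_lit 78) (PT.lf (nat_lit 23104) (nat_lit 6) (nat_lit 304) (nat_lit 5) (nat_lit 219) (nat_lit 280) (nat_lit 281)) (PT.lf (nat_lit 23788) (nat_lit 3) (nat_lit 313) (nat_lit 4) (nat_lit 220) (nat_lit 280) (nat_lit 280))) (PT.nd (nat_lit 78) (PT.lf (nat_lit 24472) (nat_lit 6) (nat_lit 322) (nat_lit 4) (nat_lit 221) (nat_lit 280) (nat_lit 279)) (PT.lf (nat_lit 25156) (nat_lit 6) (nat_lit 331) (nat_lit 4) (nat_lit 222) (nat_lit 280) (nat_lit 278)))) (PT.nd (nat_lit 156) (PT.nd (nat_lit 78) (PT.lf (nat_lit 25840) (nat_lit 6)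 (nat_lit 340) (nat_lit 4) (nat_lit 223) (nat_lit 280) (nat_lit 277)) (PT.lf (nat_lit 26524) (nat_lit 6) (nat_lit 349) (nat_lit 4) (nat_lit 224) (nat_lit 280) (nat_lit 276))) (PT.nd (nat_lit 78) (PT.lf (nat_lit 27284) (nat_lit 6) (nat_lit 359) (nat_lit 4) (nat_lit 225) (nat_lit 280) (nat_lit 275)) (PT.nd (nat_lit 78) (PT.lf (nat_lit 28044) (nat_lit 6) (nat_lit 369) (nat_lit 4) (nat_lit 226) (nat_lit 280) (nat_lit 274)) (PT.lf (nat_lit 28804) (nat_lit 6) (nat_lit 379) (nat_lit 4) (nat_lit 227) (nat_lit 280) (nat_lit 273))))))))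
noncomputable def pc89 : PT := (PT.nd (nat_lit 1326) (PT.nd (nat_lit 624) (PT.nd (nat_lit 312) (PT.nd (nat_lit 156) (PT.nd (nat_lit 78) (PT.lf (nat_lit 29564) (nat_lit 6) (nat_lit 389) (nat_lit 4) (nat_lit 228) (nat_lit 280) (nat_lit 272)) (PT.lf (nat_lit 30400) (nat_lit 6) (nat_lit 400) (nat_lit 4) (nat_lit 229) (nat_lit 280) (nat_lit 271))) (PT.nd (nat_lit 78) (PT.lf (nat_lit 31236) (nat_lit 6) (nat_lit 411) (nat_lit 4) (nat_lit 230) (nat_lit 280) (nat_lit 270)) (PT.lf (nat_lit 32148) (nat_lit 6) (nat_lit 423) (nat_lit 4) (nat_lit 231) (nat_lit 280) (nat_lit 269)))) (PT.nd (nat_lit 156) (PT.nd (nat_lit 78) (PT.lf (nat_lit 32984) (nat_lit 6) (nat_lit 434) (nat_lit 4) (nat_lit 232) (nat_lit 280) (nat_lit 268)) (PT.lf (nat_lit 33896) (nat_lit 6) (nat_lit 446) (nat_lit 4) (nat_lit 233) (nat_lit 280) (nat_lit 267))) (PT.nd (nat_lit 78) (PT.lf (nat_lit 34808) (nat_lit 6) (nat_lit 458) (nat_lit 4) (nat_lit 234) (nat_lit 280) (nat_lit 266)) (PT.lf (nat_lit 35948)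 (nat_lit 6) (nat_lit 473) (nat_lit 4) (nat_lit 235) (nat_lit 280) (nat_lit 265))))) (PT.nd (nat_lit 312) (PT.nd (nat_lit 156) (PT.nd (nat_lit 78) (PT.lf (nat_lit 37772) (nat_lit 6) (nat_lit 497) (nat_lit 4) (nat_lit 236) (nat_lit 280) (nat_lit 264)) (PT.lf (nat_lit 39520) (nat_lit 6) (nat_lit 520) (nat_lit 4) (nat_lit 237) (nat_lit 280) (nat_lit 263))) (PT.nd (nat_lit 78) (PT.lf (nat_lit 41192) (nat_lit 6) (nat_lit 542) (nat_lit 4) (nat_lit 238) (nat_lit 280) (nat_lit 262)) (PT.lf (nat_lit 42788) (nat_lit 6) (nat_lit 563) (nat_lit 4) (nat_lit 239) (nat_lit 280) (nat_lit 261)))) (PT.nd (nat_lit 156) (PT.nd (nat_lit 78) (PT.lf (nat_lit 44308) (nat_lit 6) (nat_lit 583) (nat_lit 4) (nat_lit 240) (nat_lit 280) (nat_lit 260)) (PT.lf (nat_lit 44232) (nat_lit 6) (nat_lit 582) (nat_lit 4) (nat_lit 241) (nat_lit 280) (nat_lit 259))) (PT.nd (nat_lit 78) (PT.lf (nat_lit 44156) (nat_lit 6) (nat_lit 581) (nat_lit 4) (nat_lit 242) (nat_lit 280) (nat_lit 258)) (PT.nd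 (nat_lit 78) (PT.lf (nat_lit 44080) (nat_lit 6) (nat_lit 580) (nat_lit 4) (nat_lit 243) (nat_lit 280) (nat_lit 257)) (PT.lf (nat_lit 44004) (nat_lit 6) (nat_lit 579) (nat_lit 4) (nat_lit 244) (nat_lit 280) (nat_lit 256))))))) (PT.nd (nat_lit 702) (PT.nd (nat_lit 312) (PT.nd (nat_lit 156) (PT.nd (nat_lit 78) (PT.lf (nat_lit 43928) (nat_lit 6) (nat_lit 578) (nat_lit 4) (nat_lit 245) (nat_lit 280) (nat_lit 255)) (PT.lf (nat_lit 43852) (nat_lit 6) (nat_lit 577) (nat_lit 4) (nat_lit 246) (nat_lit 280) (nat_lit 254))) (PT.nd (nat_lit 78) (PT.lf (nat_lit 43776) (nat_lit 6) (nat_lit 576) (nat_lit 4) (nat_lit 247) (nat_lit 280) (nat_lit 253)) (PT.lf (nat_lit 43700) (nat_lit 6) (nat_lit 575) (nat_lit 4) (nat_lit 248) (nat_lit 280) (nat_lit 252)))) (PT.nd (nat_lit 156) (PT.nd (nat_lit 78) (PT.lf (nat_lit 43624) (nat_lit 6) (nat_lit 574) (nat_lit 4) (nat_lit 249) (nat_lit 280) (nat_lit 251)) (PT.lf (nat_lit 43548) (nat_lit 3) (nat_lit 573) (nat_lit 2) (nat_lit 250)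 (nat_lit 280) (nat_lit 250))) (PT.nd (nat_lit 78) (PT.lf (nat_lit 43624) (nat_lit 6) (nat_lit 574) (nat_lit 2) (nat_lit 251) (nat_lit 280) (nat_lit 249)) (PT.nd (nat_lit 78) (PT.lf (nat_lit 43700) (nat_lit 6) (nat_lit 575) (nat_lit 2) (nat_lit 252) (nat_lit 280) (nat_lit 248)) (PT.lf (nat_lit 43776) (nat_lit 6) (nat_lit 576) (nat_lit 2) (nat_lit 253) (nat_lit 280) (nat_lit 247)))))) (PT.nd (nat_lit 312) (PT.nd (nat_lit 156) (PT.nd (nat_lit 78) (PT.lf (nat_lit 43852) (nat_lit 6) (nat_lit 577) (nat_lit 2) (nat_lit 254) (nat_lit 280) (nat_lit 246)) (PT.lf (nat_lit 43928) (nat_lit 6) (nat_lit 578) (nat_lit 2) (nat_lit 255) (nat_lit 280) (nat_lit 245))) (PT.nd (nat_lit 78) (PT.lf (nat_lit 44004) (nat_lit 6) (nat_lit 579) (nat_lit 2) (nat_lit 256) (nat_lit 280) (nat_lit 244)) (PT.lf (nat_lit 44080) (nat_lit 6) (nat_lit 580) (nat_lit 2) (nat_lit 257) (nat_lit 280) (nat_lit 243)))) (PT.nd (nat_lit 156) (PT.nd (nat_lit 78) (PT.lf (nat_lit 44156) (nat_lit 6) (nat_lit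 581) (nat_lit 2) (nat_lit 258) (nat_lit 280) (nat_lit 242)) (PT.lf (nat_lit 44232) (nat_lit 6) (nat_lit 582) (nat_lit 2) (nat_lit 259) (nat_lit 280) (nat_lit 241))) (PT.nd (nat_lit 78) (PT.lf (nat_lit 44308) (nat_lit 6) (nat_lit 583) (nat_lit 2) (nat_lit 260) (nat_lit 280) (nat_lit 240)) (PT.nd (nat_lit 78) (PT.lf (nat_lit 42788) (nat_lit 6) (nat_lit 563) (nat_lit 2) (nat_lit 261) (nat_lit 280) (nat_lit 239)) (PT.lf (nat_lit 41192) (nat_lit 6) (nat_lit 542) (nat_lit 2) (nat_lit 262) (nat_lit 280) (nat_lit 238))))))))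
noncomputable def pc90 : PT := (PT.nd (nat_lit 1326) (PT.nd (nat_lit 624) (PT.nd (nat_lit 312) (PT.nd (nat_lit 156) (PT.nd (nat_lit 78) (PT.lf (nat_lit 39520) (nat_lit 6) (nat_lit 520) (nat_lit 2) (nat_lit 263) (nat_lit 280) (nat_lit 237)) (PT.lf (nat_lit 37772) (nat_lit 6) (nat_lit 497) (nat_lit 2) (nat_lit 264) (nat_lit 280) (nat_lit 236))) (PT.nd (nat_lit 78) (PT.lf (nat_lit 35948) (nat_lit 6) (nat_lit 473) (nat_lit 2) (nat_lit 265) (nat_lit 280) (nat_lit 235)) (PT.lf (nat_lit 34808) (nat_lit 6) (nat_lit 458) (nat_lit 2) (nat_lit 266) (nat_lit 280) (nat_lit 234)))) (PT.nd (nat_lit 156) (PT.nd (nat_lit 78) (PT.lf (nat_lit 33896) (nat_lit 6) (nat_lit 446) (nat_lit 2) (nat_lit 267) (nat_lit 280) (nat_lit 233)) (PT.lf (nat_lit 32984) (nat_lit 6) (nat_lit 434) (nat_lit 2) (nat_lit 268) (nat_lit 280) (nat_lit 232))) (PT.nd (nat_lit 78) (PT.lf (nat_lit 32148) (nat_lit 6) (nat_lit 423) (nat_lit 2) (nat_lit 269) (nat_lit 280) (nat_lit 231)) (PT.lf (nat_lit 31236)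 (nat_lit 6) (nat_lit 411) (nat_lit 2) (nat_lit 270) (nat_lit 280) (nat_lit 230))))) (PT.nd (nat_lit 312) (PT.nd (nat_lit 156) (PT.nd (nat_lit 78) (PT.lf (nat_lit 30400) (nat_lit 6) (nat_lit 400) (nat_lit 2) (nat_lit 271) (nat_lit 280) (nat_lit 229)) (PT.lf (nat_lit 29564) (nat_lit 6) (nat_lit 389) (nat_lit 2) (nat_lit 272) (nat_lit 280) (nat_lit 228))) (PT.nd (nat_lit 78) (PT.lf (nat_lit 28804) (nat_lit 6) (nat_lit 379) (nat_lit 2) (nat_lit 273) (nat_lit 280) (nat_lit 227)) (PT.lf (nat_lit 28044) (nat_lit 6) (nat_lit 369) (nat_lit 2) (nat_lit 274) (nat_lit 280) (nat_lit 226)))) (PT.nd (nat_lit 156) (PT.nd (nat_lit 78) (PT.lf (nat_lit 27284) (nat_lit 6) (nat_lit 359) (nat_lit 2) (nat_lit 275) (nat_lit 280) (nat_lit 225)) (PT.lf (nat_lit 26524) (nat_lit 6) (nat_lit 349) (nat_lit 2) (nat_lit 276) (nat_lit 280) (nat_lit 224))) (PT.nd (nat_lit 78) (PT.lf (nat_lit 25840) (nat_lit 6) (nat_lit 340) (nat_lit 2) (nat_lit 277) (nat_lit 280) (nat_lit 223)) (PT.nd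 (nat_lit 78) (PT.lf (nat_lit 25156) (nat_lit 6) (nat_lit 331) (nat_lit 2) (nat_lit 278) (nat_lit 280) (nat_lit 222)) (PT.lf (nat_lit 24472) (nat_lit 6) (nat_lit 322) (nat_lit 2) (nat_lit 279) (nat_lit 280) (nat_lit 221))))))) (PT.nd (nat_lit 702) (PT.nd (nat_lit 312) (PT.nd (nat_lit 156) (PT.nd (nat_lit 78) (PT.lf (nat_lit 23788) (nat_lit 3) (nat_lit 313) (nat_lit 0) (nat_lit 280) (nat_lit 280) (nat_lit 220)) (PT.lf (nat_lit 23104) (nat_lit 6) (nat_lit 304) (nat_lit 0) (nat_lit 281) (nat_lit 280) (nat_lit 219))) (PT.nd (nat_lit 78) (PT.lf (nat_lit 22420) (nat_lit 6) (nat_lit 295) (nat_lit 0) (nat_lit 282) (nat_lit 280) (nat_lit 218)) (PT.lf (nat_lit 21736) (nat_lit 6) (nat_lit 286) (nat_lit 0) (nat_lit 283) (nat_lit 280) (nat_lit 217)))) (PT.nd (nat_lit 156) (PT.nd (nat_lit 78) (PT.lf (nat_lit 21052) (nat_lit 6) (nat_lit 277) (nat_lit 0) (nat_lit 284) (nat_lit 280) (nat_lit 216)) (PT.lf (nat_lit 20444) (nat_lit 6) (nat_lit 269) (nat_lit 0) (nat_lit 285)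 (nat_lit 280) (nat_lit 215))) (PT.nd (nat_lit 78) (PT.lf (nat_lit 19760) (nat_lit 6) (nat_lit 260) (nat_lit 0) (nat_lit 286) (nat_lit 280) (nat_lit 214)) (PT.nd (nat_lit 78) (PT.lf (nat_lit 19152) (nat_lit 6) (nat_lit 252) (nat_lit 0) (nat_lit 287) (nat_lit 280) (nat_lit 213)) (PT.lf (nat_lit 18544) (nat_lit 6) (nat_lit 244) (nat_lit 0) (nat_lit 288) (nat_lit 280) (nat_lit 212)))))) (PT.nd (nat_lit 74802) (PT.nd (nat_lit 156) (PT.nd (nat_lit 78) (PT.lf (nat_lit 18012) (nat_lit 6) (nat_lit 237) (nat_lit 0) (nat_lit 289) (nat_lit 280) (nat_lit 211)) (PT.lf (nat_lit 17404) (nat_lit 6) (nat_lit 229) (nat_lit 0) (nat_lit 290) (nat_lit 280) (nat_lit 210))) (PT.nd (nat_lit 78) (PT.lf (nat_lit 16872) (nat_lit 6) (nat_lit 222) (nat_lit 0) (nat_lit 291) (nat_lit 280) (nat_lit 209)) (PT.lf (nat_lit 16340) (nat_lit 6) (nat_lit 215) (nat_lit 0) (nat_lit 292) (nat_lit 280) (nat_lit 208)))) (PT.nd (nat_lit 156) (PT.nd (nat_lit 78) (PT.lf (nat_lit 15884) (nat_lit 6) (nat_lit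 209) (nat_lit 5) (nat_lit 207) (nat_lit 281) (nat_lit 292)) (PT.lf (nat_lit 16416) (nat_lit 6) (nat_lit 216) (nat_lit 5) (nat_lit 208) (nat_lit 281) (nat_lit 291))) (PT.nd (nat_lit 78) (PT.lf (nat_lit 16948) (nat_lit 6) (nat_lit 223) (nat_lit 5) (nat_lit 209) (nat_lit 281) (nat_lit 290)) (PT.nd (nat_lit 78) (PT.lf (nat_lit 17480) (nat_lit 6) (nat_lit 230) (nat_lit 5) (nat_lit 210) (nat_lit 281) (nat_lit 289)) (PT.lf (nat_lit 18088) (nat_lit 6) (nat_lit 238) (nat_lit 5) (nat_lit 211) (nat_lit 281) (nat_lit 288))))))))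
noncomputable def pc91 : PT := (PT.nd (nat_lit 1326) (PT.nd (nat_lit 624) (PT.nd (nat_lit 312) (PT.nd (nat_lit 156) (PT.nd (nat_lit 78) (PT.lf (nat_lit 18620) (nat_lit 6) (nat_lit 245) (nat_lit 5) (nat_lit 212) (nat_lit 281) (nat_lit 287)) (PT.lf (nat_lit 19228) (nat_lit 6) (nat_lit 253) (nat_lit 5) (nat_lit 213) (nat_lit 281) (nat_lit 286))) (PT.nd (nat_lit 78) (PT.lf (nat_lit 19836) (nat_lit 6) (nat_lit 261) (nat_lit 5) (nat_lit 214) (nat_lit 281) (nat_lit 285)) (PT.lf (nat_lit 20520) (nat_lit 6) (nat_lit 270) (nat_lit 5) (nat_lit 215) (nat_lit 281) (nat_lit 284)))) (PT.nd (nat_lit 156) (PT.nd (nat_lit 78) (PT.lf (nat_lit 21128) (nat_lit 6) (nat_lit 278) (nat_lit 5) (nat_lit 216) (nat_lit 281) (nat_lit 283)) (PT.lf (nat_lit 21812) (nat_lit 6) (nat_lit 287) (nat_lit 5) (nat_lit 217) (nat_lit 281) (nat_lit 282))) (PT.nd (nat_lit 78) (PT.lf (nat_lit 22496) (nat_lit 3) (nat_lit 296) (nat_lit 4) (nat_lit 218) (nat_lit 281) (nat_lit 281)) (PT.lf (nat_lit 23104)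 (nat_lit 6) (nat_lit 304) (nat_lit 4) (nat_lit 219) (nat_lit 281) (nat_lit 280))))) (PT.nd (nat_lit 312) (PT.nd (nat_lit 156) (PT.nd (nat_lit 78) (PT.lf (nat_lit 23712) (nat_lit 6) (nat_lit 312) (nat_lit 4) (nat_lit 220) (nat_lit 281) (nat_lit 279)) (PT.lf (nat_lit 24396) (nat_lit 6) (nat_lit 321) (nat_lit 4) (nat_lit 221) (nat_lit 281) (nat_lit 278))) (PT.nd (nat_lit 78) (PT.lf (nat_lit 25080) (nat_lit 6) (nat_lit 330) (nat_lit 4) (nat_lit 222) (nat_lit 281) (nat_lit 277)) (PT.lf (nat_lit 25764) (nat_lit 6) (nat_lit 339) (nat_lit 4) (nat_lit 223) (nat_lit 281) (nat_lit 276)))) (PT.nd (nat_lit 156) (PT.nd (nat_lit 78) (PT.lf (nat_lit 26448) (nat_lit 6) (nat_lit 348) (nat_lit 4) (nat_lit 224) (nat_lit 281) (nat_lit 275)) (PT.lf (nat_lit 27208) (nat_lit 6) (nat_lit 358) (nat_lit 4) (nat_lit 225) (nat_lit 281) (nat_lit 274))) (PT.nd (nat_lit 78) (PT.lf (nat_lit 27968) (nat_lit 6) (nat_lit 368) (nat_lit 4) (nat_lit 226) (nat_lit 281) (nat_lit 273)) (PT.nd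 (nat_lit 78) (PT.lf (nat_lit 28728) (nat_lit 6) (nat_lit 378) (nat_lit 4) (nat_lit 227) (nat_lit 281) (nat_lit 272)) (PT.lf (nat_lit 29488) (nat_lit 6) (nat_lit 388) (nat_lit 4) (nat_lit 228) (nat_lit 281) (nat_lit 271))))))) (PT.nd (nat_lit 702) (PT.nd (nat_lit 312) (PT.nd (nat_lit 156) (PT.nd (nat_lit 78) (PT.lf (nat_lit 30324) (nat_lit 6) (nat_lit 399) (nat_lit 4) (nat_lit 229) (nat_lit 281) (nat_lit 270)) (PT.lf (nat_lit 31160) (nat_lit 6) (nat_lit 410) (nat_lit 4) (nat_lit 230) (nat_lit 281) (nat_lit 269))) (PT.nd (nat_lit 78) (PT.lf (nat_lit 32072) (nat_lit 6) (nat_lit 422) (nat_lit 4) (nat_lit 231) (nat_lit 281) (nat_lit 268)) (PT.lf (nat_lit 32908) (nat_lit 6) (nat_lit 433) (nat_lit 4) (nat_lit 232) (nat_lit 281) (nat_lit 267)))) (PT.nd (nat_lit 156) (PT.nd (nat_lit 78) (PT.lf (nat_lit 33820) (nat_lit 6) (nat_lit 445) (nat_lit 4) (nat_lit 233) (nat_lit 281) (nat_lit 266)) (PT.lf (nat_lit 34732) (nat_lit 6) (nat_lit 457) (nat_lit 4) (nat_lit 234)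 (nat_lit 281) (nat_lit 265))) (PT.nd (nat_lit 78) (PT.lf (nat_lit 35872) (nat_lit 6) (nat_lit 472) (nat_lit 4) (nat_lit 235) (nat_lit 281) (nat_lit 264)) (PT.nd (nat_lit 78) (PT.lf (nat_lit 37696) (nat_lit 6) (nat_lit 496) (nat_lit 4) (nat_lit 236) (nat_lit 281) (nat_lit 263)) (PT.lf (nat_lit 39444) (nat_lit 6) (nat_lit 519) (nat_lit 4) (nat_lit 237) (nat_lit 281) (nat_lit 262)))))) (PT.nd (nat_lit 312) (PT.nd (nat_lit 156) (PT.nd (nat_lit 78) (PT.lf (nat_lit 41116) (nat_lit 6) (nat_lit 541) (nat_lit 4) (nat_lit 238) (nat_lit 281) (nat_lit 261)) (PT.lf (nat_lit 42712) (nat_lit 6) (nat_lit 562) (nat_lit 4) (nat_lit 239) (nat_lit 281) (nat_lit 260))) (PT.nd (nat_lit 78) (PT.lf (nat_lit 42636) (nat_lit 6) (nat_lit 561) (nat_lit 4) (nat_lit 240) (nat_lit 281) (nat_lit 259)) (PT.lf (nat_lit 42560) (nat_lit 6) (nat_lit 560) (nat_lit 4) (nat_lit 241) (nat_lit 281) (nat_lit 258)))) (PT.nd (nat_lit 156) (PT.nd (nat_lit 78) (PT.lf (nat_lit 42484) (nat_lit 6) (nat_lit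 559) (nat_lit 4) (nat_lit 242) (nat_lit 281) (nat_lit 257)) (PT.lf (nat_lit 42408) (nat_lit 6) (nat_lit 558) (nat_lit 4) (nat_lit 243) (nat_lit 281) (nat_lit 256))) (PT.nd (nat_lit 78) (PT.lf (nat_lit 42332) (nat_lit 6) (nat_lit 557) (nat_lit 4) (nat_lit 244) (nat_lit 281) (nat_lit 255)) (PT.nd (nat_lit 78) (PT.lf (nat_lit 42256) (nat_lit 6) (nat_lit 556) (nat_lit 4) (nat_lit 245) (nat_lit 281) (nat_lit 254)) (PT.lf (nat_lit 42180) (nat_lit 6) (nat_lit 555) (nat_lit 4) (nat_lit 246) (nat_lit 281) (nat_lit 253))))))))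
noncomputable def pc92 : PT := (PT.nd (nat_lit 1326) (PT.nd (nat_lit 624) (PT.nd (nat_lit 312) (PT.nd (nat_lit 156) (PT.nd (nat_lit 78) (PT.lf (nat_lit 42104) (nat_lit 6) (nat_lit 554) (nat_lit 4) (nat_lit 247) (nat_lit 281) (nat_lit 252)) (PT.lf (nat_lit 42028) (nat_lit 6) (nat_lit 553) (nat_lit 4) (nat_lit 248) (nat_lit 281) (nat_lit 251))) (PT.nd (nat_lit 78) (PT.lf (nat_lit 41952) (nat_lit 6) (nat_lit 552) (nat_lit 4) (nat_lit 249) (nat_lit 281) (nat_lit 250)) (PT.lf (nat_lit 41952) (nat_lit 6) (nat_lit 552) (nat_lit 2) (nat_lit 250) (nat_lit 281) (nat_lit 249)))) (PT.nd (nat_lit 156) (PT.nd (nat_lit 78) (PT.lf (nat_lit 42028) (nat_lit 6) (nat_lit 553) (nat_lit 2) (nat_lit 251) (nat_lit 281) (nat_lit 248)) (PT.lf (nat_lit 42104) (nat_lit 6) (nat_lit 554) (nat_lit 2) (nat_lit 252) (nat_lit 281) (nat_lit 247))) (PT.nd (nat_lit 78) (PT.lf (nat_lit 42180) (nat_lit 6) (nat_lit 555) (nat_lit 2) (nat_lit 253) (nat_lit 281) (nat_lit 246)) (PT.lf (nat_lit 42256)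 (nat_lit 6) (nat_lit 556) (nat_lit 2) (nat_lit 254) (nat_lit 281) (nat_lit 245))))) (PT.nd (nat_lit 312) (PT.nd (nat_lit 156) (PT.nd (nat_lit 78) (PT.lf (nat_lit 42332) (nat_lit 6) (nat_lit 557) (nat_lit 2) (nat_lit 255) (nat_lit 281) (nat_lit 244)) (PT.lf (nat_lit 42408) (nat_lit 6) (nat_lit 558) (nat_lit 2) (nat_lit 256) (nat_lit 281) (nat_lit 243))) (PT.nd (nat_lit 78) (PT.lf (nat_lit 42484) (nat_lit 6) (nat_lit 559) (nat_lit 2) (nat_lit 257) (nat_lit 281) (nat_lit 242)) (PT.lf (nat_lit 42560) (nat_lit 6) (nat_lit 560) (nat_lit 2) (nat_lit 258) (nat_lit 281) (nat_lit 241)))) (PT.nd (nat_lit 156) (PT.nd (nat_lit 78) (PT.lf (nat_lit 42636) (nat_lit 6) (nat_lit 561) (nat_lit 2) (nat_lit 259) (nat_lit 281) (nat_lit 240)) (PT.lf (nat_lit 42712) (nat_lit 6) (nat_lit 562) (nat_lit 2) (nat_lit 260) (nat_lit 281) (nat_lit 239))) (PT.nd (nat_lit 78) (PT.lf (nat_lit 41116) (nat_lit 6) (nat_lit 541) (nat_lit 2) (nat_lit 261) (nat_lit 281) (nat_lit 238)) (PT.nd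 (nat_lit 78) (PT.lf (nat_lit 39444) (nat_lit 6) (nat_lit 519) (nat_lit 2) (nat_lit 262) (nat_lit 281) (nat_lit 237)) (PT.lf (nat_lit 37696) (nat_lit 6) (nat_lit 496) (nat_lit 2) (nat_lit 263) (nat_lit 281) (nat_lit 236))))))) (PT.nd (nat_lit 702) (PT.nd (nat_lit 312) (PT.nd (nat_lit 156) (PT.nd (nat_lit 78) (PT.lf (nat_lit 35872) (nat_lit 6) (nat_lit 472) (nat_lit 2) (nat_lit 264) (nat_lit 281) (nat_lit 235)) (PT.lf (nat_lit 34732) (nat_lit 6) (nat_lit 457) (nat_lit 2) (nat_lit 265) (nat_lit 281) (nat_lit 234))) (PT.nd (nat_lit 78) (PT.lf (nat_lit 33820) (nat_lit 6) (nat_lit 445) (nat_lit 2) (nat_lit 266) (nat_lit 281) (nat_lit 233)) (PT.lf (nat_lit 32908) (nat_lit 6) (nat_lit 433) (nat_lit 2) (nat_lit 267) (nat_lit 281) (nat_lit 232)))) (PT.nd (nat_lit 156) (PT.nd (nat_lit 78) (PT.lf (nat_lit 32072) (nat_lit 6) (nat_lit 422) (nat_lit 2) (nat_lit 268) (nat_lit 281) (nat_lit 231)) (PT.lf (nat_lit 31160) (nat_lit 6) (nat_lit 410) (nat_lit 2) (nat_lit 269)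 (nat_lit 281) (nat_lit 230))) (PT.nd (nat_lit 78) (PT.lf (nat_lit 30324) (nat_lit 6) (nat_lit 399) (nat_lit 2) (nat_lit 270) (nat_lit 281) (nat_lit 229)) (PT.nd (nat_lit 78) (PT.lf (nat_lit 29488) (nat_lit 6) (nat_lit 388) (nat_lit 2) (nat_lit 271) (nat_lit 281) (nat_lit 228)) (PT.lf (nat_lit 28728) (nat_lit 6) (nat_lit 378) (nat_lit 2) (nat_lit 272) (nat_lit 281) (nat_lit 227)))))) (PT.nd (nat_lit 312) (PT.nd (nat_lit 156) (PT.nd (nat_lit 78) (PT.lf (nat_lit 27968) (nat_lit 6) (nat_lit 368) (nat_lit 2) (nat_lit 273) (nat_lit 281) (nat_lit 226)) (PT.lf (nat_lit 27208) (nat_lit 6) (nat_lit 358) (nat_lit 2) (nat_lit 274) (nat_lit 281) (nat_lit 225))) (PT.nd (nat_lit 78) (PT.lf (nat_lit 26448) (nat_lit 6) (nat_lit 348) (nat_lit 2) (nat_lit 275) (nat_lit 281) (nat_lit 224)) (PT.lf (nat_lit 25764) (nat_lit 6) (nat_lit 339) (nat_lit 2) (nat_lit 276) (nat_lit 281) (nat_lit 223)))) (PT.nd (nat_lit 156) (PT.nd (nat_lit 78) (PT.lf (nat_lit 25080) (nat_lit 6) (nat_lit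 330) (nat_lit 2) (nat_lit 277) (nat_lit 281) (nat_lit 222)) (PT.lf (nat_lit 24396) (nat_lit 6) (nat_lit 321) (nat_lit 2) (nat_lit 278) (nat_lit 281) (nat_lit 221))) (PT.nd (nat_lit 78) (PT.lf (nat_lit 23712) (nat_lit 6) (nat_lit 312) (nat_lit 2) (nat_lit 279) (nat_lit 281) (nat_lit 220)) (PT.nd (nat_lit 78) (PT.lf (nat_lit 23104) (nat_lit 6) (nat_lit 304) (nat_lit 2) (nat_lit 280) (nat_lit 281) (nat_lit 219)) (PT.lf (nat_lit 22496) (nat_lit 3) (nat_lit 296) (nat_lit 0) (nat_lit 281) (nat_lit 281) (nat_lit 218))))))))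
noncomputable def pc93 : PT := (PT.nd (nat_lit 75660) (PT.nd (nat_lit 624) (PT.nd (nat_lit 312) (PT.nd (nat_lit 156) (PT.nd (nat_lit 78) (PT.lf (nat_lit 21812) (nat_lit 6) (nat_lit 287) (nat_lit 0) (nat_lit 282) (nat_lit 281) (nat_lit 217)) (PT.lf (nat_lit 21128) (nat_lit 6) (nat_lit 278) (nat_lit 0) (nat_lit 283) (nat_lit 281) (nat_lit 216))) (PT.nd (nat_lit 78) (PT.lf (nat_lit 20520) (nat_lit 6) (nat_lit 270) (nat_lit 0) (nat_lit 284) (nat_lit 281) (nat_lit 215)) (PT.lf (nat_lit 19836) (nat_lit 6) (nat_lit 261) (nat_lit 0) (nat_lit 285) (nat_lit 281) (nat_lit 214)))) (PT.nd (nat_lit 156) (PT.nd (nat_lit 78) (PT.lf (nat_lit 19228) (nat_lit 6) (nat_lit 253) (nat_lit 0) (nat_lit 286) (nat_lit 281) (nat_lit 213)) (PT.lf (nat_lit 18620) (nat_lit 6) (nat_lit 245) (nat_lit 0) (nat_lit 287) (nat_lit 281) (nat_lit 212))) (PT.nd (nat_lit 78) (PT.lf (nat_lit 18088) (nat_lit 6) (nat_lit 238) (nat_lit 0) (nat_lit 288) (nat_lit 281) (nat_lit 211)) (PT.lf (nat_lit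 17480) (nat_lit 6) (nat_lit 230) (nat_lit 0) (nat_lit 289) (nat_lit 281) (nat_lit 210))))) (PT.nd (nat_lit 74646) (PT.nd (nat_lit 156) (PT.nd (nat_lit 78) (PT.lf (nat_lit 16948) (nat_lit 6) (nat_lit 223) (nat_lit 0) (nat_lit 290) (nat_lit 281) (nat_lit 209)) (PT.lf (nat_lit 16416) (nat_lit 6) (nat_lit 216) (nat_lit 0) (nat_lit 291) (nat_lit 281) (nat_lit 208))) (PT.nd (nat_lit 74412) (PT.lf (nat_lit 15884) (nat_lit 6) (nat_lit 209) (nat_lit 0) (nat_lit 292) (nat_lit 281) (nat_lit 207)) (PT.lf (nat_lit 14972) (nat_lit 6) (nat_lit 197) (nat_lit 5) (nat_lit 205) (nat_lit 282) (nat_lit 293)))) (PT.nd (nat_lit 156) (PT.nd (nat_lit 78) (PT.lf (nat_lit 15428) (nat_lit 6) (nat_lit 203) (nat_lit 5) (nat_lit 206) (nat_lit 282) (nat_lit 292)) (PT.lf (nat_lit 15960) (nat_lit 6) (nat_lit 210) (nat_lit 5) (nat_lit 207) (nat_lit 282) (nat_lit 291))) (PT.nd (nat_lit 78) (PT.lf (nat_lit 16492) (nat_lit 6) (nat_lit 217) (nat_lit 5) (nat_lit 208) (nat_lit 282) (nat_lit 290))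 (PT.nd (nat_lit 78) (PT.lf (nat_lit 17024) (nat_lit 6) (nat_lit 224) (nat_lit 5) (nat_lit 209) (nat_lit 282) (nat_lit 289)) (PT.lf (nat_lit 17556) (nat_lit 6) (nat_lit 231) (nat_lit 5) (nat_lit 210) (nat_lit 282) (nat_lit 288))))))) (PT.nd (nat_lit 702) (PT.nd (nat_lit 312) (PT.nd (nat_lit 156) (PT.nd (nat_lit 78) (PT.lf (nat_lit 18164) (nat_lit 6) (nat_lit 239) (nat_lit 5) (nat_lit 211) (nat_lit 282) (nat_lit 287)) (PT.lf (nat_lit 18696) (nat_lit 6) (nat_lit 246) (nat_lit 5) (nat_lit 212) (nat_lit 282) (nat_lit 286))) (PT.nd (nat_lit 78) (PT.lf (nat_lit 19304) (nat_lit 6) (nat_lit 254) (nat_lit 5) (nat_lit 213) (nat_lit 282) (nat_lit 285)) (PT.lf (nat_lit 19912) (nat_lit 6) (nat_lit 262) (nat_lit 5) (nat_lit 214) (nat_lit 282) (nat_lit 284)))) (PT.nd (nat_lit 156) (PT.nd (nat_lit 78) (PT.lf (nat_lit 20596) (nat_lit 6) (nat_lit 271) (nat_lit 5) (nat_lit 215) (nat_lit 282) (nat_lit 283)) (PT.lf (nat_lit 21204) (nat_lit 3) (nat_lit 279) (nat_lit 4) (nat_lit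 216) (nat_lit 282) (nat_lit 282))) (PT.nd (nat_lit 78) (PT.lf (nat_lit 21812) (nat_lit 6) (nat_lit 287) (nat_lit 4) (nat_lit 217) (nat_lit 282) (nat_lit 281)) (PT.nd (nat_lit 78) (PT.lf (nat_lit 22420) (nat_lit 6) (nat_lit 295) (nat_lit 4) (nat_lit 218) (nat_lit 282) (nat_lit 280)) (PT.lf (nat_lit 23028) (nat_lit 6) (nat_lit 303) (nat_lit 4) (nat_lit 219) (nat_lit 282) (nat_lit 279)))))) (PT.nd (nat_lit 312) (PT.nd (nat_lit 156) (PT.nd (nat_lit 78) (PT.lf (nat_lit 23636) (nat_lit 6) (nat_lit 311) (nat_lit 4) (nat_lit 220) (nat_lit 282) (nat_lit 278)) (PT.lf (nat_lit 24320) (nat_lit 6) (nat_lit 320) (nat_lit 4) (nat_lit 221) (nat_lit 282) (nat_lit 277))) (PT.nd (nat_lit 78) (PT.lf (nat_lit 25004) (nat_lit 6) (nat_lit 329) (nat_lit 4) (nat_lit 222) (nat_lit 282) (nat_lit 276)) (PT.lf (nat_lit 25688) (nat_lit 6) (nat_lit 338) (nat_lit 4) (nat_lit 223) (nat_lit 282) (nat_lit 275)))) (PT.nd (nat_lit 156) (PT.nd (nat_lit 78) (PT.lf (nat_lit 26372) (nat_lit 6)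 (nat_lit 347) (nat_lit 4) (nat_lit 224) (nat_lit 282) (nat_lit 274)) (PT.lf (nat_lit 27132) (nat_lit 6) (nat_lit 357) (nat_lit 4) (nat_lit 225) (nat_lit 282) (nat_lit 273))) (PT.nd (nat_lit 78) (PT.lf (nat_lit 27892) (nat_lit 6) (nat_lit 367) (nat_lit 4) (nat_lit 226) (nat_lit 282) (nat_lit 272)) (PT.nd (nat_lit 78) (PT.lf (nat_lit 28652) (nat_lit 6) (nat_lit 377) (nat_lit 4) (nat_lit 227) (nat_lit 282) (nat_lit 271)) (PT.lf (nat_lit 29412) (nat_lit 6) (nat_lit 387) (nat_lit 4) (nat_lit 228) (nat_lit 282) (nat_lit 270))))))))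
noncomputable def pc94 : PT := (PT.nd (nat_lit 1326) (PT.nd (nat_lit 624) (PT.nd (nat_lit 312) (PT.nd (nat_lit 156) (PT.nd (nat_lit 78) (PT.lf (nat_lit 30248) (nat_lit 6) (nat_lit 398) (nat_lit 4) (nat_lit 229) (nat_lit 282) (nat_lit 269)) (PT.lf (nat_lit 31084) (nat_lit 6) (nat_lit 409) (nat_lit 4) (nat_lit 230) (nat_lit 282) (nat_lit 268))) (PT.nd (nat_lit 78) (PT.lf (nat_lit 31996) (nat_lit 6) (nat_lit 421) (nat_lit 4) (nat_lit 231) (nat_lit 282) (nat_lit 267)) (PT.lf (nat_lit 32832) (nat_lit 6) (nat_lit 432) (nat_lit 4) (nat_lit 232) (nat_lit 282) (nat_lit 266)))) (PT.nd (nat_lit 156) (PT.nd (nat_lit 78) (PT.lf (nat_lit 33744) (nat_lit 6) (nat_lit 444) (nat_lit 4) (nat_lit 233) (nat_lit 282) (nat_lit 265)) (PT.lf (nat_lit 34656) (nat_lit 6) (nat_lit 456) (nat_lit 4) (nat_lit 234) (nat_lit 282) (nat_lit 264))) (PT.nd (nat_lit 78) (PT.lf (nat_lit 35796) (nat_lit 6) (nat_lit 471) (nat_lit 4) (nat_lit 235) (nat_lit 282) (nat_lit 263)) (PT.lf (nat_lit 37620)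 (nat_lit 6) (nat_lit 495) (nat_lit 4) (nat_lit 236) (nat_lit 282) (nat_lit 262))))) (PT.nd (nat_lit 312) (PT.nd (nat_lit 156) (PT.nd (nat_lit 78) (PT.lf (nat_lit 39368) (nat_lit 6) (nat_lit 518) (nat_lit 4) (nat_lit 237) (nat_lit 282) (nat_lit 261)) (PT.lf (nat_lit 41040) (nat_lit 6) (nat_lit 540) (nat_lit 4) (nat_lit 238) (nat_lit 282) (nat_lit 260))) (PT.nd (nat_lit 78) (PT.lf (nat_lit 40964) (nat_lit 6) (nat_lit 539) (nat_lit 4) (nat_lit 239) (nat_lit 282) (nat_lit 259)) (PT.lf (nat_lit 40888) (nat_lit 6) (nat_lit 538) (nat_lit 4) (nat_lit 240) (nat_lit 282) (nat_lit 258)))) (PT.nd (nat_lit 156) (PT.nd (nat_lit 78) (PT.lf (nat_lit 40812) (nat_lit 6) (nat_lit 537) (nat_lit 4) (nat_lit 241) (nat_lit 282) (nat_lit 257)) (PT.lf (nat_lit 40736) (nat_lit 6) (nat_lit 536) (nat_lit 4) (nat_lit 242) (nat_lit 282) (nat_lit 256))) (PT.nd (nat_lit 78) (PT.lf (nat_lit 40660) (nat_lit 6) (nat_lit 535) (nat_lit 4) (nat_lit 243) (nat_lit 282) (nat_lit 255)) (PT.nd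 (nat_lit 78) (PT.lf (nat_lit 40584) (nat_lit 6) (nat_lit 534) (nat_lit 4) (nat_lit 244) (nat_lit 282) (nat_lit 254)) (PT.lf (nat_lit 40508) (nat_lit 6) (nat_lit 533) (nat_lit 4) (nat_lit 245) (nat_lit 282) (nat_lit 253))))))) (PT.nd (nat_lit 702) (PT.nd (nat_lit 312) (PT.nd (nat_lit 156) (PT.nd (nat_lit 78) (PT.lf (nat_lit 40432) (nat_lit 6) (nat_lit 532) (nat_lit 4) (nat_lit 246) (nat_lit 282) (nat_lit 252)) (PT.lf (nat_lit 40356) (nat_lit 6) (nat_lit 531) (nat_lit 4) (nat_lit 247) (nat_lit 282) (nat_lit 251))) (PT.nd (nat_lit 78) (PT.lf (nat_lit 40280) (nat_lit 6) (nat_lit 530) (nat_lit 4) (nat_lit 248) (nat_lit 282) (nat_lit 250)) (PT.lf (nat_lit 40204) (nat_lit 3) (nat_lit 529) (nat_lit 2) (nat_lit 249) (nat_lit 282) (nat_lit 249)))) (PT.nd (nat_lit 156) (PT.nd (nat_lit 78) (PT.lf (nat_lit 40280) (nat_lit 6) (nat_lit 530) (nat_lit 2) (nat_lit 250) (nat_lit 282) (nat_lit 248)) (PT.lf (nat_lit 40356) (nat_lit 6) (nat_lit 531) (nat_lit 2) (nat_lit 251)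 (nat_lit 282) (nat_lit 247))) (PT.nd (nat_lit 78) (PT.lf (nat_lit 40432) (nat_lit 6) (nat_lit 532) (nat_lit 2) (nat_lit 252) (nat_lit 282) (nat_lit 246)) (PT.nd (nat_lit 78) (PT.lf (nat_lit 40508) (nat_lit 6) (nat_lit 533) (nat_lit 2) (nat_lit 253) (nat_lit 282) (nat_lit 245)) (PT.lf (nat_lit 40584) (nat_lit 6) (nat_lit 534) (nat_lit 2) (nat_lit 254) (nat_lit 282) (nat_lit 244)))))) (PT.nd (nat_lit 312) (PT.nd (nat_lit 156) (PT.nd (nat_lit 78) (PT.lf (nat_lit 40660) (nat_lit 6) (nat_lit 535) (nat_lit 2) (nat_lit 255) (nat_lit 282) (nat_lit 243)) (PT.lf (nat_lit 40736) (nat_lit 6) (nat_lit 536) (nat_lit 2) (nat_lit 256) (nat_lit 282) (nat_lit 242))) (PT.nd (nat_lit 78) (PT.lf (nat_lit 40812) (nat_lit 6) (nat_lit 537) (nat_lit 2) (nat_lit 257) (nat_lit 282) (nat_lit 241)) (PT.lf (nat_lit 40888) (nat_lit 6) (nat_lit 538) (nat_lit 2) (nat_lit 258) (nat_lit 282) (nat_lit 240)))) (PT.nd (nat_lit 156) (PT.nd (nat_lit 78) (PT.lf (nat_lit 40964) (nat_lit 6) (nat_lit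 539) (nat_lit 2) (nat_lit 259) (nat_lit 282) (nat_lit 239)) (PT.lf (nat_lit 41040) (nat_lit 6) (nat_lit 540) (nat_lit 2) (nat_lit 260) (nat_lit 282) (nat_lit 238))) (PT.nd (nat_lit 78) (PT.lf (nat_lit 39368) (nat_lit 6) (nat_lit 518) (nat_lit 2) (nat_lit 261) (nat_lit 282) (nat_lit 237)) (PT.nd (nat_lit 78) (PT.lf (nat_lit 37620) (nat_lit 6) (nat_lit 495) (nat_lit 2) (nat_lit 262) (nat_lit 282) (nat_lit 236)) (PT.lf (nat_lit 35796) (nat_lit 6) (nat_lit 471) (nat_lit 2) (nat_lit 263) (nat_lit 282) (nat_lit 235))))))))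
noncomputable def pc95 : PT := (PT.nd (nat_lit 1326) (PT.nd (nat_lit 624) (PT.nd (nat_lit 312) (PT.nd (nat_lit 156) (PT.nd (nat_lit 78) (PT.lf (nat_lit 34656) (nat_lit 6) (nat_lit 456) (nat_lit 2) (nat_lit 264) (nat_lit 282) (nat_lit 234)) (PT.lf (nat_lit 33744) (nat_lit 6) (nat_lit 444) (nat_lit 2) (nat_lit 265) (nat_lit 282) (nat_lit 233))) (PT.nd (nat_lit 78) (PT.lf (nat_lit 32832) (nat_lit 6) (nat_lit 432) (nat_lit 2) (nat_lit 266) (nat_lit 282) (nat_lit 232)) (PT.lf (nat_lit 31996) (nat_lit 6) (nat_lit 421) (nat_lit 2) (nat_lit 267) (nat_lit 282) (nat_lit 231)))) (PT.nd (nat_lit 156) (PT.nd (nat_lit 78) (PT.lf (nat_lit 31084) (nat_lit 6) (nat_lit 409) (nat_lit 2) (nat_lit 268) (nat_lit 282) (nat_lit 230)) (PT.lf (nat_lit 30248) (nat_lit 6) (nat_lit 398) (nat_lit 2) (nat_lit 269) (nat_lit 282) (nat_lit 229))) (PT.nd (nat_lit 78) (PT.lf (nat_lit 29412) (nat_lit 6) (nat_lit 387) (nat_lit 2) (nat_lit 270) (nat_lit 282) (nat_lit 228)) (PT.lf (nat_lit 28652)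 (nat_lit 6) (nat_lit 377) (nat_lit 2) (nat_lit 271) (nat_lit 282) (nat_lit 227))))) (PT.nd (nat_lit 312) (PT.nd (nat_lit 156) (PT.nd (nat_lit 78) (PT.lf (nat_lit 27892) (nat_lit 6) (nat_lit 367) (nat_lit 2) (nat_lit 272) (nat_lit 282) (nat_lit 226)) (PT.lf (nat_lit 27132) (nat_lit 6) (nat_lit 357) (nat_lit 2) (nat_lit 273) (nat_lit 282) (nat_lit 225))) (PT.nd (nat_lit 78) (PT.lf (nat_lit 26372) (nat_lit 6) (nat_lit 347) (nat_lit 2) (nat_lit 274) (nat_lit 282) (nat_lit 224)) (PT.lf (nat_lit 25688) (nat_lit 6) (nat_lit 338) (nat_lit 2) (nat_lit 275) (nat_lit 282) (nat_lit 223)))) (PT.nd (nat_lit 156) (PT.nd (nat_lit 78) (PT.lf (nat_lit 25004) (nat_lit 6) (nat_lit 329) (nat_lit 2) (nat_lit 276) (nat_lit 282) (nat_lit 222)) (PT.lf (nat_lit 24320) (nat_lit 6) (nat_lit 320) (nat_lit 2) (nat_lit 277) (nat_lit 282) (nat_lit 221))) (PT.nd (nat_lit 78) (PT.lf (nat_lit 23636) (nat_lit 6) (nat_lit 311) (nat_lit 2) (nat_lit 278) (nat_lit 282) (nat_lit 220)) (PT.nd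 (nat_lit 78) (PT.lf (nat_lit 23028) (nat_lit 6) (nat_lit 303) (nat_lit 2) (nat_lit 279) (nat_lit 282) (nat_lit 219)) (PT.lf (nat_lit 22420) (nat_lit 6) (nat_lit 295) (nat_lit 2) (nat_lit 280) (nat_lit 282) (nat_lit 218))))))) (PT.nd (nat_lit 702) (PT.nd (nat_lit 312) (PT.nd (nat_lit 156) (PT.nd (nat_lit 78) (PT.lf (nat_lit 21812) (nat_lit 6) (nat_lit 287) (nat_lit 2) (nat_lit 281) (nat_lit 282) (nat_lit 217)) (PT.lf (nat_lit 21204) (nat_lit 3) (nat_lit 279) (nat_lit 0) (nat_lit 282) (nat_lit 282) (nat_lit 216))) (PT.nd (nat_lit 78) (PT.lf (nat_lit 20596) (nat_lit 6) (nat_lit 271) (nat_lit 0) (nat_lit 283) (nat_lit 282) (nat_lit 215)) (PT.lf (nat_lit 19912) (nat_lit 6) (nat_lit 262) (nat_lit 0) (nat_lit 284) (nat_lit 282) (nat_lit 214)))) (PT.nd (nat_lit 156) (PT.nd (nat_lit 78) (PT.lf (nat_lit 19304) (nat_lit 6) (nat_lit 254) (nat_lit 0) (nat_lit 285) (nat_lit 282) (nat_lit 213)) (PT.lf (nat_lit 18696) (nat_lit 6) (nat_lit 246) (nat_lit 0) (nat_lit 286)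 (nat_lit 282) (nat_lit 212))) (PT.nd (nat_lit 78) (PT.lf (nat_lit 18164) (nat_lit 6) (nat_lit 239) (nat_lit 0) (nat_lit 287) (nat_lit 282) (nat_lit 211)) (PT.nd (nat_lit 78) (PT.lf (nat_lit 17556) (nat_lit 6) (nat_lit 231) (nat_lit 0) (nat_lit 288) (nat_lit 282) (nat_lit 210)) (PT.lf (nat_lit 17024) (nat_lit 6) (nat_lit 224) (nat_lit 0) (nat_lit 289) (nat_lit 282) (nat_lit 209)))))) (PT.nd (nat_lit 74490) (PT.nd (nat_lit 156) (PT.nd (nat_lit 78) (PT.lf (nat_lit 16492) (nat_lit 6) (nat_lit 217) (nat_lit 0) (nat_lit 290) (nat_lit 282) (nat_lit 208)) (PT.lf (nat_lit 15960) (nat_lit 6) (nat_lit 210) (nat_lit 0) (nat_lit 291) (nat_lit 282) (nat_lit 207))) (PT.nd (nat_lit 78) (PT.lf (nat_lit 15428) (nat_lit 6) (nat_lit 203) (nat_lit 0) (nat_lit 292) (nat_lit 282) (nat_lit 206)) (PT.lf (nat_lit 14972) (nat_lit 6) (nat_lit 197) (nat_lit 0) (nat_lit 293) (nat_lit 282) (nat_lit 205)))) (PT.nd (nat_lit 156) (PT.nd (nat_lit 78) (PT.lf (nat_lit 14516) (nat_lit 6) (nat_lit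 191) (nat_lit 5) (nat_lit 204) (nat_lit 283) (nat_lit 293)) (PT.lf (nat_lit 15048) (nat_lit 6) (nat_lit 198) (nat_lit 5) (nat_lit 205) (nat_lit 283) (nat_lit 292))) (PT.nd (nat_lit 78) (PT.lf (nat_lit 15504) (nat_lit 6) (nat_lit 204) (nat_lit 5) (nat_lit 206) (nat_lit 283) (nat_lit 291)) (PT.nd (nat_lit 78) (PT.lf (nat_lit 16036) (nat_lit 6) (nat_lit 211) (nat_lit 5) (nat_lit 207) (nat_lit 283) (nat_lit 290)) (PT.lf (nat_lit 16568) (nat_lit 6) (nat_lit 218) (nat_lit 5) (nat_lit 208) (nat_lit 283) (nat_lit 289))))))))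
noncomputable def pc96 : PT := (PT.nd (nat_lit 1326) (PT.nd (nat_lit 624) (PT.nd (nat_lit 312) (PT.nd (nat_lit 156) (PT.nd (nat_lit 78) (PT.lf (nat_lit 17100) (nat_lit 6) (nat_lit 225) (nat_lit 5) (nat_lit 209) (nat_lit 283) (nat_lit 288)) (PT.lf (nat_lit 17632) (nat_lit 6) (nat_lit 232) (nat_lit 5) (nat_lit 210) (nat_lit 283) (nat_lit 287))) (PT.nd (nat_lit 78) (PT.lf (nat_lit 18240) (nat_lit 6) (nat_lit 240) (nat_lit 5) (nat_lit 211) (nat_lit 283) (nat_lit 286)) (PT.lf (nat_lit 18772) (nat_lit 6) (nat_lit 247) (nat_lit 5) (nat_lit 212) (nat_lit 283) (nat_lit 285)))) (PT.nd (nat_lit 156) (PT.nd (nat_lit 78) (PT.lf (nat_lit 19380) (nat_lit 6) (nat_lit 255) (nat_lit 5) (nat_lit 213) (nat_lit 283) (nat_lit 284)) (PT.lf (nat_lit 19988) (nat_lit 3) (nat_lit 263) (nat_lit 4) (nat_lit 214) (nat_lit 283) (nat_lit 283))) (PT.nd (nat_lit 78) (PT.lf (nat_lit 20596) (nat_lit 6) (nat_lit 271) (nat_lit 4) (nat_lit 215) (nat_lit 283) (nat_lit 282)) (PT.lf (nat_lit 21128)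 (nat_lit 6) (nat_lit 278) (nat_lit 4) (nat_lit 216) (nat_lit 283) (nat_lit 281))))) (PT.nd (nat_lit 312) (PT.nd (nat_lit 156) (PT.nd (nat_lit 78) (PT.lf (nat_lit 21736) (nat_lit 6) (nat_lit 286) (nat_lit 4) (nat_lit 217) (nat_lit 283) (nat_lit 280)) (PT.lf (nat_lit 22344) (nat_lit 6) (nat_lit 294) (nat_lit 4) (nat_lit 218) (nat_lit 283) (nat_lit 279))) (PT.nd (nat_lit 78) (PT.lf (nat_lit 22952) (nat_lit 6) (nat_lit 302) (nat_lit 4) (nat_lit 219) (nat_lit 283) (nat_lit 278)) (PT.lf (nat_lit 23560) (nat_lit 6) (nat_lit 310) (nat_lit 4) (nat_lit 220) (nat_lit 283) (nat_lit 277)))) (PT.nd (nat_lit 156) (PT.nd (nat_lit 78) (PT.lf (nat_lit 24244) (nat_lit 6) (nat_lit 319) (nat_lit 4) (nat_lit 221) (nat_lit 283) (nat_lit 276)) (PT.lf (nat_lit 24928) (nat_lit 6) (nat_lit 328) (nat_lit 4) (nat_lit 222) (nat_lit 283) (nat_lit 275))) (PT.nd (nat_lit 78) (PT.lf (nat_lit 25612) (nat_lit 6) (nat_lit 337) (nat_lit 4) (nat_lit 223) (nat_lit 283) (nat_lit 274)) (PT.nd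 (nat_lit 78) (PT.lf (nat_lit 26296) (nat_lit 6) (nat_lit 346) (nat_lit 4) (nat_lit 224) (nat_lit 283) (nat_lit 273)) (PT.lf (nat_lit 27056) (nat_lit 6) (nat_lit 356) (nat_lit 4) (nat_lit 225) (nat_lit 283) (nat_lit 272))))))) (PT.nd (nat_lit 624) (PT.nd (nat_lit 312) (PT.nd (nat_lit 156) (PT.nd (nat_lit 78) (PT.lf (nat_lit 27816) (nat_lit 6) (nat_lit 366) (nat_lit 4) (nat_lit 226) (nat_lit 283) (nat_lit 271)) (PT.lf (nat_lit 28576) (nat_lit 6) (nat_lit 376) (nat_lit 4) (nat_lit 227) (nat_lit 283) (nat_lit 270))) (PT.nd (nat_lit 78) (PT.lf (nat_lit 29336) (nat_lit 6) (nat_lit 386) (nat_lit 4) (nat_lit 228) (nat_lit 283) (nat_lit 269)) (PT.lf (nat_lit 30172) (nat_lit 6) (nat_lit 397) (nat_lit 4) (nat_lit 229) (nat_lit 283) (nat_lit 268)))) (PT.nd (nat_lit 156) (PT.nd (nat_lit 78) (PT.lf (nat_lit 31008) (nat_lit 6) (nat_lit 408) (nat_lit 4) (nat_lit 230) (nat_lit 283) (nat_lit 267)) (PT.lf (nat_lit 31920) (nat_lit 6) (nat_lit 420) (nat_lit 4) (nat_lit 231)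 (nat_lit 283) (nat_lit 266))) (PT.nd (nat_lit 78) (PT.lf (nat_lit 32756) (nat_lit 6) (nat_lit 431) (nat_lit 4) (nat_lit 232) (nat_lit 283) (nat_lit 265)) (PT.lf (nat_lit 33668) (nat_lit 6) (nat_lit 443) (nat_lit 4) (nat_lit 233) (nat_lit 283) (nat_lit 264))))) (PT.nd (nat_lit 312) (PT.nd (nat_lit 156) (PT.nd (nat_lit 78) (PT.lf (nat_lit 34580) (nat_lit 6) (nat_lit 455) (nat_lit 4) (nat_lit 234) (nat_lit 283) (nat_lit 263)) (PT.lf (nat_lit 35720) (nat_lit 6) (nat_lit 470) (nat_lit 4) (nat_lit 235) (nat_lit 283) (nat_lit 262))) (PT.nd (nat_lit 78) (PT.lf (nat_lit 37544) (nat_lit 6) (nat_lit 494) (nat_lit 4) (nat_lit 236) (nat_lit 283) (nat_lit 261)) (PT.lf (nat_lit 39292) (nat_lit 6) (nat_lit 517) (nat_lit 4) (nat_lit 237) (nat_lit 283) (nat_lit 260)))) (PT.nd (nat_lit 156) (PT.nd (nat_lit 78) (PT.lf (nat_lit 39216) (nat_lit 6) (nat_lit 516) (nat_lit 4) (nat_lit 238) (nat_lit 283) (nat_lit 259)) (PT.lf (nat_lit 39140) (nat_lit 6) (nat_lit 515) (nat_lit 4)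 (nat_lit 239) (nat_lit 283) (nat_lit 258))) (PT.nd (nat_lit 78) (PT.lf (nat_lit 39064) (nat_lit 6) (nat_lit 514) (nat_lit 4) (nat_lit 240) (nat_lit 283) (nat_lit 257)) (PT.nd (nat_lit 78) (PT.lf (nat_lit 38988) (nat_lit 6) (nat_lit 513) (nat_lit 4) (nat_lit 241) (nat_lit 283) (nat_lit 256)) (PT.lf (nat_lit 38912) (nat_lit 6) (nat_lit 512) (nat_lit 4) (nat_lit 242) (nat_lit 283) (nat_lit 255))))))))
noncomputable def pc97 : PT := (PT.nd (nat_lit 1326) (PT.nd (nat_lit 624) (PT.nd (nat_lit 312) (PT.nd (nat_lit 156) (PT.nd (nat_lit 78) (PT.lf (nat_lit 38836) (nat_lit 6) (nat_lit 511) (nat_lit 4) (nat_lit 243) (nat_lit 283) (nat_lit 254)) (PT.lf (nat_lit 38760) (nat_lit 6) (nat_lit 510) (nat_lit 4) (nat_lit 244) (nat_lit 283) (nat_lit 253))) (PT.nd (nat_lit 78) (PT.lf (nat_lit 38684) (nat_lit 6) (nat_lit 509) (nat_lit 4) (nat_lit 245) (nat_lit 283) (nat_lit 252)) (PT.lf (nat_lit 38608) (nat_lit 6) (nat_lit 508) (nat_lit 4) (nat_lit 246) (nat_lit 283) (nat_lit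 251)))) (PT.nd (nat_lit 156) (PT.nd (nat_lit 78) (PT.lf (nat_lit 38532) (nat_lit 6) (nat_lit 507) (nat_lit 4) (nat_lit 247) (nat_lit 283) (nat_lit 250)) (PT.lf (nat_lit 38456) (nat_lit 6) (nat_lit 506) (nat_lit 4) (nat_lit 248) (nat_lit 283) (nat_lit 249))) (PT.nd (nat_lit 78) (PT.lf (nat_lit 38456) (nat_lit 6) (nat_lit 506) (nat_lit 2) (nat_lit 249) (nat_lit 283) (nat_lit 248)) (PT.lf (nat_lit 38532) (nat_lit 6) (nat_lit 507) (nat_lit 2) (nat_lit 250) (nat_lit 283) (nat_lit 247))))) (PT.nd (nat_lit 312) (PT.nd (nat_lit 156) (PT.nd (nat_lit 78) (PT.lf (nat_lit 38608) (nat_lit 6) (nat_lit 508) (nat_lit 2) (nat_lit 251) (nat_lit 283) (nat_lit 246)) (PT.lf (nat_lit 38684) (nat_lit 6) (nat_lit 509) (nat_lit 2) (nat_lit 252) (nat_lit 283) (nat_lit 245))) (PT.nd (nat_lit 78) (PT.lf (nat_lit 38760) (nat_lit 6) (nat_lit 510) (nat_lit 2) (nat_lit 253) (nat_lit 283) (nat_lit 244)) (PT.lf (nat_lit 38836) (nat_lit 6) (nat_lit 511) (nat_lit 2) (nat_lit 254) (nat_lit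 283) (nat_lit 243)))) (PT.nd (nat_lit 156) (PT.nd (nat_lit 78) (PT.lf (nat_lit 38912) (nat_lit 6) (nat_lit 512) (nat_lit 2) (nat_lit 255) (nat_lit 283) (nat_lit 242)) (PT.lf (nat_lit 38988) (nat_lit 6) (nat_lit 513) (nat_lit 2) (nat_lit 256) (nat_lit 283) (nat_lit 241))) (PT.nd (nat_lit 78) (PT.lf (nat_lit 39064) (nat_lit 6) (nat_lit 514) (nat_lit 2) (nat_lit 257) (nat_lit 283) (nat_lit 240)) (PT.nd (nat_lit 78) (PT.lf (nat_lit 39140) (nat_lit 6) (nat_lit 515) (nat_lit 2) (nat_lit 258) (nat_lit 283) (nat_lit 239)) (PT.lf (nat_lit 39216) (nat_lit 6) (nat_lit 516) (nat_lit 2) (nat_lit 259) (nat_lit 283) (nat_lit 238))))))) (PT.nd (nat_lit 702) (PT.nd (nat_lit 312) (PT.nd (nat_lit 156) (PT.nd (nat_lit 78) (PT.lf (nat_lit 39292) (nat_lit 6) (nat_lit 517) (nat_lit 2) (nat_lit 260) (nat_lit 283) (nat_lit 237)) (PT.lf (nat_lit 37544) (nat_lit 6) (nat_lit 494) (nat_lit 2) (nat_lit 261) (nat_lit 283) (nat_lit 236))) (PT.nd (nat_lit 78) (PT.lf (nat_lit 35720) (nat_lit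 6) (nat_lit 470) (nat_lit 2) (nat_lit 262) (nat_lit 283) (nat_lit 235)) (PT.lf (nat_lit 34580) (nat_lit 6) (nat_lit 455) (nat_lit 2) (nat_lit 263) (nat_lit 283) (nat_lit 234)))) (PT.nd (nat_lit 156) (PT.nd (nat_lit 78) (PT.lf (nat_lit 33668) (nat_lit 6) (nat_lit 443) (nat_lit 2) (nat_lit 264) (nat_lit 283) (nat_lit 233)) (PT.lf (nat_lit 32756) (nat_lit 6) (nat_lit 431) (nat_lit 2) (nat_lit 265) (nat_lit 283) (nat_lit 232))) (PT.nd (nat_lit 78) (PT.lf (nat_lit 31920) (nat_lit 6) (nat_lit 420) (nat_lit 2) (nat_lit 266) (nat_lit 283) (nat_lit 231)) (PT.nd (nat_lit 78) (PT.lf (nat_lit 31008) (nat_lit 6) (nat_lit 408) (nat_lit 2) (nat_lit 267) (nat_lit 283) (nat_lit 230)) (PT.lf (nat_lit 30172) (nat_lit 6) (nat_lit 397) (nat_lit 2) (nat_lit 268) (nat_lit 283) (nat_lit 229)))))) (PT.nd (nat_lit 312) (PT.nd (nat_lit 156) (PT.nd (nat_lit 78) (PT.lf (nat_lit 29336) (nat_lit 6) (nat_lit 386) (nat_lit 2) (nat_lit 269) (nat_lit 283) (nat_lit 228)) (PT.lf (nat_lit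 28576) (nat_lit 6) (nat_lit 376) (nat_lit 2) (nat_lit 270) (nat_lit 283) (nat_lit 227))) (PT.nd (nat_lit 78) (PT.lf (nat_lit 27816) (nat_lit 6) (nat_lit 366) (nat_lit 2) (nat_lit 271) (nat_lit 283) (nat_lit 226)) (PT.lf (nat_lit 27056) (nat_lit 6) (nat_lit 356) (nat_lit 2) (nat_lit 272) (nat_lit 283) (nat_lit 225)))) (PT.nd (nat_lit 156) (PT.nd (nat_lit 78) (PT.lf (nat_lit 26296) (nat_lit 6) (nat_lit 346) (nat_lit 2) (nat_lit 273) (nat_lit 283) (nat_lit 224)) (PT.lf (nat_lit 25612) (nat_lit 6) (nat_lit 337) (nat_lit 2) (nat_lit 274) (nat_lit 283) (nat_lit 223))) (PT.nd (nat_lit 78) (PT.lf (nat_lit 24928) (nat_lit 6) (nat_lit 328) (nat_lit 2) (nat_lit 275) (nat_lit 283) (nat_lit 222)) (PT.nd (nat_lit 78) (PT.lf (nat_lit 24244) (nat_lit 6) (nat_lit 319) (nat_lit 2) (nat_lit 276) (nat_lit 283) (nat_lit 221)) (PT.lf (nat_lit 23560) (nat_lit 6) (nat_lit 310) (nat_lit 2) (nat_lit 277) (nat_lit 283) (nat_lit 220))))))))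
noncomputable def pc98 : PT := (PT.nd (nat_lit 75348) (PT.nd (nat_lit 624) (PT.nd (nat_lit 312) (PT.nd (nat_lit 156) (PT.nd (nat_lit 78) (PT.lf (nat_lit 22952) (nat_lit 6) (nat_lit 302) (nat_lit 2) (nat_lit 278) (nat_lit 283) (nat_lit 219)) (PT.lf (nat_lit 22344) (nat_lit 6) (nat_lit 294) (nat_lit 2) (nat_lit 279) (nat_lit 283) (nat_lit 218))) (PT.nd (nat_lit 78) (PT.lf (nat_lit 21736) (nat_lit 6) (nat_lit 286) (nat_lit 2) (nat_lit 280) (nat_lit 283) (nat_lit 217)) (PT.lf (nat_lit 21128) (nat_lit 6) (nat_lit 278) (nat_lit 2) (nat_lit 281) (nat_lit 283) (nat_lit 216)))) (PT.nd (nat_lit 156) (PT.nd (nat_lit 78) (PT.lf (nat_lit 20596) (nat_lit 6) (nat_lit 271) (nat_lit 2) (nat_lit 282) (nat_lit 283) (nat_lit 215)) (PT.lf (nat_lit 19988) (nat_lit 3) (nat_lit 263) (nat_lit 0) (nat_lit 283) (nat_lit 283) (nat_lit 214))) (PT.nd (nat_lit 78) (PT.lf (nat_lit 19380) (nat_lit 6) (nat_lit 255) (nat_lit 0) (nat_lit 284) (nat_lit 283) (nat_lit 213)) (PT.lf (nat_lit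 18772) (nat_lit 6) (nat_lit 247) (nat_lit 0) (nat_lit 285) (nat_lit 283) (nat_lit 212))))) (PT.nd (nat_lit 312) (PT.nd (nat_lit 156) (PT.nd (nat_lit 78) (PT.lf (nat_lit 18240) (nat_lit 6) (nat_lit 240) (nat_lit 0) (nat_lit 286) (nat_lit 283) (nat_lit 211)) (PT.lf (nat_lit 17632) (nat_lit 6) (nat_lit 232) (nat_lit 0) (nat_lit 287) (nat_lit 283) (nat_lit 210))) (PT.nd (nat_lit 78) (PT.lf (nat_lit 17100) (nat_lit 6) (nat_lit 225) (nat_lit 0) (nat_lit 288) (nat_lit 283) (nat_lit 209)) (PT.lf (nat_lit 16568) (nat_lit 6) (nat_lit 218) (nat_lit 0) (nat_lit 289) (nat_lit 283) (nat_lit 208)))) (PT.nd (nat_lit 156) (PT.nd (nat_lit 78) (PT.lf (nat_lit 16036) (nat_lit 6) (nat_lit 211) (nat_lit 0) (nat_lit 290) (nat_lit 283) (nat_lit 207)) (PT.lf (nat_lit 15504) (nat_lit 6) (nat_lit 204) (nat_lit 0) (nat_lit 291) (nat_lit 283) (nat_lit 206))) (PT.nd (nat_lit 78) (PT.lf (nat_lit 15048) (nat_lit 6) (nat_lit 198) (nat_lit 0) (nat_lit 292) (nat_lit 283) (nat_lit 205))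 (PT.nd (nat_lit 74100) (PT.lf (nat_lit 14516) (nat_lit 6) (nat_lit 191) (nat_lit 0) (nat_lit 293) (nat_lit 283) (nat_lit 204)) (PT.lf (nat_lit 13680) (nat_lit 6) (nat_lit 180) (nat_lit 5) (nat_lit 202) (nat_lit 284) (nat_lit 294))))))) (PT.nd (nat_lit 702) (PT.nd (nat_lit 312) (PT.nd (nat_lit 156) (PT.nd (nat_lit 78) (PT.lf (nat_lit 14136) (nat_lit 6) (nat_lit 186) (nat_lit 5) (nat_lit 203) (nat_lit 284) (nat_lit 293)) (PT.lf (nat_lit 14592) (nat_lit 6) (nat_lit 192) (nat_lit 5) (nat_lit 204) (nat_lit 284) (nat_lit 292))) (PT.nd (nat_lit 78) (PT.lf (nat_lit 15124) (nat_lit 6) (nat_lit 199) (nat_lit 5) (nat_lit 205) (nat_lit 284) (nat_lit 291)) (PT.lf (nat_lit 15580) (nat_lit 6) (nat_lit 205) (nat_lit 5) (nat_lit 206) (nat_lit 284) (nat_lit 290)))) (PT.nd (nat_lit 156) (PT.nd (nat_lit 78) (PT.lf (nat_lit 16112) (nat_lit 6) (nat_lit 212) (nat_lit 5) (nat_lit 207) (nat_lit 284) (nat_lit 289)) (PT.lf (nat_lit 16644) (nat_lit 6) (nat_lit 219) (nat_lit 5) (nat_lit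 208) (nat_lit 284) (nat_lit 288))) (PT.nd (nat_lit 78) (PT.lf (nat_lit 17176) (nat_lit 6) (nat_lit 226) (nat_lit 5) (nat_lit 209) (nat_lit 284) (nat_lit 287)) (PT.nd (nat_lit 78) (PT.lf (nat_lit 17708) (nat_lit 6) (nat_lit 233) (nat_lit 5) (nat_lit 210) (nat_lit 284) (nat_lit 286)) (PT.lf (nat_lit 18316) (nat_lit 6) (nat_lit 241) (nat_lit 5) (nat_lit 211) (nat_lit 284) (nat_lit 285)))))) (PT.nd (nat_lit 312) (PT.nd (nat_lit 156) (PT.nd (nat_lit 78) (PT.lf (nat_lit 18848) (nat_lit 3) (nat_lit 248) (nat_lit 4) (nat_lit 212) (nat_lit 284) (nat_lit 284)) (PT.lf (nat_lit 19380) (nat_lit 6) (nat_lit 255) (nat_lit 4) (nat_lit 213) (nat_lit 284) (nat_lit 283))) (PT.nd (nat_lit 78) (PT.lf (nat_lit 19912) (nat_lit 6) (nat_lit 262) (nat_lit 4) (nat_lit 214) (nat_lit 284) (nat_lit 282)) (PT.lf (nat_lit 20520) (nat_lit 6) (nat_lit 270) (nat_lit 4) (nat_lit 215) (nat_lit 284) (nat_lit 281)))) (PT.nd (nat_lit 156) (PT.nd (nat_lit 78) (PT.lf (nat_lit 21052) (nat_lit 6)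 (nat_lit 277) (nat_lit 4) (nat_lit 216) (nat_lit 284) (nat_lit 280)) (PT.lf (nat_lit 21660) (nat_lit 6) (nat_lit 285) (nat_lit 4) (nat_lit 217) (nat_lit 284) (nat_lit 279))) (PT.nd (nat_lit 78) (PT.lf (nat_lit 22268) (nat_lit 6) (nat_lit 293) (nat_lit 4) (nat_lit 218) (nat_lit 284) (nat_lit 278)) (PT.nd (nat_lit 78) (PT.lf (nat_lit 22876) (nat_lit 6) (nat_lit 301) (nat_lit 4) (nat_lit 219) (nat_lit 284) (nat_lit 277)) (PT.lf (nat_lit 23484) (nat_lit 6) (nat_lit 309) (nat_lit 4) (nat_lit 220) (nat_lit 284) (nat_lit 276))))))))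
noncomputable def pc99 : PT := (PT.nd (nat_lit 1326) (PT.nd (nat_lit 624) (PT.nd (nat_lit 312) (PT.nd (nat_lit 156) (PT.nd (nat_lit 78) (PT.lf (nat_lit 24168) (nat_lit 6) (nat_lit 318) (nat_lit 4) (nat_lit 221) (nat_lit 284) (nat_lit 275)) (PT.lf (nat_lit 24852) (nat_lit 6) (nat_lit 327) (nat_lit 4) (nat_lit 222) (nat_lit 284) (nat_lit 274))) (PT.nd (nat_lit 78) (PT.lf (nat_lit 25536) (nat_lit 6) (nat_lit 336) (nat_lit 4) (nat_lit 223) (nat_lit 284) (nat_lit 273)) (PT.lf (nat_lit 26220) (nat_lit 6) (nat_lit 345) (nat_lit 4) (nat_lit 224) (nat_lit 284) (nat_lit 272)))) (PT.nd (nat_lit 156) (PT.nd (nat_lit 78) (PT.lf (nat_lit 26980) (nat_lit 6) (nat_lit 355) (nat_lit 4) (nat_lit 225) (nat_lit 284) (nat_lit 271)) (PT.lf (nat_lit 27740) (nat_lit 6) (nat_lit 365) (nat_lit 4) (nat_lit 226) (nat_lit 284) (nat_lit 270))) (PT.nd (nat_lit 78) (PT.lf (nat_lit 28500) (nat_lit 6) (nat_lit 375) (nat_lit 4) (nat_lit 227) (nat_lit 284) (nat_lit 269)) (PT.lf (nat_lit 29260)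 (nat_lit 6) (nat_lit 385) (nat_lit 4) (nat_lit 228) (nat_lit 284) (nat_lit 268))))) (PT.nd (nat_lit 312) (PT.nd (nat_lit 156) (PT.nd (nat_lit 78) (PT.lf (nat_lit 30096) (nat_lit 6) (nat_lit 396) (nat_lit 4) (nat_lit 229) (nat_lit 284) (nat_lit 267)) (PT.lf (nat_lit 30932) (nat_lit 6) (nat_lit 407) (nat_lit 4) (nat_lit 230) (nat_lit 284) (nat_lit 266))) (PT.nd (nat_lit 78) (PT.lf (nat_lit 31844) (nat_lit 6) (nat_lit 419) (nat_lit 4) (nat_lit 231) (nat_lit 284) (nat_lit 265)) (PT.lf (nat_lit 32680) (nat_lit 6) (nat_lit 430) (nat_lit 4) (nat_lit 232) (nat_lit 284) (nat_lit 264)))) (PT.nd (nat_lit 156) (PT.nd (nat_lit 78) (PT.lf (nat_lit 33592) (nat_lit 6) (nat_lit 442) (nat_lit 4) (nat_lit 233) (nat_lit 284) (nat_lit 263)) (PT.lf (nat_lit 34504) (nat_lit 6) (nat_lit 454) (nat_lit 4) (nat_lit 234) (nat_lit 284) (nat_lit 262))) (PT.nd (nat_lit 78) (PT.lf (nat_lit 35644) (nat_lit 6) (nat_lit 469) (nat_lit 4) (nat_lit 235) (nat_lit 284) (nat_lit 261)) (PT.nd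 (nat_lit 78) (PT.lf (nat_lit 37468) (nat_lit 6) (nat_lit 493) (nat_lit 4) (nat_lit 236) (nat_lit 284) (nat_lit 260)) (PT.lf (nat_lit 37392) (nat_lit 6) (nat_lit 492) (nat_lit 4) (nat_lit 237) (nat_lit 284) (nat_lit 259))))))) (PT.nd (nat_lit 702) (PT.nd (nat_lit 312) (PT.nd (nat_lit 156) (PT.nd (nat_lit 78) (PT.lf (nat_lit 37316) (nat_lit 6) (nat_lit 491) (nat_lit 4) (nat_lit 238) (nat_lit 284) (nat_lit 258)) (PT.lf (nat_lit 37240) (nat_lit 6) (nat_lit 490) (nat_lit 4) (nat_lit 239) (nat_lit 284) (nat_lit 257))) (PT.nd (nat_lit 78) (PT.lf (nat_lit 37164) (nat_lit 6) (nat_lit 489) (nat_lit 4) (nat_lit 240) (nat_lit 284) (nat_lit 256)) (PT.lf (nat_lit 37088) (nat_lit 6) (nat_lit 488) (nat_lit 4) (nat_lit 241) (nat_lit 284) (nat_lit 255)))) (PT.nd (nat_lit 156) (PT.nd (nat_lit 78) (PT.lf (nat_lit 37012) (nat_lit 6) (nat_lit 487) (nat_lit 4) (nat_lit 242) (nat_lit 284) (nat_lit 254)) (PT.lf (nat_lit 36936) (nat_lit 6) (nat_lit 486) (nat_lit 4) (nat_lit 243)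 (nat_lit 284) (nat_lit 253))) (PT.nd (nat_lit 78) (PT.lf (nat_lit 36860) (nat_lit 6) (nat_lit 485) (nat_lit 4) (nat_lit 244) (nat_lit 284) (nat_lit 252)) (PT.nd (nat_lit 78) (PT.lf (nat_lit 36784) (nat_lit 6) (nat_lit 484) (nat_lit 4) (nat_lit 245) (nat_lit 284) (nat_lit 251)) (PT.lf (nat_lit 36708) (nat_lit 6) (nat_lit 483) (nat_lit 4) (nat_lit 246) (nat_lit 284) (nat_lit 250)))))) (PT.nd (nat_lit 312) (PT.nd (nat_lit 156) (PT.nd (nat_lit 78) (PT.lf (nat_lit 36632) (nat_lit 6) (nat_lit 482) (nat_lit 4) (nat_lit 247) (nat_lit 284) (nat_lit 249)) (PT.lf (nat_lit 36556) (nat_lit 3) (nat_lit 481) (nat_lit 2) (nat_lit 248) (nat_lit 284) (nat_lit 248))) (PT.nd (nat_lit 78) (PT.lf (nat_lit 36632) (nat_lit 6) (nat_lit 482) (nat_lit 2) (nat_lit 249) (nat_lit 284) (nat_lit 247)) (PT.lf (nat_lit 36708) (nat_lit 6) (nat_lit 483) (nat_lit 2) (nat_lit 250) (nat_lit 284) (nat_lit 246)))) (PT.nd (nat_lit 156) (PT.nd (nat_lit 78) (PT.lf (nat_lit 36784) (nat_lit 6) (nat_lit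 484) (nat_lit 2) (nat_lit 251) (nat_lit 284) (nat_lit 245)) (PT.lf (nat_lit 36860) (nat_lit 6) (nat_lit 485) (nat_lit 2) (nat_lit 252) (nat_lit 284) (nat_lit 244))) (PT.nd (nat_lit 78) (PT.lf (nat_lit 36936) (nat_lit 6) (nat_lit 486) (nat_lit 2) (nat_lit 253) (nat_lit 284) (nat_lit 243)) (PT.nd (nat_lit 78) (PT.lf (nat_lit 37012) (nat_lit 6) (nat_lit 487) (nat_lit 2) (nat_lit 254) (nat_lit 284) (nat_lit 242)) (PT.lf (nat_lit 37088) (nat_lit 6) (nat_lit 488) (nat_lit 2) (nat_lit 255) (nat_lit 284) (nat_lit 241))))))))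
noncomputable def pc100 : PT := (PT.nd (nat_lit 1326) (PT.nd (nat_lit 624) (PT.nd (nat_lit 312) (PT.nd (nat_lit 156) (PT.nd (nat_lit 78) (PT.lf (nat_lit 37164) (nat_lit 6) (nat_lit 489) (nat_lit 2) (nat_lit 256) (nat_lit 284) (nat_lit 240)) (PT.lf (nat_lit 37240) (nat_lit 6) (nat_lit 490) (nat_lit 2) (nat_lit 257) (nat_lit 284) (nat_lit 239))) (PT.nd (nat_lit 78) (PT.lf (nat_lit 37316) (nat_lit 6) (nat_lit 491) (nat_lit 2) (nat_lit 258) (nat_lit 284) (nat_lit 238)) (PT.lf (nat_lit 37392) (nat_lit 6) (nat_lit 492) (nat_lit 2) (nat_lit 259) (nat_lit 284) (nat_lit 237)))) (PT.nd (nat_lit 156) (PT.nd (nat_lit 78) (PT.lf (nat_lit 37468) (nat_lit 6) (nat_lit 493) (nat_lit 2) (nat_lit 260) (nat_lit 284) (nat_lit 236)) (PT.lf (nat_lit 35644) (nat_lit 6) (nat_lit 469) (nat_lit 2) (nat_lit 261) (nat_lit 284) (nat_lit 235))) (PT.nd (nat_lit 78) (PT.lf (nat_lit 34504) (nat_lit 6) (nat_lit 454) (nat_lit 2) (nat_lit 262) (nat_lit 284) (nat_lit 234)) (PT.lf (nat_lit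 33592) (nat_lit 6) (nat_lit 442) (nat_lit 2) (nat_lit 263) (nat_lit 284) (nat_lit 233))))) (PT.nd (nat_lit 312) (PT.nd (nat_lit 156) (PT.nd (nat_lit 78) (PT.lf (nat_lit 32680) (nat_lit 6) (nat_lit 430) (nat_lit 2) (nat_lit 264) (nat_lit 284) (nat_lit 232)) (PT.lf (nat_lit 31844) (nat_lit 6) (nat_lit 419) (nat_lit 2) (nat_lit 265) (nat_lit 284) (nat_lit 231))) (PT.nd (nat_lit 78) (PT.lf (nat_lit 30932) (nat_lit 6) (nat_lit 407) (nat_lit 2) (nat_lit 266) (nat_lit 284) (nat_lit 230)) (PT.lf (nat_lit 30096) (nat_lit 6) (nat_lit 396) (nat_lit 2) (nat_lit 267) (nat_lit 284) (nat_lit 229)))) (PT.nd (nat_lit 156) (PT.nd (nat_lit 78) (PT.lf (nat_lit 29260) (nat_lit 6) (nat_lit 385) (nat_lit 2) (nat_lit 268) (nat_lit 284) (nat_lit 228)) (PT.lf (nat_lit 28500) (nat_lit 6) (nat_lit 375) (nat_lit 2) (nat_lit 269) (nat_lit 284) (nat_lit 227))) (PT.nd (nat_lit 78) (PT.lf (nat_lit 27740) (nat_lit 6) (nat_lit 365) (nat_lit 2) (nat_lit 270) (nat_lit 284) (nat_lit 226))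 (PT.nd (nat_lit 78) (PT.lf (nat_lit 26980) (nat_lit 6) (nat_lit 355) (nat_lit 2) (nat_lit 271) (nat_lit 284) (nat_lit 225)) (PT.lf (nat_lit 26220) (nat_lit 6) (nat_lit 345) (nat_lit 2) (nat_lit 272) (nat_lit 284) (nat_lit 224))))))) (PT.nd (nat_lit 702) (PT.nd (nat_lit 312) (PT.nd (nat_lit 156) (PT.nd (nat_lit 78) (PT.lf (nat_lit 25536) (nat_lit 6) (nat_lit 336) (nat_lit 2) (nat_lit 273) (nat_lit 284) (nat_lit 223)) (PT.lf (nat_lit 24852) (nat_lit 6) (nat_lit 327) (nat_lit 2) (nat_lit 274) (nat_lit 284) (nat_lit 222))) (PT.nd (nat_lit 78) (PT.lf (nat_lit 24168) (nat_lit 6) (nat_lit 318) (nat_lit 2) (nat_lit 275) (nat_lit 284) (nat_lit 221)) (PT.lf (nat_lit 23484) (nat_lit 6) (nat_lit 309) (nat_lit 2) (nat_lit 276) (nat_lit 284) (nat_lit 220)))) (PT.nd (nat_lit 156) (PT.nd (nat_lit 78) (PT.lf (nat_lit 22876) (nat_lit 6) (nat_lit 301) (nat_lit 2) (nat_lit 277) (nat_lit 284) (nat_lit 219)) (PT.lf (nat_lit 22268) (nat_lit 6) (nat_lit 293) (nat_lit 2) (nat_lit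 278) (nat_lit 284) (nat_lit 218))) (PT.nd (nat_lit 78) (PT.lf (nat_lit 21660) (nat_lit 6) (nat_lit 285) (nat_lit 2) (nat_lit 279) (nat_lit 284) (nat_lit 217)) (PT.nd (nat_lit 78) (PT.lf (nat_lit 21052) (nat_lit 6) (nat_lit 277) (nat_lit 2) (nat_lit 280) (nat_lit 284) (nat_lit 216)) (PT.lf (nat_lit 20520) (nat_lit 6) (nat_lit 270) (nat_lit 2) (nat_lit 281) (nat_lit 284) (nat_lit 215)))))) (PT.nd (nat_lit 312) (PT.nd (nat_lit 156) (PT.nd (nat_lit 78) (PT.lf (nat_lit 19912) (nat_lit 6) (nat_lit 262) (nat_lit 2) (nat_lit 282) (nat_lit 284) (nat_lit 214)) (PT.lf (nat_lit 19380) (nat_lit 6) (nat_lit 255) (nat_lit 2) (nat_lit 283) (nat_lit 284) (nat_lit 213))) (PT.nd (nat_lit 78) (PT.lf (nat_lit 18848) (nat_lit 3) (nat_lit 248) (nat_lit 0) (nat_lit 284) (nat_lit 284) (nat_lit 212)) (PT.lf (nat_lit 18316) (nat_lit 6) (nat_lit 241) (nat_lit 0) (nat_lit 285) (nat_lit 284) (nat_lit 211)))) (PT.nd (nat_lit 156) (PT.nd (nat_lit 78) (PT.lf (nat_lit 17708) (nat_lit 6)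 (nat_lit 233) (nat_lit 0) (nat_lit 286) (nat_lit 284) (nat_lit 210)) (PT.lf (nat_lit 17176) (nat_lit 6) (nat_lit 226) (nat_lit 0) (nat_lit 287) (nat_lit 284) (nat_lit 209))) (PT.nd (nat_lit 78) (PT.lf (nat_lit 16644) (nat_lit 6) (nat_lit 219) (nat_lit 0) (nat_lit 288) (nat_lit 284) (nat_lit 208)) (PT.nd (nat_lit 78) (PT.lf (nat_lit 16112) (nat_lit 6) (nat_lit 212) (nat_lit 0) (nat_lit 289) (nat_lit 284) (nat_lit 207)) (PT.lf (nat_lit 15580) (nat_lit 6) (nat_lit 205) (nat_lit 0) (nat_lit 290) (nat_lit 284) (nat_lit 206))))))))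
noncomputable def pc101 : PT := (PT.nd (nat_lit 75114) (PT.nd (nat_lit 74412) (PT.nd (nat_lit 74100) (PT.nd (nat_lit 156) (PT.nd (nat_lit 78) (PT.lf (nat_lit 15124) (nat_lit 6) (nat_lit 199) (nat_lit 0) (nat_lit 291) (nat_lit 284) (nat_lit 205)) (PT.lf (nat_lit 14592) (nat_lit 6) (nat_lit 192) (nat_lit 0) (nat_lit 292) (nat_lit 284) (nat_lit 204))) (PT.nd (nat_lit 78) (PT.lf (nat_lit 14136) (nat_lit 6) (nat_lit 186) (nat_lit 0) (nat_lit 293) (nat_lit 284) (nat_lit 203)) (PT.lf (nat_lit 13680) (nat_lit 6) (nat_lit 180) (nat_lit 0) (nat_lit 294) (nat_lit 284) (nat_lit 202)))) (PT.nd (nat_lit 156) (PT.nd (nat_lit 78) (PT.lf (nat_lit 12844) (nat_lit 6) (nat_lit 169) (nat_lit 5) (nat_lit 200) (nat_lit 285) (nat_lit 295)) (PT.lf (nat_lit 13300) (nat_lit 6) (nat_lit 175) (nat_lit 5) (nat_lit 201) (nat_lit 285) (nat_lit 294))) (PT.nd (nat_lit 78) (PT.lf (nat_lit 13756) (nat_lit 6) (nat_lit 181) (nat_lit 5) (nat_lit 202) (nat_lit 285) (nat_lit 293)) (PT.lf (nat_lit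 14212) (nat_lit 6) (nat_lit 187) (nat_lit 5) (nat_lit 203) (nat_lit 285) (nat_lit 292))))) (PT.nd (nat_lit 312) (PT.nd (nat_lit 156) (PT.nd (nat_lit 78) (PT.lf (nat_lit 14668) (nat_lit 6) (nat_lit 193) (nat_lit 5) (nat_lit 204) (nat_lit 285) (nat_lit 291)) (PT.lf (nat_lit 15200) (nat_lit 6) (nat_lit 200) (nat_lit 5) (nat_lit 205) (nat_lit 285) (nat_lit 290))) (PT.nd (nat_lit 78) (PT.lf (nat_lit 15656) (nat_lit 6) (nat_lit 206) (nat_lit 5) (nat_lit 206) (nat_lit 285) (nat_lit 289)) (PT.lf (nat_lit 16188) (nat_lit 6) (nat_lit 213) (nat_lit 5) (nat_lit 207) (nat_lit 285) (nat_lit 288)))) (PT.nd (nat_lit 156) (PT.nd (nat_lit 78) (PT.lf (nat_lit 16720) (nat_lit 6) (nat_lit 220) (nat_lit 5) (nat_lit 208) (nat_lit 285) (nat_lit 287)) (PT.lf (nat_lit 17252) (nat_lit 6) (nat_lit 227) (nat_lit 5) (nat_lit 209) (nat_lit 285) (nat_lit 286))) (PT.nd (nat_lit 78) (PT.lf (nat_lit 17784) (nat_lit 3) (nat_lit 234) (nat_lit 4) (nat_lit 210) (nat_lit 285) (nat_lit 285))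 (PT.nd (nat_lit 78) (PT.lf (nat_lit 18316) (nat_lit 6) (nat_lit 241) (nat_lit 4) (nat_lit 211) (nat_lit 285) (nat_lit 284)) (PT.lf (nat_lit 18772) (nat_lit 6) (nat_lit 247) (nat_lit 4) (nat_lit 212) (nat_lit 285) (nat_lit 283))))))) (PT.nd (nat_lit 702) (PT.nd (nat_lit 312) (PT.nd (nat_lit 156) (PT.nd (nat_lit 78) (PT.lf (nat_lit 19304) (nat_lit 6) (nat_lit 254) (nat_lit 4) (nat_lit 213) (nat_lit 285) (nat_lit 282)) (PT.lf (nat_lit 19836) (nat_lit 6) (nat_lit 261) (nat_lit 4) (nat_lit 214) (nat_lit 285) (nat_lit 281))) (PT.nd (nat_lit 78) (PT.lf (nat_lit 20444) (nat_lit 6) (nat_lit 269) (nat_lit 4) (nat_lit 215) (nat_lit 285) (nat_lit 280)) (PT.lf (nat_lit 20976) (nat_lit 6) (nat_lit 276) (nat_lit 4) (nat_lit 216) (nat_lit 285) (nat_lit 279)))) (PT.nd (nat_lit 156) (PT.nd (nat_lit 78) (PT.lf (nat_lit 21584) (nat_lit 6) (nat_lit 284) (nat_lit 4) (nat_lit 217) (nat_lit 285) (nat_lit 278)) (PT.lf (nat_lit 22192) (nat_lit 6) (nat_lit 292) (nat_lit 4) (nat_lit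 218) (nat_lit 285) (nat_lit 277))) (PT.nd (nat_lit 78) (PT.lf (nat_lit 22800) (nat_lit 6) (nat_lit 300) (nat_lit 4) (nat_lit 219) (nat_lit 285) (nat_lit 276)) (PT.nd (nat_lit 78) (PT.lf (nat_lit 23408) (nat_lit 6) (nat_lit 308) (nat_lit 4) (nat_lit 220) (nat_lit 285) (nat_lit 275)) (PT.lf (nat_lit 24092) (nat_lit 6) (nat_lit 317) (nat_lit 4) (nat_lit 221) (nat_lit 285) (nat_lit 274)))))) (PT.nd (nat_lit 312) (PT.nd (nat_lit 156) (PT.nd (nat_lit 78) (PT.lf (nat_lit 24776) (nat_lit 6) (nat_lit 326) (nat_lit 4) (nat_lit 222) (nat_lit 285) (nat_lit 273)) (PT.lf (nat_lit 25460) (nat_lit 6) (nat_lit 335) (nat_lit 4) (nat_lit 223) (nat_lit 285) (nat_lit 272))) (PT.nd (nat_lit 78) (PT.lf (nat_lit 26144) (nat_lit 6) (nat_lit 344) (nat_lit 4) (nat_lit 224) (nat_lit 285) (nat_lit 271)) (PT.lf (nat_lit 26904) (nat_lit 6) (nat_lit 354) (nat_lit 4) (nat_lit 225) (nat_lit 285) (nat_lit 270)))) (PT.nd (nat_lit 156) (PT.nd (nat_lit 78) (PT.lf (nat_lit 27664) (nat_lit 6)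 (nat_lit 364) (nat_lit 4) (nat_lit 226) (nat_lit 285) (nat_lit 269)) (PT.lf (nat_lit 28424) (nat_lit 6) (nat_lit 374) (nat_lit 4) (nat_lit 227) (nat_lit 285) (nat_lit 268))) (PT.nd (nat_lit 78) (PT.lf (nat_lit 29184) (nat_lit 6) (nat_lit 384) (nat_lit 4) (nat_lit 228) (nat_lit 285) (nat_lit 267)) (PT.nd (nat_lit 78) (PT.lf (nat_lit 30020) (nat_lit 6) (nat_lit 395) (nat_lit 4) (nat_lit 229) (nat_lit 285) (nat_lit 266)) (PT.lf (nat_lit 30856) (nat_lit 6) (nat_lit 406) (nat_lit 4) (nat_lit 230) (nat_lit 285) (nat_lit 265))))))))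
noncomputable def pc102 : PT := (PT.nd (nat_lit 2886) (PT.nd (nat_lit 2184) (PT.nd (nat_lit 312) (PT.nd (nat_lit 156) (PT.nd (nat_lit 78) (PT.lf (nat_lit 31768) (nat_lit 6) (nat_lit 418) (nat_lit 4) (nat_lit 231) (nat_lit 285) (nat_lit 264)) (PT.lf (nat_lit 32604) (nat_lit 6) (nat_lit 429) (nat_lit 4) (nat_lit 232) (nat_lit 285) (nat_lit 263))) (PT.nd (nat_lit 78) (PT.lf (nat_lit 33516) (nat_lit 6) (nat_lit 441) (nat_lit 4) (nat_lit 233) (nat_lit 285) (nat_lit 262)) (PT.lf (nat_lit 34428) (nat_lit 6) (nat_lit 453) (nat_lit 4) (nat_lit 234) (nat_lit 285) (nat_lit 261)))) (PT.nd (nat_lit 156) (PT.nd (nat_lit 78) (PT.lf (nat_lit 35568) (nat_lit 6) (nat_lit 468) (nat_lit 4) (nat_lit 235) (nat_lit 285) (nat_lit 260)) (PT.lf (nat_lit 35492) (nat_lit 6) (nat_lit 467) (nat_lit 4) (nat_lit 236) (nat_lit 285) (nat_lit 259))) (PT.nd (nat_lit 1638) (PT.lf (nat_lit 35416) (nat_lit 6) (nat_lit 466) (nat_lit 4) (nat_lit 237) (nat_lit 285) (nat_lit 258)) (PT.lf (nat_lit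 35416) (nat_lit 6) (nat_lit 466) (nat_lit 2) (nat_lit 258) (nat_lit 285) (nat_lit 237))))) (PT.nd (nat_lit 312) (PT.nd (nat_lit 156) (PT.nd (nat_lit 78) (PT.lf (nat_lit 35492) (nat_lit 6) (nat_lit 467) (nat_lit 2) (nat_lit 259) (nat_lit 285) (nat_lit 236)) (PT.lf (nat_lit 35568) (nat_lit 6) (nat_lit 468) (nat_lit 2) (nat_lit 260) (nat_lit 285) (nat_lit 235))) (PT.nd (nat_lit 78) (PT.lf (nat_lit 34428) (nat_lit 6) (nat_lit 453) (nat_lit 2) (nat_lit 261) (nat_lit 285) (nat_lit 234)) (PT.lf (nat_lit 33516) (nat_lit 6) (nat_lit 441) (nat_lit 2) (nat_lit 262) (nat_lit 285) (nat_lit 233)))) (PT.nd (nat_lit 156) (PT.nd (nat_lit 78) (PT.lf (nat_lit 32604) (nat_lit 6) (nat_lit 429) (nat_lit 2) (nat_lit 263) (nat_lit 285) (nat_lit 232)) (PT.lf (nat_lit 31768) (nat_lit 6) (nat_lit 418) (nat_lit 2) (nat_lit 264) (nat_lit 285) (nat_lit 231))) (PT.nd (nat_lit 78) (PT.lf (nat_lit 30856) (nat_lit 6) (nat_lit 406) (nat_lit 2) (nat_lit 265) (nat_lit 285) (nat_lit 230))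 (PT.nd (nat_lit 78) (PT.lf (nat_lit 30020) (nat_lit 6) (nat_lit 395) (nat_lit 2) (nat_lit 266) (nat_lit 285) (nat_lit 229)) (PT.lf (nat_lit 29184) (nat_lit 6) (nat_lit 384) (nat_lit 2) (nat_lit 267) (nat_lit 285) (nat_lit 228))))))) (PT.nd (nat_lit 702) (PT.nd (nat_lit 312) (PT.nd (nat_lit 156) (PT.nd (nat_lit 78) (PT.lf (nat_lit 28424) (nat_lit 6) (nat_lit 374) (nat_lit 2) (nat_lit 268) (nat_lit 285) (nat_lit 227)) (PT.lf (nat_lit 27664) (nat_lit 6) (nat_lit 364) (nat_lit 2) (nat_lit 269) (nat_lit 285) (nat_lit 226))) (PT.nd (nat_lit 78) (PT.lf (nat_lit 26904) (nat_lit 6) (nat_lit 354) (nat_lit 2) (nat_lit 270) (nat_lit 285) (nat_lit 225)) (PT.lf (nat_lit 26144) (nat_lit 6) (nat_lit 344) (nat_lit 2) (nat_lit 271) (nat_lit 285) (nat_lit 224)))) (PT.nd (nat_lit 156) (PT.nd (nat_lit 78) (PT.lf (nat_lit 25460) (nat_lit 6) (nat_lit 335) (nat_lit 2) (nat_lit 272) (nat_lit 285) (nat_lit 223)) (PT.lf (nat_lit 24776) (nat_lit 6) (nat_lit 326) (nat_lit 2) (nat_lit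 273) (nat_lit 285) (nat_lit 222))) (PT.nd (nat_lit 78) (PT.lf (nat_lit 24092) (nat_lit 6) (nat_lit 317) (nat_lit 2) (nat_lit 274) (nat_lit 285) (nat_lit 221)) (PT.nd (nat_lit 78) (PT.lf (nat_lit 23408) (nat_lit 6) (nat_lit 308) (nat_lit 2) (nat_lit 275) (nat_lit 285) (nat_lit 220)) (PT.lf (nat_lit 22800) (nat_lit 6) (nat_lit 300) (nat_lit 2) (nat_lit 276) (nat_lit 285) (nat_lit 219)))))) (PT.nd (nat_lit 312) (PT.nd (nat_lit 156) (PT.nd (nat_lit 78) (PT.lf (nat_lit 22192) (nat_lit 6) (nat_lit 292) (nat_lit 2) (nat_lit 277) (nat_lit 285) (nat_lit 218)) (PT.lf (nat_lit 21584) (nat_lit 6) (nat_lit 284) (nat_lit 2) (nat_lit 278) (nat_lit 285) (nat_lit 217))) (PT.nd (nat_lit 78) (PT.lf (nat_lit 20976) (nat_lit 6) (nat_lit 276) (nat_lit 2) (nat_lit 279) (nat_lit 285) (nat_lit 216)) (PT.lf (nat_lit 20444) (nat_lit 6) (nat_lit 269) (nat_lit 2) (nat_lit 280) (nat_lit 285) (nat_lit 215)))) (PT.nd (nat_lit 156) (PT.nd (nat_lit 78) (PT.lf (nat_lit 19836) (nat_lit 6)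 (nat_lit 261) (nat_lit 2) (nat_lit 281) (nat_lit 285) (nat_lit 214)) (PT.lf (nat_lit 19304) (nat_lit 6) (nat_lit 254) (nat_lit 2) (nat_lit 282) (nat_lit 285) (nat_lit 213))) (PT.nd (nat_lit 78) (PT.lf (nat_lit 18772) (nat_lit 6) (nat_lit 247) (nat_lit 2) (nat_lit 283) (nat_lit 285) (nat_lit 212)) (PT.nd (nat_lit 78) (PT.lf (nat_lit 18316) (nat_lit 6) (nat_lit 241) (nat_lit 2) (nat_lit 284) (nat_lit 285) (nat_lit 211)) (PT.lf (nat_lit 17784) (nat_lit 3) (nat_lit 234) (nat_lit 0) (nat_lit 285) (nat_lit 285) (nat_lit 210))))))))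
noncomputable def pc103 : PT := (PT.nd (nat_lit 74958) (PT.nd (nat_lit 624) (PT.nd (nat_lit 312) (PT.nd (nat_lit 156) (PT.nd (nat_lit 78) (PT.lf (nat_lit 17252) (nat_lit 6) (nat_lit 227) (nat_lit 0) (nat_lit 286) (nat_lit 285) (nat_lit 209)) (PT.lf (nat_lit 16720) (nat_lit 6) (nat_lit 220) (nat_lit 0) (nat_lit 287) (nat_lit 285) (nat_lit 208))) (PT.nd (nat_lit 78) (PT.lf (nat_lit 16188) (nat_lit 6) (nat_lit 213) (nat_lit 0) (nat_lit 288) (nat_lit 285) (nat_lit 207)) (PT.lf (nat_lit 15656) (nat_lit 6) (nat_lit 206) (nat_lit 0) (nat_lit 289) (nat_lit 285) (nat_lit 206)))) (PT.nd (nat_lit 156) (PT.nd (nat_lit 78) (PT.lf (nat_lit 15200) (nat_lit 6) (nat_lit 200) (nat_lit 0) (nat_lit 290) (nat_lit 285) (nat_lit 205)) (PT.lf (nat_lit 14668) (nat_lit 6) (nat_lit 193) (nat_lit 0) (nat_lit 291) (nat_lit 285) (nat_lit 204))) (PT.nd (nat_lit 78) (PT.lf (nat_lit 14212) (nat_lit 6) (nat_lit 187) (nat_lit 0) (nat_lit 292) (nat_lit 285) (nat_lit 203)) (PT.lf (nat_lit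 13756) (nat_lit 6) (nat_lit 181) (nat_lit 0) (nat_lit 293) (nat_lit 285) (nat_lit 202))))) (PT.nd (nat_lit 73944) (PT.nd (nat_lit 73788) (PT.nd (nat_lit 78) (PT.lf (nat_lit 13300) (nat_lit 6) (nat_lit 175) (nat_lit 0) (nat_lit 294) (nat_lit 285) (nat_lit 201)) (PT.lf (nat_lit 12844) (nat_lit 6) (nat_lit 169) (nat_lit 0) (nat_lit 295) (nat_lit 285) (nat_lit 200))) (PT.nd (nat_lit 78) (PT.lf (nat_lit 12464) (nat_lit 6) (nat_lit 164) (nat_lit 5) (nat_lit 199) (nat_lit 286) (nat_lit 295)) (PT.lf (nat_lit 12920) (nat_lit 6) (nat_lit 170) (nat_lit 5) (nat_lit 200) (nat_lit 286) (nat_lit 294)))) (PT.nd (nat_lit 156) (PT.nd (nat_lit 78) (PT.lf (nat_lit 13376) (nat_lit 6) (nat_lit 176) (nat_lit 5) (nat_lit 201) (nat_lit 286) (nat_lit 293)) (PT.lf (nat_lit 13832) (nat_lit 6) (nat_lit 182) (nat_lit 5) (nat_lit 202) (nat_lit 286) (nat_lit 292))) (PT.nd (nat_lit 78) (PT.lf (nat_lit 14288) (nat_lit 6) (nat_lit 188) (nat_lit 5) (nat_lit 203) (nat_lit 286) (nat_lit 291))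 (PT.nd (nat_lit 78) (PT.lf (nat_lit 14744) (nat_lit 6) (nat_lit 194) (nat_lit 5) (nat_lit 204) (nat_lit 286) (nat_lit 290)) (PT.lf (nat_lit 15276) (nat_lit 6) (nat_lit 201) (nat_lit 5) (nat_lit 205) (nat_lit 286) (nat_lit 289))))))) (PT.nd (nat_lit 702) (PT.nd (nat_lit 312) (PT.nd (nat_lit 156) (PT.nd (nat_lit 78) (PT.lf (nat_lit 15732) (nat_lit 6) (nat_lit 207) (nat_lit 5) (nat_lit 206) (nat_lit 286) (nat_lit 288)) (PT.lf (nat_lit 16264) (nat_lit 6) (nat_lit 214) (nat_lit 5) (nat_lit 207) (nat_lit 286) (nat_lit 287))) (PT.nd (nat_lit 78) (PT.lf (nat_lit 16796) (nat_lit 3) (nat_lit 221) (nat_lit 4) (nat_lit 208) (nat_lit 286) (nat_lit 286)) (PT.lf (nat_lit 17252) (nat_lit 6) (nat_lit 227) (nat_lit 4) (nat_lit 209) (nat_lit 286) (nat_lit 285)))) (PT.nd (nat_lit 156) (PT.nd (nat_lit 78) (PT.lf (nat_lit 17708) (nat_lit 6) (nat_lit 233) (nat_lit 4) (nat_lit 210) (nat_lit 286) (nat_lit 284)) (PT.lf (nat_lit 18240) (nat_lit 6) (nat_lit 240) (nat_lit 4) (nat_lit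 211) (nat_lit 286) (nat_lit 283))) (PT.nd (nat_lit 78) (PT.lf (nat_lit 18696) (nat_lit 6) (nat_lit 246) (nat_lit 4) (nat_lit 212) (nat_lit 286) (nat_lit 282)) (PT.nd (nat_lit 78) (PT.lf (nat_lit 19228) (nat_lit 6) (nat_lit 253) (nat_lit 4) (nat_lit 213) (nat_lit 286) (nat_lit 281)) (PT.lf (nat_lit 19760) (nat_lit 6) (nat_lit 260) (nat_lit 4) (nat_lit 214) (nat_lit 286) (nat_lit 280)))))) (PT.nd (nat_lit 312) (PT.nd (nat_lit 156) (PT.nd (nat_lit 78) (PT.lf (nat_lit 20368) (nat_lit 6) (nat_lit 268) (nat_lit 4) (nat_lit 215) (nat_lit 286) (nat_lit 279)) (PT.lf (nat_lit 20900) (nat_lit 6) (nat_lit 275) (nat_lit 4) (nat_lit 216) (nat_lit 286) (nat_lit 278))) (PT.nd (nat_lit 78) (PT.lf (nat_lit 21508) (nat_lit 6) (nat_lit 283) (nat_lit 4) (nat_lit 217) (nat_lit 286) (nat_lit 277)) (PT.lf (nat_lit 22116) (nat_lit 6) (nat_lit 291) (nat_lit 4) (nat_lit 218) (nat_lit 286) (nat_lit 276)))) (PT.nd (nat_lit 156) (PT.nd (nat_lit 78) (PT.lf (nat_lit 22724) (nat_lit 6)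 (nat_lit 299) (nat_lit 4) (nat_lit 219) (nat_lit 286) (nat_lit 275)) (PT.lf (nat_lit 23332) (nat_lit 6) (nat_lit 307) (nat_lit 4) (nat_lit 220) (nat_lit 286) (nat_lit 274))) (PT.nd (nat_lit 78) (PT.lf (nat_lit 24016) (nat_lit 6) (nat_lit 316) (nat_lit 4) (nat_lit 221) (nat_lit 286) (nat_lit 273)) (PT.nd (nat_lit 78) (PT.lf (nat_lit 24700) (nat_lit 6) (nat_lit 325) (nat_lit 4) (nat_lit 222) (nat_lit 286) (nat_lit 272)) (PT.lf (nat_lit 25384) (nat_lit 6) (nat_lit 334) (nat_lit 4) (nat_lit 223) (nat_lit 286) (nat_lit 271))))))))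
noncomputable def pc104 : PT := (PT.nd (nat_lit 3744) (PT.nd (nat_lit 3042) (PT.nd (nat_lit 312) (PT.nd (nat_lit 156) (PT.nd (nat_lit 78) (PT.lf (nat_lit 26068) (nat_lit 6) (nat_lit 343) (nat_lit 4) (nat_lit 224) (nat_lit 286) (nat_lit 270)) (PT.lf (nat_lit 26828) (nat_lit 6) (nat_lit 353) (nat_lit 4) (nat_lit 225) (nat_lit 286) (nat_lit 269))) (PT.nd (nat_lit 78) (PT.lf (nat_lit 27588) (nat_lit 6) (nat_lit 363) (nat_lit 4) (nat_lit 226) (nat_lit 286) (nat_lit 268)) (PT.lf (nat_lit 28348) (nat_lit 6) (nat_lit 373) (nat_lit 4) (nat_lit 227) (nat_lit 286) (nat_lit 267)))) (PT.nd (nat_lit 156) (PT.nd (nat_lit 78) (PT.lf (nat_lit 29108) (nat_lit 6) (nat_lit 383) (nat_lit 4) (nat_lit 228) (nat_lit 286) (nat_lit 266)) (PT.lf (nat_lit 29944) (nat_lit 6) (nat_lit 394) (nat_lit 4) (nat_lit 229) (nat_lit 286) (nat_lit 265))) (PT.nd (nat_lit 78) (PT.lf (nat_lit 30780) (nat_lit 6) (nat_lit 405) (nat_lit 4) (nat_lit 230) (nat_lit 286) (nat_lit 264)) (PT.lf (nat_lit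 31692) (nat_lit 6) (nat_lit 417) (nat_lit 4) (nat_lit 231) (nat_lit 286) (nat_lit 263))))) (PT.nd (nat_lit 312) (PT.nd (nat_lit 156) (PT.nd (nat_lit 78) (PT.lf (nat_lit 31692) (nat_lit 6) (nat_lit 417) (nat_lit 2) (nat_lit 263) (nat_lit 286) (nat_lit 231)) (PT.lf (nat_lit 30780) (nat_lit 6) (nat_lit 405) (nat_lit 2) (nat_lit 264) (nat_lit 286) (nat_lit 230))) (PT.nd (nat_lit 78) (PT.lf (nat_lit 29944) (nat_lit 6) (nat_lit 394) (nat_lit 2) (nat_lit 265) (nat_lit 286) (nat_lit 229)) (PT.lf (nat_lit 29108) (nat_lit 6) (nat_lit 383) (nat_lit 2) (nat_lit 266) (nat_lit 286) (nat_lit 228)))) (PT.nd (nat_lit 156) (PT.nd (nat_lit 78) (PT.lf (nat_lit 28348) (nat_lit 6) (nat_lit 373) (nat_lit 2) (nat_lit 267) (nat_lit 286) (nat_lit 227)) (PT.lf (nat_lit 27588) (nat_lit 6) (nat_lit 363) (nat_lit 2) (nat_lit 268) (nat_lit 286) (nat_lit 226))) (PT.nd (nat_lit 78) (PT.lf (nat_lit 26828) (nat_lit 6) (nat_lit 353) (nat_lit 2) (nat_lit 269) (nat_lit 286) (nat_lit 225))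 (PT.nd (nat_lit 78) (PT.lf (nat_lit 26068) (nat_lit 6) (nat_lit 343) (nat_lit 2) (nat_lit 270) (nat_lit 286) (nat_lit 224)) (PT.lf (nat_lit 25384) (nat_lit 6) (nat_lit 334) (nat_lit 2) (nat_lit 271) (nat_lit 286) (nat_lit 223))))))) (PT.nd (nat_lit 702) (PT.nd (nat_lit 312) (PT.nd (nat_lit 156) (PT.nd (nat_lit 78) (PT.lf (nat_lit 24700) (nat_lit 6) (nat_lit 325) (nat_lit 2) (nat_lit 272) (nat_lit 286) (nat_lit 222)) (PT.lf (nat_lit 24016) (nat_lit 6) (nat_lit 316) (nat_lit 2) (nat_lit 273) (nat_lit 286) (nat_lit 221))) (PT.nd (nat_lit 78) (PT.lf (nat_lit 23332) (nat_lit 6) (nat_lit 307) (nat_lit 2) (nat_lit 274) (nat_lit 286) (nat_lit 220)) (PT.lf (nat_lit 22724) (nat_lit 6) (nat_lit 299) (nat_lit 2) (nat_lit 275) (nat_lit 286) (nat_lit 219)))) (PT.nd (nat_lit 156) (PT.nd (nat_lit 78) (PT.lf (nat_lit 22116) (nat_lit 6) (nat_lit 291) (nat_lit 2) (nat_lit 276) (nat_lit 286) (nat_lit 218)) (PT.lf (nat_lit 21508) (nat_lit 6) (nat_lit 283) (nat_lit 2) (nat_lit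 277) (nat_lit 286) (nat_lit 217))) (PT.nd (nat_lit 78) (PT.lf (nat_lit 20900) (nat_lit 6) (nat_lit 275) (nat_lit 2) (nat_lit 278) (nat_lit 286) (nat_lit 216)) (PT.nd (nat_lit 78) (PT.lf (nat_lit 20368) (nat_lit 6) (nat_lit 268) (nat_lit 2) (nat_lit 279) (nat_lit 286) (nat_lit 215)) (PT.lf (nat_lit 19760) (nat_lit 6) (nat_lit 260) (nat_lit 2) (nat_lit 280) (nat_lit 286) (nat_lit 214)))))) (PT.nd (nat_lit 312) (PT.nd (nat_lit 156) (PT.nd (nat_lit 78) (PT.lf (nat_lit 19228) (nat_lit 6) (nat_lit 253) (nat_lit 2) (nat_lit 281) (nat_lit 286) (nat_lit 213)) (PT.lf (nat_lit 18696) (nat_lit 6) (nat_lit 246) (nat_lit 2) (nat_lit 282) (nat_lit 286) (nat_lit 212))) (PT.nd (nat_lit 78) (PT.lf (nat_lit 18240) (nat_lit 6) (nat_lit 240) (nat_lit 2) (nat_lit 283) (nat_lit 286) (nat_lit 211)) (PT.lf (nat_lit 17708) (nat_lit 6) (nat_lit 233) (nat_lit 2) (nat_lit 284) (nat_lit 286) (nat_lit 210)))) (PT.nd (nat_lit 156) (PT.nd (nat_lit 78) (PT.lf (nat_lit 17252) (nat_lit 6)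 (nat_lit 227) (nat_lit 2) (nat_lit 285) (nat_lit 286) (nat_lit 209)) (PT.lf (nat_lit 16796) (nat_lit 3) (nat_lit 221) (nat_lit 0) (nat_lit 286) (nat_lit 286) (nat_lit 208))) (PT.nd (nat_lit 78) (PT.lf (nat_lit 16264) (nat_lit 6) (nat_lit 214) (nat_lit 0) (nat_lit 287) (nat_lit 286) (nat_lit 207)) (PT.nd (nat_lit 78) (PT.lf (nat_lit 15732) (nat_lit 6) (nat_lit 207) (nat_lit 0) (nat_lit 288) (nat_lit 286) (nat_lit 206)) (PT.lf (nat_lit 15276) (nat_lit 6) (nat_lit 201) (nat_lit 0) (nat_lit 289) (nat_lit 286) (nat_lit 205))))))))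
noncomputable def pc105 : PT := (PT.nd (nat_lit 74802) (PT.nd (nat_lit 74100) (PT.nd (nat_lit 312) (PT.nd (nat_lit 156) (PT.nd (nat_lit 78) (PT.lf (nat_lit 14744) (nat_lit 6) (nat_lit 194) (nat_lit 0) (nat_lit 290) (nat_lit 286) (nat_lit 204)) (PT.lf (nat_lit 14288) (nat_lit 6) (nat_lit 188) (nat_lit 0) (nat_lit 291) (nat_lit 286) (nat_lit 203))) (PT.nd (nat_lit 78) (PT.lf (nat_lit 13832) (nat_lit 6) (nat_lit 182) (nat_lit 0) (nat_lit 292) (nat_lit 286) (nat_lit 202)) (PT.lf (nat_lit 13376) (nat_lit 6) (nat_lit 176) (nat_lit 0) (nat_lit 293) (nat_lit 286) (nat_lit 201)))) (PT.nd (nat_lit 73632) (PT.nd (nat_lit 78) (PT.lf (nat_lit 12920) (nat_lit 6) (nat_lit 170) (nat_lit 0) (nat_lit 294) (nat_lit 286) (nat_lit 200)) (PT.lf (nat_lit 12464) (nat_lit 6) (nat_lit 164) (nat_lit 0) (nat_lit 295) (nat_lit 286) (nat_lit 199))) (PT.nd (nat_lit 78) (PT.lf (nat_lit 11704) (nat_lit 6) (nat_lit 154) (nat_lit 5) (nat_lit 197) (nat_lit 287) (nat_lit 296)) (PT.lf (nat_lit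 12084) (nat_lit 6) (nat_lit 159) (nat_lit 5) (nat_lit 198) (nat_lit 287) (nat_lit 295))))) (PT.nd (nat_lit 312) (PT.nd (nat_lit 156) (PT.nd (nat_lit 78) (PT.lf (nat_lit 12540) (nat_lit 6) (nat_lit 165) (nat_lit 5) (nat_lit 199) (nat_lit 287) (nat_lit 294)) (PT.lf (nat_lit 12996) (nat_lit 6) (nat_lit 171) (nat_lit 5) (nat_lit 200) (nat_lit 287) (nat_lit 293))) (PT.nd (nat_lit 78) (PT.lf (nat_lit 13452) (nat_lit 6) (nat_lit 177) (nat_lit 5) (nat_lit 201) (nat_lit 287) (nat_lit 292)) (PT.lf (nat_lit 13908) (nat_lit 6) (nat_lit 183) (nat_lit 5) (nat_lit 202) (nat_lit 287) (nat_lit 291)))) (PT.nd (nat_lit 156) (PT.nd (nat_lit 78) (PT.lf (nat_lit 14364) (nat_lit 6) (nat_lit 189) (nat_lit 5) (nat_lit 203) (nat_lit 287) (nat_lit 290)) (PT.lf (nat_lit 14820) (nat_lit 6) (nat_lit 195) (nat_lit 5) (nat_lit 204) (nat_lit 287) (nat_lit 289))) (PT.nd (nat_lit 78) (PT.lf (nat_lit 15352) (nat_lit 6) (nat_lit 202) (nat_lit 5) (nat_lit 205) (nat_lit 287) (nat_lit 288))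 (PT.nd (nat_lit 78) (PT.lf (nat_lit 15808) (nat_lit 3) (nat_lit 208) (nat_lit 4) (nat_lit 206) (nat_lit 287) (nat_lit 287)) (PT.lf (nat_lit 16264) (nat_lit 6) (nat_lit 214) (nat_lit 4) (nat_lit 207) (nat_lit 287) (nat_lit 286))))))) (PT.nd (nat_lit 702) (PT.nd (nat_lit 312) (PT.nd (nat_lit 156) (PT.nd (nat_lit 78) (PT.lf (nat_lit 16720) (nat_lit 6) (nat_lit 220) (nat_lit 4) (nat_lit 208) (nat_lit 287) (nat_lit 285)) (PT.lf (nat_lit 17176) (nat_lit 6) (nat_lit 226) (nat_lit 4) (nat_lit 209) (nat_lit 287) (nat_lit 284))) (PT.nd (nat_lit 78) (PT.lf (nat_lit 17632) (nat_lit 6) (nat_lit 232) (nat_lit 4) (nat_lit 210) (nat_lit 287) (nat_lit 283)) (PT.lf (nat_lit 18164) (nat_lit 6) (nat_lit 239) (nat_lit 4) (nat_lit 211) (nat_lit 287) (nat_lit 282)))) (PT.nd (nat_lit 156) (PT.nd (nat_lit 78) (PT.lf (nat_lit 18620) (nat_lit 6) (nat_lit 245) (nat_lit 4) (nat_lit 212) (nat_lit 287) (nat_lit 281)) (PT.lf (nat_lit 19152) (nat_lit 6) (nat_lit 252) (nat_lit 4) (nat_lit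 213) (nat_lit 287) (nat_lit 280))) (PT.nd (nat_lit 78) (PT.lf (nat_lit 19684) (nat_lit 6) (nat_lit 259) (nat_lit 4) (nat_lit 214) (nat_lit 287) (nat_lit 279)) (PT.nd (nat_lit 78) (PT.lf (nat_lit 20292) (nat_lit 6) (nat_lit 267) (nat_lit 4) (nat_lit 215) (nat_lit 287) (nat_lit 278)) (PT.lf (nat_lit 20824) (nat_lit 6) (nat_lit 274) (nat_lit 4) (nat_lit 216) (nat_lit 287) (nat_lit 277)))))) (PT.nd (nat_lit 312) (PT.nd (nat_lit 156) (PT.nd (nat_lit 78) (PT.lf (nat_lit 21432) (nat_lit 6) (nat_lit 282) (nat_lit 4) (nat_lit 217) (nat_lit 287) (nat_lit 276)) (PT.lf (nat_lit 22040) (nat_lit 6) (nat_lit 290) (nat_lit 4) (nat_lit 218) (nat_lit 287) (nat_lit 275))) (PT.nd (nat_lit 78) (PT.lf (nat_lit 22648) (nat_lit 6) (nat_lit 298) (nat_lit 4) (nat_lit 219) (nat_lit 287) (nat_lit 274)) (PT.lf (nat_lit 23256) (nat_lit 6) (nat_lit 306) (nat_lit 4) (nat_lit 220) (nat_lit 287) (nat_lit 273)))) (PT.nd (nat_lit 156) (PT.nd (nat_lit 78) (PT.lf (nat_lit 23940) (nat_lit 6)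 (nat_lit 315) (nat_lit 4) (nat_lit 221) (nat_lit 287) (nat_lit 272)) (PT.lf (nat_lit 24624) (nat_lit 6) (nat_lit 324) (nat_lit 4) (nat_lit 222) (nat_lit 287) (nat_lit 271))) (PT.nd (nat_lit 78) (PT.lf (nat_lit 25308) (nat_lit 6) (nat_lit 333) (nat_lit 4) (nat_lit 223) (nat_lit 287) (nat_lit 270)) (PT.nd (nat_lit 78) (PT.lf (nat_lit 25992) (nat_lit 6) (nat_lit 342) (nat_lit 4) (nat_lit 224) (nat_lit 287) (nat_lit 269)) (PT.lf (nat_lit 26752) (nat_lit 6) (nat_lit 352) (nat_lit 4) (nat_lit 225) (nat_lit 287) (nat_lit 268))))))))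
noncomputable def pc106 : PT := (PT.nd (nat_lit 4446) (PT.nd (nat_lit 3744) (PT.nd (nat_lit 3432) (PT.nd (nat_lit 3276) (PT.nd (nat_lit 3198) (PT.lf (nat_lit 27512) (nat_lit 6) (nat_lit 362) (nat_lit 4) (nat_lit 226) (nat_lit 287) (nat_lit 267)) (PT.lf (nat_lit 27512) (nat_lit 6) (nat_lit 362) (nat_lit 2) (nat_lit 267) (nat_lit 287) (nat_lit 226))) (PT.nd (nat_lit 78) (PT.lf (nat_lit 26752) (nat_lit 6) (nat_lit 352) (nat_lit 2) (nat_lit 268) (nat_lit 287) (nat_lit 225)) (PT.lf (nat_lit 25992) (nat_lit 6) (nat_lit 342) (nat_lit 2) (nat_lit 269) (nat_lit 287) (nat_lit 224)))) (PT.nd (nat_lit 156) (PT.nd (nat_lit 78) (PT.lf (nat_lit 25308) (nat_lit 6) (nat_lit 333) (nat_lit 2) (nat_lit 270) (nat_lit 287) (nat_lit 223)) (PT.lf (nat_lit 24624) (nat_lit 6) (nat_lit 324) (nat_lit 2) (nat_lit 271) (nat_lit 287) (nat_lit 222))) (PT.nd (nat_lit 78) (PT.lf (nat_lit 23940) (nat_lit 6) (nat_lit 315) (nat_lit 2) (nat_lit 272) (nat_lit 287) (nat_lit 221)) (PT.lf (nat_lit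 23256) (nat_lit 6) (nat_lit 306) (nat_lit 2) (nat_lit 273) (nat_lit 287) (nat_lit 220))))) (PT.nd (nat_lit 312) (PT.nd (nat_lit 156) (PT.nd (nat_lit 78) (PT.lf (nat_lit 22648) (nat_lit 6) (nat_lit 298) (nat_lit 2) (nat_lit 274) (nat_lit 287) (nat_lit 219)) (PT.lf (nat_lit 22040) (nat_lit 6) (nat_lit 290) (nat_lit 2) (nat_lit 275) (nat_lit 287) (nat_lit 218))) (PT.nd (nat_lit 78) (PT.lf (nat_lit 21432) (nat_lit 6) (nat_lit 282) (nat_lit 2) (nat_lit 276) (nat_lit 287) (nat_lit 217)) (PT.lf (nat_lit 20824) (nat_lit 6) (nat_lit 274) (nat_lit 2) (nat_lit 277) (nat_lit 287) (nat_lit 216)))) (PT.nd (nat_lit 156) (PT.nd (nat_lit 78) (PT.lf (nat_lit 20292) (nat_lit 6) (nat_lit 267) (nat_lit 2) (nat_lit 278) (nat_lit 287) (nat_lit 215)) (PT.lf (nat_lit 19684) (nat_lit 6) (nat_lit 259) (nat_lit 2) (nat_lit 279) (nat_lit 287) (nat_lit 214))) (PT.nd (nat_lit 78) (PT.lf (nat_lit 19152) (nat_lit 6) (nat_lit 252) (nat_lit 2) (nat_lit 280) (nat_lit 287) (nat_lit 213))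 (PT.nd (nat_lit 78) (PT.lf (nat_lit 18620) (nat_lit 6) (nat_lit 245) (nat_lit 2) (nat_lit 281) (nat_lit 287) (nat_lit 212)) (PT.lf (nat_lit 18164) (nat_lit 6) (nat_lit 239) (nat_lit 2) (nat_lit 282) (nat_lit 287) (nat_lit 211))))))) (PT.nd (nat_lit 702) (PT.nd (nat_lit 312) (PT.nd (nat_lit 156) (PT.nd (nat_lit 78) (PT.lf (nat_lit 17632) (nat_lit 6) (nat_lit 232) (nat_lit 2) (nat_lit 283) (nat_lit 287) (nat_lit 210)) (PT.lf (nat_lit 17176) (nat_lit 6) (nat_lit 226) (nat_lit 2) (nat_lit 284) (nat_lit 287) (nat_lit 209))) (PT.nd (nat_lit 78) (PT.lf (nat_lit 16720) (nat_lit 6) (nat_lit 220) (nat_lit 2) (nat_lit 285) (nat_lit 287) (nat_lit 208)) (PT.lf (nat_lit 16264) (nat_lit 6) (nat_lit 214) (nat_lit 2) (nat_lit 286) (nat_lit 287) (nat_lit 207)))) (PT.nd (nat_lit 156) (PT.nd (nat_lit 78) (PT.lf (nat_lit 15808) (nat_lit 3) (nat_lit 208) (nat_lit 0) (nat_lit 287) (nat_lit 287) (nat_lit 206)) (PT.lf (nat_lit 15352) (nat_lit 6) (nat_lit 202) (nat_lit 0) (nat_lit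 288) (nat_lit 287) (nat_lit 205))) (PT.nd (nat_lit 78) (PT.lf (nat_lit 14820) (nat_lit 6) (nat_lit 195) (nat_lit 0) (nat_lit 289) (nat_lit 287) (nat_lit 204)) (PT.nd (nat_lit 78) (PT.lf (nat_lit 14364) (nat_lit 6) (nat_lit 189) (nat_lit 0) (nat_lit 290) (nat_lit 287) (nat_lit 203)) (PT.lf (nat_lit 13908) (nat_lit 6) (nat_lit 183) (nat_lit 0) (nat_lit 291) (nat_lit 287) (nat_lit 202)))))) (PT.nd (nat_lit 312) (PT.nd (nat_lit 156) (PT.nd (nat_lit 78) (PT.lf (nat_lit 13452) (nat_lit 6) (nat_lit 177) (nat_lit 0) (nat_lit 292) (nat_lit 287) (nat_lit 201)) (PT.lf (nat_lit 12996) (nat_lit 6) (nat_lit 171) (nat_lit 0) (nat_lit 293) (nat_lit 287) (nat_lit 200))) (PT.nd (nat_lit 78) (PT.lf (nat_lit 12540) (nat_lit 6) (nat_lit 165) (nat_lit 0) (nat_lit 294) (nat_lit 287) (nat_lit 199)) (PT.lf (nat_lit 12084) (nat_lit 6) (nat_lit 159) (nat_lit 0) (nat_lit 295) (nat_lit 287) (nat_lit 198)))) (PT.nd (nat_lit 73398) (PT.nd (nat_lit 73320) (PT.lf (nat_lit 11704) (nat_lit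 6) (nat_lit 154) (nat_lit 0) (nat_lit 296) (nat_lit 287) (nat_lit 197)) (PT.lf (nat_lit 10944) (nat_lit 6) (nat_lit 144) (nat_lit 5) (nat_lit 195) (nat_lit 288) (nat_lit 297))) (PT.nd (nat_lit 78) (PT.lf (nat_lit 11324) (nat_lit 6) (nat_lit 149) (nat_lit 5) (nat_lit 196) (nat_lit 288) (nat_lit 296)) (PT.nd (nat_lit 78) (PT.lf (nat_lit 11780) (nat_lit 6) (nat_lit 155) (nat_lit 5) (nat_lit 197) (nat_lit 288) (nat_lit 295)) (PT.lf (nat_lit 12160) (nat_lit 6) (nat_lit 160) (nat_lit 5) (nat_lit 198) (nat_lit 288) (nat_lit 294))))))))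
noncomputable def pc107 : PT := (PT.nd (nat_lit 1326) (PT.nd (nat_lit 624) (PT.nd (nat_lit 312) (PT.nd (nat_lit 156) (PT.nd (nat_lit 78) (PT.lf (nat_lit 12616) (nat_lit 6) (nat_lit 166) (nat_lit 5) (nat_lit 199) (nat_lit 288) (nat_lit 293)) (PT.lf (nat_lit 13072) (nat_lit 6) (nat_lit 172) (nat_lit 5) (nat_lit 200) (nat_lit 288) (nat_lit 292))) (PT.nd (nat_lit 78) (PT.lf (nat_lit 13528) (nat_lit 6) (nat_lit 178) (nat_lit 5) (nat_lit 201) (nat_lit 288) (nat_lit 291)) (PT.lf (nat_lit 13984) (nat_lit 6) (nat_lit 184) (nat_lit 5) (nat_lit 202) (nat_lit 288) (nat_lit 290)))) (PT.nd (nat_lit 156) (PT.nd (nat_lit 78) (PT.lf (nat_lit 14440) (nat_lit 6) (nat_lit 190) (nat_lit 5) (nat_lit 203) (nat_lit 288) (nat_lit 289)) (PT.lf (nat_lit 14896) (nat_lit 3) (nat_lit 196) (nat_lit 4) (nat_lit 204) (nat_lit 288) (nat_lit 288))) (PT.nd (nat_lit 78) (PT.lf (nat_lit 15352) (nat_lit 6) (nat_lit 202) (nat_lit 4) (nat_lit 205) (nat_lit 288) (nat_lit 287)) (PT.lf (nat_lit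 15732) (nat_lit 6) (nat_lit 207) (nat_lit 4) (nat_lit 206) (nat_lit 288) (nat_lit 286))))) (PT.nd (nat_lit 312) (PT.nd (nat_lit 156) (PT.nd (nat_lit 78) (PT.lf (nat_lit 16188) (nat_lit 6) (nat_lit 213) (nat_lit 4) (nat_lit 207) (nat_lit 288) (nat_lit 285)) (PT.lf (nat_lit 16644) (nat_lit 6) (nat_lit 219) (nat_lit 4) (nat_lit 208) (nat_lit 288) (nat_lit 284))) (PT.nd (nat_lit 78) (PT.lf (nat_lit 17100) (nat_lit 6) (nat_lit 225) (nat_lit 4) (nat_lit 209) (nat_lit 288) (nat_lit 283)) (PT.lf (nat_lit 17556) (nat_lit 6) (nat_lit 231) (nat_lit 4) (nat_lit 210) (nat_lit 288) (nat_lit 282)))) (PT.nd (nat_lit 156) (PT.nd (nat_lit 78) (PT.lf (nat_lit 18088) (nat_lit 6) (nat_lit 238) (nat_lit 4) (nat_lit 211) (nat_lit 288) (nat_lit 281)) (PT.lf (nat_lit 18544) (nat_lit 6) (nat_lit 244) (nat_lit 4) (nat_lit 212) (nat_lit 288) (nat_lit 280))) (PT.nd (nat_lit 78) (PT.lf (nat_lit 19076) (nat_lit 6) (nat_lit 251) (nat_lit 4) (nat_lit 213) (nat_lit 288) (nat_lit 279))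 (PT.nd (nat_lit 78) (PT.lf (nat_lit 19608) (nat_lit 6) (nat_lit 258) (nat_lit 4) (nat_lit 214) (nat_lit 288) (nat_lit 278)) (PT.lf (nat_lit 20216) (nat_lit 6) (nat_lit 266) (nat_lit 4) (nat_lit 215) (nat_lit 288) (nat_lit 277))))))) (PT.nd (nat_lit 4368) (PT.nd (nat_lit 312) (PT.nd (nat_lit 156) (PT.nd (nat_lit 78) (PT.lf (nat_lit 20748) (nat_lit 6) (nat_lit 273) (nat_lit 4) (nat_lit 216) (nat_lit 288) (nat_lit 276)) (PT.lf (nat_lit 21356) (nat_lit 6) (nat_lit 281) (nat_lit 4) (nat_lit 217) (nat_lit 288) (nat_lit 275))) (PT.nd (nat_lit 78) (PT.lf (nat_lit 21964) (nat_lit 6) (nat_lit 289) (nat_lit 4) (nat_lit 218) (nat_lit 288) (nat_lit 274)) (PT.lf (nat_lit 22572) (nat_lit 6) (nat_lit 297) (nat_lit 4) (nat_lit 219) (nat_lit 288) (nat_lit 273)))) (PT.nd (nat_lit 156) (PT.nd (nat_lit 78) (PT.lf (nat_lit 23180) (nat_lit 6) (nat_lit 305) (nat_lit 4) (nat_lit 220) (nat_lit 288) (nat_lit 272)) (PT.lf (nat_lit 23864) (nat_lit 6) (nat_lit 314) (nat_lit 4) (nat_lit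 221) (nat_lit 288) (nat_lit 271))) (PT.nd (nat_lit 3744) (PT.lf (nat_lit 24548) (nat_lit 6) (nat_lit 323) (nat_lit 4) (nat_lit 222) (nat_lit 288) (nat_lit 270)) (PT.nd (nat_lit 78) (PT.lf (nat_lit 24548) (nat_lit 6) (nat_lit 323) (nat_lit 2) (nat_lit 270) (nat_lit 288) (nat_lit 222)) (PT.lf (nat_lit 23864) (nat_lit 6) (nat_lit 314) (nat_lit 2) (nat_lit 271) (nat_lit 288) (nat_lit 221)))))) (PT.nd (nat_lit 312) (PT.nd (nat_lit 156) (PT.nd (nat_lit 78) (PT.lf (nat_lit 23180) (nat_lit 6) (nat_lit 305) (nat_lit 2) (nat_lit 272) (nat_lit 288) (nat_lit 220)) (PT.lf (nat_lit 22572) (nat_lit 6) (nat_lit 297) (nat_lit 2) (nat_lit 273) (nat_lit 288) (nat_lit 219))) (PT.nd (nat_lit 78) (PT.lf (nat_lit 21964) (nat_lit 6) (nat_lit 289) (nat_lit 2) (nat_lit 274) (nat_lit 288) (nat_lit 218)) (PT.lf (nat_lit 21356) (nat_lit 6) (nat_lit 281) (nat_lit 2) (nat_lit 275) (nat_lit 288) (nat_lit 217)))) (PT.nd (nat_lit 156) (PT.nd (nat_lit 78) (PT.lf (nat_lit 20748) (nat_lit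 6) (nat_lit 273) (nat_lit 2) (nat_lit 276) (nat_lit 288) (nat_lit 216)) (PT.lf (nat_lit 20216) (nat_lit 6) (nat_lit 266) (nat_lit 2) (nat_lit 277) (nat_lit 288) (nat_lit 215))) (PT.nd (nat_lit 78) (PT.lf (nat_lit 19608) (nat_lit 6) (nat_lit 258) (nat_lit 2) (nat_lit 278) (nat_lit 288) (nat_lit 214)) (PT.nd (nat_lit 78) (PT.lf (nat_lit 19076) (nat_lit 6) (nat_lit 251) (nat_lit 2) (nat_lit 279) (nat_lit 288) (nat_lit 213)) (PT.lf (nat_lit 18544) (nat_lit 6) (nat_lit 244) (nat_lit 2) (nat_lit 280) (nat_lit 288) (nat_lit 212))))))))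
noncomputable def pc108 : PT := (PT.nd (nat_lit 74412) (PT.nd (nat_lit 624) (PT.nd (nat_lit 312) (PT.nd (nat_lit 156) (PT.nd (nat_lit 78) (PT.lf (nat_lit 18088) (nat_lit 6) (nat_lit 238) (nat_lit 2) (nat_lit 281) (nat_lit 288) (nat_lit 211)) (PT.lf (nat_lit 17556) (nat_lit 6) (nat_lit 231) (nat_lit 2) (nat_lit 282) (nat_lit 288) (nat_lit 210))) (PT.nd (nat_lit 78) (PT.lf (nat_lit 17100) (nat_lit 6) (nat_lit 225) (nat_lit 2) (nat_lit 283) (nat_lit 288) (nat_lit 209)) (PT.lf (nat_lit 16644) (nat_lit 6) (nat_lit 219) (nat_lit 2) (nat_lit 284) (nat_lit 288) (nat_lit 208)))) (PT.nd (nat_lit 156) (PT.nd (nat_lit 78) (PT.lf (nat_lit 16188) (nat_lit 6) (nat_lit 213) (nat_lit 2) (nat_lit 285) (nat_lit 288) (nat_lit 207)) (PT.lf (nat_lit 15732) (nat_lit 6) (nat_lit 207) (nat_lit 2) (nat_lit 286) (nat_lit 288) (nat_lit 206))) (PT.nd (nat_lit 78) (PT.lf (nat_lit 15352) (nat_lit 6) (nat_lit 202) (nat_lit 2) (nat_lit 287) (nat_lit 288) (nat_lit 205)) (PT.lf (nat_lit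 14896) (nat_lit 3) (nat_lit 196) (nat_lit 0) (nat_lit 288) (nat_lit 288) (nat_lit 204))))) (PT.nd (nat_lit 312) (PT.nd (nat_lit 156) (PT.nd (nat_lit 78) (PT.lf (nat_lit 14440) (nat_lit 6) (nat_lit 190) (nat_lit 0) (nat_lit 289) (nat_lit 288) (nat_lit 203)) (PT.lf (nat_lit 13984) (nat_lit 6) (nat_lit 184) (nat_lit 0) (nat_lit 290) (nat_lit 288) (nat_lit 202))) (PT.nd (nat_lit 78) (PT.lf (nat_lit 13528) (nat_lit 6) (nat_lit 178) (nat_lit 0) (nat_lit 291) (nat_lit 288) (nat_lit 201)) (PT.lf (nat_lit 13072) (nat_lit 6) (nat_lit 172) (nat_lit 0) (nat_lit 292) (nat_lit 288) (nat_lit 200)))) (PT.nd (nat_lit 156) (PT.nd (nat_lit 78) (PT.lf (nat_lit 12616) (nat_lit 6) (nat_lit 166) (nat_lit 0) (nat_lit 293) (nat_lit 288) (nat_lit 199)) (PT.lf (nat_lit 12160) (nat_lit 6) (nat_lit 160) (nat_lit 0) (nat_lit 294) (nat_lit 288) (nat_lit 198))) (PT.nd (nat_lit 78) (PT.lf (nat_lit 11780) (nat_lit 6) (nat_lit 155) (nat_lit 0) (nat_lit 295) (nat_lit 288) (nat_lit 197))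 (PT.nd (nat_lit 78) (PT.lf (nat_lit 11324) (nat_lit 6) (nat_lit 149) (nat_lit 0) (nat_lit 296) (nat_lit 288) (nat_lit 196)) (PT.lf (nat_lit 10944) (nat_lit 6) (nat_lit 144) (nat_lit 0) (nat_lit 297) (nat_lit 288) (nat_lit 195))))))) (PT.nd (nat_lit 702) (PT.nd (nat_lit 312) (PT.nd (nat_lit 156) (PT.nd (nat_lit 78) (PT.lf (nat_lit 10564) (nat_lit 6) (nat_lit 139) (nat_lit 5) (nat_lit 194) (nat_lit 289) (nat_lit 297)) (PT.lf (nat_lit 11020) (nat_lit 6) (nat_lit 145) (nat_lit 5) (nat_lit 195) (nat_lit 289) (nat_lit 296))) (PT.nd (nat_lit 78) (PT.lf (nat_lit 11400) (nat_lit 6) (nat_lit 150) (nat_lit 5) (nat_lit 196) (nat_lit 289) (nat_lit 295)) (PT.lf (nat_lit 11856) (nat_lit 6) (nat_lit 156) (nat_lit 5) (nat_lit 197) (nat_lit 289) (nat_lit 294)))) (PT.nd (nat_lit 156) (PT.nd (nat_lit 78) (PT.lf (nat_lit 12236) (nat_lit 6) (nat_lit 161) (nat_lit 5) (nat_lit 198) (nat_lit 289) (nat_lit 293)) (PT.lf (nat_lit 12692) (nat_lit 6) (nat_lit 167) (nat_lit 5) (nat_lit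 199) (nat_lit 289) (nat_lit 292))) (PT.nd (nat_lit 78) (PT.lf (nat_lit 13148) (nat_lit 6) (nat_lit 173) (nat_lit 5) (nat_lit 200) (nat_lit 289) (nat_lit 291)) (PT.nd (nat_lit 78) (PT.lf (nat_lit 13604) (nat_lit 6) (nat_lit 179) (nat_lit 5) (nat_lit 201) (nat_lit 289) (nat_lit 290)) (PT.lf (nat_lit 14060) (nat_lit 3) (nat_lit 185) (nat_lit 4) (nat_lit 202) (nat_lit 289) (nat_lit 289)))))) (PT.nd (nat_lit 312) (PT.nd (nat_lit 156) (PT.nd (nat_lit 78) (PT.lf (nat_lit 14440) (nat_lit 6) (nat_lit 190) (nat_lit 4) (nat_lit 203) (nat_lit 289) (nat_lit 288)) (PT.lf (nat_lit 14820) (nat_lit 6) (nat_lit 195) (nat_lit 4) (nat_lit 204) (nat_lit 289) (nat_lit 287))) (PT.nd (nat_lit 78) (PT.lf (nat_lit 15276) (nat_lit 6) (nat_lit 201) (nat_lit 4) (nat_lit 205) (nat_lit 289) (nat_lit 286)) (PT.lf (nat_lit 15656) (nat_lit 6) (nat_lit 206) (nat_lit 4) (nat_lit 206) (nat_lit 289) (nat_lit 285)))) (PT.nd (nat_lit 156) (PT.nd (nat_lit 78) (PT.lf (nat_lit 16112) (nat_lit 6)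 (nat_lit 212) (nat_lit 4) (nat_lit 207) (nat_lit 289) (nat_lit 284)) (PT.lf (nat_lit 16568) (nat_lit 6) (nat_lit 218) (nat_lit 4) (nat_lit 208) (nat_lit 289) (nat_lit 283))) (PT.nd (nat_lit 78) (PT.lf (nat_lit 17024) (nat_lit 6) (nat_lit 224) (nat_lit 4) (nat_lit 209) (nat_lit 289) (nat_lit 282)) (PT.nd (nat_lit 78) (PT.lf (nat_lit 17480) (nat_lit 6) (nat_lit 230) (nat_lit 4) (nat_lit 210) (nat_lit 289) (nat_lit 281)) (PT.lf (nat_lit 18012) (nat_lit 6) (nat_lit 237) (nat_lit 4) (nat_lit 211) (nat_lit 289) (nat_lit 280))))))))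
noncomputable def pc109 : PT := (PT.nd (nat_lit 5538) (PT.nd (nat_lit 4836) (PT.nd (nat_lit 312) (PT.nd (nat_lit 156) (PT.nd (nat_lit 78) (PT.lf (nat_lit 18468) (nat_lit 6) (nat_lit 243) (nat_lit 4) (nat_lit 212) (nat_lit 289) (nat_lit 279)) (PT.lf (nat_lit 19000) (nat_lit 6) (nat_lit 250) (nat_lit 4) (nat_lit 213) (nat_lit 289) (nat_lit 278))) (PT.nd (nat_lit 78) (PT.lf (nat_lit 19532) (nat_lit 6) (nat_lit 257) (nat_lit 4) (nat_lit 214) (nat_lit 289) (nat_lit 277)) (PT.lf (nat_lit 20140) (nat_lit 6) (nat_lit 265) (nat_lit 4) (nat_lit 215) (nat_lit 289) (nat_lit 276)))) (PT.nd (nat_lit 156) (PT.nd (nat_lit 78) (PT.lf (nat_lit 20672) (nat_lit 6) (nat_lit 272) (nat_lit 4) (nat_lit 216) (nat_lit 289) (nat_lit 275)) (PT.lf (nat_lit 21280) (nat_lit 6) (nat_lit 280) (nat_lit 4) (nat_lit 217) (nat_lit 289) (nat_lit 274))) (PT.nd (nat_lit 4290) (PT.lf (nat_lit 21888) (nat_lit 6) (nat_lit 288) (nat_lit 4) (nat_lit 218) (nat_lit 289) (nat_lit 273)) (PT.lf (nat_lit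 21888) (nat_lit 6) (nat_lit 288) (nat_lit 2) (nat_lit 273) (nat_lit 289) (nat_lit 218))))) (PT.nd (nat_lit 312) (PT.nd (nat_lit 156) (PT.nd (nat_lit 78) (PT.lf (nat_lit 21280) (nat_lit 6) (nat_lit 280) (nat_lit 2) (nat_lit 274) (nat_lit 289) (nat_lit 217)) (PT.lf (nat_lit 20672) (nat_lit 6) (nat_lit 272) (nat_lit 2) (nat_lit 275) (nat_lit 289) (nat_lit 216))) (PT.nd (nat_lit 78) (PT.lf (nat_lit 20140) (nat_lit 6) (nat_lit 265) (nat_lit 2) (nat_lit 276) (nat_lit 289) (nat_lit 215)) (PT.lf (nat_lit 19532) (nat_lit 6) (nat_lit 257) (nat_lit 2) (nat_lit 277) (nat_lit 289) (nat_lit 214)))) (PT.nd (nat_lit 156) (PT.nd (nat_lit 78) (PT.lf (nat_lit 19000) (nat_lit 6) (nat_lit 250) (nat_lit 2) (nat_lit 278) (nat_lit 289) (nat_lit 213)) (PT.lf (nat_lit 18468) (nat_lit 6) (nat_lit 243) (nat_lit 2) (nat_lit 279) (nat_lit 289) (nat_lit 212))) (PT.nd (nat_lit 78) (PT.lf (nat_lit 18012) (nat_lit 6) (nat_lit 237) (nat_lit 2) (nat_lit 280) (nat_lit 289) (nat_lit 211))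 (PT.nd (nat_lit 78) (PT.lf (nat_lit 17480) (nat_lit 6) (nat_lit 230) (nat_lit 2) (nat_lit 281) (nat_lit 289) (nat_lit 210)) (PT.lf (nat_lit 17024) (nat_lit 6) (nat_lit 224) (nat_lit 2) (nat_lit 282) (nat_lit 289) (nat_lit 209))))))) (PT.nd (nat_lit 702) (PT.nd (nat_lit 312) (PT.nd (nat_lit 156) (PT.nd (nat_lit 78) (PT.lf (nat_lit 16568) (nat_lit 6) (nat_lit 218) (nat_lit 2) (nat_lit 283) (nat_lit 289) (nat_lit 208)) (PT.lf (nat_lit 16112) (nat_lit 6) (nat_lit 212) (nat_lit 2) (nat_lit 284) (nat_lit 289) (nat_lit 207))) (PT.nd (nat_lit 78) (PT.lf (nat_lit 15656) (nat_lit 6) (nat_lit 206) (nat_lit 2) (nat_lit 285) (nat_lit 289) (nat_lit 206)) (PT.lf (nat_lit 15276) (nat_lit 6) (nat_lit 201) (nat_lit 2) (nat_lit 286) (nat_lit 289) (nat_lit 205)))) (PT.nd (nat_lit 156) (PT.nd (nat_lit 78) (PT.lf (nat_lit 14820) (nat_lit 6) (nat_lit 195) (nat_lit 2) (nat_lit 287) (nat_lit 289) (nat_lit 204)) (PT.lf (nat_lit 14440) (nat_lit 6) (nat_lit 190) (nat_lit 2) (nat_lit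 288) (nat_lit 289) (nat_lit 203))) (PT.nd (nat_lit 78) (PT.lf (nat_lit 14060) (nat_lit 3) (nat_lit 185) (nat_lit 0) (nat_lit 289) (nat_lit 289) (nat_lit 202)) (PT.nd (nat_lit 78) (PT.lf (nat_lit 13604) (nat_lit 6) (nat_lit 179) (nat_lit 0) (nat_lit 290) (nat_lit 289) (nat_lit 201)) (PT.lf (nat_lit 13148) (nat_lit 6) (nat_lit 173) (nat_lit 0) (nat_lit 291) (nat_lit 289) (nat_lit 200)))))) (PT.nd (nat_lit 312) (PT.nd (nat_lit 156) (PT.nd (nat_lit 78) (PT.lf (nat_lit 12692) (nat_lit 6) (nat_lit 167) (nat_lit 0) (nat_lit 292) (nat_lit 289) (nat_lit 199)) (PT.lf (nat_lit 12236) (nat_lit 6) (nat_lit 161) (nat_lit 0) (nat_lit 293) (nat_lit 289) (nat_lit 198))) (PT.nd (nat_lit 78) (PT.lf (nat_lit 11856) (nat_lit 6) (nat_lit 156) (nat_lit 0) (nat_lit 294) (nat_lit 289) (nat_lit 197)) (PT.lf (nat_lit 11400) (nat_lit 6) (nat_lit 150) (nat_lit 0) (nat_lit 295) (nat_lit 289) (nat_lit 196)))) (PT.nd (nat_lit 73086) (PT.nd (nat_lit 78) (PT.lf (nat_lit 11020) (nat_lit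 6) (nat_lit 145) (nat_lit 0) (nat_lit 296) (nat_lit 289) (nat_lit 195)) (PT.lf (nat_lit 10564) (nat_lit 6) (nat_lit 139) (nat_lit 0) (nat_lit 297) (nat_lit 289) (nat_lit 194))) (PT.nd (nat_lit 78) (PT.lf (nat_lit 9880) (nat_lit 6) (nat_lit 130) (nat_lit 5) (nat_lit 192) (nat_lit 290) (nat_lit 298)) (PT.nd (nat_lit 78) (PT.lf (nat_lit 10260) (nat_lit 6) (nat_lit 135) (nat_lit 5) (nat_lit 193) (nat_lit 290) (nat_lit 297)) (PT.lf (nat_lit 10640) (nat_lit 6) (nat_lit 140) (nat_lit 5) (nat_lit 194) (nat_lit 290) (nat_lit 296))))))))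
noncomputable def pc110 : PT := (PT.nd (nat_lit 1326) (PT.nd (nat_lit 624) (PT.nd (nat_lit 312) (PT.nd (nat_lit 156) (PT.nd (nat_lit 78) (PT.lf (nat_lit 11096) (nat_lit 6) (nat_lit 146) (nat_lit 5) (nat_lit 195) (nat_lit 290) (nat_lit 295)) (PT.lf (nat_lit 11476) (nat_lit 6) (nat_lit 151) (nat_lit 5) (nat_lit 196) (nat_lit 290) (nat_lit 294))) (PT.nd (nat_lit 78) (PT.lf (nat_lit 11932) (nat_lit 6) (nat_lit 157) (nat_lit 5) (nat_lit 197) (nat_lit 290) (nat_lit 293)) (PT.lf (nat_lit 12312) (nat_lit 6) (nat_lit 162) (nat_lit 5) (nat_lit 198) (nat_lit 290) (nat_lit 292)))) (PT.nd (nat_lit 156) (PT.nd (nat_lit 78) (PT.lf (nat_lit 12768) (nat_lit 6) (nat_lit 168) (nat_lit 5) (nat_lit 199) (nat_lit 290) (nat_lit 291)) (PT.lf (nat_lit 13224) (nat_lit 3) (nat_lit 174) (nat_lit 4) (nat_lit 200) (nat_lit 290) (nat_lit 290))) (PT.nd (nat_lit 78) (PT.lf (nat_lit 13604) (nat_lit 6) (nat_lit 179) (nat_lit 4) (nat_lit 201) (nat_lit 290) (nat_lit 289)) (PT.lf (nat_lit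 13984) (nat_lit 6) (nat_lit 184) (nat_lit 4) (nat_lit 202) (nat_lit 290) (nat_lit 288))))) (PT.nd (nat_lit 312) (PT.nd (nat_lit 156) (PT.nd (nat_lit 78) (PT.lf (nat_lit 14364) (nat_lit 6) (nat_lit 189) (nat_lit 4) (nat_lit 203) (nat_lit 290) (nat_lit 287)) (PT.lf (nat_lit 14744) (nat_lit 6) (nat_lit 194) (nat_lit 4) (nat_lit 204) (nat_lit 290) (nat_lit 286))) (PT.nd (nat_lit 78) (PT.lf (nat_lit 15200) (nat_lit 6) (nat_lit 200) (nat_lit 4) (nat_lit 205) (nat_lit 290) (nat_lit 285)) (PT.lf (nat_lit 15580) (nat_lit 6) (nat_lit 205) (nat_lit 4) (nat_lit 206) (nat_lit 290) (nat_lit 284)))) (PT.nd (nat_lit 156) (PT.nd (nat_lit 78) (PT.lf (nat_lit 16036) (nat_lit 6) (nat_lit 211) (nat_lit 4) (nat_lit 207) (nat_lit 290) (nat_lit 283)) (PT.lf (nat_lit 16492) (nat_lit 6) (nat_lit 217) (nat_lit 4) (nat_lit 208) (nat_lit 290) (nat_lit 282))) (PT.nd (nat_lit 78) (PT.lf (nat_lit 16948) (nat_lit 6) (nat_lit 223) (nat_lit 4) (nat_lit 209) (nat_lit 290) (nat_lit 281))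 (PT.nd (nat_lit 78) (PT.lf (nat_lit 17404) (nat_lit 6) (nat_lit 229) (nat_lit 4) (nat_lit 210) (nat_lit 290) (nat_lit 280)) (PT.lf (nat_lit 17936) (nat_lit 6) (nat_lit 236) (nat_lit 4) (nat_lit 211) (nat_lit 290) (nat_lit 279))))))) (PT.nd (nat_lit 5304) (PT.nd (nat_lit 4914) (PT.nd (nat_lit 156) (PT.nd (nat_lit 78) (PT.lf (nat_lit 18392) (nat_lit 6) (nat_lit 242) (nat_lit 4) (nat_lit 212) (nat_lit 290) (nat_lit 278)) (PT.lf (nat_lit 18924) (nat_lit 6) (nat_lit 249) (nat_lit 4) (nat_lit 213) (nat_lit 290) (nat_lit 277))) (PT.nd (nat_lit 78) (PT.lf (nat_lit 19456) (nat_lit 6) (nat_lit 256) (nat_lit 4) (nat_lit 214) (nat_lit 290) (nat_lit 276)) (PT.lf (nat_lit 20064) (nat_lit 6) (nat_lit 264) (nat_lit 4) (nat_lit 215) (nat_lit 290) (nat_lit 275)))) (PT.nd (nat_lit 156) (PT.nd (nat_lit 78) (PT.lf (nat_lit 20064) (nat_lit 6) (nat_lit 264) (nat_lit 2) (nat_lit 275) (nat_lit 290) (nat_lit 215)) (PT.lf (nat_lit 19456) (nat_lit 6) (nat_lit 256) (nat_lit 2) (nat_lit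 276) (nat_lit 290) (nat_lit 214))) (PT.nd (nat_lit 78) (PT.lf (nat_lit 18924) (nat_lit 6) (nat_lit 249) (nat_lit 2) (nat_lit 277) (nat_lit 290) (nat_lit 213)) (PT.nd (nat_lit 78) (PT.lf (nat_lit 18392) (nat_lit 6) (nat_lit 242) (nat_lit 2) (nat_lit 278) (nat_lit 290) (nat_lit 212)) (PT.lf (nat_lit 17936) (nat_lit 6) (nat_lit 236) (nat_lit 2) (nat_lit 279) (nat_lit 290) (nat_lit 211)))))) (PT.nd (nat_lit 312) (PT.nd (nat_lit 156) (PT.nd (nat_lit 78) (PT.lf (nat_lit 17404) (nat_lit 6) (nat_lit 229) (nat_lit 2) (nat_lit 280) (nat_lit 290) (nat_lit 210)) (PT.lf (nat_lit 16948) (nat_lit 6) (nat_lit 223) (nat_lit 2) (nat_lit 281) (nat_lit 290) (nat_lit 209))) (PT.nd (nat_lit 78) (PT.lf (nat_lit 16492) (nat_lit 6) (nat_lit 217) (nat_lit 2) (nat_lit 282) (nat_lit 290) (nat_lit 208)) (PT.lf (nat_lit 16036) (nat_lit 6) (nat_lit 211) (nat_lit 2) (nat_lit 283) (nat_lit 290) (nat_lit 207)))) (PT.nd (nat_lit 156) (PT.nd (nat_lit 78) (PT.lf (nat_lit 15580) (nat_lit 6)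 (nat_lit 205) (nat_lit 2) (nat_lit 284) (nat_lit 290) (nat_lit 206)) (PT.lf (nat_lit 15200) (nat_lit 6) (nat_lit 200) (nat_lit 2) (nat_lit 285) (nat_lit 290) (nat_lit 205))) (PT.nd (nat_lit 78) (PT.lf (nat_lit 14744) (nat_lit 6) (nat_lit 194) (nat_lit 2) (nat_lit 286) (nat_lit 290) (nat_lit 204)) (PT.nd (nat_lit 78) (PT.lf (nat_lit 14364) (nat_lit 6) (nat_lit 189) (nat_lit 2) (nat_lit 287) (nat_lit 290) (nat_lit 203)) (PT.lf (nat_lit 13984) (nat_lit 6) (nat_lit 184) (nat_lit 2) (nat_lit 288) (nat_lit 290) (nat_lit 202))))))))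
noncomputable def pc111 : PT := (PT.nd (nat_lit 74022) (PT.nd (nat_lit 624) (PT.nd (nat_lit 312) (PT.nd (nat_lit 156) (PT.nd (nat_lit 78) (PT.lf (nat_lit 13604) (nat_lit 6) (nat_lit 179) (nat_lit 2) (nat_lit 289) (nat_lit 290) (nat_lit 201)) (PT.lf (nat_lit 13224) (nat_lit 3) (nat_lit 174) (nat_lit 0) (nat_lit 290) (nat_lit 290) (nat_lit 200))) (PT.nd (nat_lit 78) (PT.lf (nat_lit 12768) (nat_lit 6) (nat_lit 168) (nat_lit 0) (nat_lit 291) (nat_lit 290) (nat_lit 199)) (PT.lf (nat_lit 12312) (nat_lit 6) (nat_lit 162) (nat_lit 0) (nat_lit 292) (nat_lit 290) (nat_lit 198)))) (PT.nd (nat_lit 156) (PT.nd (nat_lit 78) (PT.lf (nat_lit 11932) (nat_lit 6) (nat_lit 157) (nat_lit 0) (nat_lit 293) (nat_lit 290) (nat_lit 197)) (PT.lf (nat_lit 11476) (nat_lit 6) (nat_lit 151) (nat_lit 0) (nat_lit 294) (nat_lit 290) (nat_lit 196))) (PT.nd (nat_lit 78) (PT.lf (nat_lit 11096) (nat_lit 6) (nat_lit 146) (nat_lit 0) (nat_lit 295) (nat_lit 290) (nat_lit 195)) (PT.lf (nat_lit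 10640) (nat_lit 6) (nat_lit 140) (nat_lit 0) (nat_lit 296) (nat_lit 290) (nat_lit 194))))) (PT.nd (nat_lit 73008) (PT.nd (nat_lit 72852) (PT.nd (nat_lit 78) (PT.lf (nat_lit 10260) (nat_lit 6) (nat_lit 135) (nat_lit 0) (nat_lit 297) (nat_lit 290) (nat_lit 193)) (PT.lf (nat_lit 9880) (nat_lit 6) (nat_lit 130) (nat_lit 0) (nat_lit 298) (nat_lit 290) (nat_lit 192))) (PT.nd (nat_lit 78) (PT.lf (nat_lit 9196) (nat_lit 6) (nat_lit 121) (nat_lit 5) (nat_lit 190) (nat_lit 291) (nat_lit 299)) (PT.lf (nat_lit 9576) (nat_lit 6) (nat_lit 126) (nat_lit 5) (nat_lit 191) (nat_lit 291) (nat_lit 298)))) (PT.nd (nat_lit 156) (PT.nd (nat_lit 78) (PT.lf (nat_lit 9956) (nat_lit 6) (nat_lit 131) (nat_lit 5) (nat_lit 192) (nat_lit 291) (nat_lit 297)) (PT.lf (nat_lit 10336) (nat_lit 6) (nat_lit 136) (nat_lit 5) (nat_lit 193) (nat_lit 291) (nat_lit 296))) (PT.nd (nat_lit 78) (PT.lf (nat_lit 10716) (nat_lit 6) (nat_lit 141) (nat_lit 5) (nat_lit 194) (nat_lit 291) (nat_lit 295))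 (PT.nd (nat_lit 78) (PT.lf (nat_lit 11172) (nat_lit 6) (nat_lit 147) (nat_lit 5) (nat_lit 195) (nat_lit 291) (nat_lit 294)) (PT.lf (nat_lit 11552) (nat_lit 6) (nat_lit 152) (nat_lit 5) (nat_lit 196) (nat_lit 291) (nat_lit 293))))))) (PT.nd (nat_lit 702) (PT.nd (nat_lit 312) (PT.nd (nat_lit 156) (PT.nd (nat_lit 78) (PT.lf (nat_lit 12008) (nat_lit 6) (nat_lit 158) (nat_lit 5) (nat_lit 197) (nat_lit 291) (nat_lit 292)) (PT.lf (nat_lit 12388) (nat_lit 3) (nat_lit 163) (nat_lit 4) (nat_lit 198) (nat_lit 291) (nat_lit 291))) (PT.nd (nat_lit 78) (PT.lf (nat_lit 12768) (nat_lit 6) (nat_lit 168) (nat_lit 4) (nat_lit 199) (nat_lit 291) (nat_lit 290)) (PT.lf (nat_lit 13148) (nat_lit 6) (nat_lit 173) (nat_lit 4) (nat_lit 200) (nat_lit 291) (nat_lit 289)))) (PT.nd (nat_lit 156) (PT.nd (nat_lit 78) (PT.lf (nat_lit 13528) (nat_lit 6) (nat_lit 178) (nat_lit 4) (nat_lit 201) (nat_lit 291) (nat_lit 288)) (PT.lf (nat_lit 13908) (nat_lit 6) (nat_lit 183) (nat_lit 4) (nat_lit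 202) (nat_lit 291) (nat_lit 287))) (PT.nd (nat_lit 78) (PT.lf (nat_lit 14288) (nat_lit 6) (nat_lit 188) (nat_lit 4) (nat_lit 203) (nat_lit 291) (nat_lit 286)) (PT.nd (nat_lit 78) (PT.lf (nat_lit 14668) (nat_lit 6) (nat_lit 193) (nat_lit 4) (nat_lit 204) (nat_lit 291) (nat_lit 285)) (PT.lf (nat_lit 15124) (nat_lit 6) (nat_lit 199) (nat_lit 4) (nat_lit 205) (nat_lit 291) (nat_lit 284)))))) (PT.nd (nat_lit 312) (PT.nd (nat_lit 156) (PT.nd (nat_lit 78) (PT.lf (nat_lit 15504) (nat_lit 6) (nat_lit 204) (nat_lit 4) (nat_lit 206) (nat_lit 291) (nat_lit 283)) (PT.lf (nat_lit 15960) (nat_lit 6) (nat_lit 210) (nat_lit 4) (nat_lit 207) (nat_lit 291) (nat_lit 282))) (PT.nd (nat_lit 78) (PT.lf (nat_lit 16416) (nat_lit 6) (nat_lit 216) (nat_lit 4) (nat_lit 208) (nat_lit 291) (nat_lit 281)) (PT.lf (nat_lit 16872) (nat_lit 6) (nat_lit 222) (nat_lit 4) (nat_lit 209) (nat_lit 291) (nat_lit 280)))) (PT.nd (nat_lit 5304) (PT.nd (nat_lit 78) (PT.lf (nat_lit 17328) (nat_lit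 6) (nat_lit 228) (nat_lit 4) (nat_lit 210) (nat_lit 291) (nat_lit 279)) (PT.lf (nat_lit 17860) (nat_lit 6) (nat_lit 235) (nat_lit 4) (nat_lit 211) (nat_lit 291) (nat_lit 278))) (PT.nd (nat_lit 78) (PT.lf (nat_lit 17860) (nat_lit 6) (nat_lit 235) (nat_lit 2) (nat_lit 278) (nat_lit 291) (nat_lit 211)) (PT.nd (nat_lit 78) (PT.lf (nat_lit 17328) (nat_lit 6) (nat_lit 228) (nat_lit 2) (nat_lit 279) (nat_lit 291) (nat_lit 210)) (PT.lf (nat_lit 16872) (nat_lit 6) (nat_lit 222) (nat_lit 2) (nat_lit 280) (nat_lit 291) (nat_lit 209))))))))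
noncomputable def pc112 : PT := (PT.nd (nat_lit 1326) (PT.nd (nat_lit 624) (PT.nd (nat_lit 312) (PT.nd (nat_lit 156) (PT.nd (nat_lit 78) (PT.lf (nat_lit 16416) (nat_lit 6) (nat_lit 216) (nat_lit 2) (nat_lit 281) (nat_lit 291) (nat_lit 208)) (PT.lf (nat_lit 15960) (nat_lit 6) (nat_lit 210) (nat_lit 2) (nat_lit 282) (nat_lit 291) (nat_lit 207))) (PT.nd (nat_lit 78) (PT.lf (nat_lit 15504) (nat_lit 6) (nat_lit 204) (nat_lit 2) (nat_lit 283) (nat_lit 291) (nat_lit 206)) (PT.lf (nat_lit 15124) (nat_lit 6) (nat_lit 199) (nat_lit 2) (nat_lit 284) (nat_lit 291) (nat_lit 205)))) (PT.nd (nat_lit 156) (PT.nd (nat_lit 78) (PT.lf (nat_lit 14668) (nat_lit 6) (nat_lit 193) (nat_lit 2) (nat_lit 285) (nat_lit 291) (nat_lit 204)) (PT.lf (nat_lit 14288) (nat_lit 6) (nat_lit 188) (nat_lit 2) (nat_lit 286) (nat_lit 291) (nat_lit 203))) (PT.nd (nat_lit 78) (PT.lf (nat_lit 13908) (nat_lit 6) (nat_lit 183) (nat_lit 2) (nat_lit 287) (nat_lit 291) (nat_lit 202)) (PT.lf (nat_lit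 13528) (nat_lit 6) (nat_lit 178) (nat_lit 2) (nat_lit 288) (nat_lit 291) (nat_lit 201))))) (PT.nd (nat_lit 312) (PT.nd (nat_lit 156) (PT.nd (nat_lit 78) (PT.lf (nat_lit 13148) (nat_lit 6) (nat_lit 173) (nat_lit 2) (nat_lit 289) (nat_lit 291) (nat_lit 200)) (PT.lf (nat_lit 12768) (nat_lit 6) (nat_lit 168) (nat_lit 2) (nat_lit 290) (nat_lit 291) (nat_lit 199))) (PT.nd (nat_lit 78) (PT.lf (nat_lit 12388) (nat_lit 3) (nat_lit 163) (nat_lit 0) (nat_lit 291) (nat_lit 291) (nat_lit 198)) (PT.lf (nat_lit 12008) (nat_lit 6) (nat_lit 158) (nat_lit 0) (nat_lit 292) (nat_lit 291) (nat_lit 197)))) (PT.nd (nat_lit 156) (PT.nd (nat_lit 78) (PT.lf (nat_lit 11552) (nat_lit 6) (nat_lit 152) (nat_lit 0) (nat_lit 293) (nat_lit 291) (nat_lit 196)) (PT.lf (nat_lit 11172) (nat_lit 6) (nat_lit 147) (nat_lit 0) (nat_lit 294) (nat_lit 291) (nat_lit 195))) (PT.nd (nat_lit 78) (PT.lf (nat_lit 10716) (nat_lit 6) (nat_lit 141) (nat_lit 0) (nat_lit 295) (nat_lit 291) (nat_lit 194))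 (PT.nd (nat_lit 78) (PT.lf (nat_lit 10336) (nat_lit 6) (nat_lit 136) (nat_lit 0) (nat_lit 296) (nat_lit 291) (nat_lit 193)) (PT.lf (nat_lit 9956) (nat_lit 6) (nat_lit 131) (nat_lit 0) (nat_lit 297) (nat_lit 291) (nat_lit 192))))))) (PT.nd (nat_lit 73164) (PT.nd (nat_lit 72852) (PT.nd (nat_lit 72696) (PT.nd (nat_lit 78) (PT.lf (nat_lit 9576) (nat_lit 6) (nat_lit 126) (nat_lit 0) (nat_lit 298) (nat_lit 291) (nat_lit 191)) (PT.lf (nat_lit 9196) (nat_lit 6) (nat_lit 121) (nat_lit 0) (nat_lit 299) (nat_lit 291) (nat_lit 190))) (PT.nd (nat_lit 78) (PT.lf (nat_lit 8892) (nat_lit 6) (nat_lit 117) (nat_lit 5) (nat_lit 189) (nat_lit 292) (nat_lit 299)) (PT.lf (nat_lit 9272) (nat_lit 6) (nat_lit 122) (nat_lit 5) (nat_lit 190) (nat_lit 292) (nat_lit 298)))) (PT.nd (nat_lit 156) (PT.nd (nat_lit 78) (PT.lf (nat_lit 9652) (nat_lit 6) (nat_lit 127) (nat_lit 5) (nat_lit 191) (nat_lit 292) (nat_lit 297)) (PT.lf (nat_lit 10032) (nat_lit 6) (nat_lit 132) (nat_lit 5) (nat_lit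 192) (nat_lit 292) (nat_lit 296))) (PT.nd (nat_lit 78) (PT.lf (nat_lit 10412) (nat_lit 6) (nat_lit 137) (nat_lit 5) (nat_lit 193) (nat_lit 292) (nat_lit 295)) (PT.lf (nat_lit 10792) (nat_lit 6) (nat_lit 142) (nat_lit 5) (nat_lit 194) (nat_lit 292) (nat_lit 294))))) (PT.nd (nat_lit 312) (PT.nd (nat_lit 156) (PT.nd (nat_lit 78) (PT.lf (nat_lit 11248) (nat_lit 6) (nat_lit 148) (nat_lit 5) (nat_lit 195) (nat_lit 292) (nat_lit 293)) (PT.lf (nat_lit 11628) (nat_lit 3) (nat_lit 153) (nat_lit 4) (nat_lit 196) (nat_lit 292) (nat_lit 292))) (PT.nd (nat_lit 78) (PT.lf (nat_lit 12008) (nat_lit 6) (nat_lit 158) (nat_lit 4) (nat_lit 197) (nat_lit 292) (nat_lit 291)) (PT.lf (nat_lit 12312) (nat_lit 6) (nat_lit 162) (nat_lit 4) (nat_lit 198) (nat_lit 292) (nat_lit 290)))) (PT.nd (nat_lit 156) (PT.nd (nat_lit 78) (PT.lf (nat_lit 12692) (nat_lit 6) (nat_lit 167) (nat_lit 4) (nat_lit 199) (nat_lit 292) (nat_lit 289)) (PT.lf (nat_lit 13072) (nat_lit 6) (nat_lit 172) (nat_lit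 4) (nat_lit 200) (nat_lit 292) (nat_lit 288))) (PT.nd (nat_lit 78) (PT.lf (nat_lit 13452) (nat_lit 6) (nat_lit 177) (nat_lit 4) (nat_lit 201) (nat_lit 292) (nat_lit 287)) (PT.nd (nat_lit 78) (PT.lf (nat_lit 13832) (nat_lit 6) (nat_lit 182) (nat_lit 4) (nat_lit 202) (nat_lit 292) (nat_lit 286)) (PT.lf (nat_lit 14212) (nat_lit 6) (nat_lit 187) (nat_lit 4) (nat_lit 203) (nat_lit 292) (nat_lit 285))))))))
noncomputable def pc113 : PT := (PT.nd (nat_lit 6864) (PT.nd (nat_lit 6162) (PT.nd (nat_lit 312) (PT.nd (nat_lit 156) (PT.nd (nat_lit 78) (PT.lf (nat_lit 14592) (nat_lit 6) (nat_lit 192) (nat_lit 4) (nat_lit 204) (nat_lit 292) (nat_lit 284)) (PT.lf (nat_lit 15048) (nat_lit 6) (nat_lit 198) (nat_lit 4) (nat_lit 205) (nat_lit 292) (nat_lit 283))) (PT.nd (nat_lit 78) (PT.lf (nat_lit 15428) (nat_lit 6) (nat_lit 203) (nat_lit 4) (nat_lit 206) (nat_lit 292) (nat_lit 282)) (PT.lf (nat_lit 15884) (nat_lit 6) (nat_lit 209) (nat_lit 4) (nat_lit 207) (nat_lit 292) (nat_lit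 281)))) (PT.nd (nat_lit 5694) (PT.nd (nat_lit 5616) (PT.lf (nat_lit 16340) (nat_lit 6) (nat_lit 215) (nat_lit 4) (nat_lit 208) (nat_lit 292) (nat_lit 280)) (PT.lf (nat_lit 16340) (nat_lit 6) (nat_lit 215) (nat_lit 2) (nat_lit 280) (nat_lit 292) (nat_lit 208))) (PT.nd (nat_lit 78) (PT.lf (nat_lit 15884) (nat_lit 6) (nat_lit 209) (nat_lit 2) (nat_lit 281) (nat_lit 292) (nat_lit 207)) (PT.lf (nat_lit 15428) (nat_lit 6) (nat_lit 203) (nat_lit 2) (nat_lit 282) (nat_lit 292) (nat_lit 206))))) (PT.nd (nat_lit 312) (PT.nd (nat_lit 156) (PT.nd (nat_lit 78) (PT.lf (nat_lit 15048) (nat_lit 6) (nat_lit 198) (nat_lit 2) (nat_lit 283) (nat_lit 292) (nat_lit 205)) (PT.lf (nat_lit 14592) (nat_lit 6) (nat_lit 192) (nat_lit 2) (nat_lit 284) (nat_lit 292) (nat_lit 204))) (PT.nd (nat_lit 78) (PT.lf (nat_lit 14212) (nat_lit 6) (nat_lit 187) (nat_lit 2) (nat_lit 285) (nat_lit 292) (nat_lit 203)) (PT.lf (nat_lit 13832) (nat_lit 6) (nat_lit 182) (nat_lit 2) (nat_lit 286) (nat_lit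 292) (nat_lit 202)))) (PT.nd (nat_lit 156) (PT.nd (nat_lit 78) (PT.lf (nat_lit 13452) (nat_lit 6) (nat_lit 177) (nat_lit 2) (nat_lit 287) (nat_lit 292) (nat_lit 201)) (PT.lf (nat_lit 13072) (nat_lit 6) (nat_lit 172) (nat_lit 2) (nat_lit 288) (nat_lit 292) (nat_lit 200))) (PT.nd (nat_lit 78) (PT.lf (nat_lit 12692) (nat_lit 6) (nat_lit 167) (nat_lit 2) (nat_lit 289) (nat_lit 292) (nat_lit 199)) (PT.nd (nat_lit 78) (PT.lf (nat_lit 12312) (nat_lit 6) (nat_lit 162) (nat_lit 2) (nat_lit 290) (nat_lit 292) (nat_lit 198)) (PT.lf (nat_lit 12008) (nat_lit 6) (nat_lit 158) (nat_lit 2) (nat_lit 291) (nat_lit 292) (nat_lit 197))))))) (PT.nd (nat_lit 73086) (PT.nd (nat_lit 312) (PT.nd (nat_lit 156) (PT.nd (nat_lit 78) (PT.lf (nat_lit 11628) (nat_lit 3) (nat_lit 153) (nat_lit 0) (nat_lit 292) (nat_lit 292) (nat_lit 196)) (PT.lf (nat_lit 11248) (nat_lit 6) (nat_lit 148) (nat_lit 0) (nat_lit 293) (nat_lit 292) (nat_lit 195))) (PT.nd (nat_lit 78) (PT.lf (nat_lit 10792)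 (nat_lit 6) (nat_lit 142) (nat_lit 0) (nat_lit 294) (nat_lit 292) (nat_lit 194)) (PT.lf (nat_lit 10412) (nat_lit 6) (nat_lit 137) (nat_lit 0) (nat_lit 295) (nat_lit 292) (nat_lit 193)))) (PT.nd (nat_lit 156) (PT.nd (nat_lit 78) (PT.lf (nat_lit 10032) (nat_lit 6) (nat_lit 132) (nat_lit 0) (nat_lit 296) (nat_lit 292) (nat_lit 192)) (PT.lf (nat_lit 9652) (nat_lit 6) (nat_lit 127) (nat_lit 0) (nat_lit 297) (nat_lit 292) (nat_lit 191))) (PT.nd (nat_lit 78) (PT.lf (nat_lit 9272) (nat_lit 6) (nat_lit 122) (nat_lit 0) (nat_lit 298) (nat_lit 292) (nat_lit 190)) (PT.nd (nat_lit 72462) (PT.lf (nat_lit 8892) (nat_lit 6) (nat_lit 117) (nat_lit 0) (nat_lit 299) (nat_lit 292) (nat_lit 189)) (PT.lf (nat_lit 8284) (nat_lit 6) (nat_lit 109) (nat_lit 5) (nat_lit 187) (nat_lit 293) (nat_lit 300)))))) (PT.nd (nat_lit 312) (PT.nd (nat_lit 156) (PT.nd (nat_lit 78) (PT.lf (nat_lit 8588) (nat_lit 6) (nat_lit 113) (nat_lit 5) (nat_lit 188) (nat_lit 293) (nat_lit 299)) (PT.lf (nat_lit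 8968) (nat_lit 6) (nat_lit 118) (nat_lit 5) (nat_lit 189) (nat_lit 293) (nat_lit 298))) (PT.nd (nat_lit 78) (PT.lf (nat_lit 9348) (nat_lit 6) (nat_lit 123) (nat_lit 5) (nat_lit 190) (nat_lit 293) (nat_lit 297)) (PT.lf (nat_lit 9728) (nat_lit 6) (nat_lit 128) (nat_lit 5) (nat_lit 191) (nat_lit 293) (nat_lit 296)))) (PT.nd (nat_lit 156) (PT.nd (nat_lit 78) (PT.lf (nat_lit 10108) (nat_lit 6) (nat_lit 133) (nat_lit 5) (nat_lit 192) (nat_lit 293) (nat_lit 295)) (PT.lf (nat_lit 10488) (nat_lit 6) (nat_lit 138) (nat_lit 5) (nat_lit 193) (nat_lit 293) (nat_lit 294))) (PT.nd (nat_lit 78) (PT.lf (nat_lit 10868) (nat_lit 3) (nat_lit 143) (nat_lit 4) (nat_lit 194) (nat_lit 293) (nat_lit 293)) (PT.nd (nat_lit 78) (PT.lf (nat_lit 11248) (nat_lit 6) (nat_lit 148) (nat_lit 4) (nat_lit 195) (nat_lit 293) (nat_lit 292)) (PT.lf (nat_lit 11552) (nat_lit 6) (nat_lit 152) (nat_lit 4) (nat_lit 196) (nat_lit 293) (nat_lit 291))))))))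
noncomputable def pc114 : PT := (PT.nd (nat_lit 7254) (PT.nd (nat_lit 624) (PT.nd (nat_lit 312) (PT.nd (nat_lit 156) (PT.nd (nat_lit 78) (PT.lf (nat_lit 11932) (nat_lit 6) (nat_lit 157) (nat_lit 4) (nat_lit 197) (nat_lit 293) (nat_lit 290)) (PT.lf (nat_lit 12236) (nat_lit 6) (nat_lit 161) (nat_lit 4) (nat_lit 198) (nat_lit 293) (nat_lit 289))) (PT.nd (nat_lit 78) (PT.lf (nat_lit 12616) (nat_lit 6) (nat_lit 166) (nat_lit 4) (nat_lit 199) (nat_lit 293) (nat_lit 288)) (PT.lf (nat_lit 12996) (nat_lit 6) (nat_lit 171) (nat_lit 4) (nat_lit 200) (nat_lit 293) (nat_lit 287)))) (PT.nd (nat_lit 156) (PT.nd (nat_lit 78) (PT.lf (nat_lit 13376) (nat_lit 6) (nat_lit 176) (nat_lit 4) (nat_lit 201) (nat_lit 293) (nat_lit 286)) (PT.lf (nat_lit 13756) (nat_lit 6) (nat_lit 181) (nat_lit 4) (nat_lit 202) (nat_lit 293) (nat_lit 285))) (PT.nd (nat_lit 78) (PT.lf (nat_lit 14136) (nat_lit 6) (nat_lit 186) (nat_lit 4) (nat_lit 203) (nat_lit 293) (nat_lit 284)) (PT.lf (nat_lit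 14516) (nat_lit 6) (nat_lit 191) (nat_lit 4) (nat_lit 204) (nat_lit 293) (nat_lit 283))))) (PT.nd (nat_lit 6240) (PT.nd (nat_lit 6084) (PT.nd (nat_lit 6006) (PT.lf (nat_lit 14972) (nat_lit 6) (nat_lit 197) (nat_lit 4) (nat_lit 205) (nat_lit 293) (nat_lit 282)) (PT.lf (nat_lit 14972) (nat_lit 6) (nat_lit 197) (nat_lit 2) (nat_lit 282) (nat_lit 293) (nat_lit 205))) (PT.nd (nat_lit 78) (PT.lf (nat_lit 14516) (nat_lit 6) (nat_lit 191) (nat_lit 2) (nat_lit 283) (nat_lit 293) (nat_lit 204)) (PT.lf (nat_lit 14136) (nat_lit 6) (nat_lit 186) (nat_lit 2) (nat_lit 284) (nat_lit 293) (nat_lit 203)))) (PT.nd (nat_lit 156) (PT.nd (nat_lit 78) (PT.lf (nat_lit 13756) (nat_lit 6) (nat_lit 181) (nat_lit 2) (nat_lit 285) (nat_lit 293) (nat_lit 202)) (PT.lf (nat_lit 13376) (nat_lit 6) (nat_lit 176) (nat_lit 2) (nat_lit 286) (nat_lit 293) (nat_lit 201))) (PT.nd (nat_lit 78) (PT.lf (nat_lit 12996) (nat_lit 6) (nat_lit 171) (nat_lit 2) (nat_lit 287) (nat_lit 293) (nat_lit 200))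 (PT.nd (nat_lit 78) (PT.lf (nat_lit 12616) (nat_lit 6) (nat_lit 166) (nat_lit 2) (nat_lit 288) (nat_lit 293) (nat_lit 199)) (PT.lf (nat_lit 12236) (nat_lit 6) (nat_lit 161) (nat_lit 2) (nat_lit 289) (nat_lit 293) (nat_lit 198))))))) (PT.nd (nat_lit 702) (PT.nd (nat_lit 312) (PT.nd (nat_lit 156) (PT.nd (nat_lit 78) (PT.lf (nat_lit 11932) (nat_lit 6) (nat_lit 157) (nat_lit 2) (nat_lit 290) (nat_lit 293) (nat_lit 197)) (PT.lf (nat_lit 11552) (nat_lit 6) (nat_lit 152) (nat_lit 2) (nat_lit 291) (nat_lit 293) (nat_lit 196))) (PT.nd (nat_lit 78) (PT.lf (nat_lit 11248) (nat_lit 6) (nat_lit 148) (nat_lit 2) (nat_lit 292) (nat_lit 293) (nat_lit 195)) (PT.lf (nat_lit 10868) (nat_lit 3) (nat_lit 143) (nat_lit 0) (nat_lit 293) (nat_lit 293) (nat_lit 194)))) (PT.nd (nat_lit 156) (PT.nd (nat_lit 78) (PT.lf (nat_lit 10488) (nat_lit 6) (nat_lit 138) (nat_lit 0) (nat_lit 294) (nat_lit 293) (nat_lit 193)) (PT.lf (nat_lit 10108) (nat_lit 6) (nat_lit 133) (nat_lit 0) (nat_lit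 295) (nat_lit 293) (nat_lit 192))) (PT.nd (nat_lit 78) (PT.lf (nat_lit 9728) (nat_lit 6) (nat_lit 128) (nat_lit 0) (nat_lit 296) (nat_lit 293) (nat_lit 191)) (PT.nd (nat_lit 78) (PT.lf (nat_lit 9348) (nat_lit 6) (nat_lit 123) (nat_lit 0) (nat_lit 297) (nat_lit 293) (nat_lit 190)) (PT.lf (nat_lit 8968) (nat_lit 6) (nat_lit 118) (nat_lit 0) (nat_lit 298) (nat_lit 293) (nat_lit 189)))))) (PT.nd (nat_lit 72462) (PT.nd (nat_lit 72306) (PT.nd (nat_lit 78) (PT.lf (nat_lit 8588) (nat_lit 6) (nat_lit 113) (nat_lit 0) (nat_lit 299) (nat_lit 293) (nat_lit 188)) (PT.lf (nat_lit 8284) (nat_lit 6) (nat_lit 109) (nat_lit 0) (nat_lit 300) (nat_lit 293) (nat_lit 187))) (PT.nd (nat_lit 78) (PT.lf (nat_lit 7676) (nat_lit 6) (nat_lit 101) (nat_lit 5) (nat_lit 185) (nat_lit 294) (nat_lit 301)) (PT.lf (nat_lit 7980) (nat_lit 6) (nat_lit 105) (nat_lit 5) (nat_lit 186) (nat_lit 294) (nat_lit 300)))) (PT.nd (nat_lit 156) (PT.nd (nat_lit 78) (PT.lf (nat_lit 8360) (nat_lit 6) (nat_lit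 110) (nat_lit 5) (nat_lit 187) (nat_lit 294) (nat_lit 299)) (PT.lf (nat_lit 8664) (nat_lit 6) (nat_lit 114) (nat_lit 5) (nat_lit 188) (nat_lit 294) (nat_lit 298))) (PT.nd (nat_lit 78) (PT.lf (nat_lit 9044) (nat_lit 6) (nat_lit 119) (nat_lit 5) (nat_lit 189) (nat_lit 294) (nat_lit 297)) (PT.nd (nat_lit 78) (PT.lf (nat_lit 9424) (nat_lit 6) (nat_lit 124) (nat_lit 5) (nat_lit 190) (nat_lit 294) (nat_lit 296)) (PT.lf (nat_lit 9804) (nat_lit 6) (nat_lit 129) (nat_lit 5) (nat_lit 191) (nat_lit 294) (nat_lit 295))))))))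
noncomputable def pc115 : PT := (PT.nd (nat_lit 7644) (PT.nd (nat_lit 624) (PT.nd (nat_lit 312) (PT.nd (nat_lit 156) (PT.nd (nat_lit 78) (PT.lf (nat_lit 10184) (nat_lit 3) (nat_lit 134) (nat_lit 4) (nat_lit 192) (nat_lit 294) (nat_lit 294)) (PT.lf (nat_lit 10488) (nat_lit 6) (nat_lit 138) (nat_lit 4) (nat_lit 193) (nat_lit 294) (nat_lit 293))) (PT.nd (nat_lit 78) (PT.lf (nat_lit 10792) (nat_lit 6) (nat_lit 142) (nat_lit 4) (nat_lit 194) (nat_lit 294) (nat_lit 292)) (PT.lf (nat_lit 11172) (nat_lit 6) (nat_lit 147) (nat_lit 4) (nat_lit 195) (nat_lit 294) (nat_lit 291)))) (PT.nd (nat_lit 156) (PT.nd (nat_lit 78) (PT.lf (nat_lit 11476) (nat_lit 6) (nat_lit 151) (nat_lit 4) (nat_lit 196) (nat_lit 294) (nat_lit 290)) (PT.lf (nat_lit 11856) (nat_lit 6) (nat_lit 156) (nat_lit 4) (nat_lit 197) (nat_lit 294) (nat_lit 289))) (PT.nd (nat_lit 78) (PT.lf (nat_lit 12160) (nat_lit 6) (nat_lit 160) (nat_lit 4) (nat_lit 198) (nat_lit 294) (nat_lit 288)) (PT.lf (nat_lit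 12540) (nat_lit 6) (nat_lit 165) (nat_lit 4) (nat_lit 199) (nat_lit 294) (nat_lit 287))))) (PT.nd (nat_lit 6630) (PT.nd (nat_lit 156) (PT.nd (nat_lit 78) (PT.lf (nat_lit 12920) (nat_lit 6) (nat_lit 170) (nat_lit 4) (nat_lit 200) (nat_lit 294) (nat_lit 286)) (PT.lf (nat_lit 13300) (nat_lit 6) (nat_lit 175) (nat_lit 4) (nat_lit 201) (nat_lit 294) (nat_lit 285))) (PT.nd (nat_lit 6396) (PT.lf (nat_lit 13680) (nat_lit 6) (nat_lit 180) (nat_lit 4) (nat_lit 202) (nat_lit 294) (nat_lit 284)) (PT.lf (nat_lit 13680) (nat_lit 6) (nat_lit 180) (nat_lit 2) (nat_lit 284) (nat_lit 294) (nat_lit 202)))) (PT.nd (nat_lit 156) (PT.nd (nat_lit 78) (PT.lf (nat_lit 13300) (nat_lit 6) (nat_lit 175) (nat_lit 2) (nat_lit 285) (nat_lit 294) (nat_lit 201)) (PT.lf (nat_lit 12920) (nat_lit 6) (nat_lit 170) (nat_lit 2) (nat_lit 286) (nat_lit 294) (nat_lit 200))) (PT.nd (nat_lit 78) (PT.lf (nat_lit 12540) (nat_lit 6) (nat_lit 165) (nat_lit 2) (nat_lit 287) (nat_lit 294) (nat_lit 199))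 (PT.nd (nat_lit 78) (PT.lf (nat_lit 12160) (nat_lit 6) (nat_lit 160) (nat_lit 2) (nat_lit 288) (nat_lit 294) (nat_lit 198)) (PT.lf (nat_lit 11856) (nat_lit 6) (nat_lit 156) (nat_lit 2) (nat_lit 289) (nat_lit 294) (nat_lit 197))))))) (PT.nd (nat_lit 702) (PT.nd (nat_lit 312) (PT.nd (nat_lit 156) (PT.nd (nat_lit 78) (PT.lf (nat_lit 11476) (nat_lit 6) (nat_lit 151) (nat_lit 2) (nat_lit 290) (nat_lit 294) (nat_lit 196)) (PT.lf (nat_lit 11172) (nat_lit 6) (nat_lit 147) (nat_lit 2) (nat_lit 291) (nat_lit 294) (nat_lit 195))) (PT.nd (nat_lit 78) (PT.lf (nat_lit 10792) (nat_lit 6) (nat_lit 142) (nat_lit 2) (nat_lit 292) (nat_lit 294) (nat_lit 194)) (PT.lf (nat_lit 10488) (nat_lit 6) (nat_lit 138) (nat_lit 2) (nat_lit 293) (nat_lit 294) (nat_lit 193)))) (PT.nd (nat_lit 156) (PT.nd (nat_lit 78) (PT.lf (nat_lit 10184) (nat_lit 3) (nat_lit 134) (nat_lit 0) (nat_lit 294) (nat_lit 294) (nat_lit 192)) (PT.lf (nat_lit 9804) (nat_lit 6) (nat_lit 129) (nat_lit 0) (nat_lit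 295) (nat_lit 294) (nat_lit 191))) (PT.nd (nat_lit 78) (PT.lf (nat_lit 9424) (nat_lit 6) (nat_lit 124) (nat_lit 0) (nat_lit 296) (nat_lit 294) (nat_lit 190)) (PT.nd (nat_lit 78) (PT.lf (nat_lit 9044) (nat_lit 6) (nat_lit 119) (nat_lit 0) (nat_lit 297) (nat_lit 294) (nat_lit 189)) (PT.lf (nat_lit 8664) (nat_lit 6) (nat_lit 114) (nat_lit 0) (nat_lit 298) (nat_lit 294) (nat_lit 188)))))) (PT.nd (nat_lit 72306) (PT.nd (nat_lit 156) (PT.nd (nat_lit 78) (PT.lf (nat_lit 8360) (nat_lit 6) (nat_lit 110) (nat_lit 0) (nat_lit 299) (nat_lit 294) (nat_lit 187)) (PT.lf (nat_lit 7980) (nat_lit 6) (nat_lit 105) (nat_lit 0) (nat_lit 300) (nat_lit 294) (nat_lit 186))) (PT.nd (nat_lit 72072) (PT.lf (nat_lit 7676) (nat_lit 6) (nat_lit 101) (nat_lit 0) (nat_lit 301) (nat_lit 294) (nat_lit 185)) (PT.lf (nat_lit 7372) (nat_lit 6) (nat_lit 97) (nat_lit 5) (nat_lit 184) (nat_lit 295) (nat_lit 301)))) (PT.nd (nat_lit 156) (PT.nd (nat_lit 78) (PT.lf (nat_lit 7752) (nat_lit 6) (nat_lit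 102) (nat_lit 5) (nat_lit 185) (nat_lit 295) (nat_lit 300)) (PT.lf (nat_lit 8056) (nat_lit 6) (nat_lit 106) (nat_lit 5) (nat_lit 186) (nat_lit 295) (nat_lit 299))) (PT.nd (nat_lit 78) (PT.lf (nat_lit 8436) (nat_lit 6) (nat_lit 111) (nat_lit 5) (nat_lit 187) (nat_lit 295) (nat_lit 298)) (PT.nd (nat_lit 78) (PT.lf (nat_lit 8740) (nat_lit 6) (nat_lit 115) (nat_lit 5) (nat_lit 188) (nat_lit 295) (nat_lit 297)) (PT.lf (nat_lit 9120) (nat_lit 6) (nat_lit 120) (nat_lit 5) (nat_lit 189) (nat_lit 295) (nat_lit 296))))))))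
noncomputable def pc116 : PT := (PT.nd (nat_lit 7878) (PT.nd (nat_lit 624) (PT.nd (nat_lit 312) (PT.nd (nat_lit 156) (PT.nd (nat_lit 78) (PT.lf (nat_lit 9500) (nat_lit 3) (nat_lit 125) (nat_lit 4) (nat_lit 190) (nat_lit 295) (nat_lit 295)) (PT.lf (nat_lit 9804) (nat_lit 6) (nat_lit 129) (nat_lit 4) (nat_lit 191) (nat_lit 295) (nat_lit 294))) (PT.nd (nat_lit 78) (PT.lf (nat_lit 10108) (nat_lit 6) (nat_lit 133) (nat_lit 4) (nat_lit 192) (nat_lit 295) (nat_lit 293)) (PT.lf (nat_lit 10412) (nat_lit 6) (nat_lit 137) (nat_lit 4) (nat_lit 193) (nat_lit 295) (nat_lit 292)))) (PT.nd (nat_lit 156) (PT.nd (nat_lit 78) (PT.lf (nat_lit 10716) (nat_lit 6) (nat_lit 141) (nat_lit 4) (nat_lit 194) (nat_lit 295) (nat_lit 291)) (PT.lf (nat_lit 11096) (nat_lit 6) (nat_lit 146) (nat_lit 4) (nat_lit 195) (nat_lit 295) (nat_lit 290))) (PT.nd (nat_lit 78) (PT.lf (nat_lit 11400) (nat_lit 6) (nat_lit 150) (nat_lit 4) (nat_lit 196) (nat_lit 295) (nat_lit 289)) (PT.lf (nat_lit 11780)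 (nat_lit 6) (nat_lit 155) (nat_lit 4) (nat_lit 197) (nat_lit 295) (nat_lit 288))))) (PT.nd (nat_lit 6864) (PT.nd (nat_lit 156) (PT.nd (nat_lit 78) (PT.lf (nat_lit 12084) (nat_lit 6) (nat_lit 159) (nat_lit 4) (nat_lit 198) (nat_lit 295) (nat_lit 287)) (PT.lf (nat_lit 12464) (nat_lit 6) (nat_lit 164) (nat_lit 4) (nat_lit 199) (nat_lit 295) (nat_lit 286))) (PT.nd (nat_lit 6630) (PT.lf (nat_lit 12844) (nat_lit 6) (nat_lit 169) (nat_lit 4) (nat_lit 200) (nat_lit 295) (nat_lit 285)) (PT.lf (nat_lit 12844) (nat_lit 6) (nat_lit 169) (nat_lit 2) (nat_lit 285) (nat_lit 295) (nat_lit 200)))) (PT.nd (nat_lit 156) (PT.nd (nat_lit 78) (PT.lf (nat_lit 12464) (nat_lit 6) (nat_lit 164) (nat_lit 2) (nat_lit 286) (nat_lit 295) (nat_lit 199)) (PT.lf (nat_lit 12084) (nat_lit 6) (nat_lit 159) (nat_lit 2) (nat_lit 287) (nat_lit 295) (nat_lit 198))) (PT.nd (nat_lit 78) (PT.lf (nat_lit 11780) (nat_lit 6) (nat_lit 155) (nat_lit 2) (nat_lit 288) (nat_lit 295) (nat_lit 197)) (PT.nd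 (nat_lit 78) (PT.lf (nat_lit 11400) (nat_lit 6) (nat_lit 150) (nat_lit 2) (nat_lit 289) (nat_lit 295) (nat_lit 196)) (PT.lf (nat_lit 11096) (nat_lit 6) (nat_lit 146) (nat_lit 2) (nat_lit 290) (nat_lit 295) (nat_lit 195))))))) (PT.nd (nat_lit 702) (PT.nd (nat_lit 312) (PT.nd (nat_lit 156) (PT.nd (nat_lit 78) (PT.lf (nat_lit 10716) (nat_lit 6) (nat_lit 141) (nat_lit 2) (nat_lit 291) (nat_lit 295) (nat_lit 194)) (PT.lf (nat_lit 10412) (nat_lit 6) (nat_lit 137) (nat_lit 2) (nat_lit 292) (nat_lit 295) (nat_lit 193))) (PT.nd (nat_lit 78) (PT.lf (nat_lit 10108) (nat_lit 6) (nat_lit 133) (nat_lit 2) (nat_lit 293) (nat_lit 295) (nat_lit 192)) (PT.lf (nat_lit 9804) (nat_lit 6) (nat_lit 129) (nat_lit 2) (nat_lit 294) (nat_lit 295) (nat_lit 191)))) (PT.nd (nat_lit 156) (PT.nd (nat_lit 78) (PT.lf (nat_lit 9500) (nat_lit 3) (nat_lit 125) (nat_lit 0) (nat_lit 295) (nat_lit 295) (nat_lit 190)) (PT.lf (nat_lit 9120) (nat_lit 6) (nat_lit 120) (nat_lit 0) (nat_lit 296) (nat_lit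 295) (nat_lit 189))) (PT.nd (nat_lit 78) (PT.lf (nat_lit 8740) (nat_lit 6) (nat_lit 115) (nat_lit 0) (nat_lit 297) (nat_lit 295) (nat_lit 188)) (PT.nd (nat_lit 78) (PT.lf (nat_lit 8436) (nat_lit 6) (nat_lit 111) (nat_lit 0) (nat_lit 298) (nat_lit 295) (nat_lit 187)) (PT.lf (nat_lit 8056) (nat_lit 6) (nat_lit 106) (nat_lit 0) (nat_lit 299) (nat_lit 295) (nat_lit 186)))))) (PT.nd (nat_lit 72150) (PT.nd (nat_lit 71994) (PT.nd (nat_lit 78) (PT.lf (nat_lit 7752) (nat_lit 6) (nat_lit 102) (nat_lit 0) (nat_lit 300) (nat_lit 295) (nat_lit 185)) (PT.lf (nat_lit 7372) (nat_lit 6) (nat_lit 97) (nat_lit 0) (nat_lit 301) (nat_lit 295) (nat_lit 184))) (PT.nd (nat_lit 78) (PT.lf (nat_lit 6840) (nat_lit 6) (nat_lit 90) (nat_lit 5) (nat_lit 182) (nat_lit 296) (nat_lit 302)) (PT.lf (nat_lit 7144) (nat_lit 6) (nat_lit 94) (nat_lit 5) (nat_lit 183) (nat_lit 296) (nat_lit 301)))) (PT.nd (nat_lit 156) (PT.nd (nat_lit 78) (PT.lf (nat_lit 7448) (nat_lit 6) (nat_lit 98) (nat_lit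 5) (nat_lit 184) (nat_lit 296) (nat_lit 300)) (PT.lf (nat_lit 7828) (nat_lit 6) (nat_lit 103) (nat_lit 5) (nat_lit 185) (nat_lit 296) (nat_lit 299))) (PT.nd (nat_lit 78) (PT.lf (nat_lit 8132) (nat_lit 6) (nat_lit 107) (nat_lit 5) (nat_lit 186) (nat_lit 296) (nat_lit 298)) (PT.nd (nat_lit 78) (PT.lf (nat_lit 8512) (nat_lit 6) (nat_lit 112) (nat_lit 5) (nat_lit 187) (nat_lit 296) (nat_lit 297)) (PT.lf (nat_lit 8816) (nat_lit 3) (nat_lit 116) (nat_lit 4) (nat_lit 188) (nat_lit 296) (nat_lit 296))))))))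
noncomputable def pc117 : PT := (PT.nd (nat_lit 8268) (PT.nd (nat_lit 624) (PT.nd (nat_lit 312) (PT.nd (nat_lit 156) (PT.nd (nat_lit 78) (PT.lf (nat_lit 9120) (nat_lit 6) (nat_lit 120) (nat_lit 4) (nat_lit 189) (nat_lit 296) (nat_lit 295)) (PT.lf (nat_lit 9424) (nat_lit 6) (nat_lit 124) (nat_lit 4) (nat_lit 190) (nat_lit 296) (nat_lit 294))) (PT.nd (nat_lit 78) (PT.lf (nat_lit 9728) (nat_lit 6) (nat_lit 128) (nat_lit 4) (nat_lit 191) (nat_lit 296) (nat_lit 293)) (PT.lf (nat_lit 10032) (nat_lit 6) (nat_lit 132) (nat_lit 4) (nat_lit 192) (nat_lit 296) (nat_lit 292)))) (PT.nd (nat_lit 156) (PT.nd (nat_lit 78) (PT.lf (nat_lit 10336) (nat_lit 6) (nat_lit 136) (nat_lit 4) (nat_lit 193) (nat_lit 296) (nat_lit 291)) (PT.lf (nat_lit 10640) (nat_lit 6) (nat_lit 140) (nat_lit 4) (nat_lit 194) (nat_lit 296) (nat_lit 290))) (PT.nd (nat_lit 78) (PT.lf (nat_lit 11020) (nat_lit 6) (nat_lit 145) (nat_lit 4) (nat_lit 195) (nat_lit 296) (nat_lit 289)) (PT.lf (nat_lit 11324)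 (nat_lit 6) (nat_lit 149) (nat_lit 4) (nat_lit 196) (nat_lit 296) (nat_lit 288))))) (PT.nd (nat_lit 7254) (PT.nd (nat_lit 7098) (PT.nd (nat_lit 7020) (PT.lf (nat_lit 11704) (nat_lit 6) (nat_lit 154) (nat_lit 4) (nat_lit 197) (nat_lit 296) (nat_lit 287)) (PT.lf (nat_lit 11704) (nat_lit 6) (nat_lit 154) (nat_lit 2) (nat_lit 287) (nat_lit 296) (nat_lit 197))) (PT.nd (nat_lit 78) (PT.lf (nat_lit 11324) (nat_lit 6) (nat_lit 149) (nat_lit 2) (nat_lit 288) (nat_lit 296) (nat_lit 196)) (PT.lf (nat_lit 11020) (nat_lit 6) (nat_lit 145) (nat_lit 2) (nat_lit 289) (nat_lit 296) (nat_lit 195)))) (PT.nd (nat_lit 156) (PT.nd (nat_lit 78) (PT.lf (nat_lit 10640) (nat_lit 6) (nat_lit 140) (nat_lit 2) (nat_lit 290) (nat_lit 296) (nat_lit 194)) (PT.lf (nat_lit 10336) (nat_lit 6) (nat_lit 136) (nat_lit 2) (nat_lit 291) (nat_lit 296) (nat_lit 193))) (PT.nd (nat_lit 78) (PT.lf (nat_lit 10032) (nat_lit 6) (nat_lit 132) (nat_lit 2) (nat_lit 292) (nat_lit 296) (nat_lit 192)) (PT.nd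 (nat_lit 78) (PT.lf (nat_lit 9728) (nat_lit 6) (nat_lit 128) (nat_lit 2) (nat_lit 293) (nat_lit 296) (nat_lit 191)) (PT.lf (nat_lit 9424) (nat_lit 6) (nat_lit 124) (nat_lit 2) (nat_lit 294) (nat_lit 296) (nat_lit 190))))))) (PT.nd (nat_lit 72306) (PT.nd (nat_lit 312) (PT.nd (nat_lit 156) (PT.nd (nat_lit 78) (PT.lf (nat_lit 9120) (nat_lit 6) (nat_lit 120) (nat_lit 2) (nat_lit 295) (nat_lit 296) (nat_lit 189)) (PT.lf (nat_lit 8816) (nat_lit 3) (nat_lit 116) (nat_lit 0) (nat_lit 296) (nat_lit 296) (nat_lit 188))) (PT.nd (nat_lit 78) (PT.lf (nat_lit 8512) (nat_lit 6) (nat_lit 112) (nat_lit 0) (nat_lit 297) (nat_lit 296) (nat_lit 187)) (PT.lf (nat_lit 8132) (nat_lit 6) (nat_lit 107) (nat_lit 0) (nat_lit 298) (nat_lit 296) (nat_lit 186)))) (PT.nd (nat_lit 156) (PT.nd (nat_lit 78) (PT.lf (nat_lit 7828) (nat_lit 6) (nat_lit 103) (nat_lit 0) (nat_lit 299) (nat_lit 296) (nat_lit 185)) (PT.lf (nat_lit 7448) (nat_lit 6) (nat_lit 98) (nat_lit 0) (nat_lit 300) (nat_lit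 296) (nat_lit 184))) (PT.nd (nat_lit 78) (PT.lf (nat_lit 7144) (nat_lit 6) (nat_lit 94) (nat_lit 0) (nat_lit 301) (nat_lit 296) (nat_lit 183)) (PT.nd (nat_lit 71682) (PT.lf (nat_lit 6840) (nat_lit 6) (nat_lit 90) (nat_lit 0) (nat_lit 302) (nat_lit 296) (nat_lit 182)) (PT.lf (nat_lit 6308) (nat_lit 6) (nat_lit 83) (nat_lit 5) (nat_lit 180) (nat_lit 297) (nat_lit 303)))))) (PT.nd (nat_lit 312) (PT.nd (nat_lit 156) (PT.nd (nat_lit 78) (PT.lf (nat_lit 6612) (nat_lit 6) (nat_lit 87) (nat_lit 5) (nat_lit 181) (nat_lit 297) (nat_lit 302)) (PT.lf (nat_lit 6916) (nat_lit 6) (nat_lit 91) (nat_lit 5) (nat_lit 182) (nat_lit 297) (nat_lit 301))) (PT.nd (nat_lit 78) (PT.lf (nat_lit 7220) (nat_lit 6) (nat_lit 95) (nat_lit 5) (nat_lit 183) (nat_lit 297) (nat_lit 300)) (PT.lf (nat_lit 7524) (nat_lit 6) (nat_lit 99) (nat_lit 5) (nat_lit 184) (nat_lit 297) (nat_lit 299)))) (PT.nd (nat_lit 156) (PT.nd (nat_lit 78) (PT.lf (nat_lit 7904) (nat_lit 6) (nat_lit 104) (nat_lit 5)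 (nat_lit 185) (nat_lit 297) (nat_lit 298)) (PT.lf (nat_lit 8208) (nat_lit 3) (nat_lit 108) (nat_lit 4) (nat_lit 186) (nat_lit 297) (nat_lit 297))) (PT.nd (nat_lit 78) (PT.lf (nat_lit 8512) (nat_lit 6) (nat_lit 112) (nat_lit 4) (nat_lit 187) (nat_lit 297) (nat_lit 296)) (PT.nd (nat_lit 78) (PT.lf (nat_lit 8740) (nat_lit 6) (nat_lit 115) (nat_lit 4) (nat_lit 188) (nat_lit 297) (nat_lit 295)) (PT.lf (nat_lit 9044) (nat_lit 6) (nat_lit 119) (nat_lit 4) (nat_lit 189) (nat_lit 297) (nat_lit 294))))))))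
noncomputable def pc118 : PT := (PT.nd (nat_lit 8502) (PT.nd (nat_lit 7800) (PT.nd (nat_lit 312) (PT.nd (nat_lit 156) (PT.nd (nat_lit 78) (PT.lf (nat_lit 9348) (nat_lit 6) (nat_lit 123) (nat_lit 4) (nat_lit 190) (nat_lit 297) (nat_lit 293)) (PT.lf (nat_lit 9652) (nat_lit 6) (nat_lit 127) (nat_lit 4) (nat_lit 191) (nat_lit 297) (nat_lit 292))) (PT.nd (nat_lit 78) (PT.lf (nat_lit 9956) (nat_lit 6) (nat_lit 131) (nat_lit 4) (nat_lit 192) (nat_lit 297) (nat_lit 291)) (PT.lf (nat_lit 10260) (nat_lit 6) (nat_lit 135) (nat_lit 4) (nat_lit 193) (nat_lit 297) (nat_lit 290)))) (PT.nd (nat_lit 7332) (PT.nd (nat_lit 78) (PT.lf (nat_lit 10564) (nat_lit 6) (nat_lit 139) (nat_lit 4) (nat_lit 194) (nat_lit 297) (nat_lit 289)) (PT.lf (nat_lit 10944) (nat_lit 6) (nat_lit 144) (nat_lit 4) (nat_lit 195) (nat_lit 297) (nat_lit 288))) (PT.nd (nat_lit 78) (PT.lf (nat_lit 10944) (nat_lit 6) (nat_lit 144) (nat_lit 2) (nat_lit 288) (nat_lit 297) (nat_lit 195)) (PT.lf (nat_lit 10564)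 (nat_lit 6) (nat_lit 139) (nat_lit 2) (nat_lit 289) (nat_lit 297) (nat_lit 194))))) (PT.nd (nat_lit 312) (PT.nd (nat_lit 156) (PT.nd (nat_lit 78) (PT.lf (nat_lit 10260) (nat_lit 6) (nat_lit 135) (nat_lit 2) (nat_lit 290) (nat_lit 297) (nat_lit 193)) (PT.lf (nat_lit 9956) (nat_lit 6) (nat_lit 131) (nat_lit 2) (nat_lit 291) (nat_lit 297) (nat_lit 192))) (PT.nd (nat_lit 78) (PT.lf (nat_lit 9652) (nat_lit 6) (nat_lit 127) (nat_lit 2) (nat_lit 292) (nat_lit 297) (nat_lit 191)) (PT.lf (nat_lit 9348) (nat_lit 6) (nat_lit 123) (nat_lit 2) (nat_lit 293) (nat_lit 297) (nat_lit 190)))) (PT.nd (nat_lit 156) (PT.nd (nat_lit 78) (PT.lf (nat_lit 9044) (nat_lit 6) (nat_lit 119) (nat_lit 2) (nat_lit 294) (nat_lit 297) (nat_lit 189)) (PT.lf (nat_lit 8740) (nat_lit 6) (nat_lit 115) (nat_lit 2) (nat_lit 295) (nat_lit 297) (nat_lit 188))) (PT.nd (nat_lit 78) (PT.lf (nat_lit 8512) (nat_lit 6) (nat_lit 112) (nat_lit 2) (nat_lit 296) (nat_lit 297) (nat_lit 187)) (PT.nd (nat_lit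 78) (PT.lf (nat_lit 8208) (nat_lit 3) (nat_lit 108) (nat_lit 0) (nat_lit 297) (nat_lit 297) (nat_lit 186)) (PT.lf (nat_lit 7904) (nat_lit 6) (nat_lit 104) (nat_lit 0) (nat_lit 298) (nat_lit 297) (nat_lit 185))))))) (PT.nd (nat_lit 72072) (PT.nd (nat_lit 312) (PT.nd (nat_lit 156) (PT.nd (nat_lit 78) (PT.lf (nat_lit 7524) (nat_lit 6) (nat_lit 99) (nat_lit 0) (nat_lit 299) (nat_lit 297) (nat_lit 184)) (PT.lf (nat_lit 7220) (nat_lit 6) (nat_lit 95) (nat_lit 0) (nat_lit 300) (nat_lit 297) (nat_lit 183))) (PT.nd (nat_lit 78) (PT.lf (nat_lit 6916) (nat_lit 6) (nat_lit 91) (nat_lit 0) (nat_lit 301) (nat_lit 297) (nat_lit 182)) (PT.lf (nat_lit 6612) (nat_lit 6) (nat_lit 87) (nat_lit 0) (nat_lit 302) (nat_lit 297) (nat_lit 181)))) (PT.nd (nat_lit 71526) (PT.nd (nat_lit 71448) (PT.lf (nat_lit 6308) (nat_lit 6) (nat_lit 83) (nat_lit 0) (nat_lit 303) (nat_lit 297) (nat_lit 180)) (PT.lf (nat_lit 5776) (nat_lit 6) (nat_lit 76) (nat_lit 5) (nat_lit 178) (nat_lit 298)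 (nat_lit 304))) (PT.nd (nat_lit 78) (PT.lf (nat_lit 6080) (nat_lit 6) (nat_lit 80) (nat_lit 5) (nat_lit 179) (nat_lit 298) (nat_lit 303)) (PT.nd (nat_lit 78) (PT.lf (nat_lit 6384) (nat_lit 6) (nat_lit 84) (nat_lit 5) (nat_lit 180) (nat_lit 298) (nat_lit 302)) (PT.lf (nat_lit 6688) (nat_lit 6) (nat_lit 88) (nat_lit 5) (nat_lit 181) (nat_lit 298) (nat_lit 301)))))) (PT.nd (nat_lit 312) (PT.nd (nat_lit 156) (PT.nd (nat_lit 78) (PT.lf (nat_lit 6992) (nat_lit 6) (nat_lit 92) (nat_lit 5) (nat_lit 182) (nat_lit 298) (nat_lit 300)) (PT.lf (nat_lit 7296) (nat_lit 6) (nat_lit 96) (nat_lit 5) (nat_lit 183) (nat_lit 298) (nat_lit 299))) (PT.nd (nat_lit 78) (PT.lf (nat_lit 7600) (nat_lit 3) (nat_lit 100) (nat_lit 4) (nat_lit 184) (nat_lit 298) (nat_lit 298)) (PT.lf (nat_lit 7904) (nat_lit 6) (nat_lit 104) (nat_lit 4) (nat_lit 185) (nat_lit 298) (nat_lit 297)))) (PT.nd (nat_lit 156) (PT.nd (nat_lit 78) (PT.lf (nat_lit 8132) (nat_lit 6) (nat_lit 107) (nat_lit 4) (nat_lit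 186) (nat_lit 298) (nat_lit 296)) (PT.lf (nat_lit 8436) (nat_lit 6) (nat_lit 111) (nat_lit 4) (nat_lit 187) (nat_lit 298) (nat_lit 295))) (PT.nd (nat_lit 78) (PT.lf (nat_lit 8664) (nat_lit 6) (nat_lit 114) (nat_lit 4) (nat_lit 188) (nat_lit 298) (nat_lit 294)) (PT.nd (nat_lit 78) (PT.lf (nat_lit 8968) (nat_lit 6) (nat_lit 118) (nat_lit 4) (nat_lit 189) (nat_lit 298) (nat_lit 293)) (PT.lf (nat_lit 9272) (nat_lit 6) (nat_lit 122) (nat_lit 4) (nat_lit 190) (nat_lit 298) (nat_lit 292))))))))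
noncomputable def pc119 : PT := (PT.nd (nat_lit 80106) (PT.nd (nat_lit 8190) (PT.nd (nat_lit 7878) (PT.nd (nat_lit 7722) (PT.nd (nat_lit 78) (PT.lf (nat_lit 9576) (nat_lit 6) (nat_lit 126) (nat_lit 4) (nat_lit 191) (nat_lit 298) (nat_lit 291)) (PT.lf (nat_lit 9880) (nat_lit 6) (nat_lit 130) (nat_lit 4) (nat_lit 192) (nat_lit 298) (nat_lit 290))) (PT.nd (nat_lit 78) (PT.lf (nat_lit 9880) (nat_lit 6) (nat_lit 130) (nat_lit 2) (nat_lit 290) (nat_lit 298) (nat_lit 192)) (PT.lf (nat_lit 9576) (nat_lit 6) (nat_lit 126) (nat_lit 2) (nat_lit 291) (nat_lit 298) (nat_lit 191)))) (PT.nd (nat_lit 156) (PT.nd (nat_lit 78) (PT.lf (nat_lit 9272) (nat_lit 6) (nat_lit 122) (nat_lit 2) (nat_lit 292) (nat_lit 298) (nat_lit 190)) (PT.lf (nat_lit 8968) (nat_lit 6) (nat_lit 118) (nat_lit 2) (nat_lit 293) (nat_lit 298) (nat_lit 189))) (PT.nd (nat_lit 78) (PT.lf (nat_lit 8664) (nat_lit 6) (nat_lit 114) (nat_lit 2) (nat_lit 294) (nat_lit 298) (nat_lit 188)) (PT.lf (nat_lit 8436)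 (nat_lit 6) (nat_lit 111) (nat_lit 2) (nat_lit 295) (nat_lit 298) (nat_lit 187))))) (PT.nd (nat_lit 312) (PT.nd (nat_lit 156) (PT.nd (nat_lit 78) (PT.lf (nat_lit 8132) (nat_lit 6) (nat_lit 107) (nat_lit 2) (nat_lit 296) (nat_lit 298) (nat_lit 186)) (PT.lf (nat_lit 7904) (nat_lit 6) (nat_lit 104) (nat_lit 2) (nat_lit 297) (nat_lit 298) (nat_lit 185))) (PT.nd (nat_lit 78) (PT.lf (nat_lit 7600) (nat_lit 3) (nat_lit 100) (nat_lit 0) (nat_lit 298) (nat_lit 298) (nat_lit 184)) (PT.lf (nat_lit 7296) (nat_lit 6) (nat_lit 96) (nat_lit 0) (nat_lit 299) (nat_lit 298) (nat_lit 183)))) (PT.nd (nat_lit 156) (PT.nd (nat_lit 78) (PT.lf (nat_lit 6992) (nat_lit 6) (nat_lit 92) (nat_lit 0) (nat_lit 300) (nat_lit 298) (nat_lit 182)) (PT.lf (nat_lit 6688) (nat_lit 6) (nat_lit 88) (nat_lit 0) (nat_lit 301) (nat_lit 298) (nat_lit 181))) (PT.nd (nat_lit 78) (PT.lf (nat_lit 6384) (nat_lit 6) (nat_lit 84) (nat_lit 0) (nat_lit 302) (nat_lit 298) (nat_lit 180)) (PT.nd (nat_lit 78)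 (PT.lf (nat_lit 6080) (nat_lit 6) (nat_lit 80) (nat_lit 0) (nat_lit 303) (nat_lit 298) (nat_lit 179)) (PT.lf (nat_lit 5776) (nat_lit 6) (nat_lit 76) (nat_lit 0) (nat_lit 304) (nat_lit 298) (nat_lit 178))))))) (PT.nd (nat_lit 702) (PT.nd (nat_lit 312) (PT.nd (nat_lit 156) (PT.nd (nat_lit 78) (PT.lf (nat_lit 5548) (nat_lit 6) (nat_lit 73) (nat_lit 5) (nat_lit 177) (nat_lit 299) (nat_lit 304)) (PT.lf (nat_lit 5852) (nat_lit 6) (nat_lit 77) (nat_lit 5) (nat_lit 178) (nat_lit 299) (nat_lit 303))) (PT.nd (nat_lit 78) (PT.lf (nat_lit 6156) (nat_lit 6) (nat_lit 81) (nat_lit 5) (nat_lit 179) (nat_lit 299) (nat_lit 302)) (PT.lf (nat_lit 6460) (nat_lit 6) (nat_lit 85) (nat_lit 5) (nat_lit 180) (nat_lit 299) (nat_lit 301)))) (PT.nd (nat_lit 156) (PT.nd (nat_lit 78) (PT.lf (nat_lit 6764) (nat_lit 6) (nat_lit 89) (nat_lit 5) (nat_lit 181) (nat_lit 299) (nat_lit 300)) (PT.lf (nat_lit 7068) (nat_lit 3) (nat_lit 93) (nat_lit 4) (nat_lit 182) (nat_lit 299) (nat_lit 299)))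 (PT.nd (nat_lit 78) (PT.lf (nat_lit 7296) (nat_lit 6) (nat_lit 96) (nat_lit 4) (nat_lit 183) (nat_lit 299) (nat_lit 298)) (PT.nd (nat_lit 78) (PT.lf (nat_lit 7524) (nat_lit 6) (nat_lit 99) (nat_lit 4) (nat_lit 184) (nat_lit 299) (nat_lit 297)) (PT.lf (nat_lit 7828) (nat_lit 6) (nat_lit 103) (nat_lit 4) (nat_lit 185) (nat_lit 299) (nat_lit 296)))))) (PT.nd (nat_lit 312) (PT.nd (nat_lit 156) (PT.nd (nat_lit 78) (PT.lf (nat_lit 8056) (nat_lit 6) (nat_lit 106) (nat_lit 4) (nat_lit 186) (nat_lit 299) (nat_lit 295)) (PT.lf (nat_lit 8360) (nat_lit 6) (nat_lit 110) (nat_lit 4) (nat_lit 187) (nat_lit 299) (nat_lit 294))) (PT.nd (nat_lit 78) (PT.lf (nat_lit 8588) (nat_lit 6) (nat_lit 113) (nat_lit 4) (nat_lit 188) (nat_lit 299) (nat_lit 293)) (PT.lf (nat_lit 8892) (nat_lit 6) (nat_lit 117) (nat_lit 4) (nat_lit 189) (nat_lit 299) (nat_lit 292)))) (PT.nd (nat_lit 7956) (PT.nd (nat_lit 7878) (PT.lf (nat_lit 9196) (nat_lit 6) (nat_lit 121) (nat_lit 4) (nat_lit 190)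 (nat_lit 299) (nat_lit 291)) (PT.lf (nat_lit 9196) (nat_lit 6) (nat_lit 121) (nat_lit 2) (nat_lit 291) (nat_lit 299) (nat_lit 190))) (PT.nd (nat_lit 78) (PT.lf (nat_lit 8892) (nat_lit 6) (nat_lit 117) (nat_lit 2) (nat_lit 292) (nat_lit 299) (nat_lit 189)) (PT.nd (nat_lit 78) (PT.lf (nat_lit 8588) (nat_lit 6) (nat_lit 113) (nat_lit 2) (nat_lit 293) (nat_lit 299) (nat_lit 188)) (PT.lf (nat_lit 8360) (nat_lit 6) (nat_lit 110) (nat_lit 2) (nat_lit 294) (nat_lit 299) (nat_lit 187))))))))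
noncomputable def pc120 : PT := (PT.nd (nat_lit 72384) (PT.nd (nat_lit 624) (PT.nd (nat_lit 312) (PT.nd (nat_lit 156) (PT.nd (nat_lit 78) (PT.lf (nat_lit 8056) (nat_lit 6) (nat_lit 106) (nat_lit 2) (nat_lit 295) (nat_lit 299) (nat_lit 186)) (PT.lf (nat_lit 7828) (nat_lit 6) (nat_lit 103) (nat_lit 2) (nat_lit 296) (nat_lit 299) (nat_lit 185))) (PT.nd (nat_lit 78) (PT.lf (nat_lit 7524) (nat_lit 6) (nat_lit 99) (nat_lit 2) (nat_lit 297) (nat_lit 299) (nat_lit 184)) (PT.lf (nat_lit 7296) (nat_lit 6) (nat_lit 96) (nat_lit 2) (nat_lit 298) (nat_lit 299) (nat_lit 183)))) (PT.nd (nat_lit 156) (PT.nd (nat_lit 78) (PT.lf (nat_lit 7068) (nat_lit 3) (nat_lit 93) (nat_lit 0) (nat_lit 299) (nat_lit 299) (nat_lit 182)) (PT.lf (nat_lit 6764) (nat_lit 6) (nat_lit 89) (nat_lit 0) (nat_lit 300) (nat_lit 299) (nat_lit 181))) (PT.nd (nat_lit 78) (PT.lf (nat_lit 6460) (nat_lit 6) (nat_lit 85) (nat_lit 0) (nat_lit 301) (nat_lit 299) (nat_lit 180)) (PT.lf (nat_lit 6156) (nat_lit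 6) (nat_lit 81) (nat_lit 0) (nat_lit 302) (nat_lit 299) (nat_lit 179))))) (PT.nd (nat_lit 71370) (PT.nd (nat_lit 71214) (PT.nd (nat_lit 78) (PT.lf (nat_lit 5852) (nat_lit 6) (nat_lit 77) (nat_lit 0) (nat_lit 303) (nat_lit 299) (nat_lit 178)) (PT.lf (nat_lit 5548) (nat_lit 6) (nat_lit 73) (nat_lit 0) (nat_lit 304) (nat_lit 299) (nat_lit 177))) (PT.nd (nat_lit 78) (PT.lf (nat_lit 5092) (nat_lit 6) (nat_lit 67) (nat_lit 5) (nat_lit 175) (nat_lit 300) (nat_lit 305)) (PT.lf (nat_lit 5320) (nat_lit 6) (nat_lit 70) (nat_lit 5) (nat_lit 176) (nat_lit 300) (nat_lit 304)))) (PT.nd (nat_lit 156) (PT.nd (nat_lit 78) (PT.lf (nat_lit 5624) (nat_lit 6) (nat_lit 74) (nat_lit 5) (nat_lit 177) (nat_lit 300) (nat_lit 303)) (PT.lf (nat_lit 5928) (nat_lit 6) (nat_lit 78) (nat_lit 5) (nat_lit 178) (nat_lit 300) (nat_lit 302))) (PT.nd (nat_lit 78) (PT.lf (nat_lit 6232) (nat_lit 6) (nat_lit 82) (nat_lit 5) (nat_lit 179) (nat_lit 300) (nat_lit 301)) (PT.nd (nat_lit 78) (PT.lf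 (nat_lit 6536) (nat_lit 3) (nat_lit 86) (nat_lit 4) (nat_lit 180) (nat_lit 300) (nat_lit 300)) (PT.lf (nat_lit 6764) (nat_lit 6) (nat_lit 89) (nat_lit 4) (nat_lit 181) (nat_lit 300) (nat_lit 299))))))) (PT.nd (nat_lit 8892) (PT.nd (nat_lit 312) (PT.nd (nat_lit 156) (PT.nd (nat_lit 78) (PT.lf (nat_lit 6992) (nat_lit 6) (nat_lit 92) (nat_lit 4) (nat_lit 182) (nat_lit 300) (nat_lit 298)) (PT.lf (nat_lit 7220) (nat_lit 6) (nat_lit 95) (nat_lit 4) (nat_lit 183) (nat_lit 300) (nat_lit 297))) (PT.nd (nat_lit 78) (PT.lf (nat_lit 7448) (nat_lit 6) (nat_lit 98) (nat_lit 4) (nat_lit 184) (nat_lit 300) (nat_lit 296)) (PT.lf (nat_lit 7752) (nat_lit 6) (nat_lit 102) (nat_lit 4) (nat_lit 185) (nat_lit 300) (nat_lit 295)))) (PT.nd (nat_lit 8346) (PT.nd (nat_lit 78) (PT.lf (nat_lit 7980) (nat_lit 6) (nat_lit 105) (nat_lit 4) (nat_lit 186) (nat_lit 300) (nat_lit 294)) (PT.lf (nat_lit 8284) (nat_lit 6) (nat_lit 109) (nat_lit 4) (nat_lit 187) (nat_lit 300) (nat_lit 293)))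 (PT.nd (nat_lit 78) (PT.lf (nat_lit 8284) (nat_lit 6) (nat_lit 109) (nat_lit 2) (nat_lit 293) (nat_lit 300) (nat_lit 187)) (PT.nd (nat_lit 78) (PT.lf (nat_lit 7980) (nat_lit 6) (nat_lit 105) (nat_lit 2) (nat_lit 294) (nat_lit 300) (nat_lit 186)) (PT.lf (nat_lit 7752) (nat_lit 6) (nat_lit 102) (nat_lit 2) (nat_lit 295) (nat_lit 300) (nat_lit 185)))))) (PT.nd (nat_lit 312) (PT.nd (nat_lit 156) (PT.nd (nat_lit 78) (PT.lf (nat_lit 7448) (nat_lit 6) (nat_lit 98) (nat_lit 2) (nat_lit 296) (nat_lit 300) (nat_lit 184)) (PT.lf (nat_lit 7220) (nat_lit 6) (nat_lit 95) (nat_lit 2) (nat_lit 297) (nat_lit 300) (nat_lit 183))) (PT.nd (nat_lit 78) (PT.lf (nat_lit 6992) (nat_lit 6) (nat_lit 92) (nat_lit 2) (nat_lit 298) (nat_lit 300) (nat_lit 182)) (PT.lf (nat_lit 6764) (nat_lit 6) (nat_lit 89) (nat_lit 2) (nat_lit 299) (nat_lit 300) (nat_lit 181)))) (PT.nd (nat_lit 156) (PT.nd (nat_lit 78) (PT.lf (nat_lit 6536) (nat_lit 3) (nat_lit 86) (nat_lit 0) (nat_lit 300) (nat_lit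 300) (nat_lit 180)) (PT.lf (nat_lit 6232) (nat_lit 6) (nat_lit 82) (nat_lit 0) (nat_lit 301) (nat_lit 300) (nat_lit 179))) (PT.nd (nat_lit 78) (PT.lf (nat_lit 5928) (nat_lit 6) (nat_lit 78) (nat_lit 0) (nat_lit 302) (nat_lit 300) (nat_lit 178)) (PT.nd (nat_lit 78) (PT.lf (nat_lit 5624) (nat_lit 6) (nat_lit 74) (nat_lit 0) (nat_lit 303) (nat_lit 300) (nat_lit 177)) (PT.lf (nat_lit 5320) (nat_lit 6) (nat_lit 70) (nat_lit 0) (nat_lit 304) (nat_lit 300) (nat_lit 176))))))))
noncomputable def pc121 : PT := (PT.nd (nat_lit 80652) (PT.nd (nat_lit 71526) (PT.nd (nat_lit 71214) (PT.nd (nat_lit 71058) (PT.nd (nat_lit 70980) (PT.lf (nat_lit 5092) (nat_lit 6) (nat_lit 67) (nat_lit 0) (nat_lit 305) (nat_lit 300) (nat_lit 175)) (PT.lf (nat_lit 4864) (nat_lit 6) (nat_lit 64) (nat_lit 5) (nat_lit 174) (nat_lit 301) (nat_lit 305))) (PT.nd (nat_lit 78) (PT.lf (nat_lit 5168) (nat_lit 6) (nat_lit 68) (nat_lit 5) (nat_lit 175) (nat_lit 301) (nat_lit 304)) (PT.lf (nat_lit 5396)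 (nat_lit 6) (nat_lit 71) (nat_lit 5) (nat_lit 176) (nat_lit 301) (nat_lit 303)))) (PT.nd (nat_lit 156) (PT.nd (nat_lit 78) (PT.lf (nat_lit 5700) (nat_lit 6) (nat_lit 75) (nat_lit 5) (nat_lit 177) (nat_lit 301) (nat_lit 302)) (PT.lf (nat_lit 6004) (nat_lit 3) (nat_lit 79) (nat_lit 4) (nat_lit 178) (nat_lit 301) (nat_lit 301))) (PT.nd (nat_lit 78) (PT.lf (nat_lit 6232) (nat_lit 6) (nat_lit 82) (nat_lit 4) (nat_lit 179) (nat_lit 301) (nat_lit 300)) (PT.lf (nat_lit 6460) (nat_lit 6) (nat_lit 85) (nat_lit 4) (nat_lit 180) (nat_lit 301) (nat_lit 299))))) (PT.nd (nat_lit 312) (PT.nd (nat_lit 156) (PT.nd (nat_lit 78) (PT.lf (nat_lit 6688) (nat_lit 6) (nat_lit 88) (nat_lit 4) (nat_lit 181) (nat_lit 301) (nat_lit 298)) (PT.lf (nat_lit 6916) (nat_lit 6) (nat_lit 91) (nat_lit 4) (nat_lit 182) (nat_lit 301) (nat_lit 297))) (PT.nd (nat_lit 78) (PT.lf (nat_lit 7144) (nat_lit 6) (nat_lit 94) (nat_lit 4) (nat_lit 183) (nat_lit 301) (nat_lit 296)) (PT.lf (nat_lit 7372)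 (nat_lit 6) (nat_lit 97) (nat_lit 4) (nat_lit 184) (nat_lit 301) (nat_lit 295)))) (PT.nd (nat_lit 8580) (PT.nd (nat_lit 8502) (PT.lf (nat_lit 7676) (nat_lit 6) (nat_lit 101) (nat_lit 4) (nat_lit 185) (nat_lit 301) (nat_lit 294)) (PT.lf (nat_lit 7676) (nat_lit 6) (nat_lit 101) (nat_lit 2) (nat_lit 294) (nat_lit 301) (nat_lit 185))) (PT.nd (nat_lit 78) (PT.lf (nat_lit 7372) (nat_lit 6) (nat_lit 97) (nat_lit 2) (nat_lit 295) (nat_lit 301) (nat_lit 184)) (PT.nd (nat_lit 78) (PT.lf (nat_lit 7144) (nat_lit 6) (nat_lit 94) (nat_lit 2) (nat_lit 296) (nat_lit 301) (nat_lit 183)) (PT.lf (nat_lit 6916) (nat_lit 6) (nat_lit 91) (nat_lit 2) (nat_lit 297) (nat_lit 301) (nat_lit 182))))))) (PT.nd (nat_lit 71448) (PT.nd (nat_lit 312) (PT.nd (nat_lit 156) (PT.nd (nat_lit 78) (PT.lf (nat_lit 6688) (nat_lit 6) (nat_lit 88) (nat_lit 2) (nat_lit 298) (nat_lit 301) (nat_lit 181)) (PT.lf (nat_lit 6460) (nat_lit 6) (nat_lit 85) (nat_lit 2) (nat_lit 299) (nat_lit 301) (nat_lit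 180))) (PT.nd (nat_lit 78) (PT.lf (nat_lit 6232) (nat_lit 6) (nat_lit 82) (nat_lit 2) (nat_lit 300) (nat_lit 301) (nat_lit 179)) (PT.lf (nat_lit 6004) (nat_lit 3) (nat_lit 79) (nat_lit 0) (nat_lit 301) (nat_lit 301) (nat_lit 178)))) (PT.nd (nat_lit 156) (PT.nd (nat_lit 78) (PT.lf (nat_lit 5700) (nat_lit 6) (nat_lit 75) (nat_lit 0) (nat_lit 302) (nat_lit 301) (nat_lit 177)) (PT.lf (nat_lit 5396) (nat_lit 6) (nat_lit 71) (nat_lit 0) (nat_lit 303) (nat_lit 301) (nat_lit 176))) (PT.nd (nat_lit 78) (PT.lf (nat_lit 5168) (nat_lit 6) (nat_lit 68) (nat_lit 0) (nat_lit 304) (nat_lit 301) (nat_lit 175)) (PT.nd (nat_lit 70824) (PT.lf (nat_lit 4864) (nat_lit 6) (nat_lit 64) (nat_lit 0) (nat_lit 305) (nat_lit 301) (nat_lit 174)) (PT.lf (nat_lit 4408) (nat_lit 6) (nat_lit 58) (nat_lit 5) (nat_lit 172) (nat_lit 302) (nat_lit 306)))))) (PT.nd (nat_lit 312) (PT.nd (nat_lit 156) (PT.nd (nat_lit 78) (PT.lf (nat_lit 4712) (nat_lit 6) (nat_lit 62) (nat_lit 5) (nat_lit 173)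 (nat_lit 302) (nat_lit 305)) (PT.lf (nat_lit 4940) (nat_lit 6) (nat_lit 65) (nat_lit 5) (nat_lit 174) (nat_lit 302) (nat_lit 304))) (PT.nd (nat_lit 78) (PT.lf (nat_lit 5244) (nat_lit 6) (nat_lit 69) (nat_lit 5) (nat_lit 175) (nat_lit 302) (nat_lit 303)) (PT.lf (nat_lit 5472) (nat_lit 3) (nat_lit 72) (nat_lit 4) (nat_lit 176) (nat_lit 302) (nat_lit 302)))) (PT.nd (nat_lit 156) (PT.nd (nat_lit 78) (PT.lf (nat_lit 5700) (nat_lit 6) (nat_lit 75) (nat_lit 4) (nat_lit 177) (nat_lit 302) (nat_lit 301)) (PT.lf (nat_lit 5928) (nat_lit 6) (nat_lit 78) (nat_lit 4) (nat_lit 178) (nat_lit 302) (nat_lit 300))) (PT.nd (nat_lit 78) (PT.lf (nat_lit 6156) (nat_lit 6) (nat_lit 81) (nat_lit 4) (nat_lit 179) (nat_lit 302) (nat_lit 299)) (PT.nd (nat_lit 78) (PT.lf (nat_lit 6384) (nat_lit 6) (nat_lit 84) (nat_lit 4) (nat_lit 180) (nat_lit 302) (nat_lit 298)) (PT.lf (nat_lit 6612) (nat_lit 6) (nat_lit 87) (nat_lit 4) (nat_lit 181) (nat_lit 302) (nat_lit 297))))))))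
noncomputable def pc122 : PT := (PT.nd (nat_lit 80652) (PT.nd (nat_lit 9438) (PT.nd (nat_lit 9126) (PT.nd (nat_lit 8970) (PT.nd (nat_lit 8892) (PT.lf (nat_lit 6840) (nat_lit 6) (nat_lit 90) (nat_lit 4) (nat_lit 182) (nat_lit 302) (nat_lit 296)) (PT.lf (nat_lit 6840) (nat_lit 6) (nat_lit 90) (nat_lit 2) (nat_lit 296) (nat_lit 302) (nat_lit 182))) (PT.nd (nat_lit 78) (PT.lf (nat_lit 6612) (nat_lit 6) (nat_lit 87) (nat_lit 2) (nat_lit 297) (nat_lit 302) (nat_lit 181)) (PT.lf (nat_lit 6384) (nat_lit 6) (nat_lit 84) (nat_lit 2) (nat_lit 298) (nat_lit 302) (nat_lit 180)))) (PT.nd (nat_lit 156) (PT.nd (nat_lit 78) (PT.lf (nat_lit 6156) (nat_lit 6) (nat_lit 81) (nat_lit 2) (nat_lit 299) (nat_lit 302) (nat_lit 179)) (PT.lf (nat_lit 5928) (nat_lit 6) (nat_lit 78) (nat_lit 2) (nat_lit 300) (nat_lit 302) (nat_lit 178))) (PT.nd (nat_lit 78) (PT.lf (nat_lit 5700) (nat_lit 6) (nat_lit 75) (nat_lit 2) (nat_lit 301) (nat_lit 302) (nat_lit 177)) (PT.lf (nat_lit 5472) (nat_lit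 3) (nat_lit 72) (nat_lit 0) (nat_lit 302) (nat_lit 302) (nat_lit 176))))) (PT.nd (nat_lit 70824) (PT.nd (nat_lit 156) (PT.nd (nat_lit 78) (PT.lf (nat_lit 5244) (nat_lit 6) (nat_lit 69) (nat_lit 0) (nat_lit 303) (nat_lit 302) (nat_lit 175)) (PT.lf (nat_lit 4940) (nat_lit 6) (nat_lit 65) (nat_lit 0) (nat_lit 304) (nat_lit 302) (nat_lit 174))) (PT.nd (nat_lit 78) (PT.lf (nat_lit 4712) (nat_lit 6) (nat_lit 62) (nat_lit 0) (nat_lit 305) (nat_lit 302) (nat_lit 173)) (PT.lf (nat_lit 4408) (nat_lit 6) (nat_lit 58) (nat_lit 0) (nat_lit 306) (nat_lit 302) (nat_lit 172)))) (PT.nd (nat_lit 156) (PT.nd (nat_lit 78) (PT.lf (nat_lit 3952) (nat_lit 6) (nat_lit 52) (nat_lit 5) (nat_lit 170) (nat_lit 303) (nat_lit 307)) (PT.lf (nat_lit 4256) (nat_lit 6) (nat_lit 56) (nat_lit 5) (nat_lit 171) (nat_lit 303) (nat_lit 306))) (PT.nd (nat_lit 78) (PT.lf (nat_lit 4484) (nat_lit 6) (nat_lit 59) (nat_lit 5) (nat_lit 172) (nat_lit 303) (nat_lit 305)) (PT.nd (nat_lit 78) (PT.lf (nat_lit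 4788) (nat_lit 6) (nat_lit 63) (nat_lit 5) (nat_lit 173) (nat_lit 303) (nat_lit 304)) (PT.lf (nat_lit 5016) (nat_lit 3) (nat_lit 66) (nat_lit 4) (nat_lit 174) (nat_lit 303) (nat_lit 303))))))) (PT.nd (nat_lit 9750) (PT.nd (nat_lit 312) (PT.nd (nat_lit 156) (PT.nd (nat_lit 78) (PT.lf (nat_lit 5244) (nat_lit 6) (nat_lit 69) (nat_lit 4) (nat_lit 175) (nat_lit 303) (nat_lit 302)) (PT.lf (nat_lit 5396) (nat_lit 6) (nat_lit 71) (nat_lit 4) (nat_lit 176) (nat_lit 303) (nat_lit 301))) (PT.nd (nat_lit 78) (PT.lf (nat_lit 5624) (nat_lit 6) (nat_lit 74) (nat_lit 4) (nat_lit 177) (nat_lit 303) (nat_lit 300)) (PT.lf (nat_lit 5852) (nat_lit 6) (nat_lit 77) (nat_lit 4) (nat_lit 178) (nat_lit 303) (nat_lit 299)))) (PT.nd (nat_lit 9204) (PT.nd (nat_lit 78) (PT.lf (nat_lit 6080) (nat_lit 6) (nat_lit 80) (nat_lit 4) (nat_lit 179) (nat_lit 303) (nat_lit 298)) (PT.lf (nat_lit 6308) (nat_lit 6) (nat_lit 83) (nat_lit 4) (nat_lit 180) (nat_lit 303) (nat_lit 297))) (PT.nd (nat_lit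 78) (PT.lf (nat_lit 6308) (nat_lit 6) (nat_lit 83) (nat_lit 2) (nat_lit 297) (nat_lit 303) (nat_lit 180)) (PT.nd (nat_lit 78) (PT.lf (nat_lit 6080) (nat_lit 6) (nat_lit 80) (nat_lit 2) (nat_lit 298) (nat_lit 303) (nat_lit 179)) (PT.lf (nat_lit 5852) (nat_lit 6) (nat_lit 77) (nat_lit 2) (nat_lit 299) (nat_lit 303) (nat_lit 178)))))) (PT.nd (nat_lit 312) (PT.nd (nat_lit 156) (PT.nd (nat_lit 78) (PT.lf (nat_lit 5624) (nat_lit 6) (nat_lit 74) (nat_lit 2) (nat_lit 300) (nat_lit 303) (nat_lit 177)) (PT.lf (nat_lit 5396) (nat_lit 6) (nat_lit 71) (nat_lit 2) (nat_lit 301) (nat_lit 303) (nat_lit 176))) (PT.nd (nat_lit 78) (PT.lf (nat_lit 5244) (nat_lit 6) (nat_lit 69) (nat_lit 2) (nat_lit 302) (nat_lit 303) (nat_lit 175)) (PT.lf (nat_lit 5016) (nat_lit 3) (nat_lit 66) (nat_lit 0) (nat_lit 303) (nat_lit 303) (nat_lit 174)))) (PT.nd (nat_lit 156) (PT.nd (nat_lit 78) (PT.lf (nat_lit 4788) (nat_lit 6) (nat_lit 63) (nat_lit 0) (nat_lit 304) (nat_lit 303) (nat_lit 173))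 (PT.lf (nat_lit 4484) (nat_lit 6) (nat_lit 59) (nat_lit 0) (nat_lit 305) (nat_lit 303) (nat_lit 172))) (PT.nd (nat_lit 78) (PT.lf (nat_lit 4256) (nat_lit 6) (nat_lit 56) (nat_lit 0) (nat_lit 306) (nat_lit 303) (nat_lit 171)) (PT.nd (nat_lit 70356) (PT.lf (nat_lit 3952) (nat_lit 6) (nat_lit 52) (nat_lit 0) (nat_lit 307) (nat_lit 303) (nat_lit 170)) (PT.lf (nat_lit 3572) (nat_lit 6) (nat_lit 47) (nat_lit 5) (nat_lit 168) (nat_lit 304) (nat_lit 308))))))))
noncomputable def pc123 : PT := (PT.nd (nat_lit 10608) (PT.nd (nat_lit 624) (PT.nd (nat_lit 312) (PT.nd (nat_lit 156) (PT.nd (nat_lit 78) (PT.lf (nat_lit 3800) (nat_lit 6) (nat_lit 50) (nat_lit 5) (nat_lit 169) (nat_lit 304) (nat_lit 307)) (PT.lf (nat_lit 4028) (nat_lit 6) (nat_lit 53) (nat_lit 5) (nat_lit 170) (nat_lit 304) (nat_lit 306))) (PT.nd (nat_lit 78) (PT.lf (nat_lit 4332) (nat_lit 6) (nat_lit 57) (nat_lit 5) (nat_lit 171) (nat_lit 304) (nat_lit 305)) (PT.lf (nat_lit 4560) (nat_lit 3) (nat_lit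 60) (nat_lit 4) (nat_lit 172) (nat_lit 304) (nat_lit 304)))) (PT.nd (nat_lit 156) (PT.nd (nat_lit 78) (PT.lf (nat_lit 4788) (nat_lit 6) (nat_lit 63) (nat_lit 4) (nat_lit 173) (nat_lit 304) (nat_lit 303)) (PT.lf (nat_lit 4940) (nat_lit 6) (nat_lit 65) (nat_lit 4) (nat_lit 174) (nat_lit 304) (nat_lit 302))) (PT.nd (nat_lit 78) (PT.lf (nat_lit 5168) (nat_lit 6) (nat_lit 68) (nat_lit 4) (nat_lit 175) (nat_lit 304) (nat_lit 301)) (PT.lf (nat_lit 5320) (nat_lit 6) (nat_lit 70) (nat_lit 4) (nat_lit 176) (nat_lit 304) (nat_lit 300))))) (PT.nd (nat_lit 9594) (PT.nd (nat_lit 9438) (PT.nd (nat_lit 78) (PT.lf (nat_lit 5548) (nat_lit 6) (nat_lit 73) (nat_lit 4) (nat_lit 177) (nat_lit 304) (nat_lit 299)) (PT.lf (nat_lit 5776) (nat_lit 6) (nat_lit 76) (nat_lit 4) (nat_lit 178) (nat_lit 304) (nat_lit 298))) (PT.nd (nat_lit 78) (PT.lf (nat_lit 5776) (nat_lit 6) (nat_lit 76) (nat_lit 2) (nat_lit 298) (nat_lit 304) (nat_lit 178)) (PT.lf (nat_lit 5548) (nat_lit 6) (nat_lit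 73) (nat_lit 2) (nat_lit 299) (nat_lit 304) (nat_lit 177)))) (PT.nd (nat_lit 156) (PT.nd (nat_lit 78) (PT.lf (nat_lit 5320) (nat_lit 6) (nat_lit 70) (nat_lit 2) (nat_lit 300) (nat_lit 304) (nat_lit 176)) (PT.lf (nat_lit 5168) (nat_lit 6) (nat_lit 68) (nat_lit 2) (nat_lit 301) (nat_lit 304) (nat_lit 175))) (PT.nd (nat_lit 78) (PT.lf (nat_lit 4940) (nat_lit 6) (nat_lit 65) (nat_lit 2) (nat_lit 302) (nat_lit 304) (nat_lit 174)) (PT.nd (nat_lit 78) (PT.lf (nat_lit 4788) (nat_lit 6) (nat_lit 63) (nat_lit 2) (nat_lit 303) (nat_lit 304) (nat_lit 173)) (PT.lf (nat_lit 4560) (nat_lit 3) (nat_lit 60) (nat_lit 0) (nat_lit 304) (nat_lit 304) (nat_lit 172))))))) (PT.nd (nat_lit 70746) (PT.nd (nat_lit 70356) (PT.nd (nat_lit 156) (PT.nd (nat_lit 78) (PT.lf (nat_lit 4332) (nat_lit 6) (nat_lit 57) (nat_lit 0) (nat_lit 305) (nat_lit 304) (nat_lit 171)) (PT.lf (nat_lit 4028) (nat_lit 6) (nat_lit 53) (nat_lit 0) (nat_lit 306) (nat_lit 304) (nat_lit 170))) (PT.nd (nat_lit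 78) (PT.lf (nat_lit 3800) (nat_lit 6) (nat_lit 50) (nat_lit 0) (nat_lit 307) (nat_lit 304) (nat_lit 169)) (PT.lf (nat_lit 3572) (nat_lit 6) (nat_lit 47) (nat_lit 0) (nat_lit 308) (nat_lit 304) (nat_lit 168)))) (PT.nd (nat_lit 156) (PT.nd (nat_lit 78) (PT.lf (nat_lit 3192) (nat_lit 6) (nat_lit 42) (nat_lit 5) (nat_lit 166) (nat_lit 305) (nat_lit 309)) (PT.lf (nat_lit 3420) (nat_lit 6) (nat_lit 45) (nat_lit 5) (nat_lit 167) (nat_lit 305) (nat_lit 308))) (PT.nd (nat_lit 78) (PT.lf (nat_lit 3648) (nat_lit 6) (nat_lit 48) (nat_lit 5) (nat_lit 168) (nat_lit 305) (nat_lit 307)) (PT.nd (nat_lit 78) (PT.lf (nat_lit 3876) (nat_lit 6) (nat_lit 51) (nat_lit 5) (nat_lit 169) (nat_lit 305) (nat_lit 306)) (PT.lf (nat_lit 4104) (nat_lit 3) (nat_lit 54) (nat_lit 4) (nat_lit 170) (nat_lit 305) (nat_lit 305)))))) (PT.nd (nat_lit 312) (PT.nd (nat_lit 156) (PT.nd (nat_lit 78) (PT.lf (nat_lit 4332) (nat_lit 6) (nat_lit 57) (nat_lit 4) (nat_lit 171) (nat_lit 305) (nat_lit 304))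 (PT.lf (nat_lit 4484) (nat_lit 6) (nat_lit 59) (nat_lit 4) (nat_lit 172) (nat_lit 305) (nat_lit 303))) (PT.nd (nat_lit 78) (PT.lf (nat_lit 4712) (nat_lit 6) (nat_lit 62) (nat_lit 4) (nat_lit 173) (nat_lit 305) (nat_lit 302)) (PT.lf (nat_lit 4864) (nat_lit 6) (nat_lit 64) (nat_lit 4) (nat_lit 174) (nat_lit 305) (nat_lit 301)))) (PT.nd (nat_lit 9828) (PT.nd (nat_lit 9750) (PT.lf (nat_lit 5092) (nat_lit 6) (nat_lit 67) (nat_lit 4) (nat_lit 175) (nat_lit 305) (nat_lit 300)) (PT.lf (nat_lit 5092) (nat_lit 6) (nat_lit 67) (nat_lit 2) (nat_lit 300) (nat_lit 305) (nat_lit 175))) (PT.nd (nat_lit 78) (PT.lf (nat_lit 4864) (nat_lit 6) (nat_lit 64) (nat_lit 2) (nat_lit 301) (nat_lit 305) (nat_lit 174)) (PT.nd (nat_lit 78) (PT.lf (nat_lit 4712) (nat_lit 6) (nat_lit 62) (nat_lit 2) (nat_lit 302) (nat_lit 305) (nat_lit 173)) (PT.lf (nat_lit 4484) (nat_lit 6) (nat_lit 59) (nat_lit 2) (nat_lit 303) (nat_lit 305) (nat_lit 172))))))))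
noncomputable def pc124 : PT := (PT.nd (nat_lit 81276) (PT.nd (nat_lit 70512) (PT.nd (nat_lit 312) (PT.nd (nat_lit 156) (PT.nd (nat_lit 78) (PT.lf (nat_lit 4332) (nat_lit 6) (nat_lit 57) (nat_lit 2) (nat_lit 304) (nat_lit 305) (nat_lit 171)) (PT.lf (nat_lit 4104) (nat_lit 3) (nat_lit 54) (nat_lit 0) (nat_lit 305) (nat_lit 305) (nat_lit 170))) (PT.nd (nat_lit 78) (PT.lf (nat_lit 3876) (nat_lit 6) (nat_lit 51) (nat_lit 0) (nat_lit 306) (nat_lit 305) (nat_lit 169)) (PT.lf (nat_lit 3648) (nat_lit 6) (nat_lit 48) (nat_lit 0) (nat_lit 307) (nat_lit 305) (nat_lit 168)))) (PT.nd (nat_lit 70044) (PT.nd (nat_lit 78) (PT.lf (nat_lit 3420) (nat_lit 6) (nat_lit 45) (nat_lit 0) (nat_lit 308) (nat_lit 305) (nat_lit 167)) (PT.lf (nat_lit 3192) (nat_lit 6) (nat_lit 42) (nat_lit 0) (nat_lit 309) (nat_lit 305) (nat_lit 166))) (PT.nd (nat_lit 78) (PT.lf (nat_lit 3040) (nat_lit 6) (nat_lit 40) (nat_lit 5) (nat_lit 165) (nat_lit 306) (nat_lit 309)) (PT.lf (nat_lit 3268) (nat_lit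 6) (nat_lit 43) (nat_lit 5) (nat_lit 166) (nat_lit 306) (nat_lit 308))))) (PT.nd (nat_lit 312) (PT.nd (nat_lit 156) (PT.nd (nat_lit 78) (PT.lf (nat_lit 3496) (nat_lit 6) (nat_lit 46) (nat_lit 5) (nat_lit 167) (nat_lit 306) (nat_lit 307)) (PT.lf (nat_lit 3724) (nat_lit 3) (nat_lit 49) (nat_lit 4) (nat_lit 168) (nat_lit 306) (nat_lit 306))) (PT.nd (nat_lit 78) (PT.lf (nat_lit 3876) (nat_lit 6) (nat_lit 51) (nat_lit 4) (nat_lit 169) (nat_lit 306) (nat_lit 305)) (PT.lf (nat_lit 4028) (nat_lit 6) (nat_lit 53) (nat_lit 4) (nat_lit 170) (nat_lit 306) (nat_lit 304)))) (PT.nd (nat_lit 10218) (PT.nd (nat_lit 78) (PT.lf (nat_lit 4256) (nat_lit 6) (nat_lit 56) (nat_lit 4) (nat_lit 171) (nat_lit 306) (nat_lit 303)) (PT.lf (nat_lit 4408) (nat_lit 6) (nat_lit 58) (nat_lit 4) (nat_lit 172) (nat_lit 306) (nat_lit 302))) (PT.nd (nat_lit 78) (PT.lf (nat_lit 4408) (nat_lit 6) (nat_lit 58) (nat_lit 2) (nat_lit 302) (nat_lit 306) (nat_lit 172)) (PT.nd (nat_lit 78) (PT.lf (nat_lit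 4256) (nat_lit 6) (nat_lit 56) (nat_lit 2) (nat_lit 303) (nat_lit 306) (nat_lit 171)) (PT.lf (nat_lit 4028) (nat_lit 6) (nat_lit 53) (nat_lit 2) (nat_lit 304) (nat_lit 306) (nat_lit 170))))))) (PT.nd (nat_lit 70434) (PT.nd (nat_lit 312) (PT.nd (nat_lit 156) (PT.nd (nat_lit 78) (PT.lf (nat_lit 3876) (nat_lit 6) (nat_lit 51) (nat_lit 2) (nat_lit 305) (nat_lit 306) (nat_lit 169)) (PT.lf (nat_lit 3724) (nat_lit 3) (nat_lit 49) (nat_lit 0) (nat_lit 306) (nat_lit 306) (nat_lit 168))) (PT.nd (nat_lit 78) (PT.lf (nat_lit 3496) (nat_lit 6) (nat_lit 46) (nat_lit 0) (nat_lit 307) (nat_lit 306) (nat_lit 167)) (PT.lf (nat_lit 3268) (nat_lit 6) (nat_lit 43) (nat_lit 0) (nat_lit 308) (nat_lit 306) (nat_lit 166)))) (PT.nd (nat_lit 69888) (PT.nd (nat_lit 69810) (PT.lf (nat_lit 3040) (nat_lit 6) (nat_lit 40) (nat_lit 0) (nat_lit 309) (nat_lit 306) (nat_lit 165)) (PT.lf (nat_lit 2660) (nat_lit 6) (nat_lit 35) (nat_lit 5) (nat_lit 163) (nat_lit 307) (nat_lit 310))) (PT.nd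 (nat_lit 78) (PT.lf (nat_lit 2888) (nat_lit 6) (nat_lit 38) (nat_lit 5) (nat_lit 164) (nat_lit 307) (nat_lit 309)) (PT.nd (nat_lit 78) (PT.lf (nat_lit 3116) (nat_lit 6) (nat_lit 41) (nat_lit 5) (nat_lit 165) (nat_lit 307) (nat_lit 308)) (PT.lf (nat_lit 3344) (nat_lit 3) (nat_lit 44) (nat_lit 4) (nat_lit 166) (nat_lit 307) (nat_lit 307)))))) (PT.nd (nat_lit 10608) (PT.nd (nat_lit 156) (PT.nd (nat_lit 78) (PT.lf (nat_lit 3496) (nat_lit 6) (nat_lit 46) (nat_lit 4) (nat_lit 167) (nat_lit 307) (nat_lit 306)) (PT.lf (nat_lit 3648) (nat_lit 6) (nat_lit 48) (nat_lit 4) (nat_lit 168) (nat_lit 307) (nat_lit 305))) (PT.nd (nat_lit 78) (PT.lf (nat_lit 3800) (nat_lit 6) (nat_lit 50) (nat_lit 4) (nat_lit 169) (nat_lit 307) (nat_lit 304)) (PT.lf (nat_lit 3952) (nat_lit 6) (nat_lit 52) (nat_lit 4) (nat_lit 170) (nat_lit 307) (nat_lit 303)))) (PT.nd (nat_lit 156) (PT.nd (nat_lit 78) (PT.lf (nat_lit 3952) (nat_lit 6) (nat_lit 52) (nat_lit 2) (nat_lit 303) (nat_lit 307)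 (nat_lit 170)) (PT.lf (nat_lit 3800) (nat_lit 6) (nat_lit 50) (nat_lit 2) (nat_lit 304) (nat_lit 307) (nat_lit 169))) (PT.nd (nat_lit 78) (PT.lf (nat_lit 3648) (nat_lit 6) (nat_lit 48) (nat_lit 2) (nat_lit 305) (nat_lit 307) (nat_lit 168)) (PT.nd (nat_lit 78) (PT.lf (nat_lit 3496) (nat_lit 6) (nat_lit 46) (nat_lit 2) (nat_lit 306) (nat_lit 307) (nat_lit 167)) (PT.lf (nat_lit 3344) (nat_lit 3) (nat_lit 44) (nat_lit 0) (nat_lit 307) (nat_lit 307) (nat_lit 166))))))))
noncomputable def pc125 : PT := (PT.nd (nat_lit 81354) (PT.nd (nat_lit 70122) (PT.nd (nat_lit 69810) (PT.nd (nat_lit 156) (PT.nd (nat_lit 78) (PT.lf (nat_lit 3116) (nat_lit 6) (nat_lit 41) (nat_lit 0) (nat_lit 308) (nat_lit 307) (nat_lit 165)) (PT.lf (nat_lit 2888) (nat_lit 6) (nat_lit 38) (nat_lit 0) (nat_lit 309) (nat_lit 307) (nat_lit 164))) (PT.nd (nat_lit 69576) (PT.lf (nat_lit 2660) (nat_lit 6) (nat_lit 35) (nat_lit 0) (nat_lit 310) (nat_lit 307) (nat_lit 163)) (PT.lf (nat_lit 2356) (nat_lit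 6) (nat_lit 31) (nat_lit 5) (nat_lit 161) (nat_lit 308) (nat_lit 311)))) (PT.nd (nat_lit 156) (PT.nd (nat_lit 78) (PT.lf (nat_lit 2508) (nat_lit 6) (nat_lit 33) (nat_lit 5) (nat_lit 162) (nat_lit 308) (nat_lit 310)) (PT.lf (nat_lit 2736) (nat_lit 6) (nat_lit 36) (nat_lit 5) (nat_lit 163) (nat_lit 308) (nat_lit 309))) (PT.nd (nat_lit 78) (PT.lf (nat_lit 2964) (nat_lit 3) (nat_lit 39) (nat_lit 4) (nat_lit 164) (nat_lit 308) (nat_lit 308)) (PT.lf (nat_lit 3116) (nat_lit 6) (nat_lit 41) (nat_lit 4) (nat_lit 165) (nat_lit 308) (nat_lit 307))))) (PT.nd (nat_lit 10842) (PT.nd (nat_lit 156) (PT.nd (nat_lit 78) (PT.lf (nat_lit 3268) (nat_lit 6) (nat_lit 43) (nat_lit 4) (nat_lit 166) (nat_lit 308) (nat_lit 306)) (PT.lf (nat_lit 3420) (nat_lit 6) (nat_lit 45) (nat_lit 4) (nat_lit 167) (nat_lit 308) (nat_lit 305))) (PT.nd (nat_lit 10608) (PT.lf (nat_lit 3572) (nat_lit 6) (nat_lit 47) (nat_lit 4) (nat_lit 168) (nat_lit 308) (nat_lit 304)) (PT.lf (nat_lit 3572) (nat_lit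 6) (nat_lit 47) (nat_lit 2) (nat_lit 304) (nat_lit 308) (nat_lit 168)))) (PT.nd (nat_lit 156) (PT.nd (nat_lit 78) (PT.lf (nat_lit 3420) (nat_lit 6) (nat_lit 45) (nat_lit 2) (nat_lit 305) (nat_lit 308) (nat_lit 167)) (PT.lf (nat_lit 3268) (nat_lit 6) (nat_lit 43) (nat_lit 2) (nat_lit 306) (nat_lit 308) (nat_lit 166))) (PT.nd (nat_lit 78) (PT.lf (nat_lit 3116) (nat_lit 6) (nat_lit 41) (nat_lit 2) (nat_lit 307) (nat_lit 308) (nat_lit 165)) (PT.nd (nat_lit 78) (PT.lf (nat_lit 2964) (nat_lit 3) (nat_lit 39) (nat_lit 0) (nat_lit 308) (nat_lit 308) (nat_lit 164)) (PT.lf (nat_lit 2736) (nat_lit 6) (nat_lit 36) (nat_lit 0) (nat_lit 309) (nat_lit 308) (nat_lit 163))))))) (PT.nd (nat_lit 69966) (PT.nd (nat_lit 69576) (PT.nd (nat_lit 69420) (PT.nd (nat_lit 78) (PT.lf (nat_lit 2508) (nat_lit 6) (nat_lit 33) (nat_lit 0) (nat_lit 310) (nat_lit 308) (nat_lit 162)) (PT.lf (nat_lit 2356) (nat_lit 6) (nat_lit 31) (nat_lit 0) (nat_lit 311) (nat_lit 308) (nat_lit 161))) (PT.nd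 (nat_lit 78) (PT.lf (nat_lit 2052) (nat_lit 6) (nat_lit 27) (nat_lit 5) (nat_lit 159) (nat_lit 309) (nat_lit 312)) (PT.lf (nat_lit 2204) (nat_lit 6) (nat_lit 29) (nat_lit 5) (nat_lit 160) (nat_lit 309) (nat_lit 311)))) (PT.nd (nat_lit 156) (PT.nd (nat_lit 78) (PT.lf (nat_lit 2432) (nat_lit 6) (nat_lit 32) (nat_lit 5) (nat_lit 161) (nat_lit 309) (nat_lit 310)) (PT.lf (nat_lit 2584) (nat_lit 3) (nat_lit 34) (nat_lit 4) (nat_lit 162) (nat_lit 309) (nat_lit 309))) (PT.nd (nat_lit 78) (PT.lf (nat_lit 2736) (nat_lit 6) (nat_lit 36) (nat_lit 4) (nat_lit 163) (nat_lit 309) (nat_lit 308)) (PT.nd (nat_lit 78) (PT.lf (nat_lit 2888) (nat_lit 6) (nat_lit 38) (nat_lit 4) (nat_lit 164) (nat_lit 309) (nat_lit 307)) (PT.lf (nat_lit 3040) (nat_lit 6) (nat_lit 40) (nat_lit 4) (nat_lit 165) (nat_lit 309) (nat_lit 306)))))) (PT.nd (nat_lit 11076) (PT.nd (nat_lit 10920) (PT.nd (nat_lit 10842) (PT.lf (nat_lit 3192) (nat_lit 6) (nat_lit 42) (nat_lit 4) (nat_lit 166) (nat_lit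 309) (nat_lit 305)) (PT.lf (nat_lit 3192) (nat_lit 6) (nat_lit 42) (nat_lit 2) (nat_lit 305) (nat_lit 309) (nat_lit 166))) (PT.nd (nat_lit 78) (PT.lf (nat_lit 3040) (nat_lit 6) (nat_lit 40) (nat_lit 2) (nat_lit 306) (nat_lit 309) (nat_lit 165)) (PT.lf (nat_lit 2888) (nat_lit 6) (nat_lit 38) (nat_lit 2) (nat_lit 307) (nat_lit 309) (nat_lit 164)))) (PT.nd (nat_lit 156) (PT.nd (nat_lit 78) (PT.lf (nat_lit 2736) (nat_lit 6) (nat_lit 36) (nat_lit 2) (nat_lit 308) (nat_lit 309) (nat_lit 163)) (PT.lf (nat_lit 2584) (nat_lit 3) (nat_lit 34) (nat_lit 0) (nat_lit 309) (nat_lit 309) (nat_lit 162))) (PT.nd (nat_lit 78) (PT.lf (nat_lit 2432) (nat_lit 6) (nat_lit 32) (nat_lit 0) (nat_lit 310) (nat_lit 309) (nat_lit 161)) (PT.nd (nat_lit 78) (PT.lf (nat_lit 2204) (nat_lit 6) (nat_lit 29) (nat_lit 0) (nat_lit 311) (nat_lit 309) (nat_lit 160)) (PT.lf (nat_lit 2052) (nat_lit 6) (nat_lit 27) (nat_lit 0) (nat_lit 312) (nat_lit 309) (nat_lit 159))))))))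
noncomputable def pc126 : PT := (PT.nd (nat_lit 81354) (PT.nd (nat_lit 11778) (PT.nd (nat_lit 312) (PT.nd (nat_lit 156) (PT.nd (nat_lit 78) (PT.lf (nat_lit 1748) (nat_lit 6) (nat_lit 23) (nat_lit 5) (nat_lit 157) (nat_lit 310) (nat_lit 313)) (PT.lf (nat_lit 1900) (nat_lit 6) (nat_lit 25) (nat_lit 5) (nat_lit 158) (nat_lit 310) (nat_lit 312))) (PT.nd (nat_lit 78) (PT.lf (nat_lit 2128) (nat_lit 6) (nat_lit 28) (nat_lit 5) (nat_lit 159) (nat_lit 310) (nat_lit 311)) (PT.lf (nat_lit 2280) (nat_lit 3) (nat_lit 30) (nat_lit 4) (nat_lit 160) (nat_lit 310) (nat_lit 310)))) (PT.nd (nat_lit 156) (PT.nd (nat_lit 78) (PT.lf (nat_lit 2432) (nat_lit 6) (nat_lit 32) (nat_lit 4) (nat_lit 161) (nat_lit 310) (nat_lit 309)) (PT.lf (nat_lit 2508) (nat_lit 6) (nat_lit 33) (nat_lit 4) (nat_lit 162) (nat_lit 310) (nat_lit 308))) (PT.nd (nat_lit 11232) (PT.lf (nat_lit 2660) (nat_lit 6) (nat_lit 35) (nat_lit 4) (nat_lit 163) (nat_lit 310) (nat_lit 307)) (PT.lf (nat_lit 2660) (nat_lit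 6) (nat_lit 35) (nat_lit 2) (nat_lit 307) (nat_lit 310) (nat_lit 163))))) (PT.nd (nat_lit 312) (PT.nd (nat_lit 156) (PT.nd (nat_lit 78) (PT.lf (nat_lit 2508) (nat_lit 6) (nat_lit 33) (nat_lit 2) (nat_lit 308) (nat_lit 310) (nat_lit 162)) (PT.lf (nat_lit 2432) (nat_lit 6) (nat_lit 32) (nat_lit 2) (nat_lit 309) (nat_lit 310) (nat_lit 161))) (PT.nd (nat_lit 78) (PT.lf (nat_lit 2280) (nat_lit 3) (nat_lit 30) (nat_lit 0) (nat_lit 310) (nat_lit 310) (nat_lit 160)) (PT.lf (nat_lit 2128) (nat_lit 6) (nat_lit 28) (nat_lit 0) (nat_lit 311) (nat_lit 310) (nat_lit 159)))) (PT.nd (nat_lit 69030) (PT.nd (nat_lit 78) (PT.lf (nat_lit 1900) (nat_lit 6) (nat_lit 25) (nat_lit 0) (nat_lit 312) (nat_lit 310) (nat_lit 158)) (PT.lf (nat_lit 1748) (nat_lit 6) (nat_lit 23) (nat_lit 0) (nat_lit 313) (nat_lit 310) (nat_lit 157))) (PT.nd (nat_lit 78) (PT.lf (nat_lit 1596) (nat_lit 6) (nat_lit 21) (nat_lit 5) (nat_lit 156) (nat_lit 311) (nat_lit 313)) (PT.nd (nat_lit 78) (PT.lf (nat_lit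 1824) (nat_lit 6) (nat_lit 24) (nat_lit 5) (nat_lit 157) (nat_lit 311) (nat_lit 312)) (PT.lf (nat_lit 1976) (nat_lit 3) (nat_lit 26) (nat_lit 4) (nat_lit 158) (nat_lit 311) (nat_lit 311))))))) (PT.nd (nat_lit 80808) (PT.nd (nat_lit 11700) (PT.nd (nat_lit 156) (PT.nd (nat_lit 78) (PT.lf (nat_lit 2128) (nat_lit 6) (nat_lit 28) (nat_lit 4) (nat_lit 159) (nat_lit 311) (nat_lit 310)) (PT.lf (nat_lit 2204) (nat_lit 6) (nat_lit 29) (nat_lit 4) (nat_lit 160) (nat_lit 311) (nat_lit 309))) (PT.nd (nat_lit 11466) (PT.lf (nat_lit 2356) (nat_lit 6) (nat_lit 31) (nat_lit 4) (nat_lit 161) (nat_lit 311) (nat_lit 308)) (PT.lf (nat_lit 2356) (nat_lit 6) (nat_lit 31) (nat_lit 2) (nat_lit 308) (nat_lit 311) (nat_lit 161)))) (PT.nd (nat_lit 156) (PT.nd (nat_lit 78) (PT.lf (nat_lit 2204) (nat_lit 6) (nat_lit 29) (nat_lit 2) (nat_lit 309) (nat_lit 311) (nat_lit 160)) (PT.lf (nat_lit 2128) (nat_lit 6) (nat_lit 28) (nat_lit 2) (nat_lit 310) (nat_lit 311) (nat_lit 159))) (PT.nd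 (nat_lit 78) (PT.lf (nat_lit 1976) (nat_lit 3) (nat_lit 26) (nat_lit 0) (nat_lit 311) (nat_lit 311) (nat_lit 158)) (PT.nd (nat_lit 78) (PT.lf (nat_lit 1824) (nat_lit 6) (nat_lit 24) (nat_lit 0) (nat_lit 312) (nat_lit 311) (nat_lit 157)) (PT.lf (nat_lit 1596) (nat_lit 6) (nat_lit 21) (nat_lit 0) (nat_lit 313) (nat_lit 311) (nat_lit 156)))))) (PT.nd (nat_lit 312) (PT.nd (nat_lit 156) (PT.nd (nat_lit 78) (PT.lf (nat_lit 1292) (nat_lit 6) (nat_lit 17) (nat_lit 5) (nat_lit 154) (nat_lit 312) (nat_lit 314)) (PT.lf (nat_lit 1520) (nat_lit 6) (nat_lit 20) (nat_lit 5) (nat_lit 155) (nat_lit 312) (nat_lit 313))) (PT.nd (nat_lit 78) (PT.lf (nat_lit 1672) (nat_lit 3) (nat_lit 22) (nat_lit 4) (nat_lit 156) (nat_lit 312) (nat_lit 312)) (PT.lf (nat_lit 1824) (nat_lit 6) (nat_lit 24) (nat_lit 4) (nat_lit 157) (nat_lit 312) (nat_lit 311)))) (PT.nd (nat_lit 11778) (PT.nd (nat_lit 78) (PT.lf (nat_lit 1900) (nat_lit 6) (nat_lit 25) (nat_lit 4) (nat_lit 158) (nat_lit 312)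 (nat_lit 310)) (PT.lf (nat_lit 2052) (nat_lit 6) (nat_lit 27) (nat_lit 4) (nat_lit 159) (nat_lit 312) (nat_lit 309))) (PT.nd (nat_lit 78) (PT.lf (nat_lit 2052) (nat_lit 6) (nat_lit 27) (nat_lit 2) (nat_lit 309) (nat_lit 312) (nat_lit 159)) (PT.nd (nat_lit 78) (PT.lf (nat_lit 1900) (nat_lit 6) (nat_lit 25) (nat_lit 2) (nat_lit 310) (nat_lit 312) (nat_lit 158)) (PT.lf (nat_lit 1824) (nat_lit 6) (nat_lit 24) (nat_lit 2) (nat_lit 311) (nat_lit 312) (nat_lit 157))))))))
noncomputable def pc127 : PT := (PT.nd (nat_lit 149994) (PT.nd (nat_lit 69108) (PT.nd (nat_lit 68796) (PT.nd (nat_lit 156) (PT.nd (nat_lit 78) (PT.lf (nat_lit 1672) (nat_lit 3) (nat_lit 22) (nat_lit 0) (nat_lit 312) (nat_lit 312) (nat_lit 156)) (PT.lf (nat_lit 1520) (nat_lit 6) (nat_lit 20) (nat_lit 0) (nat_lit 313) (nat_lit 312) (nat_lit 155))) (PT.nd (nat_lit 68562) (PT.lf (nat_lit 1292) (nat_lit 6) (nat_lit 17) (nat_lit 0) (nat_lit 314) (nat_lit 312) (nat_lit 154)) (PT.lf (nat_lit 988) (nat_lit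 6) (nat_lit 13) (nat_lit 5) (nat_lit 152) (nat_lit 313) (nat_lit 315)))) (PT.nd (nat_lit 156) (PT.nd (nat_lit 78) (PT.lf (nat_lit 1216) (nat_lit 6) (nat_lit 16) (nat_lit 5) (nat_lit 153) (nat_lit 313) (nat_lit 314)) (PT.lf (nat_lit 1368) (nat_lit 3) (nat_lit 18) (nat_lit 4) (nat_lit 154) (nat_lit 313) (nat_lit 313))) (PT.nd (nat_lit 78) (PT.lf (nat_lit 1520) (nat_lit 6) (nat_lit 20) (nat_lit 4) (nat_lit 155) (nat_lit 313) (nat_lit 312)) (PT.lf (nat_lit 1596) (nat_lit 6) (nat_lit 21) (nat_lit 4) (nat_lit 156) (nat_lit 313) (nat_lit 311))))) (PT.nd (nat_lit 12168) (PT.nd (nat_lit 12012) (PT.nd (nat_lit 11934) (PT.lf (nat_lit 1748) (nat_lit 6) (nat_lit 23) (nat_lit 4) (nat_lit 157) (nat_lit 313) (nat_lit 310)) (PT.lf (nat_lit 1748) (nat_lit 6) (nat_lit 23) (nat_lit 2) (nat_lit 310) (nat_lit 313) (nat_lit 157))) (PT.nd (nat_lit 78) (PT.lf (nat_lit 1596) (nat_lit 6) (nat_lit 21) (nat_lit 2) (nat_lit 311) (nat_lit 313) (nat_lit 156)) (PT.lf (nat_lit 1520) (nat_lit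 6) (nat_lit 20) (nat_lit 2) (nat_lit 312) (nat_lit 313) (nat_lit 155)))) (PT.nd (nat_lit 156) (PT.nd (nat_lit 78) (PT.lf (nat_lit 1368) (nat_lit 3) (nat_lit 18) (nat_lit 0) (nat_lit 313) (nat_lit 313) (nat_lit 154)) (PT.lf (nat_lit 1216) (nat_lit 6) (nat_lit 16) (nat_lit 0) (nat_lit 314) (nat_lit 313) (nat_lit 153))) (PT.nd (nat_lit 68406) (PT.lf (nat_lit 988) (nat_lit 6) (nat_lit 13) (nat_lit 0) (nat_lit 315) (nat_lit 313) (nat_lit 152)) (PT.nd (nat_lit 78) (PT.lf (nat_lit 912) (nat_lit 6) (nat_lit 12) (nat_lit 5) (nat_lit 151) (nat_lit 314) (nat_lit 315)) (PT.lf (nat_lit 1064) (nat_lit 3) (nat_lit 14) (nat_lit 4) (nat_lit 152) (nat_lit 314) (nat_lit 314))))))) (PT.nd (nat_lit 93678) (PT.nd (nat_lit 12558) (PT.nd (nat_lit 12402) (PT.nd (nat_lit 78) (PT.lf (nat_lit 1216) (nat_lit 6) (nat_lit 16) (nat_lit 4) (nat_lit 153) (nat_lit 314) (nat_lit 313)) (PT.lf (nat_lit 1292) (nat_lit 6) (nat_lit 17) (nat_lit 4) (nat_lit 154) (nat_lit 314) (nat_lit 312))) (PT.nd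 (nat_lit 78) (PT.lf (nat_lit 1292) (nat_lit 6) (nat_lit 17) (nat_lit 2) (nat_lit 312) (nat_lit 314) (nat_lit 154)) (PT.lf (nat_lit 1216) (nat_lit 6) (nat_lit 16) (nat_lit 2) (nat_lit 313) (nat_lit 314) (nat_lit 153)))) (PT.nd (nat_lit 68406) (PT.nd (nat_lit 78) (PT.lf (nat_lit 1064) (nat_lit 3) (nat_lit 14) (nat_lit 0) (nat_lit 314) (nat_lit 314) (nat_lit 152)) (PT.lf (nat_lit 912) (nat_lit 6) (nat_lit 12) (nat_lit 0) (nat_lit 315) (nat_lit 314) (nat_lit 151))) (PT.nd (nat_lit 78) (PT.lf (nat_lit 836) (nat_lit 3) (nat_lit 11) (nat_lit 4) (nat_lit 150) (nat_lit 315) (nat_lit 315)) (PT.nd (nat_lit 78) (PT.lf (nat_lit 912) (nat_lit 6) (nat_lit 12) (nat_lit 4) (nat_lit 151) (nat_lit 315) (nat_lit 314)) (PT.lf (nat_lit 988) (nat_lit 6) (nat_lit 13) (nat_lit 4) (nat_lit 152) (nat_lit 315) (nat_lit 313)))))) (PT.nd (nat_lit 3982758) (PT.nd (nat_lit 156) (PT.nd (nat_lit 78) (PT.lf (nat_lit 988) (nat_lit 6) (nat_lit 13) (nat_lit 2) (nat_lit 313) (nat_lit 315) (nat_lit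 152)) (PT.lf (nat_lit 912) (nat_lit 6) (nat_lit 12) (nat_lit 2) (nat_lit 314) (nat_lit 315) (nat_lit 151))) (PT.nd (nat_lit 3958110) (PT.lf (nat_lit 836) (nat_lit 3) (nat_lit 11) (nat_lit 0) (nat_lit 315) (nat_lit 315) (nat_lit 150)) (PT.lf (nat_lit 152) (nat_lit 6) (nat_lit 2) (nat_lit 5) (nat_lit 51) (nat_lit 364) (nat_lit 365)))) (PT.nd (nat_lit 56706) (PT.nd (nat_lit 56628) (PT.lf (nat_lit 152) (nat_lit 6) (nat_lit 2) (nat_lit 0) (nat_lit 365) (nat_lit 364) (nat_lit 51)) (PT.lf (nat_lit 76) (nat_lit 3) (nat_lit 1) (nat_lit 4) (nat_lit 50) (nat_lit 365) (nat_lit 365))) (PT.nd (nat_lit 24414) (PT.lf (nat_lit 152) (nat_lit 6) (nat_lit 2) (nat_lit 4) (nat_lit 51) (nat_lit 365) (nat_lit 364)) (PT.nd (nat_lit 78) (PT.lf (nat_lit 152) (nat_lit 6) (nat_lit 2) (nat_lit 2) (nat_lit 364) (nat_lit 365) (nat_lit 51)) (PT.lf (nat_lit 76) (nat_lit 3) (nat_lit 1) (nat_lit 0) (nat_lit 365) (nat_lit 365) (nat_lit 50))))))))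
noncomputable def xc0 : XT := (XT.nd (nat_lit 405366) (nat_lit 0) (nat_lit 0) (XT.nd (nat_lit 243438) (nat_lit 0) (nat_lit 0) (XT.nd (nat_lit 162240) (nat_lit 0) (nat_lit 0) (XT.nd (nat_lit 81198) (nat_lit 0) (nat_lit 0) (XT.nd (nat_lit 81042) (nat_lit 0) (nat_lit 152) (XT.lf (nat_lit 0) (nat_lit 5757232670) (nat_lit 152) (nat_lit 4066254188) (nat_lit 0) (nat_lit 5452936950) (nat_lit 16) (nat_lit 5) (nat_lit 18) (nat_lit 4) (nat_lit 16) (nat_lit 4) (nat_lit 651) (nat_lit 455) (nat_lit 454)) (XT.nd (nat_lit 78) (nat_lit 152) (nat_lit 0) (XT.lf (nat_lit 0) (nat_lit 6638010367) (nat_lit 152) (nat_lit 2016280652) (nat_lit 0) (nat_lit 6321421101) (nat_lit 20) (nat_lit 5) (nat_lit 22) (nat_lit 4) (nat_lit 20) (nat_lit 4) (nat_lit 649) (nat_lit 456) (nat_lit 455)) (XT.lf (nat_lit 0) (nat_lit 12045458394) (nat_lit 152) (nat_lit 1853835931) (nat_lit 152) (nat_lit 1226865030) (nat_lit 18) (nat_lit 4) (nat_lit 20) (nat_lit 5) (nat_lit 20) (nat_lit 4) (nat_lit 650)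 (nat_lit 456) (nat_lit 454)))) (XT.nd (nat_lit 80886) (nat_lit 0) (nat_lit 456) (XT.nd (nat_lit 80808) (nat_lit 0) (nat_lit 608) (XT.lf (nat_lit 0) (nat_lit 5968578122) (nat_lit 152) (nat_lit 4254255262) (nat_lit 0) (nat_lit 5055571632) (nat_lit 16) (nat_lit 5) (nat_lit 18) (nat_lit 4) (nat_lit 16) (nat_lit 4) (nat_lit 651) (nat_lit 456) (nat_lit 453)) (XT.lf (nat_lit 0) (nat_lit 223602876) (nat_lit 152) (nat_lit 6822068299) (nat_lit 0) (nat_lit 223602876) (nat_lit 24) (nat_lit 5) (nat_lit 26) (nat_lit 4) (nat_lit 24) (nat_lit 4) (nat_lit 646) (nat_lit 457) (nat_lit 457))) (XT.nd (nat_lit 78) (nat_lit 152) (nat_lit 0) (XT.lf (nat_lit 0) (nat_lit 7463356533) (nat_lit 152) (nat_lit 85081826) (nat_lit 0) (nat_lit 7133977060) (nat_lit 24) (nat_lit 5) (nat_lit 26) (nat_lit 4) (nat_lit 24) (nat_lit 4) (nat_lit 647) (nat_lit 457) (nat_lit 456)) (XT.lf (nat_lit 0) (nat_lit 13745210071) (nat_lit 152) (nat_lit 868189833) (nat_lit 152) (nat_lit 215889308) (nat_lit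 22) (nat_lit 4) (nat_lit 24) (nat_lit 5) (nat_lit 24) (nat_lit 4) (nat_lit 648) (nat_lit 457) (nat_lit 455))))) (XT.nd (nat_lit 80886) (nat_lit 0) (nat_lit 456) (XT.nd (nat_lit 156) (nat_lit 152) (nat_lit 0) (XT.nd (nat_lit 78) (nat_lit 152) (nat_lit 0) (XT.lf (nat_lit 0) (nat_lit 6863598128) (nat_lit 152) (nat_lit 2200354984) (nat_lit 0) (nat_lit 5913706176) (nat_lit 20) (nat_lit 5) (nat_lit 22) (nat_lit 4) (nat_lit 20) (nat_lit 4) (nat_lit 649) (nat_lit 457) (nat_lit 454)) (XT.lf (nat_lit 0) (nat_lit 11768411416) (nat_lit 152) (nat_lit 2307431900) (nat_lit 152) (nat_lit 1053244228) (nat_lit 18) (nat_lit 4) (nat_lit 20) (nat_lit 5) (nat_lit 20) (nat_lit 4) (nat_lit 650) (nat_lit 457) (nat_lit 453))) (XT.nd (nat_lit 80652) (nat_lit 0) (nat_lit 912) (XT.lf (nat_lit 0) (nat_lit 6087056187) (nat_lit 152) (nat_lit 4630331135) (nat_lit 0) (nat_lit 4564980885) (nat_lit 16) (nat_lit 5) (nat_lit 18) (nat_lit 4) (nat_lit 16) (nat_lit 4) (nat_lit 651) (nat_lit 457)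 (nat_lit 452)) (XT.lf (nat_lit 0) (nat_lit 671212903) (nat_lit 152) (nat_lit 5785394344) (nat_lit 0) (nat_lit 671212903) (nat_lit 28) (nat_lit 5) (nat_lit 30) (nat_lit 4) (nat_lit 28) (nat_lit 4) (nat_lit 644) (nat_lit 458) (nat_lit 458)))) (XT.nd (nat_lit 156) (nat_lit 152) (nat_lit 0) (XT.nd (nat_lit 78) (nat_lit 152) (nat_lit 0) (XT.lf (nat_lit 0) (nat_lit 1761646822) (nat_lit 152) (nat_lit 6488570614) (nat_lit 152) (nat_lit 6145884211) (nat_lit 26) (nat_lit 4) (nat_lit 28) (nat_lit 5) (nat_lit 28) (nat_lit 4) (nat_lit 645) (nat_lit 458) (nat_lit 457)) (XT.lf (nat_lit 0) (nat_lit 734862462) (nat_lit 152) (nat_lit 13735136187) (nat_lit 0) (nat_lit 69515927) (nat_lit 24) (nat_lit 5) (nat_lit 26) (nat_lit 4) (nat_lit 24) (nat_lit 4) (nat_lit 646) (nat_lit 458) (nat_lit 456))) (XT.nd (nat_lit 78) (nat_lit 152) (nat_lit 0) (XT.lf (nat_lit 0) (nat_lit 7703650150) (nat_lit 152) (nat_lit 265296698) (nat_lit 0) (nat_lit 6715382563) (nat_lit 24) (nat_lit 5) (nat_lit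 26) (nat_lit 4) (nat_lit 24) (nat_lit 4) (nat_lit 647) (nat_lit 458) (nat_lit 455)) (XT.lf (nat_lit 0) (nat_lit 13473971898) (nat_lit 152) (nat_lit 1331526162) (nat_lit 152) (nat_lit 26669308) (nat_lit 22) (nat_lit 4) (nat_lit 24) (nat_lit 5) (nat_lit 24) (nat_lit 4) (nat_lit 648) (nat_lit 458) (nat_lit 454)))))) (XT.nd (nat_lit 81042) (nat_lit 0) (nat_lit 0) (XT.nd (nat_lit 80730) (nat_lit 0) (nat_lit 608) (XT.nd (nat_lit 156) (nat_lit 152) (nat_lit 0) (XT.nd (nat_lit 78) (nat_lit 152) (nat_lit 0) (XT.lf (nat_lit 0) (nat_lit 6998272850) (nat_lit 152) (nat_lit 2568575835) (nat_lit 0) (nat_lit 5414705705) (nat_lit 20) (nat_lit 5) (nat_lit 22) (nat_lit 4) (nat_lit 20) (nat_lit 4) (nat_lit 649) (nat_lit 458) (nat_lit 453)) (XT.lf (nat_lit 0) (nat_lit 11306545737) (nat_lit 152) (nat_lit 2854659840) (nat_lit 152) (nat_lit 972763558) (nat_lit 18) (nat_lit 4) (nat_lit 20) (nat_lit 5) (nat_lit 20) (nat_lit 4) (nat_lit 650) (nat_lit 458) (nat_lit 452))) (XT.nd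 (nat_lit 80496) (nat_lit 0) (nat_lit 1216) (XT.lf (nat_lit 0) (nat_lit 6112713328) (nat_lit 152) (nat_lit 5194629288) (nat_lit 0) (nat_lit 3980972320) (nat_lit 16) (nat_lit 5) (nat_lit 18) (nat_lit 4) (nat_lit 16) (nat_lit 4) (nat_lit 651) (nat_lit 458) (nat_lit 451)) (XT.lf (nat_lit 0) (nat_lit 1095545595) (nat_lit 152) (nat_lit 4798747557) (nat_lit 0) (nat_lit 1095545595) (nat_lit 32) (nat_lit 5) (nat_lit 34) (nat_lit 4) (nat_lit 32) (nat_lit 4) (nat_lit 642) (nat_lit 459) (nat_lit 459)))) (XT.nd (nat_lit 156) (nat_lit 304) (nat_lit 0) (XT.nd (nat_lit 78) (nat_lit 152) (nat_lit 0) (XT.lf (nat_lit 0) (nat_lit 3511062216) (nat_lit 152) (nat_lit 5481138646) (nat_lit 152) (nat_lit 5124607711) (nat_lit 30) (nat_lit 4) (nat_lit 32) (nat_lit 5) (nat_lit 32) (nat_lit 4) (nat_lit 643) (nat_lit 459) (nat_lit 458)) (XT.lf (nat_lit 0) (nat_lit 1644472218) (nat_lit 152) (nat_lit 11659872551) (nat_lit 0) (nat_lit 952245682) (nat_lit 28) (nat_lit 5) (nat_lit 30) (nat_lit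 4) (nat_lit 28) (nat_lit 4) (nat_lit 644) (nat_lit 459) (nat_lit 457))) (XT.nd (nat_lit 78) (nat_lit 152) (nat_lit 0) (XT.lf (nat_lit 0) (nat_lit 1582881299) (nat_lit 152) (nat_lit 6921659414) (nat_lit 152) (nat_lit 5893465816) (nat_lit 26) (nat_lit 4) (nat_lit 28) (nat_lit 5) (nat_lit 28) (nat_lit 4) (nat_lit 645) (nat_lit 459) (nat_lit 456)) (XT.lf (nat_lit 0) (nat_lit 531570557) (nat_lit 76) (nat_lit 403649060) (nat_lit 152) (nat_lit 13607142337) (nat_lit 24) (nat_lit 5) (nat_lit 25) (nat_lit 5) (nat_lit 26) (nat_lit 4) (nat_lit 646) (nat_lit 459) (nat_lit 455))))) (XT.nd (nat_lit 312) (nat_lit 152) (nat_lit 0) (XT.nd (nat_lit 156) (nat_lit 228) (nat_lit 0) (XT.nd (nat_lit 78) (nat_lit 228) (nat_lit 0) (XT.lf (nat_lit 0) (nat_lit 7854952145) (nat_lit 152) (nat_lit 625797114) (nat_lit 0) (nat_lit 6207408887) (nat_lit 24) (nat_lit 5) (nat_lit 26) (nat_lit 4) (nat_lit 24) (nat_lit 4) (nat_lit 647) (nat_lit 459) (nat_lit 454)) (XT.lf (nat_lit 0) (nat_lit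 70438624) (nat_lit 228) (nat_lit 1815638869) (nat_lit 76) (nat_lit 12950878786) (nat_lit 21) (nat_lit 5) (nat_lit 24) (nat_lit 5) (nat_lit 22) (nat_lit 4) (nat_lit 648) (nat_lit 459) (nat_lit 453))) (XT.nd (nat_lit 78) (nat_lit 152) (nat_lit 0) (XT.lf (nat_lit 0) (nat_lit 7042087346) (nat_lit 152) (nat_lit 3121087604) (nat_lit 0) (nat_lit 4824224001) (nat_lit 20) (nat_lit 5) (nat_lit 22) (nat_lit 4) (nat_lit 20) (nat_lit 4) (nat_lit 649) (nat_lit 459) (nat_lit 452)) (XT.lf (nat_lit 0) (nat_lit 10659680233) (nat_lit 152) (nat_lit 3495734349) (nat_lit 152) (nat_lit 985391459) (nat_lit 18) (nat_lit 4) (nat_lit 20) (nat_lit 5) (nat_lit 20) (nat_lit 4) (nat_lit 650) (nat_lit 459) (nat_lit 451)))) (XT.nd (nat_lit 80418) (nat_lit 0) (nat_lit 1216) (XT.nd (nat_lit 80340) (nat_lit 0) (nat_lit 1520) (XT.lf (nat_lit 0) (nat_lit 6045559605) (nat_lit 152) (nat_lit 5947371015) (nat_lit 0) (nat_lit 3303316916) (nat_lit 16) (nat_lit 5) (nat_lit 18) (nat_lit 4) (nat_lit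 16) (nat_lit 4) (nat_lit 651) (nat_lit 459) (nat_lit 450)) (XT.lf (nat_lit 0) (nat_lit 1498966462) (nat_lit 228) (nat_lit 3857307167) (nat_lit 0) (nat_lit 1498966462) (nat_lit 36) (nat_lit 5) (nat_lit 39) (nat_lit 4) (nat_lit 36) (nat_lit 4) (nat_lit 640) (nat_lit 460) (nat_lit 460))) (XT.nd (nat_lit 78) (nat_lit 152) (nat_lit 0) (XT.lf (nat_lit 0) (nat_lit 5171868287) (nat_lit 152) (nat_lit 4521715070) (nat_lit 152) (nat_lit 4150780286) (nat_lit 34) (nat_lit 4) (nat_lit 36) (nat_lit 5) (nat_lit 36) (nat_lit 4) (nat_lit 641) (nat_lit 460) (nat_lit 459)) (XT.lf (nat_lit 0) (nat_lit 2508054367) (nat_lit 152) (nat_lit 9684695503) (nat_lit 0) (nat_lit 1787861879) (nat_lit 32) (nat_lit 5) (nat_lit 34) (nat_lit 4) (nat_lit 32) (nat_lit 4) (nat_lit 642) (nat_lit 460) (nat_lit 458))))))) (XT.nd (nat_lit 81276) (nat_lit 0) (nat_lit 0) (XT.nd (nat_lit 546) (nat_lit 304) (nat_lit 0) (XT.nd (nat_lit 234) (nat_lit 456) (nat_lit 0) (XT.nd (nat_lit 78) (nat_lit 304)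 (nat_lit 0) (XT.lf (nat_lit 0) (nat_lit 3336076279) (nat_lit 152) (nat_lit 5926168912) (nat_lit 152) (nat_lit 4856436293) (nat_lit 30) (nat_lit 4) (nat_lit 32) (nat_lit 5) (nat_lit 32) (nat_lit 4) (nat_lit 643) (nat_lit 460) (nat_lit 457)) (XT.nd (nat_lit 78) (nat_lit 152) (nat_lit 0) (XT.lf (nat_lit 0) (nat_lit 1858503367) (nat_lit 152) (nat_lit 11927159071) (nat_lit 0) (nat_lit 473778834) (nat_lit 28) (nat_lit 5) (nat_lit 30) (nat_lit 4) (nat_lit 28) (nat_lit 4) (nat_lit 644) (nat_lit 460) (nat_lit 456)) (XT.lf (nat_lit 0) (nat_lit 1225280149) (nat_lit 152) (nat_lit 7445320448) (nat_lit 152) (nat_lit 5731216442) (nat_lit 26) (nat_lit 4) (nat_lit 28) (nat_lit 5) (nat_lit 28) (nat_lit 4) (nat_lit 645) (nat_lit 460) (nat_lit 455)))) (XT.nd (nat_lit 156) (nat_lit 304) (nat_lit 0) (XT.nd (nat_lit 78) (nat_lit 0) (nat_lit 0) (XT.lf (nat_lit 0) (nat_lit 77482365) (nat_lit 76) (nat_lit 969303487) (nat_lit 152) (nat_lit 13500336902) (nat_lit 24) (nat_lit 5) (nat_lit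 25) (nat_lit 5) (nat_lit 26) (nat_lit 4) (nat_lit 646) (nat_lit 460) (nat_lit 454)) (XT.lf (nat_lit 0) (nat_lit 7917321851) (nat_lit 152) (nat_lit 1166724448) (nat_lit 0) (nat_lit 5609856827) (nat_lit 24) (nat_lit 5) (nat_lit 26) (nat_lit 4) (nat_lit 24) (nat_lit 4) (nat_lit 647) (nat_lit 460) (nat_lit 453))) (XT.nd (nat_lit 78) (nat_lit 76) (nat_lit 0) (XT.lf (nat_lit 0) (nat_lit 77254543) (nat_lit 228) (nat_lit 2455706564) (nat_lit 76) (nat_lit 12310714361) (nat_lit 21) (nat_lit 5) (nat_lit 24) (nat_lit 5) (nat_lit 22) (nat_lit 4) (nat_lit 648) (nat_lit 460) (nat_lit 452)) (XT.lf (nat_lit 0) (nat_lit 6995058797) (nat_lit 152) (nat_lit 3858106964) (nat_lit 0) (nat_lit 4142029503) (nat_lit 20) (nat_lit 5) (nat_lit 22) (nat_lit 4) (nat_lit 20) (nat_lit 4) (nat_lit 649) (nat_lit 460) (nat_lit 451))))) (XT.nd (nat_lit 80418) (nat_lit 0) (nat_lit 1064) (XT.nd (nat_lit 80262) (nat_lit 0) (nat_lit 1748) (XT.nd (nat_lit 78) (nat_lit 152) (nat_lit 0) (XT.lf (nat_lit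 0) (nat_lit 9827561230) (nat_lit 152) (nat_lit 4230906830) (nat_lit 152) (nat_lit 1091132883) (nat_lit 18) (nat_lit 4) (nat_lit 20) (nat_lit 5) (nat_lit 20) (nat_lit 4) (nat_lit 650) (nat_lit 460) (nat_lit 450)) (XT.lf (nat_lit 0) (nat_lit 5885568684) (nat_lit 152) (nat_lit 6888851509) (nat_lit 0) (nat_lit 2531748924) (nat_lit 16) (nat_lit 5) (nat_lit 18) (nat_lit 4) (nat_lit 16) (nat_lit 4) (nat_lit 651) (nat_lit 460) (nat_lit 449))) (XT.nd (nat_lit 78) (nat_lit 152) (nat_lit 0) (XT.lf (nat_lit 0) (nat_lit 1883681760) (nat_lit 228) (nat_lit 2956575596) (nat_lit 0) (nat_lit 1883681760) (nat_lit 41) (nat_lit 5) (nat_lit 44) (nat_lit 4) (nat_lit 41) (nat_lit 4) (nat_lit 638) (nat_lit 461) (nat_lit 461)) (XT.lf (nat_lit 0) (nat_lit 6753232799) (nat_lit 152) (nat_lit 3605640228) (nat_lit 152) (nat_lit 3219719679) (nat_lit 39) (nat_lit 4) (nat_lit 41) (nat_lit 5) (nat_lit 41) (nat_lit 4) (nat_lit 639) (nat_lit 461) (nat_lit 460)))) (XT.nd (nat_lit 156) (nat_lit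 304) (nat_lit 0) (XT.nd (nat_lit 78) (nat_lit 152) (nat_lit 0) (XT.lf (nat_lit 0) (nat_lit 3330362286) (nat_lit 228) (nat_lit 7799962656) (nat_lit 0) (nat_lit 2581074022) (nat_lit 36) (nat_lit 5) (nat_lit 39) (nat_lit 4) (nat_lit 36) (nat_lit 4) (nat_lit 640) (nat_lit 461) (nat_lit 459)) (XT.lf (nat_lit 0) (nat_lit 5000598911) (nat_lit 152) (nat_lit 4979278167) (nat_lit 152) (nat_lit 3866328349) (nat_lit 34) (nat_lit 4) (nat_lit 36) (nat_lit 5) (nat_lit 36) (nat_lit 4) (nat_lit 641) (nat_lit 461) (nat_lit 458))) (XT.nd (nat_lit 78) (nat_lit 152) (nat_lit 0) (XT.lf (nat_lit 0) (nat_lit 2738875708) (nat_lit 152) (nat_lit 9946330865) (nat_lit 0) (nat_lit 1298208305) (nat_lit 32) (nat_lit 5) (nat_lit 34) (nat_lit 4) (nat_lit 32) (nat_lit 4) (nat_lit 642) (nat_lit 461) (nat_lit 457)) (XT.lf (nat_lit 0) (nat_lit 2986035783) (nat_lit 152) (nat_lit 6459873032) (nat_lit 152) (nat_lit 4676519225) (nat_lit 30) (nat_lit 4) (nat_lit 32) (nat_lit 5) (nat_lit 32) (nat_lit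 4) (nat_lit 643) (nat_lit 461) (nat_lit 456)))))) (XT.nd (nat_lit 80574) (nat_lit 0) (nat_lit 1064) (XT.nd (nat_lit 312) (nat_lit 608) (nat_lit 0) (XT.nd (nat_lit 156) (nat_lit 152) (nat_lit 0) (XT.nd (nat_lit 78) (nat_lit 152) (nat_lit 0) (XT.lf (nat_lit 0) (nat_lit 1890815647) (nat_lit 76) (nat_lit 94400450) (nat_lit 152) (nat_lit 12278965527) (nat_lit 28) (nat_lit 5) (nat_lit 29) (nat_lit 5) (nat_lit 30) (nat_lit 4) (nat_lit 644) (nat_lit 461) (nat_lit 455)) (XT.lf (nat_lit 0) (nat_lit 688703136) (nat_lit 152) (nat_lit 8059759073) (nat_lit 152) (nat_lit 5659072463) (nat_lit 26) (nat_lit 4) (nat_lit 28) (nat_lit 5) (nat_lit 28) (nat_lit 4) (nat_lit 645) (nat_lit 461) (nat_lit 454))) (XT.nd (nat_lit 78) (nat_lit 76) (nat_lit 0) (XT.lf (nat_lit 0) (nat_lit 1072767870) (nat_lit 228) (nat_lit 550284778) (nat_lit 76) (nat_lit 12930682936) (nat_lit 25) (nat_lit 5) (nat_lit 28) (nat_lit 5) (nat_lit 26) (nat_lit 4) (nat_lit 646) (nat_lit 461) (nat_lit 453))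 (XT.lf (nat_lit 0) (nat_lit 7890783726) (nat_lit 152) (nat_lit 1888290827) (nat_lit 0) (nat_lit 4922492049) (nat_lit 24) (nat_lit 5) (nat_lit 26) (nat_lit 4) (nat_lit 24) (nat_lit 4) (nat_lit 647) (nat_lit 461) (nat_lit 452)))) (XT.nd (nat_lit 156) (nat_lit 304) (nat_lit 0) (XT.nd (nat_lit 78) (nat_lit 152) (nat_lit 0) (XT.lf (nat_lit 0) (nat_lit 11573815242) (nat_lit 152) (nat_lit 3272567917) (nat_lit 152) (nat_lit 5947103) (nat_lit 22) (nat_lit 4) (nat_lit 24) (nat_lit 5) (nat_lit 24) (nat_lit 4) (nat_lit 648) (nat_lit 461) (nat_lit 451)) (XT.lf (nat_lit 0) (nat_lit 6857168763) (nat_lit 152) (nat_lit 4779922940) (nat_lit 0) (nat_lit 3367854684) (nat_lit 20) (nat_lit 5) (nat_lit 22) (nat_lit 4) (nat_lit 20) (nat_lit 4) (nat_lit 649) (nat_lit 461) (nat_lit 450))) (XT.nd (nat_lit 78) (nat_lit 152) (nat_lit 0) (XT.lf (nat_lit 0) (nat_lit 8809862409) (nat_lit 152) (nat_lit 5060465585) (nat_lit 152) (nat_lit 1290029298) (nat_lit 18) (nat_lit 4) (nat_lit 20)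 (nat_lit 5) (nat_lit 20) (nat_lit 4) (nat_lit 650) (nat_lit 461) (nat_lit 449)) (XT.lf (nat_lit 0) (nat_lit 5632677824) (nat_lit 152) (nat_lit 8019439977) (nat_lit 0) (nat_lit 1665965769) (nat_lit 16) (nat_lit 5) (nat_lit 18) (nat_lit 4) (nat_lit 16) (nat_lit 4) (nat_lit 651) (nat_lit 461) (nat_lit 448))))) (XT.nd (nat_lit 312) (nat_lit 684) (nat_lit 0) (XT.nd (nat_lit 156) (nat_lit 380) (nat_lit 0) (XT.nd (nat_lit 78) (nat_lit 152) (nat_lit 0) (XT.lf (nat_lit 0) (nat_lit 2251751520) (nat_lit 228) (nat_lit 2092352136) (nat_lit 0) (nat_lit 2251751520) (nat_lit 46) (nat_lit 5) (nat_lit 49) (nat_lit 4) (nat_lit 46) (nat_lit 4) (nat_lit 636) (nat_lit 462) (nat_lit 462)) (XT.lf (nat_lit 0) (nat_lit 8263711010) (nat_lit 152) (nat_lit 2728565704) (nat_lit 152) (nat_lit 2327053965) (nat_lit 44) (nat_lit 4) (nat_lit 46) (nat_lit 5) (nat_lit 46) (nat_lit 4) (nat_lit 637) (nat_lit 462) (nat_lit 461))) (XT.nd (nat_lit 78) (nat_lit 152) (nat_lit 0) (XT.lf (nat_lit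 0) (nat_lit 4115831726) (nat_lit 228) (nat_lit 5996678016) (nat_lit 0) (nat_lit 3336272217) (nat_lit 41) (nat_lit 5) (nat_lit 44) (nat_lit 4) (nat_lit 41) (nat_lit 4) (nat_lit 638) (nat_lit 462) (nat_lit 460)) (XT.lf (nat_lit 0) (nat_lit 6585618644) (nat_lit 152) (nat_lit 4076349273) (nat_lit 152) (nat_lit 2918436284) (nat_lit 39) (nat_lit 4) (nat_lit 41) (nat_lit 5) (nat_lit 41) (nat_lit 4) (nat_lit 639) (nat_lit 462) (nat_lit 459)))) (XT.nd (nat_lit 156) (nat_lit 304) (nat_lit 0) (XT.nd (nat_lit 78) (nat_lit 152) (nat_lit 0) (XT.lf (nat_lit 0) (nat_lit 3578492470) (nat_lit 228) (nat_lit 8056041091) (nat_lit 0) (nat_lit 2079622104) (nat_lit 36) (nat_lit 5) (nat_lit 39) (nat_lit 4) (nat_lit 36) (nat_lit 4) (nat_lit 640) (nat_lit 462) (nat_lit 458)) (XT.lf (nat_lit 0) (nat_lit 4657992994) (nat_lit 152) (nat_lit 5523649012) (nat_lit 152) (nat_lit 3668247711) (nat_lit 34) (nat_lit 4) (nat_lit 36) (nat_lit 5) (nat_lit 36) (nat_lit 4) (nat_lit 641) (nat_lit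 462) (nat_lit 457))) (XT.nd (nat_lit 78) (nat_lit 152) (nat_lit 0) (XT.lf (nat_lit 0) (nat_lit 2883645732) (nat_lit 152) (nat_lit 10382503801) (nat_lit 0) (nat_lit 721938445) (nat_lit 32) (nat_lit 5) (nat_lit 34) (nat_lit 4) (nat_lit 32) (nat_lit 4) (nat_lit 642) (nat_lit 462) (nat_lit 456)) (XT.lf (nat_lit 0) (nat_lit 2460803457) (nat_lit 152) (nat_lit 7082460302) (nat_lit 152) (nat_lit 4584785953) (nat_lit 30) (nat_lit 4) (nat_lit 32) (nat_lit 5) (nat_lit 32) (nat_lit 4) (nat_lit 643) (nat_lit 462) (nat_lit 455))))))))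
noncomputable def xc1 : XT := (XT.nd (nat_lit 161850) (nat_lit 0) (nat_lit 0) (XT.nd (nat_lit 80964) (nat_lit 0) (nat_lit 0) (XT.nd (nat_lit 546) (nat_lit 152) (nat_lit 0) (XT.nd (nat_lit 234) (nat_lit 532) (nat_lit 0) (XT.nd (nat_lit 78) (nat_lit 228) (nat_lit 0) (XT.lf (nat_lit 0) (nat_lit 1268996020) (nat_lit 76) (nat_lit 758751426) (nat_lit 152) (nat_lit 12243004173) (nat_lit 28) (nat_lit 5) (nat_lit 29) (nat_lit 5) (nat_lit 30) (nat_lit 4) (nat_lit 644) (nat_lit 462) (nat_lit 454)) (XT.nd (nat_lit 78) (nat_lit 228) (nat_lit 0) (XT.lf (nat_lit 0) (nat_lit 8738331778) (nat_lit 152) (nat_lit 26705262) (nat_lit 0) (nat_lit 5650121117) (nat_lit 28) (nat_lit 5) (nat_lit 30) (nat_lit 4) (nat_lit 28) (nat_lit 4) (nat_lit 645) (nat_lit 462) (nat_lit 453)) (XT.lf (nat_lit 0) (nat_lit 1011233950) (nat_lit 228) (nat_lit 1355899714) (nat_lit 76) (nat_lit 12195108210) (nat_lit 25) (nat_lit 5) (nat_lit 28) (nat_lit 5) (nat_lit 26) (nat_lit 4) (nat_lit 646) (nat_lit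 462) (nat_lit 452)))) (XT.nd (nat_lit 156) (nat_lit 304) (nat_lit 0) (XT.nd (nat_lit 78) (nat_lit 152) (nat_lit 0) (XT.lf (nat_lit 0) (nat_lit 7775327365) (nat_lit 152) (nat_lit 2790779220) (nat_lit 0) (nat_lit 4145044998) (nat_lit 24) (nat_lit 5) (nat_lit 26) (nat_lit 4) (nat_lit 24) (nat_lit 4) (nat_lit 647) (nat_lit 462) (nat_lit 451)) (XT.lf (nat_lit 0) (nat_lit 10577454367) (nat_lit 152) (nat_lit 4104105183) (nat_lit 152) (nat_lit 181343270) (nat_lit 22) (nat_lit 4) (nat_lit 24) (nat_lit 5) (nat_lit 24) (nat_lit 4) (nat_lit 648) (nat_lit 462) (nat_lit 450))) (XT.nd (nat_lit 78) (nat_lit 152) (nat_lit 0) (XT.lf (nat_lit 0) (nat_lit 6628363167) (nat_lit 152) (nat_lit 5886897031) (nat_lit 0) (nat_lit 2501395946) (nat_lit 20) (nat_lit 5) (nat_lit 22) (nat_lit 4) (nat_lit 20) (nat_lit 4) (nat_lit 649) (nat_lit 462) (nat_lit 449)) (XT.lf (nat_lit 0) (nat_lit 7606184671) (nat_lit 152) (nat_lit 5984735932) (nat_lit 152) (nat_lit 1582158702) (nat_lit 18) (nat_lit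 4) (nat_lit 20) (nat_lit 5) (nat_lit 20) (nat_lit 4) (nat_lit 650) (nat_lit 462) (nat_lit 448))))) (XT.nd (nat_lit 80106) (nat_lit 0) (nat_lit 1520) (XT.nd (nat_lit 79950) (nat_lit 0) (nat_lit 2280) (XT.nd (nat_lit 79872) (nat_lit 0) (nat_lit 2660) (XT.lf (nat_lit 0) (nat_lit 5286787851) (nat_lit 152) (nat_lit 9339579788) (nat_lit 0) (nat_lit 705627929) (nat_lit 16) (nat_lit 5) (nat_lit 18) (nat_lit 4) (nat_lit 16) (nat_lit 4) (nat_lit 651) (nat_lit 462) (nat_lit 447)) (XT.lf (nat_lit 0) (nat_lit 2605101628) (nat_lit 228) (nat_lit 1260708550) (nat_lit 0) (nat_lit 2605101628) (nat_lit 51) (nat_lit 5) (nat_lit 54) (nat_lit 4) (nat_lit 51) (nat_lit 4) (nat_lit 634) (nat_lit 463) (nat_lit 463))) (XT.nd (nat_lit 78) (nat_lit 228) (nat_lit 0) (XT.lf (nat_lit 0) (nat_lit 9711296005) (nat_lit 152) (nat_lit 1886428921) (nat_lit 152) (nat_lit 1468696108) (nat_lit 49) (nat_lit 4) (nat_lit 51) (nat_lit 5) (nat_lit 51) (nat_lit 4) (nat_lit 635) (nat_lit 463) (nat_lit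 462)) (XT.lf (nat_lit 0) (nat_lit 4868606910) (nat_lit 228) (nat_lit 4266439333) (nat_lit 0) (nat_lit 4057553196) (nat_lit 46) (nat_lit 5) (nat_lit 49) (nat_lit 4) (nat_lit 46) (nat_lit 4) (nat_lit 636) (nat_lit 463) (nat_lit 461)))) (XT.nd (nat_lit 156) (nat_lit 380) (nat_lit 0) (XT.nd (nat_lit 78) (nat_lit 228) (nat_lit 0) (XT.lf (nat_lit 0) (nat_lit 8099692402) (nat_lit 152) (nat_lit 3213056493) (nat_lit 152) (nat_lit 2008363818) (nat_lit 44) (nat_lit 4) (nat_lit 46) (nat_lit 5) (nat_lit 46) (nat_lit 4) (nat_lit 637) (nat_lit 463) (nat_lit 460)) (XT.lf (nat_lit 0) (nat_lit 4381813488) (nat_lit 228) (nat_lit 6247291242) (nat_lit 0) (nat_lit 2822388758) (nat_lit 41) (nat_lit 5) (nat_lit 44) (nat_lit 4) (nat_lit 41) (nat_lit 4) (nat_lit 638) (nat_lit 463) (nat_lit 459))) (XT.nd (nat_lit 78) (nat_lit 228) (nat_lit 0) (XT.lf (nat_lit 0) (nat_lit 6250324601) (nat_lit 152) (nat_lit 4632031406) (nat_lit 152) (nat_lit 2701671893) (nat_lit 39) (nat_lit 4) (nat_lit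 41) (nat_lit 5) (nat_lit 41) (nat_lit 4) (nat_lit 639) (nat_lit 463) (nat_lit 458)) (XT.lf (nat_lit 0) (nat_lit 3742420782) (nat_lit 228) (nat_lit 8482950064) (nat_lit 0) (nat_lit 1493380521) (nat_lit 36) (nat_lit 5) (nat_lit 39) (nat_lit 4) (nat_lit 36) (nat_lit 4) (nat_lit 640) (nat_lit 463) (nat_lit 457)))))) (XT.nd (nat_lit 624) (nat_lit 456) (nat_lit 0) (XT.nd (nat_lit 312) (nat_lit 456) (nat_lit 0) (XT.nd (nat_lit 156) (nat_lit 304) (nat_lit 0) (XT.nd (nat_lit 78) (nat_lit 152) (nat_lit 0) (XT.lf (nat_lit 0) (nat_lit 4143916182) (nat_lit 152) (nat_lit 6155041086) (nat_lit 152) (nat_lit 3556460693) (nat_lit 34) (nat_lit 4) (nat_lit 36) (nat_lit 5) (nat_lit 36) (nat_lit 4) (nat_lit 641) (nat_lit 463) (nat_lit 456)) (XT.lf (nat_lit 0) (nat_lit 2942421211) (nat_lit 152) (nat_lit 10993385360) (nat_lit 0) (nat_lit 58826312) (nat_lit 32) (nat_lit 5) (nat_lit 34) (nat_lit 4) (nat_lit 32) (nat_lit 4) (nat_lit 642) (nat_lit 463) (nat_lit 455))) (XT.nd (nat_lit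 78) (nat_lit 152) (nat_lit 0) (XT.lf (nat_lit 0) (nat_lit 1760173328) (nat_lit 152) (nat_lit 7794174873) (nat_lit 152) (nat_lit 4581200502) (nat_lit 30) (nat_lit 4) (nat_lit 32) (nat_lit 5) (nat_lit 32) (nat_lit 4) (nat_lit 643) (nat_lit 463) (nat_lit 454)) (XT.lf (nat_lit 0) (nat_lit 469758774) (nat_lit 76) (nat_lit 1513238353) (nat_lit 152) (nat_lit 12296219046) (nat_lit 28) (nat_lit 5) (nat_lit 29) (nat_lit 5) (nat_lit 30) (nat_lit 4) (nat_lit 644) (nat_lit 463) (nat_lit 453)))) (XT.nd (nat_lit 156) (nat_lit 228) (nat_lit 0) (XT.nd (nat_lit 78) (nat_lit 228) (nat_lit 0) (XT.lf (nat_lit 0) (nat_lit 8645666304) (nat_lit 152) (nat_lit 910194430) (nat_lit 0) (nat_lit 4868720529) (nat_lit 28) (nat_lit 5) (nat_lit 30) (nat_lit 4) (nat_lit 28) (nat_lit 4) (nat_lit 645) (nat_lit 463) (nat_lit 452)) (XT.lf (nat_lit 0) (nat_lit 861656894) (nat_lit 228) (nat_lit 2340694567) (nat_lit 76) (nat_lit 11370303563) (nat_lit 25) (nat_lit 5) (nat_lit 28) (nat_lit 5) (nat_lit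 26) (nat_lit 4) (nat_lit 646) (nat_lit 463) (nat_lit 451))) (XT.nd (nat_lit 78) (nat_lit 152) (nat_lit 0) (XT.lf (nat_lit 0) (nat_lit 7570907489) (nat_lit 152) (nat_lit 3874543542) (nat_lit 0) (nat_lit 3277210792) (nat_lit 24) (nat_lit 5) (nat_lit 26) (nat_lit 4) (nat_lit 24) (nat_lit 4) (nat_lit 647) (nat_lit 463) (nat_lit 450)) (XT.lf (nat_lit 0) (nat_lit 9399013969) (nat_lit 152) (nat_lit 5028417419) (nat_lit 152) (nat_lit 447976069) (nat_lit 22) (nat_lit 4) (nat_lit 24) (nat_lit 5) (nat_lit 24) (nat_lit 4) (nat_lit 648) (nat_lit 463) (nat_lit 449))))) (XT.nd (nat_lit 79950) (nat_lit 0) (nat_lit 2280) (XT.nd (nat_lit 156) (nat_lit 152) (nat_lit 0) (XT.nd (nat_lit 78) (nat_lit 152) (nat_lit 0) (XT.lf (nat_lit 0) (nat_lit 6308552283) (nat_lit 152) (nat_lit 7179463342) (nat_lit 0) (nat_lit 1542313500) (nat_lit 20) (nat_lit 5) (nat_lit 22) (nat_lit 4) (nat_lit 20) (nat_lit 4) (nat_lit 649) (nat_lit 463) (nat_lit 448)) (XT.lf (nat_lit 0) (nat_lit 6216055986)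 (nat_lit 152) (nat_lit 7004080330) (nat_lit 152) (nat_lit 1967635656) (nat_lit 18) (nat_lit 4) (nat_lit 20) (nat_lit 5) (nat_lit 20) (nat_lit 4) (nat_lit 650) (nat_lit 463) (nat_lit 447))) (XT.nd (nat_lit 79716) (nat_lit 0) (nat_lit 3116) (XT.lf (nat_lit 0) (nat_lit 4495775646) (nat_lit 76) (nat_lit 354287747) (nat_lit 152) (nat_lit 10497801167) (nat_lit 16) (nat_lit 5) (nat_lit 17) (nat_lit 5) (nat_lit 18) (nat_lit 4) (nat_lit 651) (nat_lit 463) (nat_lit 446)) (XT.lf (nat_lit 0) (nat_lit 2945535010) (nat_lit 228) (nat_lit 457966472) (nat_lit 0) (nat_lit 2945535010) (nat_lit 57) (nat_lit 5) (nat_lit 60) (nat_lit 4) (nat_lit 57) (nat_lit 4) (nat_lit 632) (nat_lit 464) (nat_lit 464)))) (XT.nd (nat_lit 156) (nat_lit 380) (nat_lit 0) (XT.nd (nat_lit 78) (nat_lit 228) (nat_lit 0) (XT.lf (nat_lit 0) (nat_lit 11103465357) (nat_lit 228) (nat_lit 1075429601) (nat_lit 228) (nat_lit 640820381) (nat_lit 54) (nat_lit 4) (nat_lit 57) (nat_lit 5) (nat_lit 57) (nat_lit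 4) (nat_lit 633) (nat_lit 464) (nat_lit 463)) (XT.lf (nat_lit 0) (nat_lit 5592564720) (nat_lit 228) (nat_lit 2601389312) (nat_lit 0) (nat_lit 4748744436) (nat_lit 51) (nat_lit 5) (nat_lit 54) (nat_lit 4) (nat_lit 51) (nat_lit 4) (nat_lit 634) (nat_lit 464) (nat_lit 462))) (XT.nd (nat_lit 78) (nat_lit 228) (nat_lit 0) (XT.lf (nat_lit 0) (nat_lit 9550814928) (nat_lit 152) (nat_lit 2385360880) (nat_lit 152) (nat_lit 1131998622) (nat_lit 49) (nat_lit 4) (nat_lit 51) (nat_lit 5) (nat_lit 51) (nat_lit 4) (nat_lit 635) (nat_lit 464) (nat_lit 461)) (XT.lf (nat_lit 0) (nat_lit 5153007980) (nat_lit 228) (nat_lit 4511676570) (nat_lit 0) (nat_lit 3530582491) (nat_lit 46) (nat_lit 5) (nat_lit 49) (nat_lit 4) (nat_lit 46) (nat_lit 4) (nat_lit 636) (nat_lit 464) (nat_lit 460))))))) (XT.nd (nat_lit 80652) (nat_lit 0) (nat_lit 912) (XT.nd (nat_lit 546) (nat_lit 1064) (nat_lit 0) (XT.nd (nat_lit 234) (nat_lit 684) (nat_lit 0) (XT.nd (nat_lit 78) (nat_lit 380) (nat_lit 0)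 (XT.lf (nat_lit 0) (nat_lit 7771590866) (nat_lit 152) (nat_lit 3780716326) (nat_lit 152) (nat_lit 1772370288) (nat_lit 44) (nat_lit 4) (nat_lit 46) (nat_lit 5) (nat_lit 46) (nat_lit 4) (nat_lit 637) (nat_lit 464) (nat_lit 459)) (XT.nd (nat_lit 78) (nat_lit 152) (nat_lit 0) (XT.lf (nat_lit 0) (nat_lit 4565413111) (nat_lit 228) (nat_lit 6665089150) (nat_lit 0) (nat_lit 2225511623) (nat_lit 41) (nat_lit 5) (nat_lit 44) (nat_lit 4) (nat_lit 41) (nat_lit 4) (nat_lit 638) (nat_lit 464) (nat_lit 458)) (XT.lf (nat_lit 0) (nat_lit 5747219184) (nat_lit 152) (nat_lit 5272904542) (nat_lit 152) (nat_lit 2569341501) (nat_lit 39) (nat_lit 4) (nat_lit 41) (nat_lit 5) (nat_lit 41) (nat_lit 4) (nat_lit 639) (nat_lit 464) (nat_lit 457)))) (XT.nd (nat_lit 156) (nat_lit 304) (nat_lit 0) (XT.nd (nat_lit 78) (nat_lit 152) (nat_lit 0) (XT.lf (nat_lit 0) (nat_lit 3822211509) (nat_lit 228) (nat_lit 9080856988) (nat_lit 0) (nat_lit 822119376) (nat_lit 36) (nat_lit 5) (nat_lit 39)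 (nat_lit 4) (nat_lit 36) (nat_lit 4) (nat_lit 640) (nat_lit 464) (nat_lit 456)) (XT.lf (nat_lit 0) (nat_lit 3458166876) (nat_lit 152) (nat_lit 6873701992) (nat_lit 152) (nat_lit 3530923456) (nat_lit 34) (nat_lit 4) (nat_lit 36) (nat_lit 5) (nat_lit 36) (nat_lit 4) (nat_lit 641) (nat_lit 464) (nat_lit 455))) (XT.nd (nat_lit 78) (nat_lit 152) (nat_lit 0) (XT.lf (nat_lit 0) (nat_lit 2219197479) (nat_lit 76) (nat_lit 700576321) (nat_lit 152) (nat_lit 11083187388) (nat_lit 32) (nat_lit 5) (nat_lit 33) (nat_lit 5) (nat_lit 34) (nat_lit 4) (nat_lit 642) (nat_lit 464) (nat_lit 454)) (XT.lf (nat_lit 0) (nat_lit 883870638) (nat_lit 152) (nat_lit 8595295850) (nat_lit 152) (nat_lit 4665761466) (nat_lit 30) (nat_lit 4) (nat_lit 32) (nat_lit 5) (nat_lit 32) (nat_lit 4) (nat_lit 643) (nat_lit 464) (nat_lit 453))))) (XT.nd (nat_lit 312) (nat_lit 608) (nat_lit 0) (XT.nd (nat_lit 156) (nat_lit 304) (nat_lit 0) (XT.nd (nat_lit 78) (nat_lit 76) (nat_lit 0) (XT.lf (nat_lit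 0) (nat_lit 1854240731) (nat_lit 228) (nat_lit 500557372) (nat_lit 76) (nat_lit 11934714639) (nat_lit 29) (nat_lit 5) (nat_lit 32) (nat_lit 5) (nat_lit 30) (nat_lit 4) (nat_lit 644) (nat_lit 464) (nat_lit 452)) (XT.lf (nat_lit 0) (nat_lit 8465957930) (nat_lit 152) (nat_lit 1971143300) (nat_lit 0) (nat_lit 3998795886) (nat_lit 28) (nat_lit 5) (nat_lit 30) (nat_lit 4) (nat_lit 28) (nat_lit 4) (nat_lit 645) (nat_lit 464) (nat_lit 451))) (XT.nd (nat_lit 78) (nat_lit 76) (nat_lit 0) (XT.lf (nat_lit 0) (nat_lit 623978044) (nat_lit 228) (nat_lit 3505055530) (nat_lit 76) (nat_lit 10455945542) (nat_lit 25) (nat_lit 5) (nat_lit 28) (nat_lit 5) (nat_lit 26) (nat_lit 4) (nat_lit 646) (nat_lit 464) (nat_lit 450)) (XT.lf (nat_lit 0) (nat_lit 7277443935) (nat_lit 152) (nat_lit 5140008799) (nat_lit 0) (nat_lit 2318649105) (nat_lit 24) (nat_lit 5) (nat_lit 26) (nat_lit 4) (nat_lit 24) (nat_lit 4) (nat_lit 647) (nat_lit 464) (nat_lit 449)))) (XT.nd (nat_lit 156) (nat_lit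 304) (nat_lit 0) (XT.nd (nat_lit 78) (nat_lit 152) (nat_lit 0) (XT.lf (nat_lit 0) (nat_lit 8038031914) (nat_lit 152) (nat_lit 6045867100) (nat_lit 152) (nat_lit 805950061) (nat_lit 22) (nat_lit 4) (nat_lit 24) (nat_lit 5) (nat_lit 24) (nat_lit 4) (nat_lit 648) (nat_lit 464) (nat_lit 448)) (XT.lf (nat_lit 0) (nat_lit 5897610694) (nat_lit 152) (nat_lit 8658128764) (nat_lit 0) (nat_lit 490231236) (nat_lit 20) (nat_lit 5) (nat_lit 22) (nat_lit 4) (nat_lit 20) (nat_lit 4) (nat_lit 649) (nat_lit 464) (nat_lit 447))) (XT.nd (nat_lit 78) (nat_lit 152) (nat_lit 0) (XT.lf (nat_lit 0) (nat_lit 4638931205) (nat_lit 152) (nat_lit 8118898521) (nat_lit 152) (nat_lit 2446611327) (nat_lit 18) (nat_lit 4) (nat_lit 20) (nat_lit 5) (nat_lit 20) (nat_lit 4) (nat_lit 650) (nat_lit 464) (nat_lit 446)) (XT.lf (nat_lit 0) (nat_lit 2805108520) (nat_lit 76) (nat_lit 1520193054) (nat_lit 152) (nat_lit 11040335829) (nat_lit 16) (nat_lit 5) (nat_lit 17) (nat_lit 5) (nat_lit 18) (nat_lit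 4) (nat_lit 651) (nat_lit 464) (nat_lit 445)))))) (XT.nd (nat_lit 624) (nat_lit 1216) (nat_lit 0) (XT.nd (nat_lit 312) (nat_lit 760) (nat_lit 0) (XT.nd (nat_lit 156) (nat_lit 380) (nat_lit 0) (XT.nd (nat_lit 78) (nat_lit 76) (nat_lit 0) (XT.lf (nat_lit 0) (nat_lit 323567206) (nat_lit 228) (nat_lit 2953275625) (nat_lit 228) (nat_lit 2953275625) (nat_lit 60) (nat_lit 4) (nat_lit 63) (nat_lit 5) (nat_lit 63) (nat_lit 4) (nat_lit 630) (nat_lit 465) (nat_lit 465)) (XT.lf (nat_lit 0) (nat_lit 158058968) (nat_lit 304) (nat_lit 132888315) (nat_lit 76) (nat_lit 12288104747) (nat_lit 59) (nat_lit 5) (nat_lit 63) (nat_lit 5) (nat_lit 60) (nat_lit 4) (nat_lit 631) (nat_lit 465) (nat_lit 464))) (XT.nd (nat_lit 78) (nat_lit 228) (nat_lit 0) (XT.lf (nat_lit 0) (nat_lit 6291337123) (nat_lit 228) (nat_lit 994170398) (nat_lit 0) (nat_lit 5413426499) (nat_lit 57) (nat_lit 5) (nat_lit 60) (nat_lit 4) (nat_lit 57) (nat_lit 4) (nat_lit 632) (nat_lit 465) (nat_lit 463)) (XT.lf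 (nat_lit 0) (nat_lit 10946465434) (nat_lit 228) (nat_lit 1589486786) (nat_lit 228) (nat_lit 285488692) (nat_lit 54) (nat_lit 4) (nat_lit 57) (nat_lit 5) (nat_lit 57) (nat_lit 4) (nat_lit 633) (nat_lit 465) (nat_lit 462)))) (XT.nd (nat_lit 156) (nat_lit 380) (nat_lit 0) (XT.nd (nat_lit 78) (nat_lit 152) (nat_lit 0) (XT.lf (nat_lit 0) (nat_lit 5895978774) (nat_lit 228) (nat_lit 2841337306) (nat_lit 0) (nat_lit 4208007296) (nat_lit 51) (nat_lit 5) (nat_lit 54) (nat_lit 4) (nat_lit 51) (nat_lit 4) (nat_lit 634) (nat_lit 465) (nat_lit 461)) (XT.lf (nat_lit 0) (nat_lit 9229789839) (nat_lit 152) (nat_lit 2965687644) (nat_lit 152) (nat_lit 876204426) (nat_lit 49) (nat_lit 4) (nat_lit 51) (nat_lit 5) (nat_lit 51) (nat_lit 4) (nat_lit 635) (nat_lit 465) (nat_lit 460))) (XT.nd (nat_lit 78) (nat_lit 152) (nat_lit 0) (XT.lf (nat_lit 0) (nat_lit 5356817780) (nat_lit 228) (nat_lit 4920512153) (nat_lit 0) (nat_lit 2922384272) (nat_lit 46) (nat_lit 5) (nat_lit 49) (nat_lit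 4) (nat_lit 46) (nat_lit 4) (nat_lit 636) (nat_lit 465) (nat_lit 459)) (XT.lf (nat_lit 0) (nat_lit 7279277733) (nat_lit 152) (nat_lit 4431767816) (nat_lit 152) (nat_lit 1618980828) (nat_lit 44) (nat_lit 4) (nat_lit 46) (nat_lit 5) (nat_lit 46) (nat_lit 4) (nat_lit 637) (nat_lit 465) (nat_lit 458))))) (XT.nd (nat_lit 312) (nat_lit 456) (nat_lit 0) (XT.nd (nat_lit 156) (nat_lit 380) (nat_lit 0) (XT.nd (nat_lit 78) (nat_lit 152) (nat_lit 0) (XT.lf (nat_lit 0) (nat_lit 4666702596) (nat_lit 228) (nat_lit 7250235582) (nat_lit 0) (nat_lit 1545406741) (nat_lit 41) (nat_lit 5) (nat_lit 44) (nat_lit 4) (nat_lit 41) (nat_lit 4) (nat_lit 638) (nat_lit 465) (nat_lit 457)) (XT.lf (nat_lit 0) (nat_lit 5076105096) (nat_lit 152) (nat_lit 5999220002) (nat_lit 152) (nat_lit 2521393213) (nat_lit 39) (nat_lit 4) (nat_lit 41) (nat_lit 5) (nat_lit 41) (nat_lit 4) (nat_lit 639) (nat_lit 465) (nat_lit 456))) (XT.nd (nat_lit 78) (nat_lit 152) (nat_lit 0) (XT.lf (nat_lit 0) (nat_lit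 3817895940) (nat_lit 228) (nat_lit 9849996337) (nat_lit 0) (nat_lit 65575429) (nat_lit 36) (nat_lit 5) (nat_lit 39) (nat_lit 4) (nat_lit 36) (nat_lit 4) (nat_lit 640) (nat_lit 465) (nat_lit 455)) (XT.lf (nat_lit 0) (nat_lit 2600476154) (nat_lit 152) (nat_lit 7679913559) (nat_lit 152) (nat_lit 3591625986) (nat_lit 34) (nat_lit 4) (nat_lit 36) (nat_lit 5) (nat_lit 36) (nat_lit 4) (nat_lit 641) (nat_lit 465) (nat_lit 454)))) (XT.nd (nat_lit 156) (nat_lit 304) (nat_lit 0) (XT.nd (nat_lit 78) (nat_lit 0) (nat_lit 0) (XT.lf (nat_lit 0) (nat_lit 1262787523) (nat_lit 76) (nat_lit 1549318699) (nat_lit 152) (nat_lit 11201041706) (nat_lit 32) (nat_lit 5) (nat_lit 33) (nat_lit 5) (nat_lit 34) (nat_lit 4) (nat_lit 642) (nat_lit 465) (nat_lit 453)) (XT.lf (nat_lit 0) (nat_lit 9318782815) (nat_lit 152) (nat_lit 166239029) (nat_lit 0) (nat_lit 4671147425) (nat_lit 32) (nat_lit 5) (nat_lit 34) (nat_lit 4) (nat_lit 32) (nat_lit 4) (nat_lit 643) (nat_lit 465) (nat_lit 452)))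 (XT.nd (nat_lit 78) (nat_lit 76) (nat_lit 0) (XT.lf (nat_lit 0) (nat_lit 1642339755) (nat_lit 228) (nat_lit 1640490718) (nat_lit 76) (nat_lit 11018796653) (nat_lit 29) (nat_lit 5) (nat_lit 32) (nat_lit 5) (nat_lit 30) (nat_lit 4) (nat_lit 644) (nat_lit 465) (nat_lit 451)) (XT.lf (nat_lit 0) (nat_lit 8199136183) (nat_lit 152) (nat_lit 3209967929) (nat_lit 0) (nat_lit 3040006042) (nat_lit 28) (nat_lit 5) (nat_lit 30) (nat_lit 4) (nat_lit 28) (nat_lit 4) (nat_lit 645) (nat_lit 465) (nat_lit 450))))))))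
noncomputable def xc2 : XT := (XT.nd (nat_lit 160914) (nat_lit 0) (nat_lit 76) (XT.nd (nat_lit 80496) (nat_lit 0) (nat_lit 76) (XT.nd (nat_lit 79872) (nat_lit 0) (nat_lit 2280) (XT.nd (nat_lit 234) (nat_lit 456) (nat_lit 0) (XT.nd (nat_lit 78) (nat_lit 228) (nat_lit 0) (XT.lf (nat_lit 0) (nat_lit 298104193) (nat_lit 228) (nat_lit 4849439215) (nat_lit 76) (nat_lit 9451675575) (nat_lit 25) (nat_lit 5) (nat_lit 28) (nat_lit 5) (nat_lit 26) (nat_lit 4) (nat_lit 646) (nat_lit 465) (nat_lit 449)) (XT.nd (nat_lit 78) (nat_lit 152) (nat_lit 0) (XT.lf (nat_lit 0) (nat_lit 6894821618) (nat_lit 152) (nat_lit 6587671253) (nat_lit 0) (nat_lit 1268984030) (nat_lit 24) (nat_lit 5) (nat_lit 26) (nat_lit 4) (nat_lit 24) (nat_lit 4) (nat_lit 647) (nat_lit 465) (nat_lit 448)) (XT.lf (nat_lit 0) (nat_lit 6493974484) (nat_lit 152) (nat_lit 7156853225) (nat_lit 152) (nat_lit 1255405629) (nat_lit 22) (nat_lit 4) (nat_lit 24) (nat_lit 5) (nat_lit 24) (nat_lit 4) (nat_lit 648)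 (nat_lit 465) (nat_lit 447)))) (XT.nd (nat_lit 156) (nat_lit 152) (nat_lit 0) (XT.nd (nat_lit 78) (nat_lit 152) (nat_lit 0) (XT.lf (nat_lit 0) (nat_lit 4735716658) (nat_lit 76) (nat_lit 663971532) (nat_lit 152) (nat_lit 9663812575) (nat_lit 20) (nat_lit 5) (nat_lit 21) (nat_lit 5) (nat_lit 22) (nat_lit 4) (nat_lit 649) (nat_lit 465) (nat_lit 446)) (XT.lf (nat_lit 0) (nat_lit 2874191848) (nat_lit 152) (nat_lit 9329627689) (nat_lit 152) (nat_lit 3019273549) (nat_lit 18) (nat_lit 4) (nat_lit 20) (nat_lit 5) (nat_lit 20) (nat_lit 4) (nat_lit 650) (nat_lit 465) (nat_lit 445))) (XT.nd (nat_lit 79404) (nat_lit 0) (nat_lit 3800) (XT.lf (nat_lit 0) (nat_lit 924486528) (nat_lit 76) (nat_lit 2783167785) (nat_lit 152) (nat_lit 11677759597) (nat_lit 16) (nat_lit 5) (nat_lit 17) (nat_lit 5) (nat_lit 18) (nat_lit 4) (nat_lit 651) (nat_lit 465) (nat_lit 444)) (XT.lf (nat_lit 0) (nat_lit 1088679797) (nat_lit 228) (nat_lit 2512698688) (nat_lit 228) (nat_lit 2512698688)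 (nat_lit 66) (nat_lit 4) (nat_lit 69) (nat_lit 5) (nat_lit 69) (nat_lit 4) (nat_lit 628) (nat_lit 466) (nat_lit 466))))) (XT.nd (nat_lit 312) (nat_lit 836) (nat_lit 0) (XT.nd (nat_lit 156) (nat_lit 228) (nat_lit 0) (XT.nd (nat_lit 78) (nat_lit 228) (nat_lit 0) (XT.lf (nat_lit 0) (nat_lit 937650105) (nat_lit 228) (nat_lit 10929902102) (nat_lit 0) (nat_lit 476439324) (nat_lit 63) (nat_lit 5) (nat_lit 66) (nat_lit 4) (nat_lit 63) (nat_lit 4) (nat_lit 629) (nat_lit 466) (nat_lit 465)) (XT.lf (nat_lit 0) (nat_lit 569587391) (nat_lit 228) (nat_lit 6402442712) (nat_lit 228) (nat_lit 5489064499) (nat_lit 60) (nat_lit 4) (nat_lit 63) (nat_lit 5) (nat_lit 63) (nat_lit 4) (nat_lit 630) (nat_lit 466) (nat_lit 464))) (XT.nd (nat_lit 78) (nat_lit 152) (nat_lit 0) (XT.lf (nat_lit 0) (nat_lit 527765814) (nat_lit 304) (nat_lit 290592672) (nat_lit 76) (nat_lit 11762343461) (nat_lit 59) (nat_lit 5) (nat_lit 63) (nat_lit 5) (nat_lit 60) (nat_lit 4) (nat_lit 631) (nat_lit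 466) (nat_lit 463)) (XT.lf (nat_lit 0) (nat_lit 6614384773) (nat_lit 228) (nat_lit 1228913441) (nat_lit 0) (nat_lit 4858219247) (nat_lit 57) (nat_lit 5) (nat_lit 60) (nat_lit 4) (nat_lit 57) (nat_lit 4) (nat_lit 632) (nat_lit 466) (nat_lit 462)))) (XT.nd (nat_lit 156) (nat_lit 380) (nat_lit 0) (XT.nd (nat_lit 78) (nat_lit 228) (nat_lit 0) (XT.lf (nat_lit 0) (nat_lit 10632404020) (nat_lit 228) (nat_lit 2183193527) (nat_lit 228) (nat_lit 9295188) (nat_lit 54) (nat_lit 4) (nat_lit 57) (nat_lit 5) (nat_lit 57) (nat_lit 4) (nat_lit 633) (nat_lit 466) (nat_lit 461)) (XT.lf (nat_lit 0) (nat_lit 6120564405) (nat_lit 228) (nat_lit 3241355181) (nat_lit 0) (nat_lit 3587779783) (nat_lit 51) (nat_lit 5) (nat_lit 54) (nat_lit 4) (nat_lit 51) (nat_lit 4) (nat_lit 634) (nat_lit 466) (nat_lit 460))) (XT.nd (nat_lit 78) (nat_lit 228) (nat_lit 0) (XT.lf (nat_lit 0) (nat_lit 8748094847) (nat_lit 152) (nat_lit 3627636790) (nat_lit 152) (nat_lit 701213208) (nat_lit 49) (nat_lit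 4) (nat_lit 51) (nat_lit 5) (nat_lit 51) (nat_lit 4) (nat_lit 635) (nat_lit 466) (nat_lit 459)) (XT.lf (nat_lit 0) (nat_lit 5480116237) (nat_lit 228) (nat_lit 5493106412) (nat_lit 0) (nat_lit 2232720029) (nat_lit 46) (nat_lit 5) (nat_lit 49) (nat_lit 4) (nat_lit 46) (nat_lit 4) (nat_lit 636) (nat_lit 466) (nat_lit 458)))))) (XT.nd (nat_lit 624) (nat_lit 912) (nat_lit 0) (XT.nd (nat_lit 312) (nat_lit 532) (nat_lit 0) (XT.nd (nat_lit 156) (nat_lit 380) (nat_lit 0) (XT.nd (nat_lit 78) (nat_lit 228) (nat_lit 0) (XT.lf (nat_lit 0) (nat_lit 6622559940) (nat_lit 152) (nat_lit 5166466277) (nat_lit 152) (nat_lit 1548135286) (nat_lit 44) (nat_lit 4) (nat_lit 46) (nat_lit 5) (nat_lit 46) (nat_lit 4) (nat_lit 637) (nat_lit 466) (nat_lit 457)) (XT.lf (nat_lit 0) (nat_lit 4685721665) (nat_lit 228) (nat_lit 8002960008) (nat_lit 0) (nat_lit 781807406) (nat_lit 41) (nat_lit 5) (nat_lit 44) (nat_lit 4) (nat_lit 41) (nat_lit 4) (nat_lit 638) (nat_lit 466) (nat_lit 456)))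 (XT.nd (nat_lit 78) (nat_lit 228) (nat_lit 0) (XT.lf (nat_lit 0) (nat_lit 4236719155) (nat_lit 152) (nat_lit 6811262617) (nat_lit 152) (nat_lit 2557808225) (nat_lit 39) (nat_lit 4) (nat_lit 41) (nat_lit 5) (nat_lit 41) (nat_lit 4) (nat_lit 639) (nat_lit 466) (nat_lit 455)) (XT.lf (nat_lit 0) (nat_lit 2947713333) (nat_lit 152) (nat_lit 786867917) (nat_lit 228) (nat_lit 10008910685) (nat_lit 36) (nat_lit 5) (nat_lit 38) (nat_lit 5) (nat_lit 39) (nat_lit 4) (nat_lit 640) (nat_lit 466) (nat_lit 454)))) (XT.nd (nat_lit 156) (nat_lit 228) (nat_lit 0) (XT.nd (nat_lit 78) (nat_lit 152) (nat_lit 0) (XT.lf (nat_lit 0) (nat_lit 1570507667) (nat_lit 152) (nat_lit 8573991947) (nat_lit 152) (nat_lit 3738592087) (nat_lit 34) (nat_lit 4) (nat_lit 36) (nat_lit 5) (nat_lit 36) (nat_lit 4) (nat_lit 641) (nat_lit 466) (nat_lit 453)) (XT.lf (nat_lit 0) (nat_lit 132037348) (nat_lit 76) (nat_lit 2486951889) (nat_lit 152) (nat_lit 11406215599) (nat_lit 32) (nat_lit 5) (nat_lit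 33) (nat_lit 5) (nat_lit 34) (nat_lit 4) (nat_lit 642) (nat_lit 466) (nat_lit 452))) (XT.nd (nat_lit 78) (nat_lit 228) (nat_lit 0) (XT.lf (nat_lit 0) (nat_lit 9078924347) (nat_lit 152) (nat_lit 1378871561) (nat_lit 0) (nat_lit 3711365348) (nat_lit 32) (nat_lit 5) (nat_lit 34) (nat_lit 4) (nat_lit 32) (nat_lit 4) (nat_lit 643) (nat_lit 466) (nat_lit 451)) (XT.lf (nat_lit 0) (nat_lit 1344161114) (nat_lit 228) (nat_lit 2956649266) (nat_lit 76) (nat_lit 10014814693) (nat_lit 29) (nat_lit 5) (nat_lit 32) (nat_lit 5) (nat_lit 30) (nat_lit 4) (nat_lit 644) (nat_lit 466) (nat_lit 450))))) (XT.nd (nat_lit 312) (nat_lit 380) (nat_lit 0) (XT.nd (nat_lit 156) (nat_lit 304) (nat_lit 0) (XT.nd (nat_lit 78) (nat_lit 152) (nat_lit 0) (XT.lf (nat_lit 0) (nat_lit 7845096427) (nat_lit 152) (nat_lit 4627154132) (nat_lit 0) (nat_lit 1991975000) (nat_lit 28) (nat_lit 5) (nat_lit 30) (nat_lit 4) (nat_lit 28) (nat_lit 4) (nat_lit 645) (nat_lit 466) (nat_lit 449)) (XT.lf (nat_lit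 0) (nat_lit 8240228338) (nat_lit 152) (nat_lit 6257501338) (nat_lit 152) (nat_lit 117635259) (nat_lit 26) (nat_lit 4) (nat_lit 28) (nat_lit 5) (nat_lit 28) (nat_lit 4) (nat_lit 646) (nat_lit 466) (nat_lit 448))) (XT.nd (nat_lit 78) (nat_lit 152) (nat_lit 0) (XT.lf (nat_lit 0) (nat_lit 6422890491) (nat_lit 152) (nat_lit 8218098614) (nat_lit 0) (nat_lit 127803934) (nat_lit 24) (nat_lit 5) (nat_lit 26) (nat_lit 4) (nat_lit 24) (nat_lit 4) (nat_lit 647) (nat_lit 466) (nat_lit 447)) (XT.lf (nat_lit 0) (nat_lit 4766236166) (nat_lit 152) (nat_lit 8361811476) (nat_lit 152) (nat_lit 1796519028) (nat_lit 22) (nat_lit 4) (nat_lit 24) (nat_lit 5) (nat_lit 24) (nat_lit 4) (nat_lit 648) (nat_lit 466) (nat_lit 446)))) (XT.nd (nat_lit 156) (nat_lit 76) (nat_lit 0) (XT.nd (nat_lit 78) (nat_lit 152) (nat_lit 0) (XT.lf (nat_lit 0) (nat_lit 2894321389) (nat_lit 76) (nat_lit 1919798200) (nat_lit 152) (nat_lit 10268816021) (nat_lit 20) (nat_lit 5) (nat_lit 21) (nat_lit 5) (nat_lit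 22) (nat_lit 4) (nat_lit 649) (nat_lit 466) (nat_lit 445)) (XT.lf (nat_lit 0) (nat_lit 921145861) (nat_lit 152) (nat_lit 10636742630) (nat_lit 152) (nat_lit 3685846895) (nat_lit 18) (nat_lit 4) (nat_lit 20) (nat_lit 5) (nat_lit 20) (nat_lit 4) (nat_lit 650) (nat_lit 466) (nat_lit 444))) (XT.nd (nat_lit 79248) (nat_lit 0) (nat_lit 4180) (XT.lf (nat_lit 0) (nat_lit 3004325365) (nat_lit 228) (nat_lit 1131786973) (nat_lit 76) (nat_lit 11270940582) (nat_lit 17) (nat_lit 5) (nat_lit 20) (nat_lit 5) (nat_lit 18) (nat_lit 4) (nat_lit 651) (nat_lit 466) (nat_lit 443)) (XT.lf (nat_lit 0) (nat_lit 1834374275) (nat_lit 228) (nat_lit 2083268200) (nat_lit 228) (nat_lit 2083268200) (nat_lit 72) (nat_lit 4) (nat_lit 75) (nat_lit 5) (nat_lit 75) (nat_lit 4) (nat_lit 626) (nat_lit 467) (nat_lit 467))))))) (XT.nd (nat_lit 1170) (nat_lit 1292) (nat_lit 0) (XT.nd (nat_lit 546) (nat_lit 1444) (nat_lit 0) (XT.nd (nat_lit 234) (nat_lit 760) (nat_lit 0) (XT.nd (nat_lit 78) (nat_lit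 456) (nat_lit 0) (XT.lf (nat_lit 0) (nat_lit 1699503774) (nat_lit 228) (nat_lit 9195525788) (nat_lit 0) (nat_lit 1219660078) (nat_lit 69) (nat_lit 5) (nat_lit 72) (nat_lit 4) (nat_lit 69) (nat_lit 4) (nat_lit 627) (nat_lit 467) (nat_lit 466)) (XT.nd (nat_lit 78) (nat_lit 228) (nat_lit 0) (XT.lf (nat_lit 0) (nat_lit 2101515913) (nat_lit 228) (nat_lit 5538880791) (nat_lit 228) (nat_lit 4588602098) (nat_lit 66) (nat_lit 4) (nat_lit 69) (nat_lit 5) (nat_lit 69) (nat_lit 4) (nat_lit 628) (nat_lit 467) (nat_lit 465)) (XT.lf (nat_lit 0) (nat_lit 1260799703) (nat_lit 152) (nat_lit 62115730) (nat_lit 228) (nat_lit 11022780224) (nat_lit 63) (nat_lit 5) (nat_lit 65) (nat_lit 5) (nat_lit 66) (nat_lit 4) (nat_lit 629) (nat_lit 467) (nat_lit 464)))) (XT.nd (nat_lit 156) (nat_lit 456) (nat_lit 0) (XT.nd (nat_lit 78) (nat_lit 76) (nat_lit 0) (XT.lf (nat_lit 0) (nat_lit 336915916) (nat_lit 228) (nat_lit 6976933352) (nat_lit 228) (nat_lit 5149818739) (nat_lit 60) (nat_lit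 4) (nat_lit 63) (nat_lit 5) (nat_lit 63) (nat_lit 4) (nat_lit 630) (nat_lit 467) (nat_lit 463)) (XT.lf (nat_lit 0) (nat_lit 821087313) (nat_lit 304) (nat_lit 603127460) (nat_lit 76) (nat_lit 11159846369) (nat_lit 59) (nat_lit 5) (nat_lit 63) (nat_lit 5) (nat_lit 60) (nat_lit 4) (nat_lit 631) (nat_lit 467) (nat_lit 462))) (XT.nd (nat_lit 78) (nat_lit 304) (nat_lit 0) (XT.lf (nat_lit 0) (nat_lit 6860339657) (nat_lit 228) (nat_lit 1620254130) (nat_lit 0) (nat_lit 4225230537) (nat_lit 57) (nat_lit 5) (nat_lit 60) (nat_lit 4) (nat_lit 57) (nat_lit 4) (nat_lit 632) (nat_lit 467) (nat_lit 461)) (XT.lf (nat_lit 0) (nat_lit 185404514) (nat_lit 304) (nat_lit 2670133976) (nat_lit 76) (nat_lit 9974509278) (nat_lit 53) (nat_lit 5) (nat_lit 57) (nat_lit 5) (nat_lit 54) (nat_lit 4) (nat_lit 633) (nat_lit 467) (nat_lit 460))))) (XT.nd (nat_lit 312) (nat_lit 760) (nat_lit 0) (XT.nd (nat_lit 156) (nat_lit 380) (nat_lit 0) (XT.nd (nat_lit 78) (nat_lit 152) (nat_lit 0) (XT.lf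 (nat_lit 0) (nat_lit 6266409684) (nat_lit 228) (nat_lit 3801599807) (nat_lit 0) (nat_lit 2887818670) (nat_lit 51) (nat_lit 5) (nat_lit 54) (nat_lit 4) (nat_lit 51) (nat_lit 4) (nat_lit 634) (nat_lit 467) (nat_lit 459)) (XT.lf (nat_lit 0) (nat_lit 8105541052) (nat_lit 152) (nat_lit 4371467909) (nat_lit 152) (nat_lit 606956345) (nat_lit 49) (nat_lit 4) (nat_lit 51) (nat_lit 5) (nat_lit 51) (nat_lit 4) (nat_lit 635) (nat_lit 467) (nat_lit 458))) (XT.nd (nat_lit 78) (nat_lit 152) (nat_lit 0) (XT.lf (nat_lit 0) (nat_lit 5522951702) (nat_lit 228) (nat_lit 6229683892) (nat_lit 0) (nat_lit 1461319306) (nat_lit 46) (nat_lit 5) (nat_lit 49) (nat_lit 4) (nat_lit 46) (nat_lit 4) (nat_lit 636) (nat_lit 467) (nat_lit 457)) (XT.lf (nat_lit 0) (nat_lit 5801179951) (nat_lit 152) (nat_lit 5985099826) (nat_lit 152) (nat_lit 1559805878) (nat_lit 44) (nat_lit 4) (nat_lit 46) (nat_lit 5) (nat_lit 46) (nat_lit 4) (nat_lit 637) (nat_lit 467) (nat_lit 456)))) (XT.nd (nat_lit 156)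 (nat_lit 380) (nat_lit 0) (XT.nd (nat_lit 78) (nat_lit 152) (nat_lit 0) (XT.lf (nat_lit 0) (nat_lit 4556451825) (nat_lit 152) (nat_lit 66457435) (nat_lit 228) (nat_lit 8857531663) (nat_lit 41) (nat_lit 5) (nat_lit 43) (nat_lit 5) (nat_lit 44) (nat_lit 4) (nat_lit 638) (nat_lit 467) (nat_lit 455)) (XT.lf (nat_lit 0) (nat_lit 3228732191) (nat_lit 152) (nat_lit 7709350834) (nat_lit 152) (nat_lit 2678600820) (nat_lit 39) (nat_lit 4) (nat_lit 41) (nat_lit 5) (nat_lit 41) (nat_lit 4) (nat_lit 639) (nat_lit 467) (nat_lit 454))) (XT.nd (nat_lit 78) (nat_lit 152) (nat_lit 0) (XT.lf (nat_lit 0) (nat_lit 1840886359) (nat_lit 152) (nat_lit 1727234153) (nat_lit 228) (nat_lit 10187226268) (nat_lit 36) (nat_lit 5) (nat_lit 38) (nat_lit 5) (nat_lit 39) (nat_lit 4) (nat_lit 640) (nat_lit 467) (nat_lit 453)) (XT.lf (nat_lit 0) (nat_lit 367857506) (nat_lit 152) (nat_lit 9556287777) (nat_lit 152) (nat_lit 3971879394) (nat_lit 34) (nat_lit 4) (nat_lit 36) (nat_lit 5) (nat_lit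 36) (nat_lit 4) (nat_lit 641) (nat_lit 467) (nat_lit 452)))))) (XT.nd (nat_lit 624) (nat_lit 228) (nat_lit 0) (XT.nd (nat_lit 312) (nat_lit 608) (nat_lit 0) (XT.nd (nat_lit 156) (nat_lit 304) (nat_lit 0) (XT.nd (nat_lit 78) (nat_lit 76) (nat_lit 0) (XT.lf (nat_lit 0) (nat_lit 2347966232) (nat_lit 228) (nat_lit 1158105858) (nat_lit 76) (nat_lit 10532912169) (nat_lit 33) (nat_lit 5) (nat_lit 36) (nat_lit 5) (nat_lit 34) (nat_lit 4) (nat_lit 642) (nat_lit 467) (nat_lit 451)) (XT.lf (nat_lit 0) (nat_lit 8753758347) (nat_lit 152) (nat_lit 2766094621) (nat_lit 0) (nat_lit 2664170815) (nat_lit 32) (nat_lit 5) (nat_lit 34) (nat_lit 4) (nat_lit 32) (nat_lit 4) (nat_lit 643) (nat_lit 467) (nat_lit 450))) (XT.nd (nat_lit 78) (nat_lit 76) (nat_lit 0) (XT.lf (nat_lit 0) (nat_lit 959587876) (nat_lit 228) (nat_lit 4449549158) (nat_lit 76) (nat_lit 8922375040) (nat_lit 29) (nat_lit 5) (nat_lit 32) (nat_lit 5) (nat_lit 30) (nat_lit 4) (nat_lit 644) (nat_lit 467) (nat_lit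 449)) (XT.lf (nat_lit 0) (nat_lit 7403699822) (nat_lit 152) (nat_lit 6223257667) (nat_lit 0) (nat_lit 854291768) (nat_lit 28) (nat_lit 5) (nat_lit 30) (nat_lit 4) (nat_lit 28) (nat_lit 4) (nat_lit 645) (nat_lit 467) (nat_lit 448)))) (XT.nd (nat_lit 156) (nat_lit 304) (nat_lit 0) (XT.nd (nat_lit 78) (nat_lit 152) (nat_lit 0) (XT.lf (nat_lit 0) (nat_lit 6548862440) (nat_lit 152) (nat_lit 7457527769) (nat_lit 152) (nat_lit 626997506) (nat_lit 26) (nat_lit 4) (nat_lit 28) (nat_lit 5) (nat_lit 28) (nat_lit 4) (nat_lit 646) (nat_lit 467) (nat_lit 447)) (XT.lf (nat_lit 0) (nat_lit 4748709372) (nat_lit 76) (nat_lit 1120028074) (nat_lit 152) (nat_lit 8919174156) (nat_lit 24) (nat_lit 5) (nat_lit 25) (nat_lit 5) (nat_lit 26) (nat_lit 4) (nat_lit 647) (nat_lit 467) (nat_lit 446))) (XT.nd (nat_lit 78) (nat_lit 152) (nat_lit 0) (XT.lf (nat_lit 0) (nat_lit 2854139416) (nat_lit 152) (nat_lit 9661214385) (nat_lit 152) (nat_lit 2429502461) (nat_lit 22) (nat_lit 4) (nat_lit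 24) (nat_lit 5) (nat_lit 24) (nat_lit 4) (nat_lit 648) (nat_lit 467) (nat_lit 445)) (XT.lf (nat_lit 0) (nat_lit 866223719) (nat_lit 76) (nat_lit 3271226334) (nat_lit 152) (nat_lit 10966897305) (nat_lit 20) (nat_lit 5) (nat_lit 21) (nat_lit 5) (nat_lit 22) (nat_lit 4) (nat_lit 649) (nat_lit 467) (nat_lit 444))))) (XT.nd (nat_lit 79326) (nat_lit 0) (nat_lit 3496) (XT.nd (nat_lit 79170) (nat_lit 0) (nat_lit 4408) (XT.nd (nat_lit 78) (nat_lit 228) (nat_lit 0) (XT.lf (nat_lit 0) (nat_lit 10827710645) (nat_lit 152) (nat_lit 1204959381) (nat_lit 0) (nat_lit 3233547473) (nat_lit 20) (nat_lit 5) (nat_lit 22) (nat_lit 4) (nat_lit 20) (nat_lit 4) (nat_lit 650) (nat_lit 467) (nat_lit 443)) (XT.lf (nat_lit 0) (nat_lit 2214835781) (nat_lit 228) (nat_lit 3364928693) (nat_lit 76) (nat_lit 9850802505) (nat_lit 17) (nat_lit 5) (nat_lit 20) (nat_lit 5) (nat_lit 18) (nat_lit 4) (nat_lit 651) (nat_lit 467) (nat_lit 442))) (XT.nd (nat_lit 78) (nat_lit 304) (nat_lit 0) (XT.lf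 (nat_lit 0) (nat_lit 2563562776) (nat_lit 228) (nat_lit 1663498605) (nat_lit 228) (nat_lit 1663498605) (nat_lit 79) (nat_lit 4) (nat_lit 82) (nat_lit 5) (nat_lit 82) (nat_lit 4) (nat_lit 624) (nat_lit 468) (nat_lit 468)) (XT.lf (nat_lit 0) (nat_lit 2443854112) (nat_lit 304) (nat_lit 7502601336) (nat_lit 0) (nat_lit 1944624731) (nat_lit 75) (nat_lit 5) (nat_lit 79) (nat_lit 4) (nat_lit 75) (nat_lit 4) (nat_lit 625) (nat_lit 468) (nat_lit 467)))) (XT.nd (nat_lit 156) (nat_lit 456) (nat_lit 0) (XT.nd (nat_lit 78) (nat_lit 228) (nat_lit 0) (XT.lf (nat_lit 0) (nat_lit 3594582197) (nat_lit 228) (nat_lit 4698370367) (nat_lit 228) (nat_lit 3709700416) (nat_lit 72) (nat_lit 4) (nat_lit 75) (nat_lit 5) (nat_lit 75) (nat_lit 4) (nat_lit 626) (nat_lit 468) (nat_lit 466)) (XT.lf (nat_lit 0) (nat_lit 2104687045) (nat_lit 228) (nat_lit 9346720722) (nat_lit 0) (nat_lit 664967782) (nat_lit 69) (nat_lit 5) (nat_lit 72) (nat_lit 4) (nat_lit 69) (nat_lit 4) (nat_lit 627)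 (nat_lit 468) (nat_lit 465))) (XT.nd (nat_lit 78) (nat_lit 228) (nat_lit 0) (XT.lf (nat_lit 0) (nat_lit 1873955129) (nat_lit 228) (nat_lit 6129253709) (nat_lit 228) (nat_lit 4228323665) (nat_lit 66) (nat_lit 4) (nat_lit 69) (nat_lit 5) (nat_lit 69) (nat_lit 4) (nat_lit 628) (nat_lit 468) (nat_lit 464)) (XT.lf (nat_lit 0) (nat_lit 950859532) (nat_lit 152) (nat_lit 684762748) (nat_lit 228) (nat_lit 10713417580) (nat_lit 63) (nat_lit 5) (nat_lit 65) (nat_lit 5) (nat_lit 66) (nat_lit 4) (nat_lit 629) (nat_lit 468) (nat_lit 463))))))))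
noncomputable def xc3 : XT := (XT.nd (nat_lit 81276) (nat_lit 0) (nat_lit 0) (XT.nd (nat_lit 1170) (nat_lit 912) (nat_lit 0) (XT.nd (nat_lit 546) (nat_lit 1292) (nat_lit 0) (XT.nd (nat_lit 234) (nat_lit 836) (nat_lit 0) (XT.nd (nat_lit 78) (nat_lit 456) (nat_lit 0) (XT.lf (nat_lit 0) (nat_lit 7579608145) (nat_lit 228) (nat_lit 50302758) (nat_lit 0) (nat_lit 4838040616) (nat_lit 63) (nat_lit 5) (nat_lit 66) (nat_lit 4) (nat_lit 63) (nat_lit 4) (nat_lit 630) (nat_lit 468) (nat_lit 462)) (XT.nd (nat_lit 78) (nat_lit 152) (nat_lit 0) (XT.lf (nat_lit 0) (nat_lit 1038138493) (nat_lit 304) (nat_lit 1070615241) (nat_lit 76) (nat_lit 10480377198) (nat_lit 59) (nat_lit 5) (nat_lit 63) (nat_lit 5) (nat_lit 60) (nat_lit 4) (nat_lit 631) (nat_lit 468) (nat_lit 461)) (XT.lf (nat_lit 0) (nat_lit 7029298227) (nat_lit 228) (nat_lit 2168345932) (nat_lit 0) (nat_lit 3514212136) (nat_lit 57) (nat_lit 5) (nat_lit 60) (nat_lit 4) (nat_lit 57) (nat_lit 4) (nat_lit 632) (nat_lit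 468) (nat_lit 460)))) (XT.nd (nat_lit 156) (nat_lit 380) (nat_lit 0) (XT.nd (nat_lit 78) (nat_lit 152) (nat_lit 0) (XT.lf (nat_lit 0) (nat_lit 302065230) (nat_lit 304) (nat_lit 3306426064) (nat_lit 76) (nat_lit 9228450185) (nat_lit 53) (nat_lit 5) (nat_lit 57) (nat_lit 5) (nat_lit 54) (nat_lit 4) (nat_lit 633) (nat_lit 468) (nat_lit 459)) (XT.lf (nat_lit 0) (nat_lit 6333571806) (nat_lit 228) (nat_lit 4522290886) (nat_lit 0) (nat_lit 2107849462) (nat_lit 51) (nat_lit 5) (nat_lit 54) (nat_lit 4) (nat_lit 51) (nat_lit 4) (nat_lit 634) (nat_lit 468) (nat_lit 458))) (XT.nd (nat_lit 78) (nat_lit 228) (nat_lit 0) (XT.lf (nat_lit 0) (nat_lit 7301876471) (nat_lit 152) (nat_lit 5197472697) (nat_lit 152) (nat_lit 593396873) (nat_lit 49) (nat_lit 4) (nat_lit 51) (nat_lit 5) (nat_lit 51) (nat_lit 4) (nat_lit 635) (nat_lit 468) (nat_lit 457)) (XT.lf (nat_lit 0) (nat_lit 5485340974) (nat_lit 228) (nat_lit 7130533447) (nat_lit 0) (nat_lit 607879593) (nat_lit 46) (nat_lit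 5) (nat_lit 49) (nat_lit 4) (nat_lit 46) (nat_lit 4) (nat_lit 636) (nat_lit 468) (nat_lit 456))))) (XT.nd (nat_lit 312) (nat_lit 532) (nat_lit 0) (XT.nd (nat_lit 156) (nat_lit 380) (nat_lit 0) (XT.nd (nat_lit 78) (nat_lit 228) (nat_lit 0) (XT.lf (nat_lit 0) (nat_lit 4814815655) (nat_lit 152) (nat_lit 6887989496) (nat_lit 152) (nat_lit 1653997181) (nat_lit 44) (nat_lit 4) (nat_lit 46) (nat_lit 5) (nat_lit 46) (nat_lit 4) (nat_lit 637) (nat_lit 468) (nat_lit 455)) (XT.lf (nat_lit 0) (nat_lit 3473149734) (nat_lit 152) (nat_lit 1010356296) (nat_lit 228) (nat_lit 9008593024) (nat_lit 41) (nat_lit 5) (nat_lit 43) (nat_lit 5) (nat_lit 44) (nat_lit 4) (nat_lit 638) (nat_lit 468) (nat_lit 454))) (XT.nd (nat_lit 78) (nat_lit 228) (nat_lit 0) (XT.lf (nat_lit 0) (nat_lit 2051748913) (nat_lit 152) (nat_lit 8693836846) (nat_lit 152) (nat_lit 2883818365) (nat_lit 39) (nat_lit 4) (nat_lit 41) (nat_lit 5) (nat_lit 41) (nat_lit 4) (nat_lit 639) (nat_lit 468) (nat_lit 453))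 (XT.lf (nat_lit 0) (nat_lit 562996440) (nat_lit 152) (nat_lit 2755020586) (nat_lit 228) (nat_lit 10451028489) (nat_lit 36) (nat_lit 5) (nat_lit 38) (nat_lit 5) (nat_lit 39) (nat_lit 4) (nat_lit 640) (nat_lit 468) (nat_lit 452)))) (XT.nd (nat_lit 156) (nat_lit 304) (nat_lit 0) (XT.nd (nat_lit 78) (nat_lit 228) (nat_lit 0) (XT.lf (nat_lit 0) (nat_lit 9625784558) (nat_lit 228) (nat_lit 994726563) (nat_lit 0) (nat_lit 3290177689) (nat_lit 36) (nat_lit 5) (nat_lit 39) (nat_lit 4) (nat_lit 36) (nat_lit 4) (nat_lit 641) (nat_lit 468) (nat_lit 451)) (XT.lf (nat_lit 0) (nat_lit 1993304227) (nat_lit 228) (nat_lit 2619513962) (nat_lit 76) (nat_lit 9441785946) (nat_lit 33) (nat_lit 5) (nat_lit 36) (nat_lit 5) (nat_lit 34) (nat_lit 4) (nat_lit 642) (nat_lit 468) (nat_lit 450))) (XT.nd (nat_lit 78) (nat_lit 228) (nat_lit 0) (XT.lf (nat_lit 0) (nat_lit 8343157300) (nat_lit 152) (nat_lit 4328452219) (nat_lit 0) (nat_lit 1529153161) (nat_lit 32) (nat_lit 5) (nat_lit 34)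 (nat_lit 4) (nat_lit 32) (nat_lit 4) (nat_lit 643) (nat_lit 468) (nat_lit 449)) (XT.lf (nat_lit 0) (nat_lit 488469227) (nat_lit 228) (nat_lit 6119775845) (nat_lit 76) (nat_lit 7741049286) (nat_lit 29) (nat_lit 5) (nat_lit 32) (nat_lit 5) (nat_lit 30) (nat_lit 4) (nat_lit 644) (nat_lit 468) (nat_lit 448)))))) (XT.nd (nat_lit 79482) (nat_lit 0) (nat_lit 3496) (XT.nd (nat_lit 312) (nat_lit 380) (nat_lit 0) (XT.nd (nat_lit 156) (nat_lit 304) (nat_lit 0) (XT.nd (nat_lit 78) (nat_lit 152) (nat_lit 0) (XT.lf (nat_lit 0) (nat_lit 6498777155) (nat_lit 76) (nat_lit 378453286) (nat_lit 152) (nat_lit 7622908340) (nat_lit 28) (nat_lit 5) (nat_lit 29) (nat_lit 5) (nat_lit 30) (nat_lit 4) (nat_lit 645) (nat_lit 468) (nat_lit 447)) (XT.lf (nat_lit 0) (nat_lit 4677019232) (nat_lit 152) (nat_lit 8750093736) (nat_lit 152) (nat_lit 1226220651) (nat_lit 26) (nat_lit 4) (nat_lit 28) (nat_lit 5) (nat_lit 28) (nat_lit 4) (nat_lit 646) (nat_lit 468) (nat_lit 446))) (XT.nd (nat_lit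 78) (nat_lit 152) (nat_lit 0) (XT.lf (nat_lit 0) (nat_lit 2763086149) (nat_lit 76) (nat_lit 2463233219) (nat_lit 152) (nat_lit 9582637238) (nat_lit 24) (nat_lit 5) (nat_lit 25) (nat_lit 5) (nat_lit 26) (nat_lit 4) (nat_lit 647) (nat_lit 468) (nat_lit 445)) (XT.lf (nat_lit 0) (nat_lit 756934392) (nat_lit 152) (nat_lit 11055571521) (nat_lit 152) (nat_lit 3154604157) (nat_lit 22) (nat_lit 4) (nat_lit 24) (nat_lit 5) (nat_lit 24) (nat_lit 4) (nat_lit 648) (nat_lit 468) (nat_lit 444)))) (XT.nd (nat_lit 156) (nat_lit 228) (nat_lit 0) (XT.nd (nat_lit 78) (nat_lit 76) (nat_lit 0) (XT.lf (nat_lit 0) (nat_lit 3378175236) (nat_lit 228) (nat_lit 1331674432) (nat_lit 76) (nat_lit 10417719515) (nat_lit 21) (nat_lit 5) (nat_lit 24) (nat_lit 5) (nat_lit 22) (nat_lit 4) (nat_lit 649) (nat_lit 468) (nat_lit 443)) (XT.lf (nat_lit 0) (nat_lit 10012282911) (nat_lit 152) (nat_lit 3506405469) (nat_lit 0) (nat_lit 1771874199) (nat_lit 20) (nat_lit 5) (nat_lit 22) (nat_lit 4)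 (nat_lit 20) (nat_lit 4) (nat_lit 650) (nat_lit 468) (nat_lit 442))) (XT.nd (nat_lit 78936) (nat_lit 0) (nat_lit 5244) (XT.lf (nat_lit 0) (nat_lit 1332873578) (nat_lit 228) (nat_lit 5787939182) (nat_lit 76) (nat_lit 8335272599) (nat_lit 17) (nat_lit 5) (nat_lit 20) (nat_lit 5) (nat_lit 18) (nat_lit 4) (nat_lit 651) (nat_lit 468) (nat_lit 441)) (XT.lf (nat_lit 0) (nat_lit 3278996239) (nat_lit 228) (nat_lit 1251986490) (nat_lit 228) (nat_lit 1251986490) (nat_lit 86) (nat_lit 4) (nat_lit 89) (nat_lit 5) (nat_lit 89) (nat_lit 4) (nat_lit 622) (nat_lit 469) (nat_lit 469))))) (XT.nd (nat_lit 312) (nat_lit 684) (nat_lit 0) (XT.nd (nat_lit 156) (nat_lit 532) (nat_lit 0) (XT.nd (nat_lit 78) (nat_lit 228) (nat_lit 0) (XT.lf (nat_lit 0) (nat_lit 3173536553) (nat_lit 304) (nat_lit 5845373090) (nat_lit 0) (nat_lit 2654138304) (nat_lit 82) (nat_lit 5) (nat_lit 86) (nat_lit 4) (nat_lit 82) (nat_lit 4) (nat_lit 623) (nat_lit 469) (nat_lit 468)) (XT.lf (nat_lit 0) (nat_lit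 5054611322) (nat_lit 228) (nat_lit 3877970036) (nat_lit 228) (nat_lit 2849357818) (nat_lit 79) (nat_lit 4) (nat_lit 82) (nat_lit 5) (nat_lit 82) (nat_lit 4) (nat_lit 624) (nat_lit 469) (nat_lit 467))) (XT.nd (nat_lit 78) (nat_lit 228) (nat_lit 0) (XT.lf (nat_lit 0) (nat_lit 2870086015) (nat_lit 304) (nat_lit 7650452504) (nat_lit 0) (nat_lit 1372202094) (nat_lit 75) (nat_lit 5) (nat_lit 79) (nat_lit 4) (nat_lit 75) (nat_lit 4) (nat_lit 625) (nat_lit 469) (nat_lit 466)) (XT.lf (nat_lit 0) (nat_lit 3372054054) (nat_lit 228) (nat_lit 5305410877) (nat_lit 228) (nat_lit 3327683260) (nat_lit 72) (nat_lit 4) (nat_lit 75) (nat_lit 5) (nat_lit 75) (nat_lit 4) (nat_lit 626) (nat_lit 469) (nat_lit 465)))) (XT.nd (nat_lit 156) (nat_lit 228) (nat_lit 0) (XT.nd (nat_lit 78) (nat_lit 228) (nat_lit 0) (XT.lf (nat_lit 0) (nat_lit 2435368785) (nat_lit 228) (nat_lit 9649169881) (nat_lit 0) (nat_lit 35209360) (nat_lit 69) (nat_lit 5) (nat_lit 72) (nat_lit 4) (nat_lit 69) (nat_lit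 4) (nat_lit 627) (nat_lit 469) (nat_lit 464)) (XT.lf (nat_lit 0) (nat_lit 1494588002) (nat_lit 228) (nat_lit 6796747649) (nat_lit 228) (nat_lit 3944420792) (nat_lit 66) (nat_lit 4) (nat_lit 69) (nat_lit 5) (nat_lit 69) (nat_lit 4) (nat_lit 628) (nat_lit 469) (nat_lit 463))) (XT.nd (nat_lit 78) (nat_lit 0) (nat_lit 0) (XT.lf (nat_lit 0) (nat_lit 487344530) (nat_lit 152) (nat_lit 1385414276) (nat_lit 228) (nat_lit 10481329334) (nat_lit 63) (nat_lit 5) (nat_lit 65) (nat_lit 5) (nat_lit 66) (nat_lit 4) (nat_lit 629) (nat_lit 469) (nat_lit 462)) (XT.lf (nat_lit 0) (nat_lit 7772276114) (nat_lit 228) (nat_lit 586432854) (nat_lit 0) (nat_lit 4115180545) (nat_lit 63) (nat_lit 5) (nat_lit 66) (nat_lit 4) (nat_lit 63) (nat_lit 4) (nat_lit 630) (nat_lit 469) (nat_lit 461))))))) (XT.nd (nat_lit 1170) (nat_lit 836) (nat_lit 0) (XT.nd (nat_lit 546) (nat_lit 1216) (nat_lit 0) (XT.nd (nat_lit 234) (nat_lit 684) (nat_lit 0) (XT.nd (nat_lit 78) (nat_lit 456) (nat_lit 0)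 (XT.lf (nat_lit 0) (nat_lit 1179004474) (nat_lit 304) (nat_lit 1693239345) (nat_lit 76) (nat_lit 9723669489) (nat_lit 59) (nat_lit 5) (nat_lit 63) (nat_lit 5) (nat_lit 60) (nat_lit 4) (nat_lit 631) (nat_lit 469) (nat_lit 460)) (XT.nd (nat_lit 78) (nat_lit 304) (nat_lit 0) (XT.lf (nat_lit 0) (nat_lit 7121326743) (nat_lit 228) (nat_lit 2873403784) (nat_lit 0) (nat_lit 2724885216) (nat_lit 57) (nat_lit 5) (nat_lit 60) (nat_lit 4) (nat_lit 57) (nat_lit 4) (nat_lit 632) (nat_lit 469) (nat_lit 459)) (XT.lf (nat_lit 0) (nat_lit 340854619) (nat_lit 304) (nat_lit 4101554156) (nat_lit 76) (nat_lit 8403169008) (nat_lit 53) (nat_lit 5) (nat_lit 57) (nat_lit 5) (nat_lit 54) (nat_lit 4) (nat_lit 633) (nat_lit 469) (nat_lit 458)))) (XT.nd (nat_lit 156) (nat_lit 380) (nat_lit 0) (XT.nd (nat_lit 78) (nat_lit 152) (nat_lit 0) (XT.lf (nat_lit 0) (nat_lit 6322077109) (nat_lit 228) (nat_lit 5403711044) (nat_lit 0) (nat_lit 1247566289) (nat_lit 51) (nat_lit 5) (nat_lit 54)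 (nat_lit 4) (nat_lit 51) (nat_lit 4) (nat_lit 634) (nat_lit 469) (nat_lit 457)) (XT.lf (nat_lit 0) (nat_lit 6336785943) (nat_lit 152) (nat_lit 6105975079) (nat_lit 152) (nat_lit 660529474) (nat_lit 49) (nat_lit 4) (nat_lit 51) (nat_lit 5) (nat_lit 51) (nat_lit 4) (nat_lit 635) (nat_lit 469) (nat_lit 456))) (XT.nd (nat_lit 78) (nat_lit 152) (nat_lit 0) (XT.lf (nat_lit 0) (nat_lit 5037134903) (nat_lit 152) (nat_lit 332291859) (nat_lit 228) (nat_lit 7865873951) (nat_lit 46) (nat_lit 5) (nat_lit 48) (nat_lit 5) (nat_lit 49) (nat_lit 4) (nat_lit 636) (nat_lit 469) (nat_lit 455)) (XT.lf (nat_lit 0) (nat_lit 3663080244) (nat_lit 152) (nat_lit 7875489362) (nat_lit 152) (nat_lit 1830746134) (nat_lit 44) (nat_lit 4) (nat_lit 46) (nat_lit 5) (nat_lit 46) (nat_lit 4) (nat_lit 637) (nat_lit 469) (nat_lit 454))))) (XT.nd (nat_lit 312) (nat_lit 608) (nat_lit 0) (XT.nd (nat_lit 156) (nat_lit 228) (nat_lit 0) (XT.nd (nat_lit 78) (nat_lit 152) (nat_lit 0) (XT.lf (nat_lit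 0) (nat_lit 2222444311) (nat_lit 152) (nat_lit 2039869521) (nat_lit 228) (nat_lit 9243257076) (nat_lit 41) (nat_lit 5) (nat_lit 43) (nat_lit 5) (nat_lit 44) (nat_lit 4) (nat_lit 638) (nat_lit 469) (nat_lit 453)) (XT.lf (nat_lit 0) (nat_lit 705307761) (nat_lit 152) (nat_lit 9765106725) (nat_lit 152) (nat_lit 3173541339) (nat_lit 39) (nat_lit 4) (nat_lit 41) (nat_lit 5) (nat_lit 41) (nat_lit 4) (nat_lit 639) (nat_lit 469) (nat_lit 452))) (XT.nd (nat_lit 78) (nat_lit 152) (nat_lit 0) (XT.lf (nat_lit 0) (nat_lit 2989928185) (nat_lit 228) (nat_lit 874831504) (nat_lit 76) (nat_lit 9919718716) (nat_lit 38) (nat_lit 5) (nat_lit 41) (nat_lit 5) (nat_lit 39) (nat_lit 4) (nat_lit 640) (nat_lit 469) (nat_lit 451)) (XT.lf (nat_lit 0) (nat_lit 9246269719) (nat_lit 228) (nat_lit 2523900936) (nat_lit 0) (nat_lit 2156979813) (nat_lit 36) (nat_lit 5) (nat_lit 39) (nat_lit 4) (nat_lit 36) (nat_lit 4) (nat_lit 641) (nat_lit 469) (nat_lit 450)))) (XT.nd (nat_lit 156) (nat_lit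 304) (nat_lit 0) (XT.nd (nat_lit 78) (nat_lit 76) (nat_lit 0) (XT.lf (nat_lit 0) (nat_lit 1554006864) (nat_lit 228) (nat_lit 4254491758) (nat_lit 76) (nat_lit 8263589112) (nat_lit 33) (nat_lit 5) (nat_lit 36) (nat_lit 5) (nat_lit 34) (nat_lit 4) (nat_lit 642) (nat_lit 469) (nat_lit 449)) (XT.lf (nat_lit 0) (nat_lit 7846960186) (nat_lit 152) (nat_lit 6066557042) (nat_lit 0) (nat_lit 305867281) (nat_lit 32) (nat_lit 5) (nat_lit 34) (nat_lit 4) (nat_lit 32) (nat_lit 4) (nat_lit 643) (nat_lit 469) (nat_lit 448))) (XT.nd (nat_lit 78) (nat_lit 152) (nat_lit 0) (XT.lf (nat_lit 0) (nat_lit 6400529010) (nat_lit 152) (nat_lit 7898139159) (nat_lit 152) (nat_lit 70301602) (nat_lit 30) (nat_lit 4) (nat_lit 32) (nat_lit 5) (nat_lit 32) (nat_lit 4) (nat_lit 644) (nat_lit 469) (nat_lit 447)) (XT.lf (nat_lit 0) (nat_lit 4554904943) (nat_lit 76) (nat_lit 1714335011) (nat_lit 152) (nat_lit 8251586424) (nat_lit 28) (nat_lit 5) (nat_lit 29) (nat_lit 5) (nat_lit 30) (nat_lit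 4) (nat_lit 645) (nat_lit 469) (nat_lit 446)))))) (XT.nd (nat_lit 79326) (nat_lit 0) (nat_lit 3648) (XT.nd (nat_lit 312) (nat_lit 304) (nat_lit 0) (XT.nd (nat_lit 156) (nat_lit 228) (nat_lit 0) (XT.nd (nat_lit 78) (nat_lit 152) (nat_lit 0) (XT.lf (nat_lit 0) (nat_lit 2623964657) (nat_lit 152) (nat_lit 10135706127) (nat_lit 152) (nat_lit 1915539682) (nat_lit 26) (nat_lit 4) (nat_lit 28) (nat_lit 5) (nat_lit 28) (nat_lit 4) (nat_lit 646) (nat_lit 469) (nat_lit 445)) (XT.lf (nat_lit 0) (nat_lit 593903712) (nat_lit 76) (nat_lit 3900639799) (nat_lit 152) (nat_lit 10337409608) (nat_lit 24) (nat_lit 5) (nat_lit 25) (nat_lit 5) (nat_lit 26) (nat_lit 4) (nat_lit 647) (nat_lit 469) (nat_lit 444))) (XT.nd (nat_lit 78) (nat_lit 228) (nat_lit 0) (XT.lf (nat_lit 0) (nat_lit 11029137465) (nat_lit 152) (nat_lit 1506184933) (nat_lit 0) (nat_lit 2455816242) (nat_lit 24) (nat_lit 5) (nat_lit 26) (nat_lit 4) (nat_lit 24) (nat_lit 4) (nat_lit 648) (nat_lit 469) (nat_lit 443))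 (XT.lf (nat_lit 0) (nat_lit 2534080030) (nat_lit 228) (nat_lit 3704108038) (nat_lit 76) (nat_lit 8914460471) (nat_lit 21) (nat_lit 5) (nat_lit 24) (nat_lit 5) (nat_lit 22) (nat_lit 4) (nat_lit 649) (nat_lit 469) (nat_lit 442)))) (XT.nd (nat_lit 78858) (nat_lit 0) (nat_lit 5472) (XT.nd (nat_lit 78) (nat_lit 228) (nat_lit 0) (XT.lf (nat_lit 0) (nat_lit 9105304822) (nat_lit 152) (nat_lit 5996175926) (nat_lit 0) (nat_lit 215419038) (nat_lit 20) (nat_lit 5) (nat_lit 22) (nat_lit 4) (nat_lit 20) (nat_lit 4) (nat_lit 650) (nat_lit 469) (nat_lit 441)) (XT.lf (nat_lit 0) (nat_lit 358092888) (nat_lit 228) (nat_lit 8401768638) (nat_lit 76) (nat_lit 6723756537) (nat_lit 17) (nat_lit 5) (nat_lit 20) (nat_lit 5) (nat_lit 18) (nat_lit 4) (nat_lit 651) (nat_lit 469) (nat_lit 440))) (XT.nd (nat_lit 78) (nat_lit 304) (nat_lit 0) (XT.lf (nat_lit 0) (nat_lit 3983279081) (nat_lit 228) (nat_lit 847403183) (nat_lit 228) (nat_lit 847403183) (nat_lit 93) (nat_lit 4) (nat_lit 96)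 (nat_lit 5) (nat_lit 96) (nat_lit 4) (nat_lit 620) (nat_lit 470) (nat_lit 470)) (XT.lf (nat_lit 0) (nat_lit 3891233929) (nat_lit 304) (nat_lit 4218397886) (nat_lit 0) (nat_lit 3350851992) (nat_lit 89) (nat_lit 5) (nat_lit 93) (nat_lit 4) (nat_lit 89) (nat_lit 4) (nat_lit 621) (nat_lit 470) (nat_lit 469))))) (XT.nd (nat_lit 312) (nat_lit 760) (nat_lit 0) (XT.nd (nat_lit 156) (nat_lit 532) (nat_lit 0) (XT.nd (nat_lit 78) (nat_lit 304) (nat_lit 0) (XT.lf (nat_lit 0) (nat_lit 6487105972) (nat_lit 228) (nat_lit 3074903898) (nat_lit 228) (nat_lit 2004735747) (nat_lit 86) (nat_lit 4) (nat_lit 89) (nat_lit 5) (nat_lit 89) (nat_lit 4) (nat_lit 622) (nat_lit 470) (nat_lit 468)) (XT.lf (nat_lit 0) (nat_lit 3621575703) (nat_lit 304) (nat_lit 5989930739) (nat_lit 0) (nat_lit 2063177271) (nat_lit 82) (nat_lit 5) (nat_lit 86) (nat_lit 4) (nat_lit 82) (nat_lit 4) (nat_lit 623) (nat_lit 470) (nat_lit 467))) (XT.nd (nat_lit 78) (nat_lit 304) (nat_lit 0) (XT.lf (nat_lit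 0) (nat_lit 4837040196) (nat_lit 228) (nat_lit 4502492360) (nat_lit 228) (nat_lit 2444864547) (nat_lit 79) (nat_lit 4) (nat_lit 82) (nat_lit 5) (nat_lit 82) (nat_lit 4) (nat_lit 624) (nat_lit 470) (nat_lit 466)) (XT.lf (nat_lit 0) (nat_lit 3223487589) (nat_lit 304) (nat_lit 7946212822) (nat_lit 0) (nat_lit 726361723) (nat_lit 75) (nat_lit 5) (nat_lit 79) (nat_lit 4) (nat_lit 75) (nat_lit 4) (nat_lit 625) (nat_lit 470) (nat_lit 465)))) (XT.nd (nat_lit 156) (nat_lit 304) (nat_lit 0) (XT.nd (nat_lit 78) (nat_lit 228) (nat_lit 0) (XT.lf (nat_lit 0) (nat_lit 3001076855) (nat_lit 228) (nat_lit 5987895985) (nat_lit 228) (nat_lit 3020335123) (nat_lit 72) (nat_lit 4) (nat_lit 75) (nat_lit 5) (nat_lit 75) (nat_lit 4) (nat_lit 626) (nat_lit 470) (nat_lit 464)) (XT.lf (nat_lit 0) (nat_lit 2017321396) (nat_lit 152) (nat_lit 678764266) (nat_lit 228) (nat_lit 9428634595) (nat_lit 69) (nat_lit 5) (nat_lit 71) (nat_lit 5) (nat_lit 72) (nat_lit 4) (nat_lit 627) (nat_lit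 470) (nat_lit 463))) (XT.nd (nat_lit 78) (nat_lit 76) (nat_lit 0) (XT.lf (nat_lit 0) (nat_lit 963265760) (nat_lit 228) (nat_lit 7541624374) (nat_lit 228) (nat_lit 3736782143) (nat_lit 66) (nat_lit 4) (nat_lit 69) (nat_lit 5) (nat_lit 69) (nat_lit 4) (nat_lit 628) (nat_lit 470) (nat_lit 462)) (XT.lf (nat_lit 0) (nat_lit 2035261581) (nat_lit 304) (nat_lit 128223055) (nat_lit 76) (nat_lit 10197340972) (nat_lit 65) (nat_lit 5) (nat_lit 69) (nat_lit 5) (nat_lit 66) (nat_lit 4) (nat_lit 629) (nat_lit 470) (nat_lit 461))))))))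
noncomputable def xc4 : XT := (XT.nd (nat_lit 80964) (nat_lit 0) (nat_lit 0) (XT.nd (nat_lit 1170) (nat_lit 912) (nat_lit 0) (XT.nd (nat_lit 546) (nat_lit 1216) (nat_lit 0) (XT.nd (nat_lit 234) (nat_lit 836) (nat_lit 0) (XT.nd (nat_lit 78) (nat_lit 456) (nat_lit 0) (XT.lf (nat_lit 0) (nat_lit 7889741251) (nat_lit 228) (nat_lit 1276103330) (nat_lit 0) (nat_lit 3315683486) (nat_lit 63) (nat_lit 5) (nat_lit 66) (nat_lit 4) (nat_lit 63) (nat_lit 4) (nat_lit 630) (nat_lit 470) (nat_lit 460)) (XT.nd (nat_lit 78) (nat_lit 152) (nat_lit 0) (XT.lf (nat_lit 0) (nat_lit 1243740496) (nat_lit 304) (nat_lit 2471243936) (nat_lit 76) (nat_lit 8889426494) (nat_lit 59) (nat_lit 5) (nat_lit 63) (nat_lit 5) (nat_lit 60) (nat_lit 4) (nat_lit 631) (nat_lit 470) (nat_lit 459)) (XT.lf (nat_lit 0) (nat_lit 7136461292) (nat_lit 228) (nat_lit 3735704180) (nat_lit 0) (nat_lit 1856940234) (nat_lit 57) (nat_lit 5) (nat_lit 60) (nat_lit 4) (nat_lit 57) (nat_lit 4) (nat_lit 632) (nat_lit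 470) (nat_lit 458)))) (XT.nd (nat_lit 156) (nat_lit 380) (nat_lit 0) (XT.nd (nat_lit 78) (nat_lit 152) (nat_lit 0) (XT.lf (nat_lit 0) (nat_lit 301787890) (nat_lit 304) (nat_lit 5055830067) (nat_lit 76) (nat_lit 7498342106) (nat_lit 53) (nat_lit 5) (nat_lit 57) (nat_lit 5) (nat_lit 54) (nat_lit 4) (nat_lit 633) (nat_lit 470) (nat_lit 457)) (XT.lf (nat_lit 0) (nat_lit 6231921086) (nat_lit 228) (nat_lit 6446205935) (nat_lit 0) (nat_lit 306631785) (nat_lit 51) (nat_lit 5) (nat_lit 54) (nat_lit 4) (nat_lit 51) (nat_lit 4) (nat_lit 634) (nat_lit 470) (nat_lit 456))) (XT.nd (nat_lit 78) (nat_lit 228) (nat_lit 0) (XT.lf (nat_lit 0) (nat_lit 5209891000) (nat_lit 152) (nat_lit 7097331330) (nat_lit 152) (nat_lit 808380476) (nat_lit 49) (nat_lit 4) (nat_lit 51) (nat_lit 5) (nat_lit 51) (nat_lit 4) (nat_lit 635) (nat_lit 470) (nat_lit 455)) (XT.lf (nat_lit 0) (nat_lit 3813166911) (nat_lit 152) (nat_lit 1364381950) (nat_lit 228) (nat_lit 8071002962) (nat_lit 46) (nat_lit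 5) (nat_lit 48) (nat_lit 5) (nat_lit 49) (nat_lit 4) (nat_lit 636) (nat_lit 470) (nat_lit 454))))) (XT.nd (nat_lit 312) (nat_lit 608) (nat_lit 0) (XT.nd (nat_lit 156) (nat_lit 228) (nat_lit 0) (XT.nd (nat_lit 78) (nat_lit 228) (nat_lit 0) (XT.lf (nat_lit 0) (nat_lit 2345522056) (nat_lit 152) (nat_lit 8947986677) (nat_lit 152) (nat_lit 2090122049) (nat_lit 44) (nat_lit 4) (nat_lit 46) (nat_lit 5) (nat_lit 46) (nat_lit 4) (nat_lit 637) (nat_lit 470) (nat_lit 453)) (XT.lf (nat_lit 0) (nat_lit 803845084) (nat_lit 152) (nat_lit 3155400843) (nat_lit 228) (nat_lit 9561615844) (nat_lit 41) (nat_lit 5) (nat_lit 43) (nat_lit 5) (nat_lit 44) (nat_lit 4) (nat_lit 638) (nat_lit 470) (nat_lit 452))) (XT.nd (nat_lit 78) (nat_lit 228) (nat_lit 0) (XT.lf (nat_lit 0) (nat_lit 10117727619) (nat_lit 228) (nat_lit 800481306) (nat_lit 0) (nat_lit 2742030401) (nat_lit 41) (nat_lit 5) (nat_lit 44) (nat_lit 4) (nat_lit 41) (nat_lit 4) (nat_lit 639) (nat_lit 470) (nat_lit 451))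 (XT.lf (nat_lit 0) (nat_lit 2582740541) (nat_lit 228) (nat_lit 2475150590) (nat_lit 76) (nat_lit 8743780062) (nat_lit 38) (nat_lit 5) (nat_lit 41) (nat_lit 5) (nat_lit 39) (nat_lit 4) (nat_lit 640) (nat_lit 470) (nat_lit 450)))) (XT.nd (nat_lit 156) (nat_lit 228) (nat_lit 0) (XT.nd (nat_lit 78) (nat_lit 228) (nat_lit 0) (XT.lf (nat_lit 0) (nat_lit 8783063563) (nat_lit 228) (nat_lit 4225089805) (nat_lit 0) (nat_lit 937310505) (nat_lit 36) (nat_lit 5) (nat_lit 39) (nat_lit 4) (nat_lit 36) (nat_lit 4) (nat_lit 641) (nat_lit 470) (nat_lit 449)) (XT.lf (nat_lit 0) (nat_lit 1029901871) (nat_lit 228) (nat_lit 6063680414) (nat_lit 76) (nat_lit 6997859629) (nat_lit 33) (nat_lit 5) (nat_lit 36) (nat_lit 5) (nat_lit 34) (nat_lit 4) (nat_lit 642) (nat_lit 470) (nat_lit 448))) (XT.nd (nat_lit 78) (nat_lit 152) (nat_lit 0) (XT.lf (nat_lit 0) (nat_lit 6252053965) (nat_lit 76) (nat_lit 1019537968) (nat_lit 152) (nat_lit 6968172250) (nat_lit 32) (nat_lit 5) (nat_lit 33)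 (nat_lit 5) (nat_lit 34) (nat_lit 4) (nat_lit 643) (nat_lit 470) (nat_lit 447)) (XT.lf (nat_lit 0) (nat_lit 4390881552) (nat_lit 152) (nat_lit 9275929533) (nat_lit 152) (nat_lit 723668363) (nat_lit 30) (nat_lit 4) (nat_lit 32) (nat_lit 5) (nat_lit 32) (nat_lit 4) (nat_lit 644) (nat_lit 470) (nat_lit 446)))))) (XT.nd (nat_lit 79170) (nat_lit 0) (nat_lit 4104) (XT.nd (nat_lit 312) (nat_lit 456) (nat_lit 0) (XT.nd (nat_lit 156) (nat_lit 152) (nat_lit 0) (XT.nd (nat_lit 78) (nat_lit 152) (nat_lit 0) (XT.lf (nat_lit 0) (nat_lit 2431345399) (nat_lit 76) (nat_lit 3142524193) (nat_lit 152) (nat_lit 8969562973) (nat_lit 28) (nat_lit 5) (nat_lit 29) (nat_lit 5) (nat_lit 30) (nat_lit 4) (nat_lit 645) (nat_lit 470) (nat_lit 445)) (XT.lf (nat_lit 0) (nat_lit 388893595) (nat_lit 152) (nat_lit 11614908321) (nat_lit 152) (nat_lit 2695224920) (nat_lit 26) (nat_lit 4) (nat_lit 28) (nat_lit 5) (nat_lit 28) (nat_lit 4) (nat_lit 646) (nat_lit 470) (nat_lit 444))) (XT.nd (nat_lit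 78) (nat_lit 76) (nat_lit 0) (XT.lf (nat_lit 0) (nat_lit 3684547970) (nat_lit 228) (nat_lit 1736609967) (nat_lit 76) (nat_lit 9435523722) (nat_lit 25) (nat_lit 5) (nat_lit 28) (nat_lit 5) (nat_lit 26) (nat_lit 4) (nat_lit 647) (nat_lit 470) (nat_lit 443)) (XT.lf (nat_lit 0) (nat_lit 10161155773) (nat_lit 152) (nat_lit 3943752726) (nat_lit 0) (nat_lit 912118603) (nat_lit 24) (nat_lit 5) (nat_lit 26) (nat_lit 4) (nat_lit 24) (nat_lit 4) (nat_lit 648) (nat_lit 470) (nat_lit 442)))) (XT.nd (nat_lit 156) (nat_lit 152) (nat_lit 0) (XT.nd (nat_lit 78) (nat_lit 76) (nat_lit 0) (XT.lf (nat_lit 0) (nat_lit 1599209320) (nat_lit 228) (nat_lit 6263368143) (nat_lit 76) (nat_lit 7317130280) (nat_lit 21) (nat_lit 5) (nat_lit 24) (nat_lit 5) (nat_lit 22) (nat_lit 4) (nat_lit 649) (nat_lit 470) (nat_lit 441)) (XT.lf (nat_lit 0) (nat_lit 6660353126) (nat_lit 76) (nat_lit 1455517762) (nat_lit 152) (nat_lit 7229179555) (nat_lit 20) (nat_lit 5) (nat_lit 21) (nat_lit 5) (nat_lit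 22) (nat_lit 4) (nat_lit 650) (nat_lit 470) (nat_lit 440))) (XT.nd (nat_lit 78624) (nat_lit 0) (nat_lit 6232) (XT.lf (nat_lit 0) (nat_lit 4300970073) (nat_lit 152) (nat_lit 10492789812) (nat_lit 152) (nat_lit 719322600) (nat_lit 18) (nat_lit 4) (nat_lit 20) (nat_lit 5) (nat_lit 20) (nat_lit 4) (nat_lit 651) (nat_lit 470) (nat_lit 439)) (XT.lf (nat_lit 0) (nat_lit 4678882841) (nat_lit 304) (nat_lit 448487863) (nat_lit 304) (nat_lit 448487863) (nat_lit 100) (nat_lit 4) (nat_lit 104) (nat_lit 5) (nat_lit 104) (nat_lit 4) (nat_lit 618) (nat_lit 471) (nat_lit 471))))) (XT.nd (nat_lit 312) (nat_lit 1064) (nat_lit 0) (XT.nd (nat_lit 156) (nat_lit 532) (nat_lit 0) (XT.nd (nat_lit 78) (nat_lit 228) (nat_lit 0) (XT.lf (nat_lit 0) (nat_lit 4599490609) (nat_lit 304) (nat_lit 2616516579) (nat_lit 0) (nat_lit 4037277241) (nat_lit 96) (nat_lit 5) (nat_lit 100) (nat_lit 4) (nat_lit 96) (nat_lit 4) (nat_lit 619) (nat_lit 471) (nat_lit 470)) (XT.lf (nat_lit 0) (nat_lit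 7897275779) (nat_lit 228) (nat_lit 2286546805) (nat_lit 228) (nat_lit 1173143860) (nat_lit 93) (nat_lit 4) (nat_lit 96) (nat_lit 5) (nat_lit 96) (nat_lit 4) (nat_lit 620) (nat_lit 471) (nat_lit 469))) (XT.nd (nat_lit 78) (nat_lit 228) (nat_lit 0) (XT.lf (nat_lit 0) (nat_lit 4361871389) (nat_lit 304) (nat_lit 4359710658) (nat_lit 0) (nat_lit 2740513661) (nat_lit 89) (nat_lit 5) (nat_lit 93) (nat_lit 4) (nat_lit 89) (nat_lit 4) (nat_lit 621) (nat_lit 471) (nat_lit 468)) (XT.lf (nat_lit 0) (nat_lit 6274418652) (nat_lit 228) (nat_lit 3717752392) (nat_lit 228) (nat_lit 1576996416) (nat_lit 86) (nat_lit 4) (nat_lit 89) (nat_lit 5) (nat_lit 89) (nat_lit 4) (nat_lit 622) (nat_lit 471) (nat_lit 467)))) (XT.nd (nat_lit 156) (nat_lit 532) (nat_lit 0) (XT.nd (nat_lit 78) (nat_lit 228) (nat_lit 0) (XT.lf (nat_lit 0) (nat_lit 3998431456) (nat_lit 304) (nat_lit 6279102727) (nat_lit 0) (nat_lit 1400421705) (nat_lit 82) (nat_lit 5) (nat_lit 86) (nat_lit 4) (nat_lit 82)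 (nat_lit 4) (nat_lit 623) (nat_lit 471) (nat_lit 466)) (XT.lf (nat_lit 0) (nat_lit 4474326851) (nat_lit 228) (nat_lit 5200809094) (nat_lit 228) (nat_lit 2113358773) (nat_lit 79) (nat_lit 4) (nat_lit 82) (nat_lit 5) (nat_lit 82) (nat_lit 4) (nat_lit 624) (nat_lit 471) (nat_lit 465))) (XT.nd (nat_lit 78) (nat_lit 228) (nat_lit 0) (XT.lf (nat_lit 0) (nat_lit 3504197423) (nat_lit 304) (nat_lit 8389998273) (nat_lit 0) (nat_lit 6850347) (nat_lit 75) (nat_lit 5) (nat_lit 79) (nat_lit 4) (nat_lit 75) (nat_lit 4) (nat_lit 625) (nat_lit 471) (nat_lit 464)) (XT.lf (nat_lit 0) (nat_lit 2481505118) (nat_lit 228) (nat_lit 6746093332) (nat_lit 228) (nat_lit 2787535476) (nat_lit 72) (nat_lit 4) (nat_lit 75) (nat_lit 5) (nat_lit 75) (nat_lit 4) (nat_lit 626) (nat_lit 471) (nat_lit 463))))))) (XT.nd (nat_lit 1170) (nat_lit 1368) (nat_lit 0) (XT.nd (nat_lit 546) (nat_lit 1292) (nat_lit 0) (XT.nd (nat_lit 234) (nat_lit 912) (nat_lit 0) (XT.nd (nat_lit 78) (nat_lit 304) (nat_lit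 0) (XT.lf (nat_lit 0) (nat_lit 1413460201) (nat_lit 152) (nat_lit 1469799941) (nat_lit 228) (nat_lit 9248107643) (nat_lit 69) (nat_lit 5) (nat_lit 71) (nat_lit 5) (nat_lit 72) (nat_lit 4) (nat_lit 627) (nat_lit 471) (nat_lit 462)) (XT.nd (nat_lit 78) (nat_lit 76) (nat_lit 0) (XT.lf (nat_lit 0) (nat_lit 279780042) (nat_lit 228) (nat_lit 8364175991) (nat_lit 228) (nat_lit 3605326293) (nat_lit 66) (nat_lit 4) (nat_lit 69) (nat_lit 5) (nat_lit 69) (nat_lit 4) (nat_lit 628) (nat_lit 471) (nat_lit 461)) (XT.lf (nat_lit 0) (nat_lit 2126514450) (nat_lit 304) (nat_lit 889377978) (nat_lit 76) (nat_lit 9353296072) (nat_lit 65) (nat_lit 5) (nat_lit 69) (nat_lit 5) (nat_lit 66) (nat_lit 4) (nat_lit 629) (nat_lit 471) (nat_lit 460)))) (XT.nd (nat_lit 156) (nat_lit 456) (nat_lit 0) (XT.nd (nat_lit 78) (nat_lit 304) (nat_lit 0) (XT.lf (nat_lit 0) (nat_lit 7932049621) (nat_lit 228) (nat_lit 2119584646) (nat_lit 0) (nat_lit 2439235912) (nat_lit 63) (nat_lit 5) (nat_lit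 66) (nat_lit 4) (nat_lit 63) (nat_lit 4) (nat_lit 630) (nat_lit 471) (nat_lit 459)) (XT.lf (nat_lit 0) (nat_lit 1232371945) (nat_lit 304) (nat_lit 3404934117) (nat_lit 76) (nat_lit 7977321059) (nat_lit 59) (nat_lit 5) (nat_lit 63) (nat_lit 5) (nat_lit 60) (nat_lit 4) (nat_lit 631) (nat_lit 471) (nat_lit 458))) (XT.nd (nat_lit 78) (nat_lit 304) (nat_lit 0) (XT.lf (nat_lit 0) (nat_lit 7074707811) (nat_lit 228) (nat_lit 4755585276) (nat_lit 0) (nat_lit 910036822) (nat_lit 57) (nat_lit 5) (nat_lit 60) (nat_lit 4) (nat_lit 57) (nat_lit 4) (nat_lit 632) (nat_lit 471) (nat_lit 457)) (XT.lf (nat_lit 0) (nat_lit 184849725) (nat_lit 304) (nat_lit 6169628023) (nat_lit 76) (nat_lit 6513614645) (nat_lit 53) (nat_lit 5) (nat_lit 57) (nat_lit 5) (nat_lit 54) (nat_lit 4) (nat_lit 633) (nat_lit 471) (nat_lit 456))))) (XT.nd (nat_lit 312) (nat_lit 608) (nat_lit 0) (XT.nd (nat_lit 156) (nat_lit 380) (nat_lit 0) (XT.nd (nat_lit 78) (nat_lit 152) (nat_lit 0) (XT.lf (nat_lit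 0) (nat_lit 5342945143) (nat_lit 152) (nat_lit 724829309) (nat_lit 228) (nat_lit 6930061144) (nat_lit 51) (nat_lit 5) (nat_lit 53) (nat_lit 5) (nat_lit 54) (nat_lit 4) (nat_lit 634) (nat_lit 471) (nat_lit 455)) (XT.lf (nat_lit 0) (nat_lit 3920749723) (nat_lit 152) (nat_lit 8171930216) (nat_lit 152) (nat_lit 1037007858) (nat_lit 49) (nat_lit 4) (nat_lit 51) (nat_lit 5) (nat_lit 51) (nat_lit 4) (nat_lit 635) (nat_lit 471) (nat_lit 454))) (XT.nd (nat_lit 78) (nat_lit 152) (nat_lit 0) (XT.lf (nat_lit 0) (nat_lit 2424915794) (nat_lit 152) (nat_lit 2480717019) (nat_lit 228) (nat_lit 8357959706) (nat_lit 46) (nat_lit 5) (nat_lit 48) (nat_lit 5) (nat_lit 49) (nat_lit 4) (nat_lit 636) (nat_lit 471) (nat_lit 453)) (XT.lf (nat_lit 0) (nat_lit 861624402) (nat_lit 152) (nat_lit 10105902030) (nat_lit 152) (nat_lit 2432226643) (nat_lit 44) (nat_lit 4) (nat_lit 46) (nat_lit 5) (nat_lit 46) (nat_lit 4) (nat_lit 637) (nat_lit 471) (nat_lit 452)))) (XT.nd (nat_lit 156) (nat_lit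 380) (nat_lit 0) (XT.nd (nat_lit 78) (nat_lit 152) (nat_lit 0) (XT.lf (nat_lit 0) (nat_lit 3579268546) (nat_lit 228) (nat_lit 772932395) (nat_lit 76) (nat_lit 9185674996) (nat_lit 43) (nat_lit 5) (nat_lit 46) (nat_lit 5) (nat_lit 44) (nat_lit 4) (nat_lit 638) (nat_lit 471) (nat_lit 451)) (XT.lf (nat_lit 0) (nat_lit 9687805308) (nat_lit 228) (nat_lit 2465363509) (nat_lit 0) (nat_lit 1525083827) (nat_lit 41) (nat_lit 5) (nat_lit 44) (nat_lit 4) (nat_lit 41) (nat_lit 4) (nat_lit 639) (nat_lit 471) (nat_lit 450))) (XT.nd (nat_lit 78) (nat_lit 152) (nat_lit 0) (XT.lf (nat_lit 0) (nat_lit 2092639069) (nat_lit 228) (nat_lit 4245972194) (nat_lit 76) (nat_lit 7482092471) (nat_lit 38) (nat_lit 5) (nat_lit 41) (nat_lit 5) (nat_lit 39) (nat_lit 4) (nat_lit 640) (nat_lit 471) (nat_lit 449)) (XT.lf (nat_lit 0) (nat_lit 7864197649) (nat_lit 152) (nat_lit 374216451) (nat_lit 228) (nat_lit 5727173512) (nat_lit 36) (nat_lit 5) (nat_lit 38) (nat_lit 5) (nat_lit 39) (nat_lit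 4) (nat_lit 641) (nat_lit 471) (nat_lit 448)))))) (XT.nd (nat_lit 624) (nat_lit 228) (nat_lit 0) (XT.nd (nat_lit 312) (nat_lit 532) (nat_lit 0) (XT.nd (nat_lit 156) (nat_lit 304) (nat_lit 0) (XT.nd (nat_lit 78) (nat_lit 76) (nat_lit 0) (XT.lf (nat_lit 0) (nat_lit 420783715) (nat_lit 228) (nat_lit 8047789415) (nat_lit 76) (nat_lit 5644101132) (nat_lit 33) (nat_lit 5) (nat_lit 36) (nat_lit 5) (nat_lit 34) (nat_lit 4) (nat_lit 642) (nat_lit 471) (nat_lit 447)) (XT.lf (nat_lit 0) (nat_lit 4173347580) (nat_lit 76) (nat_lit 2439456753) (nat_lit 152) (nat_lit 7649185813) (nat_lit 32) (nat_lit 5) (nat_lit 33) (nat_lit 5) (nat_lit 34) (nat_lit 4) (nat_lit 643) (nat_lit 471) (nat_lit 446))) (XT.nd (nat_lit 78) (nat_lit 152) (nat_lit 0) (XT.lf (nat_lit 0) (nat_lit 2203065927) (nat_lit 152) (nat_lit 10745434389) (nat_lit 152) (nat_lit 1465395779) (nat_lit 30) (nat_lit 4) (nat_lit 32) (nat_lit 5) (nat_lit 32) (nat_lit 4) (nat_lit 644) (nat_lit 471) (nat_lit 445)) (XT.lf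 (nat_lit 0) (nat_lit 127265755) (nat_lit 76) (nat_lit 4663580906) (nat_lit 152) (nat_lit 9777119549) (nat_lit 28) (nat_lit 5) (nat_lit 29) (nat_lit 5) (nat_lit 30) (nat_lit 4) (nat_lit 645) (nat_lit 471) (nat_lit 444)))) (XT.nd (nat_lit 156) (nat_lit 304) (nat_lit 0) (XT.nd (nat_lit 78) (nat_lit 228) (nat_lit 0) (XT.lf (nat_lit 0) (nat_lit 11172384017) (nat_lit 152) (nat_lit 2002458826) (nat_lit 0) (nat_lit 1549685745) (nat_lit 28) (nat_lit 5) (nat_lit 30) (nat_lit 4) (nat_lit 28) (nat_lit 4) (nat_lit 646) (nat_lit 471) (nat_lit 443)) (XT.lf (nat_lit 0) (nat_lit 2789644874) (nat_lit 228) (nat_lit 4242236670) (nat_lit 76) (nat_lit 7851397782) (nat_lit 25) (nat_lit 5) (nat_lit 28) (nat_lit 5) (nat_lit 26) (nat_lit 4) (nat_lit 647) (nat_lit 471) (nat_lit 442))) (XT.nd (nat_lit 78) (nat_lit 228) (nat_lit 0) (XT.lf (nat_lit 0) (nat_lit 8473366047) (nat_lit 76) (nat_lit 734710111) (nat_lit 152) (nat_lit 5836712340) (nat_lit 24) (nat_lit 5) (nat_lit 25) (nat_lit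 5) (nat_lit 26) (nat_lit 4) (nat_lit 648) (nat_lit 471) (nat_lit 441)) (XT.lf (nat_lit 0) (nat_lit 573196489) (nat_lit 228) (nat_lit 9010458380) (nat_lit 76) (nat_lit 5625102538) (nat_lit 21) (nat_lit 5) (nat_lit 24) (nat_lit 5) (nat_lit 22) (nat_lit 4) (nat_lit 649) (nat_lit 471) (nat_lit 440))))) (XT.nd (nat_lit 78702) (nat_lit 0) (nat_lit 5396) (XT.nd (nat_lit 78546) (nat_lit 0) (nat_lit 6536) (XT.nd (nat_lit 78) (nat_lit 152) (nat_lit 0) (XT.lf (nat_lit 0) (nat_lit 3809554541) (nat_lit 76) (nat_lit 3226633734) (nat_lit 152) (nat_lit 8338985411) (nat_lit 20) (nat_lit 5) (nat_lit 21) (nat_lit 5) (nat_lit 22) (nat_lit 4) (nat_lit 650) (nat_lit 471) (nat_lit 439)) (XT.lf (nat_lit 0) (nat_lit 1326151944) (nat_lit 152) (nat_lit 12322011563) (nat_lit 152) (nat_lit 1896360679) (nat_lit 18) (nat_lit 4) (nat_lit 20) (nat_lit 5) (nat_lit 20) (nat_lit 4) (nat_lit 651) (nat_lit 471) (nat_lit 438))) (XT.nd (nat_lit 78) (nat_lit 304) (nat_lit 0) (XT.lf (nat_lit 0)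 (nat_lit 5368158903) (nat_lit 304) (nat_lit 54041146) (nat_lit 304) (nat_lit 54041146) (nat_lit 108) (nat_lit 4) (nat_lit 112) (nat_lit 5) (nat_lit 112) (nat_lit 4) (nat_lit 616) (nat_lit 472) (nat_lit 472)) (XT.lf (nat_lit 0) (nat_lit 5300725643) (nat_lit 304) (nat_lit 1034827537) (nat_lit 0) (nat_lit 4715798854) (nat_lit 104) (nat_lit 5) (nat_lit 108) (nat_lit 4) (nat_lit 104) (nat_lit 4) (nat_lit 617) (nat_lit 472) (nat_lit 471)))) (XT.nd (nat_lit 156) (nat_lit 532) (nat_lit 0) (XT.nd (nat_lit 78) (nat_lit 304) (nat_lit 0) (XT.lf (nat_lit 0) (nat_lit 9290064624) (nat_lit 304) (nat_lit 1510410627) (nat_lit 304) (nat_lit 352026204) (nat_lit 100) (nat_lit 4) (nat_lit 104) (nat_lit 5) (nat_lit 104) (nat_lit 4) (nat_lit 618) (nat_lit 472) (nat_lit 470)) (XT.lf (nat_lit 0) (nat_lit 5093551163) (nat_lit 304) (nat_lit 2754631518) (nat_lit 0) (nat_lit 3406690583) (nat_lit 96) (nat_lit 5) (nat_lit 100) (nat_lit 4) (nat_lit 96) (nat_lit 4) (nat_lit 619) (nat_lit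 472) (nat_lit 469))) (XT.nd (nat_lit 78) (nat_lit 304) (nat_lit 0) (XT.lf (nat_lit 0) (nat_lit 7689401460) (nat_lit 228) (nat_lit 2948597230) (nat_lit 228) (nat_lit 721354712) (nat_lit 93) (nat_lit 4) (nat_lit 96) (nat_lit 5) (nat_lit 96) (nat_lit 4) (nat_lit 620) (nat_lit 472) (nat_lit 468)) (XT.lf (nat_lit 0) (nat_lit 4762948934) (nat_lit 304) (nat_lit 4642391619) (nat_lit 0) (nat_lit 2059979590) (nat_lit 89) (nat_lit 5) (nat_lit 93) (nat_lit 4) (nat_lit 89) (nat_lit 4) (nat_lit 621) (nat_lit 472) (nat_lit 467))))))))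
noncomputable def xc5 : XT := (XT.nd (nat_lit 80652) (nat_lit 0) (nat_lit 684) (XT.nd (nat_lit 1170) (nat_lit 1976) (nat_lit 0) (XT.nd (nat_lit 546) (nat_lit 1748) (nat_lit 0) (XT.nd (nat_lit 234) (nat_lit 760) (nat_lit 0) (XT.nd (nat_lit 78) (nat_lit 532) (nat_lit 0) (XT.lf (nat_lit 0) (nat_lit 5919847113) (nat_lit 228) (nat_lit 4432770561) (nat_lit 228) (nat_lit 1220587248) (nat_lit 86) (nat_lit 4) (nat_lit 89) (nat_lit 5) (nat_lit 89) (nat_lit 4) (nat_lit 622) (nat_lit 472) (nat_lit 466)) (XT.nd (nat_lit 78) (nat_lit 228) (nat_lit 0) (XT.lf (nat_lit 0) (nat_lit 4304251599) (nat_lit 304) (nat_lit 6713002453) (nat_lit 0) (nat_lit 665611702) (nat_lit 82) (nat_lit 5) (nat_lit 86) (nat_lit 4) (nat_lit 82) (nat_lit 4) (nat_lit 623) (nat_lit 472) (nat_lit 465)) (XT.lf (nat_lit 0) (nat_lit 3966329047) (nat_lit 228) (nat_lit 5973194087) (nat_lit 228) (nat_lit 1854710494) (nat_lit 79) (nat_lit 4) (nat_lit 82) (nat_lit 5) (nat_lit 82) (nat_lit 4) (nat_lit 624)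 (nat_lit 472) (nat_lit 464)))) (XT.nd (nat_lit 156) (nat_lit 228) (nat_lit 0) (XT.nd (nat_lit 78) (nat_lit 228) (nat_lit 0) (XT.lf (nat_lit 0) (nat_lit 2920432809) (nat_lit 228) (nat_lit 797067883) (nat_lit 304) (nat_lit 8190090101) (nat_lit 75) (nat_lit 5) (nat_lit 78) (nat_lit 5) (nat_lit 79) (nat_lit 4) (nat_lit 625) (nat_lit 472) (nat_lit 463)) (XT.lf (nat_lit 0) (nat_lit 1813135090) (nat_lit 228) (nat_lit 7580300251) (nat_lit 228) (nat_lit 2629193025) (nat_lit 72) (nat_lit 4) (nat_lit 75) (nat_lit 5) (nat_lit 75) (nat_lit 4) (nat_lit 626) (nat_lit 472) (nat_lit 462))) (XT.nd (nat_lit 78) (nat_lit 0) (nat_lit 0) (XT.lf (nat_lit 0) (nat_lit 658994026) (nat_lit 152) (nat_lit 2337739961) (nat_lit 228) (nat_lit 9142963864) (nat_lit 69) (nat_lit 5) (nat_lit 71) (nat_lit 5) (nat_lit 72) (nat_lit 4) (nat_lit 627) (nat_lit 472) (nat_lit 461)) (XT.lf (nat_lit 0) (nat_lit 8712198697) (nat_lit 228) (nat_lit 548843346) (nat_lit 0) (nat_lit 2997475315) (nat_lit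 69) (nat_lit 5) (nat_lit 72) (nat_lit 4) (nat_lit 69) (nat_lit 4) (nat_lit 628) (nat_lit 472) (nat_lit 460))))) (XT.nd (nat_lit 312) (nat_lit 836) (nat_lit 0) (XT.nd (nat_lit 156) (nat_lit 456) (nat_lit 0) (XT.nd (nat_lit 78) (nat_lit 152) (nat_lit 0) (XT.lf (nat_lit 0) (nat_lit 2143389036) (nat_lit 304) (nat_lit 1802810342) (nat_lit 76) (nat_lit 8433044003) (nat_lit 65) (nat_lit 5) (nat_lit 69) (nat_lit 5) (nat_lit 66) (nat_lit 4) (nat_lit 629) (nat_lit 472) (nat_lit 459)) (XT.lf (nat_lit 0) (nat_lit 7899217814) (nat_lit 228) (nat_lit 3117207577) (nat_lit 0) (nat_lit 1485494118) (nat_lit 63) (nat_lit 5) (nat_lit 66) (nat_lit 4) (nat_lit 63) (nat_lit 4) (nat_lit 630) (nat_lit 472) (nat_lit 458))) (XT.nd (nat_lit 78) (nat_lit 152) (nat_lit 0) (XT.lf (nat_lit 0) (nat_lit 1144894365) (nat_lit 304) (nat_lit 4494676038) (nat_lit 76) (nat_lit 6986995495) (nat_lit 59) (nat_lit 5) (nat_lit 63) (nat_lit 5) (nat_lit 60) (nat_lit 4) (nat_lit 631) (nat_lit 472) (nat_lit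 457)) (XT.lf (nat_lit 0) (nat_lit 6819065989) (nat_lit 152) (nat_lit 117740543) (nat_lit 228) (nat_lit 5816470933) (nat_lit 57) (nat_lit 5) (nat_lit 59) (nat_lit 5) (nat_lit 60) (nat_lit 4) (nat_lit 632) (nat_lit 472) (nat_lit 456)))) (XT.nd (nat_lit 156) (nat_lit 380) (nat_lit 0) (XT.nd (nat_lit 78) (nat_lit 228) (nat_lit 0) (XT.lf (nat_lit 0) (nat_lit 5438527579) (nat_lit 228) (nat_lit 7433311927) (nat_lit 228) (nat_lit 10138706) (nat_lit 54) (nat_lit 4) (nat_lit 57) (nat_lit 5) (nat_lit 57) (nat_lit 4) (nat_lit 633) (nat_lit 472) (nat_lit 455)) (XT.lf (nat_lit 0) (nat_lit 3984549386) (nat_lit 152) (nat_lit 1842868515) (nat_lit 228) (nat_lit 7185215139) (nat_lit 51) (nat_lit 5) (nat_lit 53) (nat_lit 5) (nat_lit 54) (nat_lit 4) (nat_lit 634) (nat_lit 472) (nat_lit 454))) (XT.nd (nat_lit 78) (nat_lit 228) (nat_lit 0) (XT.lf (nat_lit 0) (nat_lit 2468856566) (nat_lit 152) (nat_lit 9330193151) (nat_lit 152) (nat_lit 1346501279) (nat_lit 49) (nat_lit 4) (nat_lit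 51) (nat_lit 5) (nat_lit 51) (nat_lit 4) (nat_lit 635) (nat_lit 472) (nat_lit 453)) (XT.lf (nat_lit 0) (nat_lit 871837141) (nat_lit 152) (nat_lit 3681734847) (nat_lit 228) (nat_lit 8726856717) (nat_lit 46) (nat_lit 5) (nat_lit 48) (nat_lit 5) (nat_lit 49) (nat_lit 4) (nat_lit 636) (nat_lit 472) (nat_lit 452)))))) (XT.nd (nat_lit 624) (nat_lit 912) (nat_lit 0) (XT.nd (nat_lit 312) (nat_lit 456) (nat_lit 0) (XT.nd (nat_lit 156) (nat_lit 380) (nat_lit 0) (XT.nd (nat_lit 78) (nat_lit 228) (nat_lit 0) (XT.lf (nat_lit 0) (nat_lit 10565618840) (nat_lit 228) (nat_lit 778844209) (nat_lit 0) (nat_lit 2073123411) (nat_lit 46) (nat_lit 5) (nat_lit 49) (nat_lit 4) (nat_lit 46) (nat_lit 4) (nat_lit 637) (nat_lit 472) (nat_lit 451)) (XT.lf (nat_lit 0) (nat_lit 3123462428) (nat_lit 228) (nat_lit 2506022376) (nat_lit 76) (nat_lit 7927110679) (nat_lit 43) (nat_lit 5) (nat_lit 46) (nat_lit 5) (nat_lit 44) (nat_lit 4) (nat_lit 638) (nat_lit 472) (nat_lit 450))) (XT.nd (nat_lit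 78) (nat_lit 228) (nat_lit 0) (XT.lf (nat_lit 0) (nat_lit 9175899631) (nat_lit 228) (nat_lit 4299241981) (nat_lit 0) (nat_lit 222952819) (nat_lit 41) (nat_lit 5) (nat_lit 44) (nat_lit 4) (nat_lit 41) (nat_lit 4) (nat_lit 639) (nat_lit 472) (nat_lit 449)) (XT.lf (nat_lit 0) (nat_lit 1519431571) (nat_lit 228) (nat_lit 6187990756) (nat_lit 76) (nat_lit 6134161162) (nat_lit 38) (nat_lit 5) (nat_lit 41) (nat_lit 5) (nat_lit 39) (nat_lit 4) (nat_lit 640) (nat_lit 472) (nat_lit 448)))) (XT.nd (nat_lit 156) (nat_lit 152) (nat_lit 0) (XT.nd (nat_lit 78) (nat_lit 152) (nat_lit 0) (XT.lf (nat_lit 0) (nat_lit 5829594825) (nat_lit 152) (nat_lit 1786824230) (nat_lit 228) (nat_lit 6371024298) (nat_lit 36) (nat_lit 5) (nat_lit 38) (nat_lit 5) (nat_lit 39) (nat_lit 4) (nat_lit 641) (nat_lit 472) (nat_lit 447)) (XT.lf (nat_lit 0) (nat_lit 3926360355) (nat_lit 152) (nat_lit 9932174462) (nat_lit 152) (nat_lit 277222291) (nat_lit 34) (nat_lit 4) (nat_lit 36) (nat_lit 5) (nat_lit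 36) (nat_lit 4) (nat_lit 642) (nat_lit 472) (nat_lit 446))) (XT.nd (nat_lit 78) (nat_lit 0) (nat_lit 0) (XT.lf (nat_lit 0) (nat_lit 1917945664) (nat_lit 76) (nat_lit 3950381089) (nat_lit 152) (nat_lit 8417784606) (nat_lit 32) (nat_lit 5) (nat_lit 33) (nat_lit 5) (nat_lit 34) (nat_lit 4) (nat_lit 643) (nat_lit 472) (nat_lit 445)) (XT.lf (nat_lit 0) (nat_lit 12144517515) (nat_lit 152) (nat_lit 161627881) (nat_lit 0) (nat_lit 2133062233) (nat_lit 32) (nat_lit 5) (nat_lit 34) (nat_lit 4) (nat_lit 32) (nat_lit 4) (nat_lit 644) (nat_lit 472) (nat_lit 444))))) (XT.nd (nat_lit 312) (nat_lit 304) (nat_lit 0) (XT.nd (nat_lit 156) (nat_lit 304) (nat_lit 0) (XT.nd (nat_lit 78) (nat_lit 76) (nat_lit 0) (XT.lf (nat_lit 0) (nat_lit 3935175335) (nat_lit 228) (nat_lit 2327308840) (nat_lit 76) (nat_lit 8331646531) (nat_lit 29) (nat_lit 5) (nat_lit 32) (nat_lit 5) (nat_lit 30) (nat_lit 4) (nat_lit 645) (nat_lit 472) (nat_lit 443)) (XT.lf (nat_lit 0) (nat_lit 10181278386)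 (nat_lit 76) (nat_lit 74837886) (nat_lit 152) (nat_lit 4495788945) (nat_lit 28) (nat_lit 5) (nat_lit 29) (nat_lit 5) (nat_lit 30) (nat_lit 4) (nat_lit 646) (nat_lit 472) (nat_lit 442))) (XT.nd (nat_lit 78) (nat_lit 76) (nat_lit 0) (XT.lf (nat_lit 0) (nat_lit 1805627265) (nat_lit 228) (nat_lit 6931748150) (nat_lit 76) (nat_lit 6174458259) (nat_lit 25) (nat_lit 5) (nat_lit 28) (nat_lit 5) (nat_lit 26) (nat_lit 4) (nat_lit 647) (nat_lit 472) (nat_lit 441)) (XT.lf (nat_lit 0) (nat_lit 5682324176) (nat_lit 76) (nat_lit 2489048696) (nat_lit 152) (nat_lit 6903023879) (nat_lit 24) (nat_lit 5) (nat_lit 25) (nat_lit 5) (nat_lit 26) (nat_lit 4) (nat_lit 648) (nat_lit 472) (nat_lit 440)))) (XT.nd (nat_lit 156) (nat_lit 0) (nat_lit 0) (XT.nd (nat_lit 78) (nat_lit 152) (nat_lit 0) (XT.lf (nat_lit 0) (nat_lit 3289699936) (nat_lit 152) (nat_lit 11398442269) (nat_lit 152) (nat_lit 551595089) (nat_lit 22) (nat_lit 4) (nat_lit 24) (nat_lit 5) (nat_lit 24) (nat_lit 4) (nat_lit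 649) (nat_lit 472) (nat_lit 439)) (XT.lf (nat_lit 0) (nat_lit 768655721) (nat_lit 76) (nat_lit 5095760629) (nat_lit 152) (nat_lit 9542893325) (nat_lit 20) (nat_lit 5) (nat_lit 21) (nat_lit 5) (nat_lit 22) (nat_lit 4) (nat_lit 650) (nat_lit 472) (nat_lit 438))) (XT.nd (nat_lit 78312) (nat_lit 0) (nat_lit 6992) (XT.lf (nat_lit 0) (nat_lit 12421233934) (nat_lit 152) (nat_lit 1817218685) (nat_lit 0) (nat_lit 1339310886) (nat_lit 20) (nat_lit 5) (nat_lit 22) (nat_lit 4) (nat_lit 20) (nat_lit 4) (nat_lit 651) (nat_lit 472) (nat_lit 437)) (XT.lf (nat_lit 0) (nat_lit 339313214) (nat_lit 304) (nat_lit 4700385291) (nat_lit 0) (nat_lit 339313214) (nat_lit 112) (nat_lit 5) (nat_lit 116) (nat_lit 4) (nat_lit 112) (nat_lit 4) (nat_lit 614) (nat_lit 473) (nat_lit 473))))))) (XT.nd (nat_lit 1170) (nat_lit 2736) (nat_lit 0) (XT.nd (nat_lit 546) (nat_lit 1824) (nat_lit 0) (XT.nd (nat_lit 234) (nat_lit 1140) (nat_lit 0) (XT.nd (nat_lit 78) (nat_lit 304) (nat_lit 0) (XT.lf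 (nat_lit 0) (nat_lit 538399240) (nat_lit 304) (nat_lit 5462341431) (nat_lit 304) (nat_lit 4853783600) (nat_lit 108) (nat_lit 4) (nat_lit 112) (nat_lit 5) (nat_lit 112) (nat_lit 4) (nat_lit 615) (nat_lit 473) (nat_lit 472)) (XT.nd (nat_lit 78) (nat_lit 228) (nat_lit 0) (XT.lf (nat_lit 0) (nat_lit 455004895) (nat_lit 380) (nat_lit 286073266) (nat_lit 76) (nat_lit 10212117850) (nat_lit 107) (nat_lit 5) (nat_lit 112) (nat_lit 5) (nat_lit 108) (nat_lit 4) (nat_lit 616) (nat_lit 473) (nat_lit 471)) (XT.lf (nat_lit 0) (nat_lit 5819069126) (nat_lit 304) (nat_lit 1169790096) (nat_lit 0) (nat_lit 4064059379) (nat_lit 104) (nat_lit 5) (nat_lit 108) (nat_lit 4) (nat_lit 104) (nat_lit 4) (nat_lit 617) (nat_lit 473) (nat_lit 470)))) (XT.nd (nat_lit 156) (nat_lit 532) (nat_lit 0) (XT.nd (nat_lit 78) (nat_lit 228) (nat_lit 0) (XT.lf (nat_lit 0) (nat_lit 123016817) (nat_lit 380) (nat_lit 2068729144) (nat_lit 76) (nat_lit 8963092572) (nat_lit 99) (nat_lit 5) (nat_lit 104)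 (nat_lit 5) (nat_lit 100) (nat_lit 4) (nat_lit 618) (nat_lit 473) (nat_lit 469)) (XT.lf (nat_lit 0) (nat_lit 5519652652) (nat_lit 304) (nat_lit 3030915559) (nat_lit 0) (nat_lit 2707483346) (nat_lit 96) (nat_lit 5) (nat_lit 100) (nat_lit 4) (nat_lit 96) (nat_lit 4) (nat_lit 619) (nat_lit 473) (nat_lit 468))) (XT.nd (nat_lit 78) (nat_lit 304) (nat_lit 0) (XT.lf (nat_lit 0) (nat_lit 7342853686) (nat_lit 228) (nat_lit 3681217269) (nat_lit 228) (nat_lit 339261749) (nat_lit 93) (nat_lit 4) (nat_lit 96) (nat_lit 5) (nat_lit 96) (nat_lit 4) (nat_lit 620) (nat_lit 473) (nat_lit 467)) (XT.lf (nat_lit 0) (nat_lit 5094623850) (nat_lit 304) (nat_lit 5066551623) (nat_lit 0) (nat_lit 1308982901) (nat_lit 89) (nat_lit 5) (nat_lit 93) (nat_lit 4) (nat_lit 89) (nat_lit 4) (nat_lit 621) (nat_lit 473) (nat_lit 466))))) (XT.nd (nat_lit 312) (nat_lit 760) (nat_lit 0) (XT.nd (nat_lit 156) (nat_lit 532) (nat_lit 0) (XT.nd (nat_lit 78) (nat_lit 304) (nat_lit 0) (XT.lf (nat_lit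 0) (nat_lit 5423252306) (nat_lit 228) (nat_lit 5220238804) (nat_lit 228) (nat_lit 935368473) (nat_lit 86) (nat_lit 4) (nat_lit 89) (nat_lit 5) (nat_lit 89) (nat_lit 4) (nat_lit 622) (nat_lit 473) (nat_lit 465)) (XT.lf (nat_lit 0) (nat_lit 4396665347) (nat_lit 228) (nat_lit 143421904) (nat_lit 304) (nat_lit 7149309362) (nat_lit 82) (nat_lit 5) (nat_lit 85) (nat_lit 5) (nat_lit 86) (nat_lit 4) (nat_lit 623) (nat_lit 473) (nat_lit 464))) (XT.nd (nat_lit 78) (nat_lit 304) (nat_lit 0) (XT.lf (nat_lit 0) (nat_lit 3312847569) (nat_lit 228) (nat_lit 6819950237) (nat_lit 228) (nat_lit 1668818278) (nat_lit 79) (nat_lit 4) (nat_lit 82) (nat_lit 5) (nat_lit 82) (nat_lit 4) (nat_lit 624) (nat_lit 473) (nat_lit 463)) (XT.lf (nat_lit 0) (nat_lit 2182509157) (nat_lit 228) (nat_lit 1676328415) (nat_lit 304) (nat_lit 8056954248) (nat_lit 75) (nat_lit 5) (nat_lit 78) (nat_lit 5) (nat_lit 79) (nat_lit 4) (nat_lit 625) (nat_lit 473) (nat_lit 462)))) (XT.nd (nat_lit 156) (nat_lit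 456) (nat_lit 0) (XT.nd (nat_lit 78) (nat_lit 76) (nat_lit 0) (XT.lf (nat_lit 0) (nat_lit 995704665) (nat_lit 228) (nat_lit 8490843882) (nat_lit 228) (nat_lit 2545245675) (nat_lit 72) (nat_lit 4) (nat_lit 75) (nat_lit 5) (nat_lit 75) (nat_lit 4) (nat_lit 626) (nat_lit 473) (nat_lit 461)) (XT.lf (nat_lit 0) (nat_lit 3038151314) (nat_lit 304) (nat_lit 243141771) (nat_lit 76) (nat_lit 8868388645) (nat_lit 71) (nat_lit 5) (nat_lit 75) (nat_lit 5) (nat_lit 72) (nat_lit 4) (nat_lit 627) (nat_lit 473) (nat_lit 460))) (XT.nd (nat_lit 78) (nat_lit 304) (nat_lit 0) (XT.lf (nat_lit 0) (nat_lit 8708840991) (nat_lit 228) (nat_lit 1524553223) (nat_lit 0) (nat_lit 2036002857) (nat_lit 69) (nat_lit 5) (nat_lit 72) (nat_lit 4) (nat_lit 69) (nat_lit 4) (nat_lit 628) (nat_lit 473) (nat_lit 459)) (XT.lf (nat_lit 0) (nat_lit 2085891956) (nat_lit 304) (nat_lit 2868878355) (nat_lit 76) (nat_lit 7436223882) (nat_lit 65) (nat_lit 5) (nat_lit 69) (nat_lit 5) (nat_lit 66) (nat_lit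 4) (nat_lit 629) (nat_lit 473) (nat_lit 458)))))) (XT.nd (nat_lit 624) (nat_lit 1292) (nat_lit 0) (XT.nd (nat_lit 312) (nat_lit 608) (nat_lit 0) (XT.nd (nat_lit 156) (nat_lit 380) (nat_lit 0) (XT.nd (nat_lit 78) (nat_lit 304) (nat_lit 0) (XT.lf (nat_lit 0) (nat_lit 7791232957) (nat_lit 228) (nat_lit 4269363350) (nat_lit 0) (nat_lit 454084086) (nat_lit 63) (nat_lit 5) (nat_lit 66) (nat_lit 4) (nat_lit 63) (nat_lit 4) (nat_lit 630) (nat_lit 473) (nat_lit 457)) (XT.lf (nat_lit 0) (nat_lit 981273450) (nat_lit 304) (nat_lit 5740897050) (nat_lit 76) (nat_lit 5918061441) (nat_lit 59) (nat_lit 5) (nat_lit 63) (nat_lit 5) (nat_lit 60) (nat_lit 4) (nat_lit 631) (nat_lit 473) (nat_lit 456))) (XT.nd (nat_lit 78) (nat_lit 228) (nat_lit 0) (XT.lf (nat_lit 0) (nat_lit 5490046636) (nat_lit 152) (nat_lit 1238403628) (nat_lit 228) (nat_lit 6039388247) (nat_lit 57) (nat_lit 5) (nat_lit 59) (nat_lit 5) (nat_lit 60) (nat_lit 4) (nat_lit 632) (nat_lit 473) (nat_lit 455)) (XT.lf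 (nat_lit 0) (nat_lit 4018128881) (nat_lit 228) (nat_lit 8592846921) (nat_lit 228) (nat_lit 286613897) (nat_lit 54) (nat_lit 4) (nat_lit 57) (nat_lit 5) (nat_lit 57) (nat_lit 4) (nat_lit 633) (nat_lit 473) (nat_lit 454)))) (XT.nd (nat_lit 156) (nat_lit 228) (nat_lit 0) (XT.nd (nat_lit 78) (nat_lit 152) (nat_lit 0) (XT.lf (nat_lit 0) (nat_lit 2464890557) (nat_lit 152) (nat_lit 3043849301) (nat_lit 228) (nat_lit 7520457429) (nat_lit 51) (nat_lit 5) (nat_lit 53) (nat_lit 5) (nat_lit 54) (nat_lit 4) (nat_lit 634) (nat_lit 473) (nat_lit 453)) (XT.lf (nat_lit 0) (nat_lit 853642159) (nat_lit 152) (nat_lit 10572574353) (nat_lit 152) (nat_lit 1736982108) (nat_lit 49) (nat_lit 4) (nat_lit 51) (nat_lit 5) (nat_lit 51) (nat_lit 4) (nat_lit 635) (nat_lit 473) (nat_lit 452))) (XT.nd (nat_lit 78) (nat_lit 152) (nat_lit 0) (XT.lf (nat_lit 0) (nat_lit 4126725516) (nat_lit 228) (nat_lit 835573762) (nat_lit 76) (nat_lit 8336657757) (nat_lit 48) (nat_lit 5) (nat_lit 51) (nat_lit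 5) (nat_lit 49) (nat_lit 4) (nat_lit 636) (nat_lit 473) (nat_lit 451)) (XT.lf (nat_lit 0) (nat_lit 10089184568) (nat_lit 228) (nat_lit 2573383534) (nat_lit 0) (nat_lit 774538705) (nat_lit 46) (nat_lit 5) (nat_lit 49) (nat_lit 4) (nat_lit 46) (nat_lit 4) (nat_lit 637) (nat_lit 473) (nat_lit 450))))) (XT.nd (nat_lit 312) (nat_lit 532) (nat_lit 0) (XT.nd (nat_lit 156) (nat_lit 380) (nat_lit 0) (XT.nd (nat_lit 78) (nat_lit 152) (nat_lit 0) (XT.lf (nat_lit 0) (nat_lit 2586429730) (nat_lit 228) (nat_lit 4406647073) (nat_lit 76) (nat_lit 6584055329) (nat_lit 43) (nat_lit 5) (nat_lit 46) (nat_lit 5) (nat_lit 44) (nat_lit 4) (nat_lit 638) (nat_lit 473) (nat_lit 449)) (XT.lf (nat_lit 0) (nat_lit 7409119665) (nat_lit 152) (nat_lit 1180353814) (nat_lit 228) (nat_lit 5130145715) (nat_lit 41) (nat_lit 5) (nat_lit 43) (nat_lit 5) (nat_lit 44) (nat_lit 4) (nat_lit 639) (nat_lit 473) (nat_lit 448))) (XT.nd (nat_lit 78) (nat_lit 152) (nat_lit 0) (XT.lf (nat_lit 0) (nat_lit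 862893260) (nat_lit 228) (nat_lit 8301967851) (nat_lit 76) (nat_lit 4699457535) (nat_lit 38) (nat_lit 5) (nat_lit 41) (nat_lit 5) (nat_lit 39) (nat_lit 4) (nat_lit 640) (nat_lit 473) (nat_lit 447)) (XT.lf (nat_lit 0) (nat_lit 3622057560) (nat_lit 152) (nat_lit 3288610431) (nat_lit 228) (nat_lit 7100495004) (nat_lit 36) (nat_lit 5) (nat_lit 38) (nat_lit 5) (nat_lit 39) (nat_lit 4) (nat_lit 641) (nat_lit 473) (nat_lit 446)))) (XT.nd (nat_lit 156) (nat_lit 304) (nat_lit 0) (XT.nd (nat_lit 78) (nat_lit 76) (nat_lit 0) (XT.lf (nat_lit 0) (nat_lit 1609788421) (nat_lit 152) (nat_lit 11483399276) (nat_lit 152) (nat_lit 1067481201) (nat_lit 34) (nat_lit 4) (nat_lit 36) (nat_lit 5) (nat_lit 36) (nat_lit 4) (nat_lit 642) (nat_lit 473) (nat_lit 445)) (XT.lf (nat_lit 0) (nat_lit 5041211199) (nat_lit 228) (nat_lit 508281460) (nat_lit 76) (nat_lit 8762577745) (nat_lit 33) (nat_lit 5) (nat_lit 36) (nat_lit 5) (nat_lit 34) (nat_lit 4) (nat_lit 643) (nat_lit 473) (nat_lit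 444))) (XT.nd (nat_lit 78) (nat_lit 228) (nat_lit 0) (XT.lf (nat_lit 0) (nat_lit 11268955784) (nat_lit 152) (nat_lit 2675022257) (nat_lit 0) (nat_lit 522157769) (nat_lit 32) (nat_lit 5) (nat_lit 34) (nat_lit 4) (nat_lit 32) (nat_lit 4) (nat_lit 644) (nat_lit 473) (nat_lit 443)) (XT.lf (nat_lit 0) (nat_lit 2993213355) (nat_lit 228) (nat_lit 4960220503) (nat_lit 76) (nat_lit 6668768592) (nat_lit 29) (nat_lit 5) (nat_lit 32) (nat_lit 5) (nat_lit 30) (nat_lit 4) (nat_lit 645) (nat_lit 473) (nat_lit 442))))))))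
noncomputable def xc6 : XT := (XT.nd (nat_lit 80496) (nat_lit 0) (nat_lit 0) (XT.nd (nat_lit 79248) (nat_lit 0) (nat_lit 2128) (XT.nd (nat_lit 78624) (nat_lit 0) (nat_lit 5548) (XT.nd (nat_lit 234) (nat_lit 304) (nat_lit 0) (XT.nd (nat_lit 78) (nat_lit 304) (nat_lit 0) (XT.lf (nat_lit 0) (nat_lit 7448977420) (nat_lit 76) (nat_lit 1813453246) (nat_lit 152) (nat_lit 5518580967) (nat_lit 28) (nat_lit 5) (nat_lit 29) (nat_lit 5) (nat_lit 30) (nat_lit 4) (nat_lit 646) (nat_lit 473) (nat_lit 441)) (XT.nd (nat_lit 78) (nat_lit 76) (nat_lit 0) (XT.lf (nat_lit 0) (nat_lit 732109252) (nat_lit 228) (nat_lit 9806199117) (nat_lit 76) (nat_lit 4404047528) (nat_lit 25) (nat_lit 5) (nat_lit 28) (nat_lit 5) (nat_lit 26) (nat_lit 4) (nat_lit 647) (nat_lit 473) (nat_lit 440)) (XT.lf (nat_lit 0) (nat_lit 2705175034) (nat_lit 76) (nat_lit 4339463549) (nat_lit 152) (nat_lit 8061344906) (nat_lit 24) (nat_lit 5) (nat_lit 25) (nat_lit 5) (nat_lit 26) (nat_lit 4) (nat_lit 648)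 (nat_lit 473) (nat_lit 439)))) (XT.nd (nat_lit 156) (nat_lit 76) (nat_lit 0) (XT.nd (nat_lit 78) (nat_lit 76) (nat_lit 0) (XT.lf (nat_lit 0) (nat_lit 188592379) (nat_lit 152) (nat_lit 13306842024) (nat_lit 152) (nat_lit 1777209285) (nat_lit 22) (nat_lit 4) (nat_lit 24) (nat_lit 5) (nat_lit 24) (nat_lit 4) (nat_lit 649) (nat_lit 473) (nat_lit 438)) (XT.lf (nat_lit 0) (nat_lit 4616090500) (nat_lit 228) (nat_lit 2431226128) (nat_lit 76) (nat_lit 8393834483) (nat_lit 21) (nat_lit 5) (nat_lit 24) (nat_lit 5) (nat_lit 22) (nat_lit 4) (nat_lit 650) (nat_lit 473) (nat_lit 437))) (XT.nd (nat_lit 78156) (nat_lit 0) (nat_lit 7600) (XT.lf (nat_lit 0) (nat_lit 10474015766) (nat_lit 76) (nat_lit 640542475) (nat_lit 152) (nat_lit 4498213872) (nat_lit 20) (nat_lit 5) (nat_lit 21) (nat_lit 5) (nat_lit 22) (nat_lit 4) (nat_lit 651) (nat_lit 473) (nat_lit 436)) (XT.lf (nat_lit 0) (nat_lit 730780057) (nat_lit 380) (nat_lit 3822717411) (nat_lit 0) (nat_lit 730780057) (nat_lit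 120) (nat_lit 5) (nat_lit 125) (nat_lit 4) (nat_lit 120) (nat_lit 4) (nat_lit 612) (nat_lit 474) (nat_lit 474))))) (XT.nd (nat_lit 312) (nat_lit 1064) (nat_lit 0) (XT.nd (nat_lit 156) (nat_lit 380) (nat_lit 0) (XT.nd (nat_lit 78) (nat_lit 304) (nat_lit 0) (XT.lf (nat_lit 0) (nat_lit 2114166818) (nat_lit 304) (nat_lit 4590812892) (nat_lit 304) (nat_lit 3957669325) (nat_lit 116) (nat_lit 4) (nat_lit 120) (nat_lit 5) (nat_lit 120) (nat_lit 4) (nat_lit 613) (nat_lit 474) (nat_lit 473)) (XT.lf (nat_lit 0) (nat_lit 1260370054) (nat_lit 304) (nat_lit 9467350345) (nat_lit 0) (nat_lit 31083236) (nat_lit 112) (nat_lit 5) (nat_lit 116) (nat_lit 4) (nat_lit 112) (nat_lit 4) (nat_lit 614) (nat_lit 474) (nat_lit 472))) (XT.nd (nat_lit 78) (nat_lit 76) (nat_lit 0) (XT.lf (nat_lit 0) (nat_lit 404792928) (nat_lit 304) (nat_lit 6138602963) (nat_lit 304) (nat_lit 4312690822) (nat_lit 108) (nat_lit 4) (nat_lit 112) (nat_lit 5) (nat_lit 112) (nat_lit 4) (nat_lit 615) (nat_lit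 474) (nat_lit 471)) (XT.lf (nat_lit 0) (nat_lit 950857208) (nat_lit 380) (nat_lit 490107368) (nat_lit 76) (nat_lit 9514486953) (nat_lit 107) (nat_lit 5) (nat_lit 112) (nat_lit 5) (nat_lit 108) (nat_lit 4) (nat_lit 616) (nat_lit 474) (nat_lit 470)))) (XT.nd (nat_lit 156) (nat_lit 456) (nat_lit 0) (XT.nd (nat_lit 78) (nat_lit 380) (nat_lit 0) (XT.lf (nat_lit 0) (nat_lit 6271032578) (nat_lit 304) (nat_lit 1439768138) (nat_lit 0) (nat_lit 3345251632) (nat_lit 104) (nat_lit 5) (nat_lit 108) (nat_lit 4) (nat_lit 104) (nat_lit 4) (nat_lit 617) (nat_lit 474) (nat_lit 469)) (XT.lf (nat_lit 0) (nat_lit 526251155) (nat_lit 380) (nat_lit 2413943188) (nat_lit 76) (nat_lit 8218514266) (nat_lit 99) (nat_lit 5) (nat_lit 104) (nat_lit 5) (nat_lit 100) (nat_lit 4) (nat_lit 618) (nat_lit 474) (nat_lit 468))) (XT.nd (nat_lit 78) (nat_lit 228) (nat_lit 0) (XT.lf (nat_lit 0) (nat_lit 5877962175) (nat_lit 304) (nat_lit 3445477048) (nat_lit 0) (nat_lit 1939381331) (nat_lit 96)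 (nat_lit 5) (nat_lit 100) (nat_lit 4) (nat_lit 96) (nat_lit 4) (nat_lit 619) (nat_lit 474) (nat_lit 467)) (XT.lf (nat_lit 0) (nat_lit 6857496556) (nat_lit 228) (nat_lit 4484694224) (nat_lit 228) (nat_lit 26715132) (nat_lit 93) (nat_lit 4) (nat_lit 96) (nat_lit 5) (nat_lit 96) (nat_lit 4) (nat_lit 620) (nat_lit 474) (nat_lit 466)))))) (XT.nd (nat_lit 624) (nat_lit 1596) (nat_lit 0) (XT.nd (nat_lit 312) (nat_lit 760) (nat_lit 0) (XT.nd (nat_lit 156) (nat_lit 532) (nat_lit 0) (XT.nd (nat_lit 78) (nat_lit 228) (nat_lit 0) (XT.lf (nat_lit 0) (nat_lit 5357026206) (nat_lit 304) (nat_lit 5632357009) (nat_lit 0) (nat_lit 487229087) (nat_lit 89) (nat_lit 5) (nat_lit 93) (nat_lit 4) (nat_lit 89) (nat_lit 4) (nat_lit 621) (nat_lit 474) (nat_lit 465)) (XT.lf (nat_lit 0) (nat_lit 4784439490) (nat_lit 228) (nat_lit 6080465932) (nat_lit 228) (nat_lit 721228243) (nat_lit 86) (nat_lit 4) (nat_lit 89) (nat_lit 5) (nat_lit 89) (nat_lit 4) (nat_lit 622) (nat_lit 474) (nat_lit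 464))) (XT.nd (nat_lit 78) (nat_lit 228) (nat_lit 0) (XT.lf (nat_lit 0) (nat_lit 3675030517) (nat_lit 228) (nat_lit 1034925869) (nat_lit 304) (nat_lit 6987516130) (nat_lit 82) (nat_lit 5) (nat_lit 85) (nat_lit 5) (nat_lit 86) (nat_lit 4) (nat_lit 623) (nat_lit 474) (nat_lit 463)) (XT.lf (nat_lit 0) (nat_lit 2513626149) (nat_lit 228) (nat_lit 7741409603) (nat_lit 228) (nat_lit 1555609228) (nat_lit 79) (nat_lit 4) (nat_lit 82) (nat_lit 5) (nat_lit 82) (nat_lit 4) (nat_lit 624) (nat_lit 474) (nat_lit 462)))) (XT.nd (nat_lit 156) (nat_lit 228) (nat_lit 0) (XT.nd (nat_lit 78) (nat_lit 228) (nat_lit 0) (XT.lf (nat_lit 0) (nat_lit 1297033402) (nat_lit 228) (nat_lit 2631185017) (nat_lit 304) (nat_lit 7997434821) (nat_lit 75) (nat_lit 5) (nat_lit 78) (nat_lit 5) (nat_lit 79) (nat_lit 4) (nat_lit 625) (nat_lit 474) (nat_lit 461)) (XT.lf (nat_lit 0) (nat_lit 28893282) (nat_lit 228) (nat_lit 9478081300) (nat_lit 228) (nat_lit 2535660506) (nat_lit 72) (nat_lit 4) (nat_lit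 75) (nat_lit 5) (nat_lit 75) (nat_lit 4) (nat_lit 626) (nat_lit 474) (nat_lit 460))) (XT.nd (nat_lit 78) (nat_lit 152) (nat_lit 0) (XT.lf (nat_lit 0) (nat_lit 3011188798) (nat_lit 304) (nat_lit 1285906891) (nat_lit 76) (nat_lit 7864154437) (nat_lit 71) (nat_lit 5) (nat_lit 75) (nat_lit 5) (nat_lit 72) (nat_lit 4) (nat_lit 627) (nat_lit 474) (nat_lit 459)) (XT.lf (nat_lit 0) (nat_lit 8632065081) (nat_lit 228) (nat_lit 2651401587) (nat_lit 0) (nat_lit 998495396) (nat_lit 69) (nat_lit 5) (nat_lit 72) (nat_lit 4) (nat_lit 69) (nat_lit 4) (nat_lit 628) (nat_lit 474) (nat_lit 458))))) (XT.nd (nat_lit 312) (nat_lit 684) (nat_lit 0) (XT.nd (nat_lit 156) (nat_lit 456) (nat_lit 0) (XT.nd (nat_lit 78) (nat_lit 152) (nat_lit 0) (XT.lf (nat_lit 0) (nat_lit 1954000663) (nat_lit 304) (nat_lit 4088000083) (nat_lit 76) (nat_lit 6362444798) (nat_lit 65) (nat_lit 5) (nat_lit 69) (nat_lit 5) (nat_lit 66) (nat_lit 4) (nat_lit 629) (nat_lit 474) (nat_lit 457)) (XT.lf (nat_lit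 0) (nat_lit 6948255974) (nat_lit 152) (nat_lit 664108559) (nat_lit 228) (nat_lit 4916707063) (nat_lit 63) (nat_lit 5) (nat_lit 65) (nat_lit 5) (nat_lit 66) (nat_lit 4) (nat_lit 630) (nat_lit 474) (nat_lit 456))) (XT.nd (nat_lit 78) (nat_lit 152) (nat_lit 0) (XT.lf (nat_lit 0) (nat_lit 741445034) (nat_lit 304) (nat_lit 7144085868) (nat_lit 76) (nat_lit 4770099705) (nat_lit 59) (nat_lit 5) (nat_lit 63) (nat_lit 5) (nat_lit 60) (nat_lit 4) (nat_lit 631) (nat_lit 474) (nat_lit 455)) (XT.lf (nat_lit 0) (nat_lit 4003272218) (nat_lit 152) (nat_lit 2440297999) (nat_lit 228) (nat_lit 6340568284) (nat_lit 57) (nat_lit 5) (nat_lit 59) (nat_lit 5) (nat_lit 60) (nat_lit 4) (nat_lit 632) (nat_lit 474) (nat_lit 454)))) (XT.nd (nat_lit 156) (nat_lit 228) (nat_lit 0) (XT.nd (nat_lit 78) (nat_lit 228) (nat_lit 0) (XT.lf (nat_lit 0) (nat_lit 2437951698) (nat_lit 228) (nat_lit 9834777886) (nat_lit 228) (nat_lit 642227715) (nat_lit 54) (nat_lit 4) (nat_lit 57) (nat_lit 5)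 (nat_lit 57) (nat_lit 4) (nat_lit 633) (nat_lit 474) (nat_lit 453)) (XT.lf (nat_lit 0) (nat_lit 783372710) (nat_lit 152) (nat_lit 4328242642) (nat_lit 228) (nat_lit 7935919479) (nat_lit 51) (nat_lit 5) (nat_lit 53) (nat_lit 5) (nat_lit 54) (nat_lit 4) (nat_lit 634) (nat_lit 474) (nat_lit 452))) (XT.nd (nat_lit 78) (nat_lit 228) (nat_lit 0) (XT.lf (nat_lit 0) (nat_lit 10980043251) (nat_lit 228) (nat_lit 913388462) (nat_lit 0) (nat_lit 1289085695) (nat_lit 51) (nat_lit 5) (nat_lit 54) (nat_lit 4) (nat_lit 51) (nat_lit 4) (nat_lit 635) (nat_lit 474) (nat_lit 451)) (XT.lf (nat_lit 0) (nat_lit 3626165701) (nat_lit 228) (nat_lit 2695482311) (nat_lit 76) (nat_lit 6997511974) (nat_lit 48) (nat_lit 5) (nat_lit 51) (nat_lit 5) (nat_lit 49) (nat_lit 4) (nat_lit 636) (nat_lit 474) (nat_lit 450))))))) (XT.nd (nat_lit 79092) (nat_lit 0) (nat_lit 4180) (XT.nd (nat_lit 546) (nat_lit 988) (nat_lit 0) (XT.nd (nat_lit 234) (nat_lit 608) (nat_lit 0) (XT.nd (nat_lit 78) (nat_lit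 380) (nat_lit 0) (XT.lf (nat_lit 0) (nat_lit 8920355939) (nat_lit 152) (nat_lit 616086644) (nat_lit 228) (nat_lit 3921911070) (nat_lit 46) (nat_lit 5) (nat_lit 48) (nat_lit 5) (nat_lit 49) (nat_lit 4) (nat_lit 637) (nat_lit 474) (nat_lit 449)) (XT.nd (nat_lit 78) (nat_lit 152) (nat_lit 0) (XT.lf (nat_lit 0) (nat_lit 1967959852) (nat_lit 228) (nat_lit 6475551830) (nat_lit 76) (nat_lit 5155982256) (nat_lit 43) (nat_lit 5) (nat_lit 46) (nat_lit 5) (nat_lit 44) (nat_lit 4) (nat_lit 638) (nat_lit 474) (nat_lit 448)) (XT.lf (nat_lit 0) (nat_lit 5248655628) (nat_lit 152) (nat_lit 2674008768) (nat_lit 228) (nat_lit 5820283628) (nat_lit 41) (nat_lit 5) (nat_lit 43) (nat_lit 5) (nat_lit 44) (nat_lit 4) (nat_lit 639) (nat_lit 474) (nat_lit 447)))) (XT.nd (nat_lit 156) (nat_lit 228) (nat_lit 0) (XT.nd (nat_lit 78) (nat_lit 152) (nat_lit 0) (XT.lf (nat_lit 0) (nat_lit 122766670) (nat_lit 228) (nat_lit 10588732490) (nat_lit 76) (nat_lit 3177418961) (nat_lit 38) (nat_lit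 5) (nat_lit 41) (nat_lit 5) (nat_lit 39) (nat_lit 4) (nat_lit 640) (nat_lit 474) (nat_lit 446)) (XT.lf (nat_lit 0) (nat_lit 1240720153) (nat_lit 152) (nat_lit 4880163991) (nat_lit 228) (nat_lit 7915871698) (nat_lit 36) (nat_lit 5) (nat_lit 38) (nat_lit 5) (nat_lit 39) (nat_lit 4) (nat_lit 641) (nat_lit 474) (nat_lit 445))) (XT.nd (nat_lit 78) (nat_lit 228) (nat_lit 0) (XT.lf (nat_lit 0) (nat_lit 12248496317) (nat_lit 228) (nat_lit 871336135) (nat_lit 0) (nat_lit 1067527663) (nat_lit 36) (nat_lit 5) (nat_lit 39) (nat_lit 4) (nat_lit 36) (nat_lit 4) (nat_lit 642) (nat_lit 474) (nat_lit 444)) (XT.lf (nat_lit 0) (nat_lit 4141399779) (nat_lit 228) (nat_lit 3085546989) (nat_lit 76) (nat_lit 7112725361) (nat_lit 33) (nat_lit 5) (nat_lit 36) (nat_lit 5) (nat_lit 34) (nat_lit 4) (nat_lit 643) (nat_lit 474) (nat_lit 443))))) (XT.nd (nat_lit 312) (nat_lit 456) (nat_lit 0) (XT.nd (nat_lit 156) (nat_lit 228) (nat_lit 0) (XT.nd (nat_lit 78) (nat_lit 228) (nat_lit 0)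 (XT.lf (nat_lit 0) (nat_lit 9120067853) (nat_lit 76) (nat_lit 1194857955) (nat_lit 152) (nat_lit 4179896307) (nat_lit 32) (nat_lit 5) (nat_lit 33) (nat_lit 5) (nat_lit 34) (nat_lit 4) (nat_lit 644) (nat_lit 474) (nat_lit 442)) (XT.lf (nat_lit 0) (nat_lit 1963765030) (nat_lit 228) (nat_lit 7774170861) (nat_lit 76) (nat_lit 4914273084) (nat_lit 29) (nat_lit 5) (nat_lit 32) (nat_lit 5) (nat_lit 30) (nat_lit 4) (nat_lit 645) (nat_lit 474) (nat_lit 441))) (XT.nd (nat_lit 78) (nat_lit 152) (nat_lit 0) (XT.lf (nat_lit 0) (nat_lit 4534494581) (nat_lit 76) (nat_lit 3646247636) (nat_lit 152) (nat_lit 6631320940) (nat_lit 28) (nat_lit 5) (nat_lit 29) (nat_lit 5) (nat_lit 30) (nat_lit 4) (nat_lit 646) (nat_lit 474) (nat_lit 440)) (XT.lf (nat_lit 0) (nat_lit 2105246709) (nat_lit 152) (nat_lit 12432492203) (nat_lit 152) (nat_lit 437062301) (nat_lit 26) (nat_lit 4) (nat_lit 28) (nat_lit 5) (nat_lit 28) (nat_lit 4) (nat_lit 647) (nat_lit 474) (nat_lit 439)))) (XT.nd (nat_lit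 156) (nat_lit 304) (nat_lit 0) (XT.nd (nat_lit 78) (nat_lit 76) (nat_lit 0) (XT.lf (nat_lit 0) (nat_lit 5830413185) (nat_lit 228) (nat_lit 453225755) (nat_lit 76) (nat_lit 8855862524) (nat_lit 25) (nat_lit 5) (nat_lit 28) (nat_lit 5) (nat_lit 26) (nat_lit 4) (nat_lit 648) (nat_lit 474) (nat_lit 438)) (XT.lf (nat_lit 0) (nat_lit 12231198454) (nat_lit 152) (nat_lit 3061704869) (nat_lit 0) (nat_lit 14258732) (nat_lit 24) (nat_lit 5) (nat_lit 26) (nat_lit 4) (nat_lit 24) (nat_lit 4) (nat_lit 649) (nat_lit 474) (nat_lit 437))) (XT.nd (nat_lit 78) (nat_lit 76) (nat_lit 0) (XT.lf (nat_lit 0) (nat_lit 3280960859) (nat_lit 228) (nat_lit 5811061728) (nat_lit 76) (nat_lit 6384883889) (nat_lit 21) (nat_lit 5) (nat_lit 24) (nat_lit 5) (nat_lit 22) (nat_lit 4) (nat_lit 650) (nat_lit 474) (nat_lit 436)) (XT.lf (nat_lit 0) (nat_lit 6987180626) (nat_lit 76) (nat_lit 2737126255) (nat_lit 152) (nat_lit 5925323202) (nat_lit 20) (nat_lit 5) (nat_lit 21) (nat_lit 5) (nat_lit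 22) (nat_lit 4) (nat_lit 651) (nat_lit 474) (nat_lit 435)))))) (XT.nd (nat_lit 624) (nat_lit 2204) (nat_lit 0) (XT.nd (nat_lit 312) (nat_lit 912) (nat_lit 0) (XT.nd (nat_lit 156) (nat_lit 684) (nat_lit 0) (XT.nd (nat_lit 78) (nat_lit 304) (nat_lit 0) (XT.lf (nat_lit 0) (nat_lit 1121057816) (nat_lit 380) (nat_lit 2949910939) (nat_lit 0) (nat_lit 1121057816) (nat_lit 129) (nat_lit 5) (nat_lit 134) (nat_lit 4) (nat_lit 129) (nat_lit 4) (nat_lit 610) (nat_lit 475) (nat_lit 475)) (XT.lf (nat_lit 0) (nat_lit 3683050308) (nat_lit 304) (nat_lit 3725725908) (nat_lit 304) (nat_lit 3067003342) (nat_lit 125) (nat_lit 4) (nat_lit 129) (nat_lit 5) (nat_lit 129) (nat_lit 4) (nat_lit 611) (nat_lit 475) (nat_lit 474))) (XT.nd (nat_lit 78) (nat_lit 304) (nat_lit 0) (XT.lf (nat_lit 0) (nat_lit 2068904262) (nat_lit 380) (nat_lit 7710466287) (nat_lit 0) (nat_lit 789954257) (nat_lit 120) (nat_lit 5) (nat_lit 125) (nat_lit 4) (nat_lit 120) (nat_lit 4) (nat_lit 612) (nat_lit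 475) (nat_lit 473)) (XT.lf (nat_lit 0) (nat_lit 1983667493) (nat_lit 304) (nat_lit 5290100947) (nat_lit 304) (nat_lit 3390421955) (nat_lit 116) (nat_lit 4) (nat_lit 120) (nat_lit 5) (nat_lit 120) (nat_lit 4) (nat_lit 613) (nat_lit 475) (nat_lit 472)))) (XT.nd (nat_lit 156) (nat_lit 304) (nat_lit 0) (XT.nd (nat_lit 78) (nat_lit 304) (nat_lit 0) (XT.lf (nat_lit 0) (nat_lit 1089448758) (nat_lit 228) (nat_lit 691583707) (nat_lit 304) (nat_lit 8980022258) (nat_lit 112) (nat_lit 5) (nat_lit 115) (nat_lit 5) (nat_lit 116) (nat_lit 4) (nat_lit 614) (nat_lit 475) (nat_lit 471)) (XT.lf (nat_lit 0) (nat_lit 137527910) (nat_lit 304) (nat_lit 6882833399) (nat_lit 304) (nat_lit 3838850902) (nat_lit 108) (nat_lit 4) (nat_lit 112) (nat_lit 5) (nat_lit 112) (nat_lit 4) (nat_lit 615) (nat_lit 475) (nat_lit 470))) (XT.nd (nat_lit 78) (nat_lit 228) (nat_lit 0) (XT.lf (nat_lit 0) (nat_lit 1381086616) (nat_lit 380) (nat_lit 827645166) (nat_lit 76) (nat_lit 8750532086) (nat_lit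 107) (nat_lit 5) (nat_lit 112) (nat_lit 5) (nat_lit 108) (nat_lit 4) (nat_lit 616) (nat_lit 475) (nat_lit 469)) (XT.lf (nat_lit 0) (nat_lit 6656793237) (nat_lit 304) (nat_lit 1844867540) (nat_lit 0) (nat_lit 2559093727) (nat_lit 104) (nat_lit 5) (nat_lit 108) (nat_lit 4) (nat_lit 104) (nat_lit 4) (nat_lit 617) (nat_lit 475) (nat_lit 468))))) (XT.nd (nat_lit 312) (nat_lit 1064) (nat_lit 0) (XT.nd (nat_lit 156) (nat_lit 532) (nat_lit 0) (XT.nd (nat_lit 78) (nat_lit 228) (nat_lit 0) (XT.lf (nat_lit 0) (nat_lit 862451828) (nat_lit 380) (nat_lit 2895928754) (nat_lit 76) (nat_lit 7405778331) (nat_lit 99) (nat_lit 5) (nat_lit 104) (nat_lit 5) (nat_lit 100) (nat_lit 4) (nat_lit 618) (nat_lit 475) (nat_lit 467)) (XT.lf (nat_lit 0) (nat_lit 6168620245) (nat_lit 304) (nat_lit 3998478558) (nat_lit 0) (nat_lit 1102083323) (nat_lit 96) (nat_lit 5) (nat_lit 100) (nat_lit 4) (nat_lit 96) (nat_lit 4) (nat_lit 619) (nat_lit 475) (nat_lit 466))) (XT.nd (nat_lit 78) (nat_lit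 228) (nat_lit 0) (XT.lf (nat_lit 0) (nat_lit 213569480) (nat_lit 304) (nat_lit 5144340541) (nat_lit 76) (nat_lit 6018137090) (nat_lit 92) (nat_lit 5) (nat_lit 96) (nat_lit 5) (nat_lit 93) (nat_lit 4) (nat_lit 620) (nat_lit 475) (nat_lit 465)) (XT.lf (nat_lit 0) (nat_lit 5141932977) (nat_lit 228) (nat_lit 410994374) (nat_lit 304) (nat_lit 5931703734) (nat_lit 89) (nat_lit 5) (nat_lit 92) (nat_lit 5) (nat_lit 93) (nat_lit 4) (nat_lit 621) (nat_lit 475) (nat_lit 464)))) (XT.nd (nat_lit 156) (nat_lit 532) (nat_lit 0) (XT.nd (nat_lit 78) (nat_lit 304) (nat_lit 0) (XT.lf (nat_lit 0) (nat_lit 4003158148) (nat_lit 228) (nat_lit 7013789289) (nat_lit 228) (nat_lit 578082579) (nat_lit 86) (nat_lit 4) (nat_lit 89) (nat_lit 5) (nat_lit 89) (nat_lit 4) (nat_lit 622) (nat_lit 475) (nat_lit 463)) (XT.lf (nat_lit 0) (nat_lit 2809142422) (nat_lit 228) (nat_lit 2000404175) (nat_lit 304) (nat_lit 6897637614) (nat_lit 82) (nat_lit 5) (nat_lit 85) (nat_lit 5) (nat_lit 86) (nat_lit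 4) (nat_lit 623) (nat_lit 475) (nat_lit 462))) (XT.nd (nat_lit 78) (nat_lit 304) (nat_lit 0) (XT.lf (nat_lit 0) (nat_lit 1568351369) (nat_lit 228) (nat_lit 8737933543) (nat_lit 228) (nat_lit 1515038948) (nat_lit 79) (nat_lit 4) (nat_lit 82) (nat_lit 5) (nat_lit 82) (nat_lit 4) (nat_lit 624) (nat_lit 475) (nat_lit 461)) (XT.lf (nat_lit 0) (nat_lit 263658300) (nat_lit 228) (nat_lit 3662012144) (nat_lit 304) (nat_lit 8011508480) (nat_lit 75) (nat_lit 5) (nat_lit 78) (nat_lit 5) (nat_lit 79) (nat_lit 4) (nat_lit 625) (nat_lit 475) (nat_lit 460))))))))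
noncomputable def xc7 : XT := (XT.nd (nat_lit 80184) (nat_lit 0) (nat_lit 988) (XT.nd (nat_lit 1170) (nat_lit 1444) (nat_lit 0) (XT.nd (nat_lit 546) (nat_lit 1368) (nat_lit 0) (XT.nd (nat_lit 234) (nat_lit 912) (nat_lit 0) (XT.nd (nat_lit 78) (nat_lit 456) (nat_lit 0) (XT.lf (nat_lit 0) (nat_lit 9461783386) (nat_lit 304) (nat_lit 1073413105) (nat_lit 0) (nat_lit 1519817486) (nat_lit 75) (nat_lit 5) (nat_lit 79) (nat_lit 4) (nat_lit 75) (nat_lit 4) (nat_lit 626) (nat_lit 475) (nat_lit 459)) (XT.nd (nat_lit 78) (nat_lit 152) (nat_lit 0) (XT.lf (nat_lit 0) (nat_lit 2911557241) (nat_lit 304) (nat_lit 2478353085) (nat_lit 76) (nat_lit 6784582823) (nat_lit 71) (nat_lit 5) (nat_lit 75) (nat_lit 5) (nat_lit 72) (nat_lit 4) (nat_lit 627) (nat_lit 475) (nat_lit 458)) (XT.lf (nat_lit 0) (nat_lit 8365612169) (nat_lit 152) (nat_lit 116988255) (nat_lit 228) (nat_lit 3813601648) (nat_lit 69) (nat_lit 5) (nat_lit 71) (nat_lit 5) (nat_lit 72) (nat_lit 4) (nat_lit 628)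 (nat_lit 475) (nat_lit 457)))) (XT.nd (nat_lit 156) (nat_lit 456) (nat_lit 0) (XT.nd (nat_lit 78) (nat_lit 152) (nat_lit 0) (XT.lf (nat_lit 0) (nat_lit 1747663435) (nat_lit 304) (nat_lit 5460653614) (nat_lit 76) (nat_lit 5211285663) (nat_lit 65) (nat_lit 5) (nat_lit 69) (nat_lit 5) (nat_lit 66) (nat_lit 4) (nat_lit 629) (nat_lit 475) (nat_lit 456)) (XT.lf (nat_lit 0) (nat_lit 5493845898) (nat_lit 152) (nat_lit 1867886874) (nat_lit 228) (nat_lit 5183382186) (nat_lit 63) (nat_lit 5) (nat_lit 65) (nat_lit 5) (nat_lit 66) (nat_lit 4) (nat_lit 630) (nat_lit 475) (nat_lit 455))) (XT.nd (nat_lit 78) (nat_lit 152) (nat_lit 0) (XT.lf (nat_lit 0) (nat_lit 425315067) (nat_lit 304) (nat_lit 8704792761) (nat_lit 76) (nat_lit 3542660106) (nat_lit 59) (nat_lit 5) (nat_lit 63) (nat_lit 5) (nat_lit 60) (nat_lit 4) (nat_lit 631) (nat_lit 475) (nat_lit 454)) (XT.lf (nat_lit 0) (nat_lit 2358159686) (nat_lit 152) (nat_lit 3723894985) (nat_lit 228) (nat_lit 6720129156) (nat_lit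 57) (nat_lit 5) (nat_lit 59) (nat_lit 5) (nat_lit 60) (nat_lit 4) (nat_lit 632) (nat_lit 475) (nat_lit 453))))) (XT.nd (nat_lit 312) (nat_lit 684) (nat_lit 0) (XT.nd (nat_lit 156) (nat_lit 380) (nat_lit 0) (XT.nd (nat_lit 78) (nat_lit 76) (nat_lit 0) (XT.lf (nat_lit 0) (nat_lit 697376352) (nat_lit 228) (nat_lit 11159591855) (nat_lit 228) (nat_lit 1077119614) (nat_lit 54) (nat_lit 4) (nat_lit 57) (nat_lit 5) (nat_lit 57) (nat_lit 4) (nat_lit 633) (nat_lit 475) (nat_lit 452)) (XT.lf (nat_lit 0) (nat_lit 4642775180) (nat_lit 304) (nat_lit 1046752779) (nat_lit 76) (nat_lit 7377987176) (nat_lit 53) (nat_lit 5) (nat_lit 57) (nat_lit 5) (nat_lit 54) (nat_lit 4) (nat_lit 634) (nat_lit 475) (nat_lit 451))) (XT.nd (nat_lit 78) (nat_lit 228) (nat_lit 0) (XT.lf (nat_lit 0) (nat_lit 10371188225) (nat_lit 152) (nat_lit 90353325) (nat_lit 228) (nat_lit 2741949658) (nat_lit 51) (nat_lit 5) (nat_lit 53) (nat_lit 5) (nat_lit 54) (nat_lit 4) (nat_lit 635) (nat_lit 475) (nat_lit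 450)) (XT.lf (nat_lit 0) (nat_lit 3046035700) (nat_lit 228) (nat_lit 4720052179) (nat_lit 76) (nat_lit 5575070809) (nat_lit 48) (nat_lit 5) (nat_lit 51) (nat_lit 5) (nat_lit 49) (nat_lit 4) (nat_lit 636) (nat_lit 475) (nat_lit 449)))) (XT.nd (nat_lit 156) (nat_lit 304) (nat_lit 0) (XT.nd (nat_lit 78) (nat_lit 228) (nat_lit 0) (XT.lf (nat_lit 0) (nat_lit 6806195168) (nat_lit 152) (nat_lit 2102630935) (nat_lit 228) (nat_lit 4572476231) (nat_lit 46) (nat_lit 5) (nat_lit 48) (nat_lit 5) (nat_lit 49) (nat_lit 4) (nat_lit 637) (nat_lit 475) (nat_lit 448)) (XT.lf (nat_lit 0) (nat_lit 1267810256) (nat_lit 228) (nat_lit 8713547981) (nat_lit 76) (nat_lit 3642331432) (nat_lit 43) (nat_lit 5) (nat_lit 46) (nat_lit 5) (nat_lit 44) (nat_lit 4) (nat_lit 638) (nat_lit 475) (nat_lit 447))) (XT.nd (nat_lit 78) (nat_lit 152) (nat_lit 0) (XT.lf (nat_lit 0) (nat_lit 2918109229) (nat_lit 152) (nat_lit 4255634862) (nat_lit 228) (nat_lit 6594375312) (nat_lit 41) (nat_lit 5) (nat_lit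 43) (nat_lit 5) (nat_lit 44) (nat_lit 4) (nat_lit 639) (nat_lit 475) (nat_lit 446)) (XT.lf (nat_lit 0) (nat_lit 861504440) (nat_lit 152) (nat_lit 12343237321) (nat_lit 152) (nat_lit 710557533) (nat_lit 39) (nat_lit 4) (nat_lit 41) (nat_lit 5) (nat_lit 41) (nat_lit 4) (nat_lit 640) (nat_lit 475) (nat_lit 445)))))) (XT.nd (nat_lit 624) (nat_lit 380) (nat_lit 0) (XT.nd (nat_lit 312) (nat_lit 532) (nat_lit 0) (XT.nd (nat_lit 156) (nat_lit 304) (nat_lit 0) (XT.nd (nat_lit 78) (nat_lit 152) (nat_lit 0) (XT.lf (nat_lit 0) (nat_lit 5255297926) (nat_lit 228) (nat_lit 1298100185) (nat_lit 76) (nat_lit 7510663015) (nat_lit 38) (nat_lit 5) (nat_lit 41) (nat_lit 5) (nat_lit 39) (nat_lit 4) (nat_lit 641) (nat_lit 475) (nat_lit 444)) (XT.lf (nat_lit 0) (nat_lit 10705425676) (nat_lit 152) (nat_lit 628652383) (nat_lit 228) (nat_lit 2881564198) (nat_lit 36) (nat_lit 5) (nat_lit 38) (nat_lit 5) (nat_lit 39) (nat_lit 4) (nat_lit 642) (nat_lit 475) (nat_lit 443))) (XT.nd (nat_lit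 78) (nat_lit 76) (nat_lit 0) (XT.lf (nat_lit 0) (nat_lit 3156087052) (nat_lit 228) (nat_lit 5840015816) (nat_lit 76) (nat_lit 5373073544) (nat_lit 33) (nat_lit 5) (nat_lit 36) (nat_lit 5) (nat_lit 34) (nat_lit 4) (nat_lit 643) (nat_lit 475) (nat_lit 442)) (XT.lf (nat_lit 0) (nat_lit 6267195916) (nat_lit 76) (nat_lit 3011131333) (nat_lit 152) (nat_lit 5247025070) (nat_lit 32) (nat_lit 5) (nat_lit 33) (nat_lit 5) (nat_lit 34) (nat_lit 4) (nat_lit 644) (nat_lit 475) (nat_lit 441)))) (XT.nd (nat_lit 156) (nat_lit 228) (nat_lit 0) (XT.nd (nat_lit 78) (nat_lit 76) (nat_lit 0) (XT.lf (nat_lit 0) (nat_lit 846426655) (nat_lit 228) (nat_lit 10770263424) (nat_lit 76) (nat_lit 3067471969) (nat_lit 29) (nat_lit 5) (nat_lit 32) (nat_lit 5) (nat_lit 30) (nat_lit 4) (nat_lit 645) (nat_lit 475) (nat_lit 440)) (XT.lf (nat_lit 0) (nat_lit 1436686935) (nat_lit 76) (nat_lit 5573939799) (nat_lit 152) (nat_lit 7834445232) (nat_lit 28) (nat_lit 5) (nat_lit 29) (nat_lit 5) (nat_lit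 30) (nat_lit 4) (nat_lit 646) (nat_lit 475) (nat_lit 439))) (XT.nd (nat_lit 78) (nat_lit 228) (nat_lit 0) (XT.lf (nat_lit 0) (nat_lit 13308837764) (nat_lit 152) (nat_lit 1101814481) (nat_lit 0) (nat_lit 598333679) (nat_lit 28) (nat_lit 5) (nat_lit 30) (nat_lit 4) (nat_lit 28) (nat_lit 4) (nat_lit 647) (nat_lit 475) (nat_lit 438)) (XT.lf (nat_lit 0) (nat_lit 4544025351) (nat_lit 228) (nat_lit 3762191001) (nat_lit 76) (nat_lit 6868431371) (nat_lit 25) (nat_lit 5) (nat_lit 28) (nat_lit 5) (nat_lit 26) (nat_lit 4) (nat_lit 648) (nat_lit 475) (nat_lit 437))))) (XT.nd (nat_lit 78078) (nat_lit 0) (nat_lit 7600) (XT.nd (nat_lit 156) (nat_lit 76) (nat_lit 0) (XT.nd (nat_lit 78) (nat_lit 228) (nat_lit 0) (XT.lf (nat_lit 0) (nat_lit 8831835091) (nat_lit 76) (nat_lit 2058785455) (nat_lit 152) (nat_lit 4452771748) (nat_lit 24) (nat_lit 5) (nat_lit 25) (nat_lit 5) (nat_lit 26) (nat_lit 4) (nat_lit 649) (nat_lit 475) (nat_lit 436)) (XT.lf (nat_lit 0) (nat_lit 1853513222)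 (nat_lit 228) (nat_lit 9382257562) (nat_lit 76) (nat_lit 4278918816) (nat_lit 21) (nat_lit 5) (nat_lit 24) (nat_lit 5) (nat_lit 22) (nat_lit 4) (nat_lit 650) (nat_lit 475) (nat_lit 435))) (XT.nd (nat_lit 77844) (nat_lit 0) (nat_lit 8968) (XT.lf (nat_lit 0) (nat_lit 3307659494) (nat_lit 76) (nat_lit 4933463904) (nat_lit 152) (nat_lit 7447404693) (nat_lit 20) (nat_lit 5) (nat_lit 21) (nat_lit 5) (nat_lit 22) (nat_lit 4) (nat_lit 651) (nat_lit 475) (nat_lit 434)) (XT.lf (nat_lit 0) (nat_lit 1511162749) (nat_lit 380) (nat_lit 2079895327) (nat_lit 0) (nat_lit 1511162749) (nat_lit 138) (nat_lit 5) (nat_lit 143) (nat_lit 4) (nat_lit 138) (nat_lit 4) (nat_lit 608) (nat_lit 476) (nat_lit 476)))) (XT.nd (nat_lit 156) (nat_lit 684) (nat_lit 0) (XT.nd (nat_lit 78) (nat_lit 380) (nat_lit 0) (XT.lf (nat_lit 0) (nat_lit 5249206664) (nat_lit 304) (nat_lit 2864983003) (nat_lit 304) (nat_lit 2179648044) (nat_lit 134) (nat_lit 4) (nat_lit 138) (nat_lit 5) (nat_lit 138) (nat_lit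 4) (nat_lit 609) (nat_lit 476) (nat_lit 475)) (XT.lf (nat_lit 0) (nat_lit 2876053424) (nat_lit 380) (nat_lit 5963325593) (nat_lit 0) (nat_lit 1545433839) (nat_lit 129) (nat_lit 5) (nat_lit 134) (nat_lit 4) (nat_lit 129) (nat_lit 4) (nat_lit 610) (nat_lit 476) (nat_lit 474))) (XT.nd (nat_lit 78) (nat_lit 380) (nat_lit 0) (XT.lf (nat_lit 0) (nat_lit 3555616734) (nat_lit 304) (nat_lit 4449054963) (nat_lit 304) (nat_lit 2472628939) (nat_lit 125) (nat_lit 4) (nat_lit 129) (nat_lit 5) (nat_lit 129) (nat_lit 4) (nat_lit 611) (nat_lit 476) (nat_lit 473)) (XT.lf (nat_lit 0) (nat_lit 2612224872) (nat_lit 380) (nat_lit 7905586184) (nat_lit 0) (nat_lit 53823313) (nat_lit 120) (nat_lit 5) (nat_lit 125) (nat_lit 4) (nat_lit 120) (nat_lit 4) (nat_lit 612) (nat_lit 476) (nat_lit 472))))))) (XT.nd (nat_lit 1170) (nat_lit 2888) (nat_lit 0) (XT.nd (nat_lit 546) (nat_lit 1900) (nat_lit 0) (XT.nd (nat_lit 234) (nat_lit 1216) (nat_lit 0) (XT.nd (nat_lit 78) (nat_lit 304) (nat_lit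 0) (XT.lf (nat_lit 0) (nat_lit 1722617667) (nat_lit 304) (nat_lit 6055807721) (nat_lit 304) (nat_lit 2888848332) (nat_lit 116) (nat_lit 4) (nat_lit 120) (nat_lit 5) (nat_lit 120) (nat_lit 4) (nat_lit 613) (nat_lit 476) (nat_lit 471)) (XT.nd (nat_lit 78) (nat_lit 0) (nat_lit 0) (XT.lf (nat_lit 0) (nat_lit 755088149) (nat_lit 228) (nat_lit 1481878614) (nat_lit 304) (nat_lit 8527887846) (nat_lit 112) (nat_lit 5) (nat_lit 115) (nat_lit 5) (nat_lit 116) (nat_lit 4) (nat_lit 614) (nat_lit 476) (nat_lit 470)) (XT.lf (nat_lit 0) (nat_lit 7433534788) (nat_lit 304) (nat_lit 260044766) (nat_lit 0) (nat_lit 3170288218) (nat_lit 112) (nat_lit 5) (nat_lit 116) (nat_lit 4) (nat_lit 112) (nat_lit 4) (nat_lit 615) (nat_lit 476) (nat_lit 469)))) (XT.nd (nat_lit 156) (nat_lit 608) (nat_lit 0) (XT.nd (nat_lit 78) (nat_lit 228) (nat_lit 0) (XT.lf (nat_lit 0) (nat_lit 1745861836) (nat_lit 380) (nat_lit 1298819027) (nat_lit 76) (nat_lit 7919953659) (nat_lit 107) (nat_lit 5)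 (nat_lit 112) (nat_lit 5) (nat_lit 108) (nat_lit 4) (nat_lit 616) (nat_lit 476) (nat_lit 468)) (XT.lf (nat_lit 0) (nat_lit 6976502383) (nat_lit 304) (nat_lit 2385247162) (nat_lit 0) (nat_lit 1705277369) (nat_lit 104) (nat_lit 5) (nat_lit 108) (nat_lit 4) (nat_lit 104) (nat_lit 4) (nat_lit 617) (nat_lit 476) (nat_lit 467))) (XT.nd (nat_lit 78) (nat_lit 228) (nat_lit 0) (XT.lf (nat_lit 0) (nat_lit 1131750678) (nat_lit 380) (nat_lit 3514874856) (nat_lit 76) (nat_lit 6524566047) (nat_lit 99) (nat_lit 5) (nat_lit 104) (nat_lit 5) (nat_lit 100) (nat_lit 4) (nat_lit 618) (nat_lit 476) (nat_lit 466)) (XT.lf (nat_lit 0) (nat_lit 6391740847) (nat_lit 304) (nat_lit 4690136954) (nat_lit 0) (nat_lit 195260968) (nat_lit 96) (nat_lit 5) (nat_lit 100) (nat_lit 4) (nat_lit 96) (nat_lit 4) (nat_lit 619) (nat_lit 476) (nat_lit 465))))) (XT.nd (nat_lit 312) (nat_lit 836) (nat_lit 0) (XT.nd (nat_lit 156) (nat_lit 532) (nat_lit 0) (XT.nd (nat_lit 78) (nat_lit 228) (nat_lit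 0) (XT.lf (nat_lit 0) (nat_lit 385084538) (nat_lit 304) (nat_lit 5917838492) (nat_lit 76) (nat_lit 5081869715) (nat_lit 92) (nat_lit 5) (nat_lit 96) (nat_lit 5) (nat_lit 93) (nat_lit 4) (nat_lit 620) (nat_lit 476) (nat_lit 464)) (XT.lf (nat_lit 0) (nat_lit 4295338375) (nat_lit 228) (nat_lit 1388071627) (nat_lit 304) (nat_lit 5810787751) (nat_lit 89) (nat_lit 5) (nat_lit 92) (nat_lit 5) (nat_lit 93) (nat_lit 4) (nat_lit 621) (nat_lit 476) (nat_lit 463))) (XT.nd (nat_lit 78) (nat_lit 304) (nat_lit 0) (XT.lf (nat_lit 0) (nat_lit 3079101896) (nat_lit 228) (nat_lit 8020574884) (nat_lit 228) (nat_lit 505875348) (nat_lit 86) (nat_lit 4) (nat_lit 89) (nat_lit 5) (nat_lit 89) (nat_lit 4) (nat_lit 622) (nat_lit 476) (nat_lit 462)) (XT.lf (nat_lit 0) (nat_lit 1798661498) (nat_lit 228) (nat_lit 3040235439) (nat_lit 304) (nat_lit 6879638570) (nat_lit 82) (nat_lit 5) (nat_lit 85) (nat_lit 5) (nat_lit 86) (nat_lit 4) (nat_lit 623) (nat_lit 476) (nat_lit 461)))) (XT.nd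 (nat_lit 156) (nat_lit 532) (nat_lit 0) (XT.nd (nat_lit 78) (nat_lit 76) (nat_lit 0) (XT.lf (nat_lit 0) (nat_lit 476652531) (nat_lit 228) (nat_lit 9809912850) (nat_lit 228) (nat_lit 1547091527) (nat_lit 79) (nat_lit 4) (nat_lit 82) (nat_lit 5) (nat_lit 82) (nat_lit 4) (nat_lit 624) (nat_lit 476) (nat_lit 460)) (XT.lf (nat_lit 0) (nat_lit 3857153050) (nat_lit 304) (nat_lit 905981379) (nat_lit 76) (nat_lit 7187119751) (nat_lit 78) (nat_lit 5) (nat_lit 82) (nat_lit 5) (nat_lit 79) (nat_lit 4) (nat_lit 625) (nat_lit 476) (nat_lit 459))) (XT.nd (nat_lit 78) (nat_lit 304) (nat_lit 0) (XT.lf (nat_lit 0) (nat_lit 9345055318) (nat_lit 304) (nat_lit 2323568649) (nat_lit 0) (nat_lit 400429815) (nat_lit 75) (nat_lit 5) (nat_lit 79) (nat_lit 4) (nat_lit 75) (nat_lit 4) (nat_lit 626) (nat_lit 476) (nat_lit 458)) (XT.lf (nat_lit 0) (nat_lit 2739217572) (nat_lit 304) (nat_lit 3820947979) (nat_lit 76) (nat_lit 5629250442) (nat_lit 71) (nat_lit 5) (nat_lit 75) (nat_lit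 5) (nat_lit 72) (nat_lit 4) (nat_lit 627) (nat_lit 476) (nat_lit 457)))))) (XT.nd (nat_lit 624) (nat_lit 1368) (nat_lit 0) (XT.nd (nat_lit 312) (nat_lit 608) (nat_lit 0) (XT.nd (nat_lit 156) (nat_lit 456) (nat_lit 0) (XT.nd (nat_lit 78) (nat_lit 304) (nat_lit 0) (XT.lf (nat_lit 0) (nat_lit 6943061599) (nat_lit 152) (nat_lit 1323641774) (nat_lit 228) (nat_lit 4045293006) (nat_lit 69) (nat_lit 5) (nat_lit 71) (nat_lit 5) (nat_lit 72) (nat_lit 4) (nat_lit 628) (nat_lit 476) (nat_lit 456)) (XT.lf (nat_lit 0) (nat_lit 1466799354) (nat_lit 304) (nat_lit 6987377242) (nat_lit 76) (nat_lit 3982295042) (nat_lit 65) (nat_lit 5) (nat_lit 69) (nat_lit 5) (nat_lit 66) (nat_lit 4) (nat_lit 629) (nat_lit 476) (nat_lit 455))) (XT.nd (nat_lit 78) (nat_lit 304) (nat_lit 0) (XT.lf (nat_lit 0) (nat_lit 3884563599) (nat_lit 152) (nat_lit 3151688389) (nat_lit 228) (nat_lit 5526624527) (nat_lit 63) (nat_lit 5) (nat_lit 65) (nat_lit 5) (nat_lit 66) (nat_lit 4) (nat_lit 630) (nat_lit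 476) (nat_lit 454)) (XT.lf (nat_lit 0) (nat_lit 32759578) (nat_lit 304) (nat_lit 10423629771) (nat_lit 76) (nat_lit 2235261297) (nat_lit 59) (nat_lit 5) (nat_lit 63) (nat_lit 5) (nat_lit 60) (nat_lit 4) (nat_lit 631) (nat_lit 476) (nat_lit 453)))) (XT.nd (nat_lit 156) (nat_lit 456) (nat_lit 0) (XT.nd (nat_lit 78) (nat_lit 0) (nat_lit 0) (XT.lf (nat_lit 0) (nat_lit 554063897) (nat_lit 152) (nat_lit 5089697959) (nat_lit 228) (nat_lit 7178219709) (nat_lit 57) (nat_lit 5) (nat_lit 59) (nat_lit 5) (nat_lit 60) (nat_lit 4) (nat_lit 632) (nat_lit 476) (nat_lit 452)) (XT.lf (nat_lit 0) (nat_lit 11371347611) (nat_lit 228) (nat_lit 1188485390) (nat_lit 0) (nat_lit 394999389) (nat_lit 57) (nat_lit 5) (nat_lit 60) (nat_lit 4) (nat_lit 57) (nat_lit 4) (nat_lit 633) (nat_lit 476) (nat_lit 451))) (XT.nd (nat_lit 78) (nat_lit 152) (nat_lit 0) (XT.lf (nat_lit 0) (nat_lit 4101292299) (nat_lit 304) (nat_lit 3027704839) (nat_lit 76) (nat_lit 5960163759) (nat_lit 53) (nat_lit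 5) (nat_lit 57) (nat_lit 5) (nat_lit 54) (nat_lit 4) (nat_lit 634) (nat_lit 476) (nat_lit 450)) (XT.lf (nat_lit 0) (nat_lit 8302582039) (nat_lit 152) (nat_lit 1570822315) (nat_lit 228) (nat_lit 3352665961) (nat_lit 51) (nat_lit 5) (nat_lit 53) (nat_lit 5) (nat_lit 54) (nat_lit 4) (nat_lit 635) (nat_lit 476) (nat_lit 449))))) (XT.nd (nat_lit 312) (nat_lit 608) (nat_lit 0) (XT.nd (nat_lit 156) (nat_lit 380) (nat_lit 0) (XT.nd (nat_lit 78) (nat_lit 152) (nat_lit 0) (XT.lf (nat_lit 0) (nat_lit 2386108009) (nat_lit 228) (nat_lit 6910077318) (nat_lit 76) (nat_lit 4068776441) (nat_lit 48) (nat_lit 5) (nat_lit 51) (nat_lit 5) (nat_lit 49) (nat_lit 4) (nat_lit 636) (nat_lit 476) (nat_lit 448)) (XT.lf (nat_lit 0) (nat_lit 4525609440) (nat_lit 152) (nat_lit 3675383912) (nat_lit 228) (nat_lit 5305070408) (nat_lit 46) (nat_lit 5) (nat_lit 48) (nat_lit 5) (nat_lit 49) (nat_lit 4) (nat_lit 637) (nat_lit 476) (nat_lit 447))) (XT.nd (nat_lit 78) (nat_lit 152) (nat_lit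 0) (XT.lf (nat_lit 0) (nat_lit 485706374) (nat_lit 228) (nat_lit 11121513174) (nat_lit 76) (nat_lit 2042509269) (nat_lit 43) (nat_lit 5) (nat_lit 46) (nat_lit 5) (nat_lit 44) (nat_lit 4) (nat_lit 638) (nat_lit 476) (nat_lit 446)) (XT.lf (nat_lit 0) (nat_lit 416566529) (nat_lit 152) (nat_lit 5925852344) (nat_lit 228) (nat_lit 7452724334) (nat_lit 41) (nat_lit 5) (nat_lit 43) (nat_lit 5) (nat_lit 44) (nat_lit 4) (nat_lit 639) (nat_lit 476) (nat_lit 445)))) (XT.nd (nat_lit 156) (nat_lit 380) (nat_lit 0) (XT.nd (nat_lit 78) (nat_lit 228) (nat_lit 0) (XT.lf (nat_lit 0) (nat_lit 12214216421) (nat_lit 152) (nat_lit 110575990) (nat_lit 228) (nat_lit 1618503395) (nat_lit 41) (nat_lit 5) (nat_lit 43) (nat_lit 5) (nat_lit 44) (nat_lit 4) (nat_lit 640) (nat_lit 476) (nat_lit 444)) (XT.lf (nat_lit 0) (nat_lit 4314222985) (nat_lit 228) (nat_lit 3994079822) (nat_lit 76) (nat_lit 5784773685) (nat_lit 38) (nat_lit 5) (nat_lit 41) (nat_lit 5) (nat_lit 39) (nat_lit 4) (nat_lit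 641) (nat_lit 476) (nat_lit 443))) (XT.nd (nat_lit 78) (nat_lit 228) (nat_lit 0) (XT.lf (nat_lit 0) (nat_lit 7913136936) (nat_lit 152) (nat_lit 2429513103) (nat_lit 228) (nat_lit 3903014859) (nat_lit 36) (nat_lit 5) (nat_lit 38) (nat_lit 5) (nat_lit 39) (nat_lit 4) (nat_lit 642) (nat_lit 476) (nat_lit 442)) (XT.lf (nat_lit 0) (nat_lit 2084886619) (nat_lit 228) (nat_lit 8772768126) (nat_lit 76) (nat_lit 3542940077) (nat_lit 33) (nat_lit 5) (nat_lit 36) (nat_lit 5) (nat_lit 34) (nat_lit 4) (nat_lit 643) (nat_lit 476) (nat_lit 441))))))))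
noncomputable def xc8 : XT := (XT.nd (nat_lit 80028) (nat_lit 0) (nat_lit 0) (XT.nd (nat_lit 78780) (nat_lit 0) (nat_lit 3648) (XT.nd (nat_lit 546) (nat_lit 0) (nat_lit 0) (XT.nd (nat_lit 234) (nat_lit 608) (nat_lit 0) (XT.nd (nat_lit 78) (nat_lit 228) (nat_lit 0) (XT.lf (nat_lit 0) (nat_lit 3234882922) (nat_lit 76) (nat_lit 4920435426) (nat_lit 152) (nat_lit 6402488750) (nat_lit 32) (nat_lit 5) (nat_lit 33) (nat_lit 5) (nat_lit 34) (nat_lit 4) (nat_lit 644) (nat_lit 476) (nat_lit 440)) (XT.nd (nat_lit 78) (nat_lit 76) (nat_lit 0) (XT.lf (nat_lit 0) (nat_lit 765990383) (nat_lit 152) (nat_lit 13588022501) (nat_lit 152) (nat_lit 364014050) (nat_lit 30) (nat_lit 4) (nat_lit 32) (nat_lit 5) (nat_lit 32) (nat_lit 4) (nat_lit 645) (nat_lit 476) (nat_lit 439)) (XT.lf (nat_lit 0) (nat_lit 5763608600) (nat_lit 228) (nat_lit 1821454176) (nat_lit 76) (nat_lit 7294748563) (nat_lit 29) (nat_lit 5) (nat_lit 32) (nat_lit 5) (nat_lit 30) (nat_lit 4) (nat_lit 646) (nat_lit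 476) (nat_lit 438)))) (XT.nd (nat_lit 156) (nat_lit 304) (nat_lit 0) (XT.nd (nat_lit 78) (nat_lit 228) (nat_lit 0) (XT.lf (nat_lit 0) (nat_lit 10569344306) (nat_lit 76) (nat_lit 1444773685) (nat_lit 152) (nat_lit 3030561524) (nat_lit 28) (nat_lit 5) (nat_lit 29) (nat_lit 5) (nat_lit 30) (nat_lit 4) (nat_lit 647) (nat_lit 476) (nat_lit 437)) (XT.lf (nat_lit 0) (nat_lit 3167406826) (nat_lit 228) (nat_lit 7258497194) (nat_lit 76) (nat_lit 4785883306) (nat_lit 25) (nat_lit 5) (nat_lit 28) (nat_lit 5) (nat_lit 26) (nat_lit 4) (nat_lit 648) (nat_lit 476) (nat_lit 436))) (XT.nd (nat_lit 78) (nat_lit 228) (nat_lit 0) (XT.lf (nat_lit 0) (nat_lit 5229478430) (nat_lit 76) (nat_lit 4229828677) (nat_lit 152) (nat_lit 5922318863) (nat_lit 24) (nat_lit 5) (nat_lit 25) (nat_lit 5) (nat_lit 26) (nat_lit 4) (nat_lit 649) (nat_lit 476) (nat_lit 435)) (XT.lf (nat_lit 0) (nat_lit 333187806) (nat_lit 228) (nat_lit 13146214099) (nat_lit 76) (nat_lit 2075113397) (nat_lit 21)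 (nat_lit 5) (nat_lit 24) (nat_lit 5) (nat_lit 22) (nat_lit 4) (nat_lit 650) (nat_lit 476) (nat_lit 434))))) (XT.nd (nat_lit 77922) (nat_lit 0) (nat_lit 7524) (XT.nd (nat_lit 77766) (nat_lit 0) (nat_lit 8892) (XT.nd (nat_lit 77688) (nat_lit 0) (nat_lit 9652) (XT.lf (nat_lit 0) (nat_lit 6668100941) (nat_lit 228) (nat_lit 558567509) (nat_lit 76) (nat_lit 8502739450) (nat_lit 21) (nat_lit 5) (nat_lit 24) (nat_lit 5) (nat_lit 22) (nat_lit 4) (nat_lit 651) (nat_lit 476) (nat_lit 433)) (XT.lf (nat_lit 0) (nat_lit 1902075644) (nat_lit 380) (nat_lit 1210673260) (nat_lit 0) (nat_lit 1902075644) (nat_lit 148) (nat_lit 5) (nat_lit 153) (nat_lit 4) (nat_lit 148) (nat_lit 4) (nat_lit 606) (nat_lit 477) (nat_lit 477))) (XT.nd (nat_lit 78) (nat_lit 380) (nat_lit 0) (XT.lf (nat_lit 0) (nat_lit 6816641406) (nat_lit 380) (nat_lit 2006565545) (nat_lit 380) (nat_lit 1293543054) (nat_lit 143) (nat_lit 4) (nat_lit 148) (nat_lit 5) (nat_lit 148) (nat_lit 4) (nat_lit 607) (nat_lit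 477) (nat_lit 476)) (XT.lf (nat_lit 0) (nat_lit 3683890986) (nat_lit 380) (nat_lit 4221786370) (nat_lit 0) (nat_lit 2299514369) (nat_lit 138) (nat_lit 5) (nat_lit 143) (nat_lit 4) (nat_lit 138) (nat_lit 4) (nat_lit 608) (nat_lit 477) (nat_lit 475)))) (XT.nd (nat_lit 156) (nat_lit 684) (nat_lit 0) (XT.nd (nat_lit 78) (nat_lit 380) (nat_lit 0) (XT.lf (nat_lit 0) (nat_lit 5124799208) (nat_lit 304) (nat_lit 3613406866) (nat_lit 304) (nat_lit 1557133231) (nat_lit 134) (nat_lit 4) (nat_lit 138) (nat_lit 5) (nat_lit 138) (nat_lit 4) (nat_lit 609) (nat_lit 477) (nat_lit 474)) (XT.lf (nat_lit 0) (nat_lit 3447495816) (nat_lit 380) (nat_lit 6153861643) (nat_lit 0) (nat_lit 785734834) (nat_lit 129) (nat_lit 5) (nat_lit 134) (nat_lit 4) (nat_lit 129) (nat_lit 4) (nat_lit 610) (nat_lit 477) (nat_lit 473))) (XT.nd (nat_lit 78) (nat_lit 380) (nat_lit 0) (XT.lf (nat_lit 0) (nat_lit 3300699611) (nat_lit 304) (nat_lit 5237274162) (nat_lit 304) (nat_lit 1942369614) (nat_lit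 125) (nat_lit 4) (nat_lit 129) (nat_lit 5) (nat_lit 129) (nat_lit 4) (nat_lit 611) (nat_lit 477) (nat_lit 472)) (XT.lf (nat_lit 0) (nat_lit 2339600040) (nat_lit 304) (nat_lit 757050244) (nat_lit 380) (nat_lit 7478736058) (nat_lit 120) (nat_lit 5) (nat_lit 124) (nat_lit 5) (nat_lit 125) (nat_lit 4) (nat_lit 612) (nat_lit 477) (nat_lit 471)))))) (XT.nd (nat_lit 624) (nat_lit 1748) (nat_lit 0) (XT.nd (nat_lit 312) (nat_lit 1140) (nat_lit 0) (XT.nd (nat_lit 156) (nat_lit 380) (nat_lit 0) (XT.nd (nat_lit 78) (nat_lit 304) (nat_lit 0) (XT.lf (nat_lit 0) (nat_lit 1330914966) (nat_lit 304) (nat_lit 6888233492) (nat_lit 304) (nat_lit 2452751760) (nat_lit 116) (nat_lit 4) (nat_lit 120) (nat_lit 5) (nat_lit 120) (nat_lit 4) (nat_lit 613) (nat_lit 477) (nat_lit 470)) (XT.lf (nat_lit 0) (nat_lit 288448926) (nat_lit 228) (nat_lit 2339698324) (nat_lit 304) (nat_lit 8142061621) (nat_lit 112) (nat_lit 5) (nat_lit 115) (nat_lit 5) (nat_lit 116) (nat_lit 4) (nat_lit 614)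 (nat_lit 477) (nat_lit 469))) (XT.nd (nat_lit 78) (nat_lit 380) (nat_lit 0) (XT.lf (nat_lit 0) (nat_lit 7783129292) (nat_lit 304) (nat_lit 787978127) (nat_lit 0) (nat_lit 2298946787) (nat_lit 112) (nat_lit 5) (nat_lit 116) (nat_lit 4) (nat_lit 112) (nat_lit 4) (nat_lit 615) (nat_lit 477) (nat_lit 468)) (XT.lf (nat_lit 0) (nat_lit 2045325918) (nat_lit 380) (nat_lit 1903813726) (nat_lit 76) (nat_lit 7022425956) (nat_lit 107) (nat_lit 5) (nat_lit 112) (nat_lit 5) (nat_lit 108) (nat_lit 4) (nat_lit 616) (nat_lit 477) (nat_lit 467)))) (XT.nd (nat_lit 156) (nat_lit 532) (nat_lit 0) (XT.nd (nat_lit 78) (nat_lit 380) (nat_lit 0) (XT.lf (nat_lit 0) (nat_lit 7230285393) (nat_lit 304) (nat_lit 3061118918) (nat_lit 0) (nat_lit 783467727) (nat_lit 104) (nat_lit 5) (nat_lit 108) (nat_lit 4) (nat_lit 104) (nat_lit 4) (nat_lit 617) (nat_lit 477) (nat_lit 466)) (XT.lf (nat_lit 0) (nat_lit 1334253314) (nat_lit 380) (nat_lit 4271024218) (nat_lit 76) (nat_lit 5574531840)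 (nat_lit 99) (nat_lit 5) (nat_lit 104) (nat_lit 5) (nat_lit 100) (nat_lit 4) (nat_lit 618) (nat_lit 477) (nat_lit 465))) (XT.nd (nat_lit 78) (nat_lit 304) (nat_lit 0) (XT.lf (nat_lit 0) (nat_lit 5760726244) (nat_lit 228) (nat_lit 791826294) (nat_lit 304) (nat_lit 4734038240) (nat_lit 96) (nat_lit 5) (nat_lit 99) (nat_lit 5) (nat_lit 100) (nat_lit 4) (nat_lit 619) (nat_lit 477) (nat_lit 464)) (XT.lf (nat_lit 0) (nat_lit 488247676) (nat_lit 304) (nat_lit 6832033091) (nat_lit 76) (nat_lit 4074868948) (nat_lit 92) (nat_lit 5) (nat_lit 96) (nat_lit 5) (nat_lit 93) (nat_lit 4) (nat_lit 620) (nat_lit 477) (nat_lit 463))))) (XT.nd (nat_lit 312) (nat_lit 988) (nat_lit 0) (XT.nd (nat_lit 156) (nat_lit 304) (nat_lit 0) (XT.nd (nat_lit 78) (nat_lit 228) (nat_lit 0) (XT.lf (nat_lit 0) (nat_lit 3307409053) (nat_lit 228) (nat_lit 2437910821) (nat_lit 304) (nat_lit 5760060291) (nat_lit 89) (nat_lit 5) (nat_lit 92) (nat_lit 5) (nat_lit 93) (nat_lit 4) (nat_lit 621) (nat_lit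 477) (nat_lit 462)) (XT.lf (nat_lit 0) (nat_lit 2011908359) (nat_lit 228) (nat_lit 9101217535) (nat_lit 228) (nat_lit 504578231) (nat_lit 86) (nat_lit 4) (nat_lit 89) (nat_lit 5) (nat_lit 89) (nat_lit 4) (nat_lit 622) (nat_lit 477) (nat_lit 461))) (XT.nd (nat_lit 78) (nat_lit 0) (nat_lit 0) (XT.lf (nat_lit 0) (nat_lit 643191477) (nat_lit 228) (nat_lit 4154827439) (nat_lit 304) (nat_lit 6933511937) (nat_lit 82) (nat_lit 5) (nat_lit 85) (nat_lit 5) (nat_lit 86) (nat_lit 4) (nat_lit 623) (nat_lit 477) (nat_lit 460)) (XT.lf (nat_lit 0) (nat_lit 10200816178) (nat_lit 304) (nat_lit 751906045) (nat_lit 0) (nat_lit 894827805) (nat_lit 82) (nat_lit 5) (nat_lit 86) (nat_lit 4) (nat_lit 82) (nat_lit 4) (nat_lit 624) (nat_lit 477) (nat_lit 459)))) (XT.nd (nat_lit 156) (nat_lit 456) (nat_lit 0) (XT.nd (nat_lit 78) (nat_lit 228) (nat_lit 0) (XT.lf (nat_lit 0) (nat_lit 3719354371) (nat_lit 304) (nat_lit 2218980011) (nat_lit 76) (nat_lit 6026615455) (nat_lit 78) (nat_lit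 5) (nat_lit 82) (nat_lit 5) (nat_lit 79) (nat_lit 4) (nat_lit 625) (nat_lit 477) (nat_lit 458)) (XT.lf (nat_lit 0) (nat_lit 8356991473) (nat_lit 228) (nat_lit 804790769) (nat_lit 304) (nat_lit 2922877014) (nat_lit 75) (nat_lit 5) (nat_lit 78) (nat_lit 5) (nat_lit 79) (nat_lit 4) (nat_lit 626) (nat_lit 477) (nat_lit 457))) (XT.nd (nat_lit 78) (nat_lit 152) (nat_lit 0) (XT.lf (nat_lit 0) (nat_lit 2494102206) (nat_lit 304) (nat_lit 5314218082) (nat_lit 76) (nat_lit 4397704223) (nat_lit 71) (nat_lit 5) (nat_lit 75) (nat_lit 5) (nat_lit 72) (nat_lit 4) (nat_lit 627) (nat_lit 477) (nat_lit 456)) (XT.lf (nat_lit 0) (nat_lit 5369051335) (nat_lit 152) (nat_lit 2608668880) (nat_lit 228) (nat_lit 4351762348) (nat_lit 69) (nat_lit 5) (nat_lit 71) (nat_lit 5) (nat_lit 72) (nat_lit 4) (nat_lit 628) (nat_lit 477) (nat_lit 455))))))) (XT.nd (nat_lit 1170) (nat_lit 912) (nat_lit 0) (XT.nd (nat_lit 546) (nat_lit 1368) (nat_lit 0) (XT.nd (nat_lit 234) (nat_lit 684) (nat_lit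 0) (XT.nd (nat_lit 78) (nat_lit 380) (nat_lit 0) (XT.lf (nat_lit 0) (nat_lit 1111298278) (nat_lit 304) (nat_lit 8668769683) (nat_lit 76) (nat_lit 2674990976) (nat_lit 65) (nat_lit 5) (nat_lit 69) (nat_lit 5) (nat_lit 66) (nat_lit 4) (nat_lit 629) (nat_lit 477) (nat_lit 454)) (XT.nd (nat_lit 78) (nat_lit 228) (nat_lit 0) (XT.lf (nat_lit 0) (nat_lit 2119777988) (nat_lit 152) (nat_lit 4516016555) (nat_lit 228) (nat_lit 5946568691) (nat_lit 63) (nat_lit 5) (nat_lit 65) (nat_lit 5) (nat_lit 66) (nat_lit 4) (nat_lit 630) (nat_lit 477) (nat_lit 453)) (XT.lf (nat_lit 0) (nat_lit 408086885) (nat_lit 228) (nat_lit 11861967266) (nat_lit 228) (nat_lit 442174576) (nat_lit 60) (nat_lit 4) (nat_lit 63) (nat_lit 5) (nat_lit 63) (nat_lit 4) (nat_lit 631) (nat_lit 477) (nat_lit 452)))) (XT.nd (nat_lit 156) (nat_lit 456) (nat_lit 0) (XT.nd (nat_lit 78) (nat_lit 152) (nat_lit 0) (XT.lf (nat_lit 0) (nat_lit 5137672747) (nat_lit 304) (nat_lit 1391233870) (nat_lit 76) (nat_lit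 6314449805) (nat_lit 59) (nat_lit 5) (nat_lit 63) (nat_lit 5) (nat_lit 60) (nat_lit 4) (nat_lit 632) (nat_lit 477) (nat_lit 451)) (XT.lf (nat_lit 0) (nat_lit 9745218484) (nat_lit 152) (nat_lit 1075196223) (nat_lit 228) (nat_lit 2156689686) (nat_lit 57) (nat_lit 5) (nat_lit 59) (nat_lit 5) (nat_lit 60) (nat_lit 4) (nat_lit 633) (nat_lit 477) (nat_lit 450))) (XT.nd (nat_lit 78) (nat_lit 152) (nat_lit 0) (XT.lf (nat_lit 0) (nat_lit 3481868186) (nat_lit 304) (nat_lit 5170534388) (nat_lit 76) (nat_lit 4460179755) (nat_lit 53) (nat_lit 5) (nat_lit 57) (nat_lit 5) (nat_lit 54) (nat_lit 4) (nat_lit 634) (nat_lit 477) (nat_lit 449)) (XT.lf (nat_lit 0) (nat_lit 6071149613) (nat_lit 152) (nat_lit 3135770579) (nat_lit 228) (nat_lit 4043513010) (nat_lit 51) (nat_lit 5) (nat_lit 53) (nat_lit 5) (nat_lit 54) (nat_lit 4) (nat_lit 635) (nat_lit 477) (nat_lit 448))))) (XT.nd (nat_lit 312) (nat_lit 760) (nat_lit 0) (XT.nd (nat_lit 156) (nat_lit 228) (nat_lit 0) (XT.nd (nat_lit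 78) (nat_lit 152) (nat_lit 0) (XT.lf (nat_lit 0) (nat_lit 1646123835) (nat_lit 228) (nat_lit 9266416560) (nat_lit 76) (nat_lit 2478038167) (nat_lit 48) (nat_lit 5) (nat_lit 51) (nat_lit 5) (nat_lit 49) (nat_lit 4) (nat_lit 636) (nat_lit 477) (nat_lit 447)) (XT.lf (nat_lit 0) (nat_lit 2077704408) (nat_lit 152) (nat_lit 5334962342) (nat_lit 228) (nat_lit 6119980892) (nat_lit 46) (nat_lit 5) (nat_lit 48) (nat_lit 5) (nat_lit 49) (nat_lit 4) (nat_lit 637) (nat_lit 477) (nat_lit 446))) (XT.nd (nat_lit 78) (nat_lit 228) (nat_lit 0) (XT.lf (nat_lit 0) (nat_lit 13294045430) (nat_lit 228) (nat_lit 24979153) (nat_lit 0) (nat_lit 358543895) (nat_lit 46) (nat_lit 5) (nat_lit 49) (nat_lit 4) (nat_lit 46) (nat_lit 4) (nat_lit 638) (nat_lit 477) (nat_lit 445)) (XT.lf (nat_lit 0) (nat_lit 5443016371) (nat_lit 228) (nat_lit 2227353117) (nat_lit 76) (nat_lit 6153367470) (nat_lit 43) (nat_lit 5) (nat_lit 46) (nat_lit 5) (nat_lit 44) (nat_lit 4) (nat_lit 639) (nat_lit 477)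 (nat_lit 444)))) (XT.nd (nat_lit 156) (nat_lit 380) (nat_lit 0) (XT.nd (nat_lit 78) (nat_lit 228) (nat_lit 0) (XT.lf (nat_lit 0) (nat_lit 9481510612) (nat_lit 152) (nat_lit 1897142362) (nat_lit 228) (nat_lit 2594171543) (nat_lit 41) (nat_lit 5) (nat_lit 43) (nat_lit 5) (nat_lit 44) (nat_lit 4) (nat_lit 640) (nat_lit 477) (nat_lit 443)) (XT.lf (nat_lit 0) (nat_lit 3289234694) (nat_lit 228) (nat_lit 6864548273) (nat_lit 76) (nat_lit 3970191466) (nat_lit 38) (nat_lit 5) (nat_lit 41) (nat_lit 5) (nat_lit 39) (nat_lit 4) (nat_lit 641) (nat_lit 477) (nat_lit 442))) (XT.nd (nat_lit 78) (nat_lit 228) (nat_lit 0) (XT.lf (nat_lit 0) (nat_lit 4945226420) (nat_lit 152) (nat_lit 4321573834) (nat_lit 228) (nat_lit 5010780024) (nat_lit 36) (nat_lit 5) (nat_lit 38) (nat_lit 5) (nat_lit 39) (nat_lit 4) (nat_lit 642) (nat_lit 477) (nat_lit 441)) (XT.lf (nat_lit 0) (nat_lit 927378403) (nat_lit 228) (nat_lit 11884954017) (nat_lit 76) (nat_lit 1621607261) (nat_lit 33) (nat_lit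 5) (nat_lit 36) (nat_lit 5) (nat_lit 34) (nat_lit 4) (nat_lit 643) (nat_lit 477) (nat_lit 440)))))) (XT.nd (nat_lit 78078) (nat_lit 0) (nat_lit 7904) (XT.nd (nat_lit 312) (nat_lit 532) (nat_lit 0) (XT.nd (nat_lit 156) (nat_lit 304) (nat_lit 0) (XT.nd (nat_lit 78) (nat_lit 0) (nat_lit 0) (XT.lf (nat_lit 0) (nat_lit 21939729) (nat_lit 76) (nat_lit 6923518982) (nat_lit 152) (nat_lit 7646740471) (nat_lit 32) (nat_lit 5) (nat_lit 33) (nat_lit 5) (nat_lit 34) (nat_lit 4) (nat_lit 644) (nat_lit 477) (nat_lit 439)) (XT.lf (nat_lit 0) (nat_lit 12210443718) (nat_lit 76) (nat_lit 890083206) (nat_lit 152) (nat_lit 1652764813) (nat_lit 32) (nat_lit 5) (nat_lit 33) (nat_lit 5) (nat_lit 34) (nat_lit 4) (nat_lit 645) (nat_lit 477) (nat_lit 438))) (XT.nd (nat_lit 78) (nat_lit 76) (nat_lit 0) (XT.lf (nat_lit 0) (nat_lit 4437745271) (nat_lit 228) (nat_lit 5244142558) (nat_lit 76) (nat_lit 5234436141) (nat_lit 29) (nat_lit 5) (nat_lit 32) (nat_lit 5) (nat_lit 30) (nat_lit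 4) (nat_lit 646) (nat_lit 477) (nat_lit 437)) (XT.lf (nat_lit 0) (nat_lit 7042841774) (nat_lit 76) (nat_lit 3591736397) (nat_lit 152) (nat_lit 4447687686) (nat_lit 28) (nat_lit 5) (nat_lit 29) (nat_lit 5) (nat_lit 30) (nat_lit 4) (nat_lit 647) (nat_lit 477) (nat_lit 436)))) (XT.nd (nat_lit 156) (nat_lit 228) (nat_lit 0) (XT.nd (nat_lit 78) (nat_lit 76) (nat_lit 0) (XT.lf (nat_lit 0) (nat_lit 1700017759) (nat_lit 228) (nat_lit 10943515434) (nat_lit 76) (nat_lit 2607401644) (nat_lit 25) (nat_lit 5) (nat_lit 28) (nat_lit 5) (nat_lit 26) (nat_lit 4) (nat_lit 648) (nat_lit 477) (nat_lit 435)) (XT.lf (nat_lit 0) (nat_lit 1437070199) (nat_lit 76) (nat_lit 6499532829) (nat_lit 152) (nat_lit 7485276923) (nat_lit 24) (nat_lit 5) (nat_lit 25) (nat_lit 5) (nat_lit 26) (nat_lit 4) (nat_lit 649) (nat_lit 477) (nat_lit 434))) (XT.nd (nat_lit 78) (nat_lit 228) (nat_lit 0) (XT.lf (nat_lit 0) (nat_lit 14097919153) (nat_lit 76) (nat_lit 211903902) (nat_lit 152) (nat_lit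 1286183191) (nat_lit 24) (nat_lit 5) (nat_lit 25) (nat_lit 5) (nat_lit 26) (nat_lit 4) (nat_lit 650) (nat_lit 477) (nat_lit 433)) (XT.lf (nat_lit 0) (nat_lit 5023692204) (nat_lit 228) (nat_lit 4574496024) (nat_lit 76) (nat_lit 6173715917) (nat_lit 21) (nat_lit 5) (nat_lit 24) (nat_lit 5) (nat_lit 22) (nat_lit 4) (nat_lit 651) (nat_lit 477) (nat_lit 432))))) (XT.nd (nat_lit 312) (nat_lit 1368) (nat_lit 0) (XT.nd (nat_lit 156) (nat_lit 760) (nat_lit 0) (XT.nd (nat_lit 78) (nat_lit 380) (nat_lit 0) (XT.lf (nat_lit 0) (nat_lit 2294746123) (nat_lit 380) (nat_lit 340311977) (nat_lit 0) (nat_lit 2294746123) (nat_lit 158) (nat_lit 5) (nat_lit 163) (nat_lit 4) (nat_lit 158) (nat_lit 4) (nat_lit 604) (nat_lit 478) (nat_lit 478)) (XT.lf (nat_lit 0) (nat_lit 8389226466) (nat_lit 380) (nat_lit 1148524792) (nat_lit 380) (nat_lit 406696192) (nat_lit 153) (nat_lit 4) (nat_lit 158) (nat_lit 5) (nat_lit 158) (nat_lit 4) (nat_lit 605) (nat_lit 478) (nat_lit 477))) (XT.nd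 (nat_lit 78) (nat_lit 380) (nat_lit 0) (XT.lf (nat_lit 0) (nat_lit 4494421088) (nat_lit 380) (nat_lit 2481853188) (nat_lit 0) (nat_lit 3054115657) (nat_lit 148) (nat_lit 5) (nat_lit 153) (nat_lit 4) (nat_lit 148) (nat_lit 4) (nat_lit 606) (nat_lit 478) (nat_lit 476)) (XT.lf (nat_lit 0) (nat_lit 6695222040) (nat_lit 380) (nat_lit 2781178982) (nat_lit 380) (nat_lit 641831892) (nat_lit 143) (nat_lit 4) (nat_lit 148) (nat_lit 5) (nat_lit 148) (nat_lit 4) (nat_lit 607) (nat_lit 478) (nat_lit 475)))) (XT.nd (nat_lit 156) (nat_lit 684) (nat_lit 0) (XT.nd (nat_lit 78) (nat_lit 304) (nat_lit 0) (XT.lf (nat_lit 0) (nat_lit 4284470267) (nat_lit 380) (nat_lit 4407797831) (nat_lit 0) (nat_lit 1515174142) (nat_lit 138) (nat_lit 5) (nat_lit 143) (nat_lit 4) (nat_lit 138) (nat_lit 4) (nat_lit 608) (nat_lit 478) (nat_lit 474)) (XT.lf (nat_lit 0) (nat_lit 4875935509) (nat_lit 304) (nat_lit 4425213133) (nat_lit 304) (nat_lit 997194441) (nat_lit 134) (nat_lit 4) (nat_lit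 138) (nat_lit 5) (nat_lit 138) (nat_lit 4) (nat_lit 609) (nat_lit 478) (nat_lit 473))) (XT.nd (nat_lit 78) (nat_lit 304) (nat_lit 0) (XT.lf (nat_lit 0) (nat_lit 3919137438) (nat_lit 304) (nat_lit 37774724) (nat_lit 380) (nat_lit 6433975282) (nat_lit 129) (nat_lit 5) (nat_lit 133) (nat_lit 5) (nat_lit 134) (nat_lit 4) (nat_lit 610) (nat_lit 478) (nat_lit 472)) (XT.lf (nat_lit 0) (nat_lit 2918198973) (nat_lit 304) (nat_lit 6090692613) (nat_lit 304) (nat_lit 1476017420) (nat_lit 125) (nat_lit 4) (nat_lit 129) (nat_lit 5) (nat_lit 129) (nat_lit 4) (nat_lit 611) (nat_lit 478) (nat_lit 471))))))))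
noncomputable def xc9 : XT := (XT.nd (nat_lit 2418) (nat_lit 1140) (nat_lit 0) (XT.nd (nat_lit 1170) (nat_lit 2964) (nat_lit 0) (XT.nd (nat_lit 546) (nat_lit 1824) (nat_lit 0) (XT.nd (nat_lit 234) (nat_lit 1216) (nat_lit 0) (XT.nd (nat_lit 78) (nat_lit 380) (nat_lit 0) (XT.lf (nat_lit 0) (nat_lit 1883603382) (nat_lit 304) (nat_lit 1634632462) (nat_lit 380) (nat_lit 7062429046) (nat_lit 120) (nat_lit 5) (nat_lit 124) (nat_lit 5) (nat_lit 125) (nat_lit 4) (nat_lit 612) (nat_lit 478) (nat_lit 470)) (XT.nd (nat_lit 78) (nat_lit 76) (nat_lit 0) (XT.lf (nat_lit 0) (nat_lit 808405784) (nat_lit 304) (nat_lit 7787704700) (nat_lit 304) (nat_lit 2081961222) (nat_lit 116) (nat_lit 4) (nat_lit 120) (nat_lit 5) (nat_lit 120) (nat_lit 4) (nat_lit 613) (nat_lit 478) (nat_lit 469)) (XT.lf (nat_lit 0) (nat_lit 2956744288) (nat_lit 380) (nat_lit 306577651) (nat_lit 76) (nat_lit 7513757333) (nat_lit 115) (nat_lit 5) (nat_lit 120) (nat_lit 5) (nat_lit 116) (nat_lit 4) (nat_lit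 614) (nat_lit 478) (nat_lit 468)))) (XT.nd (nat_lit 156) (nat_lit 608) (nat_lit 0) (XT.nd (nat_lit 78) (nat_lit 380) (nat_lit 0) (XT.lf (nat_lit 0) (nat_lit 8068388993) (nat_lit 304) (nat_lit 1448282908) (nat_lit 0) (nat_lit 1361119893) (nat_lit 112) (nat_lit 5) (nat_lit 116) (nat_lit 4) (nat_lit 112) (nat_lit 4) (nat_lit 615) (nat_lit 478) (nat_lit 467)) (XT.lf (nat_lit 0) (nat_lit 2279596298) (nat_lit 380) (nat_lit 2642866515) (nat_lit 76) (nat_lit 6057597004) (nat_lit 107) (nat_lit 5) (nat_lit 112) (nat_lit 5) (nat_lit 108) (nat_lit 4) (nat_lit 616) (nat_lit 478) (nat_lit 466))) (XT.nd (nat_lit 78) (nat_lit 380) (nat_lit 0) (XT.lf (nat_lit 0) (nat_lit 7210158051) (nat_lit 228) (nat_lit 209443583) (nat_lit 304) (nat_lit 3664664120) (nat_lit 104) (nat_lit 5) (nat_lit 107) (nat_lit 5) (nat_lit 108) (nat_lit 4) (nat_lit 617) (nat_lit 478) (nat_lit 465)) (XT.lf (nat_lit 0) (nat_lit 1470039149) (nat_lit 380) (nat_lit 5164673368) (nat_lit 76) (nat_lit 4555303147)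 (nat_lit 99) (nat_lit 5) (nat_lit 104) (nat_lit 5) (nat_lit 100) (nat_lit 4) (nat_lit 618) (nat_lit 478) (nat_lit 464))))) (XT.nd (nat_lit 312) (nat_lit 836) (nat_lit 0) (XT.nd (nat_lit 156) (nat_lit 456) (nat_lit 0) (XT.nd (nat_lit 78) (nat_lit 304) (nat_lit 0) (XT.lf (nat_lit 0) (nat_lit 4795016962) (nat_lit 228) (nat_lit 1852705213) (nat_lit 304) (nat_lit 4649887613) (nat_lit 96) (nat_lit 5) (nat_lit 99) (nat_lit 5) (nat_lit 100) (nat_lit 4) (nat_lit 619) (nat_lit 478) (nat_lit 463)) (XT.lf (nat_lit 0) (nat_lit 523099350) (nat_lit 304) (nat_lit 7887282844) (nat_lit 76) (nat_lit 2996739886) (nat_lit 92) (nat_lit 5) (nat_lit 96) (nat_lit 5) (nat_lit 93) (nat_lit 4) (nat_lit 620) (nat_lit 478) (nat_lit 462))) (XT.nd (nat_lit 78) (nat_lit 228) (nat_lit 0) (XT.lf (nat_lit 0) (nat_lit 2177757587) (nat_lit 228) (nat_lit 3560923657) (nat_lit 304) (nat_lit 5779501462) (nat_lit 89) (nat_lit 5) (nat_lit 92) (nat_lit 5) (nat_lit 93) (nat_lit 4) (nat_lit 621) (nat_lit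 478) (nat_lit 461)) (XT.lf (nat_lit 0) (nat_lit 801159030) (nat_lit 228) (nat_lit 10256141023) (nat_lit 228) (nat_lit 574190720) (nat_lit 86) (nat_lit 4) (nat_lit 89) (nat_lit 5) (nat_lit 89) (nat_lit 4) (nat_lit 622) (nat_lit 478) (nat_lit 460)))) (XT.nd (nat_lit 156) (nat_lit 532) (nat_lit 0) (XT.nd (nat_lit 78) (nat_lit 228) (nat_lit 0) (XT.lf (nat_lit 0) (nat_lit 4691166865) (nat_lit 304) (nat_lit 649094638) (nat_lit 76) (nat_lit 6405828439) (nat_lit 85) (nat_lit 5) (nat_lit 89) (nat_lit 5) (nat_lit 86) (nat_lit 4) (nat_lit 623) (nat_lit 478) (nat_lit 459)) (XT.lf (nat_lit 0) (nat_lit 9741363171) (nat_lit 228) (nat_lit 308747768) (nat_lit 304) (nat_lit 1812875583) (nat_lit 82) (nat_lit 5) (nat_lit 85) (nat_lit 5) (nat_lit 86) (nat_lit 4) (nat_lit 624) (nat_lit 478) (nat_lit 458))) (XT.nd (nat_lit 78) (nat_lit 228) (nat_lit 0) (XT.lf (nat_lit 0) (nat_lit 3510508525) (nat_lit 304) (nat_lit 3679310422) (nat_lit 76) (nat_lit 4791486949) (nat_lit 78) (nat_lit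 5) (nat_lit 82) (nat_lit 5) (nat_lit 79) (nat_lit 4) (nat_lit 625) (nat_lit 478) (nat_lit 457)) (XT.lf (nat_lit 0) (nat_lit 6817711821) (nat_lit 228) (nat_lit 2092085920) (nat_lit 304) (nat_lit 3192080668) (nat_lit 75) (nat_lit 5) (nat_lit 78) (nat_lit 5) (nat_lit 79) (nat_lit 4) (nat_lit 626) (nat_lit 478) (nat_lit 456)))))) (XT.nd (nat_lit 624) (nat_lit 1292) (nat_lit 0) (XT.nd (nat_lit 312) (nat_lit 760) (nat_lit 0) (XT.nd (nat_lit 156) (nat_lit 456) (nat_lit 0) (XT.nd (nat_lit 78) (nat_lit 152) (nat_lit 0) (XT.lf (nat_lit 0) (nat_lit 2176115020) (nat_lit 304) (nat_lit 6958748989) (nat_lit 76) (nat_lit 3089461206) (nat_lit 71) (nat_lit 5) (nat_lit 75) (nat_lit 5) (nat_lit 72) (nat_lit 4) (nat_lit 627) (nat_lit 478) (nat_lit 455)) (XT.lf (nat_lit 0) (nat_lit 3642964118) (nat_lit 152) (nat_lit 3972573504) (nat_lit 228) (nat_lit 4733129856) (nat_lit 69) (nat_lit 5) (nat_lit 71) (nat_lit 5) (nat_lit 72) (nat_lit 4) (nat_lit 628) (nat_lit 478) (nat_lit 454)))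 (XT.nd (nat_lit 78) (nat_lit 152) (nat_lit 0) (XT.lf (nat_lit 0) (nat_lit 681020795) (nat_lit 304) (nat_lit 10505490306) (nat_lit 76) (nat_lit 1288860798) (nat_lit 65) (nat_lit 5) (nat_lit 69) (nat_lit 5) (nat_lit 66) (nat_lit 4) (nat_lit 629) (nat_lit 478) (nat_lit 453)) (XT.lf (nat_lit 0) (nat_lit 198796990) (nat_lit 152) (nat_lit 5961406404) (nat_lit 228) (nat_lit 6443379362) (nat_lit 63) (nat_lit 5) (nat_lit 65) (nat_lit 5) (nat_lit 66) (nat_lit 4) (nat_lit 630) (nat_lit 478) (nat_lit 452)))) (XT.nd (nat_lit 156) (nat_lit 456) (nat_lit 0) (XT.nd (nat_lit 78) (nat_lit 304) (nat_lit 0) (XT.lf (nat_lit 0) (nat_lit 11141045628) (nat_lit 152) (nat_lit 612613000) (nat_lit 228) (nat_lit 980605989) (nat_lit 63) (nat_lit 5) (nat_lit 65) (nat_lit 5) (nat_lit 66) (nat_lit 4) (nat_lit 631) (nat_lit 478) (nat_lit 451)) (XT.lf (nat_lit 0) (nat_lit 4559071603) (nat_lit 304) (nat_lit 3487621374) (nat_lit 76) (nat_lit 4819714149) (nat_lit 59) (nat_lit 5) (nat_lit 63)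 (nat_lit 5) (nat_lit 60) (nat_lit 4) (nat_lit 632) (nat_lit 478) (nat_lit 450))) (XT.nd (nat_lit 78) (nat_lit 304) (nat_lit 0) (XT.lf (nat_lit 0) (nat_lit 7562154782) (nat_lit 152) (nat_lit 2633423365) (nat_lit 228) (nat_lit 2805501923) (nat_lit 57) (nat_lit 5) (nat_lit 59) (nat_lit 5) (nat_lit 60) (nat_lit 4) (nat_lit 633) (nat_lit 478) (nat_lit 449)) (XT.lf (nat_lit 0) (nat_lit 2784259930) (nat_lit 304) (nat_lit 7476081751) (nat_lit 76) (nat_lit 2877446935) (nat_lit 53) (nat_lit 5) (nat_lit 57) (nat_lit 5) (nat_lit 54) (nat_lit 4) (nat_lit 634) (nat_lit 478) (nat_lit 448))))) (XT.nd (nat_lit 312) (nat_lit 760) (nat_lit 0) (XT.nd (nat_lit 156) (nat_lit 152) (nat_lit 0) (XT.nd (nat_lit 78) (nat_lit 228) (nat_lit 0) (XT.lf (nat_lit 0) (nat_lit 3676015877) (nat_lit 152) (nat_lit 4785811823) (nat_lit 228) (nat_lit 4814761723) (nat_lit 51) (nat_lit 5) (nat_lit 53) (nat_lit 5) (nat_lit 54) (nat_lit 4) (nat_lit 635) (nat_lit 478) (nat_lit 447)) (XT.lf (nat_lit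 0) (nat_lit 825792988) (nat_lit 228) (nat_lit 11789993960) (nat_lit 76) (nat_lit 802232168) (nat_lit 48) (nat_lit 5) (nat_lit 51) (nat_lit 5) (nat_lit 49) (nat_lit 4) (nat_lit 636) (nat_lit 478) (nat_lit 446))) (XT.nd (nat_lit 78) (nat_lit 152) (nat_lit 0) (XT.lf (nat_lit 0) (nat_lit 6547033318) (nat_lit 228) (nat_lit 531417630) (nat_lit 76) (nat_lit 6482543534) (nat_lit 48) (nat_lit 5) (nat_lit 51) (nat_lit 5) (nat_lit 49) (nat_lit 4) (nat_lit 637) (nat_lit 478) (nat_lit 445)) (XT.lf (nat_lit 0) (nat_lit 10980899393) (nat_lit 152) (nat_lit 1410092622) (nat_lit 228) (nat_lit 1315671933) (nat_lit 46) (nat_lit 5) (nat_lit 48) (nat_lit 5) (nat_lit 49) (nat_lit 4) (nat_lit 638) (nat_lit 478) (nat_lit 444)))) (XT.nd (nat_lit 156) (nat_lit 380) (nat_lit 0) (XT.nd (nat_lit 78) (nat_lit 152) (nat_lit 0) (XT.lf (nat_lit 0) (nat_lit 4464352514) (nat_lit 228) (nat_lit 5036565893) (nat_lit 76) (nat_lit 4353210090) (nat_lit 43) (nat_lit 5) (nat_lit 46) (nat_lit 5)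 (nat_lit 44) (nat_lit 4) (nat_lit 639) (nat_lit 478) (nat_lit 443)) (XT.lf (nat_lit 0) (nat_lit 6576939572) (nat_lit 152) (nat_lit 3773113671) (nat_lit 228) (nat_lit 3654161746) (nat_lit 41) (nat_lit 5) (nat_lit 43) (nat_lit 5) (nat_lit 44) (nat_lit 4) (nat_lit 640) (nat_lit 478) (nat_lit 442))) (XT.nd (nat_lit 78) (nat_lit 152) (nat_lit 0) (XT.lf (nat_lit 0) (nat_lit 2179931098) (nat_lit 228) (nat_lit 9910631212) (nat_lit 76) (nat_lit 2066204755) (nat_lit 38) (nat_lit 5) (nat_lit 41) (nat_lit 5) (nat_lit 39) (nat_lit 4) (nat_lit 641) (nat_lit 478) (nat_lit 441)) (XT.lf (nat_lit 0) (nat_lit 1800530240) (nat_lit 152) (nat_lit 6305576560) (nat_lit 228) (nat_lit 6205294111) (nat_lit 36) (nat_lit 5) (nat_lit 38) (nat_lit 5) (nat_lit 39) (nat_lit 4) (nat_lit 642) (nat_lit 478) (nat_lit 440))))))) (XT.nd (nat_lit 78468) (nat_lit 0) (nat_lit 4864) (XT.nd (nat_lit 546) (nat_lit 304) (nat_lit 0) (XT.nd (nat_lit 234) (nat_lit 532) (nat_lit 0) (XT.nd (nat_lit 78)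 (nat_lit 304) (nat_lit 0) (XT.lf (nat_lit 0) (nat_lit 13765131181) (nat_lit 152) (nat_lit 390095415) (nat_lit 228) (nat_lit 313812830) (nat_lit 36) (nat_lit 5) (nat_lit 38) (nat_lit 5) (nat_lit 39) (nat_lit 4) (nat_lit 643) (nat_lit 478) (nat_lit 439)) (XT.nd (nat_lit 78) (nat_lit 76) (nat_lit 0) (XT.lf (nat_lit 0) (nat_lit 5670172944) (nat_lit 228) (nat_lit 3328657533) (nat_lit 76) (nat_lit 5629273597) (nat_lit 33) (nat_lit 5) (nat_lit 36) (nat_lit 5) (nat_lit 34) (nat_lit 4) (nat_lit 644) (nat_lit 478) (nat_lit 438)) (XT.lf (nat_lit 0) (nat_lit 8758518854) (nat_lit 76) (nat_lit 3014184529) (nat_lit 152) (nat_lit 3017544190) (nat_lit 32) (nat_lit 5) (nat_lit 33) (nat_lit 5) (nat_lit 34) (nat_lit 4) (nat_lit 645) (nat_lit 478) (nat_lit 437)))) (XT.nd (nat_lit 156) (nat_lit 228) (nat_lit 0) (XT.nd (nat_lit 78) (nat_lit 76) (nat_lit 0) (XT.lf (nat_lit 0) (nat_lit 3023188878) (nat_lit 228) (nat_lit 8851562846) (nat_lit 76) (nat_lit 3080059012) (nat_lit 29)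 (nat_lit 5) (nat_lit 32) (nat_lit 5) (nat_lit 30) (nat_lit 4) (nat_lit 646) (nat_lit 478) (nat_lit 436)) (XT.lf (nat_lit 0) (nat_lit 3330296040) (nat_lit 76) (nat_lit 5835444862) (nat_lit 152) (nat_lit 5956097517) (nat_lit 28) (nat_lit 5) (nat_lit 29) (nat_lit 5) (nat_lit 30) (nat_lit 4) (nat_lit 647) (nat_lit 478) (nat_lit 435))) (XT.nd (nat_lit 78) (nat_lit 0) (nat_lit 0) (XT.lf (nat_lit 0) (nat_lit 141282704) (nat_lit 228) (nat_lit 14818690825) (nat_lit 76) (nat_lit 332132077) (nat_lit 25) (nat_lit 5) (nat_lit 28) (nat_lit 5) (nat_lit 26) (nat_lit 4) (nat_lit 648) (nat_lit 478) (nat_lit 434)) (XT.lf (nat_lit 0) (nat_lit 6338447186) (nat_lit 228) (nat_lit 2513474072) (nat_lit 76) (nat_lit 6611918047) (nat_lit 25) (nat_lit 5) (nat_lit 28) (nat_lit 5) (nat_lit 26) (nat_lit 4) (nat_lit 649) (nat_lit 478) (nat_lit 433))))) (XT.nd (nat_lit 77610) (nat_lit 0) (nat_lit 9272) (XT.nd (nat_lit 77454) (nat_lit 0) (nat_lit 10412) (XT.nd (nat_lit 78) (nat_lit 228)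 (nat_lit 0) (XT.lf (nat_lit 0) (nat_lit 10057822539) (nat_lit 76) (nat_lit 2607443733) (nat_lit 152) (nat_lit 2973627511) (nat_lit 24) (nat_lit 5) (nat_lit 25) (nat_lit 5) (nat_lit 26) (nat_lit 4) (nat_lit 650) (nat_lit 478) (nat_lit 432)) (XT.lf (nat_lit 0) (nat_lit 3285776802) (nat_lit 228) (nat_lit 8785081473) (nat_lit 76) (nat_lit 3745604728) (nat_lit 21) (nat_lit 5) (nat_lit 24) (nat_lit 5) (nat_lit 22) (nat_lit 4) (nat_lit 651) (nat_lit 478) (nat_lit 431))) (XT.nd (nat_lit 78) (nat_lit 380) (nat_lit 0) (XT.lf (nat_lit 0) (nat_lit 540149034) (nat_lit 380) (nat_lit 2153454658) (nat_lit 380) (nat_lit 2153454658) (nat_lit 163) (nat_lit 4) (nat_lit 168) (nat_lit 5) (nat_lit 168) (nat_lit 4) (nat_lit 602) (nat_lit 479) (nat_lit 479)) (XT.lf (nat_lit 0) (nat_lit 193251202) (nat_lit 304) (nat_lit 284496162) (nat_lit 380) (nat_lit 9299030280) (nat_lit 158) (nat_lit 5) (nat_lit 162) (nat_lit 5) (nat_lit 163) (nat_lit 4) (nat_lit 603) (nat_lit 479) (nat_lit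 478)))) (XT.nd (nat_lit 156) (nat_lit 684) (nat_lit 0) (XT.nd (nat_lit 78) (nat_lit 456) (nat_lit 0) (XT.lf (nat_lit 0) (nat_lit 5309587247) (nat_lit 380) (nat_lit 739659722) (nat_lit 0) (nat_lit 3811093476) (nat_lit 158) (nat_lit 5) (nat_lit 163) (nat_lit 4) (nat_lit 158) (nat_lit 4) (nat_lit 604) (nat_lit 479) (nat_lit 477)) (XT.lf (nat_lit 0) (nat_lit 271700741) (nat_lit 456) (nat_lit 1676941213) (nat_lit 76) (nat_lit 7997234773) (nat_lit 152) (nat_lit 5) (nat_lit 158) (nat_lit 5) (nat_lit 153) (nat_lit 4) (nat_lit 605) (nat_lit 479) (nat_lit 476))) (XT.nd (nat_lit 78) (nat_lit 380) (nat_lit 0) (XT.lf (nat_lit 0) (nat_lit 5125195750) (nat_lit 380) (nat_lit 2663396917) (nat_lit 0) (nat_lit 2244020061) (nat_lit 148) (nat_lit 5) (nat_lit 153) (nat_lit 4) (nat_lit 148) (nat_lit 4) (nat_lit 606) (nat_lit 479) (nat_lit 475)) (XT.lf (nat_lit 0) (nat_lit 6452335694) (nat_lit 380) (nat_lit 3617687135) (nat_lit 380) (nat_lit 51176488) (nat_lit 143) (nat_lit 4)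 (nat_lit 148) (nat_lit 5) (nat_lit 148) (nat_lit 4) (nat_lit 607) (nat_lit 479) (nat_lit 474)))))) (XT.nd (nat_lit 624) (nat_lit 2052) (nat_lit 0) (XT.nd (nat_lit 312) (nat_lit 988) (nat_lit 0) (XT.nd (nat_lit 156) (nat_lit 684) (nat_lit 0) (XT.nd (nat_lit 78) (nat_lit 304) (nat_lit 0) (XT.lf (nat_lit 0) (nat_lit 4824298865) (nat_lit 380) (nat_lit 4717897981) (nat_lit 0) (nat_lit 668997232) (nat_lit 138) (nat_lit 5) (nat_lit 143) (nat_lit 4) (nat_lit 138) (nat_lit 4) (nat_lit 608) (nat_lit 479) (nat_lit 473)) (XT.lf (nat_lit 0) (nat_lit 4502517972) (nat_lit 304) (nat_lit 5300720159) (nat_lit 304) (nat_lit 499612088) (nat_lit 134) (nat_lit 4) (nat_lit 138) (nat_lit 5) (nat_lit 138) (nat_lit 4) (nat_lit 609) (nat_lit 479) (nat_lit 472))) (XT.nd (nat_lit 78) (nat_lit 304) (nat_lit 0) (XT.lf (nat_lit 0) (nat_lit 3473634975) (nat_lit 304) (nat_lit 936209882) (nat_lit 380) (nat_lit 5986248085) (nat_lit 129) (nat_lit 5) (nat_lit 133) (nat_lit 5) (nat_lit 134)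 (nat_lit 4) (nat_lit 610) (nat_lit 479) (nat_lit 471)) (XT.lf (nat_lit 0) (nat_lit 2407964818) (nat_lit 304) (nat_lit 7009644990) (nat_lit 304) (nat_lit 1073389475) (nat_lit 125) (nat_lit 4) (nat_lit 129) (nat_lit 5) (nat_lit 129) (nat_lit 4) (nat_lit 611) (nat_lit 479) (nat_lit 470)))) (XT.nd (nat_lit 156) (nat_lit 304) (nat_lit 0) (XT.nd (nat_lit 78) (nat_lit 304) (nat_lit 0) (XT.lf (nat_lit 0) (nat_lit 1298240572) (nat_lit 304) (nat_lit 2578552205) (nat_lit 380) (nat_lit 6710686386) (nat_lit 120) (nat_lit 5) (nat_lit 124) (nat_lit 5) (nat_lit 125) (nat_lit 4) (nat_lit 612) (nat_lit 479) (nat_lit 469)) (XT.lf (nat_lit 0) (nat_lit 154885213) (nat_lit 304) (nat_lit 8754574080) (nat_lit 304) (nat_lit 1776331309) (nat_lit 116) (nat_lit 4) (nat_lit 120) (nat_lit 5) (nat_lit 120) (nat_lit 4) (nat_lit 613) (nat_lit 479) (nat_lit 468))) (XT.nd (nat_lit 78) (nat_lit 228) (nat_lit 0) (XT.lf (nat_lit 0) (nat_lit 3223603345) (nat_lit 380) (nat_lit 1028777381) (nat_lit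 76) (nat_lit 6533073445) (nat_lit 115) (nat_lit 5) (nat_lit 120) (nat_lit 5) (nat_lit 116) (nat_lit 4) (nat_lit 614) (nat_lit 479) (nat_lit 467)) (XT.lf (nat_lit 0) (nat_lit 8289425759) (nat_lit 304) (nat_lit 2241218053) (nat_lit 0) (nat_lit 356439763) (nat_lit 112) (nat_lit 5) (nat_lit 116) (nat_lit 4) (nat_lit 112) (nat_lit 4) (nat_lit 615) (nat_lit 479) (nat_lit 466))))) (XT.nd (nat_lit 312) (nat_lit 836) (nat_lit 0) (XT.nd (nat_lit 156) (nat_lit 608) (nat_lit 0) (XT.nd (nat_lit 78) (nat_lit 228) (nat_lit 0) (XT.lf (nat_lit 0) (nat_lit 2448764846) (nat_lit 380) (nat_lit 3516267218) (nat_lit 76) (nat_lit 5025088439) (nat_lit 107) (nat_lit 5) (nat_lit 112) (nat_lit 5) (nat_lit 108) (nat_lit 4) (nat_lit 616) (nat_lit 479) (nat_lit 465)) (XT.lf (nat_lit 0) (nat_lit 6266348215) (nat_lit 228) (nat_lit 1282423405) (nat_lit 304) (nat_lit 3546355202) (nat_lit 104) (nat_lit 5) (nat_lit 107) (nat_lit 5) (nat_lit 108) (nat_lit 4) (nat_lit 617) (nat_lit 479) (nat_lit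 464))) (XT.nd (nat_lit 78) (nat_lit 228) (nat_lit 0) (XT.lf (nat_lit 0) (nat_lit 1539161431) (nat_lit 380) (nat_lit 6196172758) (nat_lit 76) (nat_lit 3466480273) (nat_lit 99) (nat_lit 5) (nat_lit 104) (nat_lit 5) (nat_lit 100) (nat_lit 4) (nat_lit 618) (nat_lit 479) (nat_lit 463)) (XT.lf (nat_lit 0) (nat_lit 3690805561) (nat_lit 228) (nat_lit 2985196905) (nat_lit 304) (nat_lit 4634223345) (nat_lit 96) (nat_lit 5) (nat_lit 99) (nat_lit 5) (nat_lit 100) (nat_lit 4) (nat_lit 619) (nat_lit 479) (nat_lit 462)))) (XT.nd (nat_lit 156) (nat_lit 304) (nat_lit 0) (XT.nd (nat_lit 78) (nat_lit 228) (nat_lit 0) (XT.lf (nat_lit 0) (nat_lit 489653227) (nat_lit 304) (nat_lit 9084001576) (nat_lit 76) (nat_lit 1847059735) (nat_lit 92) (nat_lit 5) (nat_lit 96) (nat_lit 5) (nat_lit 93) (nat_lit 4) (nat_lit 620) (nat_lit 479) (nat_lit 461)) (XT.lf (nat_lit 0) (nat_lit 905940977) (nat_lit 228) (nat_lit 4757550533) (nat_lit 304) (nat_lit 5869118889) (nat_lit 89) (nat_lit 5)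 (nat_lit 92) (nat_lit 5) (nat_lit 93) (nat_lit 4) (nat_lit 621) (nat_lit 479) (nat_lit 460))) (XT.nd (nat_lit 78) (nat_lit 304) (nat_lit 0) (XT.lf (nat_lit 0) (nat_lit 10935771840) (nat_lit 304) (nat_lit 546360057) (nat_lit 0) (nat_lit 164713695) (nat_lit 89) (nat_lit 5) (nat_lit 93) (nat_lit 4) (nat_lit 89) (nat_lit 4) (nat_lit 622) (nat_lit 479) (nat_lit 459)) (XT.lf (nat_lit 0) (nat_lit 4519150489) (nat_lit 304) (nat_lit 2076983374) (nat_lit 76) (nat_lit 5166067584) (nat_lit 85) (nat_lit 5) (nat_lit 89) (nat_lit 5) (nat_lit 86) (nat_lit 4) (nat_lit 623) (nat_lit 479) (nat_lit 458))))))))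
noncomputable def xc10 : XT := (XT.nd (nat_lit 79560) (nat_lit 0) (nat_lit 2736) (XT.nd (nat_lit 1170) (nat_lit 1900) (nat_lit 0) (XT.nd (nat_lit 546) (nat_lit 1444) (nat_lit 0) (XT.nd (nat_lit 234) (nat_lit 760) (nat_lit 0) (XT.nd (nat_lit 78) (nat_lit 532) (nat_lit 0) (XT.lf (nat_lit 0) (nat_lit 8236289392) (nat_lit 228) (nat_lit 1599376066) (nat_lit 304) (nat_lit 2044281487) (nat_lit 82) (nat_lit 5) (nat_lit 85) (nat_lit 5) (nat_lit 86) (nat_lit 4) (nat_lit 624) (nat_lit 479) (nat_lit 457)) (XT.nd (nat_lit 78) (nat_lit 228) (nat_lit 0) (XT.lf (nat_lit 0) (nat_lit 3230533610) (nat_lit 304) (nat_lit 5287545291) (nat_lit 76) (nat_lit 3481249868) (nat_lit 78) (nat_lit 5) (nat_lit 82) (nat_lit 5) (nat_lit 79) (nat_lit 4) (nat_lit 625) (nat_lit 479) (nat_lit 456)) (XT.lf (nat_lit 0) (nat_lit 5129729633) (nat_lit 228) (nat_lit 3456638959) (nat_lit 304) (nat_lit 3534402091) (nat_lit 75) (nat_lit 5) (nat_lit 78) (nat_lit 5) (nat_lit 79) (nat_lit 4) (nat_lit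 626) (nat_lit 479) (nat_lit 455)))) (XT.nd (nat_lit 156) (nat_lit 304) (nat_lit 0) (XT.nd (nat_lit 78) (nat_lit 152) (nat_lit 0) (XT.lf (nat_lit 0) (nat_lit 1785131313) (nat_lit 304) (nat_lit 8755185614) (nat_lit 76) (nat_lit 1704008355) (nat_lit 71) (nat_lit 5) (nat_lit 75) (nat_lit 5) (nat_lit 72) (nat_lit 4) (nat_lit 627) (nat_lit 479) (nat_lit 454)) (XT.lf (nat_lit 0) (nat_lit 1764123049) (nat_lit 152) (nat_lit 5415890513) (nat_lit 228) (nat_lit 5189545088) (nat_lit 69) (nat_lit 5) (nat_lit 71) (nat_lit 5) (nat_lit 72) (nat_lit 4) (nat_lit 628) (nat_lit 479) (nat_lit 453))) (XT.nd (nat_lit 78) (nat_lit 228) (nat_lit 0) (XT.lf (nat_lit 0) (nat_lit 176973424) (nat_lit 228) (nat_lit 1999668) (nat_lit 76) (nat_lit 12318421893) (nat_lit 68) (nat_lit 5) (nat_lit 71) (nat_lit 5) (nat_lit 69) (nat_lit 5) (nat_lit 629) (nat_lit 479) (nat_lit 452)) (XT.lf (nat_lit 0) (nat_lit 5621492612) (nat_lit 304) (nat_lit 1854487554) (nat_lit 76) (nat_lit 5150319225) (nat_lit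 65) (nat_lit 5) (nat_lit 69) (nat_lit 5) (nat_lit 66) (nat_lit 4) (nat_lit 630) (nat_lit 479) (nat_lit 451))))) (XT.nd (nat_lit 312) (nat_lit 532) (nat_lit 0) (XT.nd (nat_lit 156) (nat_lit 456) (nat_lit 0) (XT.nd (nat_lit 78) (nat_lit 304) (nat_lit 0) (XT.lf (nat_lit 0) (nat_lit 9005588696) (nat_lit 152) (nat_lit 2165218957) (nat_lit 228) (nat_lit 1587056678) (nat_lit 63) (nat_lit 5) (nat_lit 65) (nat_lit 5) (nat_lit 66) (nat_lit 4) (nat_lit 631) (nat_lit 479) (nat_lit 450)) (XT.lf (nat_lit 0) (nat_lit 3904134169) (nat_lit 304) (nat_lit 5743187376) (nat_lit 76) (nat_lit 3243893118) (nat_lit 59) (nat_lit 5) (nat_lit 63) (nat_lit 5) (nat_lit 60) (nat_lit 4) (nat_lit 632) (nat_lit 479) (nat_lit 449))) (XT.nd (nat_lit 78) (nat_lit 304) (nat_lit 0) (XT.lf (nat_lit 0) (nat_lit 5218950446) (nat_lit 152) (nat_lit 4275043771) (nat_lit 228) (nat_lit 3532826579) (nat_lit 57) (nat_lit 5) (nat_lit 59) (nat_lit 5) (nat_lit 60) (nat_lit 4) (nat_lit 633) (nat_lit 479)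 (nat_lit 448)) (XT.lf (nat_lit 0) (nat_lit 2008193961) (nat_lit 304) (nat_lit 9945251064) (nat_lit 76) (nat_lit 1211344618) (nat_lit 53) (nat_lit 5) (nat_lit 57) (nat_lit 5) (nat_lit 54) (nat_lit 4) (nat_lit 634) (nat_lit 479) (nat_lit 447)))) (XT.nd (nat_lit 156) (nat_lit 380) (nat_lit 0) (XT.nd (nat_lit 78) (nat_lit 0) (nat_lit 0) (XT.lf (nat_lit 0) (nat_lit 1116241561) (nat_lit 152) (nat_lit 6521593122) (nat_lit 228) (nat_lit 5666714551) (nat_lit 51) (nat_lit 5) (nat_lit 53) (nat_lit 5) (nat_lit 54) (nat_lit 4) (nat_lit 635) (nat_lit 479) (nat_lit 446)) (XT.lf (nat_lit 0) (nat_lit 12419325610) (nat_lit 152) (nat_lit 964736682) (nat_lit 228) (nat_lit 62962329) (nat_lit 51) (nat_lit 5) (nat_lit 53) (nat_lit 5) (nat_lit 54) (nat_lit 4) (nat_lit 636) (nat_lit 479) (nat_lit 445))) (XT.nd (nat_lit 78) (nat_lit 152) (nat_lit 0) (XT.lf (nat_lit 0) (nat_lit 5614845128) (nat_lit 228) (nat_lit 3280374956) (nat_lit 76) (nat_lit 4695673482) (nat_lit 48) (nat_lit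 5) (nat_lit 51) (nat_lit 5) (nat_lit 49) (nat_lit 4) (nat_lit 637) (nat_lit 479) (nat_lit 444)) (XT.lf (nat_lit 0) (nat_lit 8138633743) (nat_lit 152) (nat_lit 3271138786) (nat_lit 228) (nat_lit 2327771354) (nat_lit 46) (nat_lit 5) (nat_lit 48) (nat_lit 5) (nat_lit 49) (nat_lit 4) (nat_lit 638) (nat_lit 479) (nat_lit 443)))))) (XT.nd (nat_lit 624) (nat_lit 608) (nat_lit 0) (XT.nd (nat_lit 312) (nat_lit 684) (nat_lit 0) (XT.nd (nat_lit 156) (nat_lit 228) (nat_lit 0) (XT.nd (nat_lit 78) (nat_lit 152) (nat_lit 0) (XT.lf (nat_lit 0) (nat_lit 3403338887) (nat_lit 228) (nat_lit 8017636796) (nat_lit 76) (nat_lit 2465408151) (nat_lit 43) (nat_lit 5) (nat_lit 46) (nat_lit 5) (nat_lit 44) (nat_lit 4) (nat_lit 639) (nat_lit 479) (nat_lit 442)) (XT.lf (nat_lit 0) (nat_lit 3499364253) (nat_lit 152) (nat_lit 5739225594) (nat_lit 228) (nat_lit 4798889687) (nat_lit 41) (nat_lit 5) (nat_lit 43) (nat_lit 5) (nat_lit 44) (nat_lit 4) (nat_lit 640) (nat_lit 479) (nat_lit 441)))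 (XT.nd (nat_lit 78) (nat_lit 0) (nat_lit 0) (XT.lf (nat_lit 0) (nat_lit 985877175) (nat_lit 228) (nat_lit 13133523180) (nat_lit 76) (nat_lit 72066893) (nat_lit 38) (nat_lit 5) (nat_lit 41) (nat_lit 5) (nat_lit 39) (nat_lit 4) (nat_lit 641) (nat_lit 479) (nat_lit 440)) (XT.lf (nat_lit 0) (nat_lit 6869997539) (nat_lit 228) (nat_lit 1502221089) (nat_lit 76) (nat_lit 5974723771) (nat_lit 38) (nat_lit 5) (nat_lit 41) (nat_lit 5) (nat_lit 39) (nat_lit 4) (nat_lit 642) (nat_lit 479) (nat_lit 439)))) (XT.nd (nat_lit 156) (nat_lit 304) (nat_lit 0) (XT.nd (nat_lit 78) (nat_lit 228) (nat_lit 0) (XT.lf (nat_lit 0) (nat_lit 10386541073) (nat_lit 152) (nat_lit 2492560743) (nat_lit 228) (nat_lit 1626279606) (nat_lit 36) (nat_lit 5) (nat_lit 38) (nat_lit 5) (nat_lit 39) (nat_lit 4) (nat_lit 643) (nat_lit 479) (nat_lit 438)) (XT.lf (nat_lit 0) (nat_lit 4308385328) (nat_lit 228) (nat_lit 6859785555) (nat_lit 76) (nat_lit 3497776486) (nat_lit 33) (nat_lit 5) (nat_lit 36)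 (nat_lit 5) (nat_lit 34) (nat_lit 4) (nat_lit 644) (nat_lit 479) (nat_lit 437))) (XT.nd (nat_lit 78) (nat_lit 228) (nat_lit 0) (XT.lf (nat_lit 0) (nat_lit 5124491947) (nat_lit 76) (nat_lit 5233154762) (nat_lit 152) (nat_lit 4471509724) (nat_lit 32) (nat_lit 5) (nat_lit 33) (nat_lit 5) (nat_lit 34) (nat_lit 4) (nat_lit 645) (nat_lit 479) (nat_lit 436)) (XT.lf (nat_lit 0) (nat_lit 1519384692) (nat_lit 228) (nat_lit 12645129717) (nat_lit 76) (nat_lit 830772321) (nat_lit 29) (nat_lit 5) (nat_lit 32) (nat_lit 5) (nat_lit 30) (nat_lit 4) (nat_lit 646) (nat_lit 479) (nat_lit 435))))) (XT.nd (nat_lit 312) (nat_lit 228) (nat_lit 0) (XT.nd (nat_lit 156) (nat_lit 304) (nat_lit 0) (XT.nd (nat_lit 78) (nat_lit 76) (nat_lit 0) (XT.lf (nat_lit 0) (nat_lit 7610729356) (nat_lit 228) (nat_lit 562276439) (nat_lit 76) (nat_lit 6990332939) (nat_lit 29) (nat_lit 5) (nat_lit 32) (nat_lit 5) (nat_lit 30) (nat_lit 4) (nat_lit 647) (nat_lit 479) (nat_lit 434)) (XT.lf (nat_lit 0)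 (nat_lit 11807520167) (nat_lit 76) (nat_lit 2034453356) (nat_lit 152) (nat_lit 1492417148) (nat_lit 28) (nat_lit 5) (nat_lit 29) (nat_lit 5) (nat_lit 30) (nat_lit 4) (nat_lit 648) (nat_lit 479) (nat_lit 433))) (XT.nd (nat_lit 78) (nat_lit 76) (nat_lit 0) (XT.lf (nat_lit 0) (nat_lit 4658254507) (nat_lit 228) (nat_lit 6635739475) (nat_lit 76) (nat_lit 4213645670) (nat_lit 25) (nat_lit 5) (nat_lit 28) (nat_lit 5) (nat_lit 26) (nat_lit 4) (nat_lit 649) (nat_lit 479) (nat_lit 432)) (XT.lf (nat_lit 0) (nat_lit 5825725776) (nat_lit 76) (nat_lit 5102948308) (nat_lit 152) (nat_lit 4755148196) (nat_lit 24) (nat_lit 5) (nat_lit 25) (nat_lit 5) (nat_lit 26) (nat_lit 4) (nat_lit 650) (nat_lit 479) (nat_lit 431)))) (XT.nd (nat_lit 77298) (nat_lit 0) (nat_lit 10792) (XT.nd (nat_lit 77220) (nat_lit 0) (nat_lit 11628) (XT.lf (nat_lit 0) (nat_lit 1453673201) (nat_lit 228) (nat_lit 13191975066) (nat_lit 76) (nat_lit 1217453683) (nat_lit 21) (nat_lit 5) (nat_lit 24) (nat_lit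 5) (nat_lit 22) (nat_lit 4) (nat_lit 651) (nat_lit 479) (nat_lit 430)) (XT.lf (nat_lit 0) (nat_lit 1430040177) (nat_lit 380) (nat_lit 1668271116) (nat_lit 380) (nat_lit 1668271116) (nat_lit 174) (nat_lit 4) (nat_lit 179) (nat_lit 5) (nat_lit 179) (nat_lit 4) (nat_lit 600) (nat_lit 480) (nat_lit 480))) (XT.nd (nat_lit 78) (nat_lit 380) (nat_lit 0) (XT.lf (nat_lit 0) (nat_lit 1375488497) (nat_lit 456) (nat_lit 7649689350) (nat_lit 0) (nat_lit 588254053) (nat_lit 168) (nat_lit 5) (nat_lit 174) (nat_lit 4) (nat_lit 168) (nat_lit 4) (nat_lit 601) (nat_lit 480) (nat_lit 479)) (XT.lf (nat_lit 0) (nat_lit 1021950616) (nat_lit 380) (nat_lit 5115965073) (nat_lit 380) (nat_lit 3556932154) (nat_lit 163) (nat_lit 4) (nat_lit 168) (nat_lit 5) (nat_lit 168) (nat_lit 4) (nat_lit 602) (nat_lit 480) (nat_lit 478))))))) (XT.nd (nat_lit 1170) (nat_lit 3572) (nat_lit 0) (XT.nd (nat_lit 546) (nat_lit 2280) (nat_lit 0) (XT.nd (nat_lit 234) (nat_lit 1368) (nat_lit 0) (XT.nd (nat_lit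 78) (nat_lit 456) (nat_lit 0) (XT.lf (nat_lit 0) (nat_lit 70003810) (nat_lit 304) (nat_lit 1111036734) (nat_lit 380) (nat_lit 8597108408) (nat_lit 158) (nat_lit 5) (nat_lit 162) (nat_lit 5) (nat_lit 163) (nat_lit 4) (nat_lit 603) (nat_lit 480) (nat_lit 477)) (XT.nd (nat_lit 78) (nat_lit 456) (nat_lit 0) (XT.lf (nat_lit 0) (nat_lit 5971660869) (nat_lit 380) (nat_lit 916790176) (nat_lit 0) (nat_lit 2974085682) (nat_lit 158) (nat_lit 5) (nat_lit 163) (nat_lit 4) (nat_lit 158) (nat_lit 4) (nat_lit 604) (nat_lit 480) (nat_lit 476)) (XT.lf (nat_lit 0) (nat_lit 885991384) (nat_lit 456) (nat_lit 1920895080) (nat_lit 76) (nat_lit 7141840066) (nat_lit 152) (nat_lit 5) (nat_lit 158) (nat_lit 5) (nat_lit 153) (nat_lit 4) (nat_lit 605) (nat_lit 480) (nat_lit 475)))) (XT.nd (nat_lit 156) (nat_lit 608) (nat_lit 0) (XT.nd (nat_lit 78) (nat_lit 456) (nat_lit 0) (XT.lf (nat_lit 0) (nat_lit 5696722637) (nat_lit 380) (nat_lit 2966048902) (nat_lit 0) (nat_lit 1373546817) (nat_lit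 148) (nat_lit 5) (nat_lit 153) (nat_lit 4) (nat_lit 148) (nat_lit 4) (nat_lit 606) (nat_lit 480) (nat_lit 474)) (XT.lf (nat_lit 0) (nat_lit 472377145) (nat_lit 456) (nat_lit 4040871003) (nat_lit 76) (nat_lit 5612340072) (nat_lit 142) (nat_lit 5) (nat_lit 148) (nat_lit 5) (nat_lit 143) (nat_lit 4) (nat_lit 607) (nat_lit 480) (nat_lit 473))) (XT.nd (nat_lit 78) (nat_lit 304) (nat_lit 0) (XT.lf (nat_lit 0) (nat_lit 5062634129) (nat_lit 304) (nat_lit 242529006) (nat_lit 380) (nat_lit 4911254082) (nat_lit 138) (nat_lit 5) (nat_lit 142) (nat_lit 5) (nat_lit 143) (nat_lit 4) (nat_lit 608) (nat_lit 480) (nat_lit 472)) (XT.lf (nat_lit 0) (nat_lit 4004400161) (nat_lit 304) (nat_lit 6240271281) (nat_lit 304) (nat_lit 64191044) (nat_lit 134) (nat_lit 4) (nat_lit 138) (nat_lit 5) (nat_lit 138) (nat_lit 4) (nat_lit 609) (nat_lit 480) (nat_lit 471))))) (XT.nd (nat_lit 312) (nat_lit 1216) (nat_lit 0) (XT.nd (nat_lit 156) (nat_lit 380) (nat_lit 0) (XT.nd (nat_lit 78) (nat_lit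 304) (nat_lit 0) (XT.lf (nat_lit 0) (nat_lit 2901821249) (nat_lit 304) (nat_lit 1899480965) (nat_lit 380) (nat_lit 5601512003) (nat_lit 129) (nat_lit 5) (nat_lit 133) (nat_lit 5) (nat_lit 134) (nat_lit 4) (nat_lit 610) (nat_lit 480) (nat_lit 470)) (XT.lf (nat_lit 0) (nat_lit 1769797056) (nat_lit 304) (nat_lit 7994491665) (nat_lit 304) (nat_lit 734327885) (nat_lit 125) (nat_lit 4) (nat_lit 129) (nat_lit 5) (nat_lit 129) (nat_lit 4) (nat_lit 611) (nat_lit 480) (nat_lit 469))) (XT.nd (nat_lit 78) (nat_lit 0) (nat_lit 0) (XT.lf (nat_lit 0) (nat_lit 583282056) (nat_lit 304) (nat_lit 3589179638) (nat_lit 380) (nat_lit 6423370140) (nat_lit 120) (nat_lit 5) (nat_lit 124) (nat_lit 5) (nat_lit 125) (nat_lit 4) (nat_lit 612) (nat_lit 480) (nat_lit 468)) (XT.lf (nat_lit 0) (nat_lit 9163407515) (nat_lit 380) (nat_lit 621641737) (nat_lit 0) (nat_lit 909928885) (nat_lit 120) (nat_lit 5) (nat_lit 125) (nat_lit 4) (nat_lit 120) (nat_lit 4) (nat_lit 613) (nat_lit 480) (nat_lit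 467)))) (XT.nd (nat_lit 156) (nat_lit 608) (nat_lit 0) (XT.nd (nat_lit 78) (nat_lit 228) (nat_lit 0) (XT.lf (nat_lit 0) (nat_lit 3426956270) (nat_lit 380) (nat_lit 1882216540) (nat_lit 76) (nat_lit 5486201501) (nat_lit 115) (nat_lit 5) (nat_lit 120) (nat_lit 5) (nat_lit 116) (nat_lit 4) (nat_lit 614) (nat_lit 480) (nat_lit 466)) (XT.lf (nat_lit 0) (nat_lit 7726037375) (nat_lit 228) (nat_lit 724996050) (nat_lit 304) (nat_lit 2446805620) (nat_lit 112) (nat_lit 5) (nat_lit 115) (nat_lit 5) (nat_lit 116) (nat_lit 4) (nat_lit 615) (nat_lit 480) (nat_lit 465))) (XT.nd (nat_lit 78) (nat_lit 228) (nat_lit 0) (XT.lf (nat_lit 0) (nat_lit 2552897905) (nat_lit 380) (nat_lit 4524358347) (nat_lit 76) (nat_lit 3924495356) (nat_lit 107) (nat_lit 5) (nat_lit 112) (nat_lit 5) (nat_lit 108) (nat_lit 4) (nat_lit 616) (nat_lit 480) (nat_lit 464)) (XT.lf (nat_lit 0) (nat_lit 5187210971) (nat_lit 228) (nat_lit 2425480640) (nat_lit 304) (nat_lit 3494870976) (nat_lit 104) (nat_lit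 5) (nat_lit 107) (nat_lit 5) (nat_lit 108) (nat_lit 4) (nat_lit 617) (nat_lit 480) (nat_lit 463)))))) (XT.nd (nat_lit 624) (nat_lit 1596) (nat_lit 0) (XT.nd (nat_lit 312) (nat_lit 1064) (nat_lit 0) (XT.nd (nat_lit 156) (nat_lit 304) (nat_lit 0) (XT.nd (nat_lit 78) (nat_lit 228) (nat_lit 0) (XT.lf (nat_lit 0) (nat_lit 1541647268) (nat_lit 380) (nat_lit 7365926897) (nat_lit 76) (nat_lit 2307636226) (nat_lit 99) (nat_lit 5) (nat_lit 104) (nat_lit 5) (nat_lit 100) (nat_lit 4) (nat_lit 618) (nat_lit 480) (nat_lit 462)) (XT.lf (nat_lit 0) (nat_lit 2447659018) (nat_lit 228) (nat_lit 4189745483) (nat_lit 304) (nat_lit 4687039292) (nat_lit 96) (nat_lit 5) (nat_lit 99) (nat_lit 5) (nat_lit 100) (nat_lit 4) (nat_lit 619) (nat_lit 480) (nat_lit 461))) (XT.nd (nat_lit 78) (nat_lit 0) (nat_lit 0) (XT.lf (nat_lit 0) (nat_lit 387896191) (nat_lit 304) (nat_lit 10422658587) (nat_lit 76) (nat_lit 625377639) (nat_lit 92) (nat_lit 5) (nat_lit 96) (nat_lit 5) (nat_lit 93) (nat_lit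 4) (nat_lit 620) (nat_lit 480) (nat_lit 460)) (XT.lf (nat_lit 0) (nat_lit 5523022963) (nat_lit 304) (nat_lit 501869940) (nat_lit 76) (nat_lit 5523709962) (nat_lit 92) (nat_lit 5) (nat_lit 96) (nat_lit 5) (nat_lit 93) (nat_lit 4) (nat_lit 621) (nat_lit 480) (nat_lit 459)))) (XT.nd (nat_lit 156) (nat_lit 532) (nat_lit 0) (XT.nd (nat_lit 78) (nat_lit 304) (nat_lit 0) (XT.lf (nat_lit 0) (nat_lit 9630214808) (nat_lit 228) (nat_lit 1128147834) (nat_lit 304) (nat_lit 905214576) (nat_lit 89) (nat_lit 5) (nat_lit 92) (nat_lit 5) (nat_lit 93) (nat_lit 4) (nat_lit 622) (nat_lit 480) (nat_lit 458)) (XT.lf (nat_lit 0) (nat_lit 4277726308) (nat_lit 304) (nat_lit 3649470258) (nat_lit 76) (nat_lit 3852758645) (nat_lit 85) (nat_lit 5) (nat_lit 89) (nat_lit 5) (nat_lit 86) (nat_lit 4) (nat_lit 623) (nat_lit 480) (nat_lit 457))) (XT.nd (nat_lit 78) (nat_lit 304) (nat_lit 0) (XT.lf (nat_lit 0) (nat_lit 6585837188) (nat_lit 228) (nat_lit 2965671427) (nat_lit 304) (nat_lit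 2347047075) (nat_lit 82) (nat_lit 5) (nat_lit 85) (nat_lit 5) (nat_lit 86) (nat_lit 4) (nat_lit 624) (nat_lit 480) (nat_lit 456)) (XT.lf (nat_lit 0) (nat_lit 2879319833) (nat_lit 304) (nat_lit 7044315297) (nat_lit 76) (nat_lit 2095390394) (nat_lit 78) (nat_lit 5) (nat_lit 82) (nat_lit 5) (nat_lit 79) (nat_lit 4) (nat_lit 625) (nat_lit 480) (nat_lit 455))))) (XT.nd (nat_lit 312) (nat_lit 912) (nat_lit 0) (XT.nd (nat_lit 156) (nat_lit 152) (nat_lit 0) (XT.nd (nat_lit 78) (nat_lit 304) (nat_lit 0) (XT.lf (nat_lit 0) (nat_lit 3292382955) (nat_lit 228) (nat_lit 4898985003) (nat_lit 304) (nat_lit 3949975527) (nat_lit 75) (nat_lit 5) (nat_lit 78) (nat_lit 5) (nat_lit 79) (nat_lit 4) (nat_lit 626) (nat_lit 480) (nat_lit 454)) (XT.lf (nat_lit 0) (nat_lit 1320997757) (nat_lit 304) (nat_lit 10704232443) (nat_lit 76) (nat_lit 240802354) (nat_lit 71) (nat_lit 5) (nat_lit 75) (nat_lit 5) (nat_lit 72) (nat_lit 4) (nat_lit 627) (nat_lit 480) (nat_lit 453))) (XT.nd (nat_lit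 78) (nat_lit 152) (nat_lit 0) (XT.lf (nat_lit 0) (nat_lit 6672718630) (nat_lit 304) (nat_lit 264691064) (nat_lit 76) (nat_lit 5454719748) (nat_lit 71) (nat_lit 5) (nat_lit 75) (nat_lit 5) (nat_lit 72) (nat_lit 4) (nat_lit 628) (nat_lit 480) (nat_lit 452)) (XT.lf (nat_lit 0) (nat_lit 10407993258) (nat_lit 152) (nat_lit 1728262934) (nat_lit 228) (nat_lit 384397007) (nat_lit 69) (nat_lit 5) (nat_lit 71) (nat_lit 5) (nat_lit 72) (nat_lit 4) (nat_lit 629) (nat_lit 480) (nat_lit 451)))) (XT.nd (nat_lit 156) (nat_lit 456) (nat_lit 0) (XT.nd (nat_lit 78) (nat_lit 152) (nat_lit 0) (XT.lf (nat_lit 0) (nat_lit 5009560604) (nat_lit 304) (nat_lit 4060859329) (nat_lit 76) (nat_lit 3580299922) (nat_lit 65) (nat_lit 5) (nat_lit 69) (nat_lit 5) (nat_lit 66) (nat_lit 4) (nat_lit 630) (nat_lit 480) (nat_lit 450)) (XT.lf (nat_lit 0) (nat_lit 6713496162) (nat_lit 152) (nat_lit 3799550529) (nat_lit 228) (nat_lit 2270154953) (nat_lit 63) (nat_lit 5) (nat_lit 65) (nat_lit 5)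 (nat_lit 66) (nat_lit 4) (nat_lit 631) (nat_lit 480) (nat_lit 449))) (XT.nd (nat_lit 78) (nat_lit 152) (nat_lit 0) (XT.lf (nat_lit 0) (nat_lit 3172603609) (nat_lit 304) (nat_lit 8158816410) (nat_lit 76) (nat_lit 1586368742) (nat_lit 59) (nat_lit 5) (nat_lit 63) (nat_lit 5) (nat_lit 60) (nat_lit 4) (nat_lit 632) (nat_lit 480) (nat_lit 448)) (XT.lf (nat_lit 0) (nat_lit 2714686571) (nat_lit 152) (nat_lit 6000701213) (nat_lit 228) (nat_lit 4338948881) (nat_lit 57) (nat_lit 5) (nat_lit 59) (nat_lit 5) (nat_lit 60) (nat_lit 4) (nat_lit 633) (nat_lit 480) (nat_lit 447))))))))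
noncomputable def xc11 : XT := (XT.nd (nat_lit 79404) (nat_lit 0) (nat_lit 1292) (XT.nd (nat_lit 1170) (nat_lit 304) (nat_lit 0) (XT.nd (nat_lit 546) (nat_lit 988) (nat_lit 0) (XT.nd (nat_lit 234) (nat_lit 760) (nat_lit 0) (XT.nd (nat_lit 78) (nat_lit 152) (nat_lit 0) (XT.lf (nat_lit 0) (nat_lit 610969868) (nat_lit 228) (nat_lit 545940678) (nat_lit 304) (nat_lit 12036614560) (nat_lit 53) (nat_lit 5) (nat_lit 56) (nat_lit 5) (nat_lit 57) (nat_lit 5) (nat_lit 634) (nat_lit 480) (nat_lit 446)) (XT.nd (nat_lit 78) (nat_lit 152) (nat_lit 0) (XT.lf (nat_lit 0) (nat_lit 6745065854) (nat_lit 304) (nat_lit 1588072518) (nat_lit 76) (nat_lit 5000976274) (nat_lit 53) (nat_lit 5) (nat_lit 57) (nat_lit 5) (nat_lit 54) (nat_lit 4) (nat_lit 635) (nat_lit 480) (nat_lit 445)) (XT.lf (nat_lit 0) (nat_lit 9638359937) (nat_lit 152) (nat_lit 2812033438) (nat_lit 228) (nat_lit 1027014893) (nat_lit 51) (nat_lit 5) (nat_lit 53) (nat_lit 5) (nat_lit 54) (nat_lit 4) (nat_lit 636)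 (nat_lit 480) (nat_lit 444)))) (XT.nd (nat_lit 156) (nat_lit 380) (nat_lit 0) (XT.nd (nat_lit 78) (nat_lit 152) (nat_lit 0) (XT.lf (nat_lit 0) (nat_lit 4602246781) (nat_lit 228) (nat_lit 6197495057) (nat_lit 76) (nat_lit 2822884575) (nat_lit 48) (nat_lit 5) (nat_lit 51) (nat_lit 5) (nat_lit 49) (nat_lit 4) (nat_lit 637) (nat_lit 480) (nat_lit 443)) (XT.lf (nat_lit 0) (nat_lit 5127083780) (nat_lit 152) (nat_lit 5220559558) (nat_lit 228) (nat_lit 3422624231) (nat_lit 46) (nat_lit 5) (nat_lit 48) (nat_lit 5) (nat_lit 49) (nat_lit 4) (nat_lit 638) (nat_lit 480) (nat_lit 442))) (XT.nd (nat_lit 78) (nat_lit 152) (nat_lit 0) (XT.lf (nat_lit 0) (nat_lit 2259559407) (nat_lit 228) (nat_lit 11171734871) (nat_lit 76) (nat_lit 489221340) (nat_lit 43) (nat_lit 5) (nat_lit 46) (nat_lit 5) (nat_lit 44) (nat_lit 4) (nat_lit 639) (nat_lit 480) (nat_lit 441)) (XT.lf (nat_lit 0) (nat_lit 247577763) (nat_lit 152) (nat_lit 7796249155) (nat_lit 228) (nat_lit 6028804280) (nat_lit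 41) (nat_lit 5) (nat_lit 43) (nat_lit 5) (nat_lit 44) (nat_lit 4) (nat_lit 640) (nat_lit 480) (nat_lit 440))))) (XT.nd (nat_lit 312) (nat_lit 380) (nat_lit 0) (XT.nd (nat_lit 156) (nat_lit 380) (nat_lit 0) (XT.nd (nat_lit 78) (nat_lit 228) (nat_lit 0) (XT.lf (nat_lit 0) (nat_lit 11936261804) (nat_lit 152) (nat_lit 2022613384) (nat_lit 228) (nat_lit 268612402) (nat_lit 41) (nat_lit 5) (nat_lit 43) (nat_lit 5) (nat_lit 44) (nat_lit 4) (nat_lit 641) (nat_lit 480) (nat_lit 439)) (XT.lf (nat_lit 0) (nat_lit 5560955325) (nat_lit 228) (nat_lit 4958328206) (nat_lit 76) (nat_lit 3864875800) (nat_lit 38) (nat_lit 5) (nat_lit 41) (nat_lit 5) (nat_lit 39) (nat_lit 4) (nat_lit 642) (nat_lit 480) (nat_lit 438))) (XT.nd (nat_lit 78) (nat_lit 228) (nat_lit 0) (XT.lf (nat_lit 0) (nat_lit 6829724651) (nat_lit 152) (nat_lit 4688055752) (nat_lit 228) (nat_lit 3025863726) (nat_lit 36) (nat_lit 5) (nat_lit 38) (nat_lit 5) (nat_lit 39) (nat_lit 4) (nat_lit 643) (nat_lit 480)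 (nat_lit 437)) (XT.lf (nat_lit 0) (nat_lit 2859419380) (nat_lit 228) (nat_lit 10573116834) (nat_lit 76) (nat_lit 1273210540) (nat_lit 33) (nat_lit 5) (nat_lit 36) (nat_lit 5) (nat_lit 34) (nat_lit 4) (nat_lit 644) (nat_lit 480) (nat_lit 436)))) (XT.nd (nat_lit 156) (nat_lit 304) (nat_lit 0) (XT.nd (nat_lit 78) (nat_lit 0) (nat_lit 0) (XT.lf (nat_lit 0) (nat_lit 1306937888) (nat_lit 76) (nat_lit 7547864090) (nat_lit 152) (nat_lit 6015231598) (nat_lit 32) (nat_lit 5) (nat_lit 33) (nat_lit 5) (nat_lit 34) (nat_lit 4) (nat_lit 645) (nat_lit 480) (nat_lit 435)) (XT.lf (nat_lit 0) (nat_lit 13459241937) (nat_lit 76) (nat_lit 1523480957) (nat_lit 152) (nat_lit 54630986) (nat_lit 32) (nat_lit 5) (nat_lit 33) (nat_lit 5) (nat_lit 34) (nat_lit 4) (nat_lit 646) (nat_lit 480) (nat_lit 434))) (XT.nd (nat_lit 78) (nat_lit 76) (nat_lit 0) (XT.lf (nat_lit 0) (nat_lit 5988082877) (nat_lit 228) (nat_lit 4597720876) (nat_lit 76) (nat_lit 4620596343) (nat_lit 29) (nat_lit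 5) (nat_lit 32) (nat_lit 5) (nat_lit 30) (nat_lit 4) (nat_lit 647) (nat_lit 480) (nat_lit 433)) (XT.lf (nat_lit 0) (nat_lit 7664560350) (nat_lit 76) (nat_lit 4499431797) (nat_lit 152) (nat_lit 3214566750) (nat_lit 28) (nat_lit 5) (nat_lit 29) (nat_lit 5) (nat_lit 30) (nat_lit 4) (nat_lit 648) (nat_lit 480) (nat_lit 432)))))) (XT.nd (nat_lit 77610) (nat_lit 0) (nat_lit 7980) (XT.nd (nat_lit 77298) (nat_lit 0) (nat_lit 10564) (XT.nd (nat_lit 156) (nat_lit 0) (nat_lit 0) (XT.nd (nat_lit 78) (nat_lit 76) (nat_lit 0) (XT.lf (nat_lit 0) (nat_lit 2886035678) (nat_lit 228) (nat_lit 10950190018) (nat_lit 76) (nat_lit 1717259081) (nat_lit 25) (nat_lit 5) (nat_lit 28) (nat_lit 5) (nat_lit 26) (nat_lit 4) (nat_lit 649) (nat_lit 480) (nat_lit 431)) (XT.lf (nat_lit 0) (nat_lit 1399969219) (nat_lit 76) (nat_lit 7699396258) (nat_lit 152) (nat_lit 6631443882) (nat_lit 24) (nat_lit 5) (nat_lit 25) (nat_lit 5) (nat_lit 26) (nat_lit 4) (nat_lit 650) (nat_lit 480) (nat_lit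 430))) (XT.nd (nat_lit 77064) (nat_lit 0) (nat_lit 12236) (XT.lf (nat_lit 0) (nat_lit 14038684096) (nat_lit 76) (nat_lit 1414911692) (nat_lit 152) (nat_lit 457752281) (nat_lit 24) (nat_lit 5) (nat_lit 25) (nat_lit 5) (nat_lit 26) (nat_lit 4) (nat_lit 651) (nat_lit 480) (nat_lit 429)) (XT.lf (nat_lit 0) (nat_lit 2326648730) (nat_lit 380) (nat_lit 1180872511) (nat_lit 380) (nat_lit 1180872511) (nat_lit 185) (nat_lit 4) (nat_lit 190) (nat_lit 5) (nat_lit 190) (nat_lit 4) (nat_lit 598) (nat_lit 481) (nat_lit 481)))) (XT.nd (nat_lit 156) (nat_lit 836) (nat_lit 0) (XT.nd (nat_lit 78) (nat_lit 380) (nat_lit 0) (XT.lf (nat_lit 0) (nat_lit 2281493985) (nat_lit 456) (nat_lit 5710700936) (nat_lit 0) (nat_lit 1462455269) (nat_lit 179) (nat_lit 5) (nat_lit 185) (nat_lit 4) (nat_lit 179) (nat_lit 4) (nat_lit 599) (nat_lit 481) (nat_lit 480)) (XT.lf (nat_lit 0) (nat_lit 2803189006) (nat_lit 380) (nat_lit 4176358292) (nat_lit 380) (nat_lit 2554340443) (nat_lit 174) (nat_lit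 4) (nat_lit 179) (nat_lit 5) (nat_lit 179) (nat_lit 4) (nat_lit 600) (nat_lit 481) (nat_lit 479))) (XT.nd (nat_lit 78) (nat_lit 380) (nat_lit 0) (XT.lf (nat_lit 0) (nat_lit 1847166411) (nat_lit 380) (nat_lit 259971561) (nat_lit 456) (nat_lit 7507721773) (nat_lit 168) (nat_lit 5) (nat_lit 173) (nat_lit 5) (nat_lit 174) (nat_lit 4) (nat_lit 601) (nat_lit 481) (nat_lit 478)) (XT.lf (nat_lit 0) (nat_lit 846885374) (nat_lit 380) (nat_lit 5984416703) (nat_lit 380) (nat_lit 2865739479) (nat_lit 163) (nat_lit 4) (nat_lit 168) (nat_lit 5) (nat_lit 168) (nat_lit 4) (nat_lit 602) (nat_lit 481) (nat_lit 477))))) (XT.nd (nat_lit 312) (nat_lit 1444) (nat_lit 0) (XT.nd (nat_lit 156) (nat_lit 760) (nat_lit 0) (XT.nd (nat_lit 78) (nat_lit 304) (nat_lit 0) (XT.lf (nat_lit 0) (nat_lit 1827372717) (nat_lit 456) (nat_lit 169212933) (nat_lit 76) (nat_lit 7784383753) (nat_lit 162) (nat_lit 5) (nat_lit 168) (nat_lit 5) (nat_lit 163) (nat_lit 4) (nat_lit 603) (nat_lit 481) (nat_lit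 476)) (XT.lf (nat_lit 0) (nat_lit 6575972749) (nat_lit 380) (nat_lit 1212084780) (nat_lit 0) (nat_lit 2078140627) (nat_lit 158) (nat_lit 5) (nat_lit 163) (nat_lit 4) (nat_lit 158) (nat_lit 4) (nat_lit 604) (nat_lit 481) (nat_lit 475))) (XT.nd (nat_lit 78) (nat_lit 304) (nat_lit 0) (XT.lf (nat_lit 0) (nat_lit 1441750528) (nat_lit 456) (nat_lit 2284537711) (nat_lit 76) (nat_lit 6226762546) (nat_lit 152) (nat_lit 5) (nat_lit 158) (nat_lit 5) (nat_lit 153) (nat_lit 4) (nat_lit 605) (nat_lit 481) (nat_lit 474)) (XT.lf (nat_lit 0) (nat_lit 6209225876) (nat_lit 380) (nat_lit 3389927829) (nat_lit 0) (nat_lit 442354564) (nat_lit 148) (nat_lit 5) (nat_lit 153) (nat_lit 4) (nat_lit 148) (nat_lit 4) (nat_lit 606) (nat_lit 481) (nat_lit 473)))) (XT.nd (nat_lit 156) (nat_lit 684) (nat_lit 0) (XT.nd (nat_lit 78) (nat_lit 304) (nat_lit 0) (XT.lf (nat_lit 0) (nat_lit 935438234) (nat_lit 456) (nat_lit 4536008644) (nat_lit 76) (nat_lit 4660017871) (nat_lit 142) (nat_lit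 5) (nat_lit 148) (nat_lit 5) (nat_lit 143) (nat_lit 4) (nat_lit 607) (nat_lit 481) (nat_lit 472)) (XT.lf (nat_lit 0) (nat_lit 4504187503) (nat_lit 304) (nat_lit 1226301516) (nat_lit 380) (nat_lit 4492559938) (nat_lit 138) (nat_lit 5) (nat_lit 142) (nat_lit 5) (nat_lit 143) (nat_lit 4) (nat_lit 608) (nat_lit 481) (nat_lit 471))) (XT.nd (nat_lit 78) (nat_lit 304) (nat_lit 0) (XT.lf (nat_lit 0) (nat_lit 305183714) (nat_lit 380) (nat_lit 6937003292) (nat_lit 76) (nat_lit 3074155077) (nat_lit 133) (nat_lit 5) (nat_lit 138) (nat_lit 5) (nat_lit 134) (nat_lit 4) (nat_lit 609) (nat_lit 481) (nat_lit 470)) (XT.lf (nat_lit 0) (nat_lit 2203472020) (nat_lit 304) (nat_lit 2927965725) (nat_lit 380) (nat_lit 5279616159) (nat_lit 129) (nat_lit 5) (nat_lit 133) (nat_lit 5) (nat_lit 134) (nat_lit 4) (nat_lit 610) (nat_lit 481) (nat_lit 469))))))) (XT.nd (nat_lit 1170) (nat_lit 2812) (nat_lit 0) (XT.nd (nat_lit 546) (nat_lit 1976) (nat_lit 0) (XT.nd (nat_lit 234) (nat_lit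 1216) (nat_lit 0) (XT.nd (nat_lit 78) (nat_lit 380) (nat_lit 0) (XT.lf (nat_lit 0) (nat_lit 1003445423) (nat_lit 304) (nat_lit 9045618852) (nat_lit 304) (nat_lit 458699685) (nat_lit 125) (nat_lit 4) (nat_lit 129) (nat_lit 5) (nat_lit 129) (nat_lit 4) (nat_lit 611) (nat_lit 481) (nat_lit 468)) (XT.nd (nat_lit 78) (nat_lit 304) (nat_lit 0) (XT.lf (nat_lit 0) (nat_lit 4407056717) (nat_lit 380) (nat_lit 258122233) (nat_lit 76) (nat_lit 5940513265) (nat_lit 124) (nat_lit 5) (nat_lit 129) (nat_lit 5) (nat_lit 125) (nat_lit 4) (nat_lit 612) (nat_lit 481) (nat_lit 467)) (XT.lf (nat_lit 0) (nat_lit 9178513500) (nat_lit 304) (nat_lit 178468514) (nat_lit 380) (nat_lit 1348677356) (nat_lit 120) (nat_lit 5) (nat_lit 124) (nat_lit 5) (nat_lit 125) (nat_lit 4) (nat_lit 613) (nat_lit 481) (nat_lit 466)))) (XT.nd (nat_lit 156) (nat_lit 608) (nat_lit 0) (XT.nd (nat_lit 78) (nat_lit 228) (nat_lit 0) (XT.lf (nat_lit 0) (nat_lit 3566882810) (nat_lit 380) (nat_lit 2867229808)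 (nat_lit 76) (nat_lit 4372730964) (nat_lit 115) (nat_lit 5) (nat_lit 120) (nat_lit 5) (nat_lit 116) (nat_lit 4) (nat_lit 614) (nat_lit 481) (nat_lit 465)) (XT.lf (nat_lit 0) (nat_lit 6671620926) (nat_lit 228) (nat_lit 1879735620) (nat_lit 304) (nat_lit 2358744254) (nat_lit 112) (nat_lit 5) (nat_lit 115) (nat_lit 5) (nat_lit 116) (nat_lit 4) (nat_lit 615) (nat_lit 481) (nat_lit 464))) (XT.nd (nat_lit 78) (nat_lit 228) (nat_lit 0) (XT.lf (nat_lit 0) (nat_lit 2592036309) (nat_lit 380) (nat_lit 5667535231) (nat_lit 76) (nat_lit 2755386150) (nat_lit 107) (nat_lit 5) (nat_lit 112) (nat_lit 5) (nat_lit 108) (nat_lit 4) (nat_lit 616) (nat_lit 481) (nat_lit 463)) (XT.lf (nat_lit 0) (nat_lit 3972323129) (nat_lit 228) (nat_lit 3639063547) (nat_lit 304) (nat_lit 3510191252) (nat_lit 104) (nat_lit 5) (nat_lit 107) (nat_lit 5) (nat_lit 108) (nat_lit 4) (nat_lit 617) (nat_lit 481) (nat_lit 462))))) (XT.nd (nat_lit 312) (nat_lit 1064) (nat_lit 0) (XT.nd (nat_lit 156)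 (nat_lit 304) (nat_lit 0) (XT.nd (nat_lit 78) (nat_lit 228) (nat_lit 0) (XT.lf (nat_lit 0) (nat_lit 1477497633) (nat_lit 380) (nat_lit 8674394513) (nat_lit 76) (nat_lit 1078316559) (nat_lit 99) (nat_lit 5) (nat_lit 104) (nat_lit 5) (nat_lit 100) (nat_lit 4) (nat_lit 618) (nat_lit 481) (nat_lit 461)) (XT.lf (nat_lit 0) (nat_lit 1065089824) (nat_lit 228) (nat_lit 5466823321) (nat_lit 304) (nat_lit 4808356166) (nat_lit 96) (nat_lit 5) (nat_lit 99) (nat_lit 5) (nat_lit 100) (nat_lit 4) (nat_lit 619) (nat_lit 481) (nat_lit 460))) (XT.nd (nat_lit 78) (nat_lit 228) (nat_lit 0) (XT.lf (nat_lit 0) (nat_lit 225145553) (nat_lit 304) (nat_lit 449511289) (nat_lit 76) (nat_lit 10777977699) (nat_lit 95) (nat_lit 5) (nat_lit 99) (nat_lit 5) (nat_lit 96) (nat_lit 5) (nat_lit 620) (nat_lit 481) (nat_lit 459)) (XT.lf (nat_lit 0) (nat_lit 5320729283) (nat_lit 304) (nat_lit 2039139536) (nat_lit 76) (nat_lit 4206227380) (nat_lit 92) (nat_lit 5) (nat_lit 96) (nat_lit 5) (nat_lit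 93) (nat_lit 4) (nat_lit 621) (nat_lit 481) (nat_lit 458)))) (XT.nd (nat_lit 156) (nat_lit 532) (nat_lit 0) (XT.nd (nat_lit 78) (nat_lit 304) (nat_lit 0) (XT.lf (nat_lit 0) (nat_lit 8016735771) (nat_lit 228) (nat_lit 2497302683) (nat_lit 304) (nat_lit 1167873050) (nat_lit 89) (nat_lit 5) (nat_lit 92) (nat_lit 5) (nat_lit 93) (nat_lit 4) (nat_lit 622) (nat_lit 481) (nat_lit 457)) (XT.lf (nat_lit 0) (nat_lit 3966799644) (nat_lit 304) (nat_lit 5367171952) (nat_lit 76) (nat_lit 2465386597) (nat_lit 85) (nat_lit 5) (nat_lit 89) (nat_lit 5) (nat_lit 86) (nat_lit 4) (nat_lit 623) (nat_lit 481) (nat_lit 456))) (XT.nd (nat_lit 78) (nat_lit 304) (nat_lit 0) (XT.lf (nat_lit 0) (nat_lit 4789359322) (nat_lit 228) (nat_lit 4408169652) (nat_lit 304) (nat_lit 2721291078) (nat_lit 82) (nat_lit 5) (nat_lit 85) (nat_lit 5) (nat_lit 86) (nat_lit 4) (nat_lit 624) (nat_lit 481) (nat_lit 455)) (XT.lf (nat_lit 0) (nat_lit 2456729464) (nat_lit 304) (nat_lit 8950309372) (nat_lit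 76) (nat_lit 633365052) (nat_lit 78) (nat_lit 5) (nat_lit 82) (nat_lit 5) (nat_lit 79) (nat_lit 4) (nat_lit 625) (nat_lit 481) (nat_lit 454)))))) (XT.nd (nat_lit 624) (nat_lit 1216) (nat_lit 0) (XT.nd (nat_lit 312) (nat_lit 912) (nat_lit 0) (XT.nd (nat_lit 156) (nat_lit 380) (nat_lit 0) (XT.nd (nat_lit 78) (nat_lit 76) (nat_lit 0) (XT.lf (nat_lit 0) (nat_lit 1304951260) (nat_lit 228) (nat_lit 6419689679) (nat_lit 304) (nat_lit 4438963945) (nat_lit 75) (nat_lit 5) (nat_lit 78) (nat_lit 5) (nat_lit 79) (nat_lit 4) (nat_lit 626) (nat_lit 481) (nat_lit 453)) (XT.lf (nat_lit 0) (nat_lit 795504445) (nat_lit 304) (nat_lit 519029221) (nat_lit 76) (nat_lit 10974682438) (nat_lit 74) (nat_lit 5) (nat_lit 78) (nat_lit 5) (nat_lit 75) (nat_lit 5) (nat_lit 627) (nat_lit 481) (nat_lit 452))) (XT.nd (nat_lit 78) (nat_lit 152) (nat_lit 0) (XT.lf (nat_lit 0) (nat_lit 6104167410) (nat_lit 304) (nat_lit 2422632520) (nat_lit 76) (nat_lit 3889374505) (nat_lit 71) (nat_lit 5)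 (nat_lit 75) (nat_lit 5) (nat_lit 72) (nat_lit 4) (nat_lit 628) (nat_lit 481) (nat_lit 451)) (XT.lf (nat_lit 0) (nat_lit 8166219067) (nat_lit 152) (nat_lit 3356454542) (nat_lit 228) (nat_lit 1022925492) (nat_lit 69) (nat_lit 5) (nat_lit 71) (nat_lit 5) (nat_lit 72) (nat_lit 4) (nat_lit 629) (nat_lit 481) (nat_lit 450)))) (XT.nd (nat_lit 156) (nat_lit 456) (nat_lit 0) (XT.nd (nat_lit 78) (nat_lit 152) (nat_lit 0) (XT.lf (nat_lit 0) (nat_lit 4322876675) (nat_lit 304) (nat_lit 6423790836) (nat_lit 76) (nat_lit 1930212027) (nat_lit 65) (nat_lit 5) (nat_lit 69) (nat_lit 5) (nat_lit 66) (nat_lit 4) (nat_lit 630) (nat_lit 481) (nat_lit 449)) (XT.lf (nat_lit 0) (nat_lit 4263869167) (nat_lit 152) (nat_lit 5516248629) (nat_lit 228) (nat_lit 3030168693) (nat_lit 63) (nat_lit 5) (nat_lit 65) (nat_lit 5) (nat_lit 66) (nat_lit 4) (nat_lit 631) (nat_lit 481) (nat_lit 448))) (XT.nd (nat_lit 78) (nat_lit 152) (nat_lit 0) (XT.lf (nat_lit 0) (nat_lit 2209653935) (nat_lit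 228) (nat_lit 155549040) (nat_lit 304) (nat_lit 10580916670) (nat_lit 59) (nat_lit 5) (nat_lit 62) (nat_lit 5) (nat_lit 63) (nat_lit 5) (nat_lit 632) (nat_lit 481) (nat_lit 447)) (XT.lf (nat_lit 0) (nat_lit 48381094) (nat_lit 152) (nat_lit 7811072421) (nat_lit 228) (nat_lit 5224184955) (nat_lit 57) (nat_lit 5) (nat_lit 59) (nat_lit 5) (nat_lit 60) (nat_lit 4) (nat_lit 633) (nat_lit 481) (nat_lit 446))))) (XT.nd (nat_lit 312) (nat_lit 532) (nat_lit 0) (XT.nd (nat_lit 156) (nat_lit 380) (nat_lit 0) (XT.nd (nat_lit 78) (nat_lit 228) (nat_lit 0) (XT.lf (nat_lit 0) (nat_lit 249146266) (nat_lit 228) (nat_lit 2141641234) (nat_lit 76) (nat_lit 10832837365) (nat_lit 56) (nat_lit 5) (nat_lit 59) (nat_lit 5) (nat_lit 57) (nat_lit 5) (nat_lit 634) (nat_lit 481) (nat_lit 445)) (XT.lf (nat_lit 0) (nat_lit 5781048956) (nat_lit 304) (nat_lit 4442273618) (nat_lit 76) (nat_lit 3142017118) (nat_lit 53) (nat_lit 5) (nat_lit 57) (nat_lit 5) (nat_lit 54) (nat_lit 4) (nat_lit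 635) (nat_lit 481) (nat_lit 444))) (XT.nd (nat_lit 78) (nat_lit 228) (nat_lit 0) (XT.lf (nat_lit 0) (nat_lit 6691770216) (nat_lit 152) (nat_lit 4745973483) (nat_lit 228) (nat_lit 2071862501) (nat_lit 51) (nat_lit 5) (nat_lit 53) (nat_lit 5) (nat_lit 54) (nat_lit 4) (nat_lit 636) (nat_lit 481) (nat_lit 443)) (XT.lf (nat_lit 0) (nat_lit 3508841180) (nat_lit 228) (nat_lit 9283921903) (nat_lit 76) (nat_lit 863442388) (nat_lit 48) (nat_lit 5) (nat_lit 51) (nat_lit 5) (nat_lit 49) (nat_lit 4) (nat_lit 637) (nat_lit 481) (nat_lit 442)))) (XT.nd (nat_lit 156) (nat_lit 304) (nat_lit 0) (XT.nd (nat_lit 78) (nat_lit 76) (nat_lit 0) (XT.lf (nat_lit 0) (nat_lit 1945068503) (nat_lit 152) (nat_lit 7259119417) (nat_lit 228) (nat_lit 4600659920) (nat_lit 46) (nat_lit 5) (nat_lit 48) (nat_lit 5) (nat_lit 49) (nat_lit 4) (nat_lit 638) (nat_lit 481) (nat_lit 441)) (XT.lf (nat_lit 0) (nat_lit 1046532600) (nat_lit 228) (nat_lit 546868815) (nat_lit 76) (nat_lit 12362856481)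 (nat_lit 45) (nat_lit 5) (nat_lit 48) (nat_lit 5) (nat_lit 46) (nat_lit 5) (nat_lit 639) (nat_lit 481) (nat_lit 440))) (XT.nd (nat_lit 78) (nat_lit 152) (nat_lit 0) (XT.lf (nat_lit 0) (nat_lit 6785940609) (nat_lit 228) (nat_lit 3137992835) (nat_lit 76) (nat_lit 4185337424) (nat_lit 43) (nat_lit 5) (nat_lit 46) (nat_lit 5) (nat_lit 44) (nat_lit 4) (nat_lit 640) (nat_lit 481) (nat_lit 439)) (XT.lf (nat_lit 0) (nat_lit 8455382520) (nat_lit 152) (nat_lit 4195902842) (nat_lit 228) (nat_lit 1613836171) (nat_lit 41) (nat_lit 5) (nat_lit 43) (nat_lit 5) (nat_lit 44) (nat_lit 4) (nat_lit 641) (nat_lit 481) (nat_lit 438))))))))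
noncomputable def xc12 : XT := (XT.nd (nat_lit 79326) (nat_lit 0) (nat_lit 304) (XT.nd (nat_lit 78078) (nat_lit 0) (nat_lit 6004) (XT.nd (nat_lit 546) (nat_lit 228) (nat_lit 0) (XT.nd (nat_lit 234) (nat_lit 380) (nat_lit 0) (XT.nd (nat_lit 78) (nat_lit 380) (nat_lit 0) (XT.lf (nat_lit 0) (nat_lit 4166776573) (nat_lit 228) (nat_lit 8592760722) (nat_lit 76) (nat_lit 1663762808) (nat_lit 38) (nat_lit 5) (nat_lit 41) (nat_lit 5) (nat_lit 39) (nat_lit 4) (nat_lit 642) (nat_lit 481) (nat_lit 437)) (XT.nd (nat_lit 78) (nat_lit 228) (nat_lit 0) (XT.lf (nat_lit 0) (nat_lit 3093287085) (nat_lit 152) (nat_lit 6977441421) (nat_lit 228) (nat_lit 4513114047) (nat_lit 36) (nat_lit 5) (nat_lit 38) (nat_lit 5) (nat_lit 39) (nat_lit 4) (nat_lit 643) (nat_lit 481) (nat_lit 436)) (XT.lf (nat_lit 0) (nat_lit 270395770) (nat_lit 152) (nat_lit 1059188061) (nat_lit 228) (nat_lit 13417796469) (nat_lit 33) (nat_lit 5) (nat_lit 35) (nat_lit 5) (nat_lit 36) (nat_lit 5) (nat_lit 644)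 (nat_lit 481) (nat_lit 435)))) (XT.nd (nat_lit 156) (nat_lit 304) (nat_lit 0) (XT.nd (nat_lit 78) (nat_lit 76) (nat_lit 0) (XT.lf (nat_lit 0) (nat_lit 7281081726) (nat_lit 228) (nat_lit 2660286592) (nat_lit 76) (nat_lit 4971176676) (nat_lit 33) (nat_lit 5) (nat_lit 36) (nat_lit 5) (nat_lit 34) (nat_lit 4) (nat_lit 645) (nat_lit 481) (nat_lit 434)) (XT.lf (nat_lit 0) (nat_lit 9403919931) (nat_lit 76) (nat_lit 3959275391) (nat_lit 152) (nat_lit 1717586296) (nat_lit 32) (nat_lit 5) (nat_lit 33) (nat_lit 5) (nat_lit 34) (nat_lit 4) (nat_lit 646) (nat_lit 481) (nat_lit 433))) (XT.nd (nat_lit 78) (nat_lit 76) (nat_lit 0) (XT.lf (nat_lit 0) (nat_lit 4275542641) (nat_lit 228) (nat_lit 8821297229) (nat_lit 76) (nat_lit 2154631969) (nat_lit 29) (nat_lit 5) (nat_lit 32) (nat_lit 5) (nat_lit 30) (nat_lit 4) (nat_lit 647) (nat_lit 481) (nat_lit 432)) (XT.lf (nat_lit 0) (nat_lit 3332025040) (nat_lit 76) (nat_lit 7063418696) (nat_lit 152) (nat_lit 5029307233) (nat_lit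 28) (nat_lit 5) (nat_lit 29) (nat_lit 5) (nat_lit 30) (nat_lit 4) (nat_lit 648) (nat_lit 481) (nat_lit 431))))) (XT.nd (nat_lit 77220) (nat_lit 0) (nat_lit 10868) (XT.nd (nat_lit 77064) (nat_lit 0) (nat_lit 12540) (XT.nd (nat_lit 78) (nat_lit 0) (nat_lit 0) (XT.lf (nat_lit 0) (nat_lit 136981694) (nat_lit 152) (nat_lit 889891786) (nat_lit 228) (nat_lit 14574403623) (nat_lit 25) (nat_lit 5) (nat_lit 27) (nat_lit 5) (nat_lit 28) (nat_lit 5) (nat_lit 649) (nat_lit 481) (nat_lit 430)) (XT.lf (nat_lit 0) (nat_lit 7197537129) (nat_lit 228) (nat_lit 3178936331) (nat_lit 76) (nat_lit 5402981703) (nat_lit 25) (nat_lit 5) (nat_lit 28) (nat_lit 5) (nat_lit 26) (nat_lit 4) (nat_lit 650) (nat_lit 481) (nat_lit 429))) (XT.nd (nat_lit 78) (nat_lit 456) (nat_lit 0) (XT.lf (nat_lit 0) (nat_lit 3231749390) (nat_lit 456) (nat_lit 690358795) (nat_lit 456) (nat_lit 690358795) (nat_lit 196) (nat_lit 4) (nat_lit 202) (nat_lit 5) (nat_lit 202) (nat_lit 4) (nat_lit 596) (nat_lit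 482) (nat_lit 482)) (XT.lf (nat_lit 0) (nat_lit 3195727165) (nat_lit 456) (nat_lit 3761089954) (nat_lit 0) (nat_lit 2343599285) (nat_lit 190) (nat_lit 5) (nat_lit 196) (nat_lit 4) (nat_lit 190) (nat_lit 4) (nat_lit 597) (nat_lit 482) (nat_lit 481)))) (XT.nd (nat_lit 156) (nat_lit 836) (nat_lit 0) (XT.nd (nat_lit 78) (nat_lit 456) (nat_lit 0) (XT.lf (nat_lit 0) (nat_lit 4597846274) (nat_lit 380) (nat_lit 3233601858) (nat_lit 380) (nat_lit 1546054488) (nat_lit 185) (nat_lit 4) (nat_lit 190) (nat_lit 5) (nat_lit 190) (nat_lit 4) (nat_lit 598) (nat_lit 482) (nat_lit 480)) (XT.lf (nat_lit 0) (nat_lit 3044709330) (nat_lit 456) (nat_lit 5824114254) (nat_lit 0) (nat_lit 587271990) (nat_lit 179) (nat_lit 5) (nat_lit 185) (nat_lit 4) (nat_lit 179) (nat_lit 4) (nat_lit 599) (nat_lit 482) (nat_lit 479))) (XT.nd (nat_lit 78) (nat_lit 456) (nat_lit 0) (XT.lf (nat_lit 0) (nat_lit 2632492653) (nat_lit 380) (nat_lit 5074117965) (nat_lit 380) (nat_lit 1829446181) (nat_lit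 174) (nat_lit 4) (nat_lit 179) (nat_lit 5) (nat_lit 179) (nat_lit 4) (nat_lit 600) (nat_lit 482) (nat_lit 478)) (XT.lf (nat_lit 0) (nat_lit 1611354636) (nat_lit 380) (nat_lit 1174697292) (nat_lit 456) (nat_lit 6831612815) (nat_lit 168) (nat_lit 5) (nat_lit 173) (nat_lit 5) (nat_lit 174) (nat_lit 4) (nat_lit 601) (nat_lit 482) (nat_lit 477)))))) (XT.nd (nat_lit 624) (nat_lit 2204) (nat_lit 0) (XT.nd (nat_lit 312) (nat_lit 1444) (nat_lit 0) (XT.nd (nat_lit 156) (nat_lit 760) (nat_lit 0) (XT.nd (nat_lit 78) (nat_lit 76) (nat_lit 0) (XT.lf (nat_lit 0) (nat_lit 555033692) (nat_lit 380) (nat_lit 6912604774) (nat_lit 380) (nat_lit 2233060234) (nat_lit 163) (nat_lit 4) (nat_lit 168) (nat_lit 5) (nat_lit 168) (nat_lit 4) (nat_lit 602) (nat_lit 482) (nat_lit 476)) (XT.lf (nat_lit 0) (nat_lit 2417106343) (nat_lit 456) (nat_lit 524272666) (nat_lit 76) (nat_lit 6843858913) (nat_lit 162) (nat_lit 5) (nat_lit 168) (nat_lit 5) (nat_lit 163) (nat_lit 4) (nat_lit 603) (nat_lit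 482) (nat_lit 475))) (XT.nd (nat_lit 78) (nat_lit 456) (nat_lit 0) (XT.lf (nat_lit 0) (nat_lit 7122759872) (nat_lit 380) (nat_lit 1625659335) (nat_lit 0) (nat_lit 1122906959) (nat_lit 158) (nat_lit 5) (nat_lit 163) (nat_lit 4) (nat_lit 158) (nat_lit 4) (nat_lit 604) (nat_lit 482) (nat_lit 474)) (XT.lf (nat_lit 0) (nat_lit 1939196118) (nat_lit 456) (nat_lit 2768011711) (nat_lit 76) (nat_lit 5251643360) (nat_lit 152) (nat_lit 5) (nat_lit 158) (nat_lit 5) (nat_lit 153) (nat_lit 4) (nat_lit 605) (nat_lit 482) (nat_lit 473)))) (XT.nd (nat_lit 156) (nat_lit 684) (nat_lit 0) (XT.nd (nat_lit 78) (nat_lit 456) (nat_lit 0) (XT.lf (nat_lit 0) (nat_lit 6109294311) (nat_lit 304) (nat_lit 557230045) (nat_lit 380) (nat_lit 3381587788) (nat_lit 148) (nat_lit 5) (nat_lit 152) (nat_lit 5) (nat_lit 153) (nat_lit 4) (nat_lit 606) (nat_lit 482) (nat_lit 472)) (XT.lf (nat_lit 0) (nat_lit 1338859560) (nat_lit 456) (nat_lit 5154138448) (nat_lit 76) (nat_lit 3645839846) (nat_lit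 142) (nat_lit 5) (nat_lit 148) (nat_lit 5) (nat_lit 143) (nat_lit 4) (nat_lit 607) (nat_lit 482) (nat_lit 471))) (XT.nd (nat_lit 78) (nat_lit 380) (nat_lit 0) (XT.lf (nat_lit 0) (nat_lit 3822226544) (nat_lit 304) (nat_lit 2273815471) (nat_lit 380) (nat_lit 4135137912) (nat_lit 138) (nat_lit 5) (nat_lit 142) (nat_lit 5) (nat_lit 143) (nat_lit 4) (nat_lit 608) (nat_lit 482) (nat_lit 470)) (XT.lf (nat_lit 0) (nat_lit 612683581) (nat_lit 380) (nat_lit 7696209866) (nat_lit 76) (nat_lit 2016438363) (nat_lit 133) (nat_lit 5) (nat_lit 138) (nat_lit 5) (nat_lit 134) (nat_lit 4) (nat_lit 609) (nat_lit 482) (nat_lit 469))))) (XT.nd (nat_lit 312) (nat_lit 1216) (nat_lit 0) (XT.nd (nat_lit 156) (nat_lit 380) (nat_lit 0) (XT.nd (nat_lit 78) (nat_lit 304) (nat_lit 0) (XT.lf (nat_lit 0) (nat_lit 1378313425) (nat_lit 304) (nat_lit 4022067490) (nat_lit 380) (nat_lit 5020434319) (nat_lit 129) (nat_lit 5) (nat_lit 133) (nat_lit 5) (nat_lit 134) (nat_lit 4) (nat_lit 610) (nat_lit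 482) (nat_lit 468)) (XT.lf (nat_lit 0) (nat_lit 108609391) (nat_lit 304) (nat_lit 10163438760) (nat_lit 304) (nat_lit 246396786) (nat_lit 125) (nat_lit 4) (nat_lit 129) (nat_lit 5) (nat_lit 129) (nat_lit 4) (nat_lit 611) (nat_lit 482) (nat_lit 467))) (XT.nd (nat_lit 78) (nat_lit 304) (nat_lit 0) (XT.lf (nat_lit 0) (nat_lit 4583603452) (nat_lit 380) (nat_lit 1220376369) (nat_lit 76) (nat_lit 4813025680) (nat_lit 124) (nat_lit 5) (nat_lit 129) (nat_lit 5) (nat_lit 125) (nat_lit 4) (nat_lit 612) (nat_lit 482) (nat_lit 466)) (XT.lf (nat_lit 0) (nat_lit 8148476999) (nat_lit 304) (nat_lit 1346038801) (nat_lit 380) (nat_lit 1223237549) (nat_lit 120) (nat_lit 5) (nat_lit 124) (nat_lit 5) (nat_lit 125) (nat_lit 4) (nat_lit 613) (nat_lit 482) (nat_lit 465)))) (XT.nd (nat_lit 156) (nat_lit 608) (nat_lit 0) (XT.nd (nat_lit 78) (nat_lit 228) (nat_lit 0) (XT.lf (nat_lit 0) (nat_lit 3643437837) (nat_lit 380) (nat_lit 3984203466) (nat_lit 76) (nat_lit 3192225177) (nat_lit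 115) (nat_lit 5) (nat_lit 120) (nat_lit 5) (nat_lit 116) (nat_lit 4) (nat_lit 614) (nat_lit 482) (nat_lit 464)) (XT.lf (nat_lit 0) (nat_lit 5484594578) (nat_lit 228) (nat_lit 3103494889) (nat_lit 304) (nat_lit 2335831083) (nat_lit 112) (nat_lit 5) (nat_lit 115) (nat_lit 5) (nat_lit 116) (nat_lit 4) (nat_lit 615) (nat_lit 482) (nat_lit 463))) (XT.nd (nat_lit 78) (nat_lit 228) (nat_lit 0) (XT.lf (nat_lit 0) (nat_lit 2566195408) (nat_lit 380) (nat_lit 6946246173) (nat_lit 76) (nat_lit 1517302347) (nat_lit 107) (nat_lit 5) (nat_lit 112) (nat_lit 5) (nat_lit 108) (nat_lit 4) (nat_lit 616) (nat_lit 482) (nat_lit 462)) (XT.lf (nat_lit 0) (nat_lit 2621208262) (nat_lit 228) (nat_lit 4923648040) (nat_lit 304) (nat_lit 3592322039) (nat_lit 104) (nat_lit 5) (nat_lit 107) (nat_lit 5) (nat_lit 108) (nat_lit 4) (nat_lit 617) (nat_lit 482) (nat_lit 461))))))) (XT.nd (nat_lit 1170) (nat_lit 2508) (nat_lit 0) (XT.nd (nat_lit 546) (nat_lit 1520) (nat_lit 0) (XT.nd (nat_lit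 234) (nat_lit 988) (nat_lit 0) (XT.nd (nat_lit 78) (nat_lit 304) (nat_lit 0) (XT.lf (nat_lit 0) (nat_lit 1123237083) (nat_lit 304) (nat_lit 224910557) (nat_lit 380) (nat_lit 9898638440) (nat_lit 99) (nat_lit 5) (nat_lit 103) (nat_lit 5) (nat_lit 104) (nat_lit 5) (nat_lit 618) (nat_lit 482) (nat_lit 460)) (XT.nd (nat_lit 78) (nat_lit 304) (nat_lit 0) (XT.lf (nat_lit 0) (nat_lit 6362457059) (nat_lit 380) (nat_lit 451444741) (nat_lit 76) (nat_lit 4543747371) (nat_lit 99) (nat_lit 5) (nat_lit 104) (nat_lit 5) (nat_lit 100) (nat_lit 4) (nat_lit 619) (nat_lit 482) (nat_lit 459)) (XT.lf (nat_lit 0) (nat_lit 6099278) (nat_lit 304) (nat_lit 2043183594) (nat_lit 76) (nat_lit 9421449353) (nat_lit 95) (nat_lit 5) (nat_lit 99) (nat_lit 5) (nat_lit 96) (nat_lit 5) (nat_lit 620) (nat_lit 482) (nat_lit 458)))) (XT.nd (nat_lit 156) (nat_lit 532) (nat_lit 0) (XT.nd (nat_lit 78) (nat_lit 228) (nat_lit 0) (XT.lf (nat_lit 0) (nat_lit 5050649171) (nat_lit 304) (nat_lit 3718352239)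 (nat_lit 76) (nat_lit 2816213491) (nat_lit 92) (nat_lit 5) (nat_lit 96) (nat_lit 5) (nat_lit 93) (nat_lit 4) (nat_lit 621) (nat_lit 482) (nat_lit 457)) (XT.lf (nat_lit 0) (nat_lit 6260521001) (nat_lit 228) (nat_lit 3941098819) (nat_lit 304) (nat_lit 1500257493) (nat_lit 89) (nat_lit 5) (nat_lit 92) (nat_lit 5) (nat_lit 93) (nat_lit 4) (nat_lit 622) (nat_lit 482) (nat_lit 456))) (XT.nd (nat_lit 78) (nat_lit 228) (nat_lit 0) (XT.lf (nat_lit 0) (nat_lit 3586248565) (nat_lit 304) (nat_lit 7230762064) (nat_lit 76) (nat_lit 1003407374) (nat_lit 85) (nat_lit 5) (nat_lit 89) (nat_lit 5) (nat_lit 86) (nat_lit 4) (nat_lit 623) (nat_lit 482) (nat_lit 455)) (XT.lf (nat_lit 0) (nat_lit 2846151294) (nat_lit 228) (nat_lit 5927436428) (nat_lit 304) (nat_lit 3167160260) (nat_lit 82) (nat_lit 5) (nat_lit 85) (nat_lit 5) (nat_lit 86) (nat_lit 4) (nat_lit 624) (nat_lit 482) (nat_lit 454))))) (XT.nd (nat_lit 312) (nat_lit 684) (nat_lit 0) (XT.nd (nat_lit 156) (nat_lit 532)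 (nat_lit 0) (XT.nd (nat_lit 78) (nat_lit 0) (nat_lit 0) (XT.lf (nat_lit 0) (nat_lit 1051121571) (nat_lit 228) (nat_lit 917431783) (nat_lit 304) (nat_lit 10094799755) (nat_lit 78) (nat_lit 5) (nat_lit 81) (nat_lit 5) (nat_lit 82) (nat_lit 5) (nat_lit 625) (nat_lit 482) (nat_lit 453)) (XT.lf (nat_lit 0) (nat_lit 7191415132) (nat_lit 304) (nat_lit 822415369) (nat_lit 76) (nat_lit 4173624897) (nat_lit 78) (nat_lit 5) (nat_lit 82) (nat_lit 5) (nat_lit 79) (nat_lit 4) (nat_lit 626) (nat_lit 482) (nat_lit 452))) (XT.nd (nat_lit 78) (nat_lit 228) (nat_lit 0) (XT.lf (nat_lit 0) (nat_lit 209716148) (nat_lit 304) (nat_lit 2731967094) (nat_lit 76) (nat_lit 9372176363) (nat_lit 74) (nat_lit 5) (nat_lit 78) (nat_lit 5) (nat_lit 75) (nat_lit 5) (nat_lit 627) (nat_lit 482) (nat_lit 451)) (XT.lf (nat_lit 0) (nat_lit 5462683083) (nat_lit 304) (nat_lit 4733684362) (nat_lit 76) (nat_lit 2245564692) (nat_lit 71) (nat_lit 5) (nat_lit 75) (nat_lit 5) (nat_lit 72) (nat_lit 4)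 (nat_lit 628) (nat_lit 482) (nat_lit 450)))) (XT.nd (nat_lit 156) (nat_lit 228) (nat_lit 0) (XT.nd (nat_lit 78) (nat_lit 304) (nat_lit 0) (XT.lf (nat_lit 0) (nat_lit 5770381201) (nat_lit 152) (nat_lit 5065374008) (nat_lit 228) (nat_lit 1736510550) (nat_lit 69) (nat_lit 5) (nat_lit 71) (nat_lit 5) (nat_lit 72) (nat_lit 4) (nat_lit 629) (nat_lit 482) (nat_lit 449)) (XT.lf (nat_lit 0) (nat_lit 3561171537) (nat_lit 304) (nat_lit 8944208715) (nat_lit 76) (nat_lit 199408447) (nat_lit 65) (nat_lit 5) (nat_lit 69) (nat_lit 5) (nat_lit 66) (nat_lit 4) (nat_lit 630) (nat_lit 482) (nat_lit 448))) (XT.nd (nat_lit 78) (nat_lit 76) (nat_lit 0) (XT.lf (nat_lit 0) (nat_lit 1655747074) (nat_lit 152) (nat_lit 7315986474) (nat_lit 228) (nat_lit 3867395944) (nat_lit 63) (nat_lit 5) (nat_lit 65) (nat_lit 5) (nat_lit 66) (nat_lit 4) (nat_lit 631) (nat_lit 482) (nat_lit 447)) (XT.lf (nat_lit 0) (nat_lit 1494906639) (nat_lit 228) (nat_lit 504396582) (nat_lit 76) (nat_lit 10976649381)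 (nat_lit 62) (nat_lit 5) (nat_lit 65) (nat_lit 5) (nat_lit 63) (nat_lit 5) (nat_lit 632) (nat_lit 482) (nat_lit 446)))))) (XT.nd (nat_lit 624) (nat_lit 1064) (nat_lit 0) (XT.nd (nat_lit 312) (nat_lit 608) (nat_lit 0) (XT.nd (nat_lit 156) (nat_lit 456) (nat_lit 0) (XT.nd (nat_lit 78) (nat_lit 152) (nat_lit 0) (XT.lf (nat_lit 0) (nat_lit 6943911921) (nat_lit 304) (nat_lit 2744538127) (nat_lit 76) (nat_lit 3425926529) (nat_lit 59) (nat_lit 5) (nat_lit 63) (nat_lit 5) (nat_lit 60) (nat_lit 4) (nat_lit 633) (nat_lit 482) (nat_lit 445)) (XT.lf (nat_lit 0) (nat_lit 8200991100) (nat_lit 152) (nat_lit 4312141091) (nat_lit 228) (nat_lit 742212626) (nat_lit 57) (nat_lit 5) (nat_lit 59) (nat_lit 5) (nat_lit 60) (nat_lit 4) (nat_lit 634) (nat_lit 482) (nat_lit 444))) (XT.nd (nat_lit 78) (nat_lit 152) (nat_lit 0) (XT.lf (nat_lit 0) (nat_lit 4738158564) (nat_lit 304) (nat_lit 7462120744) (nat_lit 76) (nat_lit 1198102260) (nat_lit 53) (nat_lit 5) (nat_lit 57) (nat_lit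 5) (nat_lit 54) (nat_lit 4) (nat_lit 635) (nat_lit 482) (nat_lit 443)) (XT.lf (nat_lit 0) (nat_lit 3578400922) (nat_lit 152) (nat_lit 6767315225) (nat_lit 228) (nat_lit 3197914897) (nat_lit 51) (nat_lit 5) (nat_lit 53) (nat_lit 5) (nat_lit 54) (nat_lit 4) (nat_lit 636) (nat_lit 482) (nat_lit 442)))) (XT.nd (nat_lit 156) (nat_lit 380) (nat_lit 0) (XT.nd (nat_lit 78) (nat_lit 0) (nat_lit 0) (XT.lf (nat_lit 0) (nat_lit 1142836669) (nat_lit 152) (nat_lit 1199148538) (nat_lit 228) (nat_lit 11349502986) (nat_lit 48) (nat_lit 5) (nat_lit 50) (nat_lit 5) (nat_lit 51) (nat_lit 5) (nat_lit 637) (nat_lit 482) (nat_lit 441)) (XT.lf (nat_lit 0) (nat_lit 7988103817) (nat_lit 228) (nat_lit 1390185107) (nat_lit 76) (nat_lit 4462826414) (nat_lit 48) (nat_lit 5) (nat_lit 51) (nat_lit 5) (nat_lit 49) (nat_lit 4) (nat_lit 638) (nat_lit 482) (nat_lit 440))) (XT.nd (nat_lit 78) (nat_lit 228) (nat_lit 0) (XT.lf (nat_lit 0) (nat_lit 10010231060) (nat_lit 152) (nat_lit 3752785580)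 (nat_lit 228) (nat_lit 230401369) (nat_lit 46) (nat_lit 5) (nat_lit 48) (nat_lit 5) (nat_lit 49) (nat_lit 4) (nat_lit 639) (nat_lit 482) (nat_lit 439)) (XT.lf (nat_lit 0) (nat_lit 5446540386) (nat_lit 228) (nat_lit 6694827655) (nat_lit 76) (nat_lit 2006402819) (nat_lit 43) (nat_lit 5) (nat_lit 46) (nat_lit 5) (nat_lit 44) (nat_lit 4) (nat_lit 640) (nat_lit 482) (nat_lit 438))))) (XT.nd (nat_lit 312) (nat_lit 532) (nat_lit 0) (XT.nd (nat_lit 156) (nat_lit 152) (nat_lit 0) (XT.nd (nat_lit 78) (nat_lit 228) (nat_lit 0) (XT.lf (nat_lit 0) (nat_lit 4798723932) (nat_lit 152) (nat_lit 6461271931) (nat_lit 228) (nat_lit 3044663644) (nat_lit 41) (nat_lit 5) (nat_lit 43) (nat_lit 5) (nat_lit 44) (nat_lit 4) (nat_lit 641) (nat_lit 482) (nat_lit 437)) (XT.lf (nat_lit 0) (nat_lit 2053212029) (nat_lit 152) (nat_lit 637843820) (nat_lit 228) (nat_lit 11773241392) (nat_lit 38) (nat_lit 5) (nat_lit 40) (nat_lit 5) (nat_lit 41) (nat_lit 5) (nat_lit 642) (nat_lit 482) (nat_lit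 436))) (XT.nd (nat_lit 78) (nat_lit 152) (nat_lit 0) (XT.lf (nat_lit 0) (nat_lit 8542730146) (nat_lit 228) (nat_lit 813426879) (nat_lit 76) (nat_lit 5269728403) (nat_lit 38) (nat_lit 5) (nat_lit 41) (nat_lit 5) (nat_lit 39) (nat_lit 4) (nat_lit 643) (nat_lit 482) (nat_lit 435)) (XT.lf (nat_lit 0) (nat_lit 11054031430) (nat_lit 152) (nat_lit 3477845466) (nat_lit 228) (nat_lit 258420071) (nat_lit 36) (nat_lit 5) (nat_lit 38) (nat_lit 5) (nat_lit 39) (nat_lit 4) (nat_lit 644) (nat_lit 482) (nat_lit 434)))) (XT.nd (nat_lit 156) (nat_lit 228) (nat_lit 0) (XT.nd (nat_lit 78) (nat_lit 76) (nat_lit 0) (XT.lf (nat_lit 0) (nat_lit 5628057054) (nat_lit 228) (nat_lit 6794517007) (nat_lit 76) (nat_lit 2534289531) (nat_lit 33) (nat_lit 5) (nat_lit 36) (nat_lit 5) (nat_lit 34) (nat_lit 4) (nat_lit 645) (nat_lit 482) (nat_lit 433)) (XT.lf (nat_lit 0) (nat_lit 5163038246) (nat_lit 76) (nat_lit 6492183097) (nat_lit 152) (nat_lit 3470978031) (nat_lit 32) (nat_lit 5) (nat_lit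 33) (nat_lit 5) (nat_lit 34) (nat_lit 4) (nat_lit 646) (nat_lit 482) (nat_lit 432))) (XT.nd (nat_lit 78) (nat_lit 0) (nat_lit 0) (XT.lf (nat_lit 0) (nat_lit 2061168405) (nat_lit 152) (nat_lit 413956339) (nat_lit 228) (nat_lit 12823393142) (nat_lit 29) (nat_lit 5) (nat_lit 31) (nat_lit 5) (nat_lit 32) (nat_lit 5) (nat_lit 647) (nat_lit 482) (nat_lit 431)) (XT.lf (nat_lit 0) (nat_lit 8543372597) (nat_lit 228) (nat_lit 1176154324) (nat_lit 76) (nat_lit 5753303321) (nat_lit 29) (nat_lit 5) (nat_lit 32) (nat_lit 5) (nat_lit 30) (nat_lit 4) (nat_lit 648) (nat_lit 482) (nat_lit 430))))))))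
noncomputable def xc13 : XT := (XT.nd (nat_lit 79170) (nat_lit 0) (nat_lit 0) (XT.nd (nat_lit 77922) (nat_lit 0) (nat_lit 4864) (XT.nd (nat_lit 77298) (nat_lit 0) (nat_lit 9348) (XT.nd (nat_lit 76986) (nat_lit 0) (nat_lit 12160) (XT.nd (nat_lit 78) (nat_lit 228) (nat_lit 0) (XT.lf (nat_lit 0) (nat_lit 11168776701) (nat_lit 76) (nat_lit 3585337471) (nat_lit 152) (nat_lit 896092417) (nat_lit 28) (nat_lit 5) (nat_lit 29) (nat_lit 5) (nat_lit 30) (nat_lit 4) (nat_lit 649) (nat_lit 482) (nat_lit 429)) (XT.nd (nat_lit 76830) (nat_lit 0) (nat_lit 13908) (XT.lf (nat_lit 0) (nat_lit 5211890900) (nat_lit 228) (nat_lit 7934102223) (nat_lit 76) (nat_lit 2683996694) (nat_lit 25) (nat_lit 5) (nat_lit 28) (nat_lit 5) (nat_lit 26) (nat_lit 4) (nat_lit 650) (nat_lit 482) (nat_lit 428)) (XT.lf (nat_lit 0) (nat_lit 4147088243) (nat_lit 456) (nat_lit 195845216) (nat_lit 456) (nat_lit 195845216) (nat_lit 208) (nat_lit 4) (nat_lit 214) (nat_lit 5) (nat_lit 214) (nat_lit 4)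 (nat_lit 594) (nat_lit 483) (nat_lit 483)))) (XT.nd (nat_lit 156) (nat_lit 836) (nat_lit 0) (XT.nd (nat_lit 78) (nat_lit 456) (nat_lit 0) (XT.lf (nat_lit 0) (nat_lit 4119967796) (nat_lit 456) (nat_lit 1797299762) (nat_lit 0) (nat_lit 3233413949) (nat_lit 202) (nat_lit 5) (nat_lit 208) (nat_lit 4) (nat_lit 202) (nat_lit 4) (nat_lit 595) (nat_lit 483) (nat_lit 482)) (XT.lf (nat_lit 0) (nat_lit 6409472632) (nat_lit 456) (nat_lit 2285946664) (nat_lit 456) (nat_lit 530222380) (nat_lit 196) (nat_lit 4) (nat_lit 202) (nat_lit 5) (nat_lit 202) (nat_lit 4) (nat_lit 596) (nat_lit 483) (nat_lit 481))) (XT.nd (nat_lit 78) (nat_lit 380) (nat_lit 0) (XT.lf (nat_lit 0) (nat_lit 3993465949) (nat_lit 456) (nat_lit 3871632301) (nat_lit 0) (nat_lit 1436748141) (nat_lit 190) (nat_lit 5) (nat_lit 196) (nat_lit 4) (nat_lit 190) (nat_lit 4) (nat_lit 597) (nat_lit 483) (nat_lit 480)) (XT.lf (nat_lit 0) (nat_lit 4431470968) (nat_lit 380) (nat_lit 4161966900) (nat_lit 380) (nat_lit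 786210376) (nat_lit 185) (nat_lit 4) (nat_lit 190) (nat_lit 5) (nat_lit 190) (nat_lit 4) (nat_lit 598) (nat_lit 483) (nat_lit 479))))) (XT.nd (nat_lit 312) (nat_lit 1140) (nat_lit 0) (XT.nd (nat_lit 156) (nat_lit 836) (nat_lit 0) (XT.nd (nat_lit 78) (nat_lit 380) (nat_lit 0) (XT.lf (nat_lit 0) (nat_lit 3405690443) (nat_lit 380) (nat_lit 348975943) (nat_lit 456) (nat_lit 5704275208) (nat_lit 179) (nat_lit 5) (nat_lit 184) (nat_lit 5) (nat_lit 185) (nat_lit 4) (nat_lit 599) (nat_lit 483) (nat_lit 478)) (XT.lf (nat_lit 0) (nat_lit 2347924354) (nat_lit 380) (nat_lit 6030173311) (nat_lit 380) (nat_lit 1161575172) (nat_lit 174) (nat_lit 4) (nat_lit 179) (nat_lit 5) (nat_lit 179) (nat_lit 4) (nat_lit 600) (nat_lit 483) (nat_lit 477))) (XT.nd (nat_lit 78) (nat_lit 380) (nat_lit 0) (XT.lf (nat_lit 0) (nat_lit 1260162244) (nat_lit 380) (nat_lit 2148464267) (nat_lit 456) (nat_lit 6213298884) (nat_lit 168) (nat_lit 5) (nat_lit 173) (nat_lit 5) (nat_lit 174) (nat_lit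 4) (nat_lit 601) (nat_lit 483) (nat_lit 476)) (XT.lf (nat_lit 0) (nat_lit 146281117) (nat_lit 380) (nat_lit 7900893282) (nat_lit 380) (nat_lit 1658646311) (nat_lit 163) (nat_lit 4) (nat_lit 168) (nat_lit 5) (nat_lit 168) (nat_lit 4) (nat_lit 602) (nat_lit 483) (nat_lit 475)))) (XT.nd (nat_lit 156) (nat_lit 760) (nat_lit 0) (XT.nd (nat_lit 78) (nat_lit 304) (nat_lit 0) (XT.lf (nat_lit 0) (nat_lit 2950018179) (nat_lit 456) (nat_lit 996232740) (nat_lit 76) (nat_lit 5844714356) (nat_lit 162) (nat_lit 5) (nat_lit 168) (nat_lit 5) (nat_lit 163) (nat_lit 4) (nat_lit 603) (nat_lit 483) (nat_lit 474)) (XT.lf (nat_lit 0) (nat_lit 7612236664) (nat_lit 380) (nat_lit 2157676028) (nat_lit 0) (nat_lit 108010077) (nat_lit 158) (nat_lit 5) (nat_lit 163) (nat_lit 4) (nat_lit 158) (nat_lit 4) (nat_lit 604) (nat_lit 483) (nat_lit 473))) (XT.nd (nat_lit 78) (nat_lit 304) (nat_lit 0) (XT.lf (nat_lit 0) (nat_lit 2378523231) (nat_lit 456) (nat_lit 3371506679) (nat_lit 76) (nat_lit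 4216100109) (nat_lit 152) (nat_lit 5) (nat_lit 158) (nat_lit 5) (nat_lit 153) (nat_lit 4) (nat_lit 605) (nat_lit 483) (nat_lit 472)) (XT.lf (nat_lit 0) (nat_lit 5443509168) (nat_lit 304) (nat_lit 1624983574) (nat_lit 380) (nat_lit 2987645922) (nat_lit 148) (nat_lit 5) (nat_lit 152) (nat_lit 5) (nat_lit 153) (nat_lit 4) (nat_lit 606) (nat_lit 483) (nat_lit 471)))))) (XT.nd (nat_lit 624) (nat_lit 1976) (nat_lit 0) (XT.nd (nat_lit 312) (nat_lit 1064) (nat_lit 0) (XT.nd (nat_lit 156) (nat_lit 684) (nat_lit 0) (XT.nd (nat_lit 78) (nat_lit 304) (nat_lit 0) (XT.lf (nat_lit 0) (nat_lit 1682799328) (nat_lit 456) (nat_lit 5895502818) (nat_lit 76) (nat_lit 2569408283) (nat_lit 142) (nat_lit 5) (nat_lit 148) (nat_lit 5) (nat_lit 143) (nat_lit 4) (nat_lit 607) (nat_lit 483) (nat_lit 470)) (XT.lf (nat_lit 0) (nat_lit 3016483818) (nat_lit 304) (nat_lit 3385481660) (nat_lit 380) (nat_lit 3838847838) (nat_lit 138) (nat_lit 5) (nat_lit 142) (nat_lit 5) (nat_lit 143) (nat_lit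 4) (nat_lit 608) (nat_lit 483) (nat_lit 469))) (XT.nd (nat_lit 78) (nat_lit 304) (nat_lit 0) (XT.lf (nat_lit 0) (nat_lit 859271021) (nat_lit 380) (nat_lit 8581963005) (nat_lit 76) (nat_lit 894609501) (nat_lit 133) (nat_lit 5) (nat_lit 138) (nat_lit 5) (nat_lit 134) (nat_lit 4) (nat_lit 609) (nat_lit 483) (nat_lit 468)) (XT.lf (nat_lit 0) (nat_lit 426021873) (nat_lit 304) (nat_lit 5182215320) (nat_lit 380) (nat_lit 4823864843) (nat_lit 129) (nat_lit 5) (nat_lit 133) (nat_lit 5) (nat_lit 134) (nat_lit 4) (nat_lit 610) (nat_lit 483) (nat_lit 467)))) (XT.nd (nat_lit 156) (nat_lit 684) (nat_lit 0) (XT.nd (nat_lit 78) (nat_lit 380) (nat_lit 0) (XT.lf (nat_lit 0) (nat_lit 9622036642) (nat_lit 304) (nat_lit 822573028) (nat_lit 380) (nat_lit 85828415) (nat_lit 129) (nat_lit 5) (nat_lit 133) (nat_lit 5) (nat_lit 134) (nat_lit 4) (nat_lit 611) (nat_lit 483) (nat_lit 466)) (XT.lf (nat_lit 0) (nat_lit 4698384078) (nat_lit 380) (nat_lit 2311507555) (nat_lit 76) (nat_lit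 3619960236) (nat_lit 124) (nat_lit 5) (nat_lit 129) (nat_lit 5) (nat_lit 125) (nat_lit 4) (nat_lit 612) (nat_lit 483) (nat_lit 465))) (XT.nd (nat_lit 78) (nat_lit 380) (nat_lit 0) (XT.lf (nat_lit 0) (nat_lit 6988929062) (nat_lit 304) (nat_lit 2581147370) (nat_lit 380) (nat_lit 1161308111) (nat_lit 120) (nat_lit 5) (nat_lit 124) (nat_lit 5) (nat_lit 125) (nat_lit 4) (nat_lit 613) (nat_lit 483) (nat_lit 464)) (XT.lf (nat_lit 0) (nat_lit 3656651373) (nat_lit 380) (nat_lit 5233575543) (nat_lit 76) (nat_lit 1944221198) (nat_lit 115) (nat_lit 5) (nat_lit 120) (nat_lit 5) (nat_lit 116) (nat_lit 4) (nat_lit 614) (nat_lit 483) (nat_lit 463))))) (XT.nd (nat_lit 312) (nat_lit 1064) (nat_lit 0) (XT.nd (nat_lit 156) (nat_lit 304) (nat_lit 0) (XT.nd (nat_lit 78) (nat_lit 380) (nat_lit 0) (XT.lf (nat_lit 0) (nat_lit 4164492829) (nat_lit 228) (nat_lit 4396753763) (nat_lit 304) (nat_lit 2378057121) (nat_lit 112) (nat_lit 5) (nat_lit 115) (nat_lit 5) (nat_lit 116) (nat_lit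 4) (nat_lit 615) (nat_lit 483) (nat_lit 462)) (XT.lf (nat_lit 0) (nat_lit 2475365067) (nat_lit 380) (nat_lit 8360992631) (nat_lit 76) (nat_lit 209758422) (nat_lit 107) (nat_lit 5) (nat_lit 112) (nat_lit 5) (nat_lit 108) (nat_lit 4) (nat_lit 616) (nat_lit 483) (nat_lit 461))) (XT.nd (nat_lit 78) (nat_lit 76) (nat_lit 0) (XT.lf (nat_lit 0) (nat_lit 1133336521) (nat_lit 228) (nat_lit 6279737877) (nat_lit 304) (nat_lit 3741295545) (nat_lit 104) (nat_lit 5) (nat_lit 107) (nat_lit 5) (nat_lit 108) (nat_lit 4) (nat_lit 617) (nat_lit 483) (nat_lit 460)) (XT.lf (nat_lit 0) (nat_lit 1162605780) (nat_lit 304) (nat_lit 449264736) (nat_lit 76) (nat_lit 9652897317) (nat_lit 103) (nat_lit 5) (nat_lit 107) (nat_lit 5) (nat_lit 104) (nat_lit 5) (nat_lit 618) (nat_lit 483) (nat_lit 459)))) (XT.nd (nat_lit 156) (nat_lit 532) (nat_lit 0) (XT.nd (nat_lit 78) (nat_lit 228) (nat_lit 0) (XT.lf (nat_lit 0) (nat_lit 6133826485) (nat_lit 380) (nat_lit 2092728874) (nat_lit 76) (nat_lit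 3149937695) (nat_lit 99) (nat_lit 5) (nat_lit 104) (nat_lit 5) (nat_lit 100) (nat_lit 4) (nat_lit 619) (nat_lit 483) (nat_lit 458)) (XT.lf (nat_lit 0) (nat_lit 7711051951) (nat_lit 228) (nat_lit 3495587518) (nat_lit 304) (nat_lit 283770656) (nat_lit 96) (nat_lit 5) (nat_lit 99) (nat_lit 5) (nat_lit 100) (nat_lit 4) (nat_lit 620) (nat_lit 483) (nat_lit 457))) (XT.nd (nat_lit 78) (nat_lit 228) (nat_lit 0) (XT.lf (nat_lit 0) (nat_lit 4712676713) (nat_lit 304) (nat_lit 5540166565) (nat_lit 76) (nat_lit 1353123191) (nat_lit 92) (nat_lit 5) (nat_lit 96) (nat_lit 5) (nat_lit 93) (nat_lit 4) (nat_lit 621) (nat_lit 483) (nat_lit 456)) (XT.lf (nat_lit 0) (nat_lit 4360881787) (nat_lit 228) (nat_lit 5460102434) (nat_lit 304) (nat_lit 1902498251) (nat_lit 89) (nat_lit 5) (nat_lit 92) (nat_lit 5) (nat_lit 93) (nat_lit 4) (nat_lit 622) (nat_lit 483) (nat_lit 455))))))) (XT.nd (nat_lit 1170) (nat_lit 1900) (nat_lit 0) (XT.nd (nat_lit 546) (nat_lit 1444) (nat_lit 0) (XT.nd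 (nat_lit 234) (nat_lit 912) (nat_lit 0) (XT.nd (nat_lit 78) (nat_lit 304) (nat_lit 0) (XT.lf (nat_lit 0) (nat_lit 2598589727) (nat_lit 228) (nat_lit 540845637) (nat_lit 304) (nat_lit 8703637304) (nat_lit 85) (nat_lit 5) (nat_lit 88) (nat_lit 5) (nat_lit 89) (nat_lit 5) (nat_lit 623) (nat_lit 483) (nat_lit 454)) (XT.nd (nat_lit 78) (nat_lit 76) (nat_lit 0) (XT.lf (nat_lit 0) (nat_lit 755451061) (nat_lit 228) (nat_lit 7524067545) (nat_lit 304) (nat_lit 3684829470) (nat_lit 82) (nat_lit 5) (nat_lit 85) (nat_lit 5) (nat_lit 86) (nat_lit 4) (nat_lit 624) (nat_lit 483) (nat_lit 453)) (XT.lf (nat_lit 0) (nat_lit 1420729531) (nat_lit 304) (nat_lit 1126725743) (nat_lit 76) (nat_lit 9540304327) (nat_lit 81) (nat_lit 5) (nat_lit 85) (nat_lit 5) (nat_lit 82) (nat_lit 5) (nat_lit 625) (nat_lit 483) (nat_lit 452)))) (XT.nd (nat_lit 156) (nat_lit 456) (nat_lit 0) (XT.nd (nat_lit 78) (nat_lit 228) (nat_lit 0) (XT.lf (nat_lit 0) (nat_lit 6595526243) (nat_lit 304) (nat_lit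 3082380668) (nat_lit 76) (nat_lit 2534916573) (nat_lit 78) (nat_lit 5) (nat_lit 82) (nat_lit 5) (nat_lit 79) (nat_lit 4) (nat_lit 626) (nat_lit 483) (nat_lit 451)) (XT.lf (nat_lit 0) (nat_lit 7240428983) (nat_lit 228) (nat_lit 4645429539) (nat_lit 304) (nat_lit 454289906) (nat_lit 75) (nat_lit 5) (nat_lit 78) (nat_lit 5) (nat_lit 79) (nat_lit 4) (nat_lit 627) (nat_lit 483) (nat_lit 450))) (XT.nd (nat_lit 78) (nat_lit 152) (nat_lit 0) (XT.lf (nat_lit 0) (nat_lit 4748014087) (nat_lit 304) (nat_lit 7198752884) (nat_lit 76) (nat_lit 522645677) (nat_lit 71) (nat_lit 5) (nat_lit 75) (nat_lit 5) (nat_lit 72) (nat_lit 4) (nat_lit 628) (nat_lit 483) (nat_lit 449)) (XT.lf (nat_lit 0) (nat_lit 3219540116) (nat_lit 152) (nat_lit 6855691497) (nat_lit 228) (nat_lit 2525432017) (nat_lit 69) (nat_lit 5) (nat_lit 71) (nat_lit 5) (nat_lit 72) (nat_lit 4) (nat_lit 629) (nat_lit 483) (nat_lit 448))))) (XT.nd (nat_lit 312) (nat_lit 684) (nat_lit 0) (XT.nd (nat_lit 156) (nat_lit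 456) (nat_lit 0) (XT.nd (nat_lit 78) (nat_lit 0) (nat_lit 0) (XT.lf (nat_lit 0) (nat_lit 1100534252) (nat_lit 228) (nat_lit 1634222688) (nat_lit 304) (nat_lit 9999489134) (nat_lit 65) (nat_lit 5) (nat_lit 68) (nat_lit 5) (nat_lit 69) (nat_lit 5) (nat_lit 630) (nat_lit 483) (nat_lit 447)) (XT.lf (nat_lit 0) (nat_lit 8094796077) (nat_lit 304) (nat_lit 1097310236) (nat_lit 76) (nat_lit 3677491266) (nat_lit 65) (nat_lit 5) (nat_lit 69) (nat_lit 5) (nat_lit 66) (nat_lit 4) (nat_lit 631) (nat_lit 483) (nat_lit 446))) (XT.nd (nat_lit 78) (nat_lit 228) (nat_lit 0) (XT.lf (nat_lit 0) (nat_lit 563014392) (nat_lit 228) (nat_lit 3349201169) (nat_lit 76) (nat_lit 9095050952) (nat_lit 62) (nat_lit 5) (nat_lit 65) (nat_lit 5) (nat_lit 63) (nat_lit 5) (nat_lit 632) (nat_lit 483) (nat_lit 445)) (XT.lf (nat_lit 0) (nat_lit 5951720908) (nat_lit 304) (nat_lit 5698866131) (nat_lit 76) (nat_lit 1496309663) (nat_lit 59) (nat_lit 5) (nat_lit 63) (nat_lit 5) (nat_lit 60) (nat_lit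 4) (nat_lit 633) (nat_lit 483) (nat_lit 444)))) (XT.nd (nat_lit 156) (nat_lit 228) (nat_lit 0) (XT.nd (nat_lit 78) (nat_lit 304) (nat_lit 0) (XT.lf (nat_lit 0) (nat_lit 5155174432) (nat_lit 152) (nat_lit 6317521575) (nat_lit 228) (nat_lit 1816134073) (nat_lit 57) (nat_lit 5) (nat_lit 59) (nat_lit 5) (nat_lit 60) (nat_lit 4) (nat_lit 634) (nat_lit 483) (nat_lit 443)) (XT.lf (nat_lit 0) (nat_lit 2778875075) (nat_lit 228) (nat_lit 842581221) (nat_lit 304) (nat_lit 9811687522) (nat_lit 53) (nat_lit 5) (nat_lit 56) (nat_lit 5) (nat_lit 57) (nat_lit 5) (nat_lit 635) (nat_lit 483) (nat_lit 442))) (XT.nd (nat_lit 78) (nat_lit 76) (nat_lit 0) (XT.lf (nat_lit 0) (nat_lit 297031126) (nat_lit 152) (nat_lit 8876851348) (nat_lit 228) (nat_lit 4405613670) (nat_lit 51) (nat_lit 5) (nat_lit 53) (nat_lit 5) (nat_lit 54) (nat_lit 4) (nat_lit 636) (nat_lit 483) (nat_lit 441)) (XT.lf (nat_lit 0) (nat_lit 1114385876) (nat_lit 228) (nat_lit 2233238911) (nat_lit 76) (nat_lit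 10380600337) (nat_lit 50) (nat_lit 5) (nat_lit 53) (nat_lit 5) (nat_lit 51) (nat_lit 5) (nat_lit 637) (nat_lit 483) (nat_lit 440)))))) (XT.nd (nat_lit 624) (nat_lit 608) (nat_lit 0) (XT.nd (nat_lit 312) (nat_lit 608) (nat_lit 0) (XT.nd (nat_lit 156) (nat_lit 380) (nat_lit 0) (XT.nd (nat_lit 78) (nat_lit 152) (nat_lit 0) (XT.lf (nat_lit 0) (nat_lit 6703516680) (nat_lit 228) (nat_lit 4870687846) (nat_lit 76) (nat_lit 2304787706) (nat_lit 48) (nat_lit 5) (nat_lit 51) (nat_lit 5) (nat_lit 49) (nat_lit 4) (nat_lit 638) (nat_lit 483) (nat_lit 439)) (XT.lf (nat_lit 0) (nat_lit 6432050381) (nat_lit 152) (nat_lit 5995452286) (nat_lit 228) (nat_lit 1604810978) (nat_lit 46) (nat_lit 5) (nat_lit 48) (nat_lit 5) (nat_lit 49) (nat_lit 4) (nat_lit 639) (nat_lit 483) (nat_lit 438))) (XT.nd (nat_lit 78) (nat_lit 152) (nat_lit 0) (XT.lf (nat_lit 0) (nat_lit 3758845775) (nat_lit 152) (nat_lit 266377278) (nat_lit 228) (nat_lit 10162920778) (nat_lit 43) (nat_lit 5) (nat_lit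 45) (nat_lit 5) (nat_lit 46) (nat_lit 5) (nat_lit 640) (nat_lit 483) (nat_lit 437)) (XT.lf (nat_lit 0) (nat_lit 964852056) (nat_lit 152) (nat_lit 8819609032) (nat_lit 228) (nat_lit 4561655932) (nat_lit 41) (nat_lit 5) (nat_lit 43) (nat_lit 5) (nat_lit 44) (nat_lit 4) (nat_lit 641) (nat_lit 483) (nat_lit 436)))) (XT.nd (nat_lit 156) (nat_lit 380) (nat_lit 0) (XT.nd (nat_lit 78) (nat_lit 152) (nat_lit 0) (XT.lf (nat_lit 0) (nat_lit 1153064062) (nat_lit 228) (nat_lit 1890077304) (nat_lit 76) (nat_lit 11463628461) (nat_lit 40) (nat_lit 5) (nat_lit 43) (nat_lit 5) (nat_lit 41) (nat_lit 5) (nat_lit 642) (nat_lit 483) (nat_lit 435)) (XT.lf (nat_lit 0) (nat_lit 6949101895) (nat_lit 228) (nat_lit 4859799395) (nat_lit 76) (nat_lit 2860569635) (nat_lit 38) (nat_lit 5) (nat_lit 41) (nat_lit 5) (nat_lit 39) (nat_lit 4) (nat_lit 643) (nat_lit 483) (nat_lit 434))) (XT.nd (nat_lit 78) (nat_lit 228) (nat_lit 0) (XT.lf (nat_lit 0) (nat_lit 6903276998) (nat_lit 152) (nat_lit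 5981058855) (nat_lit 228) (nat_lit 1950625044) (nat_lit 36) (nat_lit 5) (nat_lit 38) (nat_lit 5) (nat_lit 39) (nat_lit 4) (nat_lit 644) (nat_lit 483) (nat_lit 433)) (XT.lf (nat_lit 0) (nat_lit 3886594212) (nat_lit 228) (nat_lit 11114515346) (nat_lit 76) (nat_lit 2066902) (nat_lit 33) (nat_lit 5) (nat_lit 36) (nat_lit 5) (nat_lit 34) (nat_lit 4) (nat_lit 645) (nat_lit 483) (nat_lit 432))))) (XT.nd (nat_lit 312) (nat_lit 228) (nat_lit 0) (XT.nd (nat_lit 156) (nat_lit 228) (nat_lit 0) (XT.nd (nat_lit 78) (nat_lit 76) (nat_lit 0) (XT.lf (nat_lit 0) (nat_lit 734933790) (nat_lit 76) (nat_lit 9123197371) (nat_lit 152) (nat_lit 5315493796) (nat_lit 32) (nat_lit 5) (nat_lit 33) (nat_lit 5) (nat_lit 34) (nat_lit 4) (nat_lit 646) (nat_lit 483) (nat_lit 431)) (XT.lf (nat_lit 0) (nat_lit 614568018) (nat_lit 152) (nat_lit 2479476967) (nat_lit 76) (nat_lit 12252942804) (nat_lit 31) (nat_lit 5) (nat_lit 33) (nat_lit 5) (nat_lit 32) (nat_lit 5) (nat_lit 647) (nat_lit 483)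 (nat_lit 430))) (XT.nd (nat_lit 78) (nat_lit 76) (nat_lit 0) (XT.lf (nat_lit 0) (nat_lit 6622198653) (nat_lit 228) (nat_lit 5831150284) (nat_lit 76) (nat_lit 3069163711) (nat_lit 29) (nat_lit 5) (nat_lit 32) (nat_lit 5) (nat_lit 30) (nat_lit 4) (nat_lit 648) (nat_lit 483) (nat_lit 429)) (XT.lf (nat_lit 0) (nat_lit 6402135547) (nat_lit 76) (nat_lit 6373585968) (nat_lit 152) (nat_lit 2925312010) (nat_lit 28) (nat_lit 5) (nat_lit 29) (nat_lit 5) (nat_lit 30) (nat_lit 4) (nat_lit 649) (nat_lit 483) (nat_lit 428)))) (XT.nd (nat_lit 76752) (nat_lit 0) (nat_lit 13832) (XT.nd (nat_lit 76674) (nat_lit 0) (nat_lit 14364) (XT.lf (nat_lit 0) (nat_lit 2995950250) (nat_lit 152) (nat_lit 137501072) (nat_lit 228) (nat_lit 12749145750) (nat_lit 25) (nat_lit 5) (nat_lit 27) (nat_lit 5) (nat_lit 28) (nat_lit 5) (nat_lit 650) (nat_lit 483) (nat_lit 427)) (XT.lf (nat_lit 0) (nat_lit 305550999) (nat_lit 532) (nat_lit 3856046139) (nat_lit 0) (nat_lit 305550999) (nat_lit 214)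 (nat_lit 5) (nat_lit 221) (nat_lit 4) (nat_lit 214) (nat_lit 4) (nat_lit 592) (nat_lit 484) (nat_lit 484))) (XT.nd (nat_lit 78) (nat_lit 76) (nat_lit 0) (XT.lf (nat_lit 0) (nat_lit 186619127) (nat_lit 456) (nat_lit 4870563831) (nat_lit 456) (nat_lit 3948193209) (nat_lit 208) (nat_lit 4) (nat_lit 214) (nat_lit 5) (nat_lit 214) (nat_lit 4) (nat_lit 593) (nat_lit 484) (nat_lit 483)) (XT.lf (nat_lit 0) (nat_lit 488487528) (nat_lit 532) (nat_lit 839910737) (nat_lit 76) (nat_lit 7749795542) (nat_lit 207) (nat_lit 5) (nat_lit 214) (nat_lit 5) (nat_lit 208) (nat_lit 4) (nat_lit 594) (nat_lit 484) (nat_lit 482))))))))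
noncomputable def xc14 : XT := (XT.nd (nat_lit 2418) (nat_lit 4104) (nat_lit 0) (XT.nd (nat_lit 1170) (nat_lit 3952) (nat_lit 0) (XT.nd (nat_lit 546) (nat_lit 2660) (nat_lit 0) (XT.nd (nat_lit 234) (nat_lit 1672) (nat_lit 0) (XT.nd (nat_lit 78) (nat_lit 912) (nat_lit 0) (XT.lf (nat_lit 0) (nat_lit 4953552422) (nat_lit 456) (nat_lit 1905001286) (nat_lit 0) (nat_lit 2293543214) (nat_lit 202) (nat_lit 5) (nat_lit 208) (nat_lit 4) (nat_lit 202) (nat_lit 4) (nat_lit 595) (nat_lit 484) (nat_lit 481)) (XT.nd (nat_lit 78) (nat_lit 380) (nat_lit 0) (XT.lf (nat_lit 0) (nat_lit 262385527) (nat_lit 532) (nat_lit 2982118323) (nat_lit 76) (nat_lit 5983226727) (nat_lit 195) (nat_lit 5) (nat_lit 202) (nat_lit 5) (nat_lit 196) (nat_lit 4) (nat_lit 596) (nat_lit 484) (nat_lit 480)) (XT.lf (nat_lit 0) (nat_lit 4737128476) (nat_lit 456) (nat_lit 4092760347) (nat_lit 0) (nat_lit 474818105) (nat_lit 190) (nat_lit 5) (nat_lit 196) (nat_lit 4) (nat_lit 190) (nat_lit 4) (nat_lit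 597) (nat_lit 484) (nat_lit 479)))) (XT.nd (nat_lit 156) (nat_lit 836) (nat_lit 0) (XT.nd (nat_lit 78) (nat_lit 456) (nat_lit 0) (XT.lf (nat_lit 0) (nat_lit 4154106298) (nat_lit 380) (nat_lit 5147204214) (nat_lit 380) (nat_lit 81914710) (nat_lit 185) (nat_lit 4) (nat_lit 190) (nat_lit 5) (nat_lit 190) (nat_lit 4) (nat_lit 598) (nat_lit 484) (nat_lit 478)) (XT.lf (nat_lit 0) (nat_lit 3062977469) (nat_lit 380) (nat_lit 1350637093) (nat_lit 456) (nat_lit 5049535383) (nat_lit 179) (nat_lit 5) (nat_lit 184) (nat_lit 5) (nat_lit 185) (nat_lit 4) (nat_lit 599) (nat_lit 484) (nat_lit 477))) (XT.nd (nat_lit 78) (nat_lit 456) (nat_lit 0) (XT.lf (nat_lit 0) (nat_lit 1949372515) (nat_lit 380) (nat_lit 7044899256) (nat_lit 380) (nat_lit 550465507) (nat_lit 174) (nat_lit 4) (nat_lit 179) (nat_lit 5) (nat_lit 179) (nat_lit 4) (nat_lit 600) (nat_lit 484) (nat_lit 476)) (XT.lf (nat_lit 0) (nat_lit 793451514) (nat_lit 380) (nat_lit 3181654357) (nat_lit 456) (nat_lit 5652537503)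 (nat_lit 168) (nat_lit 5) (nat_lit 173) (nat_lit 5) (nat_lit 174) (nat_lit 4) (nat_lit 601) (nat_lit 484) (nat_lit 475))))) (XT.nd (nat_lit 312) (nat_lit 1444) (nat_lit 0) (XT.nd (nat_lit 156) (nat_lit 760) (nat_lit 0) (XT.nd (nat_lit 78) (nat_lit 456) (nat_lit 0) (XT.lf (nat_lit 0) (nat_lit 8572601323) (nat_lit 456) (nat_lit 374555006) (nat_lit 0) (nat_lit 765203981) (nat_lit 168) (nat_lit 5) (nat_lit 174) (nat_lit 4) (nat_lit 168) (nat_lit 4) (nat_lit 602) (nat_lit 484) (nat_lit 474)) (XT.lf (nat_lit 0) (nat_lit 3426317209) (nat_lit 456) (nat_lit 1585278236) (nat_lit 76) (nat_lit 4786558260) (nat_lit 162) (nat_lit 5) (nat_lit 168) (nat_lit 5) (nat_lit 163) (nat_lit 4) (nat_lit 603) (nat_lit 484) (nat_lit 473))) (XT.nd (nat_lit 78) (nat_lit 456) (nat_lit 0) (XT.lf (nat_lit 0) (nat_lit 7071158329) (nat_lit 304) (nat_lit 979798248) (nat_lit 380) (nat_lit 1834906743) (nat_lit 158) (nat_lit 5) (nat_lit 162) (nat_lit 5) (nat_lit 163) (nat_lit 4) (nat_lit 604)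 (nat_lit 484) (nat_lit 472)) (XT.lf (nat_lit 0) (nat_lit 2759904150) (nat_lit 456) (nat_lit 4095259278) (nat_lit 76) (nat_lit 3119726696) (nat_lit 152) (nat_lit 5) (nat_lit 158) (nat_lit 5) (nat_lit 153) (nat_lit 4) (nat_lit 605) (nat_lit 484) (nat_lit 471)))) (XT.nd (nat_lit 156) (nat_lit 684) (nat_lit 0) (XT.nd (nat_lit 78) (nat_lit 456) (nat_lit 0) (XT.lf (nat_lit 0) (nat_lit 4656932352) (nat_lit 304) (nat_lit 2755446090) (nat_lit 380) (nat_lit 2653270742) (nat_lit 148) (nat_lit 5) (nat_lit 152) (nat_lit 5) (nat_lit 153) (nat_lit 4) (nat_lit 606) (nat_lit 484) (nat_lit 470)) (XT.lf (nat_lit 0) (nat_lit 1967392415) (nat_lit 456) (nat_lit 6760392486) (nat_lit 76) (nat_lit 1430301050) (nat_lit 142) (nat_lit 5) (nat_lit 148) (nat_lit 5) (nat_lit 143) (nat_lit 4) (nat_lit 607) (nat_lit 484) (nat_lit 469))) (XT.nd (nat_lit 78) (nat_lit 380) (nat_lit 0) (XT.lf (nat_lit 0) (nat_lit 2086643345) (nat_lit 304) (nat_lit 4561736031) (nat_lit 380) (nat_lit 3603573524)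 (nat_lit 138) (nat_lit 5) (nat_lit 142) (nat_lit 5) (nat_lit 143) (nat_lit 4) (nat_lit 608) (nat_lit 484) (nat_lit 468)) (XT.lf (nat_lit 0) (nat_lit 751313358) (nat_lit 304) (nat_lit 295648927) (nat_lit 380) (nat_lit 9300880684) (nat_lit 133) (nat_lit 5) (nat_lit 137) (nat_lit 5) (nat_lit 138) (nat_lit 5) (nat_lit 609) (nat_lit 484) (nat_lit 467)))))) (XT.nd (nat_lit 624) (nat_lit 1976) (nat_lit 0) (XT.nd (nat_lit 312) (nat_lit 988) (nat_lit 0) (XT.nd (nat_lit 156) (nat_lit 608) (nat_lit 0) (XT.nd (nat_lit 78) (nat_lit 380) (nat_lit 0) (XT.lf (nat_lit 0) (nat_lit 5759332838) (nat_lit 380) (nat_lit 645201692) (nat_lit 76) (nat_lit 4040299309) (nat_lit 133) (nat_lit 5) (nat_lit 138) (nat_lit 5) (nat_lit 134) (nat_lit 4) (nat_lit 610) (nat_lit 484) (nat_lit 466)) (XT.lf (nat_lit 0) (nat_lit 15737530) (nat_lit 380) (nat_lit 2054393144) (nat_lit 76) (nat_lit 8473755005) (nat_lit 128) (nat_lit 5) (nat_lit 133) (nat_lit 5) (nat_lit 129) (nat_lit 5) (nat_lit 611)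 (nat_lit 484) (nat_lit 465))) (XT.nd (nat_lit 78) (nat_lit 304) (nat_lit 0) (XT.lf (nat_lit 0) (nat_lit 4751443608) (nat_lit 380) (nat_lit 3531943687) (nat_lit 76) (nat_lit 2360849062) (nat_lit 124) (nat_lit 5) (nat_lit 129) (nat_lit 5) (nat_lit 125) (nat_lit 4) (nat_lit 612) (nat_lit 484) (nat_lit 464)) (XT.lf (nat_lit 0) (nat_lit 5699414966) (nat_lit 304) (nat_lit 3884278576) (nat_lit 380) (nat_lit 1162864755) (nat_lit 120) (nat_lit 5) (nat_lit 124) (nat_lit 5) (nat_lit 125) (nat_lit 4) (nat_lit 613) (nat_lit 484) (nat_lit 463)))) (XT.nd (nat_lit 156) (nat_lit 380) (nat_lit 0) (XT.nd (nat_lit 78) (nat_lit 228) (nat_lit 0) (XT.lf (nat_lit 0) (nat_lit 3606528601) (nat_lit 380) (nat_lit 6615835988) (nat_lit 76) (nat_lit 628229613) (nat_lit 115) (nat_lit 5) (nat_lit 120) (nat_lit 5) (nat_lit 116) (nat_lit 4) (nat_lit 614) (nat_lit 484) (nat_lit 462)) (XT.lf (nat_lit 0) (nat_lit 2710797992) (nat_lit 228) (nat_lit 5760019401) (nat_lit 304) (nat_lit 2485438928)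 (nat_lit 112) (nat_lit 5) (nat_lit 115) (nat_lit 5) (nat_lit 116) (nat_lit 4) (nat_lit 615) (nat_lit 484) (nat_lit 461))) (XT.nd (nat_lit 78) (nat_lit 0) (nat_lit 0) (XT.lf (nat_lit 0) (nat_lit 1143915010) (nat_lit 304) (nat_lit 1183277278) (nat_lit 380) (nat_lit 8736734749) (nat_lit 107) (nat_lit 5) (nat_lit 111) (nat_lit 5) (nat_lit 112) (nat_lit 5) (nat_lit 616) (nat_lit 484) (nat_lit 460)) (XT.lf (nat_lit 0) (nat_lit 7219182868) (nat_lit 380) (nat_lit 485424536) (nat_lit 76) (nat_lit 3468488199) (nat_lit 107) (nat_lit 5) (nat_lit 112) (nat_lit 5) (nat_lit 108) (nat_lit 4) (nat_lit 617) (nat_lit 484) (nat_lit 459))))) (XT.nd (nat_lit 312) (nat_lit 836) (nat_lit 0) (XT.nd (nat_lit 156) (nat_lit 532) (nat_lit 0) (XT.nd (nat_lit 78) (nat_lit 304) (nat_lit 0) (XT.lf (nat_lit 0) (nat_lit 918945341) (nat_lit 304) (nat_lit 2144486581) (nat_lit 76) (nat_lit 8220766171) (nat_lit 103) (nat_lit 5) (nat_lit 107) (nat_lit 5) (nat_lit 104) (nat_lit 5) (nat_lit 618)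 (nat_lit 484) (nat_lit 458)) (XT.lf (nat_lit 0) (nat_lit 5839016493) (nat_lit 380) (nat_lit 3873375060) (nat_lit 76) (nat_lit 1684555101) (nat_lit 99) (nat_lit 5) (nat_lit 104) (nat_lit 5) (nat_lit 100) (nat_lit 4) (nat_lit 619) (nat_lit 484) (nat_lit 457))) (XT.nd (nat_lit 78) (nat_lit 304) (nat_lit 0) (XT.lf (nat_lit 0) (nat_lit 5854348116) (nat_lit 228) (nat_lit 5015525999) (nat_lit 304) (nat_lit 641829060) (nat_lit 96) (nat_lit 5) (nat_lit 99) (nat_lit 5) (nat_lit 100) (nat_lit 4) (nat_lit 620) (nat_lit 484) (nat_lit 456)) (XT.lf (nat_lit 0) (nat_lit 4121829925) (nat_lit 228) (nat_lit 186057455) (nat_lit 304) (nat_lit 7320447502) (nat_lit 92) (nat_lit 5) (nat_lit 95) (nat_lit 5) (nat_lit 96) (nat_lit 5) (nat_lit 621) (nat_lit 484) (nat_lit 455)))) (XT.nd (nat_lit 156) (nat_lit 304) (nat_lit 0) (XT.nd (nat_lit 78) (nat_lit 304) (nat_lit 0) (XT.lf (nat_lit 0) (nat_lit 2317073173) (nat_lit 228) (nat_lit 7054909217) (nat_lit 304) (nat_lit 2374753067) (nat_lit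 89) (nat_lit 5) (nat_lit 92) (nat_lit 5) (nat_lit 93) (nat_lit 4) (nat_lit 622) (nat_lit 484) (nat_lit 454)) (XT.lf (nat_lit 0) (nat_lit 454548021) (nat_lit 228) (nat_lit 2175223834) (nat_lit 304) (nat_lit 9237487480) (nat_lit 85) (nat_lit 5) (nat_lit 88) (nat_lit 5) (nat_lit 89) (nat_lit 5) (nat_lit 623) (nat_lit 484) (nat_lit 453))) (XT.nd (nat_lit 78) (nat_lit 304) (nat_lit 0) (XT.lf (nat_lit 0) (nat_lit 7724760137) (nat_lit 304) (nat_lit 1464104086) (nat_lit 76) (nat_lit 2800572721) (nat_lit 85) (nat_lit 5) (nat_lit 89) (nat_lit 5) (nat_lit 86) (nat_lit 4) (nat_lit 624) (nat_lit 484) (nat_lit 452)) (XT.lf (nat_lit 0) (nat_lit 809262158) (nat_lit 304) (nat_lit 3439271810) (nat_lit 76) (nat_lit 7865174585) (nat_lit 81) (nat_lit 5) (nat_lit 85) (nat_lit 5) (nat_lit 82) (nat_lit 5) (nat_lit 625) (nat_lit 484) (nat_lit 451))))))) (XT.nd (nat_lit 1170) (nat_lit 1368) (nat_lit 0) (XT.nd (nat_lit 546) (nat_lit 1368) (nat_lit 0) (XT.nd (nat_lit 234) (nat_lit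 608) (nat_lit 0) (XT.nd (nat_lit 78) (nat_lit 532) (nat_lit 0) (XT.lf (nat_lit 0) (nat_lit 5928267982) (nat_lit 304) (nat_lit 5492945566) (nat_lit 76) (nat_lit 818674992) (nat_lit 78) (nat_lit 5) (nat_lit 82) (nat_lit 5) (nat_lit 79) (nat_lit 4) (nat_lit 626) (nat_lit 484) (nat_lit 450)) (XT.nd (nat_lit 78) (nat_lit 304) (nat_lit 0) (XT.lf (nat_lit 0) (nat_lit 4745993862) (nat_lit 228) (nat_lit 6427556478) (nat_lit 304) (nat_lit 1194564424) (nat_lit 75) (nat_lit 5) (nat_lit 78) (nat_lit 5) (nat_lit 79) (nat_lit 4) (nat_lit 627) (nat_lit 484) (nat_lit 449)) (XT.lf (nat_lit 0) (nat_lit 2671232102) (nat_lit 228) (nat_lit 1297069493) (nat_lit 304) (nat_lit 8530156721) (nat_lit 71) (nat_lit 5) (nat_lit 74) (nat_lit 5) (nat_lit 75) (nat_lit 5) (nat_lit 628) (nat_lit 484) (nat_lit 448)))) (XT.nd (nat_lit 156) (nat_lit 380) (nat_lit 0) (XT.nd (nat_lit 78) (nat_lit 76) (nat_lit 0) (XT.lf (nat_lit 0) (nat_lit 512695483) (nat_lit 152) (nat_lit 8728109095) (nat_lit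 228) (nat_lit 3389999276) (nat_lit 69) (nat_lit 5) (nat_lit 71) (nat_lit 5) (nat_lit 72) (nat_lit 4) (nat_lit 629) (nat_lit 484) (nat_lit 447)) (XT.lf (nat_lit 0) (nat_lit 1845708132) (nat_lit 228) (nat_lit 1696606831) (nat_lit 76) (nat_lit 9222900266) (nat_lit 68) (nat_lit 5) (nat_lit 71) (nat_lit 5) (nat_lit 69) (nat_lit 5) (nat_lit 630) (nat_lit 484) (nat_lit 446))) (XT.nd (nat_lit 78) (nat_lit 152) (nat_lit 0) (XT.lf (nat_lit 0) (nat_lit 7153532461) (nat_lit 304) (nat_lit 3987149026) (nat_lit 76) (nat_lit 1760929791) (nat_lit 65) (nat_lit 5) (nat_lit 69) (nat_lit 5) (nat_lit 66) (nat_lit 4) (nat_lit 631) (nat_lit 484) (nat_lit 445)) (XT.lf (nat_lit 0) (nat_lit 6682517712) (nat_lit 152) (nat_lit 5906682260) (nat_lit 228) (nat_lit 451102037) (nat_lit 63) (nat_lit 5) (nat_lit 65) (nat_lit 5) (nat_lit 66) (nat_lit 4) (nat_lit 632) (nat_lit 484) (nat_lit 444))))) (XT.nd (nat_lit 312) (nat_lit 608) (nat_lit 0) (XT.nd (nat_lit 156) (nat_lit 304) (nat_lit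 0) (XT.nd (nat_lit 78) (nat_lit 152) (nat_lit 0) (XT.lf (nat_lit 0) (nat_lit 4361350151) (nat_lit 228) (nat_lit 524230763) (nat_lit 304) (nat_lit 8295568892) (nat_lit 59) (nat_lit 5) (nat_lit 62) (nat_lit 5) (nat_lit 63) (nat_lit 5) (nat_lit 633) (nat_lit 484) (nat_lit 443)) (XT.lf (nat_lit 0) (nat_lit 1945011091) (nat_lit 152) (nat_lit 8409387278) (nat_lit 228) (nat_lit 2969728198) (nat_lit 57) (nat_lit 5) (nat_lit 59) (nat_lit 5) (nat_lit 60) (nat_lit 4) (nat_lit 634) (nat_lit 484) (nat_lit 442))) (XT.nd (nat_lit 78) (nat_lit 228) (nat_lit 0) (XT.lf (nat_lit 0) (nat_lit 2437075742) (nat_lit 228) (nat_lit 546110104) (nat_lit 76) (nat_lit 10486322799) (nat_lit 56) (nat_lit 5) (nat_lit 59) (nat_lit 5) (nat_lit 57) (nat_lit 5) (nat_lit 635) (nat_lit 484) (nat_lit 441)) (XT.lf (nat_lit 0) (nat_lit 7942258567) (nat_lit 304) (nat_lit 3112265612) (nat_lit 76) (nat_lit 2562281875) (nat_lit 53) (nat_lit 5) (nat_lit 57) (nat_lit 5) (nat_lit 54) (nat_lit 4) (nat_lit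 636) (nat_lit 484) (nat_lit 440)))) (XT.nd (nat_lit 156) (nat_lit 228) (nat_lit 0) (XT.nd (nat_lit 78) (nat_lit 228) (nat_lit 0) (XT.lf (nat_lit 0) (nat_lit 8001496639) (nat_lit 152) (nat_lit 5576389721) (nat_lit 228) (nat_lit 188756656) (nat_lit 51) (nat_lit 5) (nat_lit 53) (nat_lit 5) (nat_lit 54) (nat_lit 4) (nat_lit 637) (nat_lit 484) (nat_lit 439)) (XT.lf (nat_lit 0) (nat_lit 5337294075) (nat_lit 228) (nat_lit 8523314541) (nat_lit 76) (nat_lit 58137337) (nat_lit 48) (nat_lit 5) (nat_lit 51) (nat_lit 5) (nat_lit 49) (nat_lit 4) (nat_lit 638) (nat_lit 484) (nat_lit 438))) (XT.nd (nat_lit 78) (nat_lit 76) (nat_lit 0) (XT.lf (nat_lit 0) (nat_lit 2680466623) (nat_lit 152) (nat_lit 8329303794) (nat_lit 228) (nat_lit 3063327342) (nat_lit 46) (nat_lit 5) (nat_lit 48) (nat_lit 5) (nat_lit 49) (nat_lit 4) (nat_lit 639) (nat_lit 484) (nat_lit 437)) (XT.lf (nat_lit 0) (nat_lit 2534311468) (nat_lit 228) (nat_lit 123138005) (nat_lit 76) (nat_lit 11572698536) (nat_lit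 45) (nat_lit 5) (nat_lit 48) (nat_lit 5) (nat_lit 46) (nat_lit 5) (nat_lit 640) (nat_lit 484) (nat_lit 436)))))) (XT.nd (nat_lit 624) (nat_lit 152) (nat_lit 0) (XT.nd (nat_lit 312) (nat_lit 532) (nat_lit 0) (XT.nd (nat_lit 156) (nat_lit 380) (nat_lit 0) (XT.nd (nat_lit 78) (nat_lit 152) (nat_lit 0) (XT.lf (nat_lit 0) (nat_lit 8243890324) (nat_lit 228) (nat_lit 3007764973) (nat_lit 76) (nat_lit 3137459273) (nat_lit 43) (nat_lit 5) (nat_lit 46) (nat_lit 5) (nat_lit 44) (nat_lit 4) (nat_lit 641) (nat_lit 484) (nat_lit 435)) (XT.lf (nat_lit 0) (nat_lit 8562317508) (nat_lit 152) (nat_lit 5525787157) (nat_lit 228) (nat_lit 462747291) (nat_lit 41) (nat_lit 5) (nat_lit 43) (nat_lit 5) (nat_lit 44) (nat_lit 4) (nat_lit 642) (nat_lit 484) (nat_lit 434))) (XT.nd (nat_lit 78) (nat_lit 152) (nat_lit 0) (XT.lf (nat_lit 0) (nat_lit 5269135131) (nat_lit 228) (nat_lit 9087986291) (nat_lit 76) (nat_lit 357896388) (nat_lit 38) (nat_lit 5) (nat_lit 41) (nat_lit 5) (nat_lit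 39) (nat_lit 4) (nat_lit 643) (nat_lit 484) (nat_lit 433)) (XT.lf (nat_lit 0) (nat_lit 2569284277) (nat_lit 152) (nat_lit 8580511008) (nat_lit 228) (nat_lit 3731804148) (nat_lit 36) (nat_lit 5) (nat_lit 38) (nat_lit 5) (nat_lit 39) (nat_lit 4) (nat_lit 644) (nat_lit 484) (nat_lit 432)))) (XT.nd (nat_lit 156) (nat_lit 304) (nat_lit 0) (XT.nd (nat_lit 78) (nat_lit 152) (nat_lit 0) (XT.lf (nat_lit 0) (nat_lit 2077108104) (nat_lit 228) (nat_lit 580386030) (nat_lit 76) (nat_lit 12393585671) (nat_lit 35) (nat_lit 5) (nat_lit 38) (nat_lit 5) (nat_lit 36) (nat_lit 5) (nat_lit 645) (nat_lit 484) (nat_lit 431)) (XT.lf (nat_lit 0) (nat_lit 7996425400) (nat_lit 228) (nat_lit 3831215115) (nat_lit 76) (nat_lit 3394932345) (nat_lit 33) (nat_lit 5) (nat_lit 36) (nat_lit 5) (nat_lit 34) (nat_lit 4) (nat_lit 646) (nat_lit 484) (nat_lit 430))) (XT.nd (nat_lit 78) (nat_lit 228) (nat_lit 0) (XT.lf (nat_lit 0) (nat_lit 8205844119) (nat_lit 76) (nat_lit 5850898870) (nat_lit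 152) (nat_lit 1340300833) (nat_lit 32) (nat_lit 5) (nat_lit 33) (nat_lit 5) (nat_lit 34) (nat_lit 4) (nat_lit 647) (nat_lit 484) (nat_lit 429)) (XT.lf (nat_lit 0) (nat_lit 4609534785) (nat_lit 228) (nat_lit 10678488436) (nat_lit 76) (nat_lit 286227123) (nat_lit 29) (nat_lit 5) (nat_lit 32) (nat_lit 5) (nat_lit 30) (nat_lit 4) (nat_lit 648) (nat_lit 484) (nat_lit 428))))) (XT.nd (nat_lit 76752) (nat_lit 0) (nat_lit 13300) (XT.nd (nat_lit 76596) (nat_lit 0) (nat_lit 14744) (XT.nd (nat_lit 78) (nat_lit 76) (nat_lit 0) (XT.lf (nat_lit 0) (nat_lit 1441572206) (nat_lit 76) (nat_lit 9263522763) (nat_lit 152) (nat_lit 5048835655) (nat_lit 28) (nat_lit 5) (nat_lit 29) (nat_lit 5) (nat_lit 30) (nat_lit 4) (nat_lit 649) (nat_lit 484) (nat_lit 427)) (XT.lf (nat_lit 0) (nat_lit 992595878) (nat_lit 152) (nat_lit 2091207005) (nat_lit 76) (nat_lit 12852870826) (nat_lit 27) (nat_lit 5) (nat_lit 29) (nat_lit 5) (nat_lit 28) (nat_lit 5) (nat_lit 650) (nat_lit 484) (nat_lit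 426))) (XT.nd (nat_lit 78) (nat_lit 456) (nat_lit 0) (XT.lf (nat_lit 0) (nat_lit 814017981) (nat_lit 532) (nat_lit 2769573355) (nat_lit 0) (nat_lit 814017981) (nat_lit 227) (nat_lit 5) (nat_lit 234) (nat_lit 4) (nat_lit 227) (nat_lit 4) (nat_lit 590) (nat_lit 485) (nat_lit 485)) (XT.lf (nat_lit 0) (nat_lit 2215844652) (nat_lit 456) (nat_lit 3804016935) (nat_lit 456) (nat_lit 2844382540) (nat_lit 221) (nat_lit 4) (nat_lit 227) (nat_lit 5) (nat_lit 227) (nat_lit 4) (nat_lit 591) (nat_lit 485) (nat_lit 484)))) (XT.nd (nat_lit 156) (nat_lit 456) (nat_lit 0) (XT.nd (nat_lit 78) (nat_lit 456) (nat_lit 0) (XT.lf (nat_lit 0) (nat_lit 1167621915) (nat_lit 456) (nat_lit 351226769) (nat_lit 532) (nat_lit 7416109760) (nat_lit 214) (nat_lit 5) (nat_lit 220) (nat_lit 5) (nat_lit 221) (nat_lit 4) (nat_lit 592) (nat_lit 485) (nat_lit 483)) (XT.lf (nat_lit 0) (nat_lit 80336005) (nat_lit 456) (nat_lit 5846964607) (nat_lit 456) (nat_lit 3079491028) (nat_lit 208) (nat_lit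 4) (nat_lit 214) (nat_lit 5) (nat_lit 214) (nat_lit 4) (nat_lit 593) (nat_lit 485) (nat_lit 482))) (XT.nd (nat_lit 78) (nat_lit 380) (nat_lit 0) (XT.lf (nat_lit 0) (nat_lit 1311254668) (nat_lit 532) (nat_lit 1005292996) (nat_lit 76) (nat_lit 6763640348) (nat_lit 207) (nat_lit 5) (nat_lit 214) (nat_lit 5) (nat_lit 208) (nat_lit 4) (nat_lit 594) (nat_lit 485) (nat_lit 481)) (XT.lf (nat_lit 0) (nat_lit 5734494724) (nat_lit 456) (nat_lit 2120446569) (nat_lit 0) (nat_lit 1299987014) (nat_lit 202) (nat_lit 5) (nat_lit 208) (nat_lit 4) (nat_lit 202) (nat_lit 4) (nat_lit 595) (nat_lit 485) (nat_lit 480))))))))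
noncomputable def xc15 : XT := (XT.nd (nat_lit 2418) (nat_lit 3800) (nat_lit 0) (XT.nd (nat_lit 1170) (nat_lit 4180) (nat_lit 0) (XT.nd (nat_lit 546) (nat_lit 2660) (nat_lit 0) (XT.nd (nat_lit 234) (nat_lit 1216) (nat_lit 0) (XT.nd (nat_lit 78) (nat_lit 836) (nat_lit 0) (XT.lf (nat_lit 0) (nat_lit 994660705) (nat_lit 532) (nat_lit 3260712574) (nat_lit 76) (nat_lit 4975800912) (nat_lit 195) (nat_lit 5) (nat_lit 202) (nat_lit 5) (nat_lit 196) (nat_lit 4) (nat_lit 596) (nat_lit 485) (nat_lit 479)) (XT.nd (nat_lit 78) (nat_lit 456) (nat_lit 0) (XT.lf (nat_lit 0) (nat_lit 4880797409) (nat_lit 380) (nat_lit 549778494) (nat_lit 456) (nat_lit 3878351838) (nat_lit 190) (nat_lit 5) (nat_lit 195) (nat_lit 5) (nat_lit 196) (nat_lit 4) (nat_lit 597) (nat_lit 485) (nat_lit 478)) (XT.lf (nat_lit 0) (nat_lit 559670972) (nat_lit 456) (nat_lit 5626273506) (nat_lit 76) (nat_lit 3202216834) (nat_lit 184) (nat_lit 5) (nat_lit 190) (nat_lit 5) (nat_lit 185) (nat_lit 4) (nat_lit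 598) (nat_lit 485) (nat_lit 477)))) (XT.nd (nat_lit 156) (nat_lit 380) (nat_lit 0) (XT.nd (nat_lit 78) (nat_lit 456) (nat_lit 0) (XT.lf (nat_lit 0) (nat_lit 2607648904) (nat_lit 380) (nat_lit 2410299734) (nat_lit 456) (nat_lit 4450850914) (nat_lit 179) (nat_lit 5) (nat_lit 184) (nat_lit 5) (nat_lit 185) (nat_lit 4) (nat_lit 599) (nat_lit 485) (nat_lit 476)) (XT.lf (nat_lit 0) (nat_lit 4068397) (nat_lit 456) (nat_lit 8114598032) (nat_lit 76) (nat_lit 1432585142) (nat_lit 173) (nat_lit 5) (nat_lit 179) (nat_lit 5) (nat_lit 174) (nat_lit 4) (nat_lit 600) (nat_lit 485) (nat_lit 475))) (XT.nd (nat_lit 78) (nat_lit 0) (nat_lit 0) (XT.lf (nat_lit 0) (nat_lit 211039422) (nat_lit 380) (nat_lit 4274672734) (nat_lit 456) (nat_lit 5149108766) (nat_lit 168) (nat_lit 5) (nat_lit 173) (nat_lit 5) (nat_lit 174) (nat_lit 4) (nat_lit 601) (nat_lit 485) (nat_lit 474)) (XT.lf (nat_lit 0) (nat_lit 8708903620) (nat_lit 380) (nat_lit 336653432) (nat_lit 456) (nat_lit 674734378)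 (nat_lit 168) (nat_lit 5) (nat_lit 173) (nat_lit 5) (nat_lit 174) (nat_lit 4) (nat_lit 602) (nat_lit 485) (nat_lit 473))))) (XT.nd (nat_lit 312) (nat_lit 1140) (nat_lit 0) (XT.nd (nat_lit 156) (nat_lit 760) (nat_lit 0) (XT.nd (nat_lit 78) (nat_lit 304) (nat_lit 0) (XT.lf (nat_lit 0) (nat_lit 3846190218) (nat_lit 456) (nat_lit 2291640154) (nat_lit 76) (nat_lit 3668975661) (nat_lit 162) (nat_lit 5) (nat_lit 168) (nat_lit 5) (nat_lit 163) (nat_lit 4) (nat_lit 603) (nat_lit 485) (nat_lit 472)) (XT.lf (nat_lit 0) (nat_lit 6303507650) (nat_lit 304) (nat_lit 2130328520) (nat_lit 380) (nat_lit 1461419877) (nat_lit 158) (nat_lit 5) (nat_lit 162) (nat_lit 5) (nat_lit 163) (nat_lit 4) (nat_lit 604) (nat_lit 485) (nat_lit 471))) (XT.nd (nat_lit 78) (nat_lit 304) (nat_lit 0) (XT.lf (nat_lit 0) (nat_lit 3083488439) (nat_lit 456) (nat_lit 4939553333) (nat_lit 76) (nat_lit 1962093171) (nat_lit 152) (nat_lit 5) (nat_lit 158) (nat_lit 5) (nat_lit 153) (nat_lit 4) (nat_lit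 605) (nat_lit 485) (nat_lit 470)) (XT.lf (nat_lit 0) (nat_lit 3749255400) (nat_lit 304) (nat_lit 3949060910) (nat_lit 380) (nat_lit 2378331119) (nat_lit 148) (nat_lit 5) (nat_lit 152) (nat_lit 5) (nat_lit 153) (nat_lit 4) (nat_lit 606) (nat_lit 485) (nat_lit 469)))) (XT.nd (nat_lit 156) (nat_lit 380) (nat_lit 0) (XT.nd (nat_lit 78) (nat_lit 304) (nat_lit 0) (XT.lf (nat_lit 0) (nat_lit 2192750426) (nat_lit 456) (nat_lit 7749146623) (nat_lit 76) (nat_lit 228071438) (nat_lit 142) (nat_lit 5) (nat_lit 148) (nat_lit 5) (nat_lit 143) (nat_lit 4) (nat_lit 607) (nat_lit 485) (nat_lit 468)) (XT.lf (nat_lit 0) (nat_lit 1032340482) (nat_lit 304) (nat_lit 5803039859) (nat_lit 380) (nat_lit 3429222706) (nat_lit 138) (nat_lit 5) (nat_lit 142) (nat_lit 5) (nat_lit 143) (nat_lit 4) (nat_lit 608) (nat_lit 485) (nat_lit 467))) (XT.nd (nat_lit 78) (nat_lit 304) (nat_lit 0) (XT.lf (nat_lit 0) (nat_lit 1182713645) (nat_lit 380) (nat_lit 378424547) (nat_lit 76) (nat_lit 8800058992)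 (nat_lit 137) (nat_lit 5) (nat_lit 142) (nat_lit 5) (nat_lit 138) (nat_lit 5) (nat_lit 609) (nat_lit 485) (nat_lit 466)) (XT.lf (nat_lit 0) (nat_lit 5853077313) (nat_lit 380) (nat_lit 1837089937) (nat_lit 76) (nat_lit 2768861384) (nat_lit 133) (nat_lit 5) (nat_lit 138) (nat_lit 5) (nat_lit 134) (nat_lit 4) (nat_lit 610) (nat_lit 485) (nat_lit 465)))))) (XT.nd (nat_lit 624) (nat_lit 1900) (nat_lit 0) (XT.nd (nat_lit 312) (nat_lit 912) (nat_lit 0) (XT.nd (nat_lit 156) (nat_lit 684) (nat_lit 0) (XT.nd (nat_lit 78) (nat_lit 304) (nat_lit 0) (XT.lf (nat_lit 0) (nat_lit 55138813) (nat_lit 380) (nat_lit 3328960727) (nat_lit 76) (nat_lit 7174753131) (nat_lit 128) (nat_lit 5) (nat_lit 133) (nat_lit 5) (nat_lit 129) (nat_lit 5) (nat_lit 611) (nat_lit 485) (nat_lit 464)) (XT.lf (nat_lit 0) (nat_lit 4742802849) (nat_lit 380) (nat_lit 4882163367) (nat_lit 76) (nat_lit 1035198391) (nat_lit 124) (nat_lit 5) (nat_lit 129) (nat_lit 5) (nat_lit 125) (nat_lit 4) (nat_lit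 612) (nat_lit 485) (nat_lit 463))) (XT.nd (nat_lit 78) (nat_lit 380) (nat_lit 0) (XT.lf (nat_lit 0) (nat_lit 4279429019) (nat_lit 304) (nat_lit 5255943451) (nat_lit 380) (nat_lit 1227908091) (nat_lit 120) (nat_lit 5) (nat_lit 124) (nat_lit 5) (nat_lit 125) (nat_lit 4) (nat_lit 613) (nat_lit 485) (nat_lit 462)) (XT.lf (nat_lit 0) (nat_lit 2731709270) (nat_lit 304) (nat_lit 766316025) (nat_lit 380) (nat_lit 7370186271) (nat_lit 115) (nat_lit 5) (nat_lit 119) (nat_lit 5) (nat_lit 120) (nat_lit 5) (nat_lit 614) (nat_lit 485) (nat_lit 461)))) (XT.nd (nat_lit 156) (nat_lit 608) (nat_lit 0) (XT.nd (nat_lit 78) (nat_lit 76) (nat_lit 0) (XT.lf (nat_lit 0) (nat_lit 1122939992) (nat_lit 228) (nat_lit 7193826419) (nat_lit 304) (nat_lit 2658018613) (nat_lit 112) (nat_lit 5) (nat_lit 115) (nat_lit 5) (nat_lit 116) (nat_lit 4) (nat_lit 615) (nat_lit 485) (nat_lit 460)) (XT.lf (nat_lit 0) (nat_lit 2119249327) (nat_lit 304) (nat_lit 527759852) (nat_lit 76) (nat_lit 8436221875)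 (nat_lit 111) (nat_lit 5) (nat_lit 115) (nat_lit 5) (nat_lit 112) (nat_lit 5) (nat_lit 616) (nat_lit 485) (nat_lit 459))) (XT.nd (nat_lit 78) (nat_lit 304) (nat_lit 0) (XT.lf (nat_lit 0) (nat_lit 6968165057) (nat_lit 380) (nat_lit 2225489771) (nat_lit 76) (nat_lit 1999606652) (nat_lit 107) (nat_lit 5) (nat_lit 112) (nat_lit 5) (nat_lit 108) (nat_lit 4) (nat_lit 617) (nat_lit 485) (nat_lit 458)) (XT.lf (nat_lit 0) (nat_lit 609777971) (nat_lit 304) (nat_lit 3977824700) (nat_lit 76) (nat_lit 6717627668) (nat_lit 103) (nat_lit 5) (nat_lit 107) (nat_lit 5) (nat_lit 104) (nat_lit 5) (nat_lit 618) (nat_lit 485) (nat_lit 457))))) (XT.nd (nat_lit 312) (nat_lit 836) (nat_lit 0) (XT.nd (nat_lit 156) (nat_lit 532) (nat_lit 0) (XT.nd (nat_lit 78) (nat_lit 228) (nat_lit 0) (XT.lf (nat_lit 0) (nat_lit 5477911473) (nat_lit 380) (nat_lit 5794081591) (nat_lit 76) (nat_lit 147024929) (nat_lit 99) (nat_lit 5) (nat_lit 104) (nat_lit 5) (nat_lit 100) (nat_lit 4) (nat_lit 619)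 (nat_lit 485) (nat_lit 456)) (XT.lf (nat_lit 0) (nat_lit 3856749936) (nat_lit 228) (nat_lit 6609735298) (nat_lit 304) (nat_lit 1068135293) (nat_lit 96) (nat_lit 5) (nat_lit 99) (nat_lit 5) (nat_lit 100) (nat_lit 4) (nat_lit 620) (nat_lit 485) (nat_lit 455))) (XT.nd (nat_lit 78) (nat_lit 228) (nat_lit 0) (XT.lf (nat_lit 0) (nat_lit 2025844587) (nat_lit 228) (nat_lit 1818459993) (nat_lit 304) (nat_lit 7807860687) (nat_lit 92) (nat_lit 5) (nat_lit 95) (nat_lit 5) (nat_lit 96) (nat_lit 5) (nat_lit 621) (nat_lit 485) (nat_lit 454)) (XT.lf (nat_lit 0) (nat_lit 128293665) (nat_lit 228) (nat_lit 8726144582) (nat_lit 304) (nat_lit 2917207137) (nat_lit 89) (nat_lit 5) (nat_lit 92) (nat_lit 5) (nat_lit 93) (nat_lit 4) (nat_lit 622) (nat_lit 485) (nat_lit 453)))) (XT.nd (nat_lit 156) (nat_lit 532) (nat_lit 0) (XT.nd (nat_lit 78) (nat_lit 228) (nat_lit 0) (XT.lf (nat_lit 0) (nat_lit 2062381078) (nat_lit 304) (nat_lit 1812489555) (nat_lit 76) (nat_lit 8018010395) (nat_lit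 88) (nat_lit 5) (nat_lit 92) (nat_lit 5) (nat_lit 89) (nat_lit 5) (nat_lit 623) (nat_lit 485) (nat_lit 452)) (XT.lf (nat_lit 0) (nat_lit 7105332252) (nat_lit 304) (nat_lit 3820984834) (nat_lit 76) (nat_lit 1089782591) (nat_lit 85) (nat_lit 5) (nat_lit 89) (nat_lit 5) (nat_lit 86) (nat_lit 4) (nat_lit 624) (nat_lit 485) (nat_lit 451))) (XT.nd (nat_lit 78) (nat_lit 228) (nat_lit 0) (XT.lf (nat_lit 0) (nat_lit 127086866) (nat_lit 304) (nat_lit 5901209158) (nat_lit 76) (nat_lit 6113050609) (nat_lit 81) (nat_lit 5) (nat_lit 85) (nat_lit 5) (nat_lit 82) (nat_lit 5) (nat_lit 625) (nat_lit 485) (nat_lit 450)) (XT.lf (nat_lit 0) (nat_lit 4207057849) (nat_lit 228) (nat_lit 988740388) (nat_lit 304) (nat_lit 7072734552) (nat_lit 78) (nat_lit 5) (nat_lit 81) (nat_lit 5) (nat_lit 82) (nat_lit 5) (nat_lit 626) (nat_lit 485) (nat_lit 449))))))) (XT.nd (nat_lit 1248) (nat_lit 988) (nat_lit 0) (XT.nd (nat_lit 624) (nat_lit 1368) (nat_lit 0) (XT.nd (nat_lit 312) (nat_lit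 684) (nat_lit 0) (XT.nd (nat_lit 156) (nat_lit 456) (nat_lit 0) (XT.nd (nat_lit 78) (nat_lit 76) (nat_lit 0) (XT.lf (nat_lit 0) (nat_lit 2099016243) (nat_lit 228) (nat_lit 8290170237) (nat_lit 304) (nat_lit 2008610691) (nat_lit 75) (nat_lit 5) (nat_lit 78) (nat_lit 5) (nat_lit 79) (nat_lit 4) (nat_lit 627) (nat_lit 485) (nat_lit 448)) (XT.lf (nat_lit 0) (nat_lit 3119344782) (nat_lit 304) (nat_lit 85374155) (nat_lit 76) (nat_lit 9324439495) (nat_lit 74) (nat_lit 5) (nat_lit 78) (nat_lit 5) (nat_lit 75) (nat_lit 5) (nat_lit 628) (nat_lit 485) (nat_lit 447))) (XT.nd (nat_lit 78) (nat_lit 228) (nat_lit 0) (XT.lf (nat_lit 0) (nat_lit 8347412518) (nat_lit 304) (nat_lit 2320377608) (nat_lit 76) (nat_lit 1994602808) (nat_lit 71) (nat_lit 5) (nat_lit 75) (nat_lit 5) (nat_lit 72) (nat_lit 4) (nat_lit 629) (nat_lit 485) (nat_lit 446)) (XT.lf (nat_lit 0) (nat_lit 889378696) (nat_lit 228) (nat_lit 4636633507) (nat_lit 76) (nat_lit 7271782058) (nat_lit 68) (nat_lit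 5) (nat_lit 71) (nat_lit 5) (nat_lit 69) (nat_lit 5) (nat_lit 630) (nat_lit 485) (nat_lit 445)))) (XT.nd (nat_lit 156) (nat_lit 304) (nat_lit 0) (XT.nd (nat_lit 78) (nat_lit 152) (nat_lit 0) (XT.lf (nat_lit 0) (nat_lit 5897182767) (nat_lit 228) (nat_lit 241206674) (nat_lit 304) (nat_lit 6796977386) (nat_lit 65) (nat_lit 5) (nat_lit 68) (nat_lit 5) (nat_lit 69) (nat_lit 5) (nat_lit 631) (nat_lit 485) (nat_lit 444)) (XT.lf (nat_lit 0) (nat_lit 3542442003) (nat_lit 152) (nat_lit 7982181221) (nat_lit 228) (nat_lit 1550423247) (nat_lit 63) (nat_lit 5) (nat_lit 65) (nat_lit 5) (nat_lit 66) (nat_lit 4) (nat_lit 632) (nat_lit 485) (nat_lit 443))) (XT.nd (nat_lit 78) (nat_lit 0) (nat_lit 0) (XT.lf (nat_lit 0) (nat_lit 1101449481) (nat_lit 228) (nat_lit 2650621662) (nat_lit 304) (nat_lit 9464938234) (nat_lit 59) (nat_lit 5) (nat_lit 62) (nat_lit 5) (nat_lit 63) (nat_lit 5) (nat_lit 633) (nat_lit 485) (nat_lit 442)) (XT.lf (nat_lit 0) (nat_lit 9167090160) (nat_lit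 304) (nat_lit 1411993162) (nat_lit 76) (nat_lit 2781979010) (nat_lit 59) (nat_lit 5) (nat_lit 63) (nat_lit 5) (nat_lit 60) (nat_lit 4) (nat_lit 634) (nat_lit 485) (nat_lit 441))))) (XT.nd (nat_lit 312) (nat_lit 532) (nat_lit 0) (XT.nd (nat_lit 156) (nat_lit 380) (nat_lit 0) (XT.nd (nat_lit 78) (nat_lit 228) (nat_lit 0) (XT.lf (nat_lit 0) (nat_lit 1192209819) (nat_lit 228) (nat_lit 4000568673) (nat_lit 76) (nat_lit 8314558669) (nat_lit 56) (nat_lit 5) (nat_lit 59) (nat_lit 5) (nat_lit 57) (nat_lit 5) (nat_lit 635) (nat_lit 485) (nat_lit 440)) (XT.lf (nat_lit 0) (nat_lit 6632914411) (nat_lit 304) (nat_lit 6686069266) (nat_lit 76) (nat_lit 336940672) (nat_lit 53) (nat_lit 5) (nat_lit 57) (nat_lit 5) (nat_lit 54) (nat_lit 4) (nat_lit 636) (nat_lit 485) (nat_lit 439))) (XT.nd (nat_lit 78) (nat_lit 228) (nat_lit 0) (XT.lf (nat_lit 0) (nat_lit 4330874918) (nat_lit 152) (nat_lit 7887114701) (nat_lit 228) (nat_lit 1588782951) (nat_lit 51) (nat_lit 5) (nat_lit 53)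 (nat_lit 5) (nat_lit 54) (nat_lit 4) (nat_lit 637) (nat_lit 485) (nat_lit 438)) (XT.lf (nat_lit 0) (nat_lit 1595607878) (nat_lit 152) (nat_lit 2308279231) (nat_lit 228) (nat_lit 10056205241) (nat_lit 48) (nat_lit 5) (nat_lit 50) (nat_lit 5) (nat_lit 51) (nat_lit 5) (nat_lit 638) (nat_lit 485) (nat_lit 437)))) (XT.nd (nat_lit 156) (nat_lit 304) (nat_lit 0) (XT.nd (nat_lit 78) (nat_lit 228) (nat_lit 0) (XT.lf (nat_lit 0) (nat_lit 9517353718) (nat_lit 228) (nat_lit 1229650023) (nat_lit 76) (nat_lit 3368620807) (nat_lit 48) (nat_lit 5) (nat_lit 51) (nat_lit 5) (nat_lit 49) (nat_lit 4) (nat_lit 639) (nat_lit 485) (nat_lit 436)) (XT.lf (nat_lit 0) (nat_lit 984768402) (nat_lit 228) (nat_lit 4131076590) (nat_lit 76) (nat_lit 9157723924) (nat_lit 45) (nat_lit 5) (nat_lit 48) (nat_lit 5) (nat_lit 46) (nat_lit 5) (nat_lit 640) (nat_lit 485) (nat_lit 435))) (XT.nd (nat_lit 78) (nat_lit 152) (nat_lit 0) (XT.lf (nat_lit 0) (nat_lit 6625318761) (nat_lit 228) (nat_lit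 7145653585) (nat_lit 76) (nat_lit 662943886) (nat_lit 43) (nat_lit 5) (nat_lit 46) (nat_lit 5) (nat_lit 44) (nat_lit 4) (nat_lit 641) (nat_lit 485) (nat_lit 434)) (XT.lf (nat_lit 0) (nat_lit 4320885555) (nat_lit 152) (nat_lit 8095105120) (nat_lit 228) (nat_lit 2180733974) (nat_lit 41) (nat_lit 5) (nat_lit 43) (nat_lit 5) (nat_lit 44) (nat_lit 4) (nat_lit 642) (nat_lit 485) (nat_lit 433)))))) (XT.nd (nat_lit 76908) (nat_lit 0) (nat_lit 13224) (XT.nd (nat_lit 312) (nat_lit 380) (nat_lit 0) (XT.nd (nat_lit 156) (nat_lit 380) (nat_lit 0) (XT.nd (nat_lit 78) (nat_lit 0) (nat_lit 0) (XT.lf (nat_lit 0) (nat_lit 1247871566) (nat_lit 152) (nat_lit 2269031533) (nat_lit 228) (nat_lit 11245346205) (nat_lit 38) (nat_lit 5) (nat_lit 40) (nat_lit 5) (nat_lit 41) (nat_lit 5) (nat_lit 643) (nat_lit 485) (nat_lit 432)) (XT.lf (nat_lit 0) (nat_lit 9340233377) (nat_lit 228) (nat_lit 1924076374) (nat_lit 76) (nat_lit 3665667944) (nat_lit 38) (nat_lit 5) (nat_lit 41) (nat_lit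 5) (nat_lit 39) (nat_lit 4) (nat_lit 644) (nat_lit 485) (nat_lit 431))) (XT.nd (nat_lit 78) (nat_lit 152) (nat_lit 0) (XT.lf (nat_lit 0) (nat_lit 204904657) (nat_lit 228) (nat_lit 5183834289) (nat_lit 76) (nat_lit 9711733156) (nat_lit 35) (nat_lit 5) (nat_lit 38) (nat_lit 5) (nat_lit 36) (nat_lit 5) (nat_lit 645) (nat_lit 485) (nat_lit 430)) (XT.lf (nat_lit 0) (nat_lit 6050169011) (nat_lit 228) (nat_lit 8575993146) (nat_lit 76) (nat_lit 647284219) (nat_lit 33) (nat_lit 5) (nat_lit 36) (nat_lit 5) (nat_lit 34) (nat_lit 4) (nat_lit 646) (nat_lit 485) (nat_lit 429)))) (XT.nd (nat_lit 156) (nat_lit 228) (nat_lit 0) (XT.nd (nat_lit 78) (nat_lit 76) (nat_lit 0) (XT.lf (nat_lit 0) (nat_lit 3350238878) (nat_lit 76) (nat_lit 8703394975) (nat_lit 152) (nat_lit 3395420697) (nat_lit 32) (nat_lit 5) (nat_lit 33) (nat_lit 5) (nat_lit 34) (nat_lit 4) (nat_lit 647) (nat_lit 485) (nat_lit 428)) (XT.lf (nat_lit 0) (nat_lit 2522385089) (nat_lit 152) (nat_lit 107995413) (nat_lit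 76) (nat_lit 12997327248) (nat_lit 31) (nat_lit 5) (nat_lit 33) (nat_lit 5) (nat_lit 32) (nat_lit 5) (nat_lit 648) (nat_lit 485) (nat_lit 427))) (XT.nd (nat_lit 78) (nat_lit 76) (nat_lit 0) (XT.lf (nat_lit 0) (nat_lit 8565541854) (nat_lit 228) (nat_lit 3666137599) (nat_lit 76) (nat_lit 3576756796) (nat_lit 29) (nat_lit 5) (nat_lit 32) (nat_lit 5) (nat_lit 30) (nat_lit 4) (nat_lit 649) (nat_lit 485) (nat_lit 426)) (XT.lf (nat_lit 0) (nat_lit 8648785305) (nat_lit 76) (nat_lit 6105073647) (nat_lit 152) (nat_lit 1238434716) (nat_lit 28) (nat_lit 5) (nat_lit 29) (nat_lit 5) (nat_lit 30) (nat_lit 4) (nat_lit 650) (nat_lit 485) (nat_lit 425))))) (XT.nd (nat_lit 312) (nat_lit 1444) (nat_lit 0) (XT.nd (nat_lit 156) (nat_lit 988) (nat_lit 0) (XT.nd (nat_lit 78) (nat_lit 532) (nat_lit 0) (XT.lf (nat_lit 0) (nat_lit 1329121383) (nat_lit 532) (nat_lit 1672004107) (nat_lit 0) (nat_lit 1329121383) (nat_lit 241) (nat_lit 5) (nat_lit 248) (nat_lit 4) (nat_lit 241) (nat_lit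 4) (nat_lit 588) (nat_lit 486) (nat_lit 486)) (XT.lf (nat_lit 0) (nat_lit 4269965524) (nat_lit 532) (nat_lit 2727961069) (nat_lit 532) (nat_lit 1729557444) (nat_lit 234) (nat_lit 4) (nat_lit 241) (nat_lit 5) (nat_lit 241) (nat_lit 4) (nat_lit 589) (nat_lit 486) (nat_lit 485))) (XT.nd (nat_lit 78) (nat_lit 456) (nat_lit 0) (XT.lf (nat_lit 0) (nat_lit 2571838669) (nat_lit 532) (nat_lit 5590704034) (nat_lit 0) (nat_lit 633377191) (nat_lit 227) (nat_lit 5) (nat_lit 234) (nat_lit 4) (nat_lit 227) (nat_lit 4) (nat_lit 590) (nat_lit 486) (nat_lit 484)) (XT.lf (nat_lit 0) (nat_lit 2112384029) (nat_lit 456) (nat_lit 4816270905) (nat_lit 456) (nat_lit 1936991393) (nat_lit 221) (nat_lit 4) (nat_lit 227) (nat_lit 5) (nat_lit 227) (nat_lit 4) (nat_lit 591) (nat_lit 486) (nat_lit 483)))) (XT.nd (nat_lit 156) (nat_lit 912) (nat_lit 0) (XT.nd (nat_lit 78) (nat_lit 0) (nat_lit 0) (XT.lf (nat_lit 0) (nat_lit 1004053181) (nat_lit 456) (nat_lit 1375007866) (nat_lit 532) (nat_lit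 6557888060) (nat_lit 214) (nat_lit 5) (nat_lit 220) (nat_lit 5) (nat_lit 221) (nat_lit 4) (nat_lit 592) (nat_lit 486) (nat_lit 482)) (XT.lf (nat_lit 0) (nat_lit 6746365319) (nat_lit 532) (nat_lit 130537148) (nat_lit 0) (nat_lit 2132703498) (nat_lit 214) (nat_lit 5) (nat_lit 221) (nat_lit 4) (nat_lit 214) (nat_lit 4) (nat_lit 593) (nat_lit 486) (nat_lit 481))) (XT.nd (nat_lit 78) (nat_lit 380) (nat_lit 0) (XT.lf (nat_lit 0) (nat_lit 2082070729) (nat_lit 532) (nat_lit 1277049385) (nat_lit 76) (nat_lit 5724471495) (nat_lit 207) (nat_lit 5) (nat_lit 214) (nat_lit 5) (nat_lit 208) (nat_lit 4) (nat_lit 594) (nat_lit 486) (nat_lit 480)) (XT.lf (nat_lit 0) (nat_lit 6463100953) (nat_lit 456) (nat_lit 2443720100) (nat_lit 0) (nat_lit 252355718) (nat_lit 202) (nat_lit 5) (nat_lit 208) (nat_lit 4) (nat_lit 202) (nat_lit 4) (nat_lit 595) (nat_lit 486) (nat_lit 479))))))))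
noncomputable def xc16 : XT := (XT.nd (nat_lit 2418) (nat_lit 3800) (nat_lit 0) (XT.nd (nat_lit 1170) (nat_lit 4180) (nat_lit 0) (XT.nd (nat_lit 546) (nat_lit 2660) (nat_lit 0) (XT.nd (nat_lit 234) (nat_lit 1216) (nat_lit 0) (XT.nd (nat_lit 78) (nat_lit 836) (nat_lit 0) (XT.lf (nat_lit 0) (nat_lit 1673844283) (nat_lit 532) (nat_lit 3648618497) (nat_lit 76) (nat_lit 3913579942) (nat_lit 195) (nat_lit 5) (nat_lit 202) (nat_lit 5) (nat_lit 196) (nat_lit 4) (nat_lit 596) (nat_lit 486) (nat_lit 478)) (XT.nd (nat_lit 78) (nat_lit 456) (nat_lit 0) (XT.lf (nat_lit 0) (nat_lit 4436717962) (nat_lit 380) (nat_lit 1637282555) (nat_lit 456) (nat_lit 3240511566) (nat_lit 190) (nat_lit 5) (nat_lit 195) (nat_lit 5) (nat_lit 196) (nat_lit 4) (nat_lit 597) (nat_lit 486) (nat_lit 477)) (XT.lf (nat_lit 0) (nat_lit 1145886165) (nat_lit 456) (nat_lit 6136287913) (nat_lit 76) (nat_lit 2112354551) (nat_lit 184) (nat_lit 5) (nat_lit 190) (nat_lit 5) (nat_lit 185) (nat_lit 4) (nat_lit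 598) (nat_lit 486) (nat_lit 476)))) (XT.nd (nat_lit 156) (nat_lit 380) (nat_lit 0) (XT.nd (nat_lit 78) (nat_lit 456) (nat_lit 0) (XT.lf (nat_lit 0) (nat_lit 2039526189) (nat_lit 380) (nat_lit 3528379419) (nat_lit 456) (nat_lit 3907987021) (nat_lit 179) (nat_lit 5) (nat_lit 184) (nat_lit 5) (nat_lit 185) (nat_lit 4) (nat_lit 599) (nat_lit 486) (nat_lit 475)) (XT.lf (nat_lit 0) (nat_lit 495817080) (nat_lit 456) (nat_lit 8752833556) (nat_lit 76) (nat_lit 310504000) (nat_lit 173) (nat_lit 5) (nat_lit 179) (nat_lit 5) (nat_lit 174) (nat_lit 4) (nat_lit 600) (nat_lit 486) (nat_lit 474))) (XT.nd (nat_lit 78) (nat_lit 380) (nat_lit 0) (XT.lf (nat_lit 0) (nat_lit 4943809494) (nat_lit 456) (nat_lit 480911370) (nat_lit 76) (nat_lit 4218676712) (nat_lit 173) (nat_lit 5) (nat_lit 179) (nat_lit 5) (nat_lit 174) (nat_lit 4) (nat_lit 601) (nat_lit 486) (nat_lit 473)) (XT.lf (nat_lit 0) (nat_lit 7959949500) (nat_lit 380) (nat_lit 1508564216) (nat_lit 456) (nat_lit 261057731)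 (nat_lit 168) (nat_lit 5) (nat_lit 173) (nat_lit 5) (nat_lit 174) (nat_lit 4) (nat_lit 602) (nat_lit 486) (nat_lit 472))))) (XT.nd (nat_lit 312) (nat_lit 1140) (nat_lit 0) (XT.nd (nat_lit 156) (nat_lit 760) (nat_lit 0) (XT.nd (nat_lit 78) (nat_lit 304) (nat_lit 0) (XT.lf (nat_lit 0) (nat_lit 4209801862) (nat_lit 456) (nat_lit 3115595498) (nat_lit 76) (nat_lit 2491528292) (nat_lit 162) (nat_lit 5) (nat_lit 168) (nat_lit 5) (nat_lit 163) (nat_lit 4) (nat_lit 603) (nat_lit 486) (nat_lit 471)) (XT.lf (nat_lit 0) (nat_lit 5417718467) (nat_lit 304) (nat_lit 3342596529) (nat_lit 380) (nat_lit 1145803843) (nat_lit 158) (nat_lit 5) (nat_lit 162) (nat_lit 5) (nat_lit 163) (nat_lit 4) (nat_lit 604) (nat_lit 486) (nat_lit 470))) (XT.nd (nat_lit 78) (nat_lit 304) (nat_lit 0) (XT.lf (nat_lit 0) (nat_lit 3349402992) (nat_lit 456) (nat_lit 5904719940) (nat_lit 76) (nat_lit 742745561) (nat_lit 152) (nat_lit 5) (nat_lit 158) (nat_lit 5) (nat_lit 153) (nat_lit 4) (nat_lit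 605) (nat_lit 486) (nat_lit 469)) (XT.lf (nat_lit 0) (nat_lit 2720122362) (nat_lit 304) (nat_lit 5206296120) (nat_lit 380) (nat_lit 2162719234) (nat_lit 148) (nat_lit 5) (nat_lit 152) (nat_lit 5) (nat_lit 153) (nat_lit 4) (nat_lit 606) (nat_lit 486) (nat_lit 468)))) (XT.nd (nat_lit 156) (nat_lit 684) (nat_lit 0) (XT.nd (nat_lit 78) (nat_lit 0) (nat_lit 0) (XT.lf (nat_lit 0) (nat_lit 1314245862) (nat_lit 380) (nat_lit 1051543191) (nat_lit 456) (nat_lit 7817437101) (nat_lit 142) (nat_lit 5) (nat_lit 147) (nat_lit 5) (nat_lit 148) (nat_lit 5) (nat_lit 607) (nat_lit 486) (nat_lit 467)) (XT.lf (nat_lit 0) (nat_lit 6963995082) (nat_lit 456) (nat_lit 144912411) (nat_lit 76) (nat_lit 3169842160) (nat_lit 142) (nat_lit 5) (nat_lit 148) (nat_lit 5) (nat_lit 143) (nat_lit 4) (nat_lit 608) (nat_lit 486) (nat_lit 466))) (XT.nd (nat_lit 78) (nat_lit 304) (nat_lit 0) (XT.lf (nat_lit 0) (nat_lit 1263902401) (nat_lit 380) (nat_lit 1623289424) (nat_lit 76) (nat_lit 7488773104)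 (nat_lit 137) (nat_lit 5) (nat_lit 142) (nat_lit 5) (nat_lit 138) (nat_lit 5) (nat_lit 609) (nat_lit 486) (nat_lit 465)) (XT.lf (nat_lit 0) (nat_lit 5886741364) (nat_lit 380) (nat_lit 3155697622) (nat_lit 76) (nat_lit 1432308322) (nat_lit 133) (nat_lit 5) (nat_lit 138) (nat_lit 5) (nat_lit 134) (nat_lit 4) (nat_lit 610) (nat_lit 486) (nat_lit 464)))))) (XT.nd (nat_lit 624) (nat_lit 1900) (nat_lit 0) (XT.nd (nat_lit 312) (nat_lit 912) (nat_lit 0) (XT.nd (nat_lit 156) (nat_lit 684) (nat_lit 0) (XT.nd (nat_lit 78) (nat_lit 304) (nat_lit 0) (XT.lf (nat_lit 0) (nat_lit 33516539) (nat_lit 380) (nat_lit 4732046768) (nat_lit 76) (nat_lit 5809792769) (nat_lit 128) (nat_lit 5) (nat_lit 133) (nat_lit 5) (nat_lit 129) (nat_lit 5) (nat_lit 611) (nat_lit 486) (nat_lit 463)) (XT.lf (nat_lit 0) (nat_lit 4312547682) (nat_lit 304) (nat_lit 362262781) (nat_lit 380) (nat_lit 6002785360) (nat_lit 124) (nat_lit 5) (nat_lit 128) (nat_lit 5) (nat_lit 129) (nat_lit 5) (nat_lit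 612) (nat_lit 486) (nat_lit 462))) (XT.nd (nat_lit 78) (nat_lit 380) (nat_lit 0) (XT.lf (nat_lit 0) (nat_lit 2728414362) (nat_lit 304) (nat_lit 6696679904) (nat_lit 380) (nat_lit 1356463628) (nat_lit 120) (nat_lit 5) (nat_lit 124) (nat_lit 5) (nat_lit 125) (nat_lit 4) (nat_lit 613) (nat_lit 486) (nat_lit 461)) (XT.lf (nat_lit 0) (nat_lit 1091534148) (nat_lit 304) (nat_lit 2239174718) (nat_lit 380) (nat_lit 7556606050) (nat_lit 115) (nat_lit 5) (nat_lit 119) (nat_lit 5) (nat_lit 120) (nat_lit 5) (nat_lit 614) (nat_lit 486) (nat_lit 460)))) (XT.nd (nat_lit 156) (nat_lit 608) (nat_lit 0) (XT.nd (nat_lit 78) (nat_lit 304) (nat_lit 0) (XT.lf (nat_lit 0) (nat_lit 8102926906) (nat_lit 380) (nat_lit 591838636) (nat_lit 76) (nat_lit 2300053670) (nat_lit 115) (nat_lit 5) (nat_lit 120) (nat_lit 5) (nat_lit 116) (nat_lit 4) (nat_lit 615) (nat_lit 486) (nat_lit 459)) (XT.lf (nat_lit 0) (nat_lit 1854915982) (nat_lit 304) (nat_lit 2319369568) (nat_lit 76) (nat_lit 6929680963)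 (nat_lit 111) (nat_lit 5) (nat_lit 115) (nat_lit 5) (nat_lit 112) (nat_lit 5) (nat_lit 616) (nat_lit 486) (nat_lit 458))) (XT.nd (nat_lit 78) (nat_lit 304) (nat_lit 0) (XT.lf (nat_lit 0) (nat_lit 6652564153) (nat_lit 380) (nat_lit 4102405474) (nat_lit 76) (nat_lit 460053020) (nat_lit 107) (nat_lit 5) (nat_lit 112) (nat_lit 5) (nat_lit 108) (nat_lit 4) (nat_lit 617) (nat_lit 486) (nat_lit 457)) (XT.lf (nat_lit 0) (nat_lit 234982427) (nat_lit 304) (nat_lit 5949998049) (nat_lit 76) (nat_lit 5142892339) (nat_lit 103) (nat_lit 5) (nat_lit 107) (nat_lit 5) (nat_lit 104) (nat_lit 5) (nat_lit 618) (nat_lit 486) (nat_lit 456))))) (XT.nd (nat_lit 312) (nat_lit 1064) (nat_lit 0) (XT.nd (nat_lit 156) (nat_lit 304) (nat_lit 0) (XT.nd (nat_lit 78) (nat_lit 228) (nat_lit 0) (XT.lf (nat_lit 0) (nat_lit 3577294826) (nat_lit 304) (nat_lit 1482701671) (nat_lit 380) (nat_lit 6382526698) (nat_lit 99) (nat_lit 5) (nat_lit 103) (nat_lit 5) (nat_lit 104) (nat_lit 5) (nat_lit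 619) (nat_lit 486) (nat_lit 455)) (XT.lf (nat_lit 0) (nat_lit 1717474041) (nat_lit 228) (nat_lit 8278840596) (nat_lit 304) (nat_lit 1562856533) (nat_lit 96) (nat_lit 5) (nat_lit 99) (nat_lit 5) (nat_lit 100) (nat_lit 4) (nat_lit 620) (nat_lit 486) (nat_lit 454))) (XT.nd (nat_lit 78) (nat_lit 228) (nat_lit 0) (XT.lf (nat_lit 0) (nat_lit 3314233157) (nat_lit 304) (nat_lit 211092585) (nat_lit 76) (nat_lit 8152291495) (nat_lit 95) (nat_lit 5) (nat_lit 99) (nat_lit 5) (nat_lit 96) (nat_lit 5) (nat_lit 621) (nat_lit 486) (nat_lit 453)) (XT.lf (nat_lit 0) (nat_lit 8282473695) (nat_lit 304) (nat_lit 2177378862) (nat_lit 76) (nat_lit 1338082969) (nat_lit 92) (nat_lit 5) (nat_lit 96) (nat_lit 5) (nat_lit 93) (nat_lit 4) (nat_lit 622) (nat_lit 486) (nat_lit 452)))) (XT.nd (nat_lit 156) (nat_lit 532) (nat_lit 0) (XT.nd (nat_lit 78) (nat_lit 228) (nat_lit 0) (XT.lf (nat_lit 0) (nat_lit 1429023596) (nat_lit 304) (nat_lit 4219606233) (nat_lit 76) (nat_lit 6271478303)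 (nat_lit 88) (nat_lit 5) (nat_lit 92) (nat_lit 5) (nat_lit 89) (nat_lit 5) (nat_lit 623) (nat_lit 486) (nat_lit 451)) (XT.lf (nat_lit 0) (nat_lit 5713739798) (nat_lit 228) (nat_lit 706937256) (nat_lit 304) (nat_lit 5623675973) (nat_lit 85) (nat_lit 5) (nat_lit 88) (nat_lit 5) (nat_lit 89) (nat_lit 5) (nat_lit 624) (nat_lit 486) (nat_lit 450))) (XT.nd (nat_lit 78) (nat_lit 304) (nat_lit 0) (XT.lf (nat_lit 0) (nat_lit 3652980210) (nat_lit 228) (nat_lit 7883238171) (nat_lit 304) (nat_lit 634383923) (nat_lit 82) (nat_lit 5) (nat_lit 85) (nat_lit 5) (nat_lit 86) (nat_lit 4) (nat_lit 625) (nat_lit 486) (nat_lit 449)) (XT.lf (nat_lit 0) (nat_lit 1510318656) (nat_lit 228) (nat_lit 2886994198) (nat_lit 304) (nat_lit 7901464950) (nat_lit 78) (nat_lit 5) (nat_lit 81) (nat_lit 5) (nat_lit 82) (nat_lit 5) (nat_lit 626) (nat_lit 486) (nat_lit 448))))))) (XT.nd (nat_lit 1170) (nat_lit 1140) (nat_lit 0) (XT.nd (nat_lit 546) (nat_lit 1444) (nat_lit 0) (XT.nd (nat_lit 234)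 (nat_lit 684) (nat_lit 0) (XT.nd (nat_lit 78) (nat_lit 532) (nat_lit 0) (XT.lf (nat_lit 0) (nat_lit 9537014226) (nat_lit 304) (nat_lit 692341054) (nat_lit 76) (nat_lit 2199760913) (nat_lit 78) (nat_lit 5) (nat_lit 82) (nat_lit 5) (nat_lit 79) (nat_lit 4) (nat_lit 627) (nat_lit 486) (nat_lit 447)) (XT.nd (nat_lit 78) (nat_lit 228) (nat_lit 0) (XT.lf (nat_lit 0) (nat_lit 2215165907) (nat_lit 304) (nat_lit 2960789643) (nat_lit 76) (nat_lit 7385282382) (nat_lit 74) (nat_lit 5) (nat_lit 78) (nat_lit 5) (nat_lit 75) (nat_lit 5) (nat_lit 628) (nat_lit 486) (nat_lit 446)) (XT.lf (nat_lit 0) (nat_lit 7383789277) (nat_lit 304) (nat_lit 5302840098) (nat_lit 76) (nat_lit 9032202) (nat_lit 71) (nat_lit 5) (nat_lit 75) (nat_lit 5) (nat_lit 72) (nat_lit 4) (nat_lit 629) (nat_lit 486) (nat_lit 445)))) (XT.nd (nat_lit 156) (nat_lit 228) (nat_lit 0) (XT.nd (nat_lit 78) (nat_lit 304) (nat_lit 0) (XT.lf (nat_lit 0) (nat_lit 5096055198) (nat_lit 152) (nat_lit 7592429407) (nat_lit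 228) (nat_lit 143635601) (nat_lit 69) (nat_lit 5) (nat_lit 71) (nat_lit 5) (nat_lit 72) (nat_lit 4) (nat_lit 630) (nat_lit 486) (nat_lit 444)) (XT.lf (nat_lit 0) (nat_lit 2708488610) (nat_lit 228) (nat_lit 2351046027) (nat_lit 304) (nat_lit 7911131511) (nat_lit 65) (nat_lit 5) (nat_lit 68) (nat_lit 5) (nat_lit 69) (nat_lit 5) (nat_lit 631) (nat_lit 486) (nat_lit 443))) (XT.nd (nat_lit 78) (nat_lit 76) (nat_lit 0) (XT.lf (nat_lit 0) (nat_lit 240384939) (nat_lit 152) (nat_lit 10143304488) (nat_lit 228) (nat_lit 2727898181) (nat_lit 63) (nat_lit 5) (nat_lit 65) (nat_lit 5) (nat_lit 66) (nat_lit 4) (nat_lit 632) (nat_lit 486) (nat_lit 442)) (XT.lf (nat_lit 0) (nat_lit 2555984804) (nat_lit 228) (nat_lit 2292443437) (nat_lit 76) (nat_lit 8405956481) (nat_lit 62) (nat_lit 5) (nat_lit 65) (nat_lit 5) (nat_lit 63) (nat_lit 5) (nat_lit 633) (nat_lit 486) (nat_lit 441))))) (XT.nd (nat_lit 312) (nat_lit 608) (nat_lit 0) (XT.nd (nat_lit 156) (nat_lit 456) (nat_lit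 0) (XT.nd (nat_lit 78) (nat_lit 152) (nat_lit 0) (XT.lf (nat_lit 0) (nat_lit 7914724814) (nat_lit 304) (nat_lit 4908228328) (nat_lit 76) (nat_lit 576610337) (nat_lit 59) (nat_lit 5) (nat_lit 63) (nat_lit 5) (nat_lit 60) (nat_lit 4) (nat_lit 634) (nat_lit 486) (nat_lit 440)) (XT.lf (nat_lit 0) (nat_lit 5923820693) (nat_lit 152) (nat_lit 7489745225) (nat_lit 228) (nat_lit 133421805) (nat_lit 57) (nat_lit 5) (nat_lit 59) (nat_lit 5) (nat_lit 60) (nat_lit 4) (nat_lit 635) (nat_lit 486) (nat_lit 439))) (XT.nd (nat_lit 78) (nat_lit 152) (nat_lit 0) (XT.lf (nat_lit 0) (nat_lit 3253966785) (nat_lit 228) (nat_lit 2002442412) (nat_lit 304) (nat_lit 8440235716) (nat_lit 53) (nat_lit 5) (nat_lit 56) (nat_lit 5) (nat_lit 57) (nat_lit 5) (nat_lit 636) (nat_lit 486) (nat_lit 438)) (XT.lf (nat_lit 0) (nat_lit 489159706) (nat_lit 152) (nat_lit 10288184008) (nat_lit 228) (nat_lit 3071432438) (nat_lit 51) (nat_lit 5) (nat_lit 53) (nat_lit 5) (nat_lit 54) (nat_lit 4) (nat_lit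 637) (nat_lit 486) (nat_lit 437)))) (XT.nd (nat_lit 156) (nat_lit 380) (nat_lit 0) (XT.nd (nat_lit 78) (nat_lit 152) (nat_lit 0) (XT.lf (nat_lit 0) (nat_lit 2404160076) (nat_lit 228) (nat_lit 2347167927) (nat_lit 76) (nat_lit 9251691107) (nat_lit 50) (nat_lit 5) (nat_lit 53) (nat_lit 5) (nat_lit 51) (nat_lit 5) (nat_lit 638) (nat_lit 486) (nat_lit 436)) (XT.lf (nat_lit 0) (nat_lit 7960123098) (nat_lit 228) (nat_lit 5278712242) (nat_lit 76) (nat_lit 920866232) (nat_lit 48) (nat_lit 5) (nat_lit 51) (nat_lit 5) (nat_lit 49) (nat_lit 4) (nat_lit 639) (nat_lit 486) (nat_lit 435))) (XT.nd (nat_lit 78) (nat_lit 228) (nat_lit 0) (XT.lf (nat_lit 0) (nat_lit 5998720791) (nat_lit 152) (nat_lit 7663069699) (nat_lit 228) (nat_lit 657035872) (nat_lit 46) (nat_lit 5) (nat_lit 48) (nat_lit 5) (nat_lit 49) (nat_lit 4) (nat_lit 640) (nat_lit 486) (nat_lit 434)) (XT.lf (nat_lit 0) (nat_lit 3004795501) (nat_lit 152) (nat_lit 1929579816) (nat_lit 228) (nat_lit 9546038985)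 (nat_lit 43) (nat_lit 5) (nat_lit 45) (nat_lit 5) (nat_lit 46) (nat_lit 5) (nat_lit 641) (nat_lit 486) (nat_lit 433)))))) (XT.nd (nat_lit 76830) (nat_lit 0) (nat_lit 14136) (XT.nd (nat_lit 312) (nat_lit 608) (nat_lit 0) (XT.nd (nat_lit 156) (nat_lit 304) (nat_lit 0) (XT.nd (nat_lit 78) (nat_lit 228) (nat_lit 0) (XT.lf (nat_lit 0) (nat_lit 10658970714) (nat_lit 228) (nat_lit 100197405) (nat_lit 76) (nat_lit 3885376309) (nat_lit 43) (nat_lit 5) (nat_lit 46) (nat_lit 5) (nat_lit 44) (nat_lit 4) (nat_lit 642) (nat_lit 486) (nat_lit 432)) (XT.lf (nat_lit 0) (nat_lit 1701503425) (nat_lit 228) (nat_lit 3274025603) (nat_lit 76) (nat_lit 9835459206) (nat_lit 40) (nat_lit 5) (nat_lit 43) (nat_lit 5) (nat_lit 41) (nat_lit 5) (nat_lit 643) (nat_lit 486) (nat_lit 431))) (XT.nd (nat_lit 78) (nat_lit 152) (nat_lit 0) (XT.lf (nat_lit 0) (nat_lit 7460170878) (nat_lit 228) (nat_lit 6568001690) (nat_lit 76) (nat_lit 951837481) (nat_lit 38) (nat_lit 5) (nat_lit 41) (nat_lit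 5) (nat_lit 39) (nat_lit 4) (nat_lit 644) (nat_lit 486) (nat_lit 430)) (XT.lf (nat_lit 0) (nat_lit 5165618450) (nat_lit 152) (nat_lit 8206680192) (nat_lit 228) (nat_lit 1779348252) (nat_lit 36) (nat_lit 5) (nat_lit 38) (nat_lit 5) (nat_lit 39) (nat_lit 4) (nat_lit 645) (nat_lit 486) (nat_lit 429)))) (XT.nd (nat_lit 156) (nat_lit 380) (nat_lit 0) (XT.nd (nat_lit 78) (nat_lit 0) (nat_lit 0) (XT.lf (nat_lit 0) (nat_lit 1800708910) (nat_lit 152) (nat_lit 2227581105) (nat_lit 228) (nat_lit 11297781616) (nat_lit 33) (nat_lit 5) (nat_lit 35) (nat_lit 5) (nat_lit 36) (nat_lit 5) (nat_lit 646) (nat_lit 486) (nat_lit 428)) (XT.lf (nat_lit 0) (nat_lit 9970709620) (nat_lit 228) (nat_lit 1674827410) (nat_lit 76) (nat_lit 3857363835) (nat_lit 33) (nat_lit 5) (nat_lit 36) (nat_lit 5) (nat_lit 34) (nat_lit 4) (nat_lit 647) (nat_lit 486) (nat_lit 427))) (XT.nd (nat_lit 156) (nat_lit 228) (nat_lit 0) (XT.lf (nat_lit 0) (nat_lit 377742177) (nat_lit 152) (nat_lit 5241686032)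 (nat_lit 76) (nat_lit 10063121401) (nat_lit 31) (nat_lit 5) (nat_lit 33) (nat_lit 5) (nat_lit 32) (nat_lit 5) (nat_lit 648) (nat_lit 486) (nat_lit 426)) (XT.lf (nat_lit 0) (nat_lit 3248473262) (nat_lit 76) (nat_lit 9223250347) (nat_lit 152) (nat_lit 3578162058) (nat_lit 28) (nat_lit 5) (nat_lit 29) (nat_lit 5) (nat_lit 30) (nat_lit 4) (nat_lit 650) (nat_lit 486) (nat_lit 424))))) (XT.nd (nat_lit 312) (nat_lit 1520) (nat_lit 0) (XT.nd (nat_lit 156) (nat_lit 1064) (nat_lit 0) (XT.nd (nat_lit 78) (nat_lit 532) (nat_lit 0) (XT.lf (nat_lit 0) (nat_lit 1851720129) (nat_lit 608) (nat_lit 561604347) (nat_lit 0) (nat_lit 1851720129) (nat_lit 255) (nat_lit 5) (nat_lit 263) (nat_lit 4) (nat_lit 255) (nat_lit 4) (nat_lit 586) (nat_lit 487) (nat_lit 487)) (XT.lf (nat_lit 0) (nat_lit 6352435310) (nat_lit 532) (nat_lit 1640682833) (nat_lit 532) (nat_lit 601943702) (nat_lit 248) (nat_lit 4) (nat_lit 255) (nat_lit 5) (nat_lit 255) (nat_lit 4) (nat_lit 587) (nat_lit 487)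 (nat_lit 486))) (XT.nd (nat_lit 78) (nat_lit 532) (nat_lit 0) (XT.lf (nat_lit 0) (nat_lit 3641896257) (nat_lit 532) (nat_lit 3394171718) (nat_lit 0) (nat_lit 1625120936) (nat_lit 241) (nat_lit 5) (nat_lit 248) (nat_lit 4) (nat_lit 241) (nat_lit 4) (nat_lit 588) (nat_lit 487) (nat_lit 485)) (XT.lf (nat_lit 0) (nat_lit 4169301893) (nat_lit 532) (nat_lit 3777587160) (nat_lit 532) (nat_lit 781984755) (nat_lit 234) (nat_lit 4) (nat_lit 241) (nat_lit 5) (nat_lit 241) (nat_lit 4) (nat_lit 589) (nat_lit 487) (nat_lit 484)))) (XT.nd (nat_lit 156) (nat_lit 532) (nat_lit 0) (XT.nd (nat_lit 78) (nat_lit 456) (nat_lit 0) (XT.lf (nat_lit 0) (nat_lit 3049859443) (nat_lit 456) (nat_lit 418009983) (nat_lit 532) (nat_lit 5330100236) (nat_lit 227) (nat_lit 5) (nat_lit 233) (nat_lit 5) (nat_lit 234) (nat_lit 4) (nat_lit 590) (nat_lit 487) (nat_lit 483)) (XT.lf (nat_lit 0) (nat_lit 1905422211) (nat_lit 456) (nat_lit 5881541412) (nat_lit 456) (nat_lit 1081487653) (nat_lit 221)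 (nat_lit 4) (nat_lit 227) (nat_lit 5) (nat_lit 227) (nat_lit 4) (nat_lit 591) (nat_lit 487) (nat_lit 482))) (XT.nd (nat_lit 78) (nat_lit 0) (nat_lit 0) (XT.lf (nat_lit 0) (nat_lit 735534466) (nat_lit 456) (nat_lit 2452521547) (nat_lit 532) (nat_lit 5752293437) (nat_lit 214) (nat_lit 5) (nat_lit 220) (nat_lit 5) (nat_lit 221) (nat_lit 4) (nat_lit 592) (nat_lit 487) (nat_lit 481)) (XT.lf (nat_lit 0) (nat_lit 7515051613) (nat_lit 532) (nat_lit 445369296) (nat_lit 0) (nat_lit 1053392272) (nat_lit 214) (nat_lit 5) (nat_lit 221) (nat_lit 4) (nat_lit 214) (nat_lit 4) (nat_lit 593) (nat_lit 487) (nat_lit 480))))))))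
noncomputable def xc17 : XT := (XT.nd (nat_lit 2418) (nat_lit 4256) (nat_lit 0) (XT.nd (nat_lit 1170) (nat_lit 4332) (nat_lit 0) (XT.nd (nat_lit 546) (nat_lit 2356) (nat_lit 0) (XT.nd (nat_lit 234) (nat_lit 1672) (nat_lit 0) (XT.nd (nat_lit 78) (nat_lit 912) (nat_lit 0) (XT.lf (nat_lit 0) (nat_lit 2801237992) (nat_lit 532) (nat_lit 1655286476) (nat_lit 76) (nat_lit 4631881467) (nat_lit 207) (nat_lit 5) (nat_lit 214) (nat_lit 5) (nat_lit 208) (nat_lit 4) (nat_lit 594) (nat_lit 487) (nat_lit 479)) (XT.nd (nat_lit 78) (nat_lit 532) (nat_lit 0) (XT.lf (nat_lit 0) (nat_lit 6284192983) (nat_lit 380) (nat_lit 861054390) (nat_lit 456) (nat_lit 2019484799) (nat_lit 202) (nat_lit 5) (nat_lit 207) (nat_lit 5) (nat_lit 208) (nat_lit 4) (nat_lit 595) (nat_lit 487) (nat_lit 478)) (XT.lf (nat_lit 0) (nat_lit 2300202607) (nat_lit 532) (nat_lit 4145988211) (nat_lit 76) (nat_lit 2796147260) (nat_lit 195) (nat_lit 5) (nat_lit 202) (nat_lit 5) (nat_lit 196) (nat_lit 4) (nat_lit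 596) (nat_lit 487) (nat_lit 477)))) (XT.nd (nat_lit 156) (nat_lit 836) (nat_lit 0) (XT.nd (nat_lit 78) (nat_lit 456) (nat_lit 0) (XT.lf (nat_lit 0) (nat_lit 3882720369) (nat_lit 380) (nat_lit 2781810468) (nat_lit 456) (nat_lit 2656993782) (nat_lit 190) (nat_lit 5) (nat_lit 195) (nat_lit 5) (nat_lit 196) (nat_lit 4) (nat_lit 597) (nat_lit 487) (nat_lit 476)) (XT.lf (nat_lit 0) (nat_lit 1678035082) (nat_lit 456) (nat_lit 6758830307) (nat_lit 76) (nat_lit 965474918) (nat_lit 184) (nat_lit 5) (nat_lit 190) (nat_lit 5) (nat_lit 185) (nat_lit 4) (nat_lit 598) (nat_lit 487) (nat_lit 475))) (XT.nd (nat_lit 78) (nat_lit 456) (nat_lit 0) (XT.lf (nat_lit 0) (nat_lit 1358386530) (nat_lit 380) (nat_lit 4705314610) (nat_lit 456) (nat_lit 3420730818) (nat_lit 179) (nat_lit 5) (nat_lit 184) (nat_lit 5) (nat_lit 185) (nat_lit 4) (nat_lit 599) (nat_lit 487) (nat_lit 474)) (XT.lf (nat_lit 0) (nat_lit 55932445) (nat_lit 380) (nat_lit 881986837) (nat_lit 456) (nat_lit 8630487243)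 (nat_lit 173) (nat_lit 5) (nat_lit 178) (nat_lit 5) (nat_lit 179) (nat_lit 5) (nat_lit 600) (nat_lit 487) (nat_lit 473))))) (XT.nd (nat_lit 312) (nat_lit 1216) (nat_lit 0) (XT.nd (nat_lit 156) (nat_lit 684) (nat_lit 0) (XT.nd (nat_lit 78) (nat_lit 456) (nat_lit 0) (XT.lf (nat_lit 0) (nat_lit 5348537078) (nat_lit 456) (nat_lit 1284773930) (nat_lit 76) (nat_lit 3020086499) (nat_lit 173) (nat_lit 5) (nat_lit 179) (nat_lit 5) (nat_lit 174) (nat_lit 4) (nat_lit 601) (nat_lit 487) (nat_lit 472)) (XT.lf (nat_lit 0) (nat_lit 95035289) (nat_lit 456) (nat_lit 2645145758) (nat_lit 76) (nat_lit 7000111132) (nat_lit 167) (nat_lit 5) (nat_lit 173) (nat_lit 5) (nat_lit 168) (nat_lit 5) (nat_lit 602) (nat_lit 487) (nat_lit 471))) (XT.nd (nat_lit 78) (nat_lit 304) (nat_lit 0) (XT.lf (nat_lit 0) (nat_lit 4517294733) (nat_lit 456) (nat_lit 4057467388) (nat_lit 76) (nat_lit 1253754409) (nat_lit 162) (nat_lit 5) (nat_lit 168) (nat_lit 5) (nat_lit 163) (nat_lit 4) (nat_lit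 603) (nat_lit 487) (nat_lit 470)) (XT.lf (nat_lit 0) (nat_lit 4413443414) (nat_lit 304) (nat_lit 4617077676) (nat_lit 380) (nat_lit 887934872) (nat_lit 158) (nat_lit 5) (nat_lit 162) (nat_lit 5) (nat_lit 163) (nat_lit 4) (nat_lit 604) (nat_lit 487) (nat_lit 469)))) (XT.nd (nat_lit 156) (nat_lit 456) (nat_lit 0) (XT.nd (nat_lit 78) (nat_lit 304) (nat_lit 0) (XT.lf (nat_lit 0) (nat_lit 3015342188) (nat_lit 380) (nat_lit 545954601) (nat_lit 456) (nat_lit 6448727693) (nat_lit 152) (nat_lit 5) (nat_lit 157) (nat_lit 5) (nat_lit 158) (nat_lit 5) (nat_lit 605) (nat_lit 487) (nat_lit 468)) (XT.lf (nat_lit 0) (nat_lit 1569129655) (nat_lit 304) (nat_lit 6527644753) (nat_lit 380) (nat_lit 2006350533) (nat_lit 148) (nat_lit 5) (nat_lit 152) (nat_lit 5) (nat_lit 153) (nat_lit 4) (nat_lit 606) (nat_lit 487) (nat_lit 467))) (XT.nd (nat_lit 78) (nat_lit 0) (nat_lit 0) (XT.lf (nat_lit 0) (nat_lit 82537540) (nat_lit 380) (nat_lit 2399130739) (nat_lit 456) (nat_lit 7716294028)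 (nat_lit 142) (nat_lit 5) (nat_lit 147) (nat_lit 5) (nat_lit 148) (nat_lit 5) (nat_lit 607) (nat_lit 487) (nat_lit 466)) (XT.lf (nat_lit 0) (nat_lit 7040836706) (nat_lit 456) (nat_lit 1432320404) (nat_lit 76) (nat_lit 1821109899) (nat_lit 142) (nat_lit 5) (nat_lit 148) (nat_lit 5) (nat_lit 143) (nat_lit 4) (nat_lit 608) (nat_lit 487) (nat_lit 465)))))) (XT.nd (nat_lit 624) (nat_lit 1976) (nat_lit 0) (XT.nd (nat_lit 312) (nat_lit 988) (nat_lit 0) (XT.nd (nat_lit 156) (nat_lit 684) (nat_lit 0) (XT.nd (nat_lit 78) (nat_lit 304) (nat_lit 0) (XT.lf (nat_lit 0) (nat_lit 1285682368) (nat_lit 380) (nat_lit 2993623066) (nat_lit 76) (nat_lit 6112944123) (nat_lit 137) (nat_lit 5) (nat_lit 142) (nat_lit 5) (nat_lit 138) (nat_lit 5) (nat_lit 609) (nat_lit 487) (nat_lit 464)) (XT.lf (nat_lit 0) (nat_lit 5860338192) (nat_lit 380) (nat_lit 4601541847) (nat_lit 76) (nat_lit 30115985) (nat_lit 133) (nat_lit 5) (nat_lit 138) (nat_lit 5) (nat_lit 134) (nat_lit 4) (nat_lit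 610) (nat_lit 487) (nat_lit 463))) (XT.nd (nat_lit 78) (nat_lit 380) (nat_lit 0) (XT.lf (nat_lit 0) (nat_lit 4328871130) (nat_lit 304) (nat_lit 6214733988) (nat_lit 380) (nat_lit 49790784) (nat_lit 129) (nat_lit 5) (nat_lit 133) (nat_lit 5) (nat_lit 134) (nat_lit 4) (nat_lit 611) (nat_lit 487) (nat_lit 462)) (XT.lf (nat_lit 0) (nat_lit 2710356943) (nat_lit 304) (nat_lit 1841985160) (nat_lit 380) (nat_lit 6144096693) (nat_lit 124) (nat_lit 5) (nat_lit 128) (nat_lit 5) (nat_lit 129) (nat_lit 5) (nat_lit 612) (nat_lit 487) (nat_lit 461)))) (XT.nd (nat_lit 156) (nat_lit 608) (nat_lit 0) (XT.nd (nat_lit 78) (nat_lit 76) (nat_lit 0) (XT.lf (nat_lit 0) (nat_lit 1045762756) (nat_lit 304) (nat_lit 8207052929) (nat_lit 380) (nat_lit 1548581779) (nat_lit 120) (nat_lit 5) (nat_lit 124) (nat_lit 5) (nat_lit 125) (nat_lit 4) (nat_lit 613) (nat_lit 487) (nat_lit 460)) (XT.lf (nat_lit 0) (nat_lit 3104809870) (nat_lit 380) (nat_lit 673247500) (nat_lit 76) (nat_lit 7129848450)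 (nat_lit 119) (nat_lit 5) (nat_lit 124) (nat_lit 5) (nat_lit 120) (nat_lit 5) (nat_lit 614) (nat_lit 487) (nat_lit 459))) (XT.nd (nat_lit 78) (nat_lit 304) (nat_lit 0) (XT.lf (nat_lit 0) (nat_lit 7833490195) (nat_lit 380) (nat_lit 2425574505) (nat_lit 76) (nat_lit 757216541) (nat_lit 115) (nat_lit 5) (nat_lit 120) (nat_lit 5) (nat_lit 116) (nat_lit 4) (nat_lit 615) (nat_lit 487) (nat_lit 458)) (XT.lf (nat_lit 0) (nat_lit 1526661540) (nat_lit 304) (nat_lit 4246619382) (nat_lit 76) (nat_lit 5353009168) (nat_lit 111) (nat_lit 5) (nat_lit 115) (nat_lit 5) (nat_lit 112) (nat_lit 5) (nat_lit 616) (nat_lit 487) (nat_lit 457))))) (XT.nd (nat_lit 312) (nat_lit 1064) (nat_lit 0) (XT.nd (nat_lit 156) (nat_lit 380) (nat_lit 0) (XT.nd (nat_lit 78) (nat_lit 228) (nat_lit 0) (XT.lf (nat_lit 0) (nat_lit 5113757634) (nat_lit 304) (nat_lit 1166069655) (nat_lit 380) (nat_lit 4958408932) (nat_lit 107) (nat_lit 5) (nat_lit 111) (nat_lit 5) (nat_lit 112) (nat_lit 5) (nat_lit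 617) (nat_lit 487) (nat_lit 456)) (XT.lf (nat_lit 0) (nat_lit 3288974769) (nat_lit 228) (nat_lit 7854812156) (nat_lit 304) (nat_lit 208320428) (nat_lit 104) (nat_lit 5) (nat_lit 107) (nat_lit 5) (nat_lit 108) (nat_lit 4) (nat_lit 618) (nat_lit 487) (nat_lit 455))) (XT.nd (nat_lit 78) (nat_lit 0) (nat_lit 0) (XT.lf (nat_lit 0) (nat_lit 1388187887) (nat_lit 304) (nat_lit 3188739378) (nat_lit 380) (nat_lit 6890707818) (nat_lit 99) (nat_lit 5) (nat_lit 103) (nat_lit 5) (nat_lit 104) (nat_lit 5) (nat_lit 619) (nat_lit 487) (nat_lit 454)) (XT.lf (nat_lit 0) (nat_lit 9462841872) (nat_lit 380) (nat_lit 556917364) (nat_lit 76) (nat_lit 1565532215) (nat_lit 99) (nat_lit 5) (nat_lit 104) (nat_lit 5) (nat_lit 100) (nat_lit 4) (nat_lit 620) (nat_lit 487) (nat_lit 453)))) (XT.nd (nat_lit 156) (nat_lit 532) (nat_lit 0) (XT.nd (nat_lit 78) (nat_lit 228) (nat_lit 0) (XT.lf (nat_lit 0) (nat_lit 2730168124) (nat_lit 304) (nat_lit 2564198994) (nat_lit 76) (nat_lit 6410079597)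 (nat_lit 95) (nat_lit 5) (nat_lit 99) (nat_lit 5) (nat_lit 96) (nat_lit 5) (nat_lit 621) (nat_lit 487) (nat_lit 452)) (XT.lf (nat_lit 0) (nat_lit 7196701037) (nat_lit 228) (nat_lit 449537344) (nat_lit 304) (nat_lit 4179570333) (nat_lit 92) (nat_lit 5) (nat_lit 95) (nat_lit 5) (nat_lit 96) (nat_lit 5) (nat_lit 622) (nat_lit 487) (nat_lit 451))) (XT.nd (nat_lit 78) (nat_lit 228) (nat_lit 0) (XT.lf (nat_lit 0) (nat_lit 726499808) (nat_lit 304) (nat_lit 6773707460) (nat_lit 76) (nat_lit 4448803084) (nat_lit 88) (nat_lit 5) (nat_lit 92) (nat_lit 5) (nat_lit 89) (nat_lit 5) (nat_lit 623) (nat_lit 487) (nat_lit 450)) (XT.lf (nat_lit 0) (nat_lit 3077086041) (nat_lit 228) (nat_lit 2596526871) (nat_lit 304) (nat_lit 6400533430) (nat_lit 85) (nat_lit 5) (nat_lit 88) (nat_lit 5) (nat_lit 89) (nat_lit 5) (nat_lit 624) (nat_lit 487) (nat_lit 449))))))) (XT.nd (nat_lit 1170) (nat_lit 1444) (nat_lit 0) (XT.nd (nat_lit 546) (nat_lit 1520) (nat_lit 0) (XT.nd (nat_lit 234)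 (nat_lit 760) (nat_lit 0) (XT.nd (nat_lit 78) (nat_lit 304) (nat_lit 0) (XT.lf (nat_lit 0) (nat_lit 914822157) (nat_lit 228) (nat_lit 9816959617) (nat_lit 304) (nat_lit 1469761573) (nat_lit 82) (nat_lit 5) (nat_lit 85) (nat_lit 5) (nat_lit 86) (nat_lit 4) (nat_lit 625) (nat_lit 487) (nat_lit 448)) (XT.nd (nat_lit 78) (nat_lit 228) (nat_lit 0) (XT.lf (nat_lit 0) (nat_lit 3535805310) (nat_lit 304) (nat_lit 1321279301) (nat_lit 76) (nat_lit 7473484703) (nat_lit 81) (nat_lit 5) (nat_lit 85) (nat_lit 5) (nat_lit 82) (nat_lit 5) (nat_lit 626) (nat_lit 487) (nat_lit 447)) (XT.lf (nat_lit 0) (nat_lit 8626775213) (nat_lit 304) (nat_lit 3608819522) (nat_lit 76) (nat_lit 226287861) (nat_lit 78) (nat_lit 5) (nat_lit 82) (nat_lit 5) (nat_lit 79) (nat_lit 4) (nat_lit 627) (nat_lit 487) (nat_lit 446)))) (XT.nd (nat_lit 156) (nat_lit 228) (nat_lit 0) (XT.nd (nat_lit 78) (nat_lit 228) (nat_lit 0) (XT.lf (nat_lit 0) (nat_lit 1238066980) (nat_lit 304) (nat_lit 5991175666)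 (nat_lit 76) (nat_lit 5365813619) (nat_lit 74) (nat_lit 5) (nat_lit 78) (nat_lit 5) (nat_lit 75) (nat_lit 5) (nat_lit 628) (nat_lit 487) (nat_lit 445)) (XT.lf (nat_lit 0) (nat_lit 4274292631) (nat_lit 228) (nat_lit 2085475865) (nat_lit 304) (nat_lit 6370650100) (nat_lit 71) (nat_lit 5) (nat_lit 74) (nat_lit 5) (nat_lit 75) (nat_lit 5) (nat_lit 629) (nat_lit 487) (nat_lit 444))) (XT.nd (nat_lit 78) (nat_lit 76) (nat_lit 0) (XT.lf (nat_lit 0) (nat_lit 1866568459) (nat_lit 152) (nat_lit 9736855669) (nat_lit 228) (nat_lit 1264674136) (nat_lit 69) (nat_lit 5) (nat_lit 71) (nat_lit 5) (nat_lit 72) (nat_lit 4) (nat_lit 630) (nat_lit 487) (nat_lit 443)) (XT.lf (nat_lit 0) (nat_lit 3909122054) (nat_lit 228) (nat_lit 632646381) (nat_lit 76) (nat_lit 8465903110) (nat_lit 68) (nat_lit 5) (nat_lit 71) (nat_lit 5) (nat_lit 69) (nat_lit 5) (nat_lit 631) (nat_lit 487) (nat_lit 442))))) (XT.nd (nat_lit 312) (nat_lit 684) (nat_lit 0) (XT.nd (nat_lit 156) (nat_lit 380) (nat_lit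 0) (XT.nd (nat_lit 78) (nat_lit 228) (nat_lit 0) (XT.lf (nat_lit 0) (nat_lit 9186889660) (nat_lit 304) (nat_lit 3182652626) (nat_lit 76) (nat_lit 779978691) (nat_lit 65) (nat_lit 5) (nat_lit 69) (nat_lit 5) (nat_lit 66) (nat_lit 4) (nat_lit 632) (nat_lit 487) (nat_lit 441)) (XT.lf (nat_lit 0) (nat_lit 1289992891) (nat_lit 228) (nat_lit 5835516645) (nat_lit 76) (nat_lit 6167918162) (nat_lit 62) (nat_lit 5) (nat_lit 65) (nat_lit 5) (nat_lit 63) (nat_lit 5) (nat_lit 633) (nat_lit 487) (nat_lit 440))) (XT.nd (nat_lit 78) (nat_lit 152) (nat_lit 0) (XT.lf (nat_lit 0) (nat_lit 4857815412) (nat_lit 228) (nat_lit 1737649467) (nat_lit 304) (nat_lit 6844207153) (nat_lit 59) (nat_lit 5) (nat_lit 62) (nat_lit 5) (nat_lit 63) (nat_lit 5) (nat_lit 634) (nat_lit 487) (nat_lit 439)) (XT.lf (nat_lit 0) (nat_lit 2165499933) (nat_lit 152) (nat_lit 9867336672) (nat_lit 228) (nat_lit 1555489271) (nat_lit 57) (nat_lit 5) (nat_lit 59) (nat_lit 5) (nat_lit 60) (nat_lit 4) (nat_lit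 635) (nat_lit 487) (nat_lit 438)))) (XT.nd (nat_lit 156) (nat_lit 380) (nat_lit 0) (XT.nd (nat_lit 78) (nat_lit 228) (nat_lit 0) (XT.lf (nat_lit 0) (nat_lit 3806114479) (nat_lit 228) (nat_lit 625854163) (nat_lit 76) (nat_lit 9307136846) (nat_lit 56) (nat_lit 5) (nat_lit 59) (nat_lit 5) (nat_lit 57) (nat_lit 5) (nat_lit 636) (nat_lit 487) (nat_lit 437)) (XT.lf (nat_lit 0) (nat_lit 9278271336) (nat_lit 304) (nat_lit 3478922502) (nat_lit 76) (nat_lit 1135018643) (nat_lit 53) (nat_lit 5) (nat_lit 57) (nat_lit 5) (nat_lit 54) (nat_lit 4) (nat_lit 637) (nat_lit 487) (nat_lit 436))) (XT.nd (nat_lit 78) (nat_lit 152) (nat_lit 0) (XT.lf (nat_lit 0) (nat_lit 833192410) (nat_lit 228) (nat_lit 6442030970) (nat_lit 76) (nat_lit 6772406337) (nat_lit 50) (nat_lit 5) (nat_lit 53) (nat_lit 5) (nat_lit 51) (nat_lit 5) (nat_lit 638) (nat_lit 487) (nat_lit 435)) (XT.lf (nat_lit 0) (nat_lit 4691374972) (nat_lit 152) (nat_lit 1639333178) (nat_lit 228) (nat_lit 7874773164) (nat_lit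 48) (nat_lit 5) (nat_lit 50) (nat_lit 5) (nat_lit 51) (nat_lit 5) (nat_lit 639) (nat_lit 487) (nat_lit 434)))))) (XT.nd (nat_lit 624) (nat_lit 304) (nat_lit 0) (XT.nd (nat_lit 312) (nat_lit 608) (nat_lit 0) (XT.nd (nat_lit 156) (nat_lit 304) (nat_lit 0) (XT.nd (nat_lit 78) (nat_lit 76) (nat_lit 0) (XT.lf (nat_lit 0) (nat_lit 1671249418) (nat_lit 152) (nat_lit 10297301534) (nat_lit 228) (nat_lit 2397331827) (nat_lit 46) (nat_lit 5) (nat_lit 48) (nat_lit 5) (nat_lit 49) (nat_lit 4) (nat_lit 640) (nat_lit 487) (nat_lit 433)) (XT.lf (nat_lit 0) (nat_lit 3172340762) (nat_lit 228) (nat_lit 1443837637) (nat_lit 76) (nat_lit 9912409741) (nat_lit 45) (nat_lit 5) (nat_lit 48) (nat_lit 5) (nat_lit 46) (nat_lit 5) (nat_lit 641) (nat_lit 487) (nat_lit 432))) (XT.nd (nat_lit 78) (nat_lit 152) (nat_lit 0) (XT.lf (nat_lit 0) (nat_lit 8844936678) (nat_lit 228) (nat_lit 4644931669) (nat_lit 76) (nat_lit 1203890082) (nat_lit 43) (nat_lit 5) (nat_lit 46) (nat_lit 5) (nat_lit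 44) (nat_lit 4) (nat_lit 642) (nat_lit 487) (nat_lit 431)) (XT.lf (nat_lit 0) (nat_lit 6897496668) (nat_lit 152) (nat_lit 7769095924) (nat_lit 228) (nat_lit 194927715) (nat_lit 41) (nat_lit 5) (nat_lit 43) (nat_lit 5) (nat_lit 44) (nat_lit 4) (nat_lit 643) (nat_lit 487) (nat_lit 430)))) (XT.nd (nat_lit 156) (nat_lit 228) (nat_lit 0) (XT.nd (nat_lit 78) (nat_lit 152) (nat_lit 0) (XT.lf (nat_lit 0) (nat_lit 3621571147) (nat_lit 152) (nat_lit 1882842526) (nat_lit 228) (nat_lit 9527391577) (nat_lit 38) (nat_lit 5) (nat_lit 40) (nat_lit 5) (nat_lit 41) (nat_lit 5) (nat_lit 644) (nat_lit 487) (nat_lit 429)) (XT.lf (nat_lit 0) (nat_lit 225585435) (nat_lit 152) (nat_lit 11122235840) (nat_lit 228) (nat_lit 3856995385) (nat_lit 36) (nat_lit 5) (nat_lit 38) (nat_lit 5) (nat_lit 39) (nat_lit 4) (nat_lit 645) (nat_lit 487) (nat_lit 428))) (XT.nd (nat_lit 78) (nat_lit 152) (nat_lit 0) (XT.lf (nat_lit 0) (nat_lit 1941805109) (nat_lit 228) (nat_lit 3247883619) (nat_lit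 76) (nat_lit 10190544343) (nat_lit 35) (nat_lit 5) (nat_lit 38) (nat_lit 5) (nat_lit 36) (nat_lit 5) (nat_lit 646) (nat_lit 487) (nat_lit 427)) (XT.lf (nat_lit 0) (nat_lit 7819140121) (nat_lit 228) (nat_lit 6847112295) (nat_lit 76) (nat_lit 892111732) (nat_lit 33) (nat_lit 5) (nat_lit 36) (nat_lit 5) (nat_lit 34) (nat_lit 4) (nat_lit 647) (nat_lit 487) (nat_lit 426))))) (XT.nd (nat_lit 76362) (nat_lit 0) (nat_lit 15504) (XT.nd (nat_lit 76206) (nat_lit 0) (nat_lit 17708) (XT.nd (nat_lit 156) (nat_lit 228) (nat_lit 0) (XT.lf (nat_lit 0) (nat_lit 5157360345) (nat_lit 76) (nat_lit 8698245037) (nat_lit 152) (nat_lit 1883621095) (nat_lit 32) (nat_lit 5) (nat_lit 33) (nat_lit 5) (nat_lit 34) (nat_lit 4) (nat_lit 648) (nat_lit 487) (nat_lit 425)) (XT.lf (nat_lit 0) (nat_lit 10110554057) (nat_lit 228) (nat_lit 2320093532) (nat_lit 76) (nat_lit 3678650028) (nat_lit 29) (nat_lit 5) (nat_lit 32) (nat_lit 5) (nat_lit 30) (nat_lit 4) (nat_lit 650) (nat_lit 487) (nat_lit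 423))) (XT.nd (nat_lit 78) (nat_lit 76) (nat_lit 0) (XT.lf (nat_lit 0) (nat_lit 570842579) (nat_lit 608) (nat_lit 1815535742) (nat_lit 608) (nat_lit 1815535742) (nat_lit 263) (nat_lit 4) (nat_lit 271) (nat_lit 5) (nat_lit 271) (nat_lit 4) (nat_lit 584) (nat_lit 488) (nat_lit 488)) (XT.lf (nat_lit 0) (nat_lit 533142255) (nat_lit 684) (nat_lit 3756835) (nat_lit 76) (nat_lit 7929978018) (nat_lit 262) (nat_lit 5) (nat_lit 271) (nat_lit 5) (nat_lit 263) (nat_lit 4) (nat_lit 585) (nat_lit 488) (nat_lit 487)))) (XT.nd (nat_lit 156) (nat_lit 1064) (nat_lit 0) (XT.nd (nat_lit 78) (nat_lit 608) (nat_lit 0) (XT.lf (nat_lit 0) (nat_lit 4728520759) (nat_lit 608) (nat_lit 1171990239) (nat_lit 0) (nat_lit 2630267714) (nat_lit 255) (nat_lit 5) (nat_lit 263) (nat_lit 4) (nat_lit 255) (nat_lit 4) (nat_lit 586) (nat_lit 488) (nat_lit 486)) (XT.lf (nat_lit 0) (nat_lit 382284426) (nat_lit 608) (nat_lit 2344410199) (nat_lit 76) (nat_lit 5869695114) (nat_lit 247) (nat_lit 5)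 (nat_lit 255) (nat_lit 5) (nat_lit 248) (nat_lit 4) (nat_lit 587) (nat_lit 488) (nat_lit 485))) (XT.nd (nat_lit 78) (nat_lit 608) (nat_lit 0) (XT.lf (nat_lit 0) (nat_lit 4576467157) (nat_lit 532) (nat_lit 3544681901) (nat_lit 0) (nat_lit 542125622) (nat_lit 241) (nat_lit 5) (nat_lit 248) (nat_lit 4) (nat_lit 241) (nat_lit 4) (nat_lit 588) (nat_lit 488) (nat_lit 484)) (XT.lf (nat_lit 0) (nat_lit 113618663) (nat_lit 608) (nat_lit 4764466231) (nat_lit 76) (nat_lit 3853554052) (nat_lit 233) (nat_lit 5) (nat_lit 241) (nat_lit 5) (nat_lit 234) (nat_lit 4) (nat_lit 589) (nat_lit 488) (nat_lit 483))))))))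
noncomputable def xc18 : XT := (XT.nd (nat_lit 2418) (nat_lit 5320) (nat_lit 0) (XT.nd (nat_lit 1170) (nat_lit 4484) (nat_lit 0) (XT.nd (nat_lit 546) (nat_lit 2812) (nat_lit 0) (XT.nd (nat_lit 234) (nat_lit 1444) (nat_lit 0) (XT.nd (nat_lit 78) (nat_lit 988) (nat_lit 0) (XT.lf (nat_lit 0) (nat_lit 2788114177) (nat_lit 456) (nat_lit 1530157180) (nat_lit 532) (nat_lit 4483061552) (nat_lit 227) (nat_lit 5) (nat_lit 233) (nat_lit 5) (nat_lit 234) (nat_lit 4) (nat_lit 590) (nat_lit 488) (nat_lit 482)) (XT.nd (nat_lit 78) (nat_lit 532) (nat_lit 0) (XT.lf (nat_lit 0) (nat_lit 1594878035) (nat_lit 456) (nat_lit 7000246209) (nat_lit 456) (nat_lit 277535830) (nat_lit 221) (nat_lit 4) (nat_lit 227) (nat_lit 5) (nat_lit 227) (nat_lit 4) (nat_lit 591) (nat_lit 488) (nat_lit 481)) (XT.lf (nat_lit 0) (nat_lit 361960470) (nat_lit 456) (nat_lit 3584190369) (nat_lit 532) (nat_lit 4999009972) (nat_lit 214) (nat_lit 5) (nat_lit 220) (nat_lit 5) (nat_lit 221) (nat_lit 4) (nat_lit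 592) (nat_lit 488) (nat_lit 480)))) (XT.nd (nat_lit 156) (nat_lit 912) (nat_lit 0) (XT.nd (nat_lit 78) (nat_lit 532) (nat_lit 0) (XT.lf (nat_lit 0) (nat_lit 8153557369) (nat_lit 456) (nat_lit 80102052) (nat_lit 532) (nat_lit 785755544) (nat_lit 214) (nat_lit 5) (nat_lit 220) (nat_lit 5) (nat_lit 221) (nat_lit 4) (nat_lit 593) (nat_lit 488) (nat_lit 479)) (XT.lf (nat_lit 0) (nat_lit 3469038484) (nat_lit 532) (nat_lit 2140152597) (nat_lit 76) (nat_lit 3485441796) (nat_lit 207) (nat_lit 5) (nat_lit 214) (nat_lit 5) (nat_lit 208) (nat_lit 4) (nat_lit 594) (nat_lit 488) (nat_lit 478))) (XT.nd (nat_lit 78) (nat_lit 532) (nat_lit 0) (XT.lf (nat_lit 0) (nat_lit 5744164162) (nat_lit 380) (nat_lit 2033466142) (nat_lit 456) (nat_lit 1394037806) (nat_lit 202) (nat_lit 5) (nat_lit 207) (nat_lit 5) (nat_lit 208) (nat_lit 4) (nat_lit 595) (nat_lit 488) (nat_lit 477)) (XT.lf (nat_lit 0) (nat_lit 2873981308) (nat_lit 532) (nat_lit 4753016763) (nat_lit 76) (nat_lit 1623064658)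 (nat_lit 195) (nat_lit 5) (nat_lit 202) (nat_lit 5) (nat_lit 196) (nat_lit 4) (nat_lit 596) (nat_lit 488) (nat_lit 476))))) (XT.nd (nat_lit 312) (nat_lit 1520) (nat_lit 0) (XT.nd (nat_lit 156) (nat_lit 456) (nat_lit 0) (XT.nd (nat_lit 78) (nat_lit 456) (nat_lit 0) (XT.lf (nat_lit 0) (nat_lit 3218587378) (nat_lit 380) (nat_lit 3983811067) (nat_lit 456) (nat_lit 2127569653) (nat_lit 190) (nat_lit 5) (nat_lit 195) (nat_lit 5) (nat_lit 196) (nat_lit 4) (nat_lit 597) (nat_lit 488) (nat_lit 475)) (XT.lf (nat_lit 0) (nat_lit 1915851632) (nat_lit 380) (nat_lit 242046302) (nat_lit 456) (nat_lit 7253670044) (nat_lit 184) (nat_lit 5) (nat_lit 189) (nat_lit 5) (nat_lit 190) (nat_lit 5) (nat_lit 598) (nat_lit 488) (nat_lit 474))) (XT.nd (nat_lit 78) (nat_lit 76) (nat_lit 0) (XT.lf (nat_lit 0) (nat_lit 563962814) (nat_lit 380) (nat_lit 5941566851) (nat_lit 456) (nat_lit 2988891223) (nat_lit 179) (nat_lit 5) (nat_lit 184) (nat_lit 5) (nat_lit 185) (nat_lit 4) (nat_lit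 599) (nat_lit 488) (nat_lit 473)) (XT.lf (nat_lit 0) (nat_lit 1332521082) (nat_lit 456) (nat_lit 800802743) (nat_lit 76) (nat_lit 7445647586) (nat_lit 178) (nat_lit 5) (nat_lit 184) (nat_lit 5) (nat_lit 179) (nat_lit 5) (nat_lit 600) (nat_lit 488) (nat_lit 472)))) (XT.nd (nat_lit 156) (nat_lit 684) (nat_lit 0) (XT.nd (nat_lit 78) (nat_lit 456) (nat_lit 0) (XT.lf (nat_lit 0) (nat_lit 5698683417) (nat_lit 456) (nat_lit 2203631319) (nat_lit 76) (nat_lit 1762537306) (nat_lit 173) (nat_lit 5) (nat_lit 179) (nat_lit 5) (nat_lit 174) (nat_lit 4) (nat_lit 601) (nat_lit 488) (nat_lit 471)) (XT.lf (nat_lit 0) (nat_lit 392260791) (nat_lit 456) (nat_lit 3639007308) (nat_lit 76) (nat_lit 5721175639) (nat_lit 167) (nat_lit 5) (nat_lit 173) (nat_lit 5) (nat_lit 168) (nat_lit 5) (nat_lit 602) (nat_lit 488) (nat_lit 470))) (XT.nd (nat_lit 78) (nat_lit 304) (nat_lit 0) (XT.lf (nat_lit 0) (nat_lit 4723657187) (nat_lit 380) (nat_lit 45427174) (nat_lit 456) (nat_lit 5072492954)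 (nat_lit 162) (nat_lit 5) (nat_lit 167) (nat_lit 5) (nat_lit 168) (nat_lit 5) (nat_lit 603) (nat_lit 488) (nat_lit 469)) (XT.lf (nat_lit 0) (nat_lit 3290288657) (nat_lit 304) (nat_lit 5954271756) (nat_lit 380) (nat_lit 687711838) (nat_lit 158) (nat_lit 5) (nat_lit 162) (nat_lit 5) (nat_lit 163) (nat_lit 4) (nat_lit 604) (nat_lit 488) (nat_lit 468)))))) (XT.nd (nat_lit 624) (nat_lit 1900) (nat_lit 0) (XT.nd (nat_lit 312) (nat_lit 1368) (nat_lit 0) (XT.nd (nat_lit 156) (nat_lit 456) (nat_lit 0) (XT.nd (nat_lit 78) (nat_lit 304) (nat_lit 0) (XT.lf (nat_lit 0) (nat_lit 1812952317) (nat_lit 380) (nat_lit 1908053470) (nat_lit 456) (nat_lit 6303567225) (nat_lit 152) (nat_lit 5) (nat_lit 157) (nat_lit 5) (nat_lit 158) (nat_lit 5) (nat_lit 605) (nat_lit 488) (nat_lit 467)) (XT.lf (nat_lit 0) (nat_lit 295825909) (nat_lit 304) (nat_lit 7913624984) (nat_lit 380) (nat_lit 1909163695) (nat_lit 148) (nat_lit 5) (nat_lit 152) (nat_lit 5) (nat_lit 153) (nat_lit 4) (nat_lit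 606) (nat_lit 488) (nat_lit 466))) (XT.nd (nat_lit 78) (nat_lit 380) (nat_lit 0) (XT.lf (nat_lit 0) (nat_lit 2547199896) (nat_lit 380) (nat_lit 1256556667) (nat_lit 76) (nat_lit 6410290836) (nat_lit 147) (nat_lit 5) (nat_lit 152) (nat_lit 5) (nat_lit 148) (nat_lit 5) (nat_lit 607) (nat_lit 488) (nat_lit 465)) (XT.lf (nat_lit 0) (nat_lit 7059232708) (nat_lit 456) (nat_lit 2843927694) (nat_lit 76) (nat_lit 408134853) (nat_lit 142) (nat_lit 5) (nat_lit 148) (nat_lit 5) (nat_lit 143) (nat_lit 4) (nat_lit 608) (nat_lit 488) (nat_lit 464)))) (XT.nd (nat_lit 156) (nat_lit 684) (nat_lit 0) (XT.nd (nat_lit 78) (nat_lit 304) (nat_lit 0) (XT.lf (nat_lit 0) (nat_lit 1248062086) (nat_lit 380) (nat_lit 4489962858) (nat_lit 76) (nat_lit 4672032508) (nat_lit 137) (nat_lit 5) (nat_lit 142) (nat_lit 5) (nat_lit 138) (nat_lit 5) (nat_lit 609) (nat_lit 488) (nat_lit 463)) (XT.lf (nat_lit 0) (nat_lit 4325940417) (nat_lit 304) (nat_lit 1457379299) (nat_lit 380) (nat_lit 4727272583)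 (nat_lit 133) (nat_lit 5) (nat_lit 137) (nat_lit 5) (nat_lit 138) (nat_lit 5) (nat_lit 610) (nat_lit 488) (nat_lit 462))) (XT.nd (nat_lit 78) (nat_lit 380) (nat_lit 0) (XT.lf (nat_lit 0) (nat_lit 2685678692) (nat_lit 304) (nat_lit 7731875064) (nat_lit 380) (nat_lit 195419489) (nat_lit 129) (nat_lit 5) (nat_lit 133) (nat_lit 5) (nat_lit 134) (nat_lit 4) (nat_lit 611) (nat_lit 488) (nat_lit 461)) (XT.lf (nat_lit 0) (nat_lit 977747441) (nat_lit 304) (nat_lit 3390791785) (nat_lit 380) (nat_lit 6348297898) (nat_lit 124) (nat_lit 5) (nat_lit 128) (nat_lit 5) (nat_lit 129) (nat_lit 5) (nat_lit 612) (nat_lit 488) (nat_lit 460))))) (XT.nd (nat_lit 312) (nat_lit 912) (nat_lit 0) (XT.nd (nat_lit 156) (nat_lit 608) (nat_lit 0) (XT.nd (nat_lit 78) (nat_lit 380) (nat_lit 0) (XT.lf (nat_lit 0) (nat_lit 9023463230) (nat_lit 380) (nat_lit 759097654) (nat_lit 76) (nat_lit 1040146285) (nat_lit 124) (nat_lit 5) (nat_lit 129) (nat_lit 5) (nat_lit 125) (nat_lit 4) (nat_lit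 613) (nat_lit 488) (nat_lit 459)) (XT.lf (nat_lit 0) (nat_lit 2823767321) (nat_lit 380) (nat_lit 2556201992) (nat_lit 76) (nat_lit 5549952488) (nat_lit 119) (nat_lit 5) (nat_lit 124) (nat_lit 5) (nat_lit 120) (nat_lit 5) (nat_lit 614) (nat_lit 488) (nat_lit 458))) (XT.nd (nat_lit 78) (nat_lit 304) (nat_lit 0) (XT.lf (nat_lit 0) (nat_lit 6639870549) (nat_lit 304) (nat_lit 866817148) (nat_lit 380) (nat_lit 3532525088) (nat_lit 115) (nat_lit 5) (nat_lit 119) (nat_lit 5) (nat_lit 120) (nat_lit 5) (nat_lit 615) (nat_lit 488) (nat_lit 457)) (XT.lf (nat_lit 0) (nat_lit 1134357271) (nat_lit 304) (nat_lit 6310265077) (nat_lit 76) (nat_lit 3705588188) (nat_lit 111) (nat_lit 5) (nat_lit 115) (nat_lit 5) (nat_lit 112) (nat_lit 5) (nat_lit 616) (nat_lit 488) (nat_lit 456)))) (XT.nd (nat_lit 156) (nat_lit 380) (nat_lit 0) (XT.nd (nat_lit 78) (nat_lit 228) (nat_lit 0) (XT.lf (nat_lit 0) (nat_lit 2974564833) (nat_lit 304) (nat_lit 2871169335) (nat_lit 380) (nat_lit 5417258619)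 (nat_lit 107) (nat_lit 5) (nat_lit 111) (nat_lit 5) (nat_lit 112) (nat_lit 5) (nat_lit 617) (nat_lit 488) (nat_lit 455)) (XT.lf (nat_lit 0) (nat_lit 1059247215) (nat_lit 228) (nat_lit 9597113291) (nat_lit 304) (nat_lit 721570415) (nat_lit 104) (nat_lit 5) (nat_lit 107) (nat_lit 5) (nat_lit 108) (nat_lit 4) (nat_lit 618) (nat_lit 488) (nat_lit 454))) (XT.nd (nat_lit 78) (nat_lit 304) (nat_lit 0) (XT.lf (nat_lit 0) (nat_lit 4033664822) (nat_lit 304) (nat_lit 929898410) (nat_lit 76) (nat_lit 6530697264) (nat_lit 103) (nat_lit 5) (nat_lit 107) (nat_lit 5) (nat_lit 104) (nat_lit 5) (nat_lit 619) (nat_lit 488) (nat_lit 453)) (XT.lf (nat_lit 0) (nat_lit 8661087831) (nat_lit 304) (nat_lit 214579833) (nat_lit 380) (nat_lit 2737127751) (nat_lit 99) (nat_lit 5) (nat_lit 103) (nat_lit 5) (nat_lit 104) (nat_lit 5) (nat_lit 620) (nat_lit 488) (nat_lit 452))))))) (XT.nd (nat_lit 1170) (nat_lit 2280) (nat_lit 0) (XT.nd (nat_lit 546) (nat_lit 1444) (nat_lit 0) (XT.nd (nat_lit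 234) (nat_lit 836) (nat_lit 0) (XT.nd (nat_lit 78) (nat_lit 456) (nat_lit 0) (XT.lf (nat_lit 0) (nat_lit 2078727309) (nat_lit 304) (nat_lit 5060966745) (nat_lit 76) (nat_lit 4593233232) (nat_lit 95) (nat_lit 5) (nat_lit 99) (nat_lit 5) (nat_lit 96) (nat_lit 5) (nat_lit 621) (nat_lit 488) (nat_lit 451)) (XT.nd (nat_lit 78) (nat_lit 228) (nat_lit 0) (XT.lf (nat_lit 0) (nat_lit 4619245779) (nat_lit 228) (nat_lit 2331786330) (nat_lit 304) (nat_lit 4904132783) (nat_lit 92) (nat_lit 5) (nat_lit 95) (nat_lit 5) (nat_lit 96) (nat_lit 5) (nat_lit 622) (nat_lit 488) (nat_lit 450)) (XT.lf (nat_lit 0) (nat_lit 2503499078) (nat_lit 228) (nat_lit 9430023960) (nat_lit 304) (nat_lit 46070001) (nat_lit 89) (nat_lit 5) (nat_lit 92) (nat_lit 5) (nat_lit 93) (nat_lit 4) (nat_lit 623) (nat_lit 488) (nat_lit 449)))) (XT.nd (nat_lit 156) (nat_lit 532) (nat_lit 0) (XT.nd (nat_lit 78) (nat_lit 0) (nat_lit 0) (XT.lf (nat_lit 0) (nat_lit 291432603) (nat_lit 228) (nat_lit 4565244630)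 (nat_lit 304) (nat_lit 7248957459) (nat_lit 85) (nat_lit 5) (nat_lit 88) (nat_lit 5) (nat_lit 89) (nat_lit 5) (nat_lit 624) (nat_lit 488) (nat_lit 448)) (XT.lf (nat_lit 0) (nat_lit 9869333990) (nat_lit 304) (nat_lit 1948660973) (nat_lit 76) (nat_lit 415947252) (nat_lit 85) (nat_lit 5) (nat_lit 89) (nat_lit 5) (nat_lit 86) (nat_lit 4) (nat_lit 625) (nat_lit 488) (nat_lit 447))) (XT.nd (nat_lit 78) (nat_lit 228) (nat_lit 0) (XT.lf (nat_lit 0) (nat_lit 2613044564) (nat_lit 304) (nat_lit 4284590705) (nat_lit 76) (nat_lit 5466242380) (nat_lit 81) (nat_lit 5) (nat_lit 85) (nat_lit 5) (nat_lit 82) (nat_lit 5) (nat_lit 626) (nat_lit 488) (nat_lit 446)) (XT.lf (nat_lit 0) (nat_lit 5805028506) (nat_lit 228) (nat_lit 1851476788) (nat_lit 304) (nat_lit 4839636079) (nat_lit 78) (nat_lit 5) (nat_lit 81) (nat_lit 5) (nat_lit 82) (nat_lit 5) (nat_lit 627) (nat_lit 488) (nat_lit 445))))) (XT.nd (nat_lit 312) (nat_lit 684) (nat_lit 0) (XT.nd (nat_lit 156) (nat_lit 228)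 (nat_lit 0) (XT.nd (nat_lit 78) (nat_lit 228) (nat_lit 0) (XT.lf (nat_lit 0) (nat_lit 187664825) (nat_lit 304) (nat_lit 9177720610) (nat_lit 76) (nat_lit 3265241259) (nat_lit 74) (nat_lit 5) (nat_lit 78) (nat_lit 5) (nat_lit 75) (nat_lit 5) (nat_lit 628) (nat_lit 488) (nat_lit 444)) (XT.lf (nat_lit 0) (nat_lit 998408809) (nat_lit 228) (nat_lit 4263595694) (nat_lit 304) (nat_lit 7504932002) (nat_lit 71) (nat_lit 5) (nat_lit 74) (nat_lit 5) (nat_lit 75) (nat_lit 5) (nat_lit 629) (nat_lit 488) (nat_lit 443))) (XT.nd (nat_lit 78) (nat_lit 228) (nat_lit 0) (XT.lf (nat_lit 0) (nat_lit 10453388126) (nat_lit 304) (nat_lit 1502628584) (nat_lit 76) (nat_lit 949645143) (nat_lit 71) (nat_lit 5) (nat_lit 75) (nat_lit 5) (nat_lit 72) (nat_lit 4) (nat_lit 630) (nat_lit 488) (nat_lit 442)) (XT.lf (nat_lit 0) (nat_lit 2701174935) (nat_lit 228) (nat_lit 4098294195) (nat_lit 76) (nat_lit 6246638910) (nat_lit 68) (nat_lit 5) (nat_lit 71) (nat_lit 5) (nat_lit 69) (nat_lit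 5) (nat_lit 631) (nat_lit 488) (nat_lit 441)))) (XT.nd (nat_lit 156) (nat_lit 304) (nat_lit 0) (XT.nd (nat_lit 78) (nat_lit 152) (nat_lit 0) (XT.lf (nat_lit 0) (nat_lit 6414207391) (nat_lit 228) (nat_lit 1511040822) (nat_lit 304) (nat_lit 5263783371) (nat_lit 65) (nat_lit 5) (nat_lit 68) (nat_lit 5) (nat_lit 69) (nat_lit 5) (nat_lit 632) (nat_lit 488) (nat_lit 440)) (XT.lf (nat_lit 0) (nat_lit 3790331986) (nat_lit 152) (nat_lit 9489693523) (nat_lit 228) (nat_lit 54264086) (nat_lit 63) (nat_lit 5) (nat_lit 65) (nat_lit 5) (nat_lit 66) (nat_lit 4) (nat_lit 633) (nat_lit 488) (nat_lit 439))) (XT.nd (nat_lit 78) (nat_lit 0) (nat_lit 0) (XT.lf (nat_lit 0) (nat_lit 1054143991) (nat_lit 228) (nat_lit 4147728469) (nat_lit 304) (nat_lit 8279669672) (nat_lit 59) (nat_lit 5) (nat_lit 62) (nat_lit 5) (nat_lit 63) (nat_lit 5) (nat_lit 634) (nat_lit 488) (nat_lit 438)) (XT.lf (nat_lit 0) (nat_lit 10584256205) (nat_lit 304) (nat_lit 1738562702) (nat_lit 76) (nat_lit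 1308477036) (nat_lit 59) (nat_lit 5) (nat_lit 63) (nat_lit 5) (nat_lit 60) (nat_lit 4) (nat_lit 635) (nat_lit 488) (nat_lit 437)))))) (XT.nd (nat_lit 624) (nat_lit 912) (nat_lit 0) (XT.nd (nat_lit 312) (nat_lit 532) (nat_lit 0) (XT.nd (nat_lit 156) (nat_lit 380) (nat_lit 0) (XT.nd (nat_lit 78) (nat_lit 228) (nat_lit 0) (XT.lf (nat_lit 0) (nat_lit 2297366213) (nat_lit 228) (nat_lit 4632262954) (nat_lit 76) (nat_lit 6853375466) (nat_lit 56) (nat_lit 5) (nat_lit 59) (nat_lit 5) (nat_lit 57) (nat_lit 5) (nat_lit 636) (nat_lit 488) (nat_lit 436)) (XT.lf (nat_lit 0) (nat_lit 6315753402) (nat_lit 228) (nat_lit 1394897994) (nat_lit 304) (nat_lit 6226637860) (nat_lit 53) (nat_lit 5) (nat_lit 56) (nat_lit 5) (nat_lit 57) (nat_lit 5) (nat_lit 637) (nat_lit 488) (nat_lit 435))) (XT.nd (nat_lit 78) (nat_lit 228) (nat_lit 0) (XT.lf (nat_lit 0) (nat_lit 3377132521) (nat_lit 152) (nat_lit 9886019487) (nat_lit 228) (nat_lit 830888958) (nat_lit 51) (nat_lit 5) (nat_lit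 53) (nat_lit 5) (nat_lit 54) (nat_lit 4) (nat_lit 638) (nat_lit 488) (nat_lit 434)) (XT.lf (nat_lit 0) (nat_lit 319552766) (nat_lit 152) (nat_lit 4304932508) (nat_lit 228) (nat_lit 9628576141) (nat_lit 48) (nat_lit 5) (nat_lit 50) (nat_lit 5) (nat_lit 51) (nat_lit 5) (nat_lit 639) (nat_lit 488) (nat_lit 433)))) (XT.nd (nat_lit 156) (nat_lit 304) (nat_lit 0) (XT.nd (nat_lit 78) (nat_lit 228) (nat_lit 0) (XT.lf (nat_lit 0) (nat_lit 10209578089) (nat_lit 228) (nat_lit 2797828850) (nat_lit 76) (nat_lit 1407111124) (nat_lit 48) (nat_lit 5) (nat_lit 51) (nat_lit 5) (nat_lit 49) (nat_lit 4) (nat_lit 640) (nat_lit 488) (nat_lit 432)) (XT.lf (nat_lit 0) (nat_lit 1345348533) (nat_lit 228) (nat_lit 6032337096) (nat_lit 76) (nat_lit 7200634516) (nat_lit 45) (nat_lit 5) (nat_lit 48) (nat_lit 5) (nat_lit 46) (nat_lit 5) (nat_lit 641) (nat_lit 488) (nat_lit 431))) (XT.nd (nat_lit 78) (nat_lit 152) (nat_lit 0) (XT.lf (nat_lit 0) (nat_lit 5362629780) (nat_lit 152) (nat_lit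 1592835086) (nat_lit 228) (nat_lit 7789275331) (nat_lit 43) (nat_lit 5) (nat_lit 45) (nat_lit 5) (nat_lit 46) (nat_lit 5) (nat_lit 642) (nat_lit 488) (nat_lit 430)) (XT.lf (nat_lit 0) (nat_lit 2062987038) (nat_lit 152) (nat_lit 10648379262) (nat_lit 228) (nat_lit 2202451033) (nat_lit 41) (nat_lit 5) (nat_lit 43) (nat_lit 5) (nat_lit 44) (nat_lit 4) (nat_lit 643) (nat_lit 488) (nat_lit 429))))) (XT.nd (nat_lit 312) (nat_lit 304) (nat_lit 0) (XT.nd (nat_lit 156) (nat_lit 380) (nat_lit 0) (XT.nd (nat_lit 78) (nat_lit 152) (nat_lit 0) (XT.lf (nat_lit 0) (nat_lit 3475709351) (nat_lit 228) (nat_lit 1343993881) (nat_lit 76) (nat_lit 10265610090) (nat_lit 40) (nat_lit 5) (nat_lit 43) (nat_lit 5) (nat_lit 41) (nat_lit 5) (nat_lit 644) (nat_lit 488) (nat_lit 428)) (XT.lf (nat_lit 0) (nat_lit 9265740958) (nat_lit 228) (nat_lit 4839706330) (nat_lit 76) (nat_lit 1153945121) (nat_lit 38) (nat_lit 5) (nat_lit 41) (nat_lit 5) (nat_lit 39) (nat_lit 4) (nat_lit 645) (nat_lit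 488) (nat_lit 427))) (XT.nd (nat_lit 78) (nat_lit 228) (nat_lit 0) (XT.lf (nat_lit 0) (nat_lit 6971713975) (nat_lit 152) (nat_lit 8238705524) (nat_lit 228) (nat_lit 225756964) (nat_lit 36) (nat_lit 5) (nat_lit 38) (nat_lit 5) (nat_lit 39) (nat_lit 4) (nat_lit 646) (nat_lit 488) (nat_lit 426)) (XT.lf (nat_lit 0) (nat_lit 3388736031) (nat_lit 152) (nat_lit 2201889729) (nat_lit 228) (nat_lit 10024989507) (nat_lit 33) (nat_lit 5) (nat_lit 35) (nat_lit 5) (nat_lit 36) (nat_lit 5) (nat_lit 647) (nat_lit 488) (nat_lit 425)))) (XT.nd (nat_lit 156) (nat_lit 152) (nat_lit 0) (XT.nd (nat_lit 78) (nat_lit 152) (nat_lit 0) (XT.lf (nat_lit 0) (nat_lit 11555911715) (nat_lit 228) (nat_lit 319304937) (nat_lit 76) (nat_lit 3922684677) (nat_lit 33) (nat_lit 5) (nat_lit 36) (nat_lit 5) (nat_lit 34) (nat_lit 4) (nat_lit 648) (nat_lit 488) (nat_lit 424)) (XT.lf (nat_lit 0) (nat_lit 1680629518) (nat_lit 152) (nat_lit 4112572324) (nat_lit 76) (nat_lit 10189502693) (nat_lit 31)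 (nat_lit 5) (nat_lit 33) (nat_lit 5) (nat_lit 32) (nat_lit 5) (nat_lit 649) (nat_lit 488) (nat_lit 423))) (XT.nd (nat_lit 75894) (nat_lit 0) (nat_lit 19000) (XT.lf (nat_lit 0) (nat_lit 7676552697) (nat_lit 228) (nat_lit 8044699563) (nat_lit 76) (nat_lit 449157993) (nat_lit 29) (nat_lit 5) (nat_lit 32) (nat_lit 5) (nat_lit 30) (nat_lit 4) (nat_lit 650) (nat_lit 488) (nat_lit 422)) (XT.lf (nat_lit 0) (nat_lit 1727260769) (nat_lit 608) (nat_lit 1206790052) (nat_lit 608) (nat_lit 1206790052) (nat_lit 279) (nat_lit 4) (nat_lit 287) (nat_lit 5) (nat_lit 287) (nat_lit 4) (nat_lit 582) (nat_lit 489) (nat_lit 489))))))))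
noncomputable def xc19 : XT := (XT.nd (nat_lit 2418) (nat_lit 6384) (nat_lit 0) (XT.nd (nat_lit 1170) (nat_lit 5016) (nat_lit 0) (XT.nd (nat_lit 546) (nat_lit 3268) (nat_lit 0) (XT.nd (nat_lit 234) (nat_lit 2204) (nat_lit 0) (XT.nd (nat_lit 78) (nat_lit 684) (nat_lit 0) (XT.lf (nat_lit 0) (nat_lit 1695228014) (nat_lit 608) (nat_lit 6054379728) (nat_lit 0) (nat_lit 592909738) (nat_lit 271) (nat_lit 5) (nat_lit 279) (nat_lit 4) (nat_lit 271) (nat_lit 4) (nat_lit 583) (nat_lit 489) (nat_lit 488)) (XT.nd (nat_lit 78) (nat_lit 76) (nat_lit 0) (XT.lf (nat_lit 0) (nat_lit 1093644507) (nat_lit 608) (nat_lit 4746948299) (nat_lit 608) (nat_lit 2563925832) (nat_lit 263) (nat_lit 4) (nat_lit 271) (nat_lit 5) (nat_lit 271) (nat_lit 4) (nat_lit 584) (nat_lit 489) (nat_lit 487)) (XT.lf (nat_lit 0) (nat_lit 1552261388) (nat_lit 684) (nat_lit 106968376) (nat_lit 76) (nat_lit 6808880729) (nat_lit 262) (nat_lit 5) (nat_lit 271) (nat_lit 5) (nat_lit 263) (nat_lit 4) (nat_lit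 585) (nat_lit 489) (nat_lit 486)))) (XT.nd (nat_lit 156) (nat_lit 1064) (nat_lit 0) (XT.nd (nat_lit 78) (nat_lit 608) (nat_lit 0) (XT.lf (nat_lit 0) (nat_lit 5705911209) (nat_lit 608) (nat_lit 1318354004) (nat_lit 0) (nat_lit 1508582275) (nat_lit 255) (nat_lit 5) (nat_lit 263) (nat_lit 4) (nat_lit 255) (nat_lit 4) (nat_lit 586) (nat_lit 489) (nat_lit 485)) (XT.lf (nat_lit 0) (nat_lit 1310218480) (nat_lit 608) (nat_lit 2549091228) (nat_lit 76) (nat_lit 4739714866) (nat_lit 247) (nat_lit 5) (nat_lit 255) (nat_lit 5) (nat_lit 248) (nat_lit 4) (nat_lit 587) (nat_lit 489) (nat_lit 484))) (XT.nd (nat_lit 78) (nat_lit 608) (nat_lit 0) (XT.lf (nat_lit 0) (nat_lit 4867187036) (nat_lit 456) (nat_lit 599024190) (nat_lit 532) (nat_lit 3200462858) (nat_lit 241) (nat_lit 5) (nat_lit 247) (nat_lit 5) (nat_lit 248) (nat_lit 4) (nat_lit 588) (nat_lit 489) (nat_lit 483)) (XT.lf (nat_lit 0) (nat_lit 949515850) (nat_lit 608) (nat_lit 5076285860) (nat_lit 76) (nat_lit 2709898743)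 (nat_lit 233) (nat_lit 5) (nat_lit 241) (nat_lit 5) (nat_lit 234) (nat_lit 4) (nat_lit 589) (nat_lit 489) (nat_lit 482))))) (XT.nd (nat_lit 312) (nat_lit 1824) (nat_lit 0) (XT.nd (nat_lit 156) (nat_lit 456) (nat_lit 0) (XT.nd (nat_lit 78) (nat_lit 532) (nat_lit 0) (XT.lf (nat_lit 0) (nat_lit 2424127712) (nat_lit 456) (nat_lit 2695083283) (nat_lit 532) (nat_lit 3686883298) (nat_lit 227) (nat_lit 5) (nat_lit 233) (nat_lit 5) (nat_lit 234) (nat_lit 4) (nat_lit 590) (nat_lit 489) (nat_lit 481)) (XT.lf (nat_lit 0) (nat_lit 468947289) (nat_lit 532) (nat_lit 7700729832) (nat_lit 76) (nat_lit 708535549) (nat_lit 220) (nat_lit 5) (nat_lit 227) (nat_lit 5) (nat_lit 221) (nat_lit 4) (nat_lit 591) (nat_lit 489) (nat_lit 480))) (XT.nd (nat_lit 78) (nat_lit 456) (nat_lit 0) (XT.lf (nat_lit 0) (nat_lit 4654401258) (nat_lit 532) (nat_lit 115283253) (nat_lit 76) (nat_lit 4181685396) (nat_lit 220) (nat_lit 5) (nat_lit 227) (nat_lit 5) (nat_lit 221) (nat_lit 4) (nat_lit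 592) (nat_lit 489) (nat_lit 479)) (XT.lf (nat_lit 0) (nat_lit 7627348908) (nat_lit 456) (nat_lit 1281884053) (nat_lit 532) (nat_lit 117045308) (nat_lit 214) (nat_lit 5) (nat_lit 220) (nat_lit 5) (nat_lit 221) (nat_lit 4) (nat_lit 593) (nat_lit 489) (nat_lit 478)))) (XT.nd (nat_lit 156) (nat_lit 912) (nat_lit 0) (XT.nd (nat_lit 78) (nat_lit 380) (nat_lit 0) (XT.lf (nat_lit 0) (nat_lit 4085734087) (nat_lit 532) (nat_lit 2731837892) (nat_lit 76) (nat_lit 2284702900) (nat_lit 207) (nat_lit 5) (nat_lit 214) (nat_lit 5) (nat_lit 208) (nat_lit 4) (nat_lit 594) (nat_lit 489) (nat_lit 477)) (XT.lf (nat_lit 0) (nat_lit 5096851874) (nat_lit 380) (nat_lit 3261985629) (nat_lit 456) (nat_lit 821183008) (nat_lit 202) (nat_lit 5) (nat_lit 207) (nat_lit 5) (nat_lit 208) (nat_lit 4) (nat_lit 595) (nat_lit 489) (nat_lit 476))) (XT.nd (nat_lit 78) (nat_lit 380) (nat_lit 0) (XT.lf (nat_lit 0) (nat_lit 3395405397) (nat_lit 532) (nat_lit 5469942203) (nat_lit 76) (nat_lit 393872102)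 (nat_lit 195) (nat_lit 5) (nat_lit 202) (nat_lit 5) (nat_lit 196) (nat_lit 4) (nat_lit 596) (nat_lit 489) (nat_lit 475)) (XT.lf (nat_lit 0) (nat_lit 2444058542) (nat_lit 380) (nat_lit 5243755724) (nat_lit 456) (nat_lit 1652031565) (nat_lit 190) (nat_lit 5) (nat_lit 195) (nat_lit 5) (nat_lit 196) (nat_lit 4) (nat_lit 597) (nat_lit 489) (nat_lit 474)))))) (XT.nd (nat_lit 624) (nat_lit 2128) (nat_lit 0) (XT.nd (nat_lit 312) (nat_lit 1596) (nat_lit 0) (XT.nd (nat_lit 156) (nat_lit 836) (nat_lit 0) (XT.nd (nat_lit 78) (nat_lit 0) (nat_lit 0) (XT.lf (nat_lit 0) (nat_lit 1069716191) (nat_lit 380) (nat_lit 1521107560) (nat_lit 456) (nat_lit 6831288293) (nat_lit 184) (nat_lit 5) (nat_lit 189) (nat_lit 5) (nat_lit 190) (nat_lit 5) (nat_lit 598) (nat_lit 489) (nat_lit 473)) (XT.lf (nat_lit 0) (nat_lit 6895798291) (nat_lit 456) (nat_lit 339544135) (nat_lit 76) (nat_lit 2270476232) (nat_lit 184) (nat_lit 5) (nat_lit 190) (nat_lit 5) (nat_lit 185) (nat_lit 4) (nat_lit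 599) (nat_lit 489) (nat_lit 472))) (XT.nd (nat_lit 78) (nat_lit 380) (nat_lit 0) (XT.lf (nat_lit 0) (nat_lit 1673575331) (nat_lit 456) (nat_lit 1770538208) (nat_lit 76) (nat_lit 6146863937) (nat_lit 178) (nat_lit 5) (nat_lit 184) (nat_lit 5) (nat_lit 179) (nat_lit 5) (nat_lit 600) (nat_lit 489) (nat_lit 471)) (XT.lf (nat_lit 0) (nat_lit 5994385823) (nat_lit 456) (nat_lit 3237843871) (nat_lit 76) (nat_lit 445535978) (nat_lit 173) (nat_lit 5) (nat_lit 179) (nat_lit 5) (nat_lit 174) (nat_lit 4) (nat_lit 601) (nat_lit 489) (nat_lit 470)))) (XT.nd (nat_lit 156) (nat_lit 760) (nat_lit 0) (XT.nd (nat_lit 78) (nat_lit 380) (nat_lit 0) (XT.lf (nat_lit 0) (nat_lit 634159151) (nat_lit 456) (nat_lit 4749901386) (nat_lit 76) (nat_lit 4382004250) (nat_lit 167) (nat_lit 5) (nat_lit 173) (nat_lit 5) (nat_lit 168) (nat_lit 5) (nat_lit 602) (nat_lit 489) (nat_lit 469)) (XT.lf (nat_lit 0) (nat_lit 3550219655) (nat_lit 380) (nat_lit 1423406585) (nat_lit 456) (nat_lit 4882319751)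 (nat_lit 162) (nat_lit 5) (nat_lit 167) (nat_lit 5) (nat_lit 168) (nat_lit 5) (nat_lit 603) (nat_lit 489) (nat_lit 468))) (XT.nd (nat_lit 78) (nat_lit 456) (nat_lit 0) (XT.lf (nat_lit 0) (nat_lit 2047813742) (nat_lit 304) (nat_lit 7354703159) (nat_lit 380) (nat_lit 545056222) (nat_lit 158) (nat_lit 5) (nat_lit 162) (nat_lit 5) (nat_lit 163) (nat_lit 4) (nat_lit 604) (nat_lit 489) (nat_lit 467)) (XT.lf (nat_lit 0) (nat_lit 489491630) (nat_lit 380) (nat_lit 3334214501) (nat_lit 456) (nat_lit 6216911384) (nat_lit 152) (nat_lit 5) (nat_lit 157) (nat_lit 5) (nat_lit 158) (nat_lit 5) (nat_lit 605) (nat_lit 489) (nat_lit 466))))) (XT.nd (nat_lit 312) (nat_lit 988) (nat_lit 0) (XT.nd (nat_lit 156) (nat_lit 760) (nat_lit 0) (XT.nd (nat_lit 78) (nat_lit 380) (nat_lit 0) (XT.lf (nat_lit 0) (nat_lit 8271635928) (nat_lit 456) (nat_lit 1085857730) (nat_lit 76) (nat_lit 777976201) (nat_lit 152) (nat_lit 5) (nat_lit 158) (nat_lit 5) (nat_lit 153) (nat_lit 4) (nat_lit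 606) (nat_lit 489) (nat_lit 465)) (XT.lf (nat_lit 0) (nat_lit 2555484521) (nat_lit 380) (nat_lit 2717550559) (nat_lit 76) (nat_lit 4958591159) (nat_lit 147) (nat_lit 5) (nat_lit 152) (nat_lit 5) (nat_lit 148) (nat_lit 5) (nat_lit 607) (nat_lit 489) (nat_lit 464))) (XT.nd (nat_lit 78) (nat_lit 380) (nat_lit 0) (XT.lf (nat_lit 0) (nat_lit 5942375390) (nat_lit 380) (nat_lit 1083851999) (nat_lit 456) (nat_lit 3303472938) (nat_lit 142) (nat_lit 5) (nat_lit 147) (nat_lit 5) (nat_lit 148) (nat_lit 5) (nat_lit 608) (nat_lit 489) (nat_lit 463)) (XT.lf (nat_lit 0) (nat_lit 1151026803) (nat_lit 380) (nat_lit 6112895600) (nat_lit 76) (nat_lit 3165473196) (nat_lit 137) (nat_lit 5) (nat_lit 142) (nat_lit 5) (nat_lit 138) (nat_lit 5) (nat_lit 609) (nat_lit 489) (nat_lit 462)))) (XT.nd (nat_lit 156) (nat_lit 380) (nat_lit 0) (XT.nd (nat_lit 78) (nat_lit 304) (nat_lit 0) (XT.lf (nat_lit 0) (nat_lit 2633900054) (nat_lit 304) (nat_lit 3012927071) (nat_lit 380) (nat_lit 4883892876)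 (nat_lit 133) (nat_lit 5) (nat_lit 137) (nat_lit 5) (nat_lit 138) (nat_lit 5) (nat_lit 610) (nat_lit 489) (nat_lit 461)) (XT.lf (nat_lit 0) (nat_lit 913312519) (nat_lit 304) (nat_lit 9317806406) (nat_lit 380) (nat_lit 402981266) (nat_lit 129) (nat_lit 5) (nat_lit 133) (nat_lit 5) (nat_lit 134) (nat_lit 4) (nat_lit 611) (nat_lit 489) (nat_lit 460))) (XT.nd (nat_lit 78) (nat_lit 304) (nat_lit 0) (XT.lf (nat_lit 0) (nat_lit 4129081995) (nat_lit 380) (nat_lit 874340750) (nat_lit 76) (nat_lit 5735261017) (nat_lit 128) (nat_lit 5) (nat_lit 133) (nat_lit 5) (nat_lit 129) (nat_lit 5) (nat_lit 612) (nat_lit 489) (nat_lit 459)) (XT.lf (nat_lit 0) (nat_lit 8160072353) (nat_lit 304) (nat_lit 583319242) (nat_lit 380) (nat_lit 2101974877) (nat_lit 124) (nat_lit 5) (nat_lit 128) (nat_lit 5) (nat_lit 129) (nat_lit 5) (nat_lit 613) (nat_lit 489) (nat_lit 458))))))) (XT.nd (nat_lit 1170) (nat_lit 2660) (nat_lit 0) (XT.nd (nat_lit 546) (nat_lit 1824) (nat_lit 0) (XT.nd (nat_lit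 234) (nat_lit 912) (nat_lit 0) (XT.nd (nat_lit 78) (nat_lit 608) (nat_lit 0) (XT.lf (nat_lit 0) (nat_lit 2480384043) (nat_lit 380) (nat_lit 4572383406) (nat_lit 76) (nat_lit 3900745783) (nat_lit 119) (nat_lit 5) (nat_lit 124) (nat_lit 5) (nat_lit 120) (nat_lit 5) (nat_lit 614) (nat_lit 489) (nat_lit 457)) (XT.nd (nat_lit 78) (nat_lit 304) (nat_lit 0) (XT.lf (nat_lit 0) (nat_lit 4549895592) (nat_lit 304) (nat_lit 2572310747) (nat_lit 380) (nat_lit 3941420195) (nat_lit 115) (nat_lit 5) (nat_lit 119) (nat_lit 5) (nat_lit 120) (nat_lit 5) (nat_lit 615) (nat_lit 489) (nat_lit 456)) (XT.lf (nat_lit 0) (nat_lit 677849333) (nat_lit 304) (nat_lit 8511115926) (nat_lit 76) (nat_lit 1986771976) (nat_lit 111) (nat_lit 5) (nat_lit 115) (nat_lit 5) (nat_lit 112) (nat_lit 5) (nat_lit 616) (nat_lit 489) (nat_lit 455)))) (XT.nd (nat_lit 156) (nat_lit 608) (nat_lit 0) (XT.nd (nat_lit 78) (nat_lit 0) (nat_lit 0) (XT.lf (nat_lit 0) (nat_lit 697287069) (nat_lit 304) (nat_lit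 4649800823) (nat_lit 380) (nat_lit 5942274695) (nat_lit 107) (nat_lit 5) (nat_lit 111) (nat_lit 5) (nat_lit 112) (nat_lit 5) (nat_lit 617) (nat_lit 489) (nat_lit 454)) (XT.lf (nat_lit 0) (nat_lit 10111796082) (nat_lit 304) (nat_lit 253431) (nat_lit 380) (nat_lit 1293164831) (nat_lit 107) (nat_lit 5) (nat_lit 111) (nat_lit 5) (nat_lit 112) (nat_lit 5) (nat_lit 618) (nat_lit 489) (nat_lit 453))) (XT.nd (nat_lit 78) (nat_lit 304) (nat_lit 0) (XT.lf (nat_lit 0) (nat_lit 3433812595) (nat_lit 304) (nat_lit 3370163847) (nat_lit 76) (nat_lit 4718357104) (nat_lit 103) (nat_lit 5) (nat_lit 107) (nat_lit 5) (nat_lit 104) (nat_lit 5) (nat_lit 619) (nat_lit 489) (nat_lit 452)) (XT.lf (nat_lit 0) (nat_lit 6141973295) (nat_lit 304) (nat_lit 2090832414) (nat_lit 380) (nat_lit 3408923260) (nat_lit 99) (nat_lit 5) (nat_lit 103) (nat_lit 5) (nat_lit 104) (nat_lit 5) (nat_lit 620) (nat_lit 489) (nat_lit 451))))) (XT.nd (nat_lit 312) (nat_lit 988) (nat_lit 0) (XT.nd (nat_lit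 156) (nat_lit 304) (nat_lit 0) (XT.nd (nat_lit 78) (nat_lit 228) (nat_lit 0) (XT.lf (nat_lit 0) (nat_lit 1359655245) (nat_lit 304) (nat_lit 7702374961) (nat_lit 76) (nat_lit 2701039913) (nat_lit 95) (nat_lit 5) (nat_lit 99) (nat_lit 5) (nat_lit 96) (nat_lit 5) (nat_lit 621) (nat_lit 489) (nat_lit 450)) (XT.lf (nat_lit 0) (nat_lit 1896159366) (nat_lit 228) (nat_lit 4291619707) (nat_lit 304) (nat_lit 5698412563) (nat_lit 92) (nat_lit 5) (nat_lit 95) (nat_lit 5) (nat_lit 96) (nat_lit 5) (nat_lit 622) (nat_lit 489) (nat_lit 449))) (XT.nd (nat_lit 78) (nat_lit 304) (nat_lit 0) (XT.lf (nat_lit 0) (nat_lit 11114887499) (nat_lit 304) (nat_lit 316785397) (nat_lit 76) (nat_lit 580054823) (nat_lit 92) (nat_lit 5) (nat_lit 96) (nat_lit 5) (nat_lit 93) (nat_lit 4) (nat_lit 623) (nat_lit 489) (nat_lit 448)) (XT.lf (nat_lit 0) (nat_lit 3986718287) (nat_lit 304) (nat_lit 2609632287) (nat_lit 76) (nat_lit 5542136483) (nat_lit 88) (nat_lit 5) (nat_lit 92) (nat_lit 5) (nat_lit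 89) (nat_lit 5) (nat_lit 624) (nat_lit 489) (nat_lit 447)))) (XT.nd (nat_lit 156) (nat_lit 456) (nat_lit 0) (XT.nd (nat_lit 78) (nat_lit 304) (nat_lit 0) (XT.lf (nat_lit 0) (nat_lit 7306520771) (nat_lit 228) (nat_lit 1646811894) (nat_lit 304) (nat_lit 3314383032) (nat_lit 85) (nat_lit 5) (nat_lit 88) (nat_lit 5) (nat_lit 89) (nat_lit 5) (nat_lit 625) (nat_lit 489) (nat_lit 446)) (XT.lf (nat_lit 0) (nat_lit 1618862759) (nat_lit 304) (nat_lit 7400585739) (nat_lit 76) (nat_lit 3379463493) (nat_lit 81) (nat_lit 5) (nat_lit 85) (nat_lit 5) (nat_lit 82) (nat_lit 5) (nat_lit 626) (nat_lit 489) (nat_lit 445))) (XT.nd (nat_lit 78) (nat_lit 228) (nat_lit 0) (XT.lf (nat_lit 0) (nat_lit 2601681552) (nat_lit 228) (nat_lit 4014137101) (nat_lit 304) (nat_lit 5916287413) (nat_lit 78) (nat_lit 5) (nat_lit 81) (nat_lit 5) (nat_lit 82) (nat_lit 5) (nat_lit 627) (nat_lit 489) (nat_lit 444)) (XT.lf (nat_lit 0) (nat_lit 140004978) (nat_lit 228) (nat_lit 11578937532) (nat_lit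 304) (nat_lit 948897440) (nat_lit 75) (nat_lit 5) (nat_lit 78) (nat_lit 5) (nat_lit 79) (nat_lit 4) (nat_lit 628) (nat_lit 489) (nat_lit 443)))))) (XT.nd (nat_lit 624) (nat_lit 1216) (nat_lit 0) (XT.nd (nat_lit 312) (nat_lit 684) (nat_lit 0) (XT.nd (nat_lit 156) (nat_lit 456) (nat_lit 0) (XT.nd (nat_lit 78) (nat_lit 228) (nat_lit 0) (XT.lf (nat_lit 0) (nat_lit 4105823859) (nat_lit 304) (nat_lit 2404104749) (nat_lit 76) (nat_lit 6294985875) (nat_lit 74) (nat_lit 5) (nat_lit 78) (nat_lit 5) (nat_lit 75) (nat_lit 5) (nat_lit 629) (nat_lit 489) (nat_lit 442)) (XT.lf (nat_lit 0) (nat_lit 7929776401) (nat_lit 228) (nat_lit 1319994265) (nat_lit 304) (nat_lit 3694818136) (nat_lit 71) (nat_lit 5) (nat_lit 74) (nat_lit 5) (nat_lit 75) (nat_lit 5) (nat_lit 630) (nat_lit 489) (nat_lit 441))) (XT.nd (nat_lit 78) (nat_lit 228) (nat_lit 0) (XT.lf (nat_lit 0) (nat_lit 1417634271) (nat_lit 228) (nat_lit 7725336223) (nat_lit 76) (nat_lit 3943371918) (nat_lit 68) (nat_lit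 5) (nat_lit 71) (nat_lit 5) (nat_lit 69) (nat_lit 5) (nat_lit 631) (nat_lit 489) (nat_lit 440)) (XT.lf (nat_lit 0) (nat_lit 2693679002) (nat_lit 228) (nat_lit 3898909003) (nat_lit 304) (nat_lit 6637660564) (nat_lit 65) (nat_lit 5) (nat_lit 68) (nat_lit 5) (nat_lit 69) (nat_lit 5) (nat_lit 632) (nat_lit 489) (nat_lit 439)))) (XT.nd (nat_lit 156) (nat_lit 456) (nat_lit 0) (XT.nd (nat_lit 78) (nat_lit 228) (nat_lit 0) (XT.lf (nat_lit 0) (nat_lit 11882362664) (nat_lit 304) (nat_lit 50385569) (nat_lit 76) (nat_lit 1444058616) (nat_lit 65) (nat_lit 5) (nat_lit 69) (nat_lit 5) (nat_lit 66) (nat_lit 4) (nat_lit 633) (nat_lit 489) (nat_lit 438)) (XT.lf (nat_lit 0) (nat_lit 3748548616) (nat_lit 228) (nat_lit 2879040455) (nat_lit 76) (nat_lit 6897298174) (nat_lit 62) (nat_lit 5) (nat_lit 65) (nat_lit 5) (nat_lit 63) (nat_lit 5) (nat_lit 634) (nat_lit 489) (nat_lit 437))) (XT.nd (nat_lit 78) (nat_lit 228) (nat_lit 0) (XT.lf (nat_lit 0) (nat_lit 7885562254) (nat_lit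 228) (nat_lit 1193164935) (nat_lit 304) (nat_lit 4596958175) (nat_lit 59) (nat_lit 5) (nat_lit 62) (nat_lit 5) (nat_lit 63) (nat_lit 5) (nat_lit 635) (nat_lit 489) (nat_lit 436)) (XT.lf (nat_lit 0) (nat_lit 708445823) (nat_lit 228) (nat_lit 8809507088) (nat_lit 76) (nat_lit 4310829191) (nat_lit 56) (nat_lit 5) (nat_lit 59) (nat_lit 5) (nat_lit 57) (nat_lit 5) (nat_lit 636) (nat_lit 489) (nat_lit 435))))) (XT.nd (nat_lit 312) (nat_lit 608) (nat_lit 0) (XT.nd (nat_lit 156) (nat_lit 380) (nat_lit 0) (XT.nd (nat_lit 78) (nat_lit 0) (nat_lit 0) (XT.lf (nat_lit 0) (nat_lit 2038386778) (nat_lit 228) (nat_lit 4031306972) (nat_lit 304) (nat_lit 7914413911) (nat_lit 53) (nat_lit 5) (nat_lit 56) (nat_lit 5) (nat_lit 57) (nat_lit 5) (nat_lit 637) (nat_lit 489) (nat_lit 434)) (XT.lf (nat_lit 0) (nat_lit 11558948906) (nat_lit 304) (nat_lit 1018315334) (nat_lit 76) (nat_lit 1564860229) (nat_lit 53) (nat_lit 5) (nat_lit 57) (nat_lit 5) (nat_lit 54) (nat_lit 4) (nat_lit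 638) (nat_lit 489) (nat_lit 433))) (XT.nd (nat_lit 78) (nat_lit 152) (nat_lit 0) (XT.lf (nat_lit 0) (nat_lit 2862191081) (nat_lit 228) (nat_lit 4174534857) (nat_lit 76) (nat_lit 7265306485) (nat_lit 50) (nat_lit 5) (nat_lit 53) (nat_lit 5) (nat_lit 51) (nat_lit 5) (nat_lit 639) (nat_lit 489) (nat_lit 432)) (XT.lf (nat_lit 0) (nat_lit 7032737153) (nat_lit 152) (nat_lit 1353844166) (nat_lit 228) (nat_lit 6078121981) (nat_lit 48) (nat_lit 5) (nat_lit 50) (nat_lit 5) (nat_lit 51) (nat_lit 5) (nat_lit 640) (nat_lit 489) (nat_lit 431)))) (XT.nd (nat_lit 156) (nat_lit 228) (nat_lit 0) (XT.nd (nat_lit 78) (nat_lit 228) (nat_lit 0) (XT.lf (nat_lit 0) (nat_lit 3824305578) (nat_lit 152) (nat_lit 10231280051) (nat_lit 228) (nat_lit 574359792) (nat_lit 46) (nat_lit 5) (nat_lit 48) (nat_lit 5) (nat_lit 49) (nat_lit 4) (nat_lit 641) (nat_lit 489) (nat_lit 430)) (XT.lf (nat_lit 0) (nat_lit 485751901) (nat_lit 152) (nat_lit 4502264817) (nat_lit 228) (nat_lit 9809528958)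 (nat_lit 43) (nat_lit 5) (nat_lit 45) (nat_lit 5) (nat_lit 46) (nat_lit 5) (nat_lit 642) (nat_lit 489) (nat_lit 429))) (XT.nd (nat_lit 78) (nat_lit 228) (nat_lit 0) (XT.lf (nat_lit 0) (nat_lit 10688081086) (nat_lit 228) (nat_lit 2918261995) (nat_lit 76) (nat_lit 1361396637) (nat_lit 43) (nat_lit 5) (nat_lit 46) (nat_lit 5) (nat_lit 44) (nat_lit 4) (nat_lit 643) (nat_lit 489) (nat_lit 428)) (XT.lf (nat_lit 0) (nat_lit 1382892589) (nat_lit 228) (nat_lit 6448144152) (nat_lit 76) (nat_lit 7309325898) (nat_lit 40) (nat_lit 5) (nat_lit 43) (nat_lit 5) (nat_lit 41) (nat_lit 5) (nat_lit 644) (nat_lit 489) (nat_lit 427))))))))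
noncomputable def xc20 : XT := (XT.nd (nat_lit 78078) (nat_lit 0) (nat_lit 2280) (XT.nd (nat_lit 76830) (nat_lit 0) (nat_lit 9804) (XT.nd (nat_lit 76206) (nat_lit 0) (nat_lit 16112) (XT.nd (nat_lit 234) (nat_lit 456) (nat_lit 0) (XT.nd (nat_lit 78) (nat_lit 228) (nat_lit 0) (XT.lf (nat_lit 0) (nat_lit 5212307155) (nat_lit 152) (nat_lit 1896100678) (nat_lit 228) (nat_lit 8207324375) (nat_lit 38) (nat_lit 5) (nat_lit 40) (nat_lit 5) (nat_lit 41) (nat_lit 5) (nat_lit 645) (nat_lit 489) (nat_lit 426)) (XT.nd (nat_lit 78) (nat_lit 76) (nat_lit 0) (XT.lf (nat_lit 0) (nat_lit 1607324316) (nat_lit 152) (nat_lit 11375609189) (nat_lit 228) (nat_lit 2510985968) (nat_lit 36) (nat_lit 5) (nat_lit 38) (nat_lit 5) (nat_lit 39) (nat_lit 4) (nat_lit 646) (nat_lit 489) (nat_lit 425)) (XT.lf (nat_lit 0) (nat_lit 3290377983) (nat_lit 228) (nat_lit 2105655247) (nat_lit 76) (nat_lit 10278521736) (nat_lit 35) (nat_lit 5) (nat_lit 38) (nat_lit 5) (nat_lit 36) (nat_lit 5) (nat_lit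 647) (nat_lit 489) (nat_lit 424)))) (XT.nd (nat_lit 156) (nat_lit 228) (nat_lit 0) (XT.nd (nat_lit 78) (nat_lit 76) (nat_lit 0) (XT.lf (nat_lit 0) (nat_lit 9198041315) (nat_lit 228) (nat_lit 5922766531) (nat_lit 76) (nat_lit 737185777) (nat_lit 33) (nat_lit 5) (nat_lit 36) (nat_lit 5) (nat_lit 34) (nat_lit 4) (nat_lit 648) (nat_lit 489) (nat_lit 423)) (XT.lf (nat_lit 0) (nat_lit 6161061650) (nat_lit 76) (nat_lit 9107327929) (nat_lit 152) (nat_lit 775821124) (nat_lit 32) (nat_lit 5) (nat_lit 33) (nat_lit 5) (nat_lit 34) (nat_lit 4) (nat_lit 649) (nat_lit 489) (nat_lit 422))) (XT.nd (nat_lit 75738) (nat_lit 0) (nat_lit 20292) (XT.lf (nat_lit 0) (nat_lit 2244120791) (nat_lit 152) (nat_lit 2922527976) (nat_lit 228) (nat_lit 11066641099) (nat_lit 29) (nat_lit 5) (nat_lit 31) (nat_lit 5) (nat_lit 32) (nat_lit 5) (nat_lit 650) (nat_lit 489) (nat_lit 421)) (XT.lf (nat_lit 0) (nat_lit 2901946493) (nat_lit 608) (nat_lit 589970796) (nat_lit 608) (nat_lit 589970796)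 (nat_lit 296) (nat_lit 4) (nat_lit 304) (nat_lit 5) (nat_lit 304) (nat_lit 4) (nat_lit 580) (nat_lit 490) (nat_lit 490))))) (XT.nd (nat_lit 312) (nat_lit 1672) (nat_lit 0) (XT.nd (nat_lit 156) (nat_lit 1216) (nat_lit 0) (XT.nd (nat_lit 78) (nat_lit 608) (nat_lit 0) (XT.lf (nat_lit 0) (nat_lit 2879020301) (nat_lit 684) (nat_lit 3611148134) (nat_lit 0) (nat_lit 1732168367) (nat_lit 287) (nat_lit 5) (nat_lit 296) (nat_lit 4) (nat_lit 287) (nat_lit 4) (nat_lit 581) (nat_lit 490) (nat_lit 489)) (XT.lf (nat_lit 0) (nat_lit 3407859788) (nat_lit 608) (nat_lit 3572862035) (nat_lit 608) (nat_lit 1301645459) (nat_lit 279) (nat_lit 4) (nat_lit 287) (nat_lit 5) (nat_lit 287) (nat_lit 4) (nat_lit 582) (nat_lit 490) (nat_lit 488))) (XT.nd (nat_lit 78) (nat_lit 608) (nat_lit 0) (XT.lf (nat_lit 0) (nat_lit 2190014045) (nat_lit 532) (nat_lit 564218081) (nat_lit 608) (nat_lit 5589594316) (nat_lit 271) (nat_lit 5) (nat_lit 278) (nat_lit 5) (nat_lit 279) (nat_lit 4) (nat_lit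 583) (nat_lit 490) (nat_lit 487)) (XT.lf (nat_lit 0) (nat_lit 949503712) (nat_lit 608) (nat_lit 5911993874) (nat_lit 608) (nat_lit 1545092851) (nat_lit 263) (nat_lit 4) (nat_lit 271) (nat_lit 5) (nat_lit 271) (nat_lit 4) (nat_lit 584) (nat_lit 490) (nat_lit 486)))) (XT.nd (nat_lit 156) (nat_lit 1064) (nat_lit 0) (XT.nd (nat_lit 78) (nat_lit 532) (nat_lit 0) (XT.lf (nat_lit 0) (nat_lit 2524368747) (nat_lit 684) (nat_lit 306415284) (nat_lit 76) (nat_lit 5639934049) (nat_lit 262) (nat_lit 5) (nat_lit 271) (nat_lit 5) (nat_lit 263) (nat_lit 4) (nat_lit 585) (nat_lit 490) (nat_lit 485)) (XT.lf (nat_lit 0) (nat_lit 6635994898) (nat_lit 608) (nat_lit 1562357387) (nat_lit 0) (nat_lit 337944064) (nat_lit 255) (nat_lit 5) (nat_lit 263) (nat_lit 4) (nat_lit 255) (nat_lit 4) (nat_lit 586) (nat_lit 490) (nat_lit 484))) (XT.nd (nat_lit 78) (nat_lit 456) (nat_lit 0) (XT.lf (nat_lit 0) (nat_lit 2190116953) (nat_lit 608) (nat_lit 2852841670) (nat_lit 76) (nat_lit 3560086922)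 (nat_lit 247) (nat_lit 5) (nat_lit 255) (nat_lit 5) (nat_lit 248) (nat_lit 4) (nat_lit 587) (nat_lit 490) (nat_lit 483)) (XT.lf (nat_lit 0) (nat_lit 4512691518) (nat_lit 456) (nat_lit 1798795526) (nat_lit 532) (nat_lit 2359901220) (nat_lit 241) (nat_lit 5) (nat_lit 247) (nat_lit 5) (nat_lit 248) (nat_lit 4) (nat_lit 588) (nat_lit 490) (nat_lit 482)))))) (XT.nd (nat_lit 624) (nat_lit 2812) (nat_lit 0) (XT.nd (nat_lit 312) (nat_lit 1900) (nat_lit 0) (XT.nd (nat_lit 156) (nat_lit 532) (nat_lit 0) (XT.nd (nat_lit 78) (nat_lit 456) (nat_lit 0) (XT.lf (nat_lit 0) (nat_lit 1736290481) (nat_lit 608) (nat_lit 5490075919) (nat_lit 76) (nat_lit 1514795066) (nat_lit 233) (nat_lit 5) (nat_lit 241) (nat_lit 5) (nat_lit 234) (nat_lit 4) (nat_lit 589) (nat_lit 490) (nat_lit 481)) (XT.lf (nat_lit 0) (nat_lit 1957757308) (nat_lit 456) (nat_lit 3913245129) (nat_lit 532) (nat_lit 2941253245) (nat_lit 227) (nat_lit 5) (nat_lit 233) (nat_lit 5) (nat_lit 234) (nat_lit 4) (nat_lit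 590) (nat_lit 490) (nat_lit 480))) (XT.nd (nat_lit 78) (nat_lit 0) (nat_lit 0) (XT.lf (nat_lit 0) (nat_lit 651319553) (nat_lit 456) (nat_lit 513531759) (nat_lit 532) (nat_lit 7720225547) (nat_lit 220) (nat_lit 5) (nat_lit 226) (nat_lit 5) (nat_lit 227) (nat_lit 5) (nat_lit 591) (nat_lit 490) (nat_lit 479)) (XT.lf (nat_lit 0) (nat_lit 5315360621) (nat_lit 532) (nat_lit 691787133) (nat_lit 76) (nat_lit 2951785905) (nat_lit 220) (nat_lit 5) (nat_lit 227) (nat_lit 5) (nat_lit 221) (nat_lit 4) (nat_lit 592) (nat_lit 490) (nat_lit 478)))) (XT.nd (nat_lit 156) (nat_lit 912) (nat_lit 0) (XT.nd (nat_lit 78) (nat_lit 456) (nat_lit 0) (XT.lf (nat_lit 0) (nat_lit 493997596) (nat_lit 532) (nat_lit 2041113407) (nat_lit 76) (nat_lit 6499368384) (nat_lit 213) (nat_lit 5) (nat_lit 220) (nat_lit 5) (nat_lit 214) (nat_lit 5) (nat_lit 593) (nat_lit 490) (nat_lit 477)) (XT.lf (nat_lit 0) (nat_lit 4651566643) (nat_lit 532) (nat_lit 3430574394) (nat_lit 76) (nat_lit 1029193898)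 (nat_lit 207) (nat_lit 5) (nat_lit 214) (nat_lit 5) (nat_lit 208) (nat_lit 4) (nat_lit 594) (nat_lit 490) (nat_lit 476))) (XT.nd (nat_lit 78) (nat_lit 532) (nat_lit 0) (XT.lf (nat_lit 0) (nat_lit 4342002269) (nat_lit 380) (nat_lit 4547094625) (nat_lit 456) (nat_lit 300695755) (nat_lit 202) (nat_lit 5) (nat_lit 207) (nat_lit 5) (nat_lit 208) (nat_lit 4) (nat_lit 595) (nat_lit 490) (nat_lit 475)) (XT.lf (nat_lit 0) (nat_lit 2966781709) (nat_lit 456) (nat_lit 903765489) (nat_lit 532) (nat_lit 5399148033) (nat_lit 195) (nat_lit 5) (nat_lit 201) (nat_lit 5) (nat_lit 202) (nat_lit 5) (nat_lit 596) (nat_lit 490) (nat_lit 474))))) (XT.nd (nat_lit 312) (nat_lit 1520) (nat_lit 0) (XT.nd (nat_lit 156) (nat_lit 456) (nat_lit 0) (XT.nd (nat_lit 78) (nat_lit 456) (nat_lit 0) (XT.lf (nat_lit 0) (nat_lit 1558830127) (nat_lit 380) (nat_lit 6562138536) (nat_lit 456) (nat_lit 1230193030) (nat_lit 190) (nat_lit 5) (nat_lit 195) (nat_lit 5) (nat_lit 196) (nat_lit 4) (nat_lit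 597) (nat_lit 490) (nat_lit 473)) (XT.lf (nat_lit 0) (nat_lit 111250703) (nat_lit 380) (nat_lit 2859379794) (nat_lit 456) (nat_lit 6463473178) (nat_lit 184) (nat_lit 5) (nat_lit 189) (nat_lit 5) (nat_lit 190) (nat_lit 5) (nat_lit 598) (nat_lit 490) (nat_lit 472))) (XT.nd (nat_lit 78) (nat_lit 456) (nat_lit 0) (XT.lf (nat_lit 0) (nat_lit 7236826816) (nat_lit 456) (nat_lit 1348111796) (nat_lit 76) (nat_lit 933647792) (nat_lit 184) (nat_lit 5) (nat_lit 190) (nat_lit 5) (nat_lit 185) (nat_lit 4) (nat_lit 599) (nat_lit 490) (nat_lit 471)) (XT.lf (nat_lit 0) (nat_lit 1960852625) (nat_lit 456) (nat_lit 2854387801) (nat_lit 76) (nat_lit 4789196265) (nat_lit 178) (nat_lit 5) (nat_lit 184) (nat_lit 5) (nat_lit 179) (nat_lit 5) (nat_lit 600) (nat_lit 490) (nat_lit 470)))) (XT.nd (nat_lit 156) (nat_lit 684) (nat_lit 0) (XT.nd (nat_lit 78) (nat_lit 456) (nat_lit 0) (XT.lf (nat_lit 0) (nat_lit 5298075890) (nat_lit 380) (nat_lit 943812224) (nat_lit 456) (nat_lit 3450132791)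 (nat_lit 173) (nat_lit 5) (nat_lit 178) (nat_lit 5) (nat_lit 179) (nat_lit 5) (nat_lit 601) (nat_lit 490) (nat_lit 469)) (XT.lf (nat_lit 0) (nat_lit 820825231) (nat_lit 456) (nat_lit 5978263637) (nat_lit 76) (nat_lit 2982071800) (nat_lit 167) (nat_lit 5) (nat_lit 173) (nat_lit 5) (nat_lit 168) (nat_lit 5) (nat_lit 602) (nat_lit 490) (nat_lit 468))) (XT.nd (nat_lit 78) (nat_lit 304) (nat_lit 0) (XT.lf (nat_lit 0) (nat_lit 2258689728) (nat_lit 380) (nat_lit 2864062471) (nat_lit 456) (nat_lit 4749040964) (nat_lit 162) (nat_lit 5) (nat_lit 167) (nat_lit 5) (nat_lit 168) (nat_lit 5) (nat_lit 603) (nat_lit 490) (nat_lit 467)) (XT.lf (nat_lit 0) (nat_lit 685531425) (nat_lit 304) (nat_lit 8818921074) (nat_lit 380) (nat_lit 459912082) (nat_lit 158) (nat_lit 5) (nat_lit 162) (nat_lit 5) (nat_lit 163) (nat_lit 4) (nat_lit 604) (nat_lit 490) (nat_lit 466))))))) (XT.nd (nat_lit 1170) (nat_lit 3344) (nat_lit 0) (XT.nd (nat_lit 546) (nat_lit 2280) (nat_lit 0) (XT.nd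 (nat_lit 234) (nat_lit 1064) (nat_lit 0) (XT.nd (nat_lit 78) (nat_lit 760) (nat_lit 0) (XT.lf (nat_lit 0) (nat_lit 3875642221) (nat_lit 380) (nat_lit 943026550) (nat_lit 76) (nat_lit 5239371435) (nat_lit 157) (nat_lit 5) (nat_lit 162) (nat_lit 5) (nat_lit 158) (nat_lit 5) (nat_lit 605) (nat_lit 490) (nat_lit 465)) (XT.nd (nat_lit 78) (nat_lit 380) (nat_lit 0) (XT.lf (nat_lit 0) (nat_lit 7563616165) (nat_lit 380) (nat_lit 719987384) (nat_lit 456) (nat_lit 1870088820) (nat_lit 152) (nat_lit 5) (nat_lit 157) (nat_lit 5) (nat_lit 158) (nat_lit 5) (nat_lit 606) (nat_lit 490) (nat_lit 464)) (XT.lf (nat_lit 0) (nat_lit 2505989516) (nat_lit 380) (nat_lit 4302099568) (nat_lit 76) (nat_lit 3442627354) (nat_lit 147) (nat_lit 5) (nat_lit 152) (nat_lit 5) (nat_lit 148) (nat_lit 5) (nat_lit 607) (nat_lit 490) (nat_lit 463)))) (XT.nd (nat_lit 156) (nat_lit 304) (nat_lit 0) (XT.nd (nat_lit 78) (nat_lit 380) (nat_lit 0) (XT.lf (nat_lit 0) (nat_lit 4290375186) (nat_lit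 380) (nat_lit 2647507979) (nat_lit 456) (nat_lit 3411684769) (nat_lit 142) (nat_lit 5) (nat_lit 147) (nat_lit 5) (nat_lit 148) (nat_lit 5) (nat_lit 608) (nat_lit 490) (nat_lit 462)) (XT.lf (nat_lit 0) (nat_lit 994538466) (nat_lit 380) (nat_lit 7863057737) (nat_lit 76) (nat_lit 1592675380) (nat_lit 137) (nat_lit 5) (nat_lit 142) (nat_lit 5) (nat_lit 138) (nat_lit 5) (nat_lit 609) (nat_lit 490) (nat_lit 461))) (XT.nd (nat_lit 78) (nat_lit 0) (nat_lit 0) (XT.lf (nat_lit 0) (nat_lit 813871635) (nat_lit 304) (nat_lit 4636737125) (nat_lit 380) (nat_lit 5101782225) (nat_lit 133) (nat_lit 5) (nat_lit 137) (nat_lit 5) (nat_lit 138) (nat_lit 5) (nat_lit 610) (nat_lit 490) (nat_lit 460)) (XT.lf (nat_lit 0) (nat_lit 9678624189) (nat_lit 304) (nat_lit 314063173) (nat_lit 380) (nat_lit 663928470) (nat_lit 133) (nat_lit 5) (nat_lit 137) (nat_lit 5) (nat_lit 138) (nat_lit 5) (nat_lit 611) (nat_lit 490) (nat_lit 459))))) (XT.nd (nat_lit 312) (nat_lit 912) (nat_lit 0) (XT.nd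 (nat_lit 156) (nat_lit 684) (nat_lit 0) (XT.nd (nat_lit 78) (nat_lit 304) (nat_lit 0) (XT.lf (nat_lit 0) (nat_lit 3835326114) (nat_lit 380) (nat_lit 2843705730) (nat_lit 76) (nat_lit 4082926443) (nat_lit 128) (nat_lit 5) (nat_lit 133) (nat_lit 5) (nat_lit 129) (nat_lit 5) (nat_lit 612) (nat_lit 490) (nat_lit 458)) (XT.lf (nat_lit 0) (nat_lit 6118644009) (nat_lit 304) (nat_lit 2290565658) (nat_lit 380) (nat_lit 2460240221) (nat_lit 124) (nat_lit 5) (nat_lit 128) (nat_lit 5) (nat_lit 129) (nat_lit 5) (nat_lit 613) (nat_lit 490) (nat_lit 457))) (XT.nd (nat_lit 78) (nat_lit 304) (nat_lit 0) (XT.lf (nat_lit 0) (nat_lit 2074525376) (nat_lit 380) (nat_lit 6722582403) (nat_lit 76) (nat_lit 2181581588) (nat_lit 119) (nat_lit 5) (nat_lit 124) (nat_lit 5) (nat_lit 120) (nat_lit 5) (nat_lit 614) (nat_lit 490) (nat_lit 456)) (XT.lf (nat_lit 0) (nat_lit 2325043589) (nat_lit 304) (nat_lit 4349870067) (nat_lit 380) (nat_lit 4414718040) (nat_lit 115) (nat_lit 5) (nat_lit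 119) (nat_lit 5) (nat_lit 120) (nat_lit 5) (nat_lit 615) (nat_lit 490) (nat_lit 455)))) (XT.nd (nat_lit 156) (nat_lit 608) (nat_lit 0) (XT.nd (nat_lit 78) (nat_lit 0) (nat_lit 0) (XT.lf (nat_lit 0) (nat_lit 156958702) (nat_lit 304) (nat_lit 10850035008) (nat_lit 76) (nat_lit 195886486) (nat_lit 111) (nat_lit 5) (nat_lit 115) (nat_lit 5) (nat_lit 112) (nat_lit 5) (nat_lit 616) (nat_lit 490) (nat_lit 454)) (XT.lf (nat_lit 0) (nat_lit 4794853600) (nat_lit 304) (nat_lit 1696424124) (nat_lit 76) (nat_lit 4825855025) (nat_lit 111) (nat_lit 5) (nat_lit 115) (nat_lit 5) (nat_lit 112) (nat_lit 5) (nat_lit 617) (nat_lit 490) (nat_lit 453))) (XT.nd (nat_lit 78) (nat_lit 304) (nat_lit 0) (XT.lf (nat_lit 0) (nat_lit 7650193548) (nat_lit 304) (nat_lit 1871875967) (nat_lit 380) (nat_lit 1911670228) (nat_lit 107) (nat_lit 5) (nat_lit 111) (nat_lit 5) (nat_lit 112) (nat_lit 5) (nat_lit 618) (nat_lit 490) (nat_lit 452)) (XT.lf (nat_lit 0) (nat_lit 2768122314) (nat_lit 304)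 (nat_lit 5951771721) (nat_lit 76) (nat_lit 2832151468) (nat_lit 103) (nat_lit 5) (nat_lit 107) (nat_lit 5) (nat_lit 104) (nat_lit 5) (nat_lit 619) (nat_lit 490) (nat_lit 451)))))) (XT.nd (nat_lit 624) (nat_lit 1672) (nat_lit 0) (XT.nd (nat_lit 312) (nat_lit 836) (nat_lit 0) (XT.nd (nat_lit 156) (nat_lit 228) (nat_lit 0) (XT.nd (nat_lit 78) (nat_lit 304) (nat_lit 0) (XT.lf (nat_lit 0) (nat_lit 3480548135) (nat_lit 304) (nat_lit 4043156216) (nat_lit 380) (nat_lit 4148605099) (nat_lit 99) (nat_lit 5) (nat_lit 103) (nat_lit 5) (nat_lit 104) (nat_lit 5) (nat_lit 620) (nat_lit 490) (nat_lit 450)) (XT.lf (nat_lit 0) (nat_lit 572669943) (nat_lit 304) (nat_lit 10489459488) (nat_lit 76) (nat_lit 732757602) (nat_lit 95) (nat_lit 5) (nat_lit 99) (nat_lit 5) (nat_lit 96) (nat_lit 5) (nat_lit 621) (nat_lit 490) (nat_lit 449))) (XT.nd (nat_lit 78) (nat_lit 228) (nat_lit 0) (XT.lf (nat_lit 0) (nat_lit 5362501383) (nat_lit 304) (nat_lit 960856797) (nat_lit 76) (nat_lit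 5595416503) (nat_lit 95) (nat_lit 5) (nat_lit 99) (nat_lit 5) (nat_lit 96) (nat_lit 5) (nat_lit 622) (nat_lit 490) (nat_lit 448)) (XT.lf (nat_lit 0) (nat_lit 8784282652) (nat_lit 228) (nat_lit 1469427097) (nat_lit 304) (nat_lit 1791319299) (nat_lit 92) (nat_lit 5) (nat_lit 95) (nat_lit 5) (nat_lit 96) (nat_lit 5) (nat_lit 623) (nat_lit 490) (nat_lit 447)))) (XT.nd (nat_lit 156) (nat_lit 304) (nat_lit 0) (XT.nd (nat_lit 78) (nat_lit 228) (nat_lit 0) (XT.lf (nat_lit 0) (nat_lit 3049093690) (nat_lit 304) (nat_lit 5656134770) (nat_lit 76) (nat_lit 3467773883) (nat_lit 88) (nat_lit 5) (nat_lit 92) (nat_lit 5) (nat_lit 89) (nat_lit 5) (nat_lit 624) (nat_lit 490) (nat_lit 446)) (XT.lf (nat_lit 0) (nat_lit 4174623868) (nat_lit 228) (nat_lit 3795416667) (nat_lit 304) (nat_lit 4333104063) (nat_lit 85) (nat_lit 5) (nat_lit 88) (nat_lit 5) (nat_lit 89) (nat_lit 5) (nat_lit 625) (nat_lit 490) (nat_lit 445))) (XT.nd (nat_lit 78) (nat_lit 0) (nat_lit 0) (XT.lf (nat_lit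 0) (nat_lit 552870020) (nat_lit 304) (nat_lit 10670486361) (nat_lit 76) (nat_lit 1212329697) (nat_lit 81) (nat_lit 5) (nat_lit 85) (nat_lit 5) (nat_lit 82) (nat_lit 5) (nat_lit 626) (nat_lit 490) (nat_lit 444)) (XT.lf (nat_lit 0) (nat_lit 5507731540) (nat_lit 304) (nat_lit 746791031) (nat_lit 76) (nat_lit 6315199719) (nat_lit 81) (nat_lit 5) (nat_lit 85) (nat_lit 5) (nat_lit 82) (nat_lit 5) (nat_lit 627) (nat_lit 490) (nat_lit 443))))) (XT.nd (nat_lit 312) (nat_lit 684) (nat_lit 0) (XT.nd (nat_lit 156) (nat_lit 456) (nat_lit 0) (XT.nd (nat_lit 78) (nat_lit 304) (nat_lit 0) (XT.lf (nat_lit 0) (nat_lit 9410772878) (nat_lit 228) (nat_lit 1162107493) (nat_lit 304) (nat_lit 2133335546) (nat_lit 78) (nat_lit 5) (nat_lit 81) (nat_lit 5) (nat_lit 82) (nat_lit 5) (nat_lit 628) (nat_lit 490) (nat_lit 442)) (XT.lf (nat_lit 0) (nat_lit 2882471153) (nat_lit 304) (nat_lit 5951352413) (nat_lit 76) (nat_lit 4010709898) (nat_lit 74) (nat_lit 5) (nat_lit 78) (nat_lit 5)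 (nat_lit 75) (nat_lit 5) (nat_lit 629) (nat_lit 490) (nat_lit 441))) (XT.nd (nat_lit 78) (nat_lit 228) (nat_lit 0) (XT.lf (nat_lit 0) (nat_lit 4291106662) (nat_lit 228) (nat_lit 3687098975) (nat_lit 304) (nat_lit 5006966622) (nat_lit 71) (nat_lit 5) (nat_lit 74) (nat_lit 5) (nat_lit 75) (nat_lit 5) (nat_lit 630) (nat_lit 490) (nat_lit 440)) (XT.lf (nat_lit 0) (nat_lit 57996714) (nat_lit 228) (nat_lit 11515194835) (nat_lit 76) (nat_lit 1555198892) (nat_lit 68) (nat_lit 5) (nat_lit 71) (nat_lit 5) (nat_lit 69) (nat_lit 5) (nat_lit 631) (nat_lit 490) (nat_lit 439)))) (XT.nd (nat_lit 156) (nat_lit 456) (nat_lit 0) (XT.nd (nat_lit 78) (nat_lit 228) (nat_lit 0) (XT.lf (nat_lit 0) (nat_lit 5190987369) (nat_lit 228) (nat_lit 1175322362) (nat_lit 76) (nat_lit 6906826344) (nat_lit 68) (nat_lit 5) (nat_lit 71) (nat_lit 5) (nat_lit 69) (nat_lit 5) (nat_lit 632) (nat_lit 490) (nat_lit 438)) (XT.lf (nat_lit 0) (nat_lit 9407964480) (nat_lit 228) (nat_lit 1031288129)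 (nat_lit 304) (nat_lit 2981272148) (nat_lit 65) (nat_lit 5) (nat_lit 68) (nat_lit 5) (nat_lit 69) (nat_lit 5) (nat_lit 633) (nat_lit 490) (nat_lit 437))) (XT.nd (nat_lit 78) (nat_lit 228) (nat_lit 0) (XT.lf (nat_lit 0) (nat_lit 2223918546) (nat_lit 228) (nat_lit 6965510189) (nat_lit 76) (nat_lit 4380515734) (nat_lit 62) (nat_lit 5) (nat_lit 65) (nat_lit 5) (nat_lit 63) (nat_lit 5) (nat_lit 634) (nat_lit 490) (nat_lit 436)) (XT.lf (nat_lit 0) (nat_lit 3701151980) (nat_lit 228) (nat_lit 3801888202) (nat_lit 304) (nat_lit 6218723745) (nat_lit 59) (nat_lit 5) (nat_lit 62) (nat_lit 5) (nat_lit 63) (nat_lit 5) (nat_lit 635) (nat_lit 490) (nat_lit 435))))))))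
noncomputable def xc21 : XT := (XT.nd (nat_lit 77922) (nat_lit 0) (nat_lit 4332) (XT.nd (nat_lit 76674) (nat_lit 0) (nat_lit 13832) (XT.nd (nat_lit 546) (nat_lit 1064) (nat_lit 0) (XT.nd (nat_lit 234) (nat_lit 608) (nat_lit 0) (XT.nd (nat_lit 78) (nat_lit 304) (nat_lit 0) (XT.lf (nat_lit 0) (nat_lit 710780520) (nat_lit 152) (nat_lit 12191504275) (nat_lit 228) (nat_lit 974044567) (nat_lit 57) (nat_lit 5) (nat_lit 59) (nat_lit 5) (nat_lit 60) (nat_lit 4) (nat_lit 636) (nat_lit 490) (nat_lit 434)) (XT.nd (nat_lit 78) (nat_lit 228) (nat_lit 0) (XT.lf (nat_lit 0) (nat_lit 4362953616) (nat_lit 228) (nat_lit 2381225481) (nat_lit 76) (nat_lit 7288342986) (nat_lit 56) (nat_lit 5) (nat_lit 59) (nat_lit 5) (nat_lit 57) (nat_lit 5) (nat_lit 637) (nat_lit 490) (nat_lit 433)) (XT.lf (nat_lit 0) (nat_lit 8640175790) (nat_lit 228) (nat_lit 1162470020) (nat_lit 304) (nat_lit 4388884525) (nat_lit 53) (nat_lit 5) (nat_lit 56) (nat_lit 5) (nat_lit 57) (nat_lit 5) (nat_lit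 638) (nat_lit 490) (nat_lit 432)))) (XT.nd (nat_lit 156) (nat_lit 228) (nat_lit 0) (XT.nd (nat_lit 78) (nat_lit 152) (nat_lit 0) (XT.lf (nat_lit 0) (nat_lit 1018900014) (nat_lit 228) (nat_lit 8841603893) (nat_lit 76) (nat_lit 4492394322) (nat_lit 50) (nat_lit 5) (nat_lit 53) (nat_lit 5) (nat_lit 51) (nat_lit 5) (nat_lit 639) (nat_lit 490) (nat_lit 431)) (XT.lf (nat_lit 0) (nat_lit 2260675106) (nat_lit 152) (nat_lit 4228399744) (nat_lit 228) (nat_lit 8027578739) (nat_lit 48) (nat_lit 5) (nat_lit 50) (nat_lit 5) (nat_lit 51) (nat_lit 5) (nat_lit 640) (nat_lit 490) (nat_lit 430))) (XT.nd (nat_lit 78) (nat_lit 228) (nat_lit 0) (XT.lf (nat_lit 0) (nat_lit 12091411846) (nat_lit 228) (nat_lit 1073664565) (nat_lit 76) (nat_lit 1518152817) (nat_lit 48) (nat_lit 5) (nat_lit 51) (nat_lit 5) (nat_lit 49) (nat_lit 4) (nat_lit 641) (nat_lit 490) (nat_lit 429)) (XT.lf (nat_lit 0) (nat_lit 2963608453) (nat_lit 228) (nat_lit 4515630289) (nat_lit 76) (nat_lit 7372521079)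 (nat_lit 45) (nat_lit 5) (nat_lit 48) (nat_lit 5) (nat_lit 46) (nat_lit 5) (nat_lit 642) (nat_lit 490) (nat_lit 428))))) (XT.nd (nat_lit 312) (nat_lit 532) (nat_lit 0) (XT.nd (nat_lit 156) (nat_lit 228) (nat_lit 0) (XT.nd (nat_lit 78) (nat_lit 152) (nat_lit 0) (XT.lf (nat_lit 0) (nat_lit 6955007171) (nat_lit 152) (nat_lit 1647034946) (nat_lit 228) (nat_lit 6421144520) (nat_lit 43) (nat_lit 5) (nat_lit 45) (nat_lit 5) (nat_lit 46) (nat_lit 5) (nat_lit 643) (nat_lit 490) (nat_lit 427)) (XT.lf (nat_lit 0) (nat_lit 3451708725) (nat_lit 152) (nat_lit 10936650395) (nat_lit 228) (nat_lit 808980896) (nat_lit 41) (nat_lit 5) (nat_lit 43) (nat_lit 5) (nat_lit 44) (nat_lit 4) (nat_lit 644) (nat_lit 490) (nat_lit 426))) (XT.nd (nat_lit 78) (nat_lit 152) (nat_lit 0) (XT.lf (nat_lit 0) (nat_lit 4870690186) (nat_lit 228) (nat_lit 190028046) (nat_lit 76) (nat_lit 10313225635) (nat_lit 40) (nat_lit 5) (nat_lit 43) (nat_lit 5) (nat_lit 41) (nat_lit 5) (nat_lit 645) (nat_lit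 490) (nat_lit 425)) (XT.lf (nat_lit 0) (nat_lit 10690413064) (nat_lit 228) (nat_lit 3898089120) (nat_lit 76) (nat_lit 964725153) (nat_lit 38) (nat_lit 5) (nat_lit 41) (nat_lit 5) (nat_lit 39) (nat_lit 4) (nat_lit 646) (nat_lit 490) (nat_lit 424)))) (XT.nd (nat_lit 156) (nat_lit 152) (nat_lit 0) (XT.nd (nat_lit 78) (nat_lit 152) (nat_lit 0) (XT.lf (nat_lit 0) (nat_lit 921041874) (nat_lit 228) (nat_lit 7749069178) (nat_lit 76) (nat_lit 7065024363) (nat_lit 35) (nat_lit 5) (nat_lit 38) (nat_lit 5) (nat_lit 36) (nat_lit 5) (nat_lit 647) (nat_lit 490) (nat_lit 423)) (XT.lf (nat_lit 0) (nat_lit 4180221530) (nat_lit 152) (nat_lit 2584140950) (nat_lit 228) (nat_lit 9155498587) (nat_lit 33) (nat_lit 5) (nat_lit 35) (nat_lit 5) (nat_lit 36) (nat_lit 5) (nat_lit 648) (nat_lit 490) (nat_lit 422))) (XT.nd (nat_lit 78) (nat_lit 76) (nat_lit 0) (XT.lf (nat_lit 0) (nat_lit 242298330) (nat_lit 76) (nat_lit 12515157296) (nat_lit 152) (nat_lit 3350167760) (nat_lit 32) (nat_lit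 5) (nat_lit 33) (nat_lit 5) (nat_lit 34) (nat_lit 4) (nat_lit 649) (nat_lit 490) (nat_lit 421)) (XT.lf (nat_lit 0) (nat_lit 2589468769) (nat_lit 152) (nat_lit 3791838348) (nat_lit 76) (nat_lit 9916461779) (nat_lit 31) (nat_lit 5) (nat_lit 33) (nat_lit 5) (nat_lit 32) (nat_lit 5) (nat_lit 650) (nat_lit 490) (nat_lit 420)))))) (XT.nd (nat_lit 624) (nat_lit 3724) (nat_lit 0) (XT.nd (nat_lit 312) (nat_lit 1900) (nat_lit 0) (XT.nd (nat_lit 156) (nat_lit 1292) (nat_lit 0) (XT.nd (nat_lit 78) (nat_lit 0) (nat_lit 0) (XT.lf (nat_lit 0) (nat_lit 36048810) (nat_lit 684) (nat_lit 3952930311) (nat_lit 0) (nat_lit 36048810) (nat_lit 304) (nat_lit 5) (nat_lit 313) (nat_lit 4) (nat_lit 304) (nat_lit 4) (nat_lit 578) (nat_lit 491) (nat_lit 491)) (XT.lf (nat_lit 0) (nat_lit 4082801884) (nat_lit 684) (nat_lit 1133966220) (nat_lit 0) (nat_lit 2889617132) (nat_lit 304) (nat_lit 5) (nat_lit 313) (nat_lit 4) (nat_lit 304) (nat_lit 4) (nat_lit 579) (nat_lit 491) (nat_lit 490)))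 (XT.nd (nat_lit 78) (nat_lit 684) (nat_lit 0) (XT.lf (nat_lit 0) (nat_lit 5758600754) (nat_lit 608) (nat_lit 2384415076) (nat_lit 608) (nat_lit 21441352) (nat_lit 296) (nat_lit 4) (nat_lit 304) (nat_lit 5) (nat_lit 304) (nat_lit 4) (nat_lit 580) (nat_lit 491) (nat_lit 489)) (XT.lf (nat_lit 0) (nat_lit 3980273111) (nat_lit 684) (nat_lit 3704168675) (nat_lit 0) (nat_lit 539267563) (nat_lit 287) (nat_lit 5) (nat_lit 296) (nat_lit 4) (nat_lit 287) (nat_lit 4) (nat_lit 581) (nat_lit 491) (nat_lit 488)))) (XT.nd (nat_lit 156) (nat_lit 684) (nat_lit 0) (XT.nd (nat_lit 78) (nat_lit 608) (nat_lit 0) (XT.lf (nat_lit 0) (nat_lit 3267856240) (nat_lit 608) (nat_lit 4779945873) (nat_lit 608) (nat_lit 236622049) (nat_lit 279) (nat_lit 4) (nat_lit 287) (nat_lit 5) (nat_lit 287) (nat_lit 4) (nat_lit 582) (nat_lit 491) (nat_lit 487)) (XT.lf (nat_lit 0) (nat_lit 1993166252) (nat_lit 532) (nat_lit 1777721998) (nat_lit 608) (nat_lit 4575545611) (nat_lit 271) (nat_lit 5) (nat_lit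 278) (nat_lit 5) (nat_lit 279) (nat_lit 4) (nat_lit 583) (nat_lit 491) (nat_lit 486))) (XT.nd (nat_lit 78) (nat_lit 76) (nat_lit 0) (XT.lf (nat_lit 0) (nat_lit 709206249) (nat_lit 608) (nat_lit 7126665089) (nat_lit 608) (nat_lit 574173001) (nat_lit 263) (nat_lit 4) (nat_lit 271) (nat_lit 5) (nat_lit 271) (nat_lit 4) (nat_lit 584) (nat_lit 491) (nat_lit 485)) (XT.lf (nat_lit 0) (nat_lit 3449845549) (nat_lit 684) (nat_lit 602175774) (nat_lit 76) (nat_lit 4422679567) (nat_lit 262) (nat_lit 5) (nat_lit 271) (nat_lit 5) (nat_lit 263) (nat_lit 4) (nat_lit 585) (nat_lit 491) (nat_lit 484))))) (XT.nd (nat_lit 312) (nat_lit 1520) (nat_lit 0) (XT.nd (nat_lit 156) (nat_lit 1064) (nat_lit 0) (XT.nd (nat_lit 78) (nat_lit 608) (nat_lit 0) (XT.lf (nat_lit 0) (nat_lit 6631111177) (nat_lit 532) (nat_lit 893828716) (nat_lit 608) (nat_lit 1016070687) (nat_lit 255) (nat_lit 5) (nat_lit 262) (nat_lit 5) (nat_lit 263) (nat_lit 4) (nat_lit 586) (nat_lit 491) (nat_lit 483)) (XT.lf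 (nat_lit 0) (nat_lit 3022324905) (nat_lit 608) (nat_lit 3255780643) (nat_lit 76) (nat_lit 2330348683) (nat_lit 247) (nat_lit 5) (nat_lit 255) (nat_lit 5) (nat_lit 248) (nat_lit 4) (nat_lit 587) (nat_lit 491) (nat_lit 482))) (XT.nd (nat_lit 78) (nat_lit 608) (nat_lit 0) (XT.lf (nat_lit 0) (nat_lit 4058605156) (nat_lit 456) (nat_lit 3050454320) (nat_lit 532) (nat_lit 1568430924) (nat_lit 241) (nat_lit 5) (nat_lit 247) (nat_lit 5) (nat_lit 248) (nat_lit 4) (nat_lit 588) (nat_lit 491) (nat_lit 481)) (XT.lf (nat_lit 0) (nat_lit 2474251093) (nat_lit 608) (nat_lit 6005998681) (nat_lit 76) (nat_lit 267774353) (nat_lit 233) (nat_lit 5) (nat_lit 241) (nat_lit 5) (nat_lit 234) (nat_lit 4) (nat_lit 589) (nat_lit 491) (nat_lit 480)))) (XT.nd (nat_lit 156) (nat_lit 532) (nat_lit 0) (XT.nd (nat_lit 78) (nat_lit 532) (nat_lit 0) (XT.lf (nat_lit 0) (nat_lit 1388820075) (nat_lit 456) (nat_lit 5185120426) (nat_lit 532) (nat_lit 2245878990) (nat_lit 227) (nat_lit 5) (nat_lit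 233) (nat_lit 5) (nat_lit 234) (nat_lit 4) (nat_lit 590) (nat_lit 491) (nat_lit 479)) (XT.lf (nat_lit 0) (nat_lit 16306815) (nat_lit 456) (nat_lit 1799461685) (nat_lit 532) (nat_lit 7077489284) (nat_lit 220) (nat_lit 5) (nat_lit 226) (nat_lit 5) (nat_lit 227) (nat_lit 5) (nat_lit 591) (nat_lit 491) (nat_lit 478))) (XT.nd (nat_lit 78) (nat_lit 532) (nat_lit 0) (XT.lf (nat_lit 0) (nat_lit 5926938041) (nat_lit 532) (nat_lit 1372524426) (nat_lit 76) (nat_lit 1668439570) (nat_lit 220) (nat_lit 5) (nat_lit 227) (nat_lit 5) (nat_lit 221) (nat_lit 4) (nat_lit 592) (nat_lit 491) (nat_lit 477)) (XT.lf (nat_lit 0) (nat_lit 1053312306) (nat_lit 532) (nat_lit 2789840031) (nat_lit 76) (nat_lit 5200925629) (nat_lit 213) (nat_lit 5) (nat_lit 220) (nat_lit 5) (nat_lit 214) (nat_lit 5) (nat_lit 593) (nat_lit 491) (nat_lit 476))))))) (XT.nd (nat_lit 1170) (nat_lit 4104) (nat_lit 0) (XT.nd (nat_lit 546) (nat_lit 2736) (nat_lit 0) (XT.nd (nat_lit 234) (nat_lit 1292) (nat_lit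 0) (XT.nd (nat_lit 78) (nat_lit 912) (nat_lit 0) (XT.lf (nat_lit 0) (nat_lit 4883290949) (nat_lit 456) (nat_lit 285319581) (nat_lit 532) (nat_lit 3953169020) (nat_lit 207) (nat_lit 5) (nat_lit 213) (nat_lit 5) (nat_lit 214) (nat_lit 5) (nat_lit 594) (nat_lit 491) (nat_lit 475)) (XT.nd (nat_lit 78) (nat_lit 456) (nat_lit 0) (XT.lf (nat_lit 0) (nat_lit 165429592) (nat_lit 456) (nat_lit 5722757382) (nat_lit 76) (nat_lit 3312779617) (nat_lit 201) (nat_lit 5) (nat_lit 207) (nat_lit 5) (nat_lit 202) (nat_lit 5) (nat_lit 595) (nat_lit 491) (nat_lit 474)) (XT.lf (nat_lit 0) (nat_lit 2032197363) (nat_lit 456) (nat_lit 2264492432) (nat_lit 532) (nat_lit 4984861698) (nat_lit 195) (nat_lit 5) (nat_lit 201) (nat_lit 5) (nat_lit 202) (nat_lit 5) (nat_lit 596) (nat_lit 491) (nat_lit 473)))) (XT.nd (nat_lit 156) (nat_lit 836) (nat_lit 0) (XT.nd (nat_lit 78) (nat_lit 76) (nat_lit 0) (XT.lf (nat_lit 0) (nat_lit 562554983) (nat_lit 380) (nat_lit 7939476515) (nat_lit 456)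 (nat_lit 861888623) (nat_lit 190) (nat_lit 5) (nat_lit 195) (nat_lit 5) (nat_lit 196) (nat_lit 4) (nat_lit 597) (nat_lit 491) (nat_lit 472)) (XT.lf (nat_lit 0) (nat_lit 3303699560) (nat_lit 456) (nat_lit 947331165) (nat_lit 76) (nat_lit 5196392201) (nat_lit 189) (nat_lit 5) (nat_lit 195) (nat_lit 5) (nat_lit 190) (nat_lit 5) (nat_lit 598) (nat_lit 491) (nat_lit 471))) (XT.nd (nat_lit 78) (nat_lit 456) (nat_lit 0) (XT.lf (nat_lit 0) (nat_lit 7060171170) (nat_lit 380) (nat_lit 467954457) (nat_lit 456) (nat_lit 2004615973) (nat_lit 184) (nat_lit 5) (nat_lit 189) (nat_lit 5) (nat_lit 190) (nat_lit 5) (nat_lit 599) (nat_lit 491) (nat_lit 470)) (XT.lf (nat_lit 0) (nat_lit 2194465623) (nat_lit 456) (nat_lit 4052776561) (nat_lit 76) (nat_lit 3372112150) (nat_lit 178) (nat_lit 5) (nat_lit 184) (nat_lit 5) (nat_lit 179) (nat_lit 5) (nat_lit 600) (nat_lit 491) (nat_lit 469))))) (XT.nd (nat_lit 312) (nat_lit 1520) (nat_lit 0) (XT.nd (nat_lit 156) (nat_lit 380) (nat_lit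 0) (XT.nd (nat_lit 78) (nat_lit 456) (nat_lit 0) (XT.lf (nat_lit 0) (nat_lit 4038092243) (nat_lit 380) (nat_lit 2400394087) (nat_lit 456) (nat_lit 3269193021) (nat_lit 173) (nat_lit 5) (nat_lit 178) (nat_lit 5) (nat_lit 179) (nat_lit 5) (nat_lit 601) (nat_lit 491) (nat_lit 468)) (XT.lf (nat_lit 0) (nat_lit 952332236) (nat_lit 456) (nat_lit 7324575771) (nat_lit 76) (nat_lit 1520829294) (nat_lit 167) (nat_lit 5) (nat_lit 173) (nat_lit 5) (nat_lit 168) (nat_lit 5) (nat_lit 602) (nat_lit 491) (nat_lit 467))) (XT.nd (nat_lit 78) (nat_lit 0) (nat_lit 0) (XT.lf (nat_lit 0) (nat_lit 848560923) (nat_lit 380) (nat_lit 4367959796) (nat_lit 456) (nat_lit 4672604326) (nat_lit 162) (nat_lit 5) (nat_lit 167) (nat_lit 5) (nat_lit 168) (nat_lit 5) (nat_lit 603) (nat_lit 491) (nat_lit 466)) (XT.lf (nat_lit 0) (nat_lit 9193497612) (nat_lit 380) (nat_lit 364451082) (nat_lit 456) (nat_lit 424553684) (nat_lit 162) (nat_lit 5) (nat_lit 167) (nat_lit 5) (nat_lit 168) (nat_lit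 5) (nat_lit 604) (nat_lit 491) (nat_lit 465)))) (XT.nd (nat_lit 156) (nat_lit 760) (nat_lit 0) (XT.nd (nat_lit 78) (nat_lit 380) (nat_lit 0) (XT.lf (nat_lit 0) (nat_lit 3874599091) (nat_lit 380) (nat_lit 2489679362) (nat_lit 76) (nat_lit 3712614166) (nat_lit 157) (nat_lit 5) (nat_lit 162) (nat_lit 5) (nat_lit 158) (nat_lit 5) (nat_lit 605) (nat_lit 491) (nat_lit 464)) (XT.lf (nat_lit 0) (nat_lit 5951148281) (nat_lit 380) (nat_lit 2293152398) (nat_lit 456) (nat_lit 1929009740) (nat_lit 152) (nat_lit 5) (nat_lit 157) (nat_lit 5) (nat_lit 158) (nat_lit 5) (nat_lit 606) (nat_lit 491) (nat_lit 463))) (XT.nd (nat_lit 78) (nat_lit 380) (nat_lit 0) (XT.lf (nat_lit 0) (nat_lit 2398695470) (nat_lit 380) (nat_lit 6010825085) (nat_lit 76) (nat_lit 1861804926) (nat_lit 147) (nat_lit 5) (nat_lit 152) (nat_lit 5) (nat_lit 148) (nat_lit 5) (nat_lit 607) (nat_lit 491) (nat_lit 462)) (XT.lf (nat_lit 0) (nat_lit 2513457907) (nat_lit 380) (nat_lit 4278022388) (nat_lit 456)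 (nat_lit 3579479277) (nat_lit 142) (nat_lit 5) (nat_lit 147) (nat_lit 5) (nat_lit 148) (nat_lit 5) (nat_lit 608) (nat_lit 491) (nat_lit 461)))))) (XT.nd (nat_lit 624) (nat_lit 2052) (nat_lit 0) (XT.nd (nat_lit 312) (nat_lit 988) (nat_lit 0) (XT.nd (nat_lit 156) (nat_lit 684) (nat_lit 0) (XT.nd (nat_lit 78) (nat_lit 0) (nat_lit 0) (XT.lf (nat_lit 0) (nat_lit 731242736) (nat_lit 304) (nat_lit 47602033) (nat_lit 380) (nat_lit 9693842636) (nat_lit 137) (nat_lit 5) (nat_lit 141) (nat_lit 5) (nat_lit 142) (nat_lit 5) (nat_lit 609) (nat_lit 491) (nat_lit 460)) (XT.lf (nat_lit 0) (nat_lit 5201955928) (nat_lit 380) (nat_lit 1119974700) (nat_lit 76) (nat_lit 4253535756) (nat_lit 137) (nat_lit 5) (nat_lit 142) (nat_lit 5) (nat_lit 138) (nat_lit 5) (nat_lit 610) (nat_lit 491) (nat_lit 459))) (XT.nd (nat_lit 78) (nat_lit 380) (nat_lit 0) (XT.lf (nat_lit 0) (nat_lit 7685096258) (nat_lit 304) (nat_lit 2024449868) (nat_lit 380) (nat_lit 970835258) (nat_lit 133) (nat_lit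 5) (nat_lit 137) (nat_lit 5) (nat_lit 138) (nat_lit 5) (nat_lit 611) (nat_lit 491) (nat_lit 458)) (XT.lf (nat_lit 0) (nat_lit 3480808199) (nat_lit 380) (nat_lit 4943943132) (nat_lit 76) (nat_lit 2362045456) (nat_lit 128) (nat_lit 5) (nat_lit 133) (nat_lit 5) (nat_lit 129) (nat_lit 5) (nat_lit 612) (nat_lit 491) (nat_lit 457)))) (XT.nd (nat_lit 156) (nat_lit 304) (nat_lit 0) (XT.nd (nat_lit 78) (nat_lit 380) (nat_lit 0) (XT.lf (nat_lit 0) (nat_lit 3945503851) (nat_lit 304) (nat_lit 4068439472) (nat_lit 380) (nat_lit 2881160396) (nat_lit 124) (nat_lit 5) (nat_lit 128) (nat_lit 5) (nat_lit 129) (nat_lit 5) (nat_lit 613) (nat_lit 491) (nat_lit 456)) (XT.lf (nat_lit 0) (nat_lit 1606032159) (nat_lit 380) (nat_lit 9007642197) (nat_lit 76) (nat_lit 391785719) (nat_lit 119) (nat_lit 5) (nat_lit 124) (nat_lit 5) (nat_lit 120) (nat_lit 5) (nat_lit 614) (nat_lit 491) (nat_lit 455))) (XT.nd (nat_lit 78) (nat_lit 304) (nat_lit 0) (XT.lf (nat_lit 0) (nat_lit 6164865106)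 (nat_lit 380) (nat_lit 35091600) (nat_lit 76) (nat_lit 4917277146) (nat_lit 119) (nat_lit 5) (nat_lit 124) (nat_lit 5) (nat_lit 120) (nat_lit 5) (nat_lit 615) (nat_lit 491) (nat_lit 454)) (XT.lf (nat_lit 0) (nat_lit 9148605711) (nat_lit 304) (nat_lit 1673267418) (nat_lit 380) (nat_lit 409230686) (nat_lit 115) (nat_lit 5) (nat_lit 119) (nat_lit 5) (nat_lit 120) (nat_lit 5) (nat_lit 616) (nat_lit 491) (nat_lit 453))))) (XT.nd (nat_lit 312) (nat_lit 836) (nat_lit 0) (XT.nd (nat_lit 156) (nat_lit 608) (nat_lit 0) (XT.nd (nat_lit 78) (nat_lit 304) (nat_lit 0) (XT.lf (nat_lit 0) (nat_lit 4183085405) (nat_lit 304) (nat_lit 4219080688) (nat_lit 76) (nat_lit 2944262656) (nat_lit 111) (nat_lit 5) (nat_lit 115) (nat_lit 5) (nat_lit 112) (nat_lit 5) (nat_lit 617) (nat_lit 491) (nat_lit 452)) (XT.lf (nat_lit 0) (nat_lit 5049554601) (nat_lit 304) (nat_lit 3818086549) (nat_lit 380) (nat_lit 2596248112) (nat_lit 107) (nat_lit 5) (nat_lit 111) (nat_lit 5) (nat_lit 112)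 (nat_lit 5) (nat_lit 618) (nat_lit 491) (nat_lit 451))) (XT.nd (nat_lit 78) (nat_lit 304) (nat_lit 0) (XT.lf (nat_lit 0) (nat_lit 2036332922) (nat_lit 304) (nat_lit 8675734428) (nat_lit 76) (nat_lit 871340668) (nat_lit 103) (nat_lit 5) (nat_lit 107) (nat_lit 5) (nat_lit 104) (nat_lit 5) (nat_lit 619) (nat_lit 491) (nat_lit 450)) (XT.lf (nat_lit 0) (nat_lit 675768657) (nat_lit 304) (nat_lit 6072316855) (nat_lit 380) (nat_lit 4956463341) (nat_lit 99) (nat_lit 5) (nat_lit 103) (nat_lit 5) (nat_lit 104) (nat_lit 5) (nat_lit 620) (nat_lit 491) (nat_lit 449)))) (XT.nd (nat_lit 156) (nat_lit 532) (nat_lit 0) (XT.nd (nat_lit 78) (nat_lit 304) (nat_lit 0) (XT.lf (nat_lit 0) (nat_lit 10243545024) (nat_lit 304) (nat_lit 1317437603) (nat_lit 380) (nat_lit 266992277) (nat_lit 99) (nat_lit 5) (nat_lit 103) (nat_lit 5) (nat_lit 104) (nat_lit 5) (nat_lit 621) (nat_lit 491) (nat_lit 448)) (XT.lf (nat_lit 0) (nat_lit 4481822394) (nat_lit 304) (nat_lit 3938890185) (nat_lit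 76) (nat_lit 3532075295) (nat_lit 95) (nat_lit 5) (nat_lit 99) (nat_lit 5) (nat_lit 96) (nat_lit 5) (nat_lit 622) (nat_lit 491) (nat_lit 447))) (XT.nd (nat_lit 78) (nat_lit 304) (nat_lit 0) (XT.lf (nat_lit 0) (nat_lit 5722783849) (nat_lit 228) (nat_lit 3605397251) (nat_lit 304) (nat_lit 2751758407) (nat_lit 92) (nat_lit 5) (nat_lit 95) (nat_lit 5) (nat_lit 96) (nat_lit 5) (nat_lit 623) (nat_lit 491) (nat_lit 446)) (XT.lf (nat_lit 0) (nat_lit 2041543575) (nat_lit 304) (nat_lit 8853091741) (nat_lit 76) (nat_lit 1314596613) (nat_lit 88) (nat_lit 5) (nat_lit 92) (nat_lit 5) (nat_lit 89) (nat_lit 5) (nat_lit 624) (nat_lit 491) (nat_lit 445))))))))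
noncomputable def xc22 : XT := (XT.nd (nat_lit 77766) (nat_lit 0) (nat_lit 7676) (XT.nd (nat_lit 1170) (nat_lit 1444) (nat_lit 0) (XT.nd (nat_lit 546) (nat_lit 1520) (nat_lit 0) (XT.nd (nat_lit 234) (nat_lit 760) (nat_lit 0) (XT.nd (nat_lit 78) (nat_lit 304) (nat_lit 0) (XT.lf (nat_lit 0) (nat_lit 891153565) (nat_lit 228) (nat_lit 6025181935) (nat_lit 304) (nat_lit 5423962041) (nat_lit 85) (nat_lit 5) (nat_lit 88) (nat_lit 5) (nat_lit 89) (nat_lit 5) (nat_lit 625) (nat_lit 491) (nat_lit 444)) (XT.nd (nat_lit 78) (nat_lit 304) (nat_lit 0) (XT.lf (nat_lit 0) (nat_lit 10863098136) (nat_lit 228) (nat_lit 1035182011) (nat_lit 304) (nat_lit 575511694) (nat_lit 85) (nat_lit 5) (nat_lit 88) (nat_lit 5) (nat_lit 89) (nat_lit 5) (nat_lit 626) (nat_lit 491) (nat_lit 443)) (XT.lf (nat_lit 0) (nat_lit 4344801465) (nat_lit 304) (nat_lit 4215458419) (nat_lit 76) (nat_lit 4048485072) (nat_lit 81) (nat_lit 5) (nat_lit 85) (nat_lit 5) (nat_lit 82) (nat_lit 5) (nat_lit 627)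 (nat_lit 491) (nat_lit 442)))) (XT.nd (nat_lit 156) (nat_lit 228) (nat_lit 0) (XT.nd (nat_lit 78) (nat_lit 304) (nat_lit 0) (XT.lf (nat_lit 0) (nat_lit 5852716566) (nat_lit 228) (nat_lit 3509908581) (nat_lit 304) (nat_lit 3383560178) (nat_lit 78) (nat_lit 5) (nat_lit 81) (nat_lit 5) (nat_lit 82) (nat_lit 5) (nat_lit 628) (nat_lit 491) (nat_lit 441)) (XT.lf (nat_lit 0) (nat_lit 1584984309) (nat_lit 304) (nat_lit 9657819569) (nat_lit 76) (nat_lit 1643134753) (nat_lit 74) (nat_lit 5) (nat_lit 78) (nat_lit 5) (nat_lit 75) (nat_lit 5) (nat_lit 629) (nat_lit 491) (nat_lit 440))) (XT.nd (nat_lit 78) (nat_lit 0) (nat_lit 0) (XT.lf (nat_lit 0) (nat_lit 491969743) (nat_lit 228) (nat_lit 6139976979) (nat_lit 304) (nat_lit 6395606371) (nat_lit 71) (nat_lit 5) (nat_lit 74) (nat_lit 5) (nat_lit 75) (nat_lit 5) (nat_lit 630) (nat_lit 491) (nat_lit 439)) (XT.lf (nat_lit 0) (nat_lit 10889694828) (nat_lit 228) (nat_lit 906665954) (nat_lit 304) (nat_lit 1375309261) (nat_lit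 71) (nat_lit 5) (nat_lit 74) (nat_lit 5) (nat_lit 75) (nat_lit 5) (nat_lit 631) (nat_lit 491) (nat_lit 438))))) (XT.nd (nat_lit 312) (nat_lit 836) (nat_lit 0) (XT.nd (nat_lit 156) (nat_lit 228) (nat_lit 0) (XT.nd (nat_lit 78) (nat_lit 228) (nat_lit 0) (XT.lf (nat_lit 0) (nat_lit 3730725680) (nat_lit 228) (nat_lit 5172439334) (nat_lit 76) (nat_lit 4414329328) (nat_lit 68) (nat_lit 5) (nat_lit 71) (nat_lit 5) (nat_lit 69) (nat_lit 5) (nat_lit 632) (nat_lit 491) (nat_lit 437)) (XT.lf (nat_lit 0) (nat_lit 5315054972) (nat_lit 228) (nat_lit 3613838489) (nat_lit 304) (nat_lit 4536991720) (nat_lit 65) (nat_lit 5) (nat_lit 68) (nat_lit 5) (nat_lit 69) (nat_lit 5) (nat_lit 633) (nat_lit 491) (nat_lit 436))) (XT.nd (nat_lit 78) (nat_lit 0) (nat_lit 0) (XT.lf (nat_lit 0) (nat_lit 620540154) (nat_lit 228) (nat_lit 11220693036) (nat_lit 76) (nat_lit 1775635165) (nat_lit 62) (nat_lit 5) (nat_lit 65) (nat_lit 5) (nat_lit 63) (nat_lit 5) (nat_lit 634) (nat_lit 491) (nat_lit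 435)) (XT.lf (nat_lit 0) (nat_lit 5852210898) (nat_lit 228) (nat_lit 644789049) (nat_lit 76) (nat_lit 7272637082) (nat_lit 62) (nat_lit 5) (nat_lit 65) (nat_lit 5) (nat_lit 63) (nat_lit 5) (nat_lit 635) (nat_lit 491) (nat_lit 434)))) (XT.nd (nat_lit 156) (nat_lit 380) (nat_lit 0) (XT.nd (nat_lit 78) (nat_lit 228) (nat_lit 0) (XT.lf (nat_lit 0) (nat_lit 10192706158) (nat_lit 228) (nat_lit 1015604816) (nat_lit 304) (nat_lit 2716754572) (nat_lit 59) (nat_lit 5) (nat_lit 62) (nat_lit 5) (nat_lit 63) (nat_lit 5) (nat_lit 636) (nat_lit 491) (nat_lit 433)) (XT.lf (nat_lit 0) (nat_lit 2588464489) (nat_lit 228) (nat_lit 6947436891) (nat_lit 76) (nat_lit 4546676072) (nat_lit 56) (nat_lit 5) (nat_lit 59) (nat_lit 5) (nat_lit 57) (nat_lit 5) (nat_lit 637) (nat_lit 491) (nat_lit 432))) (XT.nd (nat_lit 78) (nat_lit 152) (nat_lit 0) (XT.lf (nat_lit 0) (nat_lit 3971245670) (nat_lit 228) (nat_lit 4003731060) (nat_lit 304) (nat_lit 6267672753) (nat_lit 53) (nat_lit 5) (nat_lit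 56) (nat_lit 5) (nat_lit 57) (nat_lit 5) (nat_lit 638) (nat_lit 491) (nat_lit 431)) (XT.lf (nat_lit 0) (nat_lit 711950318) (nat_lit 152) (nat_lit 12773395622) (nat_lit 228) (nat_lit 920254841) (nat_lit 51) (nat_lit 5) (nat_lit 53) (nat_lit 5) (nat_lit 54) (nat_lit 4) (nat_lit 639) (nat_lit 491) (nat_lit 430)))))) (XT.nd (nat_lit 624) (nat_lit 304) (nat_lit 0) (XT.nd (nat_lit 312) (nat_lit 532) (nat_lit 0) (XT.nd (nat_lit 156) (nat_lit 380) (nat_lit 0) (XT.nd (nat_lit 78) (nat_lit 152) (nat_lit 0) (XT.lf (nat_lit 0) (nat_lit 4524535020) (nat_lit 228) (nat_lit 2656620775) (nat_lit 76) (nat_lit 7389069100) (nat_lit 50) (nat_lit 5) (nat_lit 53) (nat_lit 5) (nat_lit 51) (nat_lit 5) (nat_lit 640) (nat_lit 491) (nat_lit 429)) (XT.lf (nat_lit 0) (nat_lit 8625849758) (nat_lit 152) (nat_lit 1450958602) (nat_lit 228) (nat_lit 4660993615) (nat_lit 48) (nat_lit 5) (nat_lit 50) (nat_lit 5) (nat_lit 51) (nat_lit 5) (nat_lit 641) (nat_lit 491) (nat_lit 428))) (XT.nd (nat_lit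 78) (nat_lit 152) (nat_lit 0) (XT.lf (nat_lit 0) (nat_lit 856091139) (nat_lit 228) (nat_lit 9694695306) (nat_lit 76) (nat_lit 4357124547) (nat_lit 45) (nat_lit 5) (nat_lit 48) (nat_lit 5) (nat_lit 46) (nat_lit 5) (nat_lit 642) (nat_lit 491) (nat_lit 427)) (XT.lf (nat_lit 0) (nat_lit 1665729127) (nat_lit 152) (nat_lit 4772207144) (nat_lit 228) (nat_lit 8642533465) (nat_lit 43) (nat_lit 5) (nat_lit 45) (nat_lit 5) (nat_lit 46) (nat_lit 5) (nat_lit 643) (nat_lit 491) (nat_lit 426)))) (XT.nd (nat_lit 156) (nat_lit 304) (nat_lit 0) (XT.nd (nat_lit 78) (nat_lit 228) (nat_lit 0) (XT.lf (nat_lit 0) (nat_lit 12159357435) (nat_lit 228) (nat_lit 1960727520) (nat_lit 76) (nat_lit 1135836232) (nat_lit 43) (nat_lit 5) (nat_lit 46) (nat_lit 5) (nat_lit 44) (nat_lit 4) (nat_lit 644) (nat_lit 491) (nat_lit 425)) (XT.lf (nat_lit 0) (nat_lit 2577955482) (nat_lit 228) (nat_lit 5713344282) (nat_lit 76) (nat_lit 7142225552) (nat_lit 40) (nat_lit 5) (nat_lit 43) (nat_lit 5)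 (nat_lit 41) (nat_lit 5) (nat_lit 645) (nat_lit 491) (nat_lit 424))) (XT.nd (nat_lit 78) (nat_lit 152) (nat_lit 0) (XT.lf (nat_lit 0) (nat_lit 6024241328) (nat_lit 152) (nat_lit 2308754334) (nat_lit 228) (nat_lit 7281106922) (nat_lit 38) (nat_lit 5) (nat_lit 40) (nat_lit 5) (nat_lit 41) (nat_lit 5) (nat_lit 646) (nat_lit 491) (nat_lit 423)) (XT.lf (nat_lit 0) (nat_lit 2199321347) (nat_lit 152) (nat_lit 12037512795) (nat_lit 228) (nat_lit 1560783596) (nat_lit 36) (nat_lit 5) (nat_lit 38) (nat_lit 5) (nat_lit 39) (nat_lit 4) (nat_lit 647) (nat_lit 491) (nat_lit 422))))) (XT.nd (nat_lit 75660) (nat_lit 0) (nat_lit 19988) (XT.nd (nat_lit 156) (nat_lit 76) (nat_lit 0) (XT.nd (nat_lit 78) (nat_lit 152) (nat_lit 0) (XT.lf (nat_lit 0) (nat_lit 4254204051) (nat_lit 228) (nat_lit 1753888282) (nat_lit 76) (nat_lit 9975429924) (nat_lit 35) (nat_lit 5) (nat_lit 38) (nat_lit 5) (nat_lit 36) (nat_lit 5) (nat_lit 648) (nat_lit 491) (nat_lit 421)) (XT.lf (nat_lit 0) (nat_lit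 10190262021) (nat_lit 228) (nat_lit 5800120374) (nat_lit 76) (nat_lit 182043020) (nat_lit 33) (nat_lit 5) (nat_lit 36) (nat_lit 5) (nat_lit 34) (nat_lit 4) (nat_lit 649) (nat_lit 491) (nat_lit 420))) (XT.nd (nat_lit 75426) (nat_lit 0) (nat_lit 22040) (XT.lf (nat_lit 0) (nat_lit 6363834850) (nat_lit 76) (nat_lit 9931351940) (nat_lit 152) (nat_lit 68917200) (nat_lit 32) (nat_lit 5) (nat_lit 33) (nat_lit 5) (nat_lit 34) (nat_lit 4) (nat_lit 650) (nat_lit 491) (nat_lit 419)) (XT.lf (nat_lit 0) (nat_lit 675900267) (nat_lit 760) (nat_lit 2618156845) (nat_lit 0) (nat_lit 675900267) (nat_lit 322) (nat_lit 5) (nat_lit 332) (nat_lit 4) (nat_lit 322) (nat_lit 4) (nat_lit 576) (nat_lit 492) (nat_lit 492)))) (XT.nd (nat_lit 156) (nat_lit 684) (nat_lit 0) (XT.nd (nat_lit 78) (nat_lit 684) (nat_lit 0) (XT.lf (nat_lit 0) (nat_lit 1399074395) (nat_lit 684) (nat_lit 3918389885) (nat_lit 684) (nat_lit 2677000468) (nat_lit 313) (nat_lit 4) (nat_lit 322) (nat_lit 5) (nat_lit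 322) (nat_lit 4) (nat_lit 577) (nat_lit 492) (nat_lit 491)) (XT.lf (nat_lit 0) (nat_lit 91537872) (nat_lit 608) (nat_lit 1170826353) (nat_lit 684) (nat_lit 6788228231) (nat_lit 304) (nat_lit 5) (nat_lit 312) (nat_lit 5) (nat_lit 313) (nat_lit 4) (nat_lit 578) (nat_lit 492) (nat_lit 490))) (XT.nd (nat_lit 78) (nat_lit 684) (nat_lit 0) (XT.lf (nat_lit 0) (nat_lit 5231757273) (nat_lit 684) (nat_lit 1224256619) (nat_lit 0) (nat_lit 1651735101) (nat_lit 304) (nat_lit 5) (nat_lit 313) (nat_lit 4) (nat_lit 304) (nat_lit 4) (nat_lit 579) (nat_lit 492) (nat_lit 489)) (XT.lf (nat_lit 0) (nat_lit 1077224218) (nat_lit 684) (nat_lit 2550881184) (nat_lit 76) (nat_lit 4538253333) (nat_lit 295) (nat_lit 5) (nat_lit 304) (nat_lit 5) (nat_lit 296) (nat_lit 4) (nat_lit 580) (nat_lit 492) (nat_lit 488))))))) (XT.nd (nat_lit 1170) (nat_lit 5168) (nat_lit 0) (XT.nd (nat_lit 546) (nat_lit 3496) (nat_lit 0) (XT.nd (nat_lit 234) (nat_lit 1824) (nat_lit 0) (XT.nd (nat_lit 78) (nat_lit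 1216) (nat_lit 0) (XT.lf (nat_lit 0) (nat_lit 4331510369) (nat_lit 608) (nat_lit 709454539) (nat_lit 684) (nat_lit 3185397944) (nat_lit 287) (nat_lit 5) (nat_lit 295) (nat_lit 5) (nat_lit 296) (nat_lit 4) (nat_lit 581) (nat_lit 492) (nat_lit 487)) (XT.nd (nat_lit 78) (nat_lit 532) (nat_lit 0) (XT.lf (nat_lit 0) (nat_lit 771652920) (nat_lit 684) (nat_lit 5258473867) (nat_lit 76) (nat_lit 2257624873) (nat_lit 278) (nat_lit 5) (nat_lit 287) (nat_lit 5) (nat_lit 279) (nat_lit 4) (nat_lit 582) (nat_lit 492) (nat_lit 486)) (XT.lf (nat_lit 0) (nat_lit 1701495916) (nat_lit 532) (nat_lit 3040198438) (nat_lit 608) (nat_lit 3608724423) (nat_lit 271) (nat_lit 5) (nat_lit 278) (nat_lit 5) (nat_lit 279) (nat_lit 4) (nat_lit 583) (nat_lit 492) (nat_lit 485)))) (XT.nd (nat_lit 156) (nat_lit 1140) (nat_lit 0) (XT.nd (nat_lit 78) (nat_lit 0) (nat_lit 0) (XT.lf (nat_lit 0) (nat_lit 344634460) (nat_lit 684) (nat_lit 8044491147) (nat_lit 76) (nat_lit 25710743) (nat_lit 262)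 (nat_lit 5) (nat_lit 271) (nat_lit 5) (nat_lit 263) (nat_lit 4) (nat_lit 584) (nat_lit 492) (nat_lit 484)) (XT.lf (nat_lit 0) (nat_lit 4329054728) (nat_lit 684) (nat_lit 994365830) (nat_lit 76) (nat_lit 3156639928) (nat_lit 262) (nat_lit 5) (nat_lit 271) (nat_lit 5) (nat_lit 263) (nat_lit 4) (nat_lit 585) (nat_lit 492) (nat_lit 483))) (XT.nd (nat_lit 78) (nat_lit 608) (nat_lit 0) (XT.lf (nat_lit 0) (nat_lit 6189194831) (nat_lit 532) (nat_lit 2180645909) (nat_lit 608) (nat_lit 177216374) (nat_lit 255) (nat_lit 5) (nat_lit 262) (nat_lit 5) (nat_lit 263) (nat_lit 4) (nat_lit 586) (nat_lit 492) (nat_lit 482)) (XT.lf (nat_lit 0) (nat_lit 3807168691) (nat_lit 608) (nat_lit 3758066163) (nat_lit 76) (nat_lit 1050017898) (nat_lit 247) (nat_lit 5) (nat_lit 255) (nat_lit 5) (nat_lit 248) (nat_lit 4) (nat_lit 587) (nat_lit 492) (nat_lit 481))))) (XT.nd (nat_lit 312) (nat_lit 1900) (nat_lit 0) (XT.nd (nat_lit 156) (nat_lit 532) (nat_lit 0) (XT.nd (nat_lit 78) (nat_lit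 608) (nat_lit 0) (XT.lf (nat_lit 0) (nat_lit 3504749877) (nat_lit 456) (nat_lit 4354491419) (nat_lit 532) (nat_lit 825741589) (nat_lit 241) (nat_lit 5) (nat_lit 247) (nat_lit 5) (nat_lit 248) (nat_lit 4) (nat_lit 588) (nat_lit 492) (nat_lit 480)) (XT.lf (nat_lit 0) (nat_lit 2125111729) (nat_lit 532) (nat_lit 1045362541) (nat_lit 608) (nat_lit 5585681113) (nat_lit 233) (nat_lit 5) (nat_lit 240) (nat_lit 5) (nat_lit 241) (nat_lit 5) (nat_lit 589) (nat_lit 492) (nat_lit 479))) (XT.nd (nat_lit 78) (nat_lit 76) (nat_lit 0) (XT.lf (nat_lit 0) (nat_lit 717092900) (nat_lit 456) (nat_lit 6511207949) (nat_lit 532) (nat_lit 1600487838) (nat_lit 227) (nat_lit 5) (nat_lit 233) (nat_lit 5) (nat_lit 234) (nat_lit 4) (nat_lit 590) (nat_lit 492) (nat_lit 478)) (XT.lf (nat_lit 0) (nat_lit 2421987217) (nat_lit 532) (nat_lit 713566826) (nat_lit 76) (nat_lit 5767203949) (nat_lit 226) (nat_lit 5) (nat_lit 233) (nat_lit 5) (nat_lit 227) (nat_lit 5) (nat_lit 591) (nat_lit 492)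 (nat_lit 477)))) (XT.nd (nat_lit 156) (nat_lit 912) (nat_lit 0) (XT.nd (nat_lit 78) (nat_lit 532) (nat_lit 0) (XT.lf (nat_lit 0) (nat_lit 6489373352) (nat_lit 532) (nat_lit 2157762089) (nat_lit 76) (nat_lit 331143115) (nat_lit 220) (nat_lit 5) (nat_lit 227) (nat_lit 5) (nat_lit 221) (nat_lit 4) (nat_lit 592) (nat_lit 492) (nat_lit 476)) (XT.lf (nat_lit 0) (nat_lit 1562653230) (nat_lit 532) (nat_lit 3644642914) (nat_lit 76) (nat_lit 3847796824) (nat_lit 213) (nat_lit 5) (nat_lit 220) (nat_lit 5) (nat_lit 214) (nat_lit 5) (nat_lit 593) (nat_lit 492) (nat_lit 475))) (XT.nd (nat_lit 78) (nat_lit 456) (nat_lit 0) (XT.lf (nat_lit 0) (nat_lit 3972325029) (nat_lit 456) (nat_lit 1670028235) (nat_lit 532) (nat_lit 3491153859) (nat_lit 207) (nat_lit 5) (nat_lit 213) (nat_lit 5) (nat_lit 214) (nat_lit 5) (nat_lit 594) (nat_lit 492) (nat_lit 474)) (XT.lf (nat_lit 0) (nat_lit 576313209) (nat_lit 456) (nat_lit 6708938816) (nat_lit 76) (nat_lit 1928284173) (nat_lit 201)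 (nat_lit 5) (nat_lit 207) (nat_lit 5) (nat_lit 202) (nat_lit 5) (nat_lit 595) (nat_lit 492) (nat_lit 473)))))) (XT.nd (nat_lit 624) (nat_lit 2584) (nat_lit 0) (XT.nd (nat_lit 312) (nat_lit 1292) (nat_lit 0) (XT.nd (nat_lit 156) (nat_lit 836) (nat_lit 0) (XT.nd (nat_lit 78) (nat_lit 0) (nat_lit 0) (XT.lf (nat_lit 0) (nat_lit 987801046) (nat_lit 456) (nat_lit 3683607990) (nat_lit 532) (nat_lit 4623435923) (nat_lit 195) (nat_lit 5) (nat_lit 201) (nat_lit 5) (nat_lit 202) (nat_lit 5) (nat_lit 596) (nat_lit 492) (nat_lit 472)) (XT.lf (nat_lit 0) (nat_lit 8834691735) (nat_lit 532) (nat_lit 538007745) (nat_lit 76) (nat_lit 5355849) (nat_lit 195) (nat_lit 5) (nat_lit 202) (nat_lit 5) (nat_lit 196) (nat_lit 4) (nat_lit 597) (nat_lit 492) (nat_lit 471))) (XT.nd (nat_lit 78) (nat_lit 380) (nat_lit 0) (XT.lf (nat_lit 0) (nat_lit 3585383470) (nat_lit 456) (nat_lit 2116096277) (nat_lit 76) (nat_lit 3760690836) (nat_lit 189) (nat_lit 5) (nat_lit 195) (nat_lit 5) (nat_lit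 190) (nat_lit 5) (nat_lit 598) (nat_lit 492) (nat_lit 470)) (XT.lf (nat_lit 0) (nat_lit 5831366625) (nat_lit 380) (nat_lit 1941934659) (nat_lit 456) (nat_lit 1774918666) (nat_lit 184) (nat_lit 5) (nat_lit 189) (nat_lit 5) (nat_lit 190) (nat_lit 5) (nat_lit 599) (nat_lit 492) (nat_lit 469)))) (XT.nd (nat_lit 156) (nat_lit 456) (nat_lit 0) (XT.nd (nat_lit 78) (nat_lit 380) (nat_lit 0) (XT.lf (nat_lit 0) (nat_lit 2374505936) (nat_lit 456) (nat_lit 5366174444) (nat_lit 76) (nat_lit 1895055873) (nat_lit 178) (nat_lit 5) (nat_lit 184) (nat_lit 5) (nat_lit 179) (nat_lit 5) (nat_lit 600) (nat_lit 492) (nat_lit 468)) (XT.lf (nat_lit 0) (nat_lit 2662466531) (nat_lit 380) (nat_lit 3918859882) (nat_lit 456) (nat_lit 3143479361) (nat_lit 173) (nat_lit 5) (nat_lit 178) (nat_lit 5) (nat_lit 179) (nat_lit 5) (nat_lit 601) (nat_lit 492) (nat_lit 467))) (XT.nd (nat_lit 78) (nat_lit 0) (nat_lit 0) (XT.lf (nat_lit 0) (nat_lit 1026420023) (nat_lit 380) (nat_lit 2326818) (nat_lit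 456) (nat_lit 8787054044) (nat_lit 167) (nat_lit 5) (nat_lit 172) (nat_lit 5) (nat_lit 173) (nat_lit 5) (nat_lit 602) (nat_lit 492) (nat_lit 466)) (XT.lf (nat_lit 0) (nat_lit 5259388256) (nat_lit 456) (nat_lit 671791988) (nat_lit 76) (nat_lit 3976679796) (nat_lit 167) (nat_lit 5) (nat_lit 173) (nat_lit 5) (nat_lit 168) (nat_lit 5) (nat_lit 603) (nat_lit 492) (nat_lit 465))))) (XT.nd (nat_lit 312) (nat_lit 1064) (nat_lit 0) (XT.nd (nat_lit 156) (nat_lit 760) (nat_lit 0) (XT.nd (nat_lit 78) (nat_lit 380) (nat_lit 0) (XT.lf (nat_lit 0) (nat_lit 7620075366) (nat_lit 380) (nat_lit 1948561503) (nat_lit 456) (nat_lit 433244551) (nat_lit 162) (nat_lit 5) (nat_lit 167) (nat_lit 5) (nat_lit 168) (nat_lit 5) (nat_lit 604) (nat_lit 492) (nat_lit 464)) (XT.lf (nat_lit 0) (nat_lit 3817398229) (nat_lit 380) (nat_lit 4157493107) (nat_lit 76) (nat_lit 2122354375) (nat_lit 157) (nat_lit 5) (nat_lit 162) (nat_lit 5) (nat_lit 158) (nat_lit 5) (nat_lit 605) (nat_lit 492) (nat_lit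 463))) (XT.nd (nat_lit 78) (nat_lit 380) (nat_lit 0) (XT.lf (nat_lit 0) (nat_lit 4216796767) (nat_lit 380) (nat_lit 3931796872) (nat_lit 456) (nat_lit 2045840429) (nat_lit 152) (nat_lit 5) (nat_lit 157) (nat_lit 5) (nat_lit 158) (nat_lit 5) (nat_lit 606) (nat_lit 492) (nat_lit 462)) (XT.lf (nat_lit 0) (nat_lit 2233560308) (nat_lit 380) (nat_lit 7844397200) (nat_lit 76) (nat_lit 215503945) (nat_lit 147) (nat_lit 5) (nat_lit 152) (nat_lit 5) (nat_lit 148) (nat_lit 5) (nat_lit 607) (nat_lit 492) (nat_lit 461)))) (XT.nd (nat_lit 156) (nat_lit 608) (nat_lit 0) (XT.nd (nat_lit 78) (nat_lit 76) (nat_lit 0) (XT.lf (nat_lit 0) (nat_lit 610926723) (nat_lit 380) (nat_lit 5976034643) (nat_lit 456) (nat_lit 3806922262) (nat_lit 142) (nat_lit 5) (nat_lit 147) (nat_lit 5) (nat_lit 148) (nat_lit 5) (nat_lit 608) (nat_lit 492) (nat_lit 460)) (XT.lf (nat_lit 0) (nat_lit 522674156) (nat_lit 456) (nat_lit 1246402398) (nat_lit 76) (nat_lit 8727199045) (nat_lit 141) (nat_lit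 5) (nat_lit 147) (nat_lit 5) (nat_lit 142) (nat_lit 5) (nat_lit 609) (nat_lit 492) (nat_lit 459))) (XT.nd (nat_lit 78) (nat_lit 304) (nat_lit 0) (XT.lf (nat_lit 0) (nat_lit 4899524747) (nat_lit 380) (nat_lit 3170914993) (nat_lit 76) (nat_lit 2529540435) (nat_lit 137) (nat_lit 5) (nat_lit 142) (nat_lit 5) (nat_lit 138) (nat_lit 5) (nat_lit 610) (nat_lit 492) (nat_lit 458)) (XT.lf (nat_lit 0) (nat_lit 5562980715) (nat_lit 304) (nat_lit 3804052821) (nat_lit 380) (nat_lit 1338663645) (nat_lit 133) (nat_lit 5) (nat_lit 137) (nat_lit 5) (nat_lit 138) (nat_lit 5) (nat_lit 611) (nat_lit 492) (nat_lit 457))))))))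
noncomputable def xc23 : XT := (XT.nd (nat_lit 2418) (nat_lit 1216) (nat_lit 0) (XT.nd (nat_lit 1170) (nat_lit 2812) (nat_lit 0) (XT.nd (nat_lit 546) (nat_lit 1672) (nat_lit 0) (XT.nd (nat_lit 234) (nat_lit 1216) (nat_lit 0) (XT.nd (nat_lit 78) (nat_lit 380) (nat_lit 0) (XT.lf (nat_lit 0) (nat_lit 3065389223) (nat_lit 380) (nat_lit 7175876578) (nat_lit 76) (nat_lit 571943202) (nat_lit 128) (nat_lit 5) (nat_lit 133) (nat_lit 5) (nat_lit 129) (nat_lit 5) (nat_lit 612) (nat_lit 492) (nat_lit 456)) (XT.nd (nat_lit 78) (nat_lit 76) (nat_lit 0) (XT.lf (nat_lit 0) (nat_lit 1639799668) (nat_lit 304) (nat_lit 5917637890) (nat_lit 380) (nat_lit 3364900470) (nat_lit 124) (nat_lit 5) (nat_lit 128) (nat_lit 5) (nat_lit 129) (nat_lit 5) (nat_lit 613) (nat_lit 492) (nat_lit 455)) (XT.lf (nat_lit 0) (nat_lit 1087013576) (nat_lit 380) (nat_lit 399178235) (nat_lit 76) (nat_lit 9547398186) (nat_lit 123) (nat_lit 5) (nat_lit 128) (nat_lit 5) (nat_lit 124) (nat_lit 5) (nat_lit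 614) (nat_lit 492) (nat_lit 454)))) (XT.nd (nat_lit 156) (nat_lit 608) (nat_lit 0) (XT.nd (nat_lit 78) (nat_lit 304) (nat_lit 0) (XT.lf (nat_lit 0) (nat_lit 5607612824) (nat_lit 380) (nat_lit 2499616168) (nat_lit 76) (nat_lit 3038899792) (nat_lit 119) (nat_lit 5) (nat_lit 124) (nat_lit 5) (nat_lit 120) (nat_lit 5) (nat_lit 615) (nat_lit 492) (nat_lit 453)) (XT.lf (nat_lit 0) (nat_lit 6607908587) (nat_lit 304) (nat_lit 3614784220) (nat_lit 380) (nat_lit 1038144830) (nat_lit 115) (nat_lit 5) (nat_lit 119) (nat_lit 5) (nat_lit 120) (nat_lit 5) (nat_lit 616) (nat_lit 492) (nat_lit 452))) (XT.nd (nat_lit 78) (nat_lit 304) (nat_lit 0) (XT.lf (nat_lit 0) (nat_lit 3507016150) (nat_lit 304) (nat_lit 6880816945) (nat_lit 76) (nat_lit 989519527) (nat_lit 111) (nat_lit 5) (nat_lit 115) (nat_lit 5) (nat_lit 112) (nat_lit 5) (nat_lit 617) (nat_lit 492) (nat_lit 451)) (XT.lf (nat_lit 0) (nat_lit 2308859383) (nat_lit 304) (nat_lit 5839648396) (nat_lit 380) (nat_lit 3347166946)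 (nat_lit 107) (nat_lit 5) (nat_lit 111) (nat_lit 5) (nat_lit 112) (nat_lit 5) (nat_lit 618) (nat_lit 492) (nat_lit 450))))) (XT.nd (nat_lit 312) (nat_lit 760) (nat_lit 0) (XT.nd (nat_lit 156) (nat_lit 608) (nat_lit 0) (XT.nd (nat_lit 78) (nat_lit 0) (nat_lit 0) (XT.lf (nat_lit 0) (nat_lit 65496485) (nat_lit 228) (nat_lit 1180324408) (nat_lit 304) (nat_lit 10370459229) (nat_lit 103) (nat_lit 5) (nat_lit 106) (nat_lit 5) (nat_lit 107) (nat_lit 5) (nat_lit 619) (nat_lit 492) (nat_lit 449)) (XT.lf (nat_lit 0) (nat_lit 5920405868) (nat_lit 304) (nat_lit 2243648150) (nat_lit 76) (nat_lit 3574110582) (nat_lit 103) (nat_lit 5) (nat_lit 107) (nat_lit 5) (nat_lit 104) (nat_lit 5) (nat_lit 620) (nat_lit 492) (nat_lit 448))) (XT.nd (nat_lit 78) (nat_lit 304) (nat_lit 0) (XT.lf (nat_lit 0) (nat_lit 7251427095) (nat_lit 304) (nat_lit 3442212468) (nat_lit 380) (nat_lit 1168744643) (nat_lit 99) (nat_lit 5) (nat_lit 103) (nat_lit 5) (nat_lit 104) (nat_lit 5) (nat_lit 621)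 (nat_lit 492) (nat_lit 447)) (XT.lf (nat_lit 0) (nat_lit 3533085618) (nat_lit 304) (nat_lit 7063977123) (nat_lit 76) (nat_lit 1391428026) (nat_lit 95) (nat_lit 5) (nat_lit 99) (nat_lit 5) (nat_lit 96) (nat_lit 5) (nat_lit 622) (nat_lit 492) (nat_lit 446)))) (XT.nd (nat_lit 156) (nat_lit 228) (nat_lit 0) (XT.nd (nat_lit 78) (nat_lit 304) (nat_lit 0) (XT.lf (nat_lit 0) (nat_lit 2513137798) (nat_lit 228) (nat_lit 5820984650) (nat_lit 304) (nat_lit 3782426661) (nat_lit 92) (nat_lit 5) (nat_lit 95) (nat_lit 5) (nat_lit 96) (nat_lit 5) (nat_lit 623) (nat_lit 492) (nat_lit 445)) (XT.lf (nat_lit 0) (nat_lit 39271242) (nat_lit 228) (nat_lit 930442632) (nat_lit 304) (nat_lit 11277355328) (nat_lit 88) (nat_lit 5) (nat_lit 91) (nat_lit 5) (nat_lit 92) (nat_lit 5) (nat_lit 624) (nat_lit 492) (nat_lit 444))) (XT.nd (nat_lit 78) (nat_lit 228) (nat_lit 0) (XT.lf (nat_lit 0) (nat_lit 5808329326) (nat_lit 304) (nat_lit 2511797309) (nat_lit 76) (nat_lit 4058731963) (nat_lit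 88) (nat_lit 5) (nat_lit 92) (nat_lit 5) (nat_lit 89) (nat_lit 5) (nat_lit 625) (nat_lit 492) (nat_lit 443)) (XT.lf (nat_lit 0) (nat_lit 7384448980) (nat_lit 228) (nat_lit 3365153232) (nat_lit 304) (nat_lit 1763564370) (nat_lit 85) (nat_lit 5) (nat_lit 88) (nat_lit 5) (nat_lit 89) (nat_lit 5) (nat_lit 626) (nat_lit 492) (nat_lit 442)))))) (XT.nd (nat_lit 624) (nat_lit 1292) (nat_lit 0) (XT.nd (nat_lit 312) (nat_lit 684) (nat_lit 0) (XT.nd (nat_lit 156) (nat_lit 304) (nat_lit 0) (XT.nd (nat_lit 78) (nat_lit 228) (nat_lit 0) (XT.lf (nat_lit 0) (nat_lit 3109680536) (nat_lit 304) (nat_lit 7839802394) (nat_lit 76) (nat_lit 1700044274) (nat_lit 81) (nat_lit 5) (nat_lit 85) (nat_lit 5) (nat_lit 82) (nat_lit 5) (nat_lit 627) (nat_lit 492) (nat_lit 441)) (XT.lf (nat_lit 0) (nat_lit 2137763673) (nat_lit 228) (nat_lit 5941871698) (nat_lit 304) (nat_lit 4708289815) (nat_lit 78) (nat_lit 5) (nat_lit 81) (nat_lit 5) (nat_lit 82) (nat_lit 5) (nat_lit 628) (nat_lit 492)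 (nat_lit 440))) (XT.nd (nat_lit 78) (nat_lit 228) (nat_lit 0) (XT.lf (nat_lit 0) (nat_lit 222078342) (nat_lit 304) (nat_lit 593354728) (nat_lit 76) (nat_lit 12113528675) (nat_lit 77) (nat_lit 5) (nat_lit 81) (nat_lit 5) (nat_lit 78) (nat_lit 5) (nat_lit 629) (nat_lit 492) (nat_lit 439)) (XT.lf (nat_lit 0) (nat_lit 5232989831) (nat_lit 304) (nat_lit 3423626026) (nat_lit 76) (nat_lit 4414681590) (nat_lit 74) (nat_lit 5) (nat_lit 78) (nat_lit 5) (nat_lit 75) (nat_lit 5) (nat_lit 630) (nat_lit 492) (nat_lit 438)))) (XT.nd (nat_lit 156) (nat_lit 228) (nat_lit 0) (XT.nd (nat_lit 78) (nat_lit 228) (nat_lit 0) (XT.lf (nat_lit 0) (nat_lit 6886873876) (nat_lit 228) (nat_lit 3464565734) (nat_lit 304) (nat_lit 2864894289) (nat_lit 71) (nat_lit 5) (nat_lit 74) (nat_lit 5) (nat_lit 75) (nat_lit 5) (nat_lit 631) (nat_lit 492) (nat_lit 437)) (XT.lf (nat_lit 0) (nat_lit 2193741135) (nat_lit 228) (nat_lit 9334567494) (nat_lit 76) (nat_lit 1835381918) (nat_lit 68) (nat_lit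 5) (nat_lit 71) (nat_lit 5) (nat_lit 69) (nat_lit 5) (nat_lit 632) (nat_lit 492) (nat_lit 436))) (XT.nd (nat_lit 78) (nat_lit 0) (nat_lit 0) (XT.lf (nat_lit 0) (nat_lit 1055778088) (nat_lit 228) (nat_lit 6285414448) (nat_lit 304) (nat_lit 6171903382) (nat_lit 65) (nat_lit 5) (nat_lit 68) (nat_lit 5) (nat_lit 69) (nat_lit 5) (nat_lit 633) (nat_lit 492) (nat_lit 435)) (XT.lf (nat_lit 0) (nat_lit 11697610960) (nat_lit 228) (nat_lit 910411482) (nat_lit 304) (nat_lit 1057138770) (nat_lit 65) (nat_lit 5) (nat_lit 68) (nat_lit 5) (nat_lit 69) (nat_lit 5) (nat_lit 634) (nat_lit 492) (nat_lit 434))))) (XT.nd (nat_lit 312) (nat_lit 608) (nat_lit 0) (XT.nd (nat_lit 156) (nat_lit 228) (nat_lit 0) (XT.nd (nat_lit 78) (nat_lit 228) (nat_lit 0) (XT.lf (nat_lit 0) (nat_lit 4146494076) (nat_lit 228) (nat_lit 5111742834) (nat_lit 76) (nat_lit 4560668490) (nat_lit 62) (nat_lit 5) (nat_lit 65) (nat_lit 5) (nat_lit 63) (nat_lit 5) (nat_lit 635) (nat_lit 492) (nat_lit 433))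 (XT.lf (nat_lit 0) (nat_lit 5625272078) (nat_lit 228) (nat_lit 3825156152) (nat_lit 304) (nat_lit 4524949194) (nat_lit 59) (nat_lit 5) (nat_lit 62) (nat_lit 5) (nat_lit 63) (nat_lit 5) (nat_lit 636) (nat_lit 492) (nat_lit 432))) (XT.nd (nat_lit 78) (nat_lit 0) (nat_lit 0) (XT.lf (nat_lit 0) (nat_lit 732295933) (nat_lit 228) (nat_lit 11688771929) (nat_lit 76) (nat_lit 1713490224) (nat_lit 56) (nat_lit 5) (nat_lit 59) (nat_lit 5) (nat_lit 57) (nat_lit 5) (nat_lit 637) (nat_lit 492) (nat_lit 431)) (XT.lf (nat_lit 0) (nat_lit 6070606407) (nat_lit 228) (nat_lit 862844392) (nat_lit 76) (nat_lit 7362143531) (nat_lit 56) (nat_lit 5) (nat_lit 59) (nat_lit 5) (nat_lit 57) (nat_lit 5) (nat_lit 638) (nat_lit 492) (nat_lit 430)))) (XT.nd (nat_lit 156) (nat_lit 152) (nat_lit 0) (XT.nd (nat_lit 78) (nat_lit 228) (nat_lit 0) (XT.lf (nat_lit 0) (nat_lit 10233267470) (nat_lit 228) (nat_lit 1304460735) (nat_lit 304) (nat_lit 2921682546) (nat_lit 53) (nat_lit 5) (nat_lit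 56) (nat_lit 5) (nat_lit 57) (nat_lit 5) (nat_lit 639) (nat_lit 492) (nat_lit 429)) (XT.lf (nat_lit 0) (nat_lit 2490569388) (nat_lit 228) (nat_lit 7724355347) (nat_lit 76) (nat_lit 4410545930) (nat_lit 50) (nat_lit 5) (nat_lit 53) (nat_lit 5) (nat_lit 51) (nat_lit 5) (nat_lit 640) (nat_lit 492) (nat_lit 428))) (XT.nd (nat_lit 78) (nat_lit 0) (nat_lit 0) (XT.lf (nat_lit 0) (nat_lit 3450275958) (nat_lit 152) (nat_lit 4537071470) (nat_lit 228) (nat_lit 6806810387) (nat_lit 48) (nat_lit 5) (nat_lit 50) (nat_lit 5) (nat_lit 51) (nat_lit 5) (nat_lit 641) (nat_lit 492) (nat_lit 427)) (XT.lf (nat_lit 0) (nat_lit 13610271549) (nat_lit 228) (nat_lit 101395245) (nat_lit 76) (nat_lit 1254228029) (nat_lit 48) (nat_lit 5) (nat_lit 51) (nat_lit 5) (nat_lit 49) (nat_lit 4) (nat_lit 642) (nat_lit 492) (nat_lit 426))))))) (XT.nd (nat_lit 76362) (nat_lit 0) (nat_lit 12844) (XT.nd (nat_lit 546) (nat_lit 76) (nat_lit 0) (XT.nd (nat_lit 234) (nat_lit 532) (nat_lit 0) (XT.nd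 (nat_lit 78) (nat_lit 380) (nat_lit 0) (XT.lf (nat_lit 0) (nat_lit 4210703777) (nat_lit 228) (nat_lit 3761309127) (nat_lit 76) (nat_lit 7167282797) (nat_lit 45) (nat_lit 5) (nat_lit 48) (nat_lit 5) (nat_lit 46) (nat_lit 5) (nat_lit 643) (nat_lit 492) (nat_lit 425)) (XT.nd (nat_lit 78) (nat_lit 228) (nat_lit 0) (XT.lf (nat_lit 0) (nat_lit 7786012741) (nat_lit 152) (nat_lit 2092252715) (nat_lit 228) (nat_lit 5437559037) (nat_lit 43) (nat_lit 5) (nat_lit 45) (nat_lit 5) (nat_lit 46) (nat_lit 5) (nat_lit 644) (nat_lit 492) (nat_lit 424)) (XT.lf (nat_lit 0) (nat_lit 195462855) (nat_lit 228) (nat_lit 11428167902) (nat_lit 76) (nat_lit 3871545994) (nat_lit 40) (nat_lit 5) (nat_lit 43) (nat_lit 5) (nat_lit 41) (nat_lit 5) (nat_lit 645) (nat_lit 492) (nat_lit 423)))) (XT.nd (nat_lit 156) (nat_lit 380) (nat_lit 0) (XT.nd (nat_lit 78) (nat_lit 0) (nat_lit 0) (XT.lf (nat_lit 0) (nat_lit 193615315) (nat_lit 152) (nat_lit 5697723318) (nat_lit 228) (nat_lit 9785598818)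 (nat_lit 38) (nat_lit 5) (nat_lit 40) (nat_lit 5) (nat_lit 41) (nat_lit 5) (nat_lit 646) (nat_lit 492) (nat_lit 422)) (XT.lf (nat_lit 0) (nat_lit 11737633816) (nat_lit 228) (nat_lit 3740361115) (nat_lit 76) (nat_lit 383608680) (nat_lit 38) (nat_lit 5) (nat_lit 41) (nat_lit 5) (nat_lit 39) (nat_lit 4) (nat_lit 647) (nat_lit 492) (nat_lit 421))) (XT.nd (nat_lit 78) (nat_lit 152) (nat_lit 0) (XT.lf (nat_lit 0) (nat_lit 1678626499) (nat_lit 228) (nat_lit 7830355142) (nat_lit 76) (nat_lit 6539779623) (nat_lit 35) (nat_lit 5) (nat_lit 38) (nat_lit 5) (nat_lit 36) (nat_lit 5) (nat_lit 648) (nat_lit 492) (nat_lit 420)) (XT.lf (nat_lit 0) (nat_lit 4177162167) (nat_lit 152) (nat_lit 3375272766) (nat_lit 228) (nat_lit 8686474612) (nat_lit 33) (nat_lit 5) (nat_lit 35) (nat_lit 5) (nat_lit 36) (nat_lit 5) (nat_lit 649) (nat_lit 492) (nat_lit 419))))) (XT.nd (nat_lit 75504) (nat_lit 0) (nat_lit 19988) (XT.nd (nat_lit 75348) (nat_lit 0) (nat_lit 22040) (XT.nd (nat_lit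 75270) (nat_lit 0) (nat_lit 23484) (XT.lf (nat_lit 0) (nat_lit 2010503) (nat_lit 76) (nat_lit 13571352595) (nat_lit 152) (nat_lit 2858905083) (nat_lit 32) (nat_lit 5) (nat_lit 33) (nat_lit 5) (nat_lit 34) (nat_lit 4) (nat_lit 650) (nat_lit 492) (nat_lit 418)) (XT.lf (nat_lit 0) (nat_lit 1326587635) (nat_lit 760) (nat_lit 1263804907) (nat_lit 0) (nat_lit 1326587635) (nat_lit 341) (nat_lit 5) (nat_lit 351) (nat_lit 4) (nat_lit 341) (nat_lit 4) (nat_lit 574) (nat_lit 493) (nat_lit 493))) (XT.nd (nat_lit 78) (nat_lit 760) (nat_lit 0) (XT.lf (nat_lit 0) (nat_lit 3988830872) (nat_lit 684) (nat_lit 2594650209) (nat_lit 684) (nat_lit 1303108661) (nat_lit 332) (nat_lit 4) (nat_lit 341) (nat_lit 5) (nat_lit 341) (nat_lit 4) (nat_lit 575) (nat_lit 493) (nat_lit 492)) (XT.lf (nat_lit 0) (nat_lit 2583835099) (nat_lit 760) (nat_lit 5280535831) (nat_lit 0) (nat_lit 76228478) (nat_lit 322) (nat_lit 5) (nat_lit 332) (nat_lit 4) (nat_lit 322) (nat_lit 4) (nat_lit 576) (nat_lit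 493) (nat_lit 491)))) (XT.nd (nat_lit 156) (nat_lit 1292) (nat_lit 0) (XT.nd (nat_lit 78) (nat_lit 76) (nat_lit 0) (XT.lf (nat_lit 0) (nat_lit 1310333362) (nat_lit 684) (nat_lit 5205076925) (nat_lit 684) (nat_lit 1480421857) (nat_lit 313) (nat_lit 4) (nat_lit 322) (nat_lit 5) (nat_lit 322) (nat_lit 4) (nat_lit 577) (nat_lit 493) (nat_lit 490)) (XT.lf (nat_lit 0) (nat_lit 2409299863) (nat_lit 760) (nat_lit 51054096) (nat_lit 76) (nat_lit 5592130446) (nat_lit 312) (nat_lit 5) (nat_lit 322) (nat_lit 5) (nat_lit 313) (nat_lit 4) (nat_lit 578) (nat_lit 493) (nat_lit 489))) (XT.nd (nat_lit 78) (nat_lit 684) (nat_lit 0) (XT.lf (nat_lit 0) (nat_lit 6336933870) (nat_lit 684) (nat_lit 1404872825) (nat_lit 0) (nat_lit 368670348) (nat_lit 304) (nat_lit 5) (nat_lit 313) (nat_lit 4) (nat_lit 304) (nat_lit 4) (nat_lit 579) (nat_lit 493) (nat_lit 488)) (XT.lf (nat_lit 0) (nat_lit 2131117382) (nat_lit 684) (nat_lit 2787771051) (nat_lit 76) (nat_lit 3250738011) (nat_lit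 295) (nat_lit 5) (nat_lit 304) (nat_lit 5) (nat_lit 296) (nat_lit 4) (nat_lit 580) (nat_lit 493) (nat_lit 487)))))) (XT.nd (nat_lit 624) (nat_lit 3040) (nat_lit 0) (XT.nd (nat_lit 312) (nat_lit 2204) (nat_lit 0) (XT.nd (nat_lit 156) (nat_lit 608) (nat_lit 0) (XT.nd (nat_lit 78) (nat_lit 684) (nat_lit 0) (XT.lf (nat_lit 0) (nat_lit 4047790053) (nat_lit 608) (nat_lit 2012970586) (nat_lit 684) (nat_lit 2169552739) (nat_lit 287) (nat_lit 5) (nat_lit 295) (nat_lit 5) (nat_lit 296) (nat_lit 4) (nat_lit 581) (nat_lit 493) (nat_lit 486)) (XT.lf (nat_lit 0) (nat_lit 1731334929) (nat_lit 684) (nat_lit 5596478571) (nat_lit 76) (nat_lit 964614412) (nat_lit 278) (nat_lit 5) (nat_lit 287) (nat_lit 5) (nat_lit 279) (nat_lit 4) (nat_lit 582) (nat_lit 493) (nat_lit 485))) (XT.nd (nat_lit 78) (nat_lit 76) (nat_lit 0) (XT.lf (nat_lit 0) (nat_lit 1314888656) (nat_lit 532) (nat_lit 4352142490) (nat_lit 608) (nat_lit 2688751604) (nat_lit 271) (nat_lit 5) (nat_lit 278) (nat_lit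 5) (nat_lit 279) (nat_lit 4) (nat_lit 583) (nat_lit 493) (nat_lit 484)) (XT.lf (nat_lit 0) (nat_lit 1218265859) (nat_lit 608) (nat_lit 75953790) (nat_lit 76) (nat_lit 7126547514) (nat_lit 270) (nat_lit 5) (nat_lit 278) (nat_lit 5) (nat_lit 271) (nat_lit 5) (nat_lit 584) (nat_lit 493) (nat_lit 483)))) (XT.nd (nat_lit 156) (nat_lit 988) (nat_lit 0) (XT.nd (nat_lit 78) (nat_lit 608) (nat_lit 0) (XT.lf (nat_lit 0) (nat_lit 5162341071) (nat_lit 684) (nat_lit 1483139252) (nat_lit 76) (nat_lit 1841318647) (nat_lit 262) (nat_lit 5) (nat_lit 271) (nat_lit 5) (nat_lit 263) (nat_lit 4) (nat_lit 585) (nat_lit 493) (nat_lit 482)) (XT.lf (nat_lit 0) (nat_lit 606265715) (nat_lit 608) (nat_lit 2908186971) (nat_lit 76) (nat_lit 5039950328) (nat_lit 254) (nat_lit 5) (nat_lit 262) (nat_lit 5) (nat_lit 255) (nat_lit 5) (nat_lit 586) (nat_lit 493) (nat_lit 481))) (XT.nd (nat_lit 78) (nat_lit 456) (nat_lit 0) (XT.lf (nat_lit 0) (nat_lit 4261660178) (nat_lit 532) (nat_lit 285147281)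 (nat_lit 608) (nat_lit 4076599289) (nat_lit 247) (nat_lit 5) (nat_lit 254) (nat_lit 5) (nat_lit 255) (nat_lit 5) (nat_lit 587) (nat_lit 493) (nat_lit 480)) (XT.lf (nat_lit 0) (nat_lit 2850908483) (nat_lit 456) (nat_lit 5711418210) (nat_lit 532) (nat_lit 131541966) (nat_lit 241) (nat_lit 5) (nat_lit 247) (nat_lit 5) (nat_lit 248) (nat_lit 4) (nat_lit 588) (nat_lit 493) (nat_lit 479))))) (XT.nd (nat_lit 312) (nat_lit 1444) (nat_lit 0) (XT.nd (nat_lit 156) (nat_lit 988) (nat_lit 0) (XT.nd (nat_lit 78) (nat_lit 0) (nat_lit 0) (XT.lf (nat_lit 0) (nat_lit 1404876115) (nat_lit 532) (nat_lit 2415676881) (nat_lit 608) (nat_lit 4945099028) (nat_lit 233) (nat_lit 5) (nat_lit 240) (nat_lit 5) (nat_lit 241) (nat_lit 5) (nat_lit 589) (nat_lit 493) (nat_lit 478)) (XT.lf (nat_lit 0) (nat_lit 7834714641) (nat_lit 608) (nat_lit 56931054) (nat_lit 76) (nat_lit 947513602) (nat_lit 233) (nat_lit 5) (nat_lit 241) (nat_lit 5) (nat_lit 234) (nat_lit 4) (nat_lit 590) (nat_lit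 493) (nat_lit 477))) (XT.nd (nat_lit 78) (nat_lit 456) (nat_lit 0) (XT.lf (nat_lit 0) (nat_lit 2979834060) (nat_lit 532) (nat_lit 1546488085) (nat_lit 76) (nat_lit 4387337286) (nat_lit 226) (nat_lit 5) (nat_lit 233) (nat_lit 5) (nat_lit 227) (nat_lit 5) (nat_lit 591) (nat_lit 493) (nat_lit 476)) (XT.lf (nat_lit 0) (nat_lit 5935141860) (nat_lit 456) (nat_lit 1074723072) (nat_lit 532) (nat_lit 1980062800) (nat_lit 220) (nat_lit 5) (nat_lit 226) (nat_lit 5) (nat_lit 227) (nat_lit 5) (nat_lit 592) (nat_lit 493) (nat_lit 475)))) (XT.nd (nat_lit 156) (nat_lit 456) (nat_lit 0) (XT.nd (nat_lit 78) (nat_lit 456) (nat_lit 0) (XT.lf (nat_lit 0) (nat_lit 2022220110) (nat_lit 532) (nat_lit 4605857276) (nat_lit 76) (nat_lit 2439451329) (nat_lit 213) (nat_lit 5) (nat_lit 220) (nat_lit 5) (nat_lit 214) (nat_lit 5) (nat_lit 593) (nat_lit 493) (nat_lit 474)) (XT.lf (nat_lit 0) (nat_lit 2954411973) (nat_lit 456) (nat_lit 3111797641) (nat_lit 532) (nat_lit 3080448062) (nat_lit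 207) (nat_lit 5) (nat_lit 213) (nat_lit 5) (nat_lit 214) (nat_lit 5) (nat_lit 594) (nat_lit 493) (nat_lit 473))) (XT.nd (nat_lit 78) (nat_lit 0) (nat_lit 0) (XT.lf (nat_lit 0) (nat_lit 936059904) (nat_lit 456) (nat_lit 7804769103) (nat_lit 76) (nat_lit 486716436) (nat_lit 201) (nat_lit 5) (nat_lit 207) (nat_lit 5) (nat_lit 202) (nat_lit 5) (nat_lit 595) (nat_lit 493) (nat_lit 472)) (XT.lf (nat_lit 0) (nat_lit 4995934956) (nat_lit 456) (nat_lit 164628976) (nat_lit 76) (nat_lit 4148995248) (nat_lit 201) (nat_lit 5) (nat_lit 207) (nat_lit 5) (nat_lit 202) (nat_lit 5) (nat_lit 596) (nat_lit 493) (nat_lit 471))))))))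
noncomputable def xc24 : XT := (XT.nd (nat_lit 2418) (nat_lit 3648) (nat_lit 0) (XT.nd (nat_lit 1170) (nat_lit 3952) (nat_lit 0) (XT.nd (nat_lit 546) (nat_lit 2584) (nat_lit 0) (XT.nd (nat_lit 234) (nat_lit 1292) (nat_lit 0) (XT.nd (nat_lit 78) (nat_lit 836) (nat_lit 0) (XT.lf (nat_lit 0) (nat_lit 7642108257) (nat_lit 456) (nat_lit 1487467104) (nat_lit 532) (nat_lit 263787585) (nat_lit 195) (nat_lit 5) (nat_lit 201) (nat_lit 5) (nat_lit 202) (nat_lit 5) (nat_lit 597) (nat_lit 493) (nat_lit 470)) (XT.nd (nat_lit 78) (nat_lit 380) (nat_lit 0) (XT.lf (nat_lit 0) (nat_lit 3815070379) (nat_lit 456) (nat_lit 3396962041) (nat_lit 76) (nat_lit 2266334453) (nat_lit 189) (nat_lit 5) (nat_lit 195) (nat_lit 5) (nat_lit 190) (nat_lit 5) (nat_lit 598) (nat_lit 493) (nat_lit 469)) (XT.lf (nat_lit 0) (nat_lit 4489844357) (nat_lit 380) (nat_lit 3476463156) (nat_lit 456) (nat_lit 1598842859) (nat_lit 184) (nat_lit 5) (nat_lit 189) (nat_lit 5) (nat_lit 190) (nat_lit 5) (nat_lit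 599) (nat_lit 493) (nat_lit 468)))) (XT.nd (nat_lit 156) (nat_lit 456) (nat_lit 0) (XT.nd (nat_lit 78) (nat_lit 380) (nat_lit 0) (XT.lf (nat_lit 0) (nat_lit 2501044169) (nat_lit 456) (nat_lit 6795096509) (nat_lit 76) (nat_lit 357448198) (nat_lit 178) (nat_lit 5) (nat_lit 184) (nat_lit 5) (nat_lit 179) (nat_lit 5) (nat_lit 600) (nat_lit 493) (nat_lit 467)) (XT.lf (nat_lit 0) (nat_lit 1170659293) (nat_lit 380) (nat_lit 5499805085) (nat_lit 456) (nat_lit 3072942512) (nat_lit 173) (nat_lit 5) (nat_lit 178) (nat_lit 5) (nat_lit 179) (nat_lit 5) (nat_lit 601) (nat_lit 493) (nat_lit 466))) (XT.nd (nat_lit 78) (nat_lit 380) (nat_lit 0) (XT.lf (nat_lit 0) (nat_lit 1064061667) (nat_lit 456) (nat_lit 541310533) (nat_lit 76) (nat_lit 8229707050) (nat_lit 172) (nat_lit 5) (nat_lit 178) (nat_lit 5) (nat_lit 173) (nat_lit 5) (nat_lit 602) (nat_lit 493) (nat_lit 465)) (XT.lf (nat_lit 0) (nat_lit 5253237129) (nat_lit 456) (nat_lit 2299196895) (nat_lit 76) (nat_lit 2375534159)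 (nat_lit 167) (nat_lit 5) (nat_lit 173) (nat_lit 5) (nat_lit 168) (nat_lit 5) (nat_lit 603) (nat_lit 493) (nat_lit 464))))) (XT.nd (nat_lit 312) (nat_lit 1064) (nat_lit 0) (XT.nd (nat_lit 156) (nat_lit 760) (nat_lit 0) (XT.nd (nat_lit 78) (nat_lit 380) (nat_lit 0) (XT.lf (nat_lit 0) (nat_lit 5927767054) (nat_lit 380) (nat_lit 3596796708) (nat_lit 456) (nat_lit 498184693) (nat_lit 162) (nat_lit 5) (nat_lit 167) (nat_lit 5) (nat_lit 168) (nat_lit 5) (nat_lit 604) (nat_lit 493) (nat_lit 463)) (XT.lf (nat_lit 0) (nat_lit 3704017203) (nat_lit 380) (nat_lit 5947121829) (nat_lit 76) (nat_lit 467968431) (nat_lit 157) (nat_lit 5) (nat_lit 162) (nat_lit 5) (nat_lit 158) (nat_lit 5) (nat_lit 605) (nat_lit 493) (nat_lit 462))) (XT.nd (nat_lit 78) (nat_lit 380) (nat_lit 0) (XT.lf (nat_lit 0) (nat_lit 2359881486) (nat_lit 380) (nat_lit 5636563413) (nat_lit 456) (nat_lit 2220626702) (nat_lit 152) (nat_lit 5) (nat_lit 157) (nat_lit 5) (nat_lit 158) (nat_lit 5) (nat_lit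 606) (nat_lit 493) (nat_lit 461)) (XT.lf (nat_lit 0) (nat_lit 503552944) (nat_lit 304) (nat_lit 1516814492) (nat_lit 380) (nat_lit 8296568633) (nat_lit 147) (nat_lit 5) (nat_lit 151) (nat_lit 5) (nat_lit 152) (nat_lit 5) (nat_lit 607) (nat_lit 493) (nat_lit 460)))) (XT.nd (nat_lit 156) (nat_lit 608) (nat_lit 0) (XT.nd (nat_lit 78) (nat_lit 456) (nat_lit 0) (XT.lf (nat_lit 0) (nat_lit 6333452539) (nat_lit 380) (nat_lit 1399367598) (nat_lit 76) (nat_lit 2685344827) (nat_lit 147) (nat_lit 5) (nat_lit 152) (nat_lit 5) (nat_lit 148) (nat_lit 5) (nat_lit 608) (nat_lit 493) (nat_lit 459)) (XT.lf (nat_lit 0) (nat_lit 212825738) (nat_lit 456) (nat_lit 3341106461) (nat_lit 76) (nat_lit 6967375224) (nat_lit 141) (nat_lit 5) (nat_lit 147) (nat_lit 5) (nat_lit 142) (nat_lit 5) (nat_lit 609) (nat_lit 493) (nat_lit 458))) (XT.nd (nat_lit 78) (nat_lit 304) (nat_lit 0) (XT.lf (nat_lit 0) (nat_lit 4537912422) (nat_lit 380) (nat_lit 5350427605) (nat_lit 76) (nat_lit 737707627)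 (nat_lit 137) (nat_lit 5) (nat_lit 142) (nat_lit 5) (nat_lit 138) (nat_lit 5) (nat_lit 610) (nat_lit 493) (nat_lit 457)) (XT.lf (nat_lit 0) (nat_lit 3311445356) (nat_lit 304) (nat_lit 5653569915) (nat_lit 380) (nat_lit 1767557877) (nat_lit 133) (nat_lit 5) (nat_lit 137) (nat_lit 5) (nat_lit 138) (nat_lit 5) (nat_lit 611) (nat_lit 493) (nat_lit 456)))))) (XT.nd (nat_lit 624) (nat_lit 1900) (nat_lit 0) (XT.nd (nat_lit 312) (nat_lit 988) (nat_lit 0) (XT.nd (nat_lit 156) (nat_lit 684) (nat_lit 0) (XT.nd (nat_lit 78) (nat_lit 0) (nat_lit 0) (XT.lf (nat_lit 0) (nat_lit 1292180249) (nat_lit 304) (nat_lit 1305200255) (nat_lit 380) (nat_lit 8243655306) (nat_lit 128) (nat_lit 5) (nat_lit 132) (nat_lit 5) (nat_lit 133) (nat_lit 5) (nat_lit 612) (nat_lit 493) (nat_lit 455)) (XT.lf (nat_lit 0) (nat_lit 7044703408) (nat_lit 380) (nat_lit 788888820) (nat_lit 76) (nat_lit 3117467464) (nat_lit 128) (nat_lit 5) (nat_lit 133) (nat_lit 5) (nat_lit 129) (nat_lit 5) (nat_lit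 613) (nat_lit 493) (nat_lit 454))) (XT.nd (nat_lit 78) (nat_lit 304) (nat_lit 0) (XT.lf (nat_lit 0) (nat_lit 521888465) (nat_lit 380) (nat_lit 2906362765) (nat_lit 76) (nat_lit 7634746488) (nat_lit 123) (nat_lit 5) (nat_lit 128) (nat_lit 5) (nat_lit 124) (nat_lit 5) (nat_lit 614) (nat_lit 493) (nat_lit 453)) (XT.lf (nat_lit 0) (nat_lit 4987842555) (nat_lit 380) (nat_lit 5099989957) (nat_lit 76) (nat_lit 1088797225) (nat_lit 119) (nat_lit 5) (nat_lit 124) (nat_lit 5) (nat_lit 120) (nat_lit 5) (nat_lit 615) (nat_lit 493) (nat_lit 452)))) (XT.nd (nat_lit 156) (nat_lit 380) (nat_lit 0) (XT.nd (nat_lit 78) (nat_lit 304) (nat_lit 0) (XT.lf (nat_lit 0) (nat_lit 3930408255) (nat_lit 304) (nat_lit 5630196695) (nat_lit 380) (nat_lit 1731580314) (nat_lit 115) (nat_lit 5) (nat_lit 119) (nat_lit 5) (nat_lit 120) (nat_lit 5) (nat_lit 616) (nat_lit 493) (nat_lit 451)) (XT.lf (nat_lit 0) (nat_lit 1720266599) (nat_lit 228) (nat_lit 1052950562) (nat_lit 304) (nat_lit 8636562603)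 (nat_lit 111) (nat_lit 5) (nat_lit 114) (nat_lit 5) (nat_lit 115) (nat_lit 5) (nat_lit 617) (nat_lit 493) (nat_lit 450))) (XT.nd (nat_lit 78) (nat_lit 380) (nat_lit 0) (XT.lf (nat_lit 0) (nat_lit 7368107473) (nat_lit 304) (nat_lit 565452322) (nat_lit 76) (nat_lit 3595474403) (nat_lit 111) (nat_lit 5) (nat_lit 115) (nat_lit 5) (nat_lit 112) (nat_lit 5) (nat_lit 618) (nat_lit 493) (nat_lit 449)) (XT.lf (nat_lit 0) (nat_lit 413840360) (nat_lit 380) (nat_lit 2887536799) (nat_lit 76) (nat_lit 8348946263) (nat_lit 106) (nat_lit 5) (nat_lit 111) (nat_lit 5) (nat_lit 107) (nat_lit 5) (nat_lit 619) (nat_lit 493) (nat_lit 448))))) (XT.nd (nat_lit 312) (nat_lit 1064) (nat_lit 0) (XT.nd (nat_lit 156) (nat_lit 304) (nat_lit 0) (XT.nd (nat_lit 78) (nat_lit 304) (nat_lit 0) (XT.lf (nat_lit 0) (nat_lit 5030907150) (nat_lit 304) (nat_lit 5297903214) (nat_lit 76) (nat_lit 1444548187) (nat_lit 103) (nat_lit 5) (nat_lit 107) (nat_lit 5) (nat_lit 104) (nat_lit 5) (nat_lit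 620) (nat_lit 493) (nat_lit 447)) (XT.lf (nat_lit 0) (nat_lit 4114539238) (nat_lit 304) (nat_lit 5645093532) (nat_lit 380) (nat_lit 2138835829) (nat_lit 99) (nat_lit 5) (nat_lit 103) (nat_lit 5) (nat_lit 104) (nat_lit 5) (nat_lit 621) (nat_lit 493) (nat_lit 446))) (XT.nd (nat_lit 78) (nat_lit 0) (nat_lit 0) (XT.lf (nat_lit 0) (nat_lit 1683002177) (nat_lit 228) (nat_lit 838360013) (nat_lit 304) (nat_lit 9504426313) (nat_lit 95) (nat_lit 5) (nat_lit 98) (nat_lit 5) (nat_lit 99) (nat_lit 5) (nat_lit 622) (nat_lit 493) (nat_lit 445)) (XT.lf (nat_lit 0) (nat_lit 7276636201) (nat_lit 304) (nat_lit 834819869) (nat_lit 76) (nat_lit 4043306294) (nat_lit 95) (nat_lit 5) (nat_lit 99) (nat_lit 5) (nat_lit 96) (nat_lit 5) (nat_lit 623) (nat_lit 493) (nat_lit 444)))) (XT.nd (nat_lit 156) (nat_lit 532) (nat_lit 0) (XT.nd (nat_lit 78) (nat_lit 304) (nat_lit 0) (XT.lf (nat_lit 0) (nat_lit 8891926582) (nat_lit 228) (nat_lit 3250838744) (nat_lit 304) (nat_lit 143235905)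 (nat_lit 92) (nat_lit 5) (nat_lit 95) (nat_lit 5) (nat_lit 96) (nat_lit 5) (nat_lit 624) (nat_lit 493) (nat_lit 443)) (XT.lf (nat_lit 0) (nat_lit 4635843220) (nat_lit 304) (nat_lit 6055246688) (nat_lit 76) (nat_lit 1727947866) (nat_lit 88) (nat_lit 5) (nat_lit 92) (nat_lit 5) (nat_lit 89) (nat_lit 5) (nat_lit 625) (nat_lit 493) (nat_lit 442))) (XT.nd (nat_lit 78) (nat_lit 304) (nat_lit 0) (XT.lf (nat_lit 0) (nat_lit 3752420968) (nat_lit 228) (nat_lit 5777709659) (nat_lit 304) (nat_lit 3024155085) (nat_lit 85) (nat_lit 5) (nat_lit 88) (nat_lit 5) (nat_lit 89) (nat_lit 5) (nat_lit 626) (nat_lit 493) (nat_lit 441)) (XT.lf (nat_lit 0) (nat_lit 1065935072) (nat_lit 228) (nat_lit 740758816) (nat_lit 304) (nat_lit 10885294948) (nat_lit 81) (nat_lit 5) (nat_lit 84) (nat_lit 5) (nat_lit 85) (nat_lit 5) (nat_lit 627) (nat_lit 493) (nat_lit 440))))))) (XT.nd (nat_lit 1170) (nat_lit 1140) (nat_lit 0) (XT.nd (nat_lit 546) (nat_lit 1292) (nat_lit 0) (XT.nd (nat_lit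 234) (nat_lit 684) (nat_lit 0) (XT.nd (nat_lit 78) (nat_lit 532) (nat_lit 0) (XT.lf (nat_lit 0) (nat_lit 6734676203) (nat_lit 304) (nat_lit 1712780690) (nat_lit 76) (nat_lit 4383769606) (nat_lit 81) (nat_lit 5) (nat_lit 85) (nat_lit 5) (nat_lit 82) (nat_lit 5) (nat_lit 628) (nat_lit 493) (nat_lit 439)) (XT.nd (nat_lit 78) (nat_lit 304) (nat_lit 0) (XT.lf (nat_lit 0) (nat_lit 8422995792) (nat_lit 228) (nat_lit 3351705779) (nat_lit 304) (nat_lit 1198278131) (nat_lit 78) (nat_lit 5) (nat_lit 81) (nat_lit 5) (nat_lit 82) (nat_lit 5) (nat_lit 629) (nat_lit 493) (nat_lit 438)) (XT.lf (nat_lit 0) (nat_lit 3762509477) (nat_lit 304) (nat_lit 7494135464) (nat_lit 76) (nat_lit 1860143071) (nat_lit 74) (nat_lit 5) (nat_lit 78) (nat_lit 5) (nat_lit 75) (nat_lit 5) (nat_lit 630) (nat_lit 493) (nat_lit 437)))) (XT.nd (nat_lit 156) (nat_lit 380) (nat_lit 0) (XT.nd (nat_lit 78) (nat_lit 76) (nat_lit 0) (XT.lf (nat_lit 0) (nat_lit 2721360691) (nat_lit 228) (nat_lit 6109838087)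 (nat_lit 304) (nat_lit 4431621107) (nat_lit 71) (nat_lit 5) (nat_lit 74) (nat_lit 5) (nat_lit 75) (nat_lit 5) (nat_lit 631) (nat_lit 493) (nat_lit 436)) (XT.lf (nat_lit 0) (nat_lit 586568016) (nat_lit 304) (nat_lit 253800003) (nat_lit 76) (nat_lit 12571232048) (nat_lit 70) (nat_lit 5) (nat_lit 74) (nat_lit 5) (nat_lit 71) (nat_lit 5) (nat_lit 632) (nat_lit 493) (nat_lit 435))) (XT.nd (nat_lit 78) (nat_lit 228) (nat_lit 0) (XT.lf (nat_lit 0) (nat_lit 5697417459) (nat_lit 228) (nat_lit 3327318167) (nat_lit 76) (nat_lit 4537002051) (nat_lit 68) (nat_lit 5) (nat_lit 71) (nat_lit 5) (nat_lit 69) (nat_lit 5) (nat_lit 633) (nat_lit 493) (nat_lit 434)) (XT.lf (nat_lit 0) (nat_lit 7230084717) (nat_lit 228) (nat_lit 3689844524) (nat_lit 304) (nat_lit 2794760289) (nat_lit 65) (nat_lit 5) (nat_lit 68) (nat_lit 5) (nat_lit 69) (nat_lit 5) (nat_lit 634) (nat_lit 493) (nat_lit 433))))) (XT.nd (nat_lit 312) (nat_lit 608) (nat_lit 0) (XT.nd (nat_lit 156) (nat_lit 228)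 (nat_lit 0) (XT.nd (nat_lit 78) (nat_lit 228) (nat_lit 0) (XT.lf (nat_lit 0) (nat_lit 2361190475) (nat_lit 228) (nat_lit 9750002396) (nat_lit 76) (nat_lit 1758876098) (nat_lit 62) (nat_lit 5) (nat_lit 65) (nat_lit 5) (nat_lit 63) (nat_lit 5) (nat_lit 635) (nat_lit 493) (nat_lit 432)) (XT.lf (nat_lit 0) (nat_lit 885061871) (nat_lit 228) (nat_lit 6727216452) (nat_lit 304) (nat_lit 6415319781) (nat_lit 59) (nat_lit 5) (nat_lit 62) (nat_lit 5) (nat_lit 63) (nat_lit 5) (nat_lit 636) (nat_lit 493) (nat_lit 431))) (XT.nd (nat_lit 78) (nat_lit 228) (nat_lit 0) (XT.lf (nat_lit 0) (nat_lit 11785160444) (nat_lit 228) (nat_lit 1204430127) (nat_lit 304) (nat_lit 1198263566) (nat_lit 59) (nat_lit 5) (nat_lit 62) (nat_lit 5) (nat_lit 63) (nat_lit 5) (nat_lit 637) (nat_lit 493) (nat_lit 430)) (XT.lf (nat_lit 0) (nat_lit 4110052271) (nat_lit 228) (nat_lit 5821036352) (nat_lit 76) (nat_lit 4418871732) (nat_lit 56) (nat_lit 5) (nat_lit 59) (nat_lit 5) (nat_lit 57) (nat_lit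 5) (nat_lit 638) (nat_lit 493) (nat_lit 429)))) (XT.nd (nat_lit 156) (nat_lit 152) (nat_lit 0) (XT.nd (nat_lit 78) (nat_lit 228) (nat_lit 0) (XT.lf (nat_lit 0) (nat_lit 5169572132) (nat_lit 228) (nat_lit 4353177773) (nat_lit 304) (nat_lit 4992115525) (nat_lit 53) (nat_lit 5) (nat_lit 56) (nat_lit 5) (nat_lit 57) (nat_lit 5) (nat_lit 639) (nat_lit 493) (nat_lit 428)) (XT.lf (nat_lit 0) (nat_lit 371702519) (nat_lit 228) (nat_lit 12974165117) (nat_lit 76) (nat_lit 1336838485) (nat_lit 50) (nat_lit 5) (nat_lit 53) (nat_lit 5) (nat_lit 51) (nat_lit 5) (nat_lit 640) (nat_lit 493) (nat_lit 427))) (XT.nd (nat_lit 78) (nat_lit 152) (nat_lit 0) (XT.lf (nat_lit 0) (nat_lit 5824616293) (nat_lit 228) (nat_lit 1883961906) (nat_lit 76) (nat_lit 7143692518) (nat_lit 50) (nat_lit 5) (nat_lit 53) (nat_lit 5) (nat_lit 51) (nat_lit 5) (nat_lit 641) (nat_lit 493) (nat_lit 426)) (XT.lf (nat_lit 0) (nat_lit 9474722021) (nat_lit 152) (nat_lit 1930877768) (nat_lit 228) (nat_lit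 3619246905) (nat_lit 48) (nat_lit 5) (nat_lit 50) (nat_lit 5) (nat_lit 51) (nat_lit 5) (nat_lit 642) (nat_lit 493) (nat_lit 425)))))) (XT.nd (nat_lit 75660) (nat_lit 0) (nat_lit 20596) (XT.nd (nat_lit 312) (nat_lit 532) (nat_lit 0) (XT.nd (nat_lit 156) (nat_lit 228) (nat_lit 0) (XT.nd (nat_lit 78) (nat_lit 152) (nat_lit 0) (XT.lf (nat_lit 0) (nat_lit 1906763985) (nat_lit 228) (nat_lit 9353904436) (nat_lit 76) (nat_lit 3939273323) (nat_lit 45) (nat_lit 5) (nat_lit 48) (nat_lit 5) (nat_lit 46) (nat_lit 5) (nat_lit 643) (nat_lit 493) (nat_lit 424)) (XT.lf (nat_lit 0) (nat_lit 2080095851) (nat_lit 152) (nat_lit 5436219342) (nat_lit 228) (nat_lit 7861315701) (nat_lit 43) (nat_lit 5) (nat_lit 45) (nat_lit 5) (nat_lit 46) (nat_lit 5) (nat_lit 644) (nat_lit 493) (nat_lit 423))) (XT.nd (nat_lit 78) (nat_lit 228) (nat_lit 0) (XT.lf (nat_lit 0) (nat_lit 13262272930) (nat_lit 228) (nat_lit 1769585515) (nat_lit 76) (nat_lit 526531367) (nat_lit 43) (nat_lit 5) (nat_lit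 46) (nat_lit 5) (nat_lit 44) (nat_lit 4) (nat_lit 645) (nat_lit 493) (nat_lit 422)) (XT.lf (nat_lit 0) (nat_lit 3396006389) (nat_lit 228) (nat_lit 5756057551) (nat_lit 76) (nat_lit 6589062201) (nat_lit 40) (nat_lit 5) (nat_lit 43) (nat_lit 5) (nat_lit 41) (nat_lit 5) (nat_lit 646) (nat_lit 493) (nat_lit 421)))) (XT.nd (nat_lit 156) (nat_lit 228) (nat_lit 0) (XT.nd (nat_lit 78) (nat_lit 152) (nat_lit 0) (XT.lf (nat_lit 0) (nat_lit 6059341110) (nat_lit 152) (nat_lit 3121838511) (nat_lit 228) (nat_lit 6745835256) (nat_lit 38) (nat_lit 5) (nat_lit 40) (nat_lit 5) (nat_lit 41) (nat_lit 5) (nat_lit 647) (nat_lit 493) (nat_lit 420)) (XT.lf (nat_lit 0) (nat_lit 2003113235) (nat_lit 152) (nat_lit 13109218439) (nat_lit 228) (nat_lit 1003684479) (nat_lit 36) (nat_lit 5) (nat_lit 38) (nat_lit 5) (nat_lit 39) (nat_lit 4) (nat_lit 648) (nat_lit 493) (nat_lit 419))) (XT.nd (nat_lit 78) (nat_lit 152) (nat_lit 0) (XT.lf (nat_lit 0) (nat_lit 4835753827) (nat_lit 228) (nat_lit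 2191526968) (nat_lit 76) (nat_lit 9279964773) (nat_lit 35) (nat_lit 5) (nat_lit 38) (nat_lit 5) (nat_lit 36) (nat_lit 5) (nat_lit 649) (nat_lit 493) (nat_lit 418)) (XT.lf (nat_lit 0) (nat_lit 10018012824) (nat_lit 152) (nat_lit 785159691) (nat_lit 228) (nat_lit 5698502006) (nat_lit 33) (nat_lit 5) (nat_lit 35) (nat_lit 5) (nat_lit 36) (nat_lit 5) (nat_lit 650) (nat_lit 493) (nat_lit 417))))) (XT.nd (nat_lit 312) (nat_lit 2128) (nat_lit 0) (XT.nd (nat_lit 156) (nat_lit 1368) (nat_lit 0) (XT.nd (nat_lit 78) (nat_lit 76) (nat_lit 0) (XT.lf (nat_lit 0) (nat_lit 113462057) (nat_lit 760) (nat_lit 1876307815) (nat_lit 760) (nat_lit 1876307815) (nat_lit 351) (nat_lit 4) (nat_lit 361) (nat_lit 5) (nat_lit 361) (nat_lit 4) (nat_lit 572) (nat_lit 494) (nat_lit 494)) (XT.lf (nat_lit 0) (nat_lit 91154357) (nat_lit 836) (nat_lit 1159588025) (nat_lit 76) (nat_lit 6532145629) (nat_lit 350) (nat_lit 5) (nat_lit 361) (nat_lit 5) (nat_lit 351) (nat_lit 4) (nat_lit 573) (nat_lit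 494) (nat_lit 493))) (XT.nd (nat_lit 78) (nat_lit 684) (nat_lit 0) (XT.lf (nat_lit 0) (nat_lit 3936542935) (nat_lit 760) (nat_lit 2570469542) (nat_lit 0) (nat_lit 1327629007) (nat_lit 341) (nat_lit 5) (nat_lit 351) (nat_lit 4) (nat_lit 341) (nat_lit 4) (nat_lit 574) (nat_lit 494) (nat_lit 492)) (XT.lf (nat_lit 0) (nat_lit 3902823805) (nat_lit 684) (nat_lit 3930128572) (nat_lit 684) (nat_lit 54997439) (nat_lit 332) (nat_lit 4) (nat_lit 341) (nat_lit 5) (nat_lit 341) (nat_lit 4) (nat_lit 575) (nat_lit 494) (nat_lit 491)))) (XT.nd (nat_lit 156) (nat_lit 684) (nat_lit 0) (XT.nd (nat_lit 78) (nat_lit 684) (nat_lit 0) (XT.lf (nat_lit 0) (nat_lit 2521090288) (nat_lit 684) (nat_lit 1259905175) (nat_lit 760) (nat_lit 4161494557) (nat_lit 322) (nat_lit 5) (nat_lit 331) (nat_lit 5) (nat_lit 332) (nat_lit 4) (nat_lit 576) (nat_lit 494) (nat_lit 490)) (XT.lf (nat_lit 0) (nat_lit 1132816494) (nat_lit 684) (nat_lit 6537566174) (nat_lit 684) (nat_lit 328184805) (nat_lit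 313) (nat_lit 4) (nat_lit 322) (nat_lit 5) (nat_lit 322) (nat_lit 4) (nat_lit 577) (nat_lit 494) (nat_lit 489))) (XT.nd (nat_lit 78) (nat_lit 608) (nat_lit 0) (XT.lf (nat_lit 0) (nat_lit 3513723839) (nat_lit 760) (nat_lit 281448186) (nat_lit 76) (nat_lit 4260553033) (nat_lit 312) (nat_lit 5) (nat_lit 322) (nat_lit 5) (nat_lit 313) (nat_lit 4) (nat_lit 578) (nat_lit 494) (nat_lit 488)) (XT.lf (nat_lit 0) (nat_lit 6432242142) (nat_lit 608) (nat_lit 972839252) (nat_lit 684) (nat_lit 709362733) (nat_lit 304) (nat_lit 5) (nat_lit 312) (nat_lit 5) (nat_lit 313) (nat_lit 4) (nat_lit 579) (nat_lit 494) (nat_lit 487))))))))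
noncomputable def xc25 : XT := (XT.nd (nat_lit 2418) (nat_lit 6612) (nat_lit 0) (XT.nd (nat_lit 1170) (nat_lit 5320) (nat_lit 0) (XT.nd (nat_lit 546) (nat_lit 3572) (nat_lit 0) (XT.nd (nat_lit 234) (nat_lit 1824) (nat_lit 0) (XT.nd (nat_lit 78) (nat_lit 1292) (nat_lit 0) (XT.lf (nat_lit 0) (nat_lit 3140932636) (nat_lit 684) (nat_lit 3116479717) (nat_lit 76) (nat_lit 1916852020) (nat_lit 295) (nat_lit 5) (nat_lit 304) (nat_lit 5) (nat_lit 296) (nat_lit 4) (nat_lit 580) (nat_lit 494) (nat_lit 486)) (XT.nd (nat_lit 78) (nat_lit 684) (nat_lit 0) (XT.lf (nat_lit 0) (nat_lit 3671887230) (nat_lit 608) (nat_lit 3364625178) (nat_lit 684) (nat_lit 1199121019) (nat_lit 287) (nat_lit 5) (nat_lit 295) (nat_lit 5) (nat_lit 296) (nat_lit 4) (nat_lit 581) (nat_lit 494) (nat_lit 485)) (XT.lf (nat_lit 0) (nat_lit 2266780040) (nat_lit 608) (nat_lit 381601230) (nat_lit 684) (nat_lit 5650054655) (nat_lit 278) (nat_lit 5) (nat_lit 286) (nat_lit 5) (nat_lit 287) (nat_lit 5)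 (nat_lit 582) (nat_lit 494) (nat_lit 484)))) (XT.nd (nat_lit 156) (nat_lit 1216) (nat_lit 0) (XT.nd (nat_lit 78) (nat_lit 76) (nat_lit 0) (XT.lf (nat_lit 0) (nat_lit 833192861) (nat_lit 532) (nat_lit 5714068640) (nat_lit 608) (nat_lit 1815266383) (nat_lit 271) (nat_lit 5) (nat_lit 278) (nat_lit 5) (nat_lit 279) (nat_lit 4) (nat_lit 583) (nat_lit 494) (nat_lit 483)) (XT.lf (nat_lit 0) (nat_lit 2049215739) (nat_lit 608) (nat_lit 612877545) (nat_lit 76) (nat_lit 5765927946) (nat_lit 270) (nat_lit 5) (nat_lit 278) (nat_lit 5) (nat_lit 271) (nat_lit 5) (nat_lit 584) (nat_lit 494) (nat_lit 482))) (XT.nd (nat_lit 78) (nat_lit 608) (nat_lit 0) (XT.lf (nat_lit 0) (nat_lit 5950031357) (nat_lit 684) (nat_lit 2068687717) (nat_lit 76) (nat_lit 476199911) (nat_lit 262) (nat_lit 5) (nat_lit 271) (nat_lit 5) (nat_lit 263) (nat_lit 4) (nat_lit 585) (nat_lit 494) (nat_lit 481)) (XT.lf (nat_lit 0) (nat_lit 1341035193) (nat_lit 608) (nat_lit 3557944545) (nat_lit 76) (nat_lit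 3664134317) (nat_lit 254) (nat_lit 5) (nat_lit 262) (nat_lit 5) (nat_lit 255) (nat_lit 5) (nat_lit 586) (nat_lit 494) (nat_lit 480))))) (XT.nd (nat_lit 312) (nat_lit 1976) (nat_lit 0) (XT.nd (nat_lit 156) (nat_lit 532) (nat_lit 0) (XT.nd (nat_lit 78) (nat_lit 532) (nat_lit 0) (XT.lf (nat_lit 0) (nat_lit 3560357399) (nat_lit 532) (nat_lit 1686569369) (nat_lit 608) (nat_lit 3385884737) (nat_lit 247) (nat_lit 5) (nat_lit 254) (nat_lit 5) (nat_lit 255) (nat_lit 5) (nat_lit 587) (nat_lit 494) (nat_lit 479)) (XT.lf (nat_lit 0) (nat_lit 507693205) (nat_lit 532) (nat_lit 6610666728) (nat_lit 76) (nat_lit 1585724472) (nat_lit 240) (nat_lit 5) (nat_lit 247) (nat_lit 5) (nat_lit 241) (nat_lit 5) (nat_lit 588) (nat_lit 494) (nat_lit 478))) (XT.nd (nat_lit 78) (nat_lit 0) (nat_lit 0) (XT.lf (nat_lit 0) (nat_lit 582833066) (nat_lit 532) (nat_lit 3840147463) (nat_lit 608) (nat_lit 4353572477) (nat_lit 233) (nat_lit 5) (nat_lit 240) (nat_lit 5) (nat_lit 241) (nat_lit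 5) (nat_lit 589) (nat_lit 494) (nat_lit 477)) (XT.lf (nat_lit 0) (nat_lit 7924123240) (nat_lit 532) (nat_lit 477347917) (nat_lit 608) (nat_lit 449303200) (nat_lit 233) (nat_lit 5) (nat_lit 240) (nat_lit 5) (nat_lit 241) (nat_lit 5) (nat_lit 590) (nat_lit 494) (nat_lit 476)))) (XT.nd (nat_lit 156) (nat_lit 988) (nat_lit 0) (XT.nd (nat_lit 78) (nat_lit 456) (nat_lit 0) (XT.lf (nat_lit 0) (nat_lit 3489421918) (nat_lit 532) (nat_lit 2482997465) (nat_lit 76) (nat_lit 2953549109) (nat_lit 226) (nat_lit 5) (nat_lit 233) (nat_lit 5) (nat_lit 227) (nat_lit 5) (nat_lit 591) (nat_lit 494) (nat_lit 475)) (XT.lf (nat_lit 0) (nat_lit 4943435383) (nat_lit 456) (nat_lit 2540741511) (nat_lit 532) (nat_lit 1518766037) (nat_lit 220) (nat_lit 5) (nat_lit 226) (nat_lit 5) (nat_lit 227) (nat_lit 5) (nat_lit 592) (nat_lit 494) (nat_lit 474))) (XT.nd (nat_lit 78) (nat_lit 456) (nat_lit 0) (XT.lf (nat_lit 0) (nat_lit 2432193169) (nat_lit 532) (nat_lit 5673860061) (nat_lit 76)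 (nat_lit 975336852) (nat_lit 213) (nat_lit 5) (nat_lit 220) (nat_lit 5) (nat_lit 214) (nat_lit 5) (nat_lit 593) (nat_lit 494) (nat_lit 473)) (XT.lf (nat_lit 0) (nat_lit 1829152599) (nat_lit 456) (nat_lit 4611193199) (nat_lit 532) (nat_lit 2720890567) (nat_lit 207) (nat_lit 5) (nat_lit 213) (nat_lit 5) (nat_lit 214) (nat_lit 5) (nat_lit 594) (nat_lit 494) (nat_lit 472)))))) (XT.nd (nat_lit 624) (nat_lit 2660) (nat_lit 0) (XT.nd (nat_lit 312) (nat_lit 1292) (nat_lit 0) (XT.nd (nat_lit 156) (nat_lit 912) (nat_lit 0) (XT.nd (nat_lit 78) (nat_lit 0) (nat_lit 0) (XT.lf (nat_lit 0) (nat_lit 225527507) (nat_lit 380) (nat_lit 1025944358) (nat_lit 456) (nat_lit 7991394734) (nat_lit 201) (nat_lit 5) (nat_lit 206) (nat_lit 5) (nat_lit 207) (nat_lit 5) (nat_lit 595) (nat_lit 494) (nat_lit 471)) (XT.lf (nat_lit 0) (nat_lit 5276443340) (nat_lit 456) (nat_lit 1413326627) (nat_lit 76) (nat_lit 2635808992) (nat_lit 201) (nat_lit 5) (nat_lit 207) (nat_lit 5) (nat_lit 202)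 (nat_lit 5) (nat_lit 596) (nat_lit 494) (nat_lit 470))) (XT.nd (nat_lit 78) (nat_lit 456) (nat_lit 0) (XT.lf (nat_lit 0) (nat_lit 6334308805) (nat_lit 456) (nat_lit 3039595146) (nat_lit 532) (nat_lit 36202908) (nat_lit 195) (nat_lit 5) (nat_lit 201) (nat_lit 5) (nat_lit 202) (nat_lit 5) (nat_lit 597) (nat_lit 494) (nat_lit 469)) (XT.lf (nat_lit 0) (nat_lit 3992850360) (nat_lit 456) (nat_lit 4790430760) (nat_lit 76) (nat_lit 712737030) (nat_lit 189) (nat_lit 5) (nat_lit 195) (nat_lit 5) (nat_lit 190) (nat_lit 5) (nat_lit 598) (nat_lit 494) (nat_lit 468)))) (XT.nd (nat_lit 156) (nat_lit 456) (nat_lit 0) (XT.nd (nat_lit 78) (nat_lit 456) (nat_lit 0) (XT.lf (nat_lit 0) (nat_lit 3035078279) (nat_lit 380) (nat_lit 5072141726) (nat_lit 456) (nat_lit 1476319502) (nat_lit 184) (nat_lit 5) (nat_lit 189) (nat_lit 5) (nat_lit 190) (nat_lit 5) (nat_lit 599) (nat_lit 494) (nat_lit 467)) (XT.lf (nat_lit 0) (nat_lit 1324486216) (nat_lit 380) (nat_lit 1257810268) (nat_lit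 456) (nat_lit 7090459388) (nat_lit 178) (nat_lit 5) (nat_lit 183) (nat_lit 5) (nat_lit 184) (nat_lit 5) (nat_lit 600) (nat_lit 494) (nat_lit 466))) (XT.nd (nat_lit 78) (nat_lit 456) (nat_lit 0) (XT.lf (nat_lit 0) (nat_lit 6708778413) (nat_lit 456) (nat_lit 432171165) (nat_lit 76) (nat_lit 2622483553) (nat_lit 178) (nat_lit 5) (nat_lit 184) (nat_lit 5) (nat_lit 179) (nat_lit 5) (nat_lit 601) (nat_lit 494) (nat_lit 465)) (XT.lf (nat_lit 0) (nat_lit 1052156651) (nat_lit 456) (nat_lit 2212618848) (nat_lit 76) (nat_lit 6590927135) (nat_lit 172) (nat_lit 5) (nat_lit 178) (nat_lit 5) (nat_lit 173) (nat_lit 5) (nat_lit 602) (nat_lit 494) (nat_lit 464))))) (XT.nd (nat_lit 312) (nat_lit 1140) (nat_lit 0) (XT.nd (nat_lit 156) (nat_lit 760) (nat_lit 0) (XT.nd (nat_lit 78) (nat_lit 380) (nat_lit 0) (XT.lf (nat_lit 0) (nat_lit 5192555507) (nat_lit 456) (nat_lit 4045421024) (nat_lit 76) (nat_lit 711591021) (nat_lit 167) (nat_lit 5) (nat_lit 173) (nat_lit 5) (nat_lit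 168) (nat_lit 5) (nat_lit 603) (nat_lit 494) (nat_lit 463)) (XT.lf (nat_lit 0) (nat_lit 4115909026) (nat_lit 380) (nat_lit 5309803063) (nat_lit 456) (nat_lit 619399577) (nat_lit 162) (nat_lit 5) (nat_lit 167) (nat_lit 5) (nat_lit 168) (nat_lit 5) (nat_lit 604) (nat_lit 494) (nat_lit 462))) (XT.nd (nat_lit 78) (nat_lit 380) (nat_lit 0) (XT.lf (nat_lit 0) (nat_lit 2274822946) (nat_lit 304) (nat_lit 1267820133) (nat_lit 380) (nat_lit 6599678740) (nat_lit 157) (nat_lit 5) (nat_lit 161) (nat_lit 5) (nat_lit 162) (nat_lit 5) (nat_lit 605) (nat_lit 494) (nat_lit 461)) (XT.lf (nat_lit 0) (nat_lit 379674234) (nat_lit 380) (nat_lit 7408120556) (nat_lit 456) (nat_lit 2453437103) (nat_lit 152) (nat_lit 5) (nat_lit 157) (nat_lit 5) (nat_lit 158) (nat_lit 5) (nat_lit 606) (nat_lit 494) (nat_lit 460)))) (XT.nd (nat_lit 156) (nat_lit 760) (nat_lit 0) (XT.nd (nat_lit 78) (nat_lit 304) (nat_lit 0) (XT.lf (nat_lit 0) (nat_lit 1761223120) (nat_lit 456) (nat_lit 1548068768)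 (nat_lit 76) (nat_lit 7032422852) (nat_lit 151) (nat_lit 5) (nat_lit 157) (nat_lit 5) (nat_lit 152) (nat_lit 5) (nat_lit 607) (nat_lit 494) (nat_lit 459)) (XT.lf (nat_lit 0) (nat_lit 6026436543) (nat_lit 380) (nat_lit 3527137477) (nat_lit 76) (nat_lit 890327440) (nat_lit 147) (nat_lit 5) (nat_lit 152) (nat_lit 5) (nat_lit 148) (nat_lit 5) (nat_lit 608) (nat_lit 494) (nat_lit 458))) (XT.nd (nat_lit 78) (nat_lit 380) (nat_lit 0) (XT.lf (nat_lit 0) (nat_lit 4983562407) (nat_lit 380) (nat_lit 5406667624) (nat_lit 456) (nat_lit 157637146) (nat_lit 142) (nat_lit 5) (nat_lit 147) (nat_lit 5) (nat_lit 148) (nat_lit 5) (nat_lit 609) (nat_lit 494) (nat_lit 457)) (XT.lf (nat_lit 0) (nat_lit 2986778120) (nat_lit 304) (nat_lit 1137584979) (nat_lit 380) (nat_lit 6529168226) (nat_lit 137) (nat_lit 5) (nat_lit 141) (nat_lit 5) (nat_lit 142) (nat_lit 5) (nat_lit 610) (nat_lit 494) (nat_lit 456))))))) (XT.nd (nat_lit 1170) (nat_lit 2888) (nat_lit 0) (XT.nd (nat_lit 546)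 (nat_lit 1976) (nat_lit 0) (XT.nd (nat_lit 234) (nat_lit 1064) (nat_lit 0) (XT.nd (nat_lit 78) (nat_lit 380) (nat_lit 0) (XT.lf (nat_lit 0) (nat_lit 929607227) (nat_lit 304) (nat_lit 7573726451) (nat_lit 380) (nat_lit 2257686149) (nat_lit 133) (nat_lit 5) (nat_lit 137) (nat_lit 5) (nat_lit 138) (nat_lit 5) (nat_lit 611) (nat_lit 494) (nat_lit 455)) (XT.nd (nat_lit 78) (nat_lit 304) (nat_lit 0) (XT.lf (nat_lit 0) (nat_lit 2080069559) (nat_lit 380) (nat_lit 1173591191) (nat_lit 76) (nat_lit 7616557950) (nat_lit 132) (nat_lit 5) (nat_lit 137) (nat_lit 5) (nat_lit 133) (nat_lit 5) (nat_lit 612) (nat_lit 494) (nat_lit 454)) (XT.lf (nat_lit 0) (nat_lit 6481867150) (nat_lit 380) (nat_lit 3328732797) (nat_lit 76) (nat_lit 1170553482) (nat_lit 128) (nat_lit 5) (nat_lit 133) (nat_lit 5) (nat_lit 129) (nat_lit 5) (nat_lit 613) (nat_lit 494) (nat_lit 453)))) (XT.nd (nat_lit 156) (nat_lit 380) (nat_lit 0) (XT.nd (nat_lit 78) (nat_lit 380) (nat_lit 0) (XT.lf (nat_lit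 0) (nat_lit 5544974552) (nat_lit 304) (nat_lit 5442490014) (nat_lit 380) (nat_lit 106527687) (nat_lit 124) (nat_lit 5) (nat_lit 128) (nat_lit 5) (nat_lit 129) (nat_lit 5) (nat_lit 614) (nat_lit 494) (nat_lit 452)) (XT.lf (nat_lit 0) (nat_lit 3365249692) (nat_lit 304) (nat_lit 946204949) (nat_lit 380) (nat_lit 6897171164) (nat_lit 119) (nat_lit 5) (nat_lit 123) (nat_lit 5) (nat_lit 124) (nat_lit 5) (nat_lit 615) (nat_lit 494) (nat_lit 451))) (XT.nd (nat_lit 78) (nat_lit 76) (nat_lit 0) (XT.lf (nat_lit 0) (nat_lit 1115054715) (nat_lit 304) (nat_lit 7720295201) (nat_lit 380) (nat_lit 2489809073) (nat_lit 115) (nat_lit 5) (nat_lit 119) (nat_lit 5) (nat_lit 120) (nat_lit 5) (nat_lit 616) (nat_lit 494) (nat_lit 450)) (XT.lf (nat_lit 0) (nat_lit 1989371886) (nat_lit 380) (nat_lit 1186939744) (nat_lit 76) (nat_lit 8267251839) (nat_lit 114) (nat_lit 5) (nat_lit 119) (nat_lit 5) (nat_lit 115) (nat_lit 5) (nat_lit 617) (nat_lit 494) (nat_lit 449))))) (XT.nd (nat_lit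 312) (nat_lit 836) (nat_lit 0) (XT.nd (nat_lit 156) (nat_lit 608) (nat_lit 0) (XT.nd (nat_lit 78) (nat_lit 304) (nat_lit 0) (XT.lf (nat_lit 0) (nat_lit 6538326950) (nat_lit 304) (nat_lit 3549878324) (nat_lit 76) (nat_lit 1475531631) (nat_lit 111) (nat_lit 5) (nat_lit 115) (nat_lit 5) (nat_lit 112) (nat_lit 5) (nat_lit 618) (nat_lit 494) (nat_lit 448)) (XT.lf (nat_lit 0) (nat_lit 5700404304) (nat_lit 304) (nat_lit 5495819877) (nat_lit 380) (nat_lit 489730959) (nat_lit 107) (nat_lit 5) (nat_lit 111) (nat_lit 5) (nat_lit 112) (nat_lit 5) (nat_lit 619) (nat_lit 494) (nat_lit 447))) (XT.nd (nat_lit 78) (nat_lit 304) (nat_lit 0) (XT.lf (nat_lit 0) (nat_lit 3308063889) (nat_lit 228) (nat_lit 771800143) (nat_lit 304) (nat_lit 7730268003) (nat_lit 103) (nat_lit 5) (nat_lit 106) (nat_lit 5) (nat_lit 107) (nat_lit 5) (nat_lit 620) (nat_lit 494) (nat_lit 446)) (XT.lf (nat_lit 0) (nat_lit 831651300) (nat_lit 304) (nat_lit 7926944670) (nat_lit 380) (nat_lit 3177646262)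 (nat_lit 99) (nat_lit 5) (nat_lit 103) (nat_lit 5) (nat_lit 104) (nat_lit 5) (nat_lit 621) (nat_lit 494) (nat_lit 445)))) (XT.nd (nat_lit 156) (nat_lit 532) (nat_lit 0) (XT.nd (nat_lit 78) (nat_lit 228) (nat_lit 0) (XT.lf (nat_lit 0) (nat_lit 1461626850) (nat_lit 380) (nat_lit 1693712566) (nat_lit 76) (nat_lit 8909048859) (nat_lit 98) (nat_lit 5) (nat_lit 103) (nat_lit 5) (nat_lit 99) (nat_lit 5) (nat_lit 622) (nat_lit 494) (nat_lit 444)) (XT.lf (nat_lit 0) (nat_lit 6167108823) (nat_lit 304) (nat_lit 4298563727) (nat_lit 76) (nat_lit 1728685685) (nat_lit 95) (nat_lit 5) (nat_lit 99) (nat_lit 5) (nat_lit 96) (nat_lit 5) (nat_lit 623) (nat_lit 494) (nat_lit 443))) (XT.nd (nat_lit 78) (nat_lit 304) (nat_lit 0) (XT.lf (nat_lit 0) (nat_lit 5341604813) (nat_lit 228) (nat_lit 5645511472) (nat_lit 304) (nat_lit 1339403506) (nat_lit 92) (nat_lit 5) (nat_lit 95) (nat_lit 5) (nat_lit 96) (nat_lit 5) (nat_lit 624) (nat_lit 494) (nat_lit 442)) (XT.lf (nat_lit 0) (nat_lit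 2704105174) (nat_lit 228) (nat_lit 693025835) (nat_lit 304) (nat_lit 9063745546) (nat_lit 88) (nat_lit 5) (nat_lit 91) (nat_lit 5) (nat_lit 92) (nat_lit 5) (nat_lit 625) (nat_lit 494) (nat_lit 441)))))) (XT.nd (nat_lit 624) (nat_lit 1368) (nat_lit 0) (XT.nd (nat_lit 312) (nat_lit 760) (nat_lit 0) (XT.nd (nat_lit 156) (nat_lit 456) (nat_lit 0) (XT.nd (nat_lit 78) (nat_lit 304) (nat_lit 0) (XT.lf (nat_lit 0) (nat_lit 8239610585) (nat_lit 304) (nat_lit 33958927) (nat_lit 76) (nat_lit 4323591378) (nat_lit 88) (nat_lit 5) (nat_lit 92) (nat_lit 5) (nat_lit 89) (nat_lit 5) (nat_lit 626) (nat_lit 494) (nat_lit 440)) (XT.lf (nat_lit 0) (nat_lit 460735767) (nat_lit 304) (nat_lit 2809278578) (nat_lit 76) (nat_lit 9465624057) (nat_lit 84) (nat_lit 5) (nat_lit 88) (nat_lit 5) (nat_lit 85) (nat_lit 5) (nat_lit 627) (nat_lit 494) (nat_lit 439))) (XT.nd (nat_lit 78) (nat_lit 228) (nat_lit 0) (XT.lf (nat_lit 0) (nat_lit 5330865272) (nat_lit 304) (nat_lit 5693063514) (nat_lit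 76) (nat_lit 1852104560) (nat_lit 81) (nat_lit 5) (nat_lit 85) (nat_lit 5) (nat_lit 82) (nat_lit 5) (nat_lit 628) (nat_lit 494) (nat_lit 438)) (XT.lf (nat_lit 0) (nat_lit 4349821840) (nat_lit 228) (nat_lit 5972243925) (nat_lit 304) (nat_lit 2696697502) (nat_lit 78) (nat_lit 5) (nat_lit 81) (nat_lit 5) (nat_lit 82) (nat_lit 5) (nat_lit 629) (nat_lit 494) (nat_lit 437)))) (XT.nd (nat_lit 156) (nat_lit 456) (nat_lit 0) (XT.nd (nat_lit 78) (nat_lit 0) (nat_lit 0) (XT.lf (nat_lit 0) (nat_lit 1431263601) (nat_lit 228) (nat_lit 790604333) (nat_lit 304) (nat_lit 10942135915) (nat_lit 74) (nat_lit 5) (nat_lit 77) (nat_lit 5) (nat_lit 78) (nat_lit 5) (nat_lit 630) (nat_lit 494) (nat_lit 436)) (XT.lf (nat_lit 0) (nat_lit 7245485423) (nat_lit 304) (nat_lit 1587382778) (nat_lit 76) (nat_lit 4478069166) (nat_lit 74) (nat_lit 5) (nat_lit 78) (nat_lit 5) (nat_lit 75) (nat_lit 5) (nat_lit 631) (nat_lit 494) (nat_lit 435))) (XT.nd (nat_lit 78) (nat_lit 228) (nat_lit 0)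 (XT.lf (nat_lit 0) (nat_lit 8792577015) (nat_lit 228) (nat_lit 3595218330) (nat_lit 304) (nat_lit 1072650223) (nat_lit 71) (nat_lit 5) (nat_lit 74) (nat_lit 5) (nat_lit 75) (nat_lit 5) (nat_lit 632) (nat_lit 494) (nat_lit 434)) (XT.lf (nat_lit 0) (nat_lit 3982981871) (nat_lit 228) (nat_lit 7864114972) (nat_lit 76) (nat_lit 1765011526) (nat_lit 68) (nat_lit 5) (nat_lit 71) (nat_lit 5) (nat_lit 69) (nat_lit 5) (nat_lit 633) (nat_lit 494) (nat_lit 433))))) (XT.nd (nat_lit 312) (nat_lit 684) (nat_lit 0) (XT.nd (nat_lit 156) (nat_lit 380) (nat_lit 0) (XT.nd (nat_lit 78) (nat_lit 76) (nat_lit 0) (XT.lf (nat_lit 0) (nat_lit 2593573057) (nat_lit 228) (nat_lit 6560085141) (nat_lit 304) (nat_lit 4612438926) (nat_lit 65) (nat_lit 5) (nat_lit 68) (nat_lit 5) (nat_lit 69) (nat_lit 5) (nat_lit 634) (nat_lit 494) (nat_lit 432)) (XT.lf (nat_lit 0) (nat_lit 507252711) (nat_lit 304) (nat_lit 637377108) (nat_lit 76) (nat_lit 12778284926) (nat_lit 64) (nat_lit 5) (nat_lit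 68) (nat_lit 5) (nat_lit 65) (nat_lit 5) (nat_lit 635) (nat_lit 494) (nat_lit 431))) (XT.nd (nat_lit 78) (nat_lit 228) (nat_lit 0) (XT.lf (nat_lit 0) (nat_lit 5719304439) (nat_lit 228) (nat_lit 3976932035) (nat_lit 76) (nat_lit 4384988311) (nat_lit 62) (nat_lit 5) (nat_lit 65) (nat_lit 5) (nat_lit 63) (nat_lit 5) (nat_lit 636) (nat_lit 494) (nat_lit 430)) (XT.lf (nat_lit 0) (nat_lit 6831569897) (nat_lit 228) (nat_lit 4217418479) (nat_lit 304) (nat_lit 3193445184) (nat_lit 59) (nat_lit 5) (nat_lit 62) (nat_lit 5) (nat_lit 63) (nat_lit 5) (nat_lit 637) (nat_lit 494) (nat_lit 429)))) (XT.nd (nat_lit 156) (nat_lit 456) (nat_lit 0) (XT.nd (nat_lit 78) (nat_lit 0) (nat_lit 0) (XT.lf (nat_lit 0) (nat_lit 2066761517) (nat_lit 228) (nat_lit 10957358199) (nat_lit 76) (nat_lit 1382164842) (nat_lit 56) (nat_lit 5) (nat_lit 59) (nat_lit 5) (nat_lit 57) (nat_lit 5) (nat_lit 638) (nat_lit 494) (nat_lit 428)) (XT.lf (nat_lit 0) (nat_lit 7424770061) (nat_lit 228) (nat_lit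 72875172) (nat_lit 76) (nat_lit 7074638348) (nat_lit 56) (nat_lit 5) (nat_lit 59) (nat_lit 5) (nat_lit 57) (nat_lit 5) (nat_lit 639) (nat_lit 494) (nat_lit 427))) (XT.nd (nat_lit 78) (nat_lit 228) (nat_lit 0) (XT.lf (nat_lit 0) (nat_lit 11098962706) (nat_lit 228) (nat_lit 1821202510) (nat_lit 304) (nat_lit 1820833172) (nat_lit 53) (nat_lit 5) (nat_lit 56) (nat_lit 5) (nat_lit 57) (nat_lit 5) (nat_lit 640) (nat_lit 494) (nat_lit 426)) (XT.lf (nat_lit 0) (nat_lit 3598975312) (nat_lit 228) (nat_lit 7356314549) (nat_lit 76) (nat_lit 3956649440) (nat_lit 50) (nat_lit 5) (nat_lit 53) (nat_lit 5) (nat_lit 51) (nat_lit 5) (nat_lit 641) (nat_lit 494) (nat_lit 425))))))))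
noncomputable def xc26 : XT := (XT.nd (nat_lit 77298) (nat_lit 0) (nat_lit 4940) (XT.nd (nat_lit 76050) (nat_lit 0) (nat_lit 14668) (XT.nd (nat_lit 546) (nat_lit 380) (nat_lit 0) (XT.nd (nat_lit 234) (nat_lit 532) (nat_lit 0) (XT.nd (nat_lit 78) (nat_lit 228) (nat_lit 0) (XT.lf (nat_lit 0) (nat_lit 3891488456) (nat_lit 152) (nat_lit 5231590937) (nat_lit 228) (nat_lit 5962573629) (nat_lit 48) (nat_lit 5) (nat_lit 50) (nat_lit 5) (nat_lit 51) (nat_lit 5) (nat_lit 642) (nat_lit 494) (nat_lit 424)) (XT.nd (nat_lit 78) (nat_lit 76) (nat_lit 0) (XT.lf (nat_lit 0) (nat_lit 123292998) (nat_lit 152) (nat_lit 14647236039) (nat_lit 228) (nat_lit 492055017) (nat_lit 46) (nat_lit 5) (nat_lit 48) (nat_lit 5) (nat_lit 49) (nat_lit 4) (nat_lit 643) (nat_lit 494) (nat_lit 423)) (XT.lf (nat_lit 0) (nat_lit 5089891401) (nat_lit 228) (nat_lit 3767109651) (nat_lit 76) (nat_lit 6584017357) (nat_lit 45) (nat_lit 5) (nat_lit 48) (nat_lit 5) (nat_lit 46) (nat_lit 5) (nat_lit 644)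 (nat_lit 494) (nat_lit 422)))) (XT.nd (nat_lit 156) (nat_lit 152) (nat_lit 0) (XT.nd (nat_lit 78) (nat_lit 228) (nat_lit 0) (XT.lf (nat_lit 0) (nat_lit 7857584636) (nat_lit 152) (nat_lit 2929623667) (nat_lit 228) (nat_lit 4835541984) (nat_lit 43) (nat_lit 5) (nat_lit 45) (nat_lit 5) (nat_lit 46) (nat_lit 5) (nat_lit 645) (nat_lit 494) (nat_lit 421)) (XT.lf (nat_lit 0) (nat_lit 810678726) (nat_lit 228) (nat_lit 11898500591) (nat_lit 76) (nat_lit 3098221340) (nat_lit 40) (nat_lit 5) (nat_lit 43) (nat_lit 5) (nat_lit 41) (nat_lit 5) (nat_lit 646) (nat_lit 494) (nat_lit 420))) (XT.nd (nat_lit 78) (nat_lit 152) (nat_lit 0) (XT.lf (nat_lit 0) (nat_lit 6536431589) (nat_lit 228) (nat_lit 199635344) (nat_lit 76) (nat_lit 9258411003) (nat_lit 40) (nat_lit 5) (nat_lit 43) (nat_lit 5) (nat_lit 41) (nat_lit 5) (nat_lit 647) (nat_lit 494) (nat_lit 419)) (XT.lf (nat_lit 0) (nat_lit 11814758505) (nat_lit 152) (nat_lit 598885745) (nat_lit 228) (nat_lit 3770913881) (nat_lit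 38) (nat_lit 5) (nat_lit 40) (nat_lit 5) (nat_lit 41) (nat_lit 5) (nat_lit 648) (nat_lit 494) (nat_lit 418))))) (XT.nd (nat_lit 75192) (nat_lit 0) (nat_lit 22648) (XT.nd (nat_lit 75036) (nat_lit 0) (nat_lit 24928) (XT.nd (nat_lit 78) (nat_lit 152) (nat_lit 0) (XT.lf (nat_lit 0) (nat_lit 2051977228) (nat_lit 228) (nat_lit 8706714768) (nat_lit 76) (nat_lit 5618511808) (nat_lit 35) (nat_lit 5) (nat_lit 38) (nat_lit 5) (nat_lit 36) (nat_lit 5) (nat_lit 649) (nat_lit 494) (nat_lit 417)) (XT.lf (nat_lit 0) (nat_lit 3379354800) (nat_lit 152) (nat_lit 4577318473) (nat_lit 228) (nat_lit 8616214062) (nat_lit 33) (nat_lit 5) (nat_lit 35) (nat_lit 5) (nat_lit 36) (nat_lit 5) (nat_lit 650) (nat_lit 494) (nat_lit 416))) (XT.nd (nat_lit 78) (nat_lit 836) (nat_lit 0) (XT.lf (nat_lit 0) (nat_lit 1531134092) (nat_lit 760) (nat_lit 1142979580) (nat_lit 760) (nat_lit 1142979580) (nat_lit 372) (nat_lit 4) (nat_lit 382) (nat_lit 5) (nat_lit 382) (nat_lit 4) (nat_lit 570) (nat_lit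 495) (nat_lit 495)) (XT.lf (nat_lit 0) (nat_lit 1503003897) (nat_lit 836) (nat_lit 6047550117) (nat_lit 0) (nat_lit 132409674) (nat_lit 361) (nat_lit 5) (nat_lit 372) (nat_lit 4) (nat_lit 361) (nat_lit 4) (nat_lit 571) (nat_lit 495) (nat_lit 494)))) (XT.nd (nat_lit 156) (nat_lit 1444) (nat_lit 0) (XT.nd (nat_lit 78) (nat_lit 76) (nat_lit 0) (XT.lf (nat_lit 0) (nat_lit 184868528) (nat_lit 760) (nat_lit 5131142220) (nat_lit 760) (nat_lit 2416828169) (nat_lit 351) (nat_lit 4) (nat_lit 361) (nat_lit 5) (nat_lit 361) (nat_lit 4) (nat_lit 572) (nat_lit 495) (nat_lit 493)) (XT.lf (nat_lit 0) (nat_lit 1375745994) (nat_lit 836) (nat_lit 1252679521) (nat_lit 76) (nat_lit 5155647153) (nat_lit 350) (nat_lit 5) (nat_lit 361) (nat_lit 5) (nat_lit 351) (nat_lit 4) (nat_lit 573) (nat_lit 495) (nat_lit 492))) (XT.nd (nat_lit 78) (nat_lit 760) (nat_lit 0) (XT.lf (nat_lit 0) (nat_lit 5137347057) (nat_lit 684) (nat_lit 41155435) (nat_lit 760) (nat_lit 2658177306) (nat_lit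 341) (nat_lit 5) (nat_lit 350) (nat_lit 5) (nat_lit 351) (nat_lit 4) (nat_lit 574) (nat_lit 495) (nat_lit 491)) (XT.lf (nat_lit 0) (nat_lit 1135088185) (nat_lit 760) (nat_lit 4167362241) (nat_lit 76) (nat_lit 2588070718) (nat_lit 331) (nat_lit 5) (nat_lit 341) (nat_lit 5) (nat_lit 332) (nat_lit 4) (nat_lit 575) (nat_lit 495) (nat_lit 490)))))) (XT.nd (nat_lit 624) (nat_lit 3420) (nat_lit 0) (XT.nd (nat_lit 312) (nat_lit 2432) (nat_lit 0) (XT.nd (nat_lit 156) (nat_lit 684) (nat_lit 0) (XT.nd (nat_lit 78) (nat_lit 760) (nat_lit 0) (XT.lf (nat_lit 0) (nat_lit 2294163194) (nat_lit 684) (nat_lit 2642199190) (nat_lit 760) (nat_lit 3009372727) (nat_lit 322) (nat_lit 5) (nat_lit 331) (nat_lit 5) (nat_lit 332) (nat_lit 4) (nat_lit 576) (nat_lit 495) (nat_lit 489)) (XT.lf (nat_lit 0) (nat_lit 769930572) (nat_lit 760) (nat_lit 7141282963) (nat_lit 76) (nat_lit 91356966) (nat_lit 312) (nat_lit 5) (nat_lit 322) (nat_lit 5) (nat_lit 313) (nat_lit 4) (nat_lit 577) (nat_lit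 495) (nat_lit 488))) (XT.nd (nat_lit 78) (nat_lit 684) (nat_lit 0) (XT.lf (nat_lit 0) (nat_lit 4575474937) (nat_lit 760) (nat_lit 600935281) (nat_lit 76) (nat_lit 2883917356) (nat_lit 312) (nat_lit 5) (nat_lit 322) (nat_lit 5) (nat_lit 313) (nat_lit 4) (nat_lit 578) (nat_lit 495) (nat_lit 487)) (XT.lf (nat_lit 0) (nat_lit 309196737) (nat_lit 684) (nat_lit 2054797708) (nat_lit 76) (nat_lit 5755688462) (nat_lit 303) (nat_lit 5) (nat_lit 312) (nat_lit 5) (nat_lit 304) (nat_lit 5) (nat_lit 579) (nat_lit 495) (nat_lit 486)))) (XT.nd (nat_lit 156) (nat_lit 1216) (nat_lit 0) (XT.nd (nat_lit 78) (nat_lit 608) (nat_lit 0) (XT.lf (nat_lit 0) (nat_lit 4107065989) (nat_lit 684) (nat_lit 3537136086) (nat_lit 76) (nat_lit 536072269) (nat_lit 295) (nat_lit 5) (nat_lit 304) (nat_lit 5) (nat_lit 296) (nat_lit 4) (nat_lit 580) (nat_lit 495) (nat_lit 485)) (XT.lf (nat_lit 0) (nat_lit 3203654489) (nat_lit 608) (nat_lit 4764948375) (nat_lit 684) (nat_lit 273722225) (nat_lit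 287) (nat_lit 5) (nat_lit 295) (nat_lit 5) (nat_lit 296) (nat_lit 4) (nat_lit 581) (nat_lit 495) (nat_lit 484))) (XT.nd (nat_lit 78) (nat_lit 532) (nat_lit 0) (XT.lf (nat_lit 0) (nat_lit 1737329689) (nat_lit 608) (nat_lit 1790010017) (nat_lit 684) (nat_lit 4778354587) (nat_lit 278) (nat_lit 5) (nat_lit 286) (nat_lit 5) (nat_lit 287) (nat_lit 5) (nat_lit 582) (nat_lit 495) (nat_lit 483)) (XT.lf (nat_lit 0) (nat_lit 256219631) (nat_lit 532) (nat_lit 7126510979) (nat_lit 608) (nat_lit 987926215) (nat_lit 271) (nat_lit 5) (nat_lit 278) (nat_lit 5) (nat_lit 279) (nat_lit 4) (nat_lit 583) (nat_lit 495) (nat_lit 482))))) (XT.nd (nat_lit 312) (nat_lit 1596) (nat_lit 0) (XT.nd (nat_lit 156) (nat_lit 1140) (nat_lit 0) (XT.nd (nat_lit 78) (nat_lit 608) (nat_lit 0) (XT.lf (nat_lit 0) (nat_lit 2835235168) (nat_lit 608) (nat_lit 1245323495) (nat_lit 76) (nat_lit 4356094230) (nat_lit 270) (nat_lit 5) (nat_lit 278) (nat_lit 5) (nat_lit 271) (nat_lit 5) (nat_lit 584) (nat_lit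 495) (nat_lit 481)) (XT.lf (nat_lit 0) (nat_lit 5746879991) (nat_lit 608) (nat_lit 951733780) (nat_lit 684) (nat_lit 1805686357) (nat_lit 262) (nat_lit 5) (nat_lit 270) (nat_lit 5) (nat_lit 271) (nat_lit 5) (nat_lit 585) (nat_lit 495) (nat_lit 480))) (XT.nd (nat_lit 78) (nat_lit 532) (nat_lit 0) (XT.lf (nat_lit 0) (nat_lit 2029704431) (nat_lit 608) (nat_lit 4306239207) (nat_lit 76) (nat_lit 2237273031) (nat_lit 254) (nat_lit 5) (nat_lit 262) (nat_lit 5) (nat_lit 255) (nat_lit 5) (nat_lit 586) (nat_lit 495) (nat_lit 479)) (XT.lf (nat_lit 0) (nat_lit 2760049404) (nat_lit 532) (nat_lit 3140843758) (nat_lit 608) (nat_lit 2742715709) (nat_lit 247) (nat_lit 5) (nat_lit 254) (nat_lit 5) (nat_lit 255) (nat_lit 5) (nat_lit 587) (nat_lit 495) (nat_lit 478)))) (XT.nd (nat_lit 156) (nat_lit 1064) (nat_lit 0) (XT.nd (nat_lit 78) (nat_lit 0) (nat_lit 0) (XT.lf (nat_lit 0) (nat_lit 1097868089) (nat_lit 532) (nat_lit 7480854969) (nat_lit 76) (nat_lit 136967044) (nat_lit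 240) (nat_lit 5) (nat_lit 247) (nat_lit 5) (nat_lit 241) (nat_lit 5) (nat_lit 588) (nat_lit 495) (nat_lit 477)) (XT.lf (nat_lit 0) (nat_lit 4980209321) (nat_lit 532) (nat_lit 336863054) (nat_lit 76) (nat_lit 3471745908) (nat_lit 240) (nat_lit 5) (nat_lit 247) (nat_lit 5) (nat_lit 241) (nat_lit 5) (nat_lit 589) (nat_lit 495) (nat_lit 476))) (XT.nd (nat_lit 78) (nat_lit 456) (nat_lit 0) (XT.lf (nat_lit 0) (nat_lit 63122896) (nat_lit 608) (nat_lit 1905715201) (nat_lit 76) (nat_lit 6894815402) (nat_lit 232) (nat_lit 5) (nat_lit 240) (nat_lit 5) (nat_lit 233) (nat_lit 5) (nat_lit 590) (nat_lit 495) (nat_lit 475)) (XT.lf (nat_lit 0) (nat_lit 3950950631) (nat_lit 532) (nat_lit 3523462223) (nat_lit 76) (nat_lit 1465277150) (nat_lit 226) (nat_lit 5) (nat_lit 233) (nat_lit 5) (nat_lit 227) (nat_lit 5) (nat_lit 591) (nat_lit 495) (nat_lit 474))))))) (XT.nd (nat_lit 1170) (nat_lit 4484) (nat_lit 0) (XT.nd (nat_lit 546) (nat_lit 2432) (nat_lit 0) (XT.nd (nat_lit 234)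 (nat_lit 1368) (nat_lit 0) (XT.nd (nat_lit 78) (nat_lit 988) (nat_lit 0) (XT.lf (nat_lit 0) (nat_lit 3847230277) (nat_lit 456) (nat_lit 4063086391) (nat_lit 532) (nat_lit 1107056160) (nat_lit 220) (nat_lit 5) (nat_lit 226) (nat_lit 5) (nat_lit 227) (nat_lit 5) (nat_lit 592) (nat_lit 495) (nat_lit 473)) (XT.nd (nat_lit 78) (nat_lit 456) (nat_lit 0) (XT.lf (nat_lit 0) (nat_lit 2243954365) (nat_lit 456) (nat_lit 552365136) (nat_lit 532) (nat_lit 6300291279) (nat_lit 213) (nat_lit 5) (nat_lit 219) (nat_lit 5) (nat_lit 220) (nat_lit 5) (nat_lit 593) (nat_lit 495) (nat_lit 472)) (XT.lf (nat_lit 0) (nat_lit 596105628) (nat_lit 456) (nat_lit 6168802907) (nat_lit 532) (nat_lit 2412340371) (nat_lit 207) (nat_lit 5) (nat_lit 213) (nat_lit 5) (nat_lit 214) (nat_lit 5) (nat_lit 594) (nat_lit 495) (nat_lit 471)))) (XT.nd (nat_lit 156) (nat_lit 912) (nat_lit 0) (XT.nd (nat_lit 78) (nat_lit 380) (nat_lit 0) (XT.lf (nat_lit 0) (nat_lit 1526635361) (nat_lit 532) (nat_lit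 1070255344) (nat_lit 76) (nat_lit 6662535720) (nat_lit 206) (nat_lit 5) (nat_lit 213) (nat_lit 5) (nat_lit 207) (nat_lit 5) (nat_lit 595) (nat_lit 495) (nat_lit 470)) (XT.lf (nat_lit 0) (nat_lit 5506630733) (nat_lit 456) (nat_lit 2771736778) (nat_lit 76) (nat_lit 1064671334) (nat_lit 201) (nat_lit 5) (nat_lit 207) (nat_lit 5) (nat_lit 202) (nat_lit 5) (nat_lit 596) (nat_lit 495) (nat_lit 469))) (XT.nd (nat_lit 78) (nat_lit 380) (nat_lit 0) (XT.lf (nat_lit 0) (nat_lit 137614914) (nat_lit 532) (nat_lit 4513027394) (nat_lit 76) (nat_lit 4777633924) (nat_lit 194) (nat_lit 5) (nat_lit 201) (nat_lit 5) (nat_lit 195) (nat_lit 5) (nat_lit 597) (nat_lit 495) (nat_lit 468)) (XT.lf (nat_lit 0) (nat_lit 3212038202) (nat_lit 380) (nat_lit 912680656) (nat_lit 456) (nat_lit 5390293963) (nat_lit 189) (nat_lit 5) (nat_lit 194) (nat_lit 5) (nat_lit 195) (nat_lit 5) (nat_lit 598) (nat_lit 495) (nat_lit 467))))) (XT.nd (nat_lit 312) (nat_lit 1140) (nat_lit 0) (XT.nd (nat_lit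 156) (nat_lit 836) (nat_lit 0) (XT.nd (nat_lit 78) (nat_lit 76) (nat_lit 0) (XT.lf (nat_lit 0) (nat_lit 1466497894) (nat_lit 380) (nat_lit 6729596123) (nat_lit 456) (nat_lit 1407300548) (nat_lit 184) (nat_lit 5) (nat_lit 189) (nat_lit 5) (nat_lit 190) (nat_lit 5) (nat_lit 599) (nat_lit 495) (nat_lit 466)) (XT.lf (nat_lit 0) (nat_lit 2615009688) (nat_lit 456) (nat_lit 323242606) (nat_lit 76) (nat_lit 6755058164) (nat_lit 183) (nat_lit 5) (nat_lit 189) (nat_lit 5) (nat_lit 184) (nat_lit 5) (nat_lit 600) (nat_lit 495) (nat_lit 465))) (XT.nd (nat_lit 78) (nat_lit 456) (nat_lit 0) (XT.lf (nat_lit 0) (nat_lit 6701802113) (nat_lit 456) (nat_lit 2135505891) (nat_lit 76) (nat_lit 947473971) (nat_lit 178) (nat_lit 5) (nat_lit 184) (nat_lit 5) (nat_lit 179) (nat_lit 5) (nat_lit 601) (nat_lit 495) (nat_lit 464)) (XT.lf (nat_lit 0) (nat_lit 986362926) (nat_lit 456) (nat_lit 4001622019) (nat_lit 76) (nat_lit 4889827465) (nat_lit 172) (nat_lit 5) (nat_lit 178) (nat_lit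 5) (nat_lit 173) (nat_lit 5) (nat_lit 602) (nat_lit 495) (nat_lit 463)))) (XT.nd (nat_lit 156) (nat_lit 380) (nat_lit 0) (XT.nd (nat_lit 78) (nat_lit 380) (nat_lit 0) (XT.lf (nat_lit 0) (nat_lit 4054700879) (nat_lit 380) (nat_lit 1029301623) (nat_lit 456) (nat_lit 4888530453) (nat_lit 167) (nat_lit 5) (nat_lit 172) (nat_lit 5) (nat_lit 173) (nat_lit 5) (nat_lit 603) (nat_lit 495) (nat_lit 462)) (XT.lf (nat_lit 0) (nat_lit 2183790748) (nat_lit 380) (nat_lit 7088252335) (nat_lit 456) (nat_lit 796936739) (nat_lit 162) (nat_lit 5) (nat_lit 167) (nat_lit 5) (nat_lit 168) (nat_lit 5) (nat_lit 604) (nat_lit 495) (nat_lit 461))) (XT.nd (nat_lit 78) (nat_lit 0) (nat_lit 0) (XT.lf (nat_lit 0) (nat_lit 252340495) (nat_lit 304) (nat_lit 3076146648) (nat_lit 380) (nat_lit 6838505248) (nat_lit 157) (nat_lit 5) (nat_lit 161) (nat_lit 5) (nat_lit 162) (nat_lit 5) (nat_lit 605) (nat_lit 495) (nat_lit 460)) (XT.lf (nat_lit 0) (nat_lit 7533758749) (nat_lit 380) (nat_lit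 1701983078) (nat_lit 76) (nat_lit 1030958649) (nat_lit 157) (nat_lit 5) (nat_lit 162) (nat_lit 5) (nat_lit 158) (nat_lit 5) (nat_lit 606) (nat_lit 495) (nat_lit 459)))))) (XT.nd (nat_lit 624) (nat_lit 1976) (nat_lit 0) (XT.nd (nat_lit 312) (nat_lit 988) (nat_lit 0) (XT.nd (nat_lit 156) (nat_lit 760) (nat_lit 0) (XT.nd (nat_lit 78) (nat_lit 304) (nat_lit 0) (XT.lf (nat_lit 0) (nat_lit 1448507086) (nat_lit 456) (nat_lit 3717483028) (nat_lit 76) (nat_lit 5201967437) (nat_lit 151) (nat_lit 5) (nat_lit 157) (nat_lit 5) (nat_lit 152) (nat_lit 5) (nat_lit 607) (nat_lit 495) (nat_lit 458)) (XT.lf (nat_lit 0) (nat_lit 4683431010) (nat_lit 304) (nat_lit 984789333) (nat_lit 380) (nat_lit 4802834318) (nat_lit 147) (nat_lit 5) (nat_lit 151) (nat_lit 5) (nat_lit 152) (nat_lit 5) (nat_lit 608) (nat_lit 495) (nat_lit 457))) (XT.nd (nat_lit 78) (nat_lit 380) (nat_lit 0) (XT.lf (nat_lit 0) (nat_lit 2658318451) (nat_lit 380) (nat_lit 7327231731) (nat_lit 456) (nat_lit 590399846)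 (nat_lit 142) (nat_lit 5) (nat_lit 147) (nat_lit 5) (nat_lit 148) (nat_lit 5) (nat_lit 609) (nat_lit 495) (nat_lit 456)) (XT.lf (nat_lit 0) (nat_lit 563763198) (nat_lit 304) (nat_lit 3092871616) (nat_lit 380) (nat_lit 7025848748) (nat_lit 137) (nat_lit 5) (nat_lit 141) (nat_lit 5) (nat_lit 142) (nat_lit 5) (nat_lit 610) (nat_lit 495) (nat_lit 455)))) (XT.nd (nat_lit 156) (nat_lit 608) (nat_lit 0) (XT.nd (nat_lit 78) (nat_lit 380) (nat_lit 0) (XT.lf (nat_lit 0) (nat_lit 7992088630) (nat_lit 380) (nat_lit 1562700261) (nat_lit 76) (nat_lit 1236053865) (nat_lit 137) (nat_lit 5) (nat_lit 142) (nat_lit 5) (nat_lit 138) (nat_lit 5) (nat_lit 611) (nat_lit 495) (nat_lit 454)) (XT.lf (nat_lit 0) (nat_lit 1511022206) (nat_lit 380) (nat_lit 3754017253) (nat_lit 76) (nat_lit 5635774281) (nat_lit 132) (nat_lit 5) (nat_lit 137) (nat_lit 5) (nat_lit 133) (nat_lit 5) (nat_lit 612) (nat_lit 495) (nat_lit 453))) (XT.nd (nat_lit 78) (nat_lit 304) (nat_lit 0) (XT.lf (nat_lit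 0) (nat_lit 5004922578) (nat_lit 304) (nat_lit 858714159) (nat_lit 380) (nat_lit 5149095730) (nat_lit 128) (nat_lit 5) (nat_lit 132) (nat_lit 5) (nat_lit 133) (nat_lit 5) (nat_lit 613) (nat_lit 495) (nat_lit 452)) (XT.lf (nat_lit 0) (nat_lit 2795192996) (nat_lit 304) (nat_lit 7526484682) (nat_lit 380) (nat_lit 804845071) (nat_lit 124) (nat_lit 5) (nat_lit 128) (nat_lit 5) (nat_lit 129) (nat_lit 5) (nat_lit 614) (nat_lit 495) (nat_lit 451))))) (XT.nd (nat_lit 312) (nat_lit 988) (nat_lit 0) (XT.nd (nat_lit 156) (nat_lit 608) (nat_lit 0) (XT.nd (nat_lit 78) (nat_lit 0) (nat_lit 0) (XT.lf (nat_lit 0) (nat_lit 509749606) (nat_lit 304) (nat_lit 3069933694) (nat_lit 380) (nat_lit 7662416246) (nat_lit 119) (nat_lit 5) (nat_lit 123) (nat_lit 5) (nat_lit 124) (nat_lit 5) (nat_lit 615) (nat_lit 495) (nat_lit 450)) (XT.lf (nat_lit 0) (nat_lit 8058584962) (nat_lit 380) (nat_lit 1815133918) (nat_lit 76) (nat_lit 1485814032) (nat_lit 119) (nat_lit 5) (nat_lit 124) (nat_lit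 5) (nat_lit 120) (nat_lit 5) (nat_lit 616) (nat_lit 495) (nat_lit 449))) (XT.nd (nat_lit 78) (nat_lit 228) (nat_lit 0) (XT.lf (nat_lit 0) (nat_lit 1152937045) (nat_lit 380) (nat_lit 4210949533) (nat_lit 76) (nat_lit 6114875124) (nat_lit 114) (nat_lit 5) (nat_lit 119) (nat_lit 5) (nat_lit 115) (nat_lit 5) (nat_lit 617) (nat_lit 495) (nat_lit 448)) (XT.lf (nat_lit 0) (nat_lit 4919397126) (nat_lit 228) (nat_lit 729187403) (nat_lit 304) (nat_lit 5951417053) (nat_lit 111) (nat_lit 5) (nat_lit 114) (nat_lit 5) (nat_lit 115) (nat_lit 5) (nat_lit 618) (nat_lit 495) (nat_lit 447)))) (XT.nd (nat_lit 156) (nat_lit 608) (nat_lit 0) (XT.nd (nat_lit 78) (nat_lit 76) (nat_lit 0) (XT.lf (nat_lit 0) (nat_lit 2492603131) (nat_lit 304) (nat_lit 7764971787) (nat_lit 380) (nat_lit 1465623320) (nat_lit 107) (nat_lit 5) (nat_lit 111) (nat_lit 5) (nat_lit 112) (nat_lit 5) (nat_lit 619) (nat_lit 495) (nat_lit 446)) (XT.lf (nat_lit 0) (nat_lit 3071995122) (nat_lit 380) (nat_lit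 13817059) (nat_lit 76) (nat_lit 8762585462) (nat_lit 106) (nat_lit 5) (nat_lit 111) (nat_lit 5) (nat_lit 107) (nat_lit 5) (nat_lit 620) (nat_lit 495) (nat_lit 445))) (XT.nd (nat_lit 78) (nat_lit 380) (nat_lit 0) (XT.lf (nat_lit 0) (nat_lit 7707007943) (nat_lit 304) (nat_lit 2564444012) (nat_lit 76) (nat_lit 1703930538) (nat_lit 103) (nat_lit 5) (nat_lit 107) (nat_lit 5) (nat_lit 104) (nat_lit 5) (nat_lit 621) (nat_lit 495) (nat_lit 444)) (XT.lf (nat_lit 0) (nat_lit 345061836) (nat_lit 380) (nat_lit 5196098630) (nat_lit 76) (nat_lit 6563312799) (nat_lit 98) (nat_lit 5) (nat_lit 103) (nat_lit 5) (nat_lit 99) (nat_lit 5) (nat_lit 622) (nat_lit 495) (nat_lit 443))))))))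
noncomputable def xc27 : XT := (XT.nd (nat_lit 77142) (nat_lit 0) (nat_lit 10868) (XT.nd (nat_lit 1170) (nat_lit 1824) (nat_lit 0) (XT.nd (nat_lit 546) (nat_lit 1444) (nat_lit 0) (XT.nd (nat_lit 234) (nat_lit 988) (nat_lit 0) (XT.nd (nat_lit 78) (nat_lit 304) (nat_lit 0) (XT.lf (nat_lit 0) (nat_lit 4318800225) (nat_lit 228) (nat_lit 674366455) (nat_lit 304) (nat_lit 7242424342) (nat_lit 95) (nat_lit 5) (nat_lit 98) (nat_lit 5) (nat_lit 99) (nat_lit 5) (nat_lit 623) (nat_lit 495) (nat_lit 442)) (XT.nd (nat_lit 78) (nat_lit 76) (nat_lit 0) (XT.lf (nat_lit 0) (nat_lit 1639978485) (nat_lit 228) (nat_lit 8122165558) (nat_lit 304) (nat_lit 2606629387) (nat_lit 92) (nat_lit 5) (nat_lit 95) (nat_lit 5) (nat_lit 96) (nat_lit 5) (nat_lit 624) (nat_lit 495) (nat_lit 441)) (XT.lf (nat_lit 0) (nat_lit 2106391618) (nat_lit 304) (nat_lit 1106284320) (nat_lit 76) (nat_lit 9291421716) (nat_lit 91) (nat_lit 5) (nat_lit 95) (nat_lit 5) (nat_lit 92) (nat_lit 5) (nat_lit 625)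 (nat_lit 495) (nat_lit 440)))) (XT.nd (nat_lit 156) (nat_lit 532) (nat_lit 0) (XT.nd (nat_lit 78) (nat_lit 228) (nat_lit 0) (XT.lf (nat_lit 0) (nat_lit 6902690427) (nat_lit 304) (nat_lit 3925363612) (nat_lit 76) (nat_lit 1813251800) (nat_lit 88) (nat_lit 5) (nat_lit 92) (nat_lit 5) (nat_lit 89) (nat_lit 5) (nat_lit 626) (nat_lit 495) (nat_lit 439)) (XT.lf (nat_lit 0) (nat_lit 5947237077) (nat_lit 228) (nat_lit 5870491256) (nat_lit 304) (nat_lit 963074055) (nat_lit 85) (nat_lit 5) (nat_lit 88) (nat_lit 5) (nat_lit 89) (nat_lit 5) (nat_lit 627) (nat_lit 495) (nat_lit 438))) (XT.nd (nat_lit 78) (nat_lit 228) (nat_lit 0) (XT.lf (nat_lit 0) (nat_lit 3084832452) (nat_lit 228) (nat_lit 773964926) (nat_lit 304) (nat_lit 9063743014) (nat_lit 81) (nat_lit 5) (nat_lit 84) (nat_lit 5) (nat_lit 85) (nat_lit 5) (nat_lit 628) (nat_lit 495) (nat_lit 437)) (XT.lf (nat_lit 0) (nat_lit 115978102) (nat_lit 228) (nat_lit 8679565433) (nat_lit 304) (nat_lit 4270816082) (nat_lit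 78) (nat_lit 5) (nat_lit 81) (nat_lit 5) (nat_lit 82) (nat_lit 5) (nat_lit 629) (nat_lit 495) (nat_lit 436))))) (XT.nd (nat_lit 312) (nat_lit 684) (nat_lit 0) (XT.nd (nat_lit 156) (nat_lit 456) (nat_lit 0) (XT.nd (nat_lit 78) (nat_lit 228) (nat_lit 0) (XT.lf (nat_lit 0) (nat_lit 637197465) (nat_lit 304) (nat_lit 2897461044) (nat_lit 76) (nat_lit 9677770236) (nat_lit 77) (nat_lit 5) (nat_lit 81) (nat_lit 5) (nat_lit 78) (nat_lit 5) (nat_lit 630) (nat_lit 495) (nat_lit 435)) (XT.lf (nat_lit 0) (nat_lit 5601977107) (nat_lit 304) (nat_lit 6024281424) (nat_lit 76) (nat_lit 1734280694) (nat_lit 74) (nat_lit 5) (nat_lit 78) (nat_lit 5) (nat_lit 75) (nat_lit 5) (nat_lit 631) (nat_lit 495) (nat_lit 434))) (XT.nd (nat_lit 78) (nat_lit 228) (nat_lit 0) (XT.lf (nat_lit 0) (nat_lit 4258165027) (nat_lit 228) (nat_lit 6435276549) (nat_lit 304) (nat_lit 2817622959) (nat_lit 71) (nat_lit 5) (nat_lit 74) (nat_lit 5) (nat_lit 75) (nat_lit 5) (nat_lit 632) (nat_lit 495) (nat_lit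 433)) (XT.lf (nat_lit 0) (nat_lit 1086770370) (nat_lit 152) (nat_lit 1110800316) (nat_lit 228) (nat_lit 11466649915) (nat_lit 68) (nat_lit 5) (nat_lit 70) (nat_lit 5) (nat_lit 71) (nat_lit 5) (nat_lit 633) (nat_lit 495) (nat_lit 432)))) (XT.nd (nat_lit 156) (nat_lit 456) (nat_lit 0) (XT.nd (nat_lit 78) (nat_lit 228) (nat_lit 0) (XT.lf (nat_lit 0) (nat_lit 7322889737) (nat_lit 228) (nat_lit 2184708632) (nat_lit 76) (nat_lit 4311518320) (nat_lit 68) (nat_lit 5) (nat_lit 71) (nat_lit 5) (nat_lit 69) (nat_lit 5) (nat_lit 634) (nat_lit 495) (nat_lit 431)) (XT.lf (nat_lit 0) (nat_lit 8443733889) (nat_lit 228) (nat_lit 4126965605) (nat_lit 304) (nat_lit 1406011893) (nat_lit 65) (nat_lit 5) (nat_lit 68) (nat_lit 5) (nat_lit 69) (nat_lit 5) (nat_lit 635) (nat_lit 495) (nat_lit 430))) (XT.nd (nat_lit 78) (nat_lit 228) (nat_lit 0) (XT.lf (nat_lit 0) (nat_lit 3751482714) (nat_lit 228) (nat_lit 9001564972) (nat_lit 76) (nat_lit 1383616438) (nat_lit 62) (nat_lit 5)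 (nat_lit 65) (nat_lit 5) (nat_lit 63) (nat_lit 5) (nat_lit 636) (nat_lit 495) (nat_lit 429)) (XT.lf (nat_lit 0) (nat_lit 1702176638) (nat_lit 228) (nat_lit 7324889804) (nat_lit 304) (nat_lit 5271888637) (nat_lit 59) (nat_lit 5) (nat_lit 62) (nat_lit 5) (nat_lit 63) (nat_lit 5) (nat_lit 637) (nat_lit 495) (nat_lit 428)))))) (XT.nd (nat_lit 624) (nat_lit 608) (nat_lit 0) (XT.nd (nat_lit 312) (nat_lit 532) (nat_lit 0) (XT.nd (nat_lit 156) (nat_lit 456) (nat_lit 0) (XT.nd (nat_lit 78) (nat_lit 228) (nat_lit 0) (XT.lf (nat_lit 0) (nat_lit 12666785290) (nat_lit 228) (nat_lit 1760107581) (nat_lit 304) (nat_lit 37224706) (nat_lit 59) (nat_lit 5) (nat_lit 62) (nat_lit 5) (nat_lit 63) (nat_lit 5) (nat_lit 638) (nat_lit 495) (nat_lit 427)) (XT.lf (nat_lit 0) (nat_lit 5277230810) (nat_lit 228) (nat_lit 5426915258) (nat_lit 76) (nat_lit 3926856356) (nat_lit 56) (nat_lit 5) (nat_lit 59) (nat_lit 5) (nat_lit 57) (nat_lit 5) (nat_lit 639) (nat_lit 495) (nat_lit 426)))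 (XT.nd (nat_lit 78) (nat_lit 228) (nat_lit 0) (XT.lf (nat_lit 0) (nat_lit 5636443335) (nat_lit 228) (nat_lit 5080411834) (nat_lit 304) (nat_lit 4083977639) (nat_lit 53) (nat_lit 5) (nat_lit 56) (nat_lit 5) (nat_lit 57) (nat_lit 5) (nat_lit 640) (nat_lit 495) (nat_lit 425)) (XT.lf (nat_lit 0) (nat_lit 1287150205) (nat_lit 228) (nat_lit 13014178980) (nat_lit 76) (nat_lit 672305810) (nat_lit 50) (nat_lit 5) (nat_lit 53) (nat_lit 5) (nat_lit 51) (nat_lit 5) (nat_lit 641) (nat_lit 495) (nat_lit 424)))) (XT.nd (nat_lit 156) (nat_lit 380) (nat_lit 0) (XT.nd (nat_lit 78) (nat_lit 152) (nat_lit 0) (XT.lf (nat_lit 0) (nat_lit 6765763299) (nat_lit 228) (nat_lit 1854331006) (nat_lit 76) (nat_lit 6528164383) (nat_lit 50) (nat_lit 5) (nat_lit 53) (nat_lit 5) (nat_lit 51) (nat_lit 5) (nat_lit 642) (nat_lit 495) (nat_lit 423)) (XT.lf (nat_lit 0) (nat_lit 9581262862) (nat_lit 152) (nat_lit 2794840546) (nat_lit 228) (nat_lit 2949828651) (nat_lit 48) (nat_lit 5) (nat_lit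 50) (nat_lit 5) (nat_lit 51) (nat_lit 5) (nat_lit 643) (nat_lit 495) (nat_lit 422))) (XT.nd (nat_lit 78) (nat_lit 152) (nat_lit 0) (XT.lf (nat_lit 0) (nat_lit 2588011964) (nat_lit 228) (nat_lit 9778158556) (nat_lit 76) (nat_lit 3140041987) (nat_lit 45) (nat_lit 5) (nat_lit 48) (nat_lit 5) (nat_lit 46) (nat_lit 5) (nat_lit 644) (nat_lit 495) (nat_lit 421)) (XT.lf (nat_lit 0) (nat_lit 1729902490) (nat_lit 152) (nat_lit 6495886672) (nat_lit 228) (nat_lit 7463346156) (nat_lit 43) (nat_lit 5) (nat_lit 45) (nat_lit 5) (nat_lit 46) (nat_lit 5) (nat_lit 645) (nat_lit 495) (nat_lit 420))))) (XT.nd (nat_lit 312) (nat_lit 76) (nat_lit 0) (XT.nd (nat_lit 156) (nat_lit 304) (nat_lit 0) (XT.nd (nat_lit 78) (nat_lit 228) (nat_lit 0) (XT.lf (nat_lit 0) (nat_lit 13527891719) (nat_lit 152) (nat_lit 474452145) (nat_lit 228) (nat_lit 1872852562) (nat_lit 43) (nat_lit 5) (nat_lit 45) (nat_lit 5) (nat_lit 46) (nat_lit 5) (nat_lit 646) (nat_lit 495) (nat_lit 419)) (XT.lf (nat_lit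 0) (nat_lit 3839152176) (nat_lit 228) (nat_lit 6576133977) (nat_lit 76) (nat_lit 5647997097) (nat_lit 40) (nat_lit 5) (nat_lit 43) (nat_lit 5) (nat_lit 41) (nat_lit 5) (nat_lit 647) (nat_lit 495) (nat_lit 418))) (XT.nd (nat_lit 78) (nat_lit 152) (nat_lit 0) (XT.lf (nat_lit 0) (nat_lit 5317421303) (nat_lit 152) (nat_lit 4337459100) (nat_lit 228) (nat_lit 6599712862) (nat_lit 38) (nat_lit 5) (nat_lit 40) (nat_lit 5) (nat_lit 41) (nat_lit 5) (nat_lit 648) (nat_lit 495) (nat_lit 417)) (XT.lf (nat_lit 0) (nat_lit 1018063340) (nat_lit 152) (nat_lit 14593082670) (nat_lit 228) (nat_lit 838099269) (nat_lit 36) (nat_lit 5) (nat_lit 38) (nat_lit 5) (nat_lit 39) (nat_lit 4) (nat_lit 649) (nat_lit 495) (nat_lit 416)))) (XT.nd (nat_lit 74880) (nat_lit 0) (nat_lit 25612) (XT.nd (nat_lit 74802) (nat_lit 0) (nat_lit 27208) (XT.lf (nat_lit 0) (nat_lit 5036412221) (nat_lit 228) (nat_lit 3419680964) (nat_lit 76) (nat_lit 8189768105) (nat_lit 35) (nat_lit 5) (nat_lit 38) (nat_lit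 5) (nat_lit 36) (nat_lit 5) (nat_lit 650) (nat_lit 495) (nat_lit 415)) (XT.lf (nat_lit 0) (nat_lit 2974343247) (nat_lit 836) (nat_lit 397924757) (nat_lit 836) (nat_lit 397924757) (nat_lit 393) (nat_lit 4) (nat_lit 404) (nat_lit 5) (nat_lit 404) (nat_lit 4) (nat_lit 568) (nat_lit 496) (nat_lit 496))) (XT.nd (nat_lit 78) (nat_lit 760) (nat_lit 0) (XT.lf (nat_lit 0) (nat_lit 2956219104) (nat_lit 836) (nat_lit 3100416254) (nat_lit 0) (nat_lit 1530252873) (nat_lit 382) (nat_lit 5) (nat_lit 393) (nat_lit 4) (nat_lit 382) (nat_lit 4) (nat_lit 569) (nat_lit 496) (nat_lit 495)) (XT.lf (nat_lit 0) (nat_lit 3021580483) (nat_lit 760) (nat_lit 3718629577) (nat_lit 760) (nat_lit 894657239) (nat_lit 372) (nat_lit 4) (nat_lit 382) (nat_lit 5) (nat_lit 382) (nat_lit 4) (nat_lit 570) (nat_lit 496) (nat_lit 494))))))) (XT.nd (nat_lit 1170) (nat_lit 6384) (nat_lit 0) (XT.nd (nat_lit 546) (nat_lit 3800) (nat_lit 0) (XT.nd (nat_lit 234) (nat_lit 2888) (nat_lit 0) (XT.nd (nat_lit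 78) (nat_lit 836) (nat_lit 0) (XT.lf (nat_lit 0) (nat_lit 1544357800) (nat_lit 760) (nat_lit 1296693864) (nat_lit 836) (nat_lit 4843113369) (nat_lit 361) (nat_lit 5) (nat_lit 371) (nat_lit 5) (nat_lit 372) (nat_lit 4) (nat_lit 571) (nat_lit 496) (nat_lit 493)) (XT.nd (nat_lit 78) (nat_lit 76) (nat_lit 0) (XT.lf (nat_lit 0) (nat_lit 58685277) (nat_lit 760) (nat_lit 6552948537) (nat_lit 760) (nat_lit 1123255998) (nat_lit 351) (nat_lit 4) (nat_lit 361) (nat_lit 5) (nat_lit 361) (nat_lit 4) (nat_lit 572) (nat_lit 496) (nat_lit 492)) (XT.lf (nat_lit 0) (nat_lit 2619336330) (nat_lit 836) (nat_lit 1430174699) (nat_lit 76) (nat_lit 3737105904) (nat_lit 350) (nat_lit 5) (nat_lit 361) (nat_lit 5) (nat_lit 351) (nat_lit 4) (nat_lit 573) (nat_lit 496) (nat_lit 491)))) (XT.nd (nat_lit 156) (nat_lit 1444) (nat_lit 0) (XT.nd (nat_lit 78) (nat_lit 760) (nat_lit 0) (XT.lf (nat_lit 0) (nat_lit 4916899589) (nat_lit 684) (nat_lit 1471392925) (nat_lit 760) (nat_lit 1451608551)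 (nat_lit 341) (nat_lit 5) (nat_lit 350) (nat_lit 5) (nat_lit 351) (nat_lit 4) (nat_lit 574) (nat_lit 496) (nat_lit 490)) (XT.lf (nat_lit 0) (nat_lit 2282541231) (nat_lit 760) (nat_lit 4437149758) (nat_lit 76) (nat_lit 1174761529) (nat_lit 331) (nat_lit 5) (nat_lit 341) (nat_lit 5) (nat_lit 332) (nat_lit 4) (nat_lit 575) (nat_lit 496) (nat_lit 489))) (XT.nd (nat_lit 78) (nat_lit 760) (nat_lit 0) (XT.lf (nat_lit 0) (nat_lit 1979704838) (nat_lit 684) (nat_lit 4070182606) (nat_lit 760) (nat_lit 1900458542) (nat_lit 322) (nat_lit 5) (nat_lit 331) (nat_lit 5) (nat_lit 332) (nat_lit 4) (nat_lit 576) (nat_lit 496) (nat_lit 488)) (XT.lf (nat_lit 0) (nat_lit 490052183) (nat_lit 684) (nat_lit 1339501362) (nat_lit 760) (nat_lit 6178179689) (nat_lit 312) (nat_lit 5) (nat_lit 321) (nat_lit 5) (nat_lit 322) (nat_lit 5) (nat_lit 577) (nat_lit 496) (nat_lit 487))))) (XT.nd (nat_lit 312) (nat_lit 1824) (nat_lit 0) (XT.nd (nat_lit 156) (nat_lit 1292) (nat_lit 0) (XT.nd (nat_lit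 78) (nat_lit 684) (nat_lit 0) (XT.lf (nat_lit 0) (nat_lit 5594969530) (nat_lit 760) (nat_lit 1009640673) (nat_lit 76) (nat_lit 1461683556) (nat_lit 312) (nat_lit 5) (nat_lit 322) (nat_lit 5) (nat_lit 313) (nat_lit 4) (nat_lit 578) (nat_lit 496) (nat_lit 486)) (XT.lf (nat_lit 0) (nat_lit 1275439577) (nat_lit 684) (nat_lit 2522668329) (nat_lit 76) (nat_lit 4328090283) (nat_lit 303) (nat_lit 5) (nat_lit 312) (nat_lit 5) (nat_lit 304) (nat_lit 5) (nat_lit 579) (nat_lit 496) (nat_lit 485))) (XT.nd (nat_lit 78) (nat_lit 684) (nat_lit 0) (XT.lf (nat_lit 0) (nat_lit 4131766842) (nat_lit 608) (nat_lit 903998832) (nat_lit 684) (nat_lit 3151775650) (nat_lit 295) (nat_lit 5) (nat_lit 303) (nat_lit 5) (nat_lit 304) (nat_lit 5) (nat_lit 580) (nat_lit 496) (nat_lit 484)) (XT.lf (nat_lit 0) (nat_lit 599045545) (nat_lit 684) (nat_lit 5611423868) (nat_lit 76) (nat_lit 2039842751) (nat_lit 286) (nat_lit 5) (nat_lit 295) (nat_lit 5) (nat_lit 287) (nat_lit 5) (nat_lit 581)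 (nat_lit 496) (nat_lit 483)))) (XT.nd (nat_lit 156) (nat_lit 1216) (nat_lit 0) (XT.nd (nat_lit 78) (nat_lit 0) (nat_lit 0) (XT.lf (nat_lit 0) (nat_lit 1113863731) (nat_lit 608) (nat_lit 3248345048) (nat_lit 684) (nat_lit 3952124007) (nat_lit 278) (nat_lit 5) (nat_lit 286) (nat_lit 5) (nat_lit 287) (nat_lit 5) (nat_lit 582) (nat_lit 496) (nat_lit 482)) (XT.lf (nat_lit 0) (nat_lit 7967930626) (nat_lit 608) (nat_lit 209900914) (nat_lit 684) (nat_lit 202259910) (nat_lit 278) (nat_lit 5) (nat_lit 286) (nat_lit 5) (nat_lit 287) (nat_lit 5) (nat_lit 583) (nat_lit 496) (nat_lit 481))) (XT.nd (nat_lit 78) (nat_lit 608) (nat_lit 0) (XT.lf (nat_lit 0) (nat_lit 3576632387) (nat_lit 608) (nat_lit 1973539657) (nat_lit 76) (nat_lit 2896493492) (nat_lit 270) (nat_lit 5) (nat_lit 278) (nat_lit 5) (nat_lit 271) (nat_lit 5) (nat_lit 584) (nat_lit 496) (nat_lit 480)) (XT.lf (nat_lit 0) (nat_lit 4968107782) (nat_lit 608) (nat_lit 2437560065) (nat_lit 684) (nat_lit 1109332512)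 (nat_lit 262) (nat_lit 5) (nat_lit 270) (nat_lit 5) (nat_lit 271) (nat_lit 5) (nat_lit 585) (nat_lit 496) (nat_lit 479)))))) (XT.nd (nat_lit 624) (nat_lit 2660) (nat_lit 0) (XT.nd (nat_lit 312) (nat_lit 2052) (nat_lit 0) (XT.nd (nat_lit 156) (nat_lit 532) (nat_lit 0) (XT.nd (nat_lit 78) (nat_lit 532) (nat_lit 0) (XT.lf (nat_lit 0) (nat_lit 2672543493) (nat_lit 608) (nat_lit 5153364404) (nat_lit 76) (nat_lit 758806915) (nat_lit 254) (nat_lit 5) (nat_lit 262) (nat_lit 5) (nat_lit 255) (nat_lit 5) (nat_lit 586) (nat_lit 496) (nat_lit 478)) (XT.lf (nat_lit 0) (nat_lit 1860422347) (nat_lit 532) (nat_lit 4648540752) (nat_lit 608) (nat_lit 2146839983) (nat_lit 247) (nat_lit 5) (nat_lit 254) (nat_lit 5) (nat_lit 255) (nat_lit 5) (nat_lit 587) (nat_lit 496) (nat_lit 477))) (XT.nd (nat_lit 78) (nat_lit 0) (nat_lit 0) (XT.lf (nat_lit 0) (nat_lit 266533785) (nat_lit 456) (nat_lit 1383387406) (nat_lit 532) (nat_lit 7078606555) (nat_lit 240) (nat_lit 5) (nat_lit 246)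 (nat_lit 5) (nat_lit 247) (nat_lit 5) (nat_lit 588) (nat_lit 496) (nat_lit 476)) (XT.lf (nat_lit 0) (nat_lit 5494690403) (nat_lit 532) (nat_lit 1350063237) (nat_lit 76) (nat_lit 1957654371) (nat_lit 240) (nat_lit 5) (nat_lit 247) (nat_lit 5) (nat_lit 241) (nat_lit 5) (nat_lit 589) (nat_lit 496) (nat_lit 475)))) (XT.nd (nat_lit 156) (nat_lit 988) (nat_lit 0) (XT.nd (nat_lit 78) (nat_lit 456) (nat_lit 0) (XT.lf (nat_lit 0) (nat_lit 522252746) (nat_lit 608) (nat_lit 2990463472) (nat_lit 76) (nat_lit 5365166431) (nat_lit 232) (nat_lit 5) (nat_lit 240) (nat_lit 5) (nat_lit 233) (nat_lit 5) (nat_lit 590) (nat_lit 496) (nat_lit 474)) (XT.lf (nat_lit 0) (nat_lit 4286015122) (nat_lit 456) (nat_lit 79099633) (nat_lit 532) (nat_lit 4589704319) (nat_lit 226) (nat_lit 5) (nat_lit 232) (nat_lit 5) (nat_lit 233) (nat_lit 5) (nat_lit 591) (nat_lit 496) (nat_lit 473))) (XT.nd (nat_lit 78) (nat_lit 532) (nat_lit 0) (XT.lf (nat_lit 0) (nat_lit 2646096658) (nat_lit 456) (nat_lit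 5642354710) (nat_lit 532) (nat_lit 744771715) (nat_lit 220) (nat_lit 5) (nat_lit 226) (nat_lit 5) (nat_lit 227) (nat_lit 5) (nat_lit 592) (nat_lit 496) (nat_lit 472)) (XT.lf (nat_lit 0) (nat_lit 967220529) (nat_lit 456) (nat_lit 2150724935) (nat_lit 532) (nat_lit 5995187240) (nat_lit 213) (nat_lit 5) (nat_lit 219) (nat_lit 5) (nat_lit 220) (nat_lit 5) (nat_lit 593) (nat_lit 496) (nat_lit 471))))) (XT.nd (nat_lit 312) (nat_lit 1216) (nat_lit 0) (XT.nd (nat_lit 156) (nat_lit 912) (nat_lit 0) (XT.nd (nat_lit 78) (nat_lit 532) (nat_lit 0) (XT.lf (nat_lit 0) (nat_lit 7044863520) (nat_lit 532) (nat_lit 735438890) (nat_lit 76) (nat_lit 1414302401) (nat_lit 213) (nat_lit 5) (nat_lit 220) (nat_lit 5) (nat_lit 214) (nat_lit 5) (nat_lit 594) (nat_lit 496) (nat_lit 470)) (XT.lf (nat_lit 0) (nat_lit 1753590798) (nat_lit 532) (nat_lit 2471642385) (nat_lit 76) (nat_lit 5052159580) (nat_lit 206) (nat_lit 5) (nat_lit 213) (nat_lit 5) (nat_lit 207) (nat_lit 5) (nat_lit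 595) (nat_lit 496) (nat_lit 469))) (XT.nd (nat_lit 78) (nat_lit 532) (nat_lit 0) (XT.lf (nat_lit 0) (nat_lit 5117761872) (nat_lit 380) (nat_lit 572542860) (nat_lit 456) (nat_lit 3671566608) (nat_lit 201) (nat_lit 5) (nat_lit 206) (nat_lit 5) (nat_lit 207) (nat_lit 5) (nat_lit 596) (nat_lit 496) (nat_lit 468)) (XT.lf (nat_lit 0) (nat_lit 259769060) (nat_lit 532) (nat_lit 6062498896) (nat_lit 76) (nat_lit 3125630383) (nat_lit 194) (nat_lit 5) (nat_lit 201) (nat_lit 5) (nat_lit 195) (nat_lit 5) (nat_lit 597) (nat_lit 496) (nat_lit 467)))) (XT.nd (nat_lit 156) (nat_lit 836) (nat_lit 0) (XT.nd (nat_lit 78) (nat_lit 0) (nat_lit 0) (XT.lf (nat_lit 0) (nat_lit 1601029459) (nat_lit 380) (nat_lit 2608857050) (nat_lit 456) (nat_lit 5325488646) (nat_lit 189) (nat_lit 5) (nat_lit 194) (nat_lit 5) (nat_lit 195) (nat_lit 5) (nat_lit 598) (nat_lit 496) (nat_lit 466)) (XT.lf (nat_lit 0) (nat_lit 8234370144) (nat_lit 456) (nat_lit 213672333) (nat_lit 76) (nat_lit 1176652741)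 (nat_lit 189) (nat_lit 5) (nat_lit 195) (nat_lit 5) (nat_lit 190) (nat_lit 5) (nat_lit 599) (nat_lit 496) (nat_lit 465))) (XT.nd (nat_lit 78) (nat_lit 380) (nat_lit 0) (XT.lf (nat_lit 0) (nat_lit 2604071876) (nat_lit 456) (nat_lit 2068343266) (nat_lit 76) (nat_lit 5042748046) (nat_lit 183) (nat_lit 5) (nat_lit 189) (nat_lit 5) (nat_lit 184) (nat_lit 5) (nat_lit 600) (nat_lit 496) (nat_lit 464)) (XT.lf (nat_lit 0) (nat_lit 5846948347) (nat_lit 380) (nat_lit 800178993) (nat_lit 456) (nat_lit 3160382566) (nat_lit 178) (nat_lit 5) (nat_lit 183) (nat_lit 5) (nat_lit 184) (nat_lit 5) (nat_lit 601) (nat_lit 496) (nat_lit 463))))))))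
noncomputable def xc28 : XT := (XT.nd (nat_lit 2418) (nat_lit 2584) (nat_lit 0) (XT.nd (nat_lit 1170) (nat_lit 3420) (nat_lit 0) (XT.nd (nat_lit 546) (nat_lit 2128) (nat_lit 0) (XT.nd (nat_lit 234) (nat_lit 1140) (nat_lit 0) (XT.nd (nat_lit 78) (nat_lit 760) (nat_lit 0) (XT.lf (nat_lit 0) (nat_lit 866654690) (nat_lit 456) (nat_lit 5909021616) (nat_lit 76) (nat_lit 3125740941) (nat_lit 172) (nat_lit 5) (nat_lit 178) (nat_lit 5) (nat_lit 173) (nat_lit 5) (nat_lit 602) (nat_lit 496) (nat_lit 462)) (XT.nd (nat_lit 78) (nat_lit 380) (nat_lit 0) (XT.lf (nat_lit 0) (nat_lit 2081322829) (nat_lit 380) (nat_lit 2844630595) (nat_lit 456) (nat_lit 5070951618) (nat_lit 167) (nat_lit 5) (nat_lit 172) (nat_lit 5) (nat_lit 173) (nat_lit 5) (nat_lit 603) (nat_lit 496) (nat_lit 461)) (XT.lf (nat_lit 0) (nat_lit 130654528) (nat_lit 380) (nat_lit 8932841957) (nat_lit 456) (nat_lit 1030865801) (nat_lit 162) (nat_lit 5) (nat_lit 167) (nat_lit 5) (nat_lit 168) (nat_lit 5) (nat_lit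 604) (nat_lit 496) (nat_lit 460)))) (XT.nd (nat_lit 156) (nat_lit 760) (nat_lit 0) (XT.nd (nat_lit 78) (nat_lit 304) (nat_lit 0) (XT.lf (nat_lit 0) (nat_lit 3070678027) (nat_lit 456) (nat_lit 1868285999) (nat_lit 76) (nat_lit 5253980575) (nat_lit 161) (nat_lit 5) (nat_lit 167) (nat_lit 5) (nat_lit 162) (nat_lit 5) (nat_lit 605) (nat_lit 496) (nat_lit 459)) (XT.lf (nat_lit 0) (nat_lit 6386128744) (nat_lit 304) (nat_lit 845673421) (nat_lit 380) (nat_lit 3061733870) (nat_lit 157) (nat_lit 5) (nat_lit 161) (nat_lit 5) (nat_lit 162) (nat_lit 5) (nat_lit 606) (nat_lit 496) (nat_lit 458))) (XT.nd (nat_lit 78) (nat_lit 304) (nat_lit 0) (XT.lf (nat_lit 0) (nat_lit 1078827302) (nat_lit 456) (nat_lit 6012144776) (nat_lit 76) (nat_lit 3304768110) (nat_lit 151) (nat_lit 5) (nat_lit 157) (nat_lit 5) (nat_lit 152) (nat_lit 5) (nat_lit 607) (nat_lit 496) (nat_lit 457)) (XT.lf (nat_lit 0) (nat_lit 2318016666) (nat_lit 304) (nat_lit 2940554605) (nat_lit 380) (nat_lit 5241065789)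 (nat_lit 147) (nat_lit 5) (nat_lit 151) (nat_lit 5) (nat_lit 152) (nat_lit 5) (nat_lit 608) (nat_lit 496) (nat_lit 456))))) (XT.nd (nat_lit 312) (nat_lit 988) (nat_lit 0) (XT.nd (nat_lit 156) (nat_lit 684) (nat_lit 0) (XT.nd (nat_lit 78) (nat_lit 76) (nat_lit 0) (XT.lf (nat_lit 0) (nat_lit 204985406) (nat_lit 380) (nat_lit 9317805856) (nat_lit 456) (nat_lit 1082803732) (nat_lit 142) (nat_lit 5) (nat_lit 147) (nat_lit 5) (nat_lit 148) (nat_lit 5) (nat_lit 609) (nat_lit 496) (nat_lit 455)) (XT.lf (nat_lit 0) (nat_lit 3142607466) (nat_lit 456) (nat_lit 1963332851) (nat_lit 76) (nat_lit 5606814136) (nat_lit 141) (nat_lit 5) (nat_lit 147) (nat_lit 5) (nat_lit 142) (nat_lit 5) (nat_lit 610) (nat_lit 496) (nat_lit 454))) (XT.nd (nat_lit 78) (nat_lit 380) (nat_lit 0) (XT.lf (nat_lit 0) (nat_lit 6643590800) (nat_lit 304) (nat_lit 789222136) (nat_lit 380) (nat_lit 3389206025) (nat_lit 137) (nat_lit 5) (nat_lit 141) (nat_lit 5) (nat_lit 142) (nat_lit 5) (nat_lit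 611) (nat_lit 496) (nat_lit 453)) (XT.lf (nat_lit 0) (nat_lit 881625598) (nat_lit 380) (nat_lit 6467057047) (nat_lit 76) (nat_lit 3584318080) (nat_lit 132) (nat_lit 5) (nat_lit 137) (nat_lit 5) (nat_lit 133) (nat_lit 5) (nat_lit 612) (nat_lit 496) (nat_lit 452)))) (XT.nd (nat_lit 156) (nat_lit 684) (nat_lit 0) (XT.nd (nat_lit 78) (nat_lit 0) (nat_lit 0) (XT.lf (nat_lit 0) (nat_lit 2215990151) (nat_lit 304) (nat_lit 2976375971) (nat_lit 380) (nat_lit 5853391139) (nat_lit 128) (nat_lit 5) (nat_lit 132) (nat_lit 5) (nat_lit 133) (nat_lit 5) (nat_lit 613) (nat_lit 496) (nat_lit 451)) (XT.lf (nat_lit 0) (nat_lit 9594854916) (nat_lit 380) (nat_lit 89101797) (nat_lit 76) (nat_lit 1476702195) (nat_lit 128) (nat_lit 5) (nat_lit 133) (nat_lit 5) (nat_lit 129) (nat_lit 5) (nat_lit 614) (nat_lit 496) (nat_lit 450))) (XT.nd (nat_lit 78) (nat_lit 304) (nat_lit 0) (XT.lf (nat_lit 0) (nat_lit 2801204081) (nat_lit 380) (nat_lit 2451100049) (nat_lit 76) (nat_lit 6024580705)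 (nat_lit 123) (nat_lit 5) (nat_lit 128) (nat_lit 5) (nat_lit 124) (nat_lit 5) (nat_lit 615) (nat_lit 496) (nat_lit 449)) (XT.lf (nat_lit 0) (nat_lit 6521723914) (nat_lit 304) (nat_lit 709088479) (nat_lit 380) (nat_lit 4164491979) (nat_lit 119) (nat_lit 5) (nat_lit 123) (nat_lit 5) (nat_lit 124) (nat_lit 5) (nat_lit 616) (nat_lit 496) (nat_lit 448)))))) (XT.nd (nat_lit 624) (nat_lit 1596) (nat_lit 0) (XT.nd (nat_lit 312) (nat_lit 836) (nat_lit 0) (XT.nd (nat_lit 156) (nat_lit 380) (nat_lit 0) (XT.nd (nat_lit 78) (nat_lit 228) (nat_lit 0) (XT.lf (nat_lit 0) (nat_lit 252415514) (nat_lit 380) (nat_lit 7375510260) (nat_lit 76) (nat_lit 3887685875) (nat_lit 114) (nat_lit 5) (nat_lit 119) (nat_lit 5) (nat_lit 115) (nat_lit 5) (nat_lit 617) (nat_lit 496) (nat_lit 447)) (XT.lf (nat_lit 0) (nat_lit 1673402854) (nat_lit 228) (nat_lit 3030600142) (nat_lit 304) (nat_lit 6933730019) (nat_lit 111) (nat_lit 5) (nat_lit 114) (nat_lit 5) (nat_lit 115) (nat_lit 5) (nat_lit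 618) (nat_lit 496) (nat_lit 446))) (XT.nd (nat_lit 78) (nat_lit 380) (nat_lit 0) (XT.lf (nat_lit 0) (nat_lit 9258979906) (nat_lit 304) (nat_lit 847830545) (nat_lit 76) (nat_lit 1655199771) (nat_lit 111) (nat_lit 5) (nat_lit 115) (nat_lit 5) (nat_lit 112) (nat_lit 5) (nat_lit 619) (nat_lit 496) (nat_lit 445)) (XT.lf (nat_lit 0) (nat_lit 2019738538) (nat_lit 380) (nat_lit 3436675854) (nat_lit 76) (nat_lit 6431499323) (nat_lit 106) (nat_lit 5) (nat_lit 111) (nat_lit 5) (nat_lit 107) (nat_lit 5) (nat_lit 620) (nat_lit 496) (nat_lit 444)))) (XT.nd (nat_lit 156) (nat_lit 304) (nat_lit 0) (XT.nd (nat_lit 78) (nat_lit 304) (nat_lit 0) (XT.lf (nat_lit 0) (nat_lit 5915275760) (nat_lit 228) (nat_lit 683102388) (nat_lit 304) (nat_lit 5417648144) (nat_lit 103) (nat_lit 5) (nat_lit 106) (nat_lit 5) (nat_lit 107) (nat_lit 5) (nat_lit 621) (nat_lit 496) (nat_lit 443)) (XT.lf (nat_lit 0) (nat_lit 3293040546) (nat_lit 304) (nat_lit 8002269673) (nat_lit 380) (nat_lit 850857031)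 (nat_lit 99) (nat_lit 5) (nat_lit 103) (nat_lit 5) (nat_lit 104) (nat_lit 5) (nat_lit 622) (nat_lit 496) (nat_lit 442))) (XT.nd (nat_lit 78) (nat_lit 0) (nat_lit 0) (XT.lf (nat_lit 0) (nat_lit 579883895) (nat_lit 228) (nat_lit 3181988068) (nat_lit 304) (nat_lit 8516454480) (nat_lit 95) (nat_lit 5) (nat_lit 98) (nat_lit 5) (nat_lit 99) (nat_lit 5) (nat_lit 623) (nat_lit 496) (nat_lit 441)) (XT.lf (nat_lit 0) (nat_lit 8481745595) (nat_lit 304) (nat_lit 2185361714) (nat_lit 76) (nat_lit 1745383860) (nat_lit 95) (nat_lit 5) (nat_lit 99) (nat_lit 5) (nat_lit 96) (nat_lit 5) (nat_lit 624) (nat_lit 496) (nat_lit 440))))) (XT.nd (nat_lit 312) (nat_lit 760) (nat_lit 0) (XT.nd (nat_lit 156) (nat_lit 304) (nat_lit 0) (XT.nd (nat_lit 78) (nat_lit 228) (nat_lit 0) (XT.lf (nat_lit 0) (nat_lit 763034976) (nat_lit 304) (nat_lit 5034482186) (nat_lit 76) (nat_lit 6751202536) (nat_lit 91) (nat_lit 5) (nat_lit 95) (nat_lit 5) (nat_lit 92) (nat_lit 5) (nat_lit 625) (nat_lit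 496) (nat_lit 439)) (XT.lf (nat_lit 0) (nat_lit 4709459530) (nat_lit 228) (nat_lit 790153336) (nat_lit 304) (nat_lit 7187509666) (nat_lit 88) (nat_lit 5) (nat_lit 91) (nat_lit 5) (nat_lit 92) (nat_lit 5) (nat_lit 626) (nat_lit 496) (nat_lit 438))) (XT.nd (nat_lit 78) (nat_lit 76) (nat_lit 0) (XT.lf (nat_lit 0) (nat_lit 1807954588) (nat_lit 228) (nat_lit 8553069391) (nat_lit 304) (nat_lit 2466667864) (nat_lit 85) (nat_lit 5) (nat_lit 88) (nat_lit 5) (nat_lit 89) (nat_lit 5) (nat_lit 627) (nat_lit 496) (nat_lit 437)) (XT.lf (nat_lit 0) (nat_lit 2333310830) (nat_lit 304) (nat_lit 1169899360) (nat_lit 76) (nat_lit 9467247372) (nat_lit 84) (nat_lit 5) (nat_lit 88) (nat_lit 5) (nat_lit 85) (nat_lit 5) (nat_lit 628) (nat_lit 496) (nat_lit 436)))) (XT.nd (nat_lit 156) (nat_lit 304) (nat_lit 0) (XT.nd (nat_lit 78) (nat_lit 228) (nat_lit 0) (XT.lf (nat_lit 0) (nat_lit 7222326114) (nat_lit 304) (nat_lit 4224060216) (nat_lit 76) (nat_lit 1668845288) (nat_lit 81) (nat_lit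 5) (nat_lit 85) (nat_lit 5) (nat_lit 82) (nat_lit 5) (nat_lit 629) (nat_lit 496) (nat_lit 435)) (XT.lf (nat_lit 0) (nat_lit 5885381345) (nat_lit 228) (nat_lit 6350456385) (nat_lit 304) (nat_lit 1026529524) (nat_lit 78) (nat_lit 5) (nat_lit 81) (nat_lit 5) (nat_lit 82) (nat_lit 5) (nat_lit 630) (nat_lit 496) (nat_lit 434))) (XT.nd (nat_lit 78) (nat_lit 0) (nat_lit 0) (XT.lf (nat_lit 0) (nat_lit 2777869637) (nat_lit 228) (nat_lit 1111708752) (nat_lit 304) (nat_lit 9522275541) (nat_lit 74) (nat_lit 5) (nat_lit 77) (nat_lit 5) (nat_lit 78) (nat_lit 5) (nat_lit 631) (nat_lit 496) (nat_lit 433)) (XT.lf (nat_lit 0) (nat_lit 8925192741) (nat_lit 304) (nat_lit 437464247) (nat_lit 76) (nat_lit 4200839451) (nat_lit 74) (nat_lit 5) (nat_lit 78) (nat_lit 5) (nat_lit 75) (nat_lit 5) (nat_lit 632) (nat_lit 496) (nat_lit 432))))))) (XT.nd (nat_lit 1170) (nat_lit 0) (nat_lit 0) (XT.nd (nat_lit 546) (nat_lit 1216) (nat_lit 0) (XT.nd (nat_lit 234) (nat_lit 684) (nat_lit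 0) (XT.nd (nat_lit 78) (nat_lit 380) (nat_lit 0) (XT.lf (nat_lit 0) (nat_lit 369862893) (nat_lit 304) (nat_lit 3706906113) (nat_lit 76) (nat_lit 9640738220) (nat_lit 70) (nat_lit 5) (nat_lit 74) (nat_lit 5) (nat_lit 71) (nat_lit 5) (nat_lit 633) (nat_lit 496) (nat_lit 431)) (XT.nd (nat_lit 78) (nat_lit 228) (nat_lit 0) (XT.lf (nat_lit 0) (nat_lit 5430487599) (nat_lit 228) (nat_lit 7099399179) (nat_lit 76) (nat_lit 1343810608) (nat_lit 68) (nat_lit 5) (nat_lit 71) (nat_lit 5) (nat_lit 69) (nat_lit 5) (nat_lit 634) (nat_lit 496) (nat_lit 430)) (XT.lf (nat_lit 0) (nat_lit 3426580316) (nat_lit 228) (nat_lit 7198663663) (nat_lit 304) (nat_lit 3407109354) (nat_lit 65) (nat_lit 5) (nat_lit 68) (nat_lit 5) (nat_lit 69) (nat_lit 5) (nat_lit 635) (nat_lit 496) (nat_lit 429)))) (XT.nd (nat_lit 156) (nat_lit 456) (nat_lit 0) (XT.nd (nat_lit 78) (nat_lit 152) (nat_lit 0) (XT.lf (nat_lit 0) (nat_lit 1713678197) (nat_lit 304) (nat_lit 19581518) (nat_lit 76) (nat_lit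 12460565415) (nat_lit 64) (nat_lit 5) (nat_lit 68) (nat_lit 5) (nat_lit 65) (nat_lit 5) (nat_lit 636) (nat_lit 496) (nat_lit 428)) (XT.lf (nat_lit 0) (nat_lit 6946438108) (nat_lit 228) (nat_lit 3557750230) (nat_lit 76) (nat_lit 3852784393) (nat_lit 62) (nat_lit 5) (nat_lit 65) (nat_lit 5) (nat_lit 63) (nat_lit 5) (nat_lit 637) (nat_lit 496) (nat_lit 427))) (XT.nd (nat_lit 78) (nat_lit 228) (nat_lit 0) (XT.lf (nat_lit 0) (nat_lit 7323067225) (nat_lit 228) (nat_lit 4979564788) (nat_lit 304) (nat_lit 2220376035) (nat_lit 59) (nat_lit 5) (nat_lit 62) (nat_lit 5) (nat_lit 63) (nat_lit 5) (nat_lit 638) (nat_lit 496) (nat_lit 426)) (XT.lf (nat_lit 0) (nat_lit 3045725689) (nat_lit 228) (nat_lit 10962447615) (nat_lit 76) (nat_lit 683542965) (nat_lit 56) (nat_lit 5) (nat_lit 59) (nat_lit 5) (nat_lit 57) (nat_lit 5) (nat_lit 639) (nat_lit 496) (nat_lit 425))))) (XT.nd (nat_lit 312) (nat_lit 608) (nat_lit 0) (XT.nd (nat_lit 156) (nat_lit 380) (nat_lit 0) (XT.nd (nat_lit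 78) (nat_lit 228) (nat_lit 0) (XT.lf (nat_lit 0) (nat_lit 8428848150) (nat_lit 228) (nat_lit 9127049) (nat_lit 76) (nat_lit 6424701650) (nat_lit 56) (nat_lit 5) (nat_lit 59) (nat_lit 5) (nat_lit 57) (nat_lit 5) (nat_lit 640) (nat_lit 496) (nat_lit 424)) (XT.lf (nat_lit 0) (nat_lit 11239141304) (nat_lit 228) (nat_lit 2714041297) (nat_lit 304) (nat_lit 1083203362) (nat_lit 53) (nat_lit 5) (nat_lit 56) (nat_lit 5) (nat_lit 57) (nat_lit 5) (nat_lit 641) (nat_lit 496) (nat_lit 423))) (XT.nd (nat_lit 78) (nat_lit 152) (nat_lit 0) (XT.lf (nat_lit 0) (nat_lit 4347019170) (nat_lit 228) (nat_lit 7736119586) (nat_lit 76) (nat_lit 3129263646) (nat_lit 50) (nat_lit 5) (nat_lit 53) (nat_lit 5) (nat_lit 51) (nat_lit 5) (nat_lit 642) (nat_lit 496) (nat_lit 422)) (XT.lf (nat_lit 0) (nat_lit 3585352935) (nat_lit 152) (nat_lit 6313637414) (nat_lit 228) (nat_lit 5492252950) (nat_lit 48) (nat_lit 5) (nat_lit 50) (nat_lit 5) (nat_lit 51) (nat_lit 5) (nat_lit 643) (nat_lit 496)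 (nat_lit 421)))) (XT.nd (nat_lit 156) (nat_lit 380) (nat_lit 0) (XT.nd (nat_lit 78) (nat_lit 152) (nat_lit 0) (XT.lf (nat_lit 0) (nat_lit 1531631) (nat_lit 228) (nat_lit 406498207) (nat_lit 76) (nat_lit 15165372197) (nat_lit 47) (nat_lit 5) (nat_lit 50) (nat_lit 5) (nat_lit 48) (nat_lit 5) (nat_lit 644) (nat_lit 496) (nat_lit 420)) (XT.lf (nat_lit 0) (nat_lit 5603368535) (nat_lit 228) (nat_lit 4532872361) (nat_lit 76) (nat_lit 5620802894) (nat_lit 45) (nat_lit 5) (nat_lit 48) (nat_lit 5) (nat_lit 46) (nat_lit 5) (nat_lit 645) (nat_lit 496) (nat_lit 419))) (XT.nd (nat_lit 78) (nat_lit 228) (nat_lit 0) (XT.lf (nat_lit 0) (nat_lit 7169554843) (nat_lit 152) (nat_lit 4161329900) (nat_lit 228) (nat_lit 4613201059) (nat_lit 43) (nat_lit 5) (nat_lit 45) (nat_lit 5) (nat_lit 46) (nat_lit 5) (nat_lit 646) (nat_lit 496) (nat_lit 418)) (XT.lf (nat_lit 0) (nat_lit 1048942363) (nat_lit 228) (nat_lit 13152124725) (nat_lit 76) (nat_lit 1933177541) (nat_lit 40) (nat_lit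 5) (nat_lit 43) (nat_lit 5) (nat_lit 41) (nat_lit 5) (nat_lit 647) (nat_lit 496) (nat_lit 417)))))) (XT.nd (nat_lit 75348) (nat_lit 0) (nat_lit 19380) (XT.nd (nat_lit 75036) (nat_lit 0) (nat_lit 24320) (XT.nd (nat_lit 74880) (nat_lit 0) (nat_lit 26752) (XT.nd (nat_lit 74802) (nat_lit 0) (nat_lit 27664) (XT.lf (nat_lit 0) (nat_lit 6811225372) (nat_lit 228) (nat_lit 1363234679) (nat_lit 76) (nat_lit 8152163624) (nat_lit 40) (nat_lit 5) (nat_lit 43) (nat_lit 5) (nat_lit 41) (nat_lit 5) (nat_lit 648) (nat_lit 496) (nat_lit 416)) (XT.lf (nat_lit 0) (nat_lit 362219351) (nat_lit 912) (nat_lit 3000750223) (nat_lit 0) (nat_lit 362219351) (nat_lit 404) (nat_lit 5) (nat_lit 416) (nat_lit 4) (nat_lit 404) (nat_lit 4) (nat_lit 566) (nat_lit 497) (nat_lit 497))) (XT.nd (nat_lit 78) (nat_lit 912) (nat_lit 0) (XT.lf (nat_lit 0) (nat_lit 4436980595) (nat_lit 912) (nat_lit 104592542) (nat_lit 0) (nat_lit 2953405328) (nat_lit 404) (nat_lit 5) (nat_lit 416) (nat_lit 4) (nat_lit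 404) (nat_lit 4) (nat_lit 567) (nat_lit 497) (nat_lit 496)) (XT.lf (nat_lit 0) (nat_lit 644612724) (nat_lit 912) (nat_lit 1635943116) (nat_lit 76) (nat_lit 5260423390) (nat_lit 392) (nat_lit 5) (nat_lit 404) (nat_lit 5) (nat_lit 393) (nat_lit 4) (nat_lit 568) (nat_lit 497) (nat_lit 495)))) (XT.nd (nat_lit 156) (nat_lit 836) (nat_lit 0) (XT.nd (nat_lit 78) (nat_lit 836) (nat_lit 0) (XT.lf (nat_lit 0) (nat_lit 4342591584) (nat_lit 836) (nat_lit 3181527484) (nat_lit 0) (nat_lit 64133690) (nat_lit 382) (nat_lit 5) (nat_lit 393) (nat_lit 4) (nat_lit 382) (nat_lit 4) (nat_lit 569) (nat_lit 497) (nat_lit 494)) (XT.lf (nat_lit 0) (nat_lit 449843614) (nat_lit 836) (nat_lit 4740368016) (nat_lit 76) (nat_lit 2446639122) (nat_lit 371) (nat_lit 5) (nat_lit 382) (nat_lit 5) (nat_lit 372) (nat_lit 4) (nat_lit 570) (nat_lit 497) (nat_lit 493))) (XT.nd (nat_lit 78) (nat_lit 76) (nat_lit 0) (XT.lf (nat_lit 0) (nat_lit 1369630533) (nat_lit 760) (nat_lit 2770172673) (nat_lit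 836) (nat_lit 3546910478) (nat_lit 361) (nat_lit 5) (nat_lit 371) (nat_lit 5) (nat_lit 372) (nat_lit 4) (nat_lit 571) (nat_lit 497) (nat_lit 492)) (XT.lf (nat_lit 0) (nat_lit 129762401) (nat_lit 836) (nat_lit 152377065) (nat_lit 76) (nat_lit 7456095881) (nat_lit 360) (nat_lit 5) (nat_lit 371) (nat_lit 5) (nat_lit 361) (nat_lit 5) (nat_lit 572) (nat_lit 497) (nat_lit 491))))) (XT.nd (nat_lit 312) (nat_lit 2052) (nat_lit 0) (XT.nd (nat_lit 156) (nat_lit 1444) (nat_lit 0) (XT.nd (nat_lit 78) (nat_lit 684) (nat_lit 0) (XT.lf (nat_lit 0) (nat_lit 3822413047) (nat_lit 836) (nat_lit 1692143166) (nat_lit 76) (nat_lit 2275965592) (nat_lit 350) (nat_lit 5) (nat_lit 361) (nat_lit 5) (nat_lit 351) (nat_lit 4) (nat_lit 573) (nat_lit 497) (nat_lit 490)) (XT.lf (nat_lit 0) (nat_lit 4611652178) (nat_lit 684) (nat_lit 2946000849) (nat_lit 760) (nat_lit 286828210) (nat_lit 341) (nat_lit 5) (nat_lit 350) (nat_lit 5) (nat_lit 351) (nat_lit 4) (nat_lit 574) (nat_lit 497) (nat_lit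 489))) (XT.nd (nat_lit 78) (nat_lit 684) (nat_lit 0) (XT.lf (nat_lit 0) (nat_lit 3103616146) (nat_lit 684) (nat_lit 286778794) (nat_lit 760) (nat_lit 4509320446) (nat_lit 331) (nat_lit 5) (nat_lit 340) (nat_lit 5) (nat_lit 341) (nat_lit 5) (nat_lit 575) (nat_lit 497) (nat_lit 488)) (XT.lf (nat_lit 0) (nat_lit 1577591902) (nat_lit 684) (nat_lit 5544415415) (nat_lit 760) (nat_lit 834317132) (nat_lit 322) (nat_lit 5) (nat_lit 331) (nat_lit 5) (nat_lit 332) (nat_lit 4) (nat_lit 576) (nat_lit 497) (nat_lit 487)))) (XT.nd (nat_lit 156) (nat_lit 1292) (nat_lit 0) (XT.nd (nat_lit 78) (nat_lit 0) (nat_lit 0) (XT.lf (nat_lit 0) (nat_lit 29088640) (nat_lit 684) (nat_lit 2818520715) (nat_lit 760) (nat_lit 5166646844) (nat_lit 312) (nat_lit 5) (nat_lit 321) (nat_lit 5) (nat_lit 322) (nat_lit 5) (nat_lit 577) (nat_lit 497) (nat_lit 486)) (XT.lf (nat_lit 0) (nat_lit 6565856312) (nat_lit 684) (nat_lit 6795225) (nat_lit 760) (nat_lit 1500973529) (nat_lit 312) (nat_lit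 5) (nat_lit 321) (nat_lit 5) (nat_lit 322) (nat_lit 5) (nat_lit 578) (nat_lit 497) (nat_lit 485))) (XT.nd (nat_lit 78) (nat_lit 608) (nat_lit 0) (XT.lf (nat_lit 0) (nat_lit 2199048127) (nat_lit 684) (nat_lit 3081391676) (nat_lit 76) (nat_lit 2853644842) (nat_lit 303) (nat_lit 5) (nat_lit 312) (nat_lit 5) (nat_lit 304) (nat_lit 5) (nat_lit 579) (nat_lit 497) (nat_lit 484)) (XT.lf (nat_lit 0) (nat_lit 3525539564) (nat_lit 608) (nat_lit 2399827212) (nat_lit 684) (nat_lit 2270741969) (nat_lit 295) (nat_lit 5) (nat_lit 303) (nat_lit 5) (nat_lit 304) (nat_lit 5) (nat_lit 580) (nat_lit 497) (nat_lit 483))))))))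
noncomputable def xc29 : XT := (XT.nd (nat_lit 2418) (nat_lit 6612) (nat_lit 0) (XT.nd (nat_lit 1170) (nat_lit 5244) (nat_lit 0) (XT.nd (nat_lit 546) (nat_lit 3116) (nat_lit 0) (XT.nd (nat_lit 234) (nat_lit 2280) (nat_lit 0) (XT.nd (nat_lit 78) (nat_lit 684) (nat_lit 0) (XT.lf (nat_lit 0) (nat_lit 1424480086) (nat_lit 684) (nat_lit 6279777375) (nat_lit 76) (nat_lit 555389390) (nat_lit 286) (nat_lit 5) (nat_lit 295) (nat_lit 5) (nat_lit 287) (nat_lit 5) (nat_lit 581) (nat_lit 497) (nat_lit 482)) (XT.nd (nat_lit 78) (nat_lit 76) (nat_lit 0) (XT.lf (nat_lit 0) (nat_lit 396137670) (nat_lit 608) (nat_lit 4757178218) (nat_lit 684) (nat_lit 3171038903) (nat_lit 278) (nat_lit 5) (nat_lit 286) (nat_lit 5) (nat_lit 287) (nat_lit 5) (nat_lit 582) (nat_lit 497) (nat_lit 481)) (XT.lf (nat_lit 0) (nat_lit 541695225) (nat_lit 684) (nat_lit 1183756856) (nat_lit 76) (nat_lit 6665177724) (nat_lit 277) (nat_lit 5) (nat_lit 286) (nat_lit 5) (nat_lit 278) (nat_lit 5) (nat_lit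 583) (nat_lit 497) (nat_lit 480)))) (XT.nd (nat_lit 156) (nat_lit 1140) (nat_lit 0) (XT.nd (nat_lit 78) (nat_lit 608) (nat_lit 0) (XT.lf (nat_lit 0) (nat_lit 4273698140) (nat_lit 608) (nat_lit 2797811607) (nat_lit 76) (nat_lit 1386553339) (nat_lit 270) (nat_lit 5) (nat_lit 278) (nat_lit 5) (nat_lit 271) (nat_lit 5) (nat_lit 584) (nat_lit 497) (nat_lit 479)) (XT.lf (nat_lit 0) (nat_lit 4092804792) (nat_lit 608) (nat_lit 3975533176) (nat_lit 684) (nat_lit 458748565) (nat_lit 262) (nat_lit 5) (nat_lit 270) (nat_lit 5) (nat_lit 271) (nat_lit 5) (nat_lit 585) (nat_lit 497) (nat_lit 478))) (XT.nd (nat_lit 78) (nat_lit 532) (nat_lit 0) (XT.lf (nat_lit 0) (nat_lit 2492781177) (nat_lit 532) (nat_lit 782101217) (nat_lit 608) (nat_lit 5322629047) (nat_lit 254) (nat_lit 5) (nat_lit 261) (nat_lit 5) (nat_lit 262) (nat_lit 5) (nat_lit 586) (nat_lit 497) (nat_lit 477)) (XT.lf (nat_lit 0) (nat_lit 861123434) (nat_lit 532) (nat_lit 6210251603) (nat_lit 608) (nat_lit 1598023882)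 (nat_lit 247) (nat_lit 5) (nat_lit 254) (nat_lit 5) (nat_lit 255) (nat_lit 5) (nat_lit 587) (nat_lit 497) (nat_lit 476))))) (XT.nd (nat_lit 312) (nat_lit 1520) (nat_lit 0) (XT.nd (nat_lit 156) (nat_lit 1064) (nat_lit 0) (XT.nd (nat_lit 78) (nat_lit 456) (nat_lit 0) (XT.lf (nat_lit 0) (nat_lit 2161560246) (nat_lit 608) (nat_lit 793438392) (nat_lit 76) (nat_lit 5787653908) (nat_lit 246) (nat_lit 5) (nat_lit 254) (nat_lit 5) (nat_lit 247) (nat_lit 5) (nat_lit 588) (nat_lit 497) (nat_lit 475)) (XT.lf (nat_lit 0) (nat_lit 5962841396) (nat_lit 532) (nat_lit 2464808774) (nat_lit 76) (nat_lit 389753034) (nat_lit 240) (nat_lit 5) (nat_lit 247) (nat_lit 5) (nat_lit 241) (nat_lit 5) (nat_lit 589) (nat_lit 497) (nat_lit 474))) (XT.nd (nat_lit 78) (nat_lit 456) (nat_lit 0) (XT.lf (nat_lit 0) (nat_lit 934159093) (nat_lit 608) (nat_lit 4178404148) (nat_lit 76) (nat_lit 3780962490) (nat_lit 232) (nat_lit 5) (nat_lit 240) (nat_lit 5) (nat_lit 233) (nat_lit 5) (nat_lit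 590) (nat_lit 497) (nat_lit 473)) (XT.lf (nat_lit 0) (nat_lit 3042207502) (nat_lit 456) (nat_lit 1699361689) (nat_lit 532) (nat_lit 4229602598) (nat_lit 226) (nat_lit 5) (nat_lit 232) (nat_lit 5) (nat_lit 233) (nat_lit 5) (nat_lit 591) (nat_lit 497) (nat_lit 472)))) (XT.nd (nat_lit 156) (nat_lit 988) (nat_lit 0) (XT.nd (nat_lit 78) (nat_lit 76) (nat_lit 0) (XT.lf (nat_lit 0) (nat_lit 1339563493) (nat_lit 456) (nat_lit 7279165790) (nat_lit 532) (nat_lit 431770629) (nat_lit 220) (nat_lit 5) (nat_lit 226) (nat_lit 5) (nat_lit 227) (nat_lit 5) (nat_lit 592) (nat_lit 497) (nat_lit 471)) (XT.lf (nat_lit 0) (nat_lit 3393485517) (nat_lit 532) (nat_lit 411163001) (nat_lit 76) (nat_lit 5326388051) (nat_lit 219) (nat_lit 5) (nat_lit 226) (nat_lit 5) (nat_lit 220) (nat_lit 5) (nat_lit 593) (nat_lit 497) (nat_lit 470))) (XT.nd (nat_lit 78) (nat_lit 532) (nat_lit 0) (XT.lf (nat_lit 0) (nat_lit 7045215119) (nat_lit 456) (nat_lit 236376517) (nat_lit 532) (nat_lit 1931693829)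 (nat_lit 213) (nat_lit 5) (nat_lit 219) (nat_lit 5) (nat_lit 220) (nat_lit 5) (nat_lit 594) (nat_lit 497) (nat_lit 469)) (XT.lf (nat_lit 0) (nat_lit 1930962903) (nat_lit 532) (nat_lit 3982141012) (nat_lit 76) (nat_lit 3383698028) (nat_lit 206) (nat_lit 5) (nat_lit 213) (nat_lit 5) (nat_lit 207) (nat_lit 5) (nat_lit 595) (nat_lit 497) (nat_lit 468)))))) (XT.nd (nat_lit 624) (nat_lit 2660) (nat_lit 0) (XT.nd (nat_lit 312) (nat_lit 1292) (nat_lit 0) (XT.nd (nat_lit 156) (nat_lit 380) (nat_lit 0) (XT.nd (nat_lit 78) (nat_lit 532) (nat_lit 0) (XT.lf (nat_lit 0) (nat_lit 3547313078) (nat_lit 380) (nat_lit 2283899435) (nat_lit 456) (nat_lit 3550797811) (nat_lit 201) (nat_lit 5) (nat_lit 206) (nat_lit 5) (nat_lit 207) (nat_lit 5) (nat_lit 596) (nat_lit 497) (nat_lit 467)) (XT.lf (nat_lit 0) (nat_lit 330782239) (nat_lit 532) (nat_lit 7724585142) (nat_lit 76) (nat_lit 1413618193) (nat_lit 194) (nat_lit 5) (nat_lit 201) (nat_lit 5) (nat_lit 195) (nat_lit 5) (nat_lit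 597) (nat_lit 497) (nat_lit 466))) (XT.nd (nat_lit 78) (nat_lit 380) (nat_lit 0) (XT.lf (nat_lit 0) (nat_lit 4244498120) (nat_lit 532) (nat_lit 121670821) (nat_lit 76) (nat_lit 5191021969) (nat_lit 194) (nat_lit 5) (nat_lit 201) (nat_lit 5) (nat_lit 195) (nat_lit 5) (nat_lit 598) (nat_lit 497) (nat_lit 465)) (XT.lf (nat_lit 0) (nat_lit 7655246008) (nat_lit 380) (nat_lit 579441929) (nat_lit 456) (nat_lit 1412509391) (nat_lit 189) (nat_lit 5) (nat_lit 194) (nat_lit 5) (nat_lit 195) (nat_lit 5) (nat_lit 599) (nat_lit 497) (nat_lit 464)))) (XT.nd (nat_lit 156) (nat_lit 456) (nat_lit 0) (XT.nd (nat_lit 78) (nat_lit 380) (nat_lit 0) (XT.lf (nat_lit 0) (nat_lit 2540879315) (nat_lit 456) (nat_lit 3928870992) (nat_lit 76) (nat_lit 3268744316) (nat_lit 183) (nat_lit 5) (nat_lit 189) (nat_lit 5) (nat_lit 184) (nat_lit 5) (nat_lit 600) (nat_lit 497) (nat_lit 463)) (XT.lf (nat_lit 0) (nat_lit 3922093562) (nat_lit 380) (nat_lit 2624088497) (nat_lit 456) (nat_lit 3285414787)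 (nat_lit 178) (nat_lit 5) (nat_lit 183) (nat_lit 5) (nat_lit 184) (nat_lit 5) (nat_lit 601) (nat_lit 497) (nat_lit 462))) (XT.nd (nat_lit 78) (nat_lit 0) (nat_lit 0) (XT.lf (nat_lit 0) (nat_lit 692984998) (nat_lit 456) (nat_lit 7935565639) (nat_lit 76) (nat_lit 1297975765) (nat_lit 172) (nat_lit 5) (nat_lit 178) (nat_lit 5) (nat_lit 173) (nat_lit 5) (nat_lit 602) (nat_lit 497) (nat_lit 461)) (XT.lf (nat_lit 0) (nat_lit 4713742599) (nat_lit 456) (nat_lit 11829141) (nat_lit 76) (nat_lit 5297213706) (nat_lit 172) (nat_lit 5) (nat_lit 178) (nat_lit 5) (nat_lit 173) (nat_lit 5) (nat_lit 603) (nat_lit 497) (nat_lit 460))))) (XT.nd (nat_lit 312) (nat_lit 1064) (nat_lit 0) (XT.nd (nat_lit 156) (nat_lit 760) (nat_lit 0) (XT.nd (nat_lit 78) (nat_lit 456) (nat_lit 0) (XT.lf (nat_lit 0) (nat_lit 8098747371) (nat_lit 380) (nat_lit 719185550) (nat_lit 456) (nat_lit 1302977239) (nat_lit 167) (nat_lit 5) (nat_lit 172) (nat_lit 5) (nat_lit 173) (nat_lit 5) (nat_lit 604)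 (nat_lit 497) (nat_lit 459)) (XT.lf (nat_lit 0) (nat_lit 2759260697) (nat_lit 456) (nat_lit 4107793094) (nat_lit 76) (nat_lit 3353331912) (nat_lit 161) (nat_lit 5) (nat_lit 167) (nat_lit 5) (nat_lit 162) (nat_lit 5) (nat_lit 605) (nat_lit 497) (nat_lit 458))) (XT.nd (nat_lit 78) (nat_lit 456) (nat_lit 0) (XT.lf (nat_lit 0) (nat_lit 4077593211) (nat_lit 304) (nat_lit 2803476174) (nat_lit 380) (nat_lit 3440694456) (nat_lit 157) (nat_lit 5) (nat_lit 161) (nat_lit 5) (nat_lit 162) (nat_lit 5) (nat_lit 606) (nat_lit 497) (nat_lit 457)) (XT.lf (nat_lit 0) (nat_lit 652038795) (nat_lit 456) (nat_lit 8432953877) (nat_lit 76) (nat_lit 1340080869) (nat_lit 151) (nat_lit 5) (nat_lit 157) (nat_lit 5) (nat_lit 152) (nat_lit 5) (nat_lit 607) (nat_lit 497) (nat_lit 456)))) (XT.nd (nat_lit 156) (nat_lit 760) (nat_lit 0) (XT.nd (nat_lit 78) (nat_lit 304) (nat_lit 0) (XT.lf (nat_lit 0) (nat_lit 4792603791) (nat_lit 456) (nat_lit 172144386) (nat_lit 76) (nat_lit 5565006186)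 (nat_lit 151) (nat_lit 5) (nat_lit 157) (nat_lit 5) (nat_lit 152) (nat_lit 5) (nat_lit 608) (nat_lit 497) (nat_lit 455)) (XT.lf (nat_lit 0) (nat_lit 8285408158) (nat_lit 304) (nat_lit 736581666) (nat_lit 380) (nat_lit 1614419515) (nat_lit 147) (nat_lit 5) (nat_lit 151) (nat_lit 5) (nat_lit 152) (nat_lit 5) (nat_lit 609) (nat_lit 497) (nat_lit 454))) (XT.nd (nat_lit 78) (nat_lit 304) (nat_lit 0) (XT.lf (nat_lit 0) (nat_lit 2573669740) (nat_lit 456) (nat_lit 4612488713) (nat_lit 76) (nat_lit 3558365609) (nat_lit 141) (nat_lit 5) (nat_lit 147) (nat_lit 5) (nat_lit 142) (nat_lit 5) (nat_lit 610) (nat_lit 497) (nat_lit 453)) (XT.lf (nat_lit 0) (nat_lit 3920348113) (nat_lit 304) (nat_lit 2902373197) (nat_lit 380) (nat_lit 4031890681) (nat_lit 137) (nat_lit 5) (nat_lit 141) (nat_lit 5) (nat_lit 142) (nat_lit 5) (nat_lit 611) (nat_lit 497) (nat_lit 452))))))) (XT.nd (nat_lit 1170) (nat_lit 2888) (nat_lit 0) (XT.nd (nat_lit 546) (nat_lit 1976) (nat_lit 0) (XT.nd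 (nat_lit 234) (nat_lit 1064) (nat_lit 0) (XT.nd (nat_lit 78) (nat_lit 304) (nat_lit 0) (XT.lf (nat_lit 0) (nat_lit 191632914) (nat_lit 380) (nat_lit 9313774509) (nat_lit 76) (nat_lit 1461384854) (nat_lit 132) (nat_lit 5) (nat_lit 137) (nat_lit 5) (nat_lit 133) (nat_lit 5) (nat_lit 612) (nat_lit 497) (nat_lit 451)) (XT.nd (nat_lit 78) (nat_lit 304) (nat_lit 0) (XT.lf (nat_lit 0) (nat_lit 4464685360) (nat_lit 380) (nat_lit 698334815) (nat_lit 76) (nat_lit 5917282721) (nat_lit 132) (nat_lit 5) (nat_lit 137) (nat_lit 5) (nat_lit 133) (nat_lit 5) (nat_lit 613) (nat_lit 497) (nat_lit 450)) (XT.lf (nat_lit 0) (nat_lit 8119570278) (nat_lit 304) (nat_lit 710202281) (nat_lit 380) (nat_lit 2366180331) (nat_lit 128) (nat_lit 5) (nat_lit 132) (nat_lit 5) (nat_lit 133) (nat_lit 5) (nat_lit 614) (nat_lit 497) (nat_lit 449)))) (XT.nd (nat_lit 156) (nat_lit 380) (nat_lit 0) (XT.nd (nat_lit 78) (nat_lit 304) (nat_lit 0) (XT.lf (nat_lit 0) (nat_lit 1963792459) (nat_lit 380)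 (nat_lit 5542537253) (nat_lit 76) (nat_lit 3806903990) (nat_lit 123) (nat_lit 5) (nat_lit 128) (nat_lit 5) (nat_lit 124) (nat_lit 5) (nat_lit 615) (nat_lit 497) (nat_lit 448)) (XT.lf (nat_lit 0) (nat_lit 3350750011) (nat_lit 304) (nat_lit 2999378437) (nat_lit 380) (nat_lit 5082390534) (nat_lit 119) (nat_lit 5) (nat_lit 123) (nat_lit 5) (nat_lit 124) (nat_lit 5) (nat_lit 616) (nat_lit 497) (nat_lit 447))) (XT.nd (nat_lit 78) (nat_lit 76) (nat_lit 0) (XT.lf (nat_lit 0) (nat_lit 867483275) (nat_lit 304) (nat_lit 9964535519) (nat_lit 380) (nat_lit 722015211) (nat_lit 115) (nat_lit 5) (nat_lit 119) (nat_lit 5) (nat_lit 120) (nat_lit 5) (nat_lit 617) (nat_lit 497) (nat_lit 446)) (XT.lf (nat_lit 0) (nat_lit 3705642618) (nat_lit 380) (nat_lit 1692996544) (nat_lit 76) (nat_lit 6278278226) (nat_lit 114) (nat_lit 5) (nat_lit 119) (nat_lit 5) (nat_lit 115) (nat_lit 5) (nat_lit 618) (nat_lit 497) (nat_lit 445))))) (XT.nd (nat_lit 312) (nat_lit 1140) (nat_lit 0) (XT.nd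 (nat_lit 156) (nat_lit 228) (nat_lit 0) (XT.nd (nat_lit 78) (nat_lit 380) (nat_lit 0) (XT.lf (nat_lit 0) (nat_lit 7498539412) (nat_lit 228) (nat_lit 717714442) (nat_lit 304) (nat_lit 3585828329) (nat_lit 111) (nat_lit 5) (nat_lit 114) (nat_lit 5) (nat_lit 115) (nat_lit 5) (nat_lit 619) (nat_lit 497) (nat_lit 444)) (XT.lf (nat_lit 0) (nat_lit 901203486) (nat_lit 380) (nat_lit 7005240643) (nat_lit 76) (nat_lit 4022681179) (nat_lit 106) (nat_lit 5) (nat_lit 111) (nat_lit 5) (nat_lit 107) (nat_lit 5) (nat_lit 620) (nat_lit 497) (nat_lit 443))) (XT.nd (nat_lit 78) (nat_lit 0) (nat_lit 0) (XT.lf (nat_lit 0) (nat_lit 2261296225) (nat_lit 228) (nat_lit 3172869143) (nat_lit 304) (nat_lit 6623986330) (nat_lit 103) (nat_lit 5) (nat_lit 106) (nat_lit 5) (nat_lit 107) (nat_lit 5) (nat_lit 621) (nat_lit 497) (nat_lit 442)) (XT.lf (nat_lit 0) (nat_lit 10071686085) (nat_lit 304) (nat_lit 467668529) (nat_lit 76) (nat_lit 1650126524) (nat_lit 103) (nat_lit 5) (nat_lit 107)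 (nat_lit 5) (nat_lit 104) (nat_lit 5) (nat_lit 622) (nat_lit 497) (nat_lit 441)))) (XT.nd (nat_lit 156) (nat_lit 532) (nat_lit 0) (XT.nd (nat_lit 78) (nat_lit 228) (nat_lit 0) (XT.lf (nat_lit 0) (nat_lit 2482864918) (nat_lit 380) (nat_lit 3267398329) (nat_lit 76) (nat_lit 6572115546) (nat_lit 98) (nat_lit 5) (nat_lit 103) (nat_lit 5) (nat_lit 99) (nat_lit 5) (nat_lit 623) (nat_lit 497) (nat_lit 440)) (XT.lf (nat_lit 0) (nat_lit 6310761641) (nat_lit 228) (nat_lit 837360302) (nat_lit 304) (nat_lit 5309514147) (nat_lit 95) (nat_lit 5) (nat_lit 98) (nat_lit 5) (nat_lit 99) (nat_lit 5) (nat_lit 624) (nat_lit 497) (nat_lit 439))) (XT.nd (nat_lit 78) (nat_lit 304) (nat_lit 0) (XT.lf (nat_lit 0) (nat_lit 3473248903) (nat_lit 228) (nat_lit 8462102446) (nat_lit 304) (nat_lit 659674314) (nat_lit 92) (nat_lit 5) (nat_lit 95) (nat_lit 5) (nat_lit 96) (nat_lit 5) (nat_lit 625) (nat_lit 497) (nat_lit 438)) (XT.lf (nat_lit 0) (nat_lit 534687882) (nat_lit 228) (nat_lit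 3502487656) (nat_lit 304) (nat_lit 8697306440) (nat_lit 88) (nat_lit 5) (nat_lit 91) (nat_lit 5) (nat_lit 92) (nat_lit 5) (nat_lit 626) (nat_lit 497) (nat_lit 437)))))) (XT.nd (nat_lit 624) (nat_lit 1368) (nat_lit 0) (XT.nd (nat_lit 312) (nat_lit 760) (nat_lit 0) (XT.nd (nat_lit 156) (nat_lit 456) (nat_lit 0) (XT.nd (nat_lit 78) (nat_lit 304) (nat_lit 0) (XT.lf (nat_lit 0) (nat_lit 8848040265) (nat_lit 304) (nat_lit 2457362062) (nat_lit 76) (nat_lit 1570660111) (nat_lit 88) (nat_lit 5) (nat_lit 92) (nat_lit 5) (nat_lit 89) (nat_lit 5) (nat_lit 627) (nat_lit 497) (nat_lit 436)) (XT.lf (nat_lit 0) (nat_lit 754999391) (nat_lit 304) (nat_lit 5543444212) (nat_lit 76) (nat_lit 6721336206) (nat_lit 84) (nat_lit 5) (nat_lit 88) (nat_lit 5) (nat_lit 85) (nat_lit 5) (nat_lit 628) (nat_lit 497) (nat_lit 435))) (XT.nd (nat_lit 78) (nat_lit 228) (nat_lit 0) (XT.lf (nat_lit 0) (nat_lit 4433825859) (nat_lit 228) (nat_lit 1149451079) (nat_lit 304) (nat_lit 7582491889)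 (nat_lit 81) (nat_lit 5) (nat_lit 84) (nat_lit 5) (nat_lit 85) (nat_lit 5) (nat_lit 629) (nat_lit 497) (nat_lit 434)) (XT.lf (nat_lit 0) (nat_lit 1288203940) (nat_lit 228) (nat_lit 9250598836) (nat_lit 304) (nat_lit 2775261607) (nat_lit 78) (nat_lit 5) (nat_lit 81) (nat_lit 5) (nat_lit 82) (nat_lit 5) (nat_lit 630) (nat_lit 497) (nat_lit 433)))) (XT.nd (nat_lit 156) (nat_lit 456) (nat_lit 0) (XT.nd (nat_lit 78) (nat_lit 228) (nat_lit 0) (XT.lf (nat_lit 0) (nat_lit 2125104819) (nat_lit 304) (nat_lit 1932582670) (nat_lit 76) (nat_lit 9406864374) (nat_lit 77) (nat_lit 5) (nat_lit 81) (nat_lit 5) (nat_lit 78) (nat_lit 5) (nat_lit 631) (nat_lit 497) (nat_lit 432)) (XT.lf (nat_lit 0) (nat_lit 7108219502) (nat_lit 304) (nat_lit 5243906762) (nat_lit 76) (nat_lit 1265118293) (nat_lit 74) (nat_lit 5) (nat_lit 78) (nat_lit 5) (nat_lit 75) (nat_lit 5) (nat_lit 632) (nat_lit 497) (nat_lit 431))) (XT.nd (nat_lit 78) (nat_lit 228) (nat_lit 0) (XT.lf (nat_lit 0) (nat_lit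 5106439622) (nat_lit 228) (nat_lit 7116893576) (nat_lit 304) (nat_lit 1549011555) (nat_lit 71) (nat_lit 5) (nat_lit 74) (nat_lit 5) (nat_lit 75) (nat_lit 5) (nat_lit 633) (nat_lit 497) (nat_lit 430)) (XT.lf (nat_lit 0) (nat_lit 1732246996) (nat_lit 152) (nat_lit 1737907118) (nat_lit 228) (nat_lit 10459817617) (nat_lit 68) (nat_lit 5) (nat_lit 70) (nat_lit 5) (nat_lit 71) (nat_lit 5) (nat_lit 634) (nat_lit 497) (nat_lit 429))))) (XT.nd (nat_lit 312) (nat_lit 684) (nat_lit 0) (XT.nd (nat_lit 156) (nat_lit 456) (nat_lit 0) (XT.nd (nat_lit 78) (nat_lit 228) (nat_lit 0) (XT.lf (nat_lit 0) (nat_lit 8611302073) (nat_lit 228) (nat_lit 1741345099) (nat_lit 76) (nat_lit 3737052852) (nat_lit 68) (nat_lit 5) (nat_lit 71) (nat_lit 5) (nat_lit 69) (nat_lit 5) (nat_lit 635) (nat_lit 497) (nat_lit 428)) (XT.lf (nat_lit 0) (nat_lit 8958969499) (nat_lit 228) (nat_lit 4926219761) (nat_lit 304) (nat_lit 366835649) (nat_lit 65) (nat_lit 5) (nat_lit 68) (nat_lit 5) (nat_lit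 69) (nat_lit 5) (nat_lit 636) (nat_lit 497) (nat_lit 427))) (XT.nd (nat_lit 78) (nat_lit 228) (nat_lit 0) (XT.lf (nat_lit 0) (nat_lit 4795091673) (nat_lit 228) (nat_lit 8972888881) (nat_lit 76) (nat_lit 648752633) (nat_lit 62) (nat_lit 5) (nat_lit 65) (nat_lit 5) (nat_lit 63) (nat_lit 5) (nat_lit 637) (nat_lit 497) (nat_lit 426)) (XT.lf (nat_lit 0) (nat_lit 1800169557) (nat_lit 228) (nat_lit 8295660429) (nat_lit 304) (nat_lit 4488047794) (nat_lit 59) (nat_lit 5) (nat_lit 62) (nat_lit 5) (nat_lit 63) (nat_lit 5) (nat_lit 638) (nat_lit 497) (nat_lit 425)))) (XT.nd (nat_lit 156) (nat_lit 456) (nat_lit 0) (XT.nd (nat_lit 78) (nat_lit 152) (nat_lit 0) (XT.lf (nat_lit 0) (nat_lit 759485425) (nat_lit 304) (nat_lit 1919511817) (nat_lit 76) (nat_lit 12074849570) (nat_lit 58) (nat_lit 5) (nat_lit 62) (nat_lit 5) (nat_lit 59) (nat_lit 5) (nat_lit 639) (nat_lit 497) (nat_lit 424)) (XT.lf (nat_lit 0) (nat_lit 6092986011) (nat_lit 228) (nat_lit 5763729397) (nat_lit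 76) (nat_lit 3069084576) (nat_lit 56) (nat_lit 5) (nat_lit 59) (nat_lit 5) (nat_lit 57) (nat_lit 5) (nat_lit 640) (nat_lit 497) (nat_lit 423))) (XT.nd (nat_lit 78) (nat_lit 228) (nat_lit 0) (XT.lf (nat_lit 0) (nat_lit 5372889338) (nat_lit 228) (nat_lit 6187210144) (nat_lit 304) (nat_lit 3540554188) (nat_lit 53) (nat_lit 5) (nat_lit 56) (nat_lit 5) (nat_lit 57) (nat_lit 5) (nat_lit 641) (nat_lit 497) (nat_lit 422)) (XT.lf (nat_lit 0) (nat_lit 1468915416) (nat_lit 152) (nat_lit 374146144) (nat_lit 228) (nat_lit 13435504498) (nat_lit 50) (nat_lit 5) (nat_lit 52) (nat_lit 5) (nat_lit 53) (nat_lit 5) (nat_lit 642) (nat_lit 497) (nat_lit 421))))))))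
noncomputable def xc30 : XT := (XT.nd (nat_lit 76986) (nat_lit 0) (nat_lit 5396) (XT.nd (nat_lit 75738) (nat_lit 0) (nat_lit 15656) (XT.nd (nat_lit 75114) (nat_lit 0) (nat_lit 24320) (XT.nd (nat_lit 234) (nat_lit 380) (nat_lit 0) (XT.nd (nat_lit 78) (nat_lit 380) (nat_lit 0) (XT.lf (nat_lit 0) (nat_lit 7350266705) (nat_lit 228) (nat_lit 2567559611) (nat_lit 76) (nat_lit 5540476101) (nat_lit 50) (nat_lit 5) (nat_lit 53) (nat_lit 5) (nat_lit 51) (nat_lit 5) (nat_lit 643) (nat_lit 497) (nat_lit 420)) (XT.nd (nat_lit 78) (nat_lit 228) (nat_lit 0) (XT.lf (nat_lit 0) (nat_lit 8945320765) (nat_lit 152) (nat_lit 4045108946) (nat_lit 228) (nat_lit 2650747802) (nat_lit 48) (nat_lit 5) (nat_lit 50) (nat_lit 5) (nat_lit 51) (nat_lit 5) (nat_lit 644) (nat_lit 497) (nat_lit 419)) (XT.lf (nat_lit 0) (nat_lit 2901600798) (nat_lit 228) (nat_lit 10968176701) (nat_lit 76) (nat_lit 1957071180) (nat_lit 45) (nat_lit 5) (nat_lit 48) (nat_lit 5) (nat_lit 46) (nat_lit 5) (nat_lit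 645) (nat_lit 497) (nat_lit 418)))) (XT.nd (nat_lit 156) (nat_lit 228) (nat_lit 0) (XT.nd (nat_lit 78) (nat_lit 0) (nat_lit 0) (XT.lf (nat_lit 0) (nat_lit 614098760) (nat_lit 152) (nat_lit 7953840557) (nat_lit 228) (nat_lit 7447175059) (nat_lit 43) (nat_lit 5) (nat_lit 45) (nat_lit 5) (nat_lit 46) (nat_lit 5) (nat_lit 646) (nat_lit 497) (nat_lit 417)) (XT.lf (nat_lit 0) (nat_lit 12508115398) (nat_lit 152) (nat_lit 1875780540) (nat_lit 228) (nat_lit 1822523884) (nat_lit 43) (nat_lit 5) (nat_lit 45) (nat_lit 5) (nat_lit 46) (nat_lit 5) (nat_lit 647) (nat_lit 497) (nat_lit 416))) (XT.nd (nat_lit 74646) (nat_lit 0) (nat_lit 29488) (XT.lf (nat_lit 0) (nat_lit 3908440968) (nat_lit 228) (nat_lit 8175537830) (nat_lit 76) (nat_lit 4316161273) (nat_lit 40) (nat_lit 5) (nat_lit 43) (nat_lit 5) (nat_lit 41) (nat_lit 5) (nat_lit 648) (nat_lit 497) (nat_lit 415)) (XT.lf (nat_lit 0) (nat_lit 1138793271) (nat_lit 912) (nat_lit 1404471436) (nat_lit 0) (nat_lit 1138793271)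 (nat_lit 428) (nat_lit 5) (nat_lit 440) (nat_lit 4) (nat_lit 428) (nat_lit 4) (nat_lit 564) (nat_lit 498) (nat_lit 498))))) (XT.nd (nat_lit 312) (nat_lit 2432) (nat_lit 0) (XT.nd (nat_lit 156) (nat_lit 912) (nat_lit 0) (XT.nd (nat_lit 78) (nat_lit 912) (nat_lit 0) (XT.lf (nat_lit 0) (nat_lit 2982984111) (nat_lit 912) (nat_lit 2983689633) (nat_lit 912) (nat_lit 1440177926) (nat_lit 416) (nat_lit 4) (nat_lit 428) (nat_lit 5) (nat_lit 428) (nat_lit 4) (nat_lit 565) (nat_lit 498) (nat_lit 497)) (XT.lf (nat_lit 0) (nat_lit 1404654899) (nat_lit 836) (nat_lit 803965584) (nat_lit 912) (nat_lit 5242339859) (nat_lit 404) (nat_lit 5) (nat_lit 415) (nat_lit 5) (nat_lit 416) (nat_lit 4) (nat_lit 566) (nat_lit 498) (nat_lit 496))) (XT.nd (nat_lit 78) (nat_lit 912) (nat_lit 0) (XT.lf (nat_lit 0) (nat_lit 5882329883) (nat_lit 912) (nat_lit 182986599) (nat_lit 0) (nat_lit 1431022290) (nat_lit 404) (nat_lit 5) (nat_lit 416) (nat_lit 4) (nat_lit 404) (nat_lit 4) (nat_lit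 567) (nat_lit 498) (nat_lit 495)) (XT.lf (nat_lit 0) (nat_lit 2035719482) (nat_lit 912) (nat_lit 1765120468) (nat_lit 76) (nat_lit 3741992084) (nat_lit 392) (nat_lit 5) (nat_lit 404) (nat_lit 5) (nat_lit 393) (nat_lit 4) (nat_lit 568) (nat_lit 498) (nat_lit 494)))) (XT.nd (nat_lit 156) (nat_lit 836) (nat_lit 0) (XT.nd (nat_lit 78) (nat_lit 836) (nat_lit 0) (XT.lf (nat_lit 0) (nat_lit 4237519228) (nat_lit 760) (nat_lit 1461886295) (nat_lit 836) (nat_lit 1891386993) (nat_lit 382) (nat_lit 5) (nat_lit 392) (nat_lit 5) (nat_lit 393) (nat_lit 4) (nat_lit 569) (nat_lit 498) (nat_lit 493)) (XT.lf (nat_lit 0) (nat_lit 1742846045) (nat_lit 836) (nat_lit 4955798198) (nat_lit 76) (nat_lit 941441673) (nat_lit 371) (nat_lit 5) (nat_lit 382) (nat_lit 5) (nat_lit 372) (nat_lit 4) (nat_lit 570) (nat_lit 498) (nat_lit 492))) (XT.nd (nat_lit 78) (nat_lit 76) (nat_lit 0) (XT.lf (nat_lit 0) (nat_lit 1112051787) (nat_lit 760) (nat_lit 4286844934) (nat_lit 836) (nat_lit 2291731341)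 (nat_lit 361) (nat_lit 5) (nat_lit 371) (nat_lit 5) (nat_lit 372) (nat_lit 4) (nat_lit 571) (nat_lit 498) (nat_lit 491)) (XT.lf (nat_lit 0) (nat_lit 1336413155) (nat_lit 836) (nat_lit 460962091) (nat_lit 76) (nat_lit 5945253815) (nat_lit 360) (nat_lit 5) (nat_lit 371) (nat_lit 5) (nat_lit 361) (nat_lit 5) (nat_lit 572) (nat_lit 498) (nat_lit 490)))))) (XT.nd (nat_lit 624) (nat_lit 3724) (nat_lit 0) (XT.nd (nat_lit 312) (nat_lit 1976) (nat_lit 0) (XT.nd (nat_lit 156) (nat_lit 1444) (nat_lit 0) (XT.nd (nat_lit 78) (nat_lit 760) (nat_lit 0) (XT.lf (nat_lit 0) (nat_lit 4985447940) (nat_lit 836) (nat_lit 2038687652) (nat_lit 76) (nat_lit 771653220) (nat_lit 350) (nat_lit 5) (nat_lit 361) (nat_lit 5) (nat_lit 351) (nat_lit 4) (nat_lit 573) (nat_lit 498) (nat_lit 489)) (XT.lf (nat_lit 0) (nat_lit 825648064) (nat_lit 760) (nat_lit 3634368886) (nat_lit 76) (nat_lit 3390296522) (nat_lit 340) (nat_lit 5) (nat_lit 350) (nat_lit 5) (nat_lit 341) (nat_lit 5) (nat_lit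 574) (nat_lit 498) (nat_lit 488))) (XT.nd (nat_lit 78) (nat_lit 760) (nat_lit 0) (XT.lf (nat_lit 0) (nat_lit 2655674778) (nat_lit 684) (nat_lit 1809571319) (nat_lit 760) (nat_lit 3440942464) (nat_lit 331) (nat_lit 5) (nat_lit 340) (nat_lit 5) (nat_lit 341) (nat_lit 5) (nat_lit 575) (nat_lit 498) (nat_lit 487)) (XT.lf (nat_lit 0) (nat_lit 186984669) (nat_lit 760) (nat_lit 6877236315) (nat_lit 76) (nat_lit 899427260) (nat_lit 321) (nat_lit 5) (nat_lit 331) (nat_lit 5) (nat_lit 322) (nat_lit 5) (nat_lit 576) (nat_lit 498) (nat_lit 486)))) (XT.nd (nat_lit 156) (nat_lit 1292) (nat_lit 0) (XT.nd (nat_lit 78) (nat_lit 684) (nat_lit 0) (XT.lf (nat_lit 0) (nat_lit 3827279994) (nat_lit 760) (nat_lit 514335555) (nat_lit 76) (nat_lit 3680470752) (nat_lit 321) (nat_lit 5) (nat_lit 331) (nat_lit 5) (nat_lit 322) (nat_lit 5) (nat_lit 577) (nat_lit 498) (nat_lit 485)) (XT.lf (nat_lit 0) (nat_lit 5976732262) (nat_lit 684) (nat_lit 1542051753) (nat_lit 760) (nat_lit 563342768)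 (nat_lit 312) (nat_lit 5) (nat_lit 321) (nat_lit 5) (nat_lit 322) (nat_lit 5) (nat_lit 578) (nat_lit 498) (nat_lit 484))) (XT.nd (nat_lit 78) (nat_lit 608) (nat_lit 0) (XT.lf (nat_lit 0) (nat_lit 3080384585) (nat_lit 684) (nat_lit 3731186855) (nat_lit 76) (nat_lit 1331773926) (nat_lit 303) (nat_lit 5) (nat_lit 312) (nat_lit 5) (nat_lit 304) (nat_lit 5) (nat_lit 579) (nat_lit 498) (nat_lit 483)) (XT.lf (nat_lit 0) (nat_lit 2827816017) (nat_lit 608) (nat_lit 3944875351) (nat_lit 684) (nat_lit 1433359136) (nat_lit 295) (nat_lit 5) (nat_lit 303) (nat_lit 5) (nat_lit 304) (nat_lit 5) (nat_lit 580) (nat_lit 498) (nat_lit 482))))) (XT.nd (nat_lit 312) (nat_lit 1824) (nat_lit 0) (XT.nd (nat_lit 156) (nat_lit 1216) (nat_lit 0) (XT.nd (nat_lit 78) (nat_lit 0) (nat_lit 0) (XT.lf (nat_lit 0) (nat_lit 1221587122) (nat_lit 608) (nat_lit 991344354) (nat_lit 684) (nat_lit 6057308146) (nat_lit 286) (nat_lit 5) (nat_lit 294) (nat_lit 5) (nat_lit 295) (nat_lit 5) (nat_lit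 581) (nat_lit 498) (nat_lit 481)) (XT.lf (nat_lit 0) (nat_lit 5903673064) (nat_lit 684) (nat_lit 410672335) (nat_lit 76) (nat_lit 2021364804) (nat_lit 286) (nat_lit 5) (nat_lit 295) (nat_lit 5) (nat_lit 287) (nat_lit 5) (nat_lit 582) (nat_lit 498) (nat_lit 480))) (XT.nd (nat_lit 78) (nat_lit 532) (nat_lit 0) (XT.lf (nat_lit 0) (nat_lit 1239325779) (nat_lit 684) (nat_lit 2051517898) (nat_lit 76) (nat_lit 5111679883) (nat_lit 277) (nat_lit 5) (nat_lit 286) (nat_lit 5) (nat_lit 278) (nat_lit 5) (nat_lit 583) (nat_lit 498) (nat_lit 479)) (XT.lf (nat_lit 0) (nat_lit 4751217657) (nat_lit 532) (nat_lit 176634961) (nat_lit 608) (nat_lit 3542974458) (nat_lit 270) (nat_lit 5) (nat_lit 277) (nat_lit 5) (nat_lit 278) (nat_lit 5) (nat_lit 584) (nat_lit 498) (nat_lit 478)))) (XT.nd (nat_lit 156) (nat_lit 608) (nat_lit 0) (XT.nd (nat_lit 78) (nat_lit 532) (nat_lit 0) (XT.lf (nat_lit 0) (nat_lit 144401593) (nat_lit 684) (nat_lit 5420885633) (nat_lit 76) (nat_lit 2975257163)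 (nat_lit 261) (nat_lit 5) (nat_lit 270) (nat_lit 5) (nat_lit 262) (nat_lit 5) (nat_lit 585) (nat_lit 498) (nat_lit 477)) (XT.lf (nat_lit 0) (nat_lit 1450637000) (nat_lit 532) (nat_lit 2386579852) (nat_lit 608) (nat_lit 4774389527) (nat_lit 254) (nat_lit 5) (nat_lit 261) (nat_lit 5) (nat_lit 262) (nat_lit 5) (nat_lit 586) (nat_lit 498) (nat_lit 476))) (XT.nd (nat_lit 78) (nat_lit 608) (nat_lit 0) (XT.lf (nat_lit 0) (nat_lit 7589896338) (nat_lit 608) (nat_lit 235114667) (nat_lit 76) (nat_lit 859359773) (nat_lit 254) (nat_lit 5) (nat_lit 262) (nat_lit 5) (nat_lit 255) (nat_lit 5) (nat_lit 587) (nat_lit 498) (nat_lit 475)) (XT.lf (nat_lit 0) (nat_lit 2629253680) (nat_lit 608) (nat_lit 1950296807) (nat_lit 76) (nat_lit 4178594199) (nat_lit 246) (nat_lit 5) (nat_lit 254) (nat_lit 5) (nat_lit 247) (nat_lit 5) (nat_lit 588) (nat_lit 498) (nat_lit 474))))))) (XT.nd (nat_lit 1170) (nat_lit 4636) (nat_lit 0) (XT.nd (nat_lit 546) (nat_lit 2584) (nat_lit 0) (XT.nd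 (nat_lit 234) (nat_lit 1520) (nat_lit 0) (XT.nd (nat_lit 78) (nat_lit 1064) (nat_lit 0) (XT.lf (nat_lit 0) (nat_lit 5144001709) (nat_lit 456) (nat_lit 1248953211) (nat_lit 532) (nat_lit 2440692643) (nat_lit 240) (nat_lit 5) (nat_lit 246) (nat_lit 5) (nat_lit 247) (nat_lit 5) (nat_lit 589) (nat_lit 498) (nat_lit 473)) (XT.nd (nat_lit 78) (nat_lit 456) (nat_lit 0) (XT.lf (nat_lit 0) (nat_lit 1299003468) (nat_lit 608) (nat_lit 5470003088) (nat_lit 76) (nat_lit 2141582323) (nat_lit 232) (nat_lit 5) (nat_lit 240) (nat_lit 5) (nat_lit 233) (nat_lit 5) (nat_lit 590) (nat_lit 498) (nat_lit 472)) (XT.lf (nat_lit 0) (nat_lit 1694149934) (nat_lit 456) (nat_lit 3376671652) (nat_lit 532) (nat_lit 3918125774) (nat_lit 226) (nat_lit 5) (nat_lit 232) (nat_lit 5) (nat_lit 233) (nat_lit 5) (nat_lit 591) (nat_lit 498) (nat_lit 471)))) (XT.nd (nat_lit 156) (nat_lit 988) (nat_lit 0) (XT.nd (nat_lit 78) (nat_lit 532) (nat_lit 0) (XT.lf (nat_lit 0) (nat_lit 8901753130) (nat_lit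 532) (nat_lit 71925727) (nat_lit 76) (nat_lit 95521770) (nat_lit 226) (nat_lit 5) (nat_lit 233) (nat_lit 5) (nat_lit 227) (nat_lit 5) (nat_lit 592) (nat_lit 498) (nat_lit 470)) (XT.lf (nat_lit 0) (nat_lit 3627320449) (nat_lit 532) (nat_lit 1883105848) (nat_lit 76) (nat_lit 3639817645) (nat_lit 219) (nat_lit 5) (nat_lit 226) (nat_lit 5) (nat_lit 220) (nat_lit 5) (nat_lit 593) (nat_lit 498) (nat_lit 469))) (XT.nd (nat_lit 78) (nat_lit 532) (nat_lit 0) (XT.lf (nat_lit 0) (nat_lit 5514893432) (nat_lit 456) (nat_lit 1964572541) (nat_lit 532) (nat_lit 1753746615) (nat_lit 213) (nat_lit 5) (nat_lit 219) (nat_lit 5) (nat_lit 220) (nat_lit 5) (nat_lit 594) (nat_lit 498) (nat_lit 468)) (XT.lf (nat_lit 0) (nat_lit 2058821236) (nat_lit 532) (nat_lit 5602343576) (nat_lit 76) (nat_lit 1656496766) (nat_lit 206) (nat_lit 5) (nat_lit 213) (nat_lit 5) (nat_lit 207) (nat_lit 5) (nat_lit 595) (nat_lit 498) (nat_lit 467))))) (XT.nd (nat_lit 312) (nat_lit 1292) (nat_lit 0)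 (XT.nd (nat_lit 156) (nat_lit 836) (nat_lit 0) (XT.nd (nat_lit 78) (nat_lit 76) (nat_lit 0) (XT.lf (nat_lit 0) (nat_lit 1866484330) (nat_lit 380) (nat_lit 4055920590) (nat_lit 456) (nat_lit 3481198867) (nat_lit 201) (nat_lit 5) (nat_lit 206) (nat_lit 5) (nat_lit 207) (nat_lit 5) (nat_lit 596) (nat_lit 498) (nat_lit 466)) (XT.lf (nat_lit 0) (nat_lit 353114759) (nat_lit 456) (nat_lit 10659636) (nat_lit 76) (nat_lit 9127723163) (nat_lit 200) (nat_lit 5) (nat_lit 206) (nat_lit 5) (nat_lit 201) (nat_lit 5) (nat_lit 597) (nat_lit 498) (nat_lit 465))) (XT.nd (nat_lit 78) (nat_lit 380) (nat_lit 0) (XT.lf (nat_lit 0) (nat_lit 4238901491) (nat_lit 532) (nat_lit 1935863068) (nat_lit 76) (nat_lit 3405497398) (nat_lit 194) (nat_lit 5) (nat_lit 201) (nat_lit 5) (nat_lit 195) (nat_lit 5) (nat_lit 598) (nat_lit 498) (nat_lit 464)) (XT.lf (nat_lit 0) (nat_lit 5778360167) (nat_lit 380) (nat_lit 2413548397) (nat_lit 456) (nat_lit 1479103934) (nat_lit 189) (nat_lit 5) (nat_lit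 194) (nat_lit 5) (nat_lit 195) (nat_lit 5) (nat_lit 599) (nat_lit 498) (nat_lit 463)))) (XT.nd (nat_lit 156) (nat_lit 456) (nat_lit 0) (XT.nd (nat_lit 78) (nat_lit 380) (nat_lit 0) (XT.lf (nat_lit 0) (nat_lit 2425407226) (nat_lit 456) (nat_lit 5905555402) (nat_lit 76) (nat_lit 1432351284) (nat_lit 183) (nat_lit 5) (nat_lit 189) (nat_lit 5) (nat_lit 184) (nat_lit 5) (nat_lit 600) (nat_lit 498) (nat_lit 462)) (XT.lf (nat_lit 0) (nat_lit 1880314935) (nat_lit 380) (nat_lit 4512378369) (nat_lit 456) (nat_lit 3464483607) (nat_lit 178) (nat_lit 5) (nat_lit 183) (nat_lit 5) (nat_lit 184) (nat_lit 5) (nat_lit 601) (nat_lit 498) (nat_lit 461))) (XT.nd (nat_lit 78) (nat_lit 380) (nat_lit 0) (XT.lf (nat_lit 0) (nat_lit 470057642) (nat_lit 456) (nat_lit 131143551) (nat_lit 76) (nat_lit 9351853091) (nat_lit 177) (nat_lit 5) (nat_lit 183) (nat_lit 5) (nat_lit 178) (nat_lit 5) (nat_lit 602) (nat_lit 498) (nat_lit 460)) (XT.lf (nat_lit 0) (nat_lit 4461506282) (nat_lit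 456) (nat_lit 2196852533) (nat_lit 76) (nat_lit 3391541110) (nat_lit 172) (nat_lit 5) (nat_lit 178) (nat_lit 5) (nat_lit 173) (nat_lit 5) (nat_lit 603) (nat_lit 498) (nat_lit 459)))))) (XT.nd (nat_lit 624) (nat_lit 1976) (nat_lit 0) (XT.nd (nat_lit 312) (nat_lit 1444) (nat_lit 0) (XT.nd (nat_lit 156) (nat_lit 380) (nat_lit 0) (XT.nd (nat_lit 78) (nat_lit 456) (nat_lit 0) (XT.lf (nat_lit 0) (nat_lit 5846399503) (nat_lit 380) (nat_lit 2680617420) (nat_lit 456) (nat_lit 1621781719) (nat_lit 167) (nat_lit 5) (nat_lit 172) (nat_lit 5) (nat_lit 173) (nat_lit 5) (nat_lit 604) (nat_lit 498) (nat_lit 458)) (XT.lf (nat_lit 0) (nat_lit 2392474668) (nat_lit 456) (nat_lit 6470368521) (nat_lit 76) (nat_lit 1386516041) (nat_lit 161) (nat_lit 5) (nat_lit 167) (nat_lit 5) (nat_lit 162) (nat_lit 5) (nat_lit 605) (nat_lit 498) (nat_lit 457))) (XT.nd (nat_lit 78) (nat_lit 76) (nat_lit 0) (XT.lf (nat_lit 0) (nat_lit 1645123766) (nat_lit 304) (nat_lit 4829516475) (nat_lit 380)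 (nat_lit 3876890373) (nat_lit 157) (nat_lit 5) (nat_lit 161) (nat_lit 5) (nat_lit 162) (nat_lit 5) (nat_lit 606) (nat_lit 498) (nat_lit 456)) (XT.lf (nat_lit 0) (nat_lit 175970643) (nat_lit 380) (nat_lit 522595026) (nat_lit 76) (nat_lit 9757243517) (nat_lit 156) (nat_lit 5) (nat_lit 161) (nat_lit 5) (nat_lit 157) (nat_lit 5) (nat_lit 607) (nat_lit 498) (nat_lit 455)))) (XT.nd (nat_lit 156) (nat_lit 760) (nat_lit 0) (XT.nd (nat_lit 78) (nat_lit 304) (nat_lit 0) (XT.lf (nat_lit 0) (nat_lit 4284883437) (nat_lit 456) (nat_lit 2758237184) (nat_lit 76) (nat_lit 3518002794) (nat_lit 151) (nat_lit 5) (nat_lit 157) (nat_lit 5) (nat_lit 152) (nat_lit 5) (nat_lit 608) (nat_lit 498) (nat_lit 454)) (XT.lf (nat_lit 0) (nat_lit 5627011771) (nat_lit 304) (nat_lit 2846805708) (nat_lit 380) (nat_lit 2194770308) (nat_lit 147) (nat_lit 5) (nat_lit 151) (nat_lit 5) (nat_lit 152) (nat_lit 5) (nat_lit 609) (nat_lit 498) (nat_lit 453))) (XT.nd (nat_lit 78) (nat_lit 304) (nat_lit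 0) (XT.lf (nat_lit 0) (nat_lit 1945938199) (nat_lit 456) (nat_lit 7392137127) (nat_lit 76) (nat_lit 1439802729) (nat_lit 141) (nat_lit 5) (nat_lit 147) (nat_lit 5) (nat_lit 142) (nat_lit 5) (nat_lit 610) (nat_lit 498) (nat_lit 452)) (XT.lf (nat_lit 0) (nat_lit 1065641068) (nat_lit 304) (nat_lit 5087801499) (nat_lit 380) (nat_lit 4735354697) (nat_lit 137) (nat_lit 5) (nat_lit 141) (nat_lit 5) (nat_lit 142) (nat_lit 5) (nat_lit 611) (nat_lit 498) (nat_lit 451))))) (XT.nd (nat_lit 312) (nat_lit 912) (nat_lit 0) (XT.nd (nat_lit 156) (nat_lit 684) (nat_lit 0) (XT.nd (nat_lit 78) (nat_lit 380) (nat_lit 0) (XT.lf (nat_lit 0) (nat_lit 9717287482) (nat_lit 304) (nat_lit 731350666) (nat_lit 380) (nat_lit 553226550) (nat_lit 137) (nat_lit 5) (nat_lit 141) (nat_lit 5) (nat_lit 142) (nat_lit 5) (nat_lit 612) (nat_lit 498) (nat_lit 450)) (XT.lf (nat_lit 0) (nat_lit 3690982483) (nat_lit 380) (nat_lit 3717634927) (nat_lit 76) (nat_lit 3707552041) (nat_lit 132) (nat_lit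 5) (nat_lit 137) (nat_lit 5) (nat_lit 133) (nat_lit 5) (nat_lit 613) (nat_lit 498) (nat_lit 449))) (XT.nd (nat_lit 78) (nat_lit 380) (nat_lit 0) (XT.lf (nat_lit 0) (nat_lit 5022605243) (nat_lit 304) (nat_lit 2990961272) (nat_lit 380) (nat_lit 3219103305) (nat_lit 128) (nat_lit 5) (nat_lit 132) (nat_lit 5) (nat_lit 133) (nat_lit 5) (nat_lit 614) (nat_lit 498) (nat_lit 448)) (XT.lf (nat_lit 0) (nat_lit 1063810405) (nat_lit 380) (nat_lit 8772459789) (nat_lit 76) (nat_lit 1514956394) (nat_lit 123) (nat_lit 5) (nat_lit 128) (nat_lit 5) (nat_lit 124) (nat_lit 5) (nat_lit 615) (nat_lit 498) (nat_lit 447)))) (XT.nd (nat_lit 156) (nat_lit 608) (nat_lit 0) (XT.nd (nat_lit 78) (nat_lit 0) (nat_lit 0) (XT.lf (nat_lit 0) (nat_lit 40204361) (nat_lit 304) (nat_lit 5366208308) (nat_lit 380) (nat_lit 6064974167) (nat_lit 119) (nat_lit 5) (nat_lit 123) (nat_lit 5) (nat_lit 124) (nat_lit 5) (nat_lit 616) (nat_lit 498) (nat_lit 446)) (XT.lf (nat_lit 0) (nat_lit 9073375708)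 (nat_lit 304) (nat_lit 776831488) (nat_lit 380) (nat_lit 1743456864) (nat_lit 119) (nat_lit 5) (nat_lit 123) (nat_lit 5) (nat_lit 124) (nat_lit 5) (nat_lit 617) (nat_lit 498) (nat_lit 445))) (XT.nd (nat_lit 78) (nat_lit 228) (nat_lit 0) (XT.lf (nat_lit 0) (nat_lit 2653770675) (nat_lit 380) (nat_lit 5179790460) (nat_lit 76) (nat_lit 3883995755) (nat_lit 114) (nat_lit 5) (nat_lit 119) (nat_lit 5) (nat_lit 115) (nat_lit 5) (nat_lit 618) (nat_lit 498) (nat_lit 444)) (XT.lf (nat_lit 0) (nat_lit 3928300884) (nat_lit 228) (nat_lit 3191241529) (nat_lit 304) (nat_lit 4724076332) (nat_lit 111) (nat_lit 5) (nat_lit 114) (nat_lit 5) (nat_lit 115) (nat_lit 5) (nat_lit 619) (nat_lit 498) (nat_lit 443))))))))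
noncomputable def xc31 : XT := (XT.nd (nat_lit 76830) (nat_lit 0) (nat_lit 12616) (XT.nd (nat_lit 1170) (nat_lit 2280) (nat_lit 0) (XT.nd (nat_lit 546) (nat_lit 1596) (nat_lit 0) (XT.nd (nat_lit 234) (nat_lit 912) (nat_lit 0) (XT.nd (nat_lit 78) (nat_lit 304) (nat_lit 0) (XT.lf (nat_lit 0) (nat_lit 1249231604) (nat_lit 304) (nat_lit 10434956072) (nat_lit 380) (nat_lit 287823533) (nat_lit 107) (nat_lit 5) (nat_lit 111) (nat_lit 5) (nat_lit 112) (nat_lit 5) (nat_lit 620) (nat_lit 498) (nat_lit 442)) (XT.nd (nat_lit 78) (nat_lit 228) (nat_lit 0) (XT.lf (nat_lit 0) (nat_lit 4212708168) (nat_lit 380) (nat_lit 1520788309) (nat_lit 76) (nat_lit 6368302853) (nat_lit 106) (nat_lit 5) (nat_lit 111) (nat_lit 5) (nat_lit 107) (nat_lit 5) (nat_lit 621) (nat_lit 498) (nat_lit 441)) (XT.lf (nat_lit 0) (nat_lit 7894075631) (nat_lit 228) (nat_lit 913953709) (nat_lit 304) (nat_lit 3425943668) (nat_lit 103) (nat_lit 5) (nat_lit 106) (nat_lit 5) (nat_lit 107) (nat_lit 5)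 (nat_lit 622) (nat_lit 498) (nat_lit 440)))) (XT.nd (nat_lit 156) (nat_lit 304) (nat_lit 0) (XT.nd (nat_lit 78) (nat_lit 228) (nat_lit 0) (XT.lf (nat_lit 0) (nat_lit 1138899908) (nat_lit 380) (nat_lit 7258378200) (nat_lit 76) (nat_lit 3970822123) (nat_lit 98) (nat_lit 5) (nat_lit 103) (nat_lit 5) (nat_lit 99) (nat_lit 5) (nat_lit 623) (nat_lit 498) (nat_lit 439)) (XT.lf (nat_lit 0) (nat_lit 2230100582) (nat_lit 228) (nat_lit 3526586399) (nat_lit 304) (nat_lit 6747620182) (nat_lit 95) (nat_lit 5) (nat_lit 98) (nat_lit 5) (nat_lit 99) (nat_lit 5) (nat_lit 624) (nat_lit 498) (nat_lit 438))) (XT.nd (nat_lit 78) (nat_lit 304) (nat_lit 0) (XT.lf (nat_lit 0) (nat_lit 10483009741) (nat_lit 304) (nat_lit 718417910) (nat_lit 76) (nat_lit 1441487446) (nat_lit 95) (nat_lit 5) (nat_lit 99) (nat_lit 5) (nat_lit 96) (nat_lit 5) (nat_lit 625) (nat_lit 498) (nat_lit 437)) (XT.lf (nat_lit 0) (nat_lit 2527533760) (nat_lit 304) (nat_lit 3748032625) (nat_lit 76) (nat_lit 6507581789)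 (nat_lit 91) (nat_lit 5) (nat_lit 95) (nat_lit 5) (nat_lit 92) (nat_lit 5) (nat_lit 626) (nat_lit 498) (nat_lit 436))))) (XT.nd (nat_lit 312) (nat_lit 836) (nat_lit 0) (XT.nd (nat_lit 156) (nat_lit 304) (nat_lit 0) (XT.nd (nat_lit 78) (nat_lit 228) (nat_lit 0) (XT.lf (nat_lit 0) (nat_lit 6060667534) (nat_lit 228) (nat_lit 1222057251) (nat_lit 304) (nat_lit 5643117541) (nat_lit 88) (nat_lit 5) (nat_lit 91) (nat_lit 5) (nat_lit 92) (nat_lit 5) (nat_lit 627) (nat_lit 498) (nat_lit 435)) (XT.lf (nat_lit 0) (nat_lit 2986933800) (nat_lit 228) (nat_lit 9175172790) (nat_lit 304) (nat_lit 908702460) (nat_lit 85) (nat_lit 5) (nat_lit 88) (nat_lit 5) (nat_lit 89) (nat_lit 5) (nat_lit 628) (nat_lit 498) (nat_lit 434))) (XT.nd (nat_lit 78) (nat_lit 228) (nat_lit 0) (XT.lf (nat_lit 0) (nat_lit 3882366588) (nat_lit 304) (nat_lit 194535857) (nat_lit 76) (nat_lit 9140996352) (nat_lit 84) (nat_lit 5) (nat_lit 88) (nat_lit 5) (nat_lit 85) (nat_lit 5) (nat_lit 629) (nat_lit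 498) (nat_lit 433)) (XT.lf (nat_lit 0) (nat_lit 8788963813) (nat_lit 304) (nat_lit 3428528064) (nat_lit 76) (nat_lit 1149681249) (nat_lit 81) (nat_lit 5) (nat_lit 85) (nat_lit 5) (nat_lit 82) (nat_lit 5) (nat_lit 630) (nat_lit 498) (nat_lit 432)))) (XT.nd (nat_lit 156) (nat_lit 304) (nat_lit 0) (XT.nd (nat_lit 78) (nat_lit 228) (nat_lit 0) (XT.lf (nat_lit 0) (nat_lit 302861678) (nat_lit 304) (nat_lit 6772366331) (nat_lit 76) (nat_lit 6443525736) (nat_lit 77) (nat_lit 5) (nat_lit 81) (nat_lit 5) (nat_lit 78) (nat_lit 5) (nat_lit 631) (nat_lit 498) (nat_lit 431)) (XT.lf (nat_lit 0) (nat_lit 3442177220) (nat_lit 228) (nat_lit 1783565360) (nat_lit 304) (nat_lit 8446908725) (nat_lit 74) (nat_lit 5) (nat_lit 77) (nat_lit 5) (nat_lit 78) (nat_lit 5) (nat_lit 632) (nat_lit 498) (nat_lit 430))) (XT.nd (nat_lit 78) (nat_lit 76) (nat_lit 0) (XT.lf (nat_lit 0) (nat_lit 29723838) (nat_lit 228) (nat_lit 10246815991) (nat_lit 304) (nat_lit 3552498184) (nat_lit 71) (nat_lit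 5) (nat_lit 74) (nat_lit 5) (nat_lit 75) (nat_lit 5) (nat_lit 633) (nat_lit 498) (nat_lit 429)) (XT.lf (nat_lit 0) (nat_lit 1461952704) (nat_lit 304) (nat_lit 3446050662) (nat_lit 76) (nat_lit 9079541780) (nat_lit 70) (nat_lit 5) (nat_lit 74) (nat_lit 5) (nat_lit 71) (nat_lit 5) (nat_lit 634) (nat_lit 498) (nat_lit 428)))))) (XT.nd (nat_lit 624) (nat_lit 988) (nat_lit 0) (XT.nd (nat_lit 312) (nat_lit 684) (nat_lit 0) (XT.nd (nat_lit 156) (nat_lit 228) (nat_lit 0) (XT.nd (nat_lit 78) (nat_lit 228) (nat_lit 0) (XT.lf (nat_lit 0) (nat_lit 6540013292) (nat_lit 228) (nat_lit 7037971810) (nat_lit 76) (nat_lit 570550259) (nat_lit 68) (nat_lit 5) (nat_lit 71) (nat_lit 5) (nat_lit 69) (nat_lit 5) (nat_lit 635) (nat_lit 498) (nat_lit 427)) (XT.lf (nat_lit 0) (nat_lit 3556946721) (nat_lit 228) (nat_lit 8202582718) (nat_lit 304) (nat_lit 2552418399) (nat_lit 65) (nat_lit 5) (nat_lit 68) (nat_lit 5) (nat_lit 69) (nat_lit 5) (nat_lit 636) (nat_lit 498) (nat_lit 426)))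 (XT.nd (nat_lit 78) (nat_lit 152) (nat_lit 0) (XT.lf (nat_lit 0) (nat_lit 2579262905) (nat_lit 304) (nat_lit 105588287) (nat_lit 76) (nat_lit 11793267100) (nat_lit 64) (nat_lit 5) (nat_lit 68) (nat_lit 5) (nat_lit 65) (nat_lit 5) (nat_lit 637) (nat_lit 498) (nat_lit 425)) (XT.lf (nat_lit 0) (nat_lit 7830969213) (nat_lit 228) (nat_lit 3852870929) (nat_lit 76) (nat_lit 2962403544) (nat_lit 62) (nat_lit 5) (nat_lit 65) (nat_lit 5) (nat_lit 63) (nat_lit 5) (nat_lit 638) (nat_lit 498) (nat_lit 424)))) (XT.nd (nat_lit 156) (nat_lit 228) (nat_lit 0) (XT.nd (nat_lit 78) (nat_lit 228) (nat_lit 0) (XT.lf (nat_lit 0) (nat_lit 7100783706) (nat_lit 228) (nat_lit 6113473349) (nat_lit 304) (nat_lit 1602943903) (nat_lit 59) (nat_lit 5) (nat_lit 62) (nat_lit 5) (nat_lit 63) (nat_lit 5) (nat_lit 639) (nat_lit 498) (nat_lit 423)) (XT.lf (nat_lit 0) (nat_lit 3284836361) (nat_lit 152) (nat_lit 389449401) (nat_lit 228) (nat_lit 11316622544) (nat_lit 56) (nat_lit 5) (nat_lit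 58) (nat_lit 5) (nat_lit 59) (nat_lit 5) (nat_lit 640) (nat_lit 498) (nat_lit 422))) (XT.nd (nat_lit 78) (nat_lit 228) (nat_lit 0) (XT.lf (nat_lit 0) (nat_lit 9085228093) (nat_lit 228) (nat_lit 671423083) (nat_lit 76) (nat_lit 5410234388) (nat_lit 56) (nat_lit 5) (nat_lit 59) (nat_lit 5) (nat_lit 57) (nat_lit 5) (nat_lit 641) (nat_lit 498) (nat_lit 421)) (XT.lf (nat_lit 0) (nat_lit 10653667626) (nat_lit 228) (nat_lit 3985322828) (nat_lit 304) (nat_lit 706700182) (nat_lit 53) (nat_lit 5) (nat_lit 56) (nat_lit 5) (nat_lit 57) (nat_lit 5) (nat_lit 642) (nat_lit 498) (nat_lit 420))))) (XT.nd (nat_lit 312) (nat_lit 380) (nat_lit 0) (XT.nd (nat_lit 156) (nat_lit 228) (nat_lit 0) (XT.nd (nat_lit 78) (nat_lit 152) (nat_lit 0) (XT.lf (nat_lit 0) (nat_lit 4736569661) (nat_lit 228) (nat_lit 8864461585) (nat_lit 76) (nat_lit 1925951735) (nat_lit 50) (nat_lit 5) (nat_lit 53) (nat_lit 5) (nat_lit 51) (nat_lit 5) (nat_lit 643) (nat_lit 498) (nat_lit 419)) (XT.lf (nat_lit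 0) (nat_lit 2530854633) (nat_lit 152) (nat_lit 7785912784) (nat_lit 228) (nat_lit 5394290102) (nat_lit 48) (nat_lit 5) (nat_lit 50) (nat_lit 5) (nat_lit 51) (nat_lit 5) (nat_lit 644) (nat_lit 498) (nat_lit 418))) (XT.nd (nat_lit 78) (nat_lit 152) (nat_lit 0) (XT.lf (nat_lit 0) (nat_lit 131238827) (nat_lit 228) (nat_lit 1692083449) (nat_lit 76) (nat_lit 14075018832) (nat_lit 47) (nat_lit 5) (nat_lit 50) (nat_lit 5) (nat_lit 48) (nat_lit 5) (nat_lit 645) (nat_lit 498) (nat_lit 417)) (XT.lf (nat_lit 0) (nat_lit 5752295828) (nat_lit 228) (nat_lit 6060506359) (nat_lit 76) (nat_lit 4274710379) (nat_lit 45) (nat_lit 5) (nat_lit 48) (nat_lit 5) (nat_lit 46) (nat_lit 5) (nat_lit 646) (nat_lit 498) (nat_lit 416)))) (XT.nd (nat_lit 74568) (nat_lit 0) (nat_lit 30324) (XT.nd (nat_lit 78) (nat_lit 228) (nat_lit 0) (XT.lf (nat_lit 0) (nat_lit 5719684125) (nat_lit 152) (nat_lit 5790587998) (nat_lit 228) (nat_lit 4769705623) (nat_lit 43) (nat_lit 5) (nat_lit 45) (nat_lit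 5) (nat_lit 46) (nat_lit 5) (nat_lit 647) (nat_lit 498) (nat_lit 415)) (XT.lf (nat_lit 0) (nat_lit 910864617) (nat_lit 228) (nat_lit 15191898578) (nat_lit 76) (nat_lit 373098571) (nat_lit 40) (nat_lit 5) (nat_lit 43) (nat_lit 5) (nat_lit 41) (nat_lit 5) (nat_lit 648) (nat_lit 498) (nat_lit 414))) (XT.nd (nat_lit 78) (nat_lit 76) (nat_lit 0) (XT.lf (nat_lit 0) (nat_lit 222273509) (nat_lit 912) (nat_lit 1709355551) (nat_lit 912) (nat_lit 1709355551) (nat_lit 440) (nat_lit 4) (nat_lit 452) (nat_lit 5) (nat_lit 452) (nat_lit 4) (nat_lit 562) (nat_lit 499) (nat_lit 499)) (XT.lf (nat_lit 0) (nat_lit 203464689) (nat_lit 988) (nat_lit 1194870907) (nat_lit 76) (nat_lit 5924520085) (nat_lit 439) (nat_lit 5) (nat_lit 452) (nat_lit 5) (nat_lit 440) (nat_lit 4) (nat_lit 563) (nat_lit 499) (nat_lit 498))))))) (XT.nd (nat_lit 1248) (nat_lit 7372) (nat_lit 0) (XT.nd (nat_lit 624) (nat_lit 4408) (nat_lit 0) (XT.nd (nat_lit 312) (nat_lit 3268) (nat_lit 0) (XT.nd (nat_lit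 156) (nat_lit 836) (nat_lit 0) (XT.nd (nat_lit 78) (nat_lit 988) (nat_lit 0) (XT.lf (nat_lit 0) (nat_lit 3817767496) (nat_lit 912) (nat_lit 2847159869) (nat_lit 0) (nat_lit 699873849) (nat_lit 428) (nat_lit 5) (nat_lit 440) (nat_lit 4) (nat_lit 428) (nat_lit 4) (nat_lit 564) (nat_lit 499) (nat_lit 497)) (XT.lf (nat_lit 0) (nat_lit 63760344) (nat_lit 988) (nat_lit 4502344524) (nat_lit 76) (nat_lit 2842105452) (nat_lit 415) (nat_lit 5) (nat_lit 428) (nat_lit 5) (nat_lit 416) (nat_lit 4) (nat_lit 565) (nat_lit 499) (nat_lit 496))) (XT.nd (nat_lit 78) (nat_lit 0) (nat_lit 0) (XT.lf (nat_lit 0) (nat_lit 1277494292) (nat_lit 836) (nat_lit 2382015597) (nat_lit 912) (nat_lit 3793306470) (nat_lit 404) (nat_lit 5) (nat_lit 415) (nat_lit 5) (nat_lit 416) (nat_lit 4) (nat_lit 566) (nat_lit 499) (nat_lit 495)) (XT.lf (nat_lit 0) (nat_lit 7158376959) (nat_lit 836) (nat_lit 132503337) (nat_lit 912) (nat_lit 208162418) (nat_lit 404) (nat_lit 5) (nat_lit 415) (nat_lit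 5) (nat_lit 416) (nat_lit 4) (nat_lit 567) (nat_lit 499) (nat_lit 494)))) (XT.nd (nat_lit 156) (nat_lit 1596) (nat_lit 0) (XT.nd (nat_lit 78) (nat_lit 760) (nat_lit 0) (XT.lf (nat_lit 0) (nat_lit 3388454000) (nat_lit 912) (nat_lit 1974114557) (nat_lit 76) (nat_lit 2183479446) (nat_lit 392) (nat_lit 5) (nat_lit 404) (nat_lit 5) (nat_lit 393) (nat_lit 4) (nat_lit 568) (nat_lit 499) (nat_lit 493)) (XT.lf (nat_lit 0) (nat_lit 3987765006) (nat_lit 760) (nat_lit 3030626512) (nat_lit 836) (nat_lit 576293016) (nat_lit 382) (nat_lit 5) (nat_lit 392) (nat_lit 5) (nat_lit 393) (nat_lit 4) (nat_lit 569) (nat_lit 499) (nat_lit 492))) (XT.nd (nat_lit 78) (nat_lit 760) (nat_lit 0) (XT.lf (nat_lit 0) (nat_lit 2386772171) (nat_lit 760) (nat_lit 613803754) (nat_lit 836) (nat_lit 4644034603) (nat_lit 371) (nat_lit 5) (nat_lit 381) (nat_lit 5) (nat_lit 382) (nat_lit 5) (nat_lit 570) (nat_lit 499) (nat_lit 491)) (XT.lf (nat_lit 0) (nat_lit 771520551) (nat_lit 760) (nat_lit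 5847305419) (nat_lit 836) (nat_lit 1077083732) (nat_lit 361) (nat_lit 5) (nat_lit 371) (nat_lit 5) (nat_lit 372) (nat_lit 4) (nat_lit 571) (nat_lit 499) (nat_lit 490))))) (XT.nd (nat_lit 312) (nat_lit 2128) (nat_lit 0) (XT.nd (nat_lit 156) (nat_lit 1444) (nat_lit 0) (XT.nd (nat_lit 78) (nat_lit 760) (nat_lit 0) (XT.lf (nat_lit 0) (nat_lit 2503692715) (nat_lit 836) (nat_lit 852840135) (nat_lit 76) (nat_lit 4391849857) (nat_lit 360) (nat_lit 5) (nat_lit 371) (nat_lit 5) (nat_lit 361) (nat_lit 5) (nat_lit 572) (nat_lit 499) (nat_lit 489)) (XT.lf (nat_lit 0) (nat_lit 5327265771) (nat_lit 760) (nat_lit 786739364) (nat_lit 836) (nat_lit 1688312729) (nat_lit 350) (nat_lit 5) (nat_lit 360) (nat_lit 5) (nat_lit 361) (nat_lit 5) (nat_lit 573) (nat_lit 499) (nat_lit 488))) (XT.nd (nat_lit 78) (nat_lit 684) (nat_lit 0) (XT.lf (nat_lit 0) (nat_lit 1894007760) (nat_lit 760) (nat_lit 4123941185) (nat_lit 76) (nat_lit 1839527856) (nat_lit 340) (nat_lit 5) (nat_lit 350)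 (nat_lit 5) (nat_lit 341) (nat_lit 5) (nat_lit 574) (nat_lit 499) (nat_lit 487)) (XT.lf (nat_lit 0) (nat_lit 2121186262) (nat_lit 684) (nat_lit 3378601255) (nat_lit 760) (nat_lit 2414241641) (nat_lit 331) (nat_lit 5) (nat_lit 340) (nat_lit 5) (nat_lit 341) (nat_lit 5) (nat_lit 575) (nat_lit 499) (nat_lit 486)))) (XT.nd (nat_lit 156) (nat_lit 1368) (nat_lit 0) (XT.nd (nat_lit 78) (nat_lit 0) (nat_lit 0) (XT.lf (nat_lit 0) (nat_lit 497591692) (nat_lit 684) (nat_lit 662651963) (nat_lit 760) (nat_lit 6811912262) (nat_lit 321) (nat_lit 5) (nat_lit 330) (nat_lit 5) (nat_lit 331) (nat_lit 5) (nat_lit 576) (nat_lit 499) (nat_lit 485)) (XT.lf (nat_lit 0) (nat_lit 4766334564) (nat_lit 760) (nat_lit 1145715978) (nat_lit 76) (nat_lit 2119228370) (nat_lit 321) (nat_lit 5) (nat_lit 331) (nat_lit 5) (nat_lit 322) (nat_lit 5) (nat_lit 577) (nat_lit 499) (nat_lit 484))) (XT.nd (nat_lit 78) (nat_lit 608) (nat_lit 0) (XT.lf (nat_lit 0) (nat_lit 327771180) (nat_lit 760) (nat_lit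 2795292384) (nat_lit 76) (nat_lit 4968887874) (nat_lit 311) (nat_lit 5) (nat_lit 321) (nat_lit 5) (nat_lit 312) (nat_lit 5) (nat_lit 578) (nat_lit 499) (nat_lit 483)) (XT.lf (nat_lit 0) (nat_lit 3680077391) (nat_lit 608) (nat_lit 241283756) (nat_lit 684) (nat_lit 4232591505) (nat_lit 303) (nat_lit 5) (nat_lit 311) (nat_lit 5) (nat_lit 312) (nat_lit 5) (nat_lit 579) (nat_lit 499) (nat_lit 482)))))) (XT.nd (nat_lit 624) (nat_lit 3648) (nat_lit 0) (XT.nd (nat_lit 312) (nat_lit 1748) (nat_lit 0) (XT.nd (nat_lit 156) (nat_lit 684) (nat_lit 0) (XT.nd (nat_lit 78) (nat_lit 684) (nat_lit 0) (XT.lf (nat_lit 0) (nat_lit 2038322582) (nat_lit 608) (nat_lit 5539749151) (nat_lit 684) (nat_lit 639298765) (nat_lit 295) (nat_lit 5) (nat_lit 303) (nat_lit 5) (nat_lit 304) (nat_lit 5) (nat_lit 580) (nat_lit 499) (nat_lit 481)) (XT.lf (nat_lit 0) (nat_lit 366249962) (nat_lit 608) (nat_lit 2596002001) (nat_lit 684) (nat_lit 5319891811) (nat_lit 286) (nat_lit 5) (nat_lit 294)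 (nat_lit 5) (nat_lit 295) (nat_lit 5) (nat_lit 581) (nat_lit 499) (nat_lit 480))) (XT.nd (nat_lit 78) (nat_lit 684) (nat_lit 0) (XT.lf (nat_lit 0) (nat_lit 6614059595) (nat_lit 684) (nat_lit 1305902918) (nat_lit 76) (nat_lit 428431260) (nat_lit 286) (nat_lit 5) (nat_lit 295) (nat_lit 5) (nat_lit 287) (nat_lit 5) (nat_lit 582) (nat_lit 499) (nat_lit 479)) (XT.lf (nat_lit 0) (nat_lit 1893558008) (nat_lit 684) (nat_lit 3014471045) (nat_lit 76) (nat_lit 3507774596) (nat_lit 277) (nat_lit 5) (nat_lit 286) (nat_lit 5) (nat_lit 278) (nat_lit 5) (nat_lit 583) (nat_lit 499) (nat_lit 478)))) (XT.nd (nat_lit 156) (nat_lit 532) (nat_lit 0) (XT.nd (nat_lit 78) (nat_lit 684) (nat_lit 0) (XT.lf (nat_lit 0) (nat_lit 3737187766) (nat_lit 532) (nat_lit 1810478470) (nat_lit 608) (nat_lit 2937129997) (nat_lit 270) (nat_lit 5) (nat_lit 277) (nat_lit 5) (nat_lit 278) (nat_lit 5) (nat_lit 584) (nat_lit 499) (nat_lit 477)) (XT.lf (nat_lit 0) (nat_lit 696851519) (nat_lit 684)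 (nat_lit 6508825303) (nat_lit 76) (nat_lit 1349667699) (nat_lit 261) (nat_lit 5) (nat_lit 270) (nat_lit 5) (nat_lit 262) (nat_lit 5) (nat_lit 585) (nat_lit 499) (nat_lit 476))) (XT.nd (nat_lit 78) (nat_lit 0) (nat_lit 0) (XT.lf (nat_lit 0) (nat_lit 309601189) (nat_lit 532) (nat_lit 4045174053) (nat_lit 608) (nat_lit 4272329757) (nat_lit 254) (nat_lit 5) (nat_lit 261) (nat_lit 5) (nat_lit 262) (nat_lit 5) (nat_lit 586) (nat_lit 499) (nat_lit 475)) (XT.lf (nat_lit 0) (nat_lit 7276106669) (nat_lit 532) (nat_lit 798504141) (nat_lit 608) (nat_lit 625916110) (nat_lit 254) (nat_lit 5) (nat_lit 261) (nat_lit 5) (nat_lit 262) (nat_lit 5) (nat_lit 587) (nat_lit 499) (nat_lit 474))))) (XT.nd (nat_lit 312) (nat_lit 1520) (nat_lit 0) (XT.nd (nat_lit 156) (nat_lit 1064) (nat_lit 0) (XT.nd (nat_lit 78) (nat_lit 456) (nat_lit 0) (XT.lf (nat_lit 0) (nat_lit 3051454390) (nat_lit 608) (nat_lit 3207990766) (nat_lit 76) (nat_lit 2515599696) (nat_lit 246) (nat_lit 5) (nat_lit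 254) (nat_lit 5) (nat_lit 247) (nat_lit 5) (nat_lit 588) (nat_lit 499) (nat_lit 473)) (XT.lf (nat_lit 0) (nat_lit 3831382172) (nat_lit 456) (nat_lit 2948631671) (nat_lit 532) (nat_lit 2071237329) (nat_lit 240) (nat_lit 5) (nat_lit 246) (nat_lit 5) (nat_lit 247) (nat_lit 5) (nat_lit 589) (nat_lit 499) (nat_lit 472))) (XT.nd (nat_lit 78) (nat_lit 456) (nat_lit 0) (XT.lf (nat_lit 0) (nat_lit 1616928947) (nat_lit 608) (nat_lit 6865766801) (nat_lit 76) (nat_lit 446383035) (nat_lit 232) (nat_lit 5) (nat_lit 240) (nat_lit 5) (nat_lit 233) (nat_lit 5) (nat_lit 590) (nat_lit 499) (nat_lit 471)) (XT.lf (nat_lit 0) (nat_lit 241313767) (nat_lit 456) (nat_lit 5111687291) (nat_lit 532) (nat_lit 3655151700) (nat_lit 226) (nat_lit 5) (nat_lit 232) (nat_lit 5) (nat_lit 233) (nat_lit 5) (nat_lit 591) (nat_lit 499) (nat_lit 470)))) (XT.nd (nat_lit 156) (nat_lit 988) (nat_lit 0) (XT.nd (nat_lit 78) (nat_lit 456) (nat_lit 0) (XT.lf (nat_lit 0) (nat_lit 67425611) (nat_lit 532)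 (nat_lit 1582071986) (nat_lit 76) (nat_lit 7439433535) (nat_lit 225) (nat_lit 5) (nat_lit 232) (nat_lit 5) (nat_lit 226) (nat_lit 5) (nat_lit 592) (nat_lit 499) (nat_lit 469)) (XT.lf (nat_lit 0) (nat_lit 3813262121) (nat_lit 532) (nat_lit 3461870512) (nat_lit 76) (nat_lit 1895755315) (nat_lit 219) (nat_lit 5) (nat_lit 226) (nat_lit 5) (nat_lit 220) (nat_lit 5) (nat_lit 593) (nat_lit 499) (nat_lit 468))) (XT.nd (nat_lit 78) (nat_lit 532) (nat_lit 0) (XT.lf (nat_lit 0) (nat_lit 3877091448) (nat_lit 456) (nat_lit 3752168058) (nat_lit 532) (nat_lit 1625320581) (nat_lit 213) (nat_lit 5) (nat_lit 219) (nat_lit 5) (nat_lit 220) (nat_lit 5) (nat_lit 594) (nat_lit 499) (nat_lit 467)) (XT.lf (nat_lit 0) (nat_lit 2006221212) (nat_lit 456) (nat_lit 131850786) (nat_lit 532) (nat_lit 7201890729) (nat_lit 206) (nat_lit 5) (nat_lit 212) (nat_lit 5) (nat_lit 213) (nat_lit 5) (nat_lit 595) (nat_lit 499) (nat_lit 466))))))))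
noncomputable def xc32 : XT := (XT.nd (nat_lit 2418) (nat_lit 3496) (nat_lit 0) (XT.nd (nat_lit 1170) (nat_lit 3800) (nat_lit 0) (XT.nd (nat_lit 546) (nat_lit 2736) (nat_lit 0) (XT.nd (nat_lit 234) (nat_lit 1292) (nat_lit 0) (XT.nd (nat_lit 78) (nat_lit 532) (nat_lit 0) (XT.lf (nat_lit 0) (nat_lit 74616478) (nat_lit 380) (nat_lit 5889301234) (nat_lit 456) (nat_lit 3462742480) (nat_lit 201) (nat_lit 5) (nat_lit 206) (nat_lit 5) (nat_lit 207) (nat_lit 5) (nat_lit 596) (nat_lit 499) (nat_lit 465)) (XT.nd (nat_lit 78) (nat_lit 456) (nat_lit 0) (XT.lf (nat_lit 0) (nat_lit 346166236) (nat_lit 456) (nat_lit 1863615060) (nat_lit 76) (nat_lit 7305274008) (nat_lit 200) (nat_lit 5) (nat_lit 206) (nat_lit 5) (nat_lit 201) (nat_lit 5) (nat_lit 597) (nat_lit 499) (nat_lit 464)) (XT.lf (nat_lit 0) (nat_lit 4182699483) (nat_lit 532) (nat_lit 3863256516) (nat_lit 76) (nat_lit 1558849242) (nat_lit 194) (nat_lit 5) (nat_lit 201) (nat_lit 5) (nat_lit 195) (nat_lit 5) (nat_lit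 598) (nat_lit 499) (nat_lit 463)))) (XT.nd (nat_lit 156) (nat_lit 456) (nat_lit 0) (XT.nd (nat_lit 78) (nat_lit 456) (nat_lit 0) (XT.lf (nat_lit 0) (nat_lit 3787525287) (nat_lit 380) (nat_lit 4310748826) (nat_lit 456) (nat_lit 1598030779) (nat_lit 189) (nat_lit 5) (nat_lit 194) (nat_lit 5) (nat_lit 195) (nat_lit 5) (nat_lit 599) (nat_lit 499) (nat_lit 462)) (XT.lf (nat_lit 0) (nat_lit 1787324290) (nat_lit 380) (nat_lit 473359395) (nat_lit 456) (nat_lit 7528885633) (nat_lit 183) (nat_lit 5) (nat_lit 188) (nat_lit 5) (nat_lit 189) (nat_lit 5) (nat_lit 600) (nat_lit 499) (nat_lit 461))) (XT.nd (nat_lit 78) (nat_lit 456) (nat_lit 0) (XT.lf (nat_lit 0) (nat_lit 6188413557) (nat_lit 456) (nat_lit 275526629) (nat_lit 76) (nat_lit 3420283690) (nat_lit 183) (nat_lit 5) (nat_lit 189) (nat_lit 5) (nat_lit 184) (nat_lit 5) (nat_lit 601) (nat_lit 499) (nat_lit 460)) (XT.lf (nat_lit 0) (nat_lit 215739601) (nat_lit 456) (nat_lit 2353855532) (nat_lit 76) (nat_lit 7411057077)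 (nat_lit 177) (nat_lit 5) (nat_lit 183) (nat_lit 5) (nat_lit 178) (nat_lit 5) (nat_lit 602) (nat_lit 499) (nat_lit 459))))) (XT.nd (nat_lit 312) (nat_lit 1520) (nat_lit 0) (XT.nd (nat_lit 156) (nat_lit 456) (nat_lit 0) (XT.nd (nat_lit 78) (nat_lit 380) (nat_lit 0) (XT.lf (nat_lit 0) (nat_lit 4155632229) (nat_lit 456) (nat_lit 4501901141) (nat_lit 76) (nat_lit 1420996008) (nat_lit 172) (nat_lit 5) (nat_lit 178) (nat_lit 5) (nat_lit 173) (nat_lit 5) (nat_lit 603) (nat_lit 499) (nat_lit 458)) (XT.lf (nat_lit 0) (nat_lit 3473182064) (nat_lit 380) (nat_lit 4708968043) (nat_lit 456) (nat_lit 1996058244) (nat_lit 167) (nat_lit 5) (nat_lit 172) (nat_lit 5) (nat_lit 173) (nat_lit 5) (nat_lit 604) (nat_lit 499) (nat_lit 457))) (XT.nd (nat_lit 78) (nat_lit 0) (nat_lit 0) (XT.lf (nat_lit 0) (nat_lit 1318594453) (nat_lit 380) (nat_lit 655839796) (nat_lit 456) (nat_lit 8305357129) (nat_lit 161) (nat_lit 5) (nat_lit 166) (nat_lit 5) (nat_lit 167) (nat_lit 5) (nat_lit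 605) (nat_lit 499) (nat_lit 456)) (XT.lf (nat_lit 0) (nat_lit 6018278177) (nat_lit 456) (nat_lit 900269392) (nat_lit 76) (nat_lit 3464182003) (nat_lit 161) (nat_lit 5) (nat_lit 167) (nat_lit 5) (nat_lit 162) (nat_lit 5) (nat_lit 606) (nat_lit 499) (nat_lit 455)))) (XT.nd (nat_lit 156) (nat_lit 760) (nat_lit 0) (XT.nd (nat_lit 78) (nat_lit 456) (nat_lit 0) (XT.lf (nat_lit 0) (nat_lit 7340035988) (nat_lit 304) (nat_lit 2808656636) (nat_lit 380) (nat_lit 338920782) (nat_lit 157) (nat_lit 5) (nat_lit 161) (nat_lit 5) (nat_lit 162) (nat_lit 5) (nat_lit 607) (nat_lit 499) (nat_lit 454)) (XT.lf (nat_lit 0) (nat_lit 3720161000) (nat_lit 456) (nat_lit 5471677088) (nat_lit 76) (nat_lit 1402219432) (nat_lit 151) (nat_lit 5) (nat_lit 157) (nat_lit 5) (nat_lit 152) (nat_lit 5) (nat_lit 608) (nat_lit 499) (nat_lit 453))) (XT.nd (nat_lit 78) (nat_lit 456) (nat_lit 0) (XT.lf (nat_lit 0) (nat_lit 2840319742) (nat_lit 304) (nat_lit 5027945073) (nat_lit 380) (nat_lit 2834074031)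 (nat_lit 147) (nat_lit 5) (nat_lit 151) (nat_lit 5) (nat_lit 152) (nat_lit 5) (nat_lit 609) (nat_lit 499) (nat_lit 452)) (XT.lf (nat_lit 0) (nat_lit 504430445) (nat_lit 380) (nat_lit 759668501) (nat_lit 456) (nat_lit 9548631921) (nat_lit 141) (nat_lit 5) (nat_lit 146) (nat_lit 5) (nat_lit 147) (nat_lit 5) (nat_lit 610) (nat_lit 499) (nat_lit 451)))))) (XT.nd (nat_lit 624) (nat_lit 1748) (nat_lit 0) (XT.nd (nat_lit 312) (nat_lit 1064) (nat_lit 0) (XT.nd (nat_lit 156) (nat_lit 684) (nat_lit 0) (XT.nd (nat_lit 78) (nat_lit 304) (nat_lit 0) (XT.lf (nat_lit 0) (nat_lit 5437190869) (nat_lit 456) (nat_lit 1896447044) (nat_lit 76) (nat_lit 3590700740) (nat_lit 141) (nat_lit 5) (nat_lit 147) (nat_lit 5) (nat_lit 142) (nat_lit 5) (nat_lit 611) (nat_lit 499) (nat_lit 450)) (XT.lf (nat_lit 0) (nat_lit 6693358209) (nat_lit 304) (nat_lit 3004194788) (nat_lit 380) (nat_lit 1340550081) (nat_lit 137) (nat_lit 5) (nat_lit 141) (nat_lit 5) (nat_lit 142) (nat_lit 5) (nat_lit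 612) (nat_lit 499) (nat_lit 449))) (XT.nd (nat_lit 78) (nat_lit 304) (nat_lit 0) (XT.lf (nat_lit 0) (nat_lit 2856566402) (nat_lit 380) (nat_lit 6872157334) (nat_lit 76) (nat_lit 1424935011) (nat_lit 132) (nat_lit 5) (nat_lit 137) (nat_lit 5) (nat_lit 133) (nat_lit 5) (nat_lit 613) (nat_lit 499) (nat_lit 448)) (XT.lf (nat_lit 0) (nat_lit 1789356959) (nat_lit 304) (nat_lit 5346844595) (nat_lit 380) (nat_lit 4134816843) (nat_lit 128) (nat_lit 5) (nat_lit 132) (nat_lit 5) (nat_lit 133) (nat_lit 5) (nat_lit 614) (nat_lit 499) (nat_lit 447)))) (XT.nd (nat_lit 156) (nat_lit 684) (nat_lit 0) (XT.nd (nat_lit 78) (nat_lit 304) (nat_lit 0) (XT.lf (nat_lit 0) (nat_lit 111426087) (nat_lit 380) (nat_lit 747046489) (nat_lit 76) (nat_lit 10532195400) (nat_lit 127) (nat_lit 5) (nat_lit 132) (nat_lit 5) (nat_lit 128) (nat_lit 5) (nat_lit 615) (nat_lit 499) (nat_lit 446)) (XT.lf (nat_lit 0) (nat_lit 4421442817) (nat_lit 380) (nat_lit 3366472640) (nat_lit 76) (nat_lit 3723564763)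 (nat_lit 123) (nat_lit 5) (nat_lit 128) (nat_lit 5) (nat_lit 124) (nat_lit 5) (nat_lit 616) (nat_lit 499) (nat_lit 445))) (XT.nd (nat_lit 78) (nat_lit 380) (nat_lit 0) (XT.lf (nat_lit 0) (nat_lit 5585724818) (nat_lit 304) (nat_lit 3235753536) (nat_lit 380) (nat_lit 2813154552) (nat_lit 119) (nat_lit 5) (nat_lit 123) (nat_lit 5) (nat_lit 124) (nat_lit 5) (nat_lit 617) (nat_lit 499) (nat_lit 444)) (XT.lf (nat_lit 0) (nat_lit 1537109828) (nat_lit 380) (nat_lit 8810293244) (nat_lit 76) (nat_lit 1412481686) (nat_lit 114) (nat_lit 5) (nat_lit 119) (nat_lit 5) (nat_lit 115) (nat_lit 5) (nat_lit 618) (nat_lit 499) (nat_lit 443))))) (XT.nd (nat_lit 312) (nat_lit 912) (nat_lit 0) (XT.nd (nat_lit 156) (nat_lit 608) (nat_lit 0) (XT.nd (nat_lit 78) (nat_lit 0) (nat_lit 0) (XT.lf (nat_lit 0) (nat_lit 213171261) (nat_lit 228) (nat_lit 5744354767) (nat_lit 304) (nat_lit 5929327959) (nat_lit 111) (nat_lit 5) (nat_lit 114) (nat_lit 5) (nat_lit 115) (nat_lit 5) (nat_lit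 619) (nat_lit 499) (nat_lit 442)) (XT.lf (nat_lit 0) (nat_lit 9464485484) (nat_lit 228) (nat_lit 1018466464) (nat_lit 304) (nat_lit 1533079149) (nat_lit 111) (nat_lit 5) (nat_lit 114) (nat_lit 5) (nat_lit 115) (nat_lit 5) (nat_lit 620) (nat_lit 499) (nat_lit 441))) (XT.nd (nat_lit 78) (nat_lit 228) (nat_lit 0) (XT.lf (nat_lit 0) (nat_lit 2939172911) (nat_lit 380) (nat_lit 5421057369) (nat_lit 76) (nat_lit 3786643114) (nat_lit 106) (nat_lit 5) (nat_lit 111) (nat_lit 5) (nat_lit 107) (nat_lit 5) (nat_lit 621) (nat_lit 499) (nat_lit 440)) (XT.lf (nat_lit 0) (nat_lit 3906174848) (nat_lit 228) (nat_lit 3581739707) (nat_lit 304) (nat_lit 4792064353) (nat_lit 103) (nat_lit 5) (nat_lit 106) (nat_lit 5) (nat_lit 107) (nat_lit 5) (nat_lit 622) (nat_lit 499) (nat_lit 439)))) (XT.nd (nat_lit 156) (nat_lit 532) (nat_lit 0) (XT.nd (nat_lit 78) (nat_lit 76) (nat_lit 0) (XT.lf (nat_lit 0) (nat_lit 1011517098) (nat_lit 304) (nat_lit 11126070189) (nat_lit 380) (nat_lit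 277960605) (nat_lit 99) (nat_lit 5) (nat_lit 103) (nat_lit 5) (nat_lit 104) (nat_lit 5) (nat_lit 623) (nat_lit 499) (nat_lit 438)) (XT.lf (nat_lit 0) (nat_lit 4308428369) (nat_lit 380) (nat_lit 1978448992) (nat_lit 76) (nat_lit 6265614658) (nat_lit 98) (nat_lit 5) (nat_lit 103) (nat_lit 5) (nat_lit 99) (nat_lit 5) (nat_lit 624) (nat_lit 499) (nat_lit 437))) (XT.nd (nat_lit 78) (nat_lit 304) (nat_lit 0) (XT.lf (nat_lit 0) (nat_lit 7664107939) (nat_lit 228) (nat_lit 1327753848) (nat_lit 304) (nat_lit 3700096179) (nat_lit 95) (nat_lit 5) (nat_lit 98) (nat_lit 5) (nat_lit 99) (nat_lit 5) (nat_lit 625) (nat_lit 499) (nat_lit 436)) (XT.lf (nat_lit 0) (nat_lit 949934586) (nat_lit 304) (nat_lit 8181106569) (nat_lit 76) (nat_lit 3702502268) (nat_lit 91) (nat_lit 5) (nat_lit 95) (nat_lit 5) (nat_lit 92) (nat_lit 5) (nat_lit 626) (nat_lit 499) (nat_lit 435))))))) (XT.nd (nat_lit 1170) (nat_lit 836) (nat_lit 0) (XT.nd (nat_lit 546) (nat_lit 1368) (nat_lit 0) (XT.nd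 (nat_lit 234) (nat_lit 760) (nat_lit 0) (XT.nd (nat_lit 78) (nat_lit 304) (nat_lit 0) (XT.lf (nat_lit 0) (nat_lit 1533344186) (nat_lit 228) (nat_lit 4122339699) (nat_lit 304) (nat_lit 7321542737) (nat_lit 88) (nat_lit 5) (nat_lit 91) (nat_lit 5) (nat_lit 92) (nat_lit 5) (nat_lit 627) (nat_lit 499) (nat_lit 434)) (XT.nd (nat_lit 78) (nat_lit 304) (nat_lit 0) (XT.lf (nat_lit 0) (nat_lit 10476866937) (nat_lit 304) (nat_lit 1647062712) (nat_lit 76) (nat_lit 999427881) (nat_lit 88) (nat_lit 5) (nat_lit 92) (nat_lit 5) (nat_lit 89) (nat_lit 5) (nat_lit 628) (nat_lit 499) (nat_lit 433)) (XT.lf (nat_lit 0) (nat_lit 2136522004) (nat_lit 304) (nat_lit 4926812075) (nat_lit 76) (nat_lit 6207956013) (nat_lit 84) (nat_lit 5) (nat_lit 88) (nat_lit 5) (nat_lit 85) (nat_lit 5) (nat_lit 629) (nat_lit 499) (nat_lit 432)))) (XT.nd (nat_lit 156) (nat_lit 304) (nat_lit 0) (XT.nd (nat_lit 78) (nat_lit 228) (nat_lit 0) (XT.lf (nat_lit 0) (nat_lit 5116443942) (nat_lit 228) (nat_lit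 1868203405) (nat_lit 304) (nat_lit 6437086708) (nat_lit 81) (nat_lit 5) (nat_lit 84) (nat_lit 5) (nat_lit 85) (nat_lit 5) (nat_lit 630) (nat_lit 499) (nat_lit 431)) (XT.lf (nat_lit 0) (nat_lit 1784320654) (nat_lit 228) (nat_lit 10173200810) (nat_lit 304) (nat_lit 1617110097) (nat_lit 78) (nat_lit 5) (nat_lit 81) (nat_lit 5) (nat_lit 82) (nat_lit 5) (nat_lit 631) (nat_lit 499) (nat_lit 430))) (XT.nd (nat_lit 78) (nat_lit 228) (nat_lit 0) (XT.lf (nat_lit 0) (nat_lit 3285180448) (nat_lit 304) (nat_lit 1644807019) (nat_lit 76) (nat_lit 8799587806) (nat_lit 77) (nat_lit 5) (nat_lit 81) (nat_lit 5) (nat_lit 78) (nat_lit 5) (nat_lit 632) (nat_lit 499) (nat_lit 429)) (XT.lf (nat_lit 0) (nat_lit 8285076084) (nat_lit 304) (nat_lit 5150606284) (nat_lit 76) (nat_lit 451297828) (nat_lit 74) (nat_lit 5) (nat_lit 78) (nat_lit 5) (nat_lit 75) (nat_lit 5) (nat_lit 633) (nat_lit 499) (nat_lit 428))))) (XT.nd (nat_lit 312) (nat_lit 608) (nat_lit 0) (XT.nd (nat_lit 156) (nat_lit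 304) (nat_lit 0) (XT.nd (nat_lit 78) (nat_lit 228) (nat_lit 0) (XT.lf (nat_lit 0) (nat_lit 5268295317) (nat_lit 228) (nat_lit 8156244851) (nat_lit 304) (nat_lit 622201998) (nat_lit 71) (nat_lit 5) (nat_lit 74) (nat_lit 5) (nat_lit 75) (nat_lit 5) (nat_lit 634) (nat_lit 499) (nat_lit 427)) (XT.lf (nat_lit 0) (nat_lit 1680963561) (nat_lit 152) (nat_lit 2725046985) (nat_lit 228) (nat_lit 9802962967) (nat_lit 68) (nat_lit 5) (nat_lit 70) (nat_lit 5) (nat_lit 71) (nat_lit 5) (nat_lit 635) (nat_lit 499) (nat_lit 426))) (XT.nd (nat_lit 78) (nat_lit 304) (nat_lit 0) (XT.lf (nat_lit 0) (nat_lit 9565820683) (nat_lit 228) (nat_lit 1995918768) (nat_lit 76) (nat_lit 2811840827) (nat_lit 68) (nat_lit 5) (nat_lit 71) (nat_lit 5) (nat_lit 69) (nat_lit 5) (nat_lit 636) (nat_lit 499) (nat_lit 425)) (XT.lf (nat_lit 0) (nat_lit 321391824) (nat_lit 304) (nat_lit 5766041965) (nat_lit 76) (nat_lit 8453252150) (nat_lit 64) (nat_lit 5) (nat_lit 68) (nat_lit 5) (nat_lit 65) (nat_lit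 5) (nat_lit 637) (nat_lit 499) (nat_lit 424)))) (XT.nd (nat_lit 156) (nat_lit 228) (nat_lit 0) (XT.nd (nat_lit 78) (nat_lit 228) (nat_lit 0) (XT.lf (nat_lit 0) (nat_lit 5043898386) (nat_lit 152) (nat_lit 453731108) (nat_lit 228) (nat_lit 9212691370) (nat_lit 62) (nat_lit 5) (nat_lit 64) (nat_lit 5) (nat_lit 65) (nat_lit 5) (nat_lit 638) (nat_lit 499) (nat_lit 423)) (XT.lf (nat_lit 0) (nat_lit 1179228069) (nat_lit 228) (nat_lit 9641829726) (nat_lit 304) (nat_lit 4061417687) (nat_lit 59) (nat_lit 5) (nat_lit 62) (nat_lit 5) (nat_lit 63) (nat_lit 5) (nat_lit 639) (nat_lit 499) (nat_lit 422))) (XT.nd (nat_lit 78) (nat_lit 152) (nat_lit 0) (XT.lf (nat_lit 0) (nat_lit 1208286939) (nat_lit 304) (nat_lit 2762426942) (nat_lit 76) (nat_lit 11086583706) (nat_lit 58) (nat_lit 5) (nat_lit 62) (nat_lit 5) (nat_lit 59) (nat_lit 5) (nat_lit 640) (nat_lit 499) (nat_lit 421)) (XT.lf (nat_lit 0) (nat_lit 6559292697) (nat_lit 228) (nat_lit 6832142777) (nat_lit 76) (nat_lit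 1843038247) (nat_lit 56) (nat_lit 5) (nat_lit 59) (nat_lit 5) (nat_lit 57) (nat_lit 5) (nat_lit 641) (nat_lit 499) (nat_lit 420)))))) (XT.nd (nat_lit 74958) (nat_lit 0) (nat_lit 25536) (XT.nd (nat_lit 312) (nat_lit 228) (nat_lit 0) (XT.nd (nat_lit 156) (nat_lit 152) (nat_lit 0) (XT.nd (nat_lit 78) (nat_lit 228) (nat_lit 0) (XT.lf (nat_lit 0) (nat_lit 4377929982) (nat_lit 228) (nat_lit 7676349013) (nat_lit 304) (nat_lit 3360175464) (nat_lit 53) (nat_lit 5) (nat_lit 56) (nat_lit 5) (nat_lit 57) (nat_lit 5) (nat_lit 642) (nat_lit 499) (nat_lit 419)) (XT.lf (nat_lit 0) (nat_lit 230916293) (nat_lit 152) (nat_lit 1814460133) (nat_lit 228) (nat_lit 13552165452) (nat_lit 50) (nat_lit 5) (nat_lit 52) (nat_lit 5) (nat_lit 53) (nat_lit 5) (nat_lit 643) (nat_lit 499) (nat_lit 418))) (XT.nd (nat_lit 78) (nat_lit 152) (nat_lit 0) (XT.lf (nat_lit 0) (nat_lit 7579402418) (nat_lit 228) (nat_lit 4025502950) (nat_lit 76) (nat_lit 4177634618) (nat_lit 50) (nat_lit 5) (nat_lit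 53) (nat_lit 5) (nat_lit 51) (nat_lit 5) (nat_lit 644) (nat_lit 499) (nat_lit 417)) (XT.lf (nat_lit 0) (nat_lit 7564717962) (nat_lit 152) (nat_lit 5684956366) (nat_lit 228) (nat_lit 2721052687) (nat_lit 48) (nat_lit 5) (nat_lit 50) (nat_lit 5) (nat_lit 51) (nat_lit 5) (nat_lit 645) (nat_lit 499) (nat_lit 416)))) (XT.nd (nat_lit 74490) (nat_lit 0) (nat_lit 30932) (XT.nd (nat_lit 78) (nat_lit 0) (nat_lit 0) (XT.lf (nat_lit 0) (nat_lit 2848263570) (nat_lit 228) (nat_lit 12926742803) (nat_lit 76) (nat_lit 386994121) (nat_lit 45) (nat_lit 5) (nat_lit 48) (nat_lit 5) (nat_lit 46) (nat_lit 5) (nat_lit 646) (nat_lit 499) (nat_lit 415)) (XT.lf (nat_lit 0) (nat_lit 8551562251) (nat_lit 228) (nat_lit 1253771584) (nat_lit 76) (nat_lit 6550225516) (nat_lit 45) (nat_lit 5) (nat_lit 48) (nat_lit 5) (nat_lit 46) (nat_lit 5) (nat_lit 647) (nat_lit 499) (nat_lit 414))) (XT.nd (nat_lit 78) (nat_lit 988) (nat_lit 0) (XT.lf (nat_lit 0) (nat_lit 1897713766) (nat_lit 1140) (nat_lit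 852050992) (nat_lit 1140) (nat_lit 852050992) (nat_lit 465) (nat_lit 4) (nat_lit 480) (nat_lit 5) (nat_lit 480) (nat_lit 4) (nat_lit 560) (nat_lit 500) (nat_lit 500)) (XT.lf (nat_lit 0) (nat_lit 1873014353) (nat_lit 988) (nat_lit 5134505356) (nat_lit 0) (nat_lit 235027381) (nat_lit 452) (nat_lit 5) (nat_lit 465) (nat_lit 4) (nat_lit 452) (nat_lit 4) (nat_lit 561) (nat_lit 500) (nat_lit 499))))) (XT.nd (nat_lit 312) (nat_lit 2584) (nat_lit 0) (XT.nd (nat_lit 156) (nat_lit 1824) (nat_lit 0) (XT.nd (nat_lit 78) (nat_lit 76) (nat_lit 0) (XT.lf (nat_lit 0) (nat_lit 407205492) (nat_lit 912) (nat_lit 5059654636) (nat_lit 912) (nat_lit 1815798085) (nat_lit 440) (nat_lit 4) (nat_lit 452) (nat_lit 5) (nat_lit 452) (nat_lit 4) (nat_lit 562) (nat_lit 500) (nat_lit 498)) (XT.lf (nat_lit 0) (nat_lit 1751419967) (nat_lit 988) (nat_lit 1280370158) (nat_lit 76) (nat_lit 4292226344) (nat_lit 439) (nat_lit 5) (nat_lit 452) (nat_lit 5) (nat_lit 440) (nat_lit 4) (nat_lit 563)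 (nat_lit 500) (nat_lit 497))) (XT.nd (nat_lit 78) (nat_lit 988) (nat_lit 0) (XT.lf (nat_lit 0) (nat_lit 4398884642) (nat_lit 836) (nat_lit 928162308) (nat_lit 912) (nat_lit 2039689782) (nat_lit 428) (nat_lit 5) (nat_lit 439) (nat_lit 5) (nat_lit 440) (nat_lit 4) (nat_lit 564) (nat_lit 500) (nat_lit 496)) (XT.lf (nat_lit 0) (nat_lit 1511174600) (nat_lit 988) (nat_lit 4668012572) (nat_lit 76) (nat_lit 1231567312) (nat_lit 415) (nat_lit 5) (nat_lit 428) (nat_lit 5) (nat_lit 416) (nat_lit 4) (nat_lit 565) (nat_lit 500) (nat_lit 495)))) (XT.nd (nat_lit 156) (nat_lit 1672) (nat_lit 0) (XT.nd (nat_lit 78) (nat_lit 76) (nat_lit 0) (XT.lf (nat_lit 0) (nat_lit 1072207082) (nat_lit 836) (nat_lit 4000702770) (nat_lit 912) (nat_lit 2383132102) (nat_lit 404) (nat_lit 5) (nat_lit 415) (nat_lit 5) (nat_lit 416) (nat_lit 4) (nat_lit 566) (nat_lit 500) (nat_lit 494)) (XT.lf (nat_lit 0) (nat_lit 1153753677) (nat_lit 912) (nat_lit 594099585) (nat_lit 76) (nat_lit 5754909934)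 (nat_lit 403) (nat_lit 5) (nat_lit 415) (nat_lit 5) (nat_lit 404) (nat_lit 5) (nat_lit 567) (nat_lit 500) (nat_lit 493))) (XT.nd (nat_lit 78) (nat_lit 836) (nat_lit 0) (XT.lf (nat_lit 0) (nat_lit 4703346761) (nat_lit 912) (nat_lit 2263007343) (nat_lit 76) (nat_lit 584274293) (nat_lit 392) (nat_lit 5) (nat_lit 404) (nat_lit 5) (nat_lit 393) (nat_lit 4) (nat_lit 568) (nat_lit 500) (nat_lit 492)) (XT.lf (nat_lit 0) (nat_lit 690529336) (nat_lit 836) (nat_lit 3946686696) (nat_lit 76) (nat_lit 2962631882) (nat_lit 381) (nat_lit 5) (nat_lit 392) (nat_lit 5) (nat_lit 382) (nat_lit 5) (nat_lit 569) (nat_lit 500) (nat_lit 491))))))))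
noncomputable def xc33 : XT := (XT.nd (nat_lit 2418) (nat_lit 8132) (nat_lit 0) (XT.nd (nat_lit 1170) (nat_lit 6232) (nat_lit 0) (XT.nd (nat_lit 546) (nat_lit 4560) (nat_lit 0) (XT.nd (nat_lit 234) (nat_lit 2280) (nat_lit 0) (XT.nd (nat_lit 78) (nat_lit 836) (nat_lit 0) (XT.lf (nat_lit 0) (nat_lit 2001282474) (nat_lit 760) (nat_lit 2224731214) (nat_lit 836) (nat_lit 3424362931) (nat_lit 371) (nat_lit 5) (nat_lit 381) (nat_lit 5) (nat_lit 382) (nat_lit 5) (nat_lit 570) (nat_lit 500) (nat_lit 490)) (XT.nd (nat_lit 78) (nat_lit 0) (nat_lit 0) (XT.lf (nat_lit 0) (nat_lit 96229837) (nat_lit 836) (nat_lit 7355290484) (nat_lit 76) (nat_lit 251027694) (nat_lit 360) (nat_lit 5) (nat_lit 371) (nat_lit 5) (nat_lit 361) (nat_lit 5) (nat_lit 571) (nat_lit 500) (nat_lit 489)) (XT.lf (nat_lit 0) (nat_lit 3632058836) (nat_lit 836) (nat_lit 1328164874) (nat_lit 76) (nat_lit 2795274831) (nat_lit 360) (nat_lit 5) (nat_lit 371) (nat_lit 5) (nat_lit 361) (nat_lit 5) (nat_lit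 572) (nat_lit 500) (nat_lit 488)))) (XT.nd (nat_lit 156) (nat_lit 760) (nat_lit 0) (XT.nd (nat_lit 78) (nat_lit 760) (nat_lit 0) (XT.lf (nat_lit 0) (nat_lit 4808440203) (nat_lit 760) (nat_lit 2400345531) (nat_lit 836) (nat_lit 601320612) (nat_lit 350) (nat_lit 5) (nat_lit 360) (nat_lit 5) (nat_lit 361) (nat_lit 5) (nat_lit 573) (nat_lit 500) (nat_lit 487)) (XT.lf (nat_lit 0) (nat_lit 2922431646) (nat_lit 760) (nat_lit 4699875665) (nat_lit 76) (nat_lit 243703968) (nat_lit 340) (nat_lit 5) (nat_lit 350) (nat_lit 5) (nat_lit 341) (nat_lit 5) (nat_lit 574) (nat_lit 500) (nat_lit 486))) (XT.nd (nat_lit 78) (nat_lit 76) (nat_lit 0) (XT.lf (nat_lit 0) (nat_lit 1499940994) (nat_lit 684) (nat_lit 4994483910) (nat_lit 760) (nat_lit 1428815347) (nat_lit 331) (nat_lit 5) (nat_lit 340) (nat_lit 5) (nat_lit 341) (nat_lit 5) (nat_lit 575) (nat_lit 500) (nat_lit 485)) (XT.lf (nat_lit 0) (nat_lit 2099910321) (nat_lit 760) (nat_lit 183101547) (nat_lit 76) (nat_lit 5698884742)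 (nat_lit 330) (nat_lit 5) (nat_lit 340) (nat_lit 5) (nat_lit 331) (nat_lit 5) (nat_lit 576) (nat_lit 500) (nat_lit 484))))) (XT.nd (nat_lit 312) (nat_lit 1824) (nat_lit 0) (XT.nd (nat_lit 156) (nat_lit 1292) (nat_lit 0) (XT.nd (nat_lit 78) (nat_lit 760) (nat_lit 0) (XT.lf (nat_lit 0) (nat_lit 5664952459) (nat_lit 760) (nat_lit 1865681730) (nat_lit 76) (nat_lit 511207226) (nat_lit 321) (nat_lit 5) (nat_lit 331) (nat_lit 5) (nat_lit 322) (nat_lit 5) (nat_lit 577) (nat_lit 500) (nat_lit 483)) (XT.lf (nat_lit 0) (nat_lit 1170235388) (nat_lit 760) (nat_lit 3578961795) (nat_lit 76) (nat_lit 3353881125) (nat_lit 311) (nat_lit 5) (nat_lit 321) (nat_lit 5) (nat_lit 312) (nat_lit 5) (nat_lit 578) (nat_lit 500) (nat_lit 482))) (XT.nd (nat_lit 78) (nat_lit 684) (nat_lit 0) (XT.lf (nat_lit 0) (nat_lit 2848497759) (nat_lit 608) (nat_lit 1881324318) (nat_lit 684) (nat_lit 3435938296) (nat_lit 303) (nat_lit 5) (nat_lit 311) (nat_lit 5) (nat_lit 312) (nat_lit 5) (nat_lit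 579) (nat_lit 500) (nat_lit 481)) (XT.lf (nat_lit 0) (nat_lit 110284909) (nat_lit 684) (nat_lit 7074049074) (nat_lit 76) (nat_lit 1045724675) (nat_lit 294) (nat_lit 5) (nat_lit 303) (nat_lit 5) (nat_lit 295) (nat_lit 5) (nat_lit 580) (nat_lit 500) (nat_lit 480)))) (XT.nd (nat_lit 156) (nat_lit 1216) (nat_lit 0) (XT.nd (nat_lit 78) (nat_lit 608) (nat_lit 0) (XT.lf (nat_lit 0) (nat_lit 3672865121) (nat_lit 684) (nat_lit 575107598) (nat_lit 76) (nat_lit 4047388660) (nat_lit 294) (nat_lit 5) (nat_lit 303) (nat_lit 5) (nat_lit 295) (nat_lit 5) (nat_lit 581) (nat_lit 500) (nat_lit 479)) (XT.lf (nat_lit 0) (nat_lit 6059209265) (nat_lit 608) (nat_lit 1230965052) (nat_lit 684) (nat_lit 1072127754) (nat_lit 286) (nat_lit 5) (nat_lit 294) (nat_lit 5) (nat_lit 295) (nat_lit 5) (nat_lit 582) (nat_lit 500) (nat_lit 478))) (XT.nd (nat_lit 78) (nat_lit 532) (nat_lit 0) (XT.lf (nat_lit 0) (nat_lit 2504648472) (nat_lit 684) (nat_lit 4072993924) (nat_lit 76) (nat_lit 1852832878)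 (nat_lit 277) (nat_lit 5) (nat_lit 286) (nat_lit 5) (nat_lit 278) (nat_lit 5) (nat_lit 583) (nat_lit 500) (nat_lit 477)) (XT.lf (nat_lit 0) (nat_lit 2627068652) (nat_lit 532) (nat_lit 3497191344) (nat_lit 608) (nat_lit 2375898481) (nat_lit 270) (nat_lit 5) (nat_lit 277) (nat_lit 5) (nat_lit 278) (nat_lit 5) (nat_lit 584) (nat_lit 500) (nat_lit 476)))))) (XT.nd (nat_lit 624) (nat_lit 2812) (nat_lit 0) (XT.nd (nat_lit 312) (nat_lit 1596) (nat_lit 0) (XT.nd (nat_lit 156) (nat_lit 1140) (nat_lit 0) (XT.nd (nat_lit 78) (nat_lit 0) (nat_lit 0) (XT.lf (nat_lit 0) (nat_lit 873796782) (nat_lit 608) (nat_lit 333201010) (nat_lit 684) (nat_lit 7364511245) (nat_lit 261) (nat_lit 5) (nat_lit 269) (nat_lit 5) (nat_lit 270) (nat_lit 5) (nat_lit 585) (nat_lit 500) (nat_lit 475)) (XT.lf (nat_lit 0) (nat_lit 4833803728) (nat_lit 684) (nat_lit 918566455) (nat_lit 76) (nat_lit 2891522332) (nat_lit 261) (nat_lit 5) (nat_lit 270) (nat_lit 5) (nat_lit 262) (nat_lit 5) (nat_lit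 586) (nat_lit 500) (nat_lit 474))) (XT.nd (nat_lit 78) (nat_lit 608) (nat_lit 0) (XT.lf (nat_lit 0) (nat_lit 5998594124) (nat_lit 532) (nat_lit 2522344879) (nat_lit 608) (nat_lit 197030071) (nat_lit 254) (nat_lit 5) (nat_lit 261) (nat_lit 5) (nat_lit 262) (nat_lit 5) (nat_lit 587) (nat_lit 500) (nat_lit 473)) (XT.lf (nat_lit 0) (nat_lit 3428327945) (nat_lit 608) (nat_lit 4567013484) (nat_lit 76) (nat_lit 798018243) (nat_lit 246) (nat_lit 5) (nat_lit 254) (nat_lit 5) (nat_lit 247) (nat_lit 5) (nat_lit 588) (nat_lit 500) (nat_lit 472)))) (XT.nd (nat_lit 156) (nat_lit 532) (nat_lit 0) (XT.nd (nat_lit 78) (nat_lit 608) (nat_lit 0) (XT.lf (nat_lit 0) (nat_lit 2416836515) (nat_lit 456) (nat_lit 4704769271) (nat_lit 532) (nat_lit 1748666432) (nat_lit 240) (nat_lit 5) (nat_lit 246) (nat_lit 5) (nat_lit 247) (nat_lit 5) (nat_lit 589) (nat_lit 500) (nat_lit 471)) (XT.lf (nat_lit 0) (nat_lit 574000799) (nat_lit 532) (nat_lit 1322646908) (nat_lit 608) (nat_lit 7052183239)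 (nat_lit 232) (nat_lit 5) (nat_lit 239) (nat_lit 5) (nat_lit 240) (nat_lit 5) (nat_lit 590) (nat_lit 500) (nat_lit 470))) (XT.nd (nat_lit 78) (nat_lit 532) (nat_lit 0) (XT.lf (nat_lit 0) (nat_lit 5596768263) (nat_lit 608) (nat_lit 1299599742) (nat_lit 76) (nat_lit 2132256508) (nat_lit 232) (nat_lit 5) (nat_lit 240) (nat_lit 5) (nat_lit 233) (nat_lit 5) (nat_lit 591) (nat_lit 500) (nat_lit 469)) (XT.lf (nat_lit 0) (nat_lit 253484387) (nat_lit 532) (nat_lit 3199662079) (nat_lit 76) (nat_lit 5656914126) (nat_lit 225) (nat_lit 5) (nat_lit 232) (nat_lit 5) (nat_lit 226) (nat_lit 5) (nat_lit 592) (nat_lit 500) (nat_lit 468))))) (XT.nd (nat_lit 312) (nat_lit 1368) (nat_lit 0) (XT.nd (nat_lit 156) (nat_lit 532) (nat_lit 0) (XT.nd (nat_lit 78) (nat_lit 456) (nat_lit 0) (XT.lf (nat_lit 0) (nat_lit 3951383453) (nat_lit 532) (nat_lit 5148076119) (nat_lit 76) (nat_lit 93517115) (nat_lit 219) (nat_lit 5) (nat_lit 226) (nat_lit 5) (nat_lit 220) (nat_lit 5) (nat_lit 593)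 (nat_lit 500) (nat_lit 467)) (XT.lf (nat_lit 0) (nat_lit 2131166892) (nat_lit 456) (nat_lit 5599864086) (nat_lit 532) (nat_lit 1546365362) (nat_lit 213) (nat_lit 5) (nat_lit 219) (nat_lit 5) (nat_lit 220) (nat_lit 5) (nat_lit 594) (nat_lit 500) (nat_lit 466))) (XT.nd (nat_lit 78) (nat_lit 0) (nat_lit 0) (XT.lf (nat_lit 0) (nat_lit 176054466) (nat_lit 456) (nat_lit 2003128921) (nat_lit 532) (nat_lit 7184322006) (nat_lit 206) (nat_lit 5) (nat_lit 212) (nat_lit 5) (nat_lit 213) (nat_lit 5) (nat_lit 595) (nat_lit 500) (nat_lit 465)) (XT.lf (nat_lit 0) (nat_lit 5967642208) (nat_lit 532) (nat_lit 1805005595) (nat_lit 76) (nat_lit 1678303282) (nat_lit 206) (nat_lit 5) (nat_lit 213) (nat_lit 5) (nat_lit 207) (nat_lit 5) (nat_lit 596) (nat_lit 500) (nat_lit 464)))) (XT.nd (nat_lit 156) (nat_lit 456) (nat_lit 0) (XT.nd (nat_lit 78) (nat_lit 456) (nat_lit 0) (XT.lf (nat_lit 0) (nat_lit 289246430) (nat_lit 456) (nat_lit 3828708903) (nat_lit 76) (nat_lit 5422126465)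 (nat_lit 200) (nat_lit 5) (nat_lit 206) (nat_lit 5) (nat_lit 201) (nat_lit 5) (nat_lit 597) (nat_lit 500) (nat_lit 463)) (XT.lf (nat_lit 0) (nat_lit 3723877069) (nat_lit 456) (nat_lit 354293293) (nat_lit 532) (nat_lit 5552614020) (nat_lit 194) (nat_lit 5) (nat_lit 200) (nat_lit 5) (nat_lit 201) (nat_lit 5) (nat_lit 598) (nat_lit 500) (nat_lit 462))) (XT.nd (nat_lit 78) (nat_lit 76) (nat_lit 0) (XT.lf (nat_lit 0) (nat_lit 1681960650) (nat_lit 380) (nat_lit 6271787213) (nat_lit 456) (nat_lit 1769336564) (nat_lit 189) (nat_lit 5) (nat_lit 194) (nat_lit 5) (nat_lit 195) (nat_lit 5) (nat_lit 599) (nat_lit 500) (nat_lit 461)) (XT.lf (nat_lit 0) (nat_lit 2056071055) (nat_lit 456) (nat_lit 404025937) (nat_lit 76) (nat_lit 7356985611) (nat_lit 188) (nat_lit 5) (nat_lit 194) (nat_lit 5) (nat_lit 189) (nat_lit 5) (nat_lit 600) (nat_lit 500) (nat_lit 460))))))) (XT.nd (nat_lit 1170) (nat_lit 3572) (nat_lit 0) (XT.nd (nat_lit 546) (nat_lit 2204) (nat_lit 0) (XT.nd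 (nat_lit 234) (nat_lit 1140) (nat_lit 0) (XT.nd (nat_lit 78) (nat_lit 836) (nat_lit 0) (XT.lf (nat_lit 0) (nat_lit 5944427418) (nat_lit 456) (nat_lit 2523723843) (nat_lit 76) (nat_lit 1444373793) (nat_lit 183) (nat_lit 5) (nat_lit 189) (nat_lit 5) (nat_lit 184) (nat_lit 5) (nat_lit 601) (nat_lit 500) (nat_lit 459)) (XT.nd (nat_lit 78) (nat_lit 456) (nat_lit 0) (XT.lf (nat_lit 0) (nat_lit 5313584052) (nat_lit 380) (nat_lit 4603356782) (nat_lit 456) (nat_lit 92808564) (nat_lit 178) (nat_lit 5) (nat_lit 183) (nat_lit 5) (nat_lit 184) (nat_lit 5) (nat_lit 602) (nat_lit 500) (nat_lit 458)) (XT.lf (nat_lit 0) (nat_lit 3176677850) (nat_lit 380) (nat_lit 623369970) (nat_lit 456) (nat_lit 6308556269) (nat_lit 172) (nat_lit 5) (nat_lit 177) (nat_lit 5) (nat_lit 178) (nat_lit 5) (nat_lit 603) (nat_lit 500) (nat_lit 457)))) (XT.nd (nat_lit 156) (nat_lit 684) (nat_lit 0) (XT.nd (nat_lit 78) (nat_lit 76) (nat_lit 0) (XT.lf (nat_lit 0) (nat_lit 978164383) (nat_lit 380)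 (nat_lit 6805032851) (nat_lit 456) (nat_lit 2425953590) (nat_lit 167) (nat_lit 5) (nat_lit 172) (nat_lit 5) (nat_lit 173) (nat_lit 5) (nat_lit 604) (nat_lit 500) (nat_lit 456)) (XT.lf (nat_lit 0) (nat_lit 1518561116) (nat_lit 456) (nat_lit 1258253280) (nat_lit 76) (nat_lit 7534607973) (nat_lit 166) (nat_lit 5) (nat_lit 172) (nat_lit 5) (nat_lit 167) (nat_lit 5) (nat_lit 605) (nat_lit 500) (nat_lit 455))) (XT.nd (nat_lit 78) (nat_lit 304) (nat_lit 0) (XT.lf (nat_lit 0) (nat_lit 5517377679) (nat_lit 456) (nat_lit 3548326084) (nat_lit 76) (nat_lit 1349557718) (nat_lit 161) (nat_lit 5) (nat_lit 167) (nat_lit 5) (nat_lit 162) (nat_lit 5) (nat_lit 606) (nat_lit 500) (nat_lit 454)) (XT.lf (nat_lit 0) (nat_lit 4620511778) (nat_lit 304) (nat_lit 4987149090) (nat_lit 380) (nat_lit 913287434) (nat_lit 157) (nat_lit 5) (nat_lit 161) (nat_lit 5) (nat_lit 162) (nat_lit 5) (nat_lit 607) (nat_lit 500) (nat_lit 453))))) (XT.nd (nat_lit 312) (nat_lit 988) (nat_lit 0) (XT.nd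 (nat_lit 156) (nat_lit 760) (nat_lit 0) (XT.nd (nat_lit 78) (nat_lit 0) (nat_lit 0) (XT.lf (nat_lit 0) (nat_lit 2309785898) (nat_lit 380) (nat_lit 793581582) (nat_lit 456) (nat_lit 7525099065) (nat_lit 151) (nat_lit 5) (nat_lit 156) (nat_lit 5) (nat_lit 157) (nat_lit 5) (nat_lit 608) (nat_lit 500) (nat_lit 452)) (XT.lf (nat_lit 0) (nat_lit 7205586250) (nat_lit 456) (nat_lit 74767132) (nat_lit 76) (nat_lit 3457312531) (nat_lit 151) (nat_lit 5) (nat_lit 157) (nat_lit 5) (nat_lit 152) (nat_lit 5) (nat_lit 609) (nat_lit 500) (nat_lit 451))) (XT.nd (nat_lit 78) (nat_lit 380) (nat_lit 0) (XT.lf (nat_lit 0) (nat_lit 549244581) (nat_lit 380) (nat_lit 2485110996) (nat_lit 76) (nat_lit 7814313389) (nat_lit 146) (nat_lit 5) (nat_lit 151) (nat_lit 5) (nat_lit 147) (nat_lit 5) (nat_lit 610) (nat_lit 500) (nat_lit 450)) (XT.lf (nat_lit 0) (nat_lit 4668991091) (nat_lit 456) (nat_lit 4976560195) (nat_lit 76) (nat_lit 1315792695) (nat_lit 141) (nat_lit 5) (nat_lit 147)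 (nat_lit 5) (nat_lit 142) (nat_lit 5) (nat_lit 611) (nat_lit 500) (nat_lit 449)))) (XT.nd (nat_lit 156) (nat_lit 304) (nat_lit 0) (XT.nd (nat_lit 78) (nat_lit 380) (nat_lit 0) (XT.lf (nat_lit 0) (nat_lit 3536391999) (nat_lit 304) (nat_lit 5350778862) (nat_lit 380) (nat_lit 2188781509) (nat_lit 137) (nat_lit 5) (nat_lit 141) (nat_lit 5) (nat_lit 142) (nat_lit 5) (nat_lit 612) (nat_lit 500) (nat_lit 448)) (XT.lf (nat_lit 0) (nat_lit 1023395771) (nat_lit 304) (nat_lit 943842173) (nat_lit 380) (nat_lit 9225424979) (nat_lit 132) (nat_lit 5) (nat_lit 136) (nat_lit 5) (nat_lit 137) (nat_lit 5) (nat_lit 613) (nat_lit 500) (nat_lit 447))) (XT.nd (nat_lit 78) (nat_lit 304) (nat_lit 0) (XT.lf (nat_lit 0) (nat_lit 6207601386) (nat_lit 380) (nat_lit 1560701611) (nat_lit 76) (nat_lit 3542505307) (nat_lit 132) (nat_lit 5) (nat_lit 137) (nat_lit 5) (nat_lit 133) (nat_lit 5) (nat_lit 614) (nat_lit 500) (nat_lit 446)) (XT.lf (nat_lit 0) (nat_lit 7238194949) (nat_lit 304)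 (nat_lit 3305193062) (nat_lit 380) (nat_lit 887716853) (nat_lit 128) (nat_lit 5) (nat_lit 132) (nat_lit 5) (nat_lit 133) (nat_lit 5) (nat_lit 615) (nat_lit 500) (nat_lit 445)))))) (XT.nd (nat_lit 624) (nat_lit 1672) (nat_lit 0) (XT.nd (nat_lit 312) (nat_lit 836) (nat_lit 0) (XT.nd (nat_lit 156) (nat_lit 380) (nat_lit 0) (XT.nd (nat_lit 78) (nat_lit 304) (nat_lit 0) (XT.lf (nat_lit 0) (nat_lit 3373860541) (nat_lit 380) (nat_lit 6912980564) (nat_lit 76) (nat_lit 1266393194) (nat_lit 123) (nat_lit 5) (nat_lit 128) (nat_lit 5) (nat_lit 124) (nat_lit 5) (nat_lit 616) (nat_lit 500) (nat_lit 444)) (XT.lf (nat_lit 0) (nat_lit 1956560925) (nat_lit 304) (nat_lit 5772815466) (nat_lit 380) (nat_lit 3947901263) (nat_lit 119) (nat_lit 5) (nat_lit 123) (nat_lit 5) (nat_lit 124) (nat_lit 5) (nat_lit 617) (nat_lit 500) (nat_lit 443))) (XT.nd (nat_lit 78) (nat_lit 304) (nat_lit 0) (XT.lf (nat_lit 0) (nat_lit 367830850) (nat_lit 380) (nat_lit 779286163) (nat_lit 76) (nat_lit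 10656548401) (nat_lit 118) (nat_lit 5) (nat_lit 123) (nat_lit 5) (nat_lit 119) (nat_lit 5) (nat_lit 618) (nat_lit 500) (nat_lit 442)) (XT.lf (nat_lit 0) (nat_lit 4753436231) (nat_lit 380) (nat_lit 3600458176) (nat_lit 76) (nat_lit 3577436712) (nat_lit 114) (nat_lit 5) (nat_lit 119) (nat_lit 5) (nat_lit 115) (nat_lit 5) (nat_lit 619) (nat_lit 500) (nat_lit 441)))) (XT.nd (nat_lit 156) (nat_lit 228) (nat_lit 0) (XT.nd (nat_lit 78) (nat_lit 380) (nat_lit 0) (XT.lf (nat_lit 0) (nat_lit 5568041139) (nat_lit 228) (nat_lit 3666496866) (nat_lit 304) (nat_lit 2826856960) (nat_lit 111) (nat_lit 5) (nat_lit 114) (nat_lit 5) (nat_lit 115) (nat_lit 5) (nat_lit 620) (nat_lit 500) (nat_lit 440)) (XT.lf (nat_lit 0) (nat_lit 1598378338) (nat_lit 380) (nat_lit 9470697779) (nat_lit 76) (nat_lit 1124609090) (nat_lit 106) (nat_lit 5) (nat_lit 111) (nat_lit 5) (nat_lit 107) (nat_lit 5) (nat_lit 621) (nat_lit 500) (nat_lit 439))) (XT.nd (nat_lit 78) (nat_lit 228) (nat_lit 0)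 (XT.lf (nat_lit 0) (nat_lit 6101476709) (nat_lit 380) (nat_lit 229332694) (nat_lit 76) (nat_lit 5996894422) (nat_lit 106) (nat_lit 5) (nat_lit 111) (nat_lit 5) (nat_lit 107) (nat_lit 5) (nat_lit 622) (nat_lit 500) (nat_lit 438)) (XT.lf (nat_lit 0) (nat_lit 9249574787) (nat_lit 228) (nat_lit 1464950727) (nat_lit 304) (nat_lit 1749480008) (nat_lit 103) (nat_lit 5) (nat_lit 106) (nat_lit 5) (nat_lit 107) (nat_lit 5) (nat_lit 623) (nat_lit 500) (nat_lit 437))))) (XT.nd (nat_lit 312) (nat_lit 760) (nat_lit 0) (XT.nd (nat_lit 156) (nat_lit 304) (nat_lit 0) (XT.nd (nat_lit 78) (nat_lit 228) (nat_lit 0) (XT.lf (nat_lit 0) (nat_lit 2805248068) (nat_lit 380) (nat_lit 6311548286) (nat_lit 76) (nat_lit 3485363805) (nat_lit 98) (nat_lit 5) (nat_lit 103) (nat_lit 5) (nat_lit 99) (nat_lit 5) (nat_lit 624) (nat_lit 500) (nat_lit 436)) (XT.lf (nat_lit 0) (nat_lit 3238894362) (nat_lit 228) (nat_lit 4201289931) (nat_lit 304) (nat_lit 5302411978) (nat_lit 95) (nat_lit 5)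 (nat_lit 98) (nat_lit 5) (nat_lit 99) (nat_lit 5) (nat_lit 625) (nat_lit 500) (nat_lit 435))) (XT.nd (nat_lit 78) (nat_lit 76) (nat_lit 0) (XT.lf (nat_lit 0) (nat_lit 107776547) (nat_lit 228) (nat_lit 12068877301) (nat_lit 304) (nat_lit 709011004) (nat_lit 92) (nat_lit 5) (nat_lit 95) (nat_lit 5) (nat_lit 96) (nat_lit 5) (nat_lit 626) (nat_lit 500) (nat_lit 434)) (XT.lf (nat_lit 0) (nat_lit 3976427359) (nat_lit 304) (nat_lit 3113133230) (nat_lit 76) (nat_lit 5940471933) (nat_lit 91) (nat_lit 5) (nat_lit 95) (nat_lit 5) (nat_lit 92) (nat_lit 5) (nat_lit 627) (nat_lit 500) (nat_lit 433)))) (XT.nd (nat_lit 156) (nat_lit 228) (nat_lit 0) (XT.nd (nat_lit 78) (nat_lit 304) (nat_lit 0) (XT.lf (nat_lit 0) (nat_lit 6761188149) (nat_lit 228) (nat_lit 1989876544) (nat_lit 304) (nat_lit 4426029856) (nat_lit 88) (nat_lit 5) (nat_lit 91) (nat_lit 5) (nat_lit 92) (nat_lit 5) (nat_lit 628) (nat_lit 500) (nat_lit 432)) (XT.lf (nat_lit 0) (nat_lit 316271204) (nat_lit 304)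 (nat_lit 9823009012) (nat_lit 76) (nat_lit 3187259180) (nat_lit 84) (nat_lit 5) (nat_lit 88) (nat_lit 5) (nat_lit 85) (nat_lit 5) (nat_lit 629) (nat_lit 500) (nat_lit 431))) (XT.nd (nat_lit 78) (nat_lit 0) (nat_lit 0) (XT.lf (nat_lit 0) (nat_lit 121110097) (nat_lit 228) (nat_lit 4991687575) (nat_lit 304) (nat_lit 8365217856) (nat_lit 81) (nat_lit 5) (nat_lit 84) (nat_lit 5) (nat_lit 85) (nat_lit 5) (nat_lit 630) (nat_lit 500) (nat_lit 430)) (XT.lf (nat_lit 0) (nat_lit 10034706696) (nat_lit 304) (nat_lit 3304104498) (nat_lit 76) (nat_lit 293121331) (nat_lit 81) (nat_lit 5) (nat_lit 85) (nat_lit 5) (nat_lit 82) (nat_lit 5) (nat_lit 631) (nat_lit 500) (nat_lit 429))))))))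
noncomputable def xc34 : XT := (XT.nd (nat_lit 76596) (nat_lit 0) (nat_lit 9652) (XT.nd (nat_lit 1170) (nat_lit 228) (nat_lit 0) (XT.nd (nat_lit 546) (nat_lit 1216) (nat_lit 0) (XT.nd (nat_lit 234) (nat_lit 760) (nat_lit 0) (XT.nd (nat_lit 78) (nat_lit 228) (nat_lit 0) (XT.lf (nat_lit 0) (nat_lit 1290084031) (nat_lit 304) (nat_lit 6855597358) (nat_lit 76) (nat_lit 5642271160) (nat_lit 77) (nat_lit 5) (nat_lit 81) (nat_lit 5) (nat_lit 78) (nat_lit 5) (nat_lit 632) (nat_lit 500) (nat_lit 428)) (XT.nd (nat_lit 78) (nat_lit 0) (nat_lit 0) (XT.lf (nat_lit 0) (nat_lit 3425865356) (nat_lit 228) (nat_lit 2807951364) (nat_lit 304) (nat_lit 7712664188) (nat_lit 74) (nat_lit 5) (nat_lit 77) (nat_lit 5) (nat_lit 78) (nat_lit 5) (nat_lit 633) (nat_lit 500) (nat_lit 427)) (XT.lf (nat_lit 0) (nat_lit 11302210078) (nat_lit 304) (nat_lit 185696849) (nat_lit 76) (nat_lit 2619757541) (nat_lit 74) (nat_lit 5) (nat_lit 78) (nat_lit 5) (nat_lit 75) (nat_lit 5) (nat_lit 634)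 (nat_lit 500) (nat_lit 426)))) (XT.nd (nat_lit 156) (nat_lit 304) (nat_lit 0) (XT.nd (nat_lit 78) (nat_lit 152) (nat_lit 0) (XT.lf (nat_lit 0) (nat_lit 2220643006) (nat_lit 304) (nat_lit 3877454951) (nat_lit 76) (nat_lit 8172696506) (nat_lit 70) (nat_lit 5) (nat_lit 74) (nat_lit 5) (nat_lit 71) (nat_lit 5) (nat_lit 635) (nat_lit 500) (nat_lit 425)) (XT.lf (nat_lit 0) (nat_lit 6753651807) (nat_lit 152) (nat_lit 564338622) (nat_lit 228) (nat_lit 7118660217) (nat_lit 68) (nat_lit 5) (nat_lit 70) (nat_lit 5) (nat_lit 71) (nat_lit 5) (nat_lit 636) (nat_lit 500) (nat_lit 424))) (XT.nd (nat_lit 78) (nat_lit 76) (nat_lit 0) (XT.lf (nat_lit 0) (nat_lit 2984867482) (nat_lit 228) (nat_lit 9574239824) (nat_lit 304) (nat_lit 2045880523) (nat_lit 65) (nat_lit 5) (nat_lit 68) (nat_lit 5) (nat_lit 69) (nat_lit 5) (nat_lit 637) (nat_lit 500) (nat_lit 423)) (XT.lf (nat_lit 0) (nat_lit 3106283383) (nat_lit 304) (nat_lit 895630642) (nat_lit 76) (nat_lit 10773992664) (nat_lit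 64) (nat_lit 5) (nat_lit 68) (nat_lit 5) (nat_lit 65) (nat_lit 5) (nat_lit 638) (nat_lit 500) (nat_lit 422))))) (XT.nd (nat_lit 312) (nat_lit 608) (nat_lit 0) (XT.nd (nat_lit 156) (nat_lit 228) (nat_lit 0) (XT.nd (nat_lit 78) (nat_lit 228) (nat_lit 0) (XT.lf (nat_lit 0) (nat_lit 8374982014) (nat_lit 228) (nat_lit 4862931744) (nat_lit 76) (nat_lit 1711242295) (nat_lit 62) (nat_lit 5) (nat_lit 65) (nat_lit 5) (nat_lit 63) (nat_lit 5) (nat_lit 639) (nat_lit 500) (nat_lit 421)) (XT.lf (nat_lit 0) (nat_lit 6163772931) (nat_lit 228) (nat_lit 7621998974) (nat_lit 304) (nat_lit 1339364454) (nat_lit 59) (nat_lit 5) (nat_lit 62) (nat_lit 5) (nat_lit 63) (nat_lit 5) (nat_lit 640) (nat_lit 500) (nat_lit 420))) (XT.nd (nat_lit 78) (nat_lit 0) (nat_lit 0) (XT.lf (nat_lit 0) (nat_lit 2109747342) (nat_lit 152) (nat_lit 1848673847) (nat_lit 228) (nat_lit 11345481090) (nat_lit 56) (nat_lit 5) (nat_lit 58) (nat_lit 5) (nat_lit 59) (nat_lit 5) (nat_lit 641) (nat_lit 500)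 (nat_lit 419)) (XT.lf (nat_lit 0) (nat_lit 9395303958) (nat_lit 228) (nat_lit 2061565840) (nat_lit 76) (nat_lit 4028175429) (nat_lit 56) (nat_lit 5) (nat_lit 59) (nat_lit 5) (nat_lit 57) (nat_lit 5) (nat_lit 642) (nat_lit 500) (nat_lit 418)))) (XT.nd (nat_lit 156) (nat_lit 152) (nat_lit 0) (XT.nd (nat_lit 78) (nat_lit 228) (nat_lit 0) (XT.lf (nat_lit 0) (nat_lit 9340424033) (nat_lit 228) (nat_lit 5638381471) (nat_lit 304) (nat_lit 690248186) (nat_lit 53) (nat_lit 5) (nat_lit 56) (nat_lit 5) (nat_lit 57) (nat_lit 5) (nat_lit 643) (nat_lit 500) (nat_lit 417)) (XT.lf (nat_lit 0) (nat_lit 4768484686) (nat_lit 228) (nat_lit 10744051739) (nat_lit 76) (nat_lit 343292053) (nat_lit 50) (nat_lit 5) (nat_lit 53) (nat_lit 5) (nat_lit 51) (nat_lit 5) (nat_lit 644) (nat_lit 500) (nat_lit 416))) (XT.nd (nat_lit 78) (nat_lit 0) (nat_lit 0) (XT.lf (nat_lit 0) (nat_lit 724955764) (nat_lit 152) (nat_lit 9652130834) (nat_lit 228) (nat_lit 5668162439) (nat_lit 48) (nat_lit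 5) (nat_lit 50) (nat_lit 5) (nat_lit 51) (nat_lit 5) (nat_lit 645) (nat_lit 500) (nat_lit 415)) (XT.lf (nat_lit 0) (nat_lit 12505753033) (nat_lit 152) (nat_lit 3629610249) (nat_lit 228) (nat_lit 102344928) (nat_lit 48) (nat_lit 5) (nat_lit 50) (nat_lit 5) (nat_lit 51) (nat_lit 5) (nat_lit 646) (nat_lit 500) (nat_lit 414)))))) (XT.nd (nat_lit 74802) (nat_lit 0) (nat_lit 23940) (XT.nd (nat_lit 74490) (nat_lit 0) (nat_lit 29108) (XT.nd (nat_lit 74334) (nat_lit 0) (nat_lit 31920) (XT.nd (nat_lit 74256) (nat_lit 0) (nat_lit 33060) (XT.lf (nat_lit 0) (nat_lit 5536817573) (nat_lit 228) (nat_lit 8353959128) (nat_lit 76) (nat_lit 2541813346) (nat_lit 45) (nat_lit 5) (nat_lit 48) (nat_lit 5) (nat_lit 46) (nat_lit 5) (nat_lit 647) (nat_lit 500) (nat_lit 413)) (XT.lf (nat_lit 0) (nat_lit 20434625) (nat_lit 1900) (nat_lit 3523864745) (nat_lit 0) (nat_lit 20434625) (nat_lit 480) (nat_lit 5) (nat_lit 505) (nat_lit 4) (nat_lit 480) (nat_lit 4) (nat_lit 558) (nat_lit 501)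 (nat_lit 501))) (XT.nd (nat_lit 78) (nat_lit 1140) (nat_lit 0) (XT.lf (nat_lit 0) (nat_lit 3591845293) (nat_lit 1900) (nat_lit 1686552489) (nat_lit 0) (nat_lit 1887683648) (nat_lit 480) (nat_lit 5) (nat_lit 505) (nat_lit 4) (nat_lit 480) (nat_lit 4) (nat_lit 559) (nat_lit 501) (nat_lit 500)) (XT.lf (nat_lit 0) (nat_lit 3759467444) (nat_lit 1140) (nat_lit 3409880310) (nat_lit 1140) (nat_lit 34971954) (nat_lit 465) (nat_lit 4) (nat_lit 480) (nat_lit 5) (nat_lit 480) (nat_lit 4) (nat_lit 560) (nat_lit 501) (nat_lit 499)))) (XT.nd (nat_lit 156) (nat_lit 912) (nat_lit 0) (XT.nd (nat_lit 78) (nat_lit 912) (nat_lit 0) (XT.lf (nat_lit 0) (nat_lit 2025321203) (nat_lit 912) (nat_lit 1458944405) (nat_lit 988) (nat_lit 3759473994) (nat_lit 452) (nat_lit 5) (nat_lit 464) (nat_lit 5) (nat_lit 465) (nat_lit 4) (nat_lit 561) (nat_lit 501) (nat_lit 498)) (XT.lf (nat_lit 0) (nat_lit 295166266) (nat_lit 912) (nat_lit 6739272192) (nat_lit 912) (nat_lit 250286989) (nat_lit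 440) (nat_lit 4) (nat_lit 452) (nat_lit 5) (nat_lit 452) (nat_lit 4) (nat_lit 562) (nat_lit 501) (nat_lit 497))) (XT.nd (nat_lit 78) (nat_lit 836) (nat_lit 0) (XT.lf (nat_lit 0) (nat_lit 3263129253) (nat_lit 988) (nat_lit 1440975818) (nat_lit 76) (nat_lit 2622441957) (nat_lit 439) (nat_lit 5) (nat_lit 452) (nat_lit 5) (nat_lit 440) (nat_lit 4) (nat_lit 563) (nat_lit 501) (nat_lit 496)) (XT.lf (nat_lit 0) (nat_lit 4200048799) (nat_lit 836) (nat_lit 2604798963) (nat_lit 912) (nat_lit 565098889) (nat_lit 428) (nat_lit 5) (nat_lit 439) (nat_lit 5) (nat_lit 440) (nat_lit 4) (nat_lit 564) (nat_lit 501) (nat_lit 495))))) (XT.nd (nat_lit 312) (nat_lit 2432) (nat_lit 0) (XT.nd (nat_lit 156) (nat_lit 912) (nat_lit 0) (XT.nd (nat_lit 78) (nat_lit 836) (nat_lit 0) (XT.lf (nat_lit 0) (nat_lit 2500278174) (nat_lit 912) (nat_lit 423995332) (nat_lit 988) (nat_lit 4490343609) (nat_lit 415) (nat_lit 5) (nat_lit 427) (nat_lit 5) (nat_lit 428) (nat_lit 5) (nat_lit 565) (nat_lit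 501) (nat_lit 494)) (XT.lf (nat_lit 0) (nat_lit 788712764) (nat_lit 836) (nat_lit 5660661881) (nat_lit 912) (nat_lit 1011263743) (nat_lit 404) (nat_lit 5) (nat_lit 415) (nat_lit 5) (nat_lit 416) (nat_lit 4) (nat_lit 566) (nat_lit 501) (nat_lit 493))) (XT.nd (nat_lit 78) (nat_lit 836) (nat_lit 0) (XT.lf (nat_lit 0) (nat_lit 2475773196) (nat_lit 912) (nat_lit 927486405) (nat_lit 76) (nat_lit 4104560098) (nat_lit 403) (nat_lit 5) (nat_lit 415) (nat_lit 5) (nat_lit 404) (nat_lit 5) (nat_lit 567) (nat_lit 501) (nat_lit 492)) (XT.lf (nat_lit 0) (nat_lit 4917574901) (nat_lit 836) (nat_lit 1070287526) (nat_lit 912) (nat_lit 1568573606) (nat_lit 392) (nat_lit 5) (nat_lit 403) (nat_lit 5) (nat_lit 404) (nat_lit 5) (nat_lit 568) (nat_lit 501) (nat_lit 491)))) (XT.nd (nat_lit 156) (nat_lit 836) (nat_lit 0) (XT.nd (nat_lit 78) (nat_lit 760) (nat_lit 0) (XT.lf (nat_lit 0) (nat_lit 1911705216) (nat_lit 836) (nat_lit 4371654392) (nat_lit 76) (nat_lit 1322946149) (nat_lit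 381) (nat_lit 5) (nat_lit 392) (nat_lit 5) (nat_lit 382) (nat_lit 5) (nat_lit 569) (nat_lit 501) (nat_lit 490)) (XT.lf (nat_lit 0) (nat_lit 1533985024) (nat_lit 760) (nat_lit 3879461177) (nat_lit 836) (nat_lit 2244064124) (nat_lit 371) (nat_lit 5) (nat_lit 381) (nat_lit 5) (nat_lit 382) (nat_lit 5) (nat_lit 570) (nat_lit 501) (nat_lit 489))) (XT.nd (nat_lit 78) (nat_lit 760) (nat_lit 0) (XT.lf (nat_lit 0) (nat_lit 1226589143) (nat_lit 836) (nat_lit 174098568) (nat_lit 76) (nat_lit 6309530894) (nat_lit 370) (nat_lit 5) (nat_lit 381) (nat_lit 5) (nat_lit 371) (nat_lit 5) (nat_lit 571) (nat_lit 501) (nat_lit 488)) (XT.lf (nat_lit 0) (nat_lit 4721954016) (nat_lit 836) (nat_lit 1887122710) (nat_lit 76) (nat_lit 1154902627) (nat_lit 360) (nat_lit 5) (nat_lit 371) (nat_lit 5) (nat_lit 361) (nat_lit 5) (nat_lit 572) (nat_lit 501) (nat_lit 487))))))) (XT.nd (nat_lit 1170) (nat_lit 6156) (nat_lit 0) (XT.nd (nat_lit 546) (nat_lit 3800) (nat_lit 0) (XT.nd (nat_lit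 234) (nat_lit 2128) (nat_lit 0) (XT.nd (nat_lit 78) (nat_lit 1368) (nat_lit 0) (XT.lf (nat_lit 0) (nat_lit 440035705) (nat_lit 836) (nat_lit 3616554623) (nat_lit 76) (nat_lit 3762610621) (nat_lit 349) (nat_lit 5) (nat_lit 360) (nat_lit 5) (nat_lit 350) (nat_lit 5) (nat_lit 573) (nat_lit 501) (nat_lit 486)) (XT.nd (nat_lit 78) (nat_lit 684) (nat_lit 0) (XT.lf (nat_lit 0) (nat_lit 2504142090) (nat_lit 684) (nat_lit 1416376993) (nat_lit 760) (nat_lit 3955217249) (nat_lit 340) (nat_lit 5) (nat_lit 349) (nat_lit 5) (nat_lit 350) (nat_lit 5) (nat_lit 574) (nat_lit 501) (nat_lit 485)) (XT.lf (nat_lit 0) (nat_lit 791695349) (nat_lit 684) (nat_lit 6657852961) (nat_lit 760) (nat_lit 484277141) (nat_lit 331) (nat_lit 5) (nat_lit 340) (nat_lit 5) (nat_lit 341) (nat_lit 5) (nat_lit 575) (nat_lit 501) (nat_lit 484)))) (XT.nd (nat_lit 156) (nat_lit 1368) (nat_lit 0) (XT.nd (nat_lit 78) (nat_lit 684) (nat_lit 0) (XT.lf (nat_lit 0) (nat_lit 3003036336) (nat_lit 760) (nat_lit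 944646171) (nat_lit 76) (nat_lit 4045257974) (nat_lit 330) (nat_lit 5) (nat_lit 340) (nat_lit 5) (nat_lit 331) (nat_lit 5) (nat_lit 576) (nat_lit 501) (nat_lit 483)) (XT.lf (nat_lit 0) (nat_lit 5371584460) (nat_lit 684) (nat_lit 1159429403) (nat_lit 760) (nat_lit 1522613532) (nat_lit 321) (nat_lit 5) (nat_lit 330) (nat_lit 5) (nat_lit 331) (nat_lit 5) (nat_lit 577) (nat_lit 501) (nat_lit 482))) (XT.nd (nat_lit 78) (nat_lit 608) (nat_lit 0) (XT.lf (nat_lit 0) (nat_lit 1971768574) (nat_lit 760) (nat_lit 4453052482) (nat_lit 76) (nat_lit 1690763852) (nat_lit 311) (nat_lit 5) (nat_lit 321) (nat_lit 5) (nat_lit 312) (nat_lit 5) (nat_lit 578) (nat_lit 501) (nat_lit 481)) (XT.lf (nat_lit 0) (nat_lit 1926030410) (nat_lit 608) (nat_lit 3571292337) (nat_lit 684) (nat_lit 2681625646) (nat_lit 303) (nat_lit 5) (nat_lit 311) (nat_lit 5) (nat_lit 312) (nat_lit 5) (nat_lit 579) (nat_lit 501) (nat_lit 480))))) (XT.nd (nat_lit 312) (nat_lit 1824) (nat_lit 0) (XT.nd (nat_lit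 156) (nat_lit 1292) (nat_lit 0) (XT.nd (nat_lit 78) (nat_lit 0) (nat_lit 0) (XT.lf (nat_lit 0) (nat_lit 173079404) (nat_lit 608) (nat_lit 640406303) (nat_lit 684) (nat_lit 7430488141) (nat_lit 294) (nat_lit 5) (nat_lit 302) (nat_lit 5) (nat_lit 303) (nat_lit 5) (nat_lit 580) (nat_lit 501) (nat_lit 479)) (XT.lf (nat_lit 0) (nat_lit 4344253014) (nat_lit 684) (nat_lit 1604463867) (nat_lit 76) (nat_lit 2361196670) (nat_lit 294) (nat_lit 5) (nat_lit 303) (nat_lit 5) (nat_lit 295) (nat_lit 5) (nat_lit 581) (nat_lit 501) (nat_lit 478))) (XT.nd (nat_lit 78) (nat_lit 684) (nat_lit 0) (XT.lf (nat_lit 0) (nat_lit 4979745793) (nat_lit 608) (nat_lit 2947695116) (nat_lit 684) (nat_lit 450096473) (nat_lit 286) (nat_lit 5) (nat_lit 294) (nat_lit 5) (nat_lit 295) (nat_lit 5) (nat_lit 582) (nat_lit 501) (nat_lit 477)) (XT.lf (nat_lit 0) (nat_lit 3072836816) (nat_lit 684) (nat_lit 5227501644) (nat_lit 76) (nat_lit 146205734) (nat_lit 277) (nat_lit 5) (nat_lit 286) (nat_lit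 5) (nat_lit 278) (nat_lit 5) (nat_lit 583) (nat_lit 501) (nat_lit 476)))) (XT.nd (nat_lit 156) (nat_lit 1216) (nat_lit 0) (XT.nd (nat_lit 78) (nat_lit 76) (nat_lit 0) (XT.lf (nat_lit 0) (nat_lit 1420424973) (nat_lit 532) (nat_lit 5237435041) (nat_lit 608) (nat_lit 1859059818) (nat_lit 270) (nat_lit 5) (nat_lit 277) (nat_lit 5) (nat_lit 278) (nat_lit 5) (nat_lit 584) (nat_lit 501) (nat_lit 475)) (XT.lf (nat_lit 0) (nat_lit 1684745242) (nat_lit 608) (nat_lit 400850308) (nat_lit 76) (nat_lit 6503254629) (nat_lit 269) (nat_lit 5) (nat_lit 277) (nat_lit 5) (nat_lit 270) (nat_lit 5) (nat_lit 585) (nat_lit 501) (nat_lit 474))) (XT.nd (nat_lit 78) (nat_lit 608) (nat_lit 0) (XT.lf (nat_lit 0) (nat_lit 5271102862) (nat_lit 684) (nat_lit 2241189917) (nat_lit 76) (nat_lit 1149750476) (nat_lit 261) (nat_lit 5) (nat_lit 270) (nat_lit 5) (nat_lit 262) (nat_lit 5) (nat_lit 586) (nat_lit 501) (nat_lit 473)) (XT.lf (nat_lit 0) (nat_lit 184138014) (nat_lit 608) (nat_lit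 4116044339) (nat_lit 76) (nat_lit 4436610570) (nat_lit 253) (nat_lit 5) (nat_lit 261) (nat_lit 5) (nat_lit 254) (nat_lit 5) (nat_lit 587) (nat_lit 501) (nat_lit 472)))))) (XT.nd (nat_lit 624) (nat_lit 3040) (nat_lit 0) (XT.nd (nat_lit 312) (nat_lit 1520) (nat_lit 0) (XT.nd (nat_lit 156) (nat_lit 608) (nat_lit 0) (XT.nd (nat_lit 78) (nat_lit 456) (nat_lit 0) (XT.lf (nat_lit 0) (nat_lit 2778656837) (nat_lit 532) (nat_lit 987778614) (nat_lit 608) (nat_lit 5046532610) (nat_lit 246) (nat_lit 5) (nat_lit 253) (nat_lit 5) (nat_lit 254) (nat_lit 5) (nat_lit 588) (nat_lit 501) (nat_lit 471)) (XT.lf (nat_lit 0) (nat_lit 899810016) (nat_lit 456) (nat_lit 6518054693) (nat_lit 532) (nat_lit 1472853454) (nat_lit 240) (nat_lit 5) (nat_lit 246) (nat_lit 5) (nat_lit 247) (nat_lit 5) (nat_lit 589) (nat_lit 501) (nat_lit 470))) (XT.nd (nat_lit 78) (nat_lit 532) (nat_lit 0) (XT.lf (nat_lit 0) (nat_lit 2139630492) (nat_lit 532) (nat_lit 1009137322) (nat_lit 76) (nat_lit 5821058078)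 (nat_lit 239) (nat_lit 5) (nat_lit 246) (nat_lit 5) (nat_lit 240) (nat_lit 5) (nat_lit 590) (nat_lit 501) (nat_lit 469)) (XT.lf (nat_lit 0) (nat_lit 5795920173) (nat_lit 608) (nat_lit 2941918092) (nat_lit 76) (nat_lit 312658362) (nat_lit 232) (nat_lit 5) (nat_lit 240) (nat_lit 5) (nat_lit 233) (nat_lit 5) (nat_lit 591) (nat_lit 501) (nat_lit 468)))) (XT.nd (nat_lit 156) (nat_lit 532) (nat_lit 0) (XT.nd (nat_lit 78) (nat_lit 456) (nat_lit 0) (XT.lf (nat_lit 0) (nat_lit 392365305) (nat_lit 532) (nat_lit 4923610583) (nat_lit 76) (nat_lit 3816655804) (nat_lit 225) (nat_lit 5) (nat_lit 232) (nat_lit 5) (nat_lit 226) (nat_lit 5) (nat_lit 592) (nat_lit 501) (nat_lit 467)) (XT.lf (nat_lit 0) (nat_lit 2262273344) (nat_lit 456) (nat_lit 1791094237) (nat_lit 532) (nat_lit 5162918659) (nat_lit 219) (nat_lit 5) (nat_lit 225) (nat_lit 5) (nat_lit 226) (nat_lit 5) (nat_lit 593) (nat_lit 501) (nat_lit 466))) (XT.nd (nat_lit 78) (nat_lit 76) (nat_lit 0) (XT.lf (nat_lit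 0) (nat_lit 276435087) (nat_lit 456) (nat_lit 7508385212) (nat_lit 532) (nat_lit 1516849997) (nat_lit 213) (nat_lit 5) (nat_lit 219) (nat_lit 5) (nat_lit 220) (nat_lit 5) (nat_lit 594) (nat_lit 501) (nat_lit 465)) (XT.lf (nat_lit 0) (nat_lit 2182731668) (nat_lit 532) (nat_lit 1741638521) (nat_lit 76) (nat_lit 5463917416) (nat_lit 212) (nat_lit 5) (nat_lit 219) (nat_lit 5) (nat_lit 213) (nat_lit 5) (nat_lit 595) (nat_lit 501) (nat_lit 464))))) (XT.nd (nat_lit 312) (nat_lit 1672) (nat_lit 0) (XT.nd (nat_lit 156) (nat_lit 456) (nat_lit 0) (XT.nd (nat_lit 78) (nat_lit 456) (nat_lit 0) (XT.lf (nat_lit 0) (nat_lit 5680420804) (nat_lit 456) (nat_lit 244078899) (nat_lit 532) (nat_lit 3552167889) (nat_lit 206) (nat_lit 5) (nat_lit 212) (nat_lit 5) (nat_lit 213) (nat_lit 5) (nat_lit 596) (nat_lit 501) (nat_lit 463)) (XT.lf (nat_lit 0) (nat_lit 182333021) (nat_lit 456) (nat_lit 5906711791) (nat_lit 76) (nat_lit 3477542045) (nat_lit 200) (nat_lit 5) (nat_lit 206)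 (nat_lit 5) (nat_lit 201) (nat_lit 5) (nat_lit 597) (nat_lit 501) (nat_lit 462))) (XT.nd (nat_lit 78) (nat_lit 0) (nat_lit 0) (XT.lf (nat_lit 0) (nat_lit 1582059157) (nat_lit 456) (nat_lit 2351580177) (nat_lit 532) (nat_lit 5724402910) (nat_lit 194) (nat_lit 5) (nat_lit 200) (nat_lit 5) (nat_lit 201) (nat_lit 5) (nat_lit 598) (nat_lit 501) (nat_lit 461)) (XT.lf (nat_lit 0) (nat_lit 7761773719) (nat_lit 532) (nat_lit 532088283) (nat_lit 76) (nat_lit 1457429591) (nat_lit 194) (nat_lit 5) (nat_lit 201) (nat_lit 5) (nat_lit 195) (nat_lit 5) (nat_lit 599) (nat_lit 501) (nat_lit 460)))) (XT.nd (nat_lit 156) (nat_lit 836) (nat_lit 0) (XT.nd (nat_lit 78) (nat_lit 380) (nat_lit 0) (XT.lf (nat_lit 0) (nat_lit 1811774229) (nat_lit 456) (nat_lit 2687928523) (nat_lit 76) (nat_lit 5346156098) (nat_lit 188) (nat_lit 5) (nat_lit 194) (nat_lit 5) (nat_lit 189) (nat_lit 5) (nat_lit 600) (nat_lit 501) (nat_lit 459)) (XT.lf (nat_lit 0) (nat_lit 5048517791) (nat_lit 380) (nat_lit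 603833654) (nat_lit 456) (nat_lit 4289905858) (nat_lit 183) (nat_lit 5) (nat_lit 188) (nat_lit 5) (nat_lit 189) (nat_lit 5) (nat_lit 601) (nat_lit 501) (nat_lit 458))) (XT.nd (nat_lit 78) (nat_lit 456) (nat_lit 0) (XT.lf (nat_lit 0) (nat_lit 2880176301) (nat_lit 380) (nat_lit 6702094283) (nat_lit 456) (nat_lit 458063356) (nat_lit 178) (nat_lit 5) (nat_lit 183) (nat_lit 5) (nat_lit 184) (nat_lit 5) (nat_lit 602) (nat_lit 501) (nat_lit 457)) (XT.lf (nat_lit 0) (nat_lit 646403465) (nat_lit 380) (nat_lit 2753947015) (nat_lit 456) (nat_lit 6739670630) (nat_lit 172) (nat_lit 5) (nat_lit 177) (nat_lit 5) (nat_lit 178) (nat_lit 5) (nat_lit 603) (nat_lit 501) (nat_lit 456))))))))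
noncomputable def xc35 : XT := (XT.nd (nat_lit 2418) (nat_lit 2204) (nat_lit 0) (XT.nd (nat_lit 1170) (nat_lit 3420) (nat_lit 0) (XT.nd (nat_lit 546) (nat_lit 2128) (nat_lit 0) (XT.nd (nat_lit 234) (nat_lit 1064) (nat_lit 0) (XT.nd (nat_lit 78) (nat_lit 836) (nat_lit 0) (XT.lf (nat_lit 0) (nat_lit 7340647429) (nat_lit 456) (nat_lit 1618127911) (nat_lit 76) (nat_lit 1282649940) (nat_lit 172) (nat_lit 5) (nat_lit 178) (nat_lit 5) (nat_lit 173) (nat_lit 5) (nat_lit 604) (nat_lit 501) (nat_lit 455)) (XT.nd (nat_lit 78) (nat_lit 380) (nat_lit 0) (XT.lf (nat_lit 0) (nat_lit 1016645482) (nat_lit 456) (nat_lit 3941055345) (nat_lit 76) (nat_lit 5386724401) (nat_lit 166) (nat_lit 5) (nat_lit 172) (nat_lit 5) (nat_lit 167) (nat_lit 5) (nat_lit 605) (nat_lit 501) (nat_lit 454)) (XT.lf (nat_lit 0) (nat_lit 4122099521) (nat_lit 380) (nat_lit 844444251) (nat_lit 456) (nat_lit 5482699297) (nat_lit 161) (nat_lit 5) (nat_lit 166) (nat_lit 5) (nat_lit 167) (nat_lit 5) (nat_lit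 606) (nat_lit 501) (nat_lit 453)))) (XT.nd (nat_lit 156) (nat_lit 684) (nat_lit 0) (XT.nd (nat_lit 78) (nat_lit 76) (nat_lit 0) (XT.lf (nat_lit 0) (nat_lit 1774755907) (nat_lit 304) (nat_lit 7236078199) (nat_lit 380) (nat_lit 1545015997) (nat_lit 157) (nat_lit 5) (nat_lit 161) (nat_lit 5) (nat_lit 162) (nat_lit 5) (nat_lit 607) (nat_lit 501) (nat_lit 452)) (XT.lf (nat_lit 0) (nat_lit 2442954608) (nat_lit 380) (nat_lit 632223367) (nat_lit 76) (nat_lit 7589012136) (nat_lit 156) (nat_lit 5) (nat_lit 161) (nat_lit 5) (nat_lit 157) (nat_lit 5) (nat_lit 608) (nat_lit 501) (nat_lit 451))) (XT.nd (nat_lit 78) (nat_lit 304) (nat_lit 0) (XT.lf (nat_lit 0) (nat_lit 6504318568) (nat_lit 456) (nat_lit 3081422776) (nat_lit 76) (nat_lit 1188465567) (nat_lit 151) (nat_lit 5) (nat_lit 157) (nat_lit 5) (nat_lit 152) (nat_lit 5) (nat_lit 609) (nat_lit 501) (nat_lit 450)) (XT.lf (nat_lit 0) (nat_lit 5285584382) (nat_lit 304) (nat_lit 5376998999) (nat_lit 380) (nat_lit 223527857)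 (nat_lit 147) (nat_lit 5) (nat_lit 151) (nat_lit 5) (nat_lit 152) (nat_lit 5) (nat_lit 610) (nat_lit 501) (nat_lit 449))))) (XT.nd (nat_lit 312) (nat_lit 988) (nat_lit 0) (XT.nd (nat_lit 156) (nat_lit 380) (nat_lit 0) (XT.nd (nat_lit 78) (nat_lit 304) (nat_lit 0) (XT.lf (nat_lit 0) (nat_lit 2803161621) (nat_lit 380) (nat_lit 1045247954) (nat_lit 456) (nat_lit 7151420836) (nat_lit 141) (nat_lit 5) (nat_lit 146) (nat_lit 5) (nat_lit 147) (nat_lit 5) (nat_lit 611) (nat_lit 501) (nat_lit 448)) (XT.lf (nat_lit 0) (nat_lit 245150824) (nat_lit 304) (nat_lit 7772023116) (nat_lit 380) (nat_lit 3098253476) (nat_lit 137) (nat_lit 5) (nat_lit 141) (nat_lit 5) (nat_lit 142) (nat_lit 5) (nat_lit 612) (nat_lit 501) (nat_lit 447))) (XT.nd (nat_lit 78) (nat_lit 304) (nat_lit 0) (XT.lf (nat_lit 0) (nat_lit 1041842147) (nat_lit 380) (nat_lit 2349644863) (nat_lit 76) (nat_lit 7841326389) (nat_lit 136) (nat_lit 5) (nat_lit 141) (nat_lit 5) (nat_lit 137) (nat_lit 5) (nat_lit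 613) (nat_lit 501) (nat_lit 446)) (XT.lf (nat_lit 0) (nat_lit 5229649403) (nat_lit 380) (nat_lit 5024344170) (nat_lit 76) (nat_lit 1098016623) (nat_lit 132) (nat_lit 5) (nat_lit 137) (nat_lit 5) (nat_lit 133) (nat_lit 5) (nat_lit 614) (nat_lit 501) (nat_lit 445)))) (XT.nd (nat_lit 156) (nat_lit 304) (nat_lit 0) (XT.nd (nat_lit 78) (nat_lit 380) (nat_lit 0) (XT.lf (nat_lit 0) (nat_lit 3693841233) (nat_lit 304) (nat_lit 5827892410) (nat_lit 380) (nat_lit 1951447446) (nat_lit 128) (nat_lit 5) (nat_lit 132) (nat_lit 5) (nat_lit 133) (nat_lit 5) (nat_lit 615) (nat_lit 501) (nat_lit 444)) (XT.lf (nat_lit 0) (nat_lit 986927182) (nat_lit 304) (nat_lit 1284406023) (nat_lit 380) (nat_lit 9325170678) (nat_lit 123) (nat_lit 5) (nat_lit 127) (nat_lit 5) (nat_lit 128) (nat_lit 5) (nat_lit 616) (nat_lit 501) (nat_lit 443))) (XT.nd (nat_lit 78) (nat_lit 304) (nat_lit 0) (XT.lf (nat_lit 0) (nat_lit 6585260719) (nat_lit 380) (nat_lit 1791728048) (nat_lit 76) (nat_lit 3344390508)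 (nat_lit 123) (nat_lit 5) (nat_lit 128) (nat_lit 5) (nat_lit 124) (nat_lit 5) (nat_lit 617) (nat_lit 501) (nat_lit 442)) (XT.lf (nat_lit 0) (nat_lit 7220602217) (nat_lit 304) (nat_lit 3779562702) (nat_lit 380) (nat_lit 848293825) (nat_lit 119) (nat_lit 5) (nat_lit 123) (nat_lit 5) (nat_lit 124) (nat_lit 5) (nat_lit 618) (nat_lit 501) (nat_lit 441)))))) (XT.nd (nat_lit 624) (nat_lit 1596) (nat_lit 0) (XT.nd (nat_lit 312) (nat_lit 836) (nat_lit 0) (XT.nd (nat_lit 156) (nat_lit 380) (nat_lit 0) (XT.nd (nat_lit 78) (nat_lit 228) (nat_lit 0) (XT.lf (nat_lit 0) (nat_lit 3485448384) (nat_lit 380) (nat_lit 7557214906) (nat_lit 76) (nat_lit 934831341) (nat_lit 114) (nat_lit 5) (nat_lit 119) (nat_lit 5) (nat_lit 115) (nat_lit 5) (nat_lit 619) (nat_lit 501) (nat_lit 440)) (XT.lf (nat_lit 0) (nat_lit 1524420103) (nat_lit 228) (nat_lit 6395866487) (nat_lit 304) (nat_lit 4188197408) (nat_lit 111) (nat_lit 5) (nat_lit 114) (nat_lit 5) (nat_lit 115) (nat_lit 5) (nat_lit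 620) (nat_lit 501) (nat_lit 439))) (XT.nd (nat_lit 78) (nat_lit 304) (nat_lit 0) (XT.lf (nat_lit 0) (nat_lit 209797766) (nat_lit 304) (nat_lit 1421023148) (nat_lit 76) (nat_lit 10611032226) (nat_lit 110) (nat_lit 5) (nat_lit 114) (nat_lit 5) (nat_lit 111) (nat_lit 5) (nat_lit 621) (nat_lit 501) (nat_lit 438)) (XT.lf (nat_lit 0) (nat_lit 4673012904) (nat_lit 380) (nat_lit 4463890340) (nat_lit 76) (nat_lit 3239766414) (nat_lit 106) (nat_lit 5) (nat_lit 111) (nat_lit 5) (nat_lit 107) (nat_lit 5) (nat_lit 622) (nat_lit 501) (nat_lit 437)))) (XT.nd (nat_lit 156) (nat_lit 228) (nat_lit 0) (XT.nd (nat_lit 78) (nat_lit 380) (nat_lit 0) (XT.lf (nat_lit 0) (nat_lit 4925007713) (nat_lit 228) (nat_lit 4313481809) (nat_lit 304) (nat_lit 3275433507) (nat_lit 103) (nat_lit 5) (nat_lit 106) (nat_lit 5) (nat_lit 107) (nat_lit 5) (nat_lit 623) (nat_lit 501) (nat_lit 436)) (XT.lf (nat_lit 0) (nat_lit 1232077304) (nat_lit 380) (nat_lit 10800144724) (nat_lit 76) (nat_lit 621398617)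 (nat_lit 98) (nat_lit 5) (nat_lit 103) (nat_lit 5) (nat_lit 99) (nat_lit 5) (nat_lit 624) (nat_lit 501) (nat_lit 435))) (XT.nd (nat_lit 78) (nat_lit 228) (nat_lit 0) (XT.lf (nat_lit 0) (nat_lit 5826606272) (nat_lit 380) (nat_lit 1325589396) (nat_lit 76) (nat_lit 5642669452) (nat_lit 98) (nat_lit 5) (nat_lit 103) (nat_lit 5) (nat_lit 99) (nat_lit 5) (nat_lit 625) (nat_lit 501) (nat_lit 434)) (XT.lf (nat_lit 0) (nat_lit 8382229277) (nat_lit 228) (nat_lit 2146843085) (nat_lit 304) (nat_lit 2409541621) (nat_lit 95) (nat_lit 5) (nat_lit 98) (nat_lit 5) (nat_lit 99) (nat_lit 5) (nat_lit 626) (nat_lit 501) (nat_lit 433))))) (XT.nd (nat_lit 312) (nat_lit 760) (nat_lit 0) (XT.nd (nat_lit 156) (nat_lit 304) (nat_lit 0) (XT.nd (nat_lit 78) (nat_lit 228) (nat_lit 0) (XT.lf (nat_lit 0) (nat_lit 2234817167) (nat_lit 304) (nat_lit 7899735467) (nat_lit 76) (nat_lit 2949917688) (nat_lit 91) (nat_lit 5) (nat_lit 95) (nat_lit 5) (nat_lit 92) (nat_lit 5) (nat_lit 627) (nat_lit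 501) (nat_lit 432)) (XT.lf (nat_lit 0) (nat_lit 1877676411) (nat_lit 228) (nat_lit 5081180037) (nat_lit 304) (nat_lit 6273688064) (nat_lit 88) (nat_lit 5) (nat_lit 91) (nat_lit 5) (nat_lit 92) (nat_lit 5) (nat_lit 628) (nat_lit 501) (nat_lit 431))) (XT.nd (nat_lit 78) (nat_lit 304) (nat_lit 0) (XT.lf (nat_lit 0) (nat_lit 11793192305) (nat_lit 304) (nat_lit 1492145134) (nat_lit 76) (nat_lit 97926825) (nat_lit 88) (nat_lit 5) (nat_lit 92) (nat_lit 5) (nat_lit 89) (nat_lit 5) (nat_lit 629) (nat_lit 501) (nat_lit 430)) (XT.lf (nat_lit 0) (nat_lit 3197850454) (nat_lit 304) (nat_lit 4975478962) (nat_lit 76) (nat_lit 5362206808) (nat_lit 84) (nat_lit 5) (nat_lit 88) (nat_lit 5) (nat_lit 85) (nat_lit 5) (nat_lit 630) (nat_lit 501) (nat_lit 429)))) (XT.nd (nat_lit 156) (nat_lit 304) (nat_lit 0) (XT.nd (nat_lit 78) (nat_lit 228) (nat_lit 0) (XT.lf (nat_lit 0) (nat_lit 5134338383) (nat_lit 228) (nat_lit 2932125020) (nat_lit 304) (nat_lit 5624055925) (nat_lit 81)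 (nat_lit 5) (nat_lit 84) (nat_lit 5) (nat_lit 85) (nat_lit 5) (nat_lit 631) (nat_lit 501) (nat_lit 428)) (XT.lf (nat_lit 0) (nat_lit 1605618804) (nat_lit 228) (nat_lit 11449451875) (nat_lit 304) (nat_lit 793079338) (nat_lit 78) (nat_lit 5) (nat_lit 81) (nat_lit 5) (nat_lit 82) (nat_lit 5) (nat_lit 632) (nat_lit 501) (nat_lit 427))) (XT.nd (nat_lit 78) (nat_lit 228) (nat_lit 0) (XT.lf (nat_lit 0) (nat_lit 4120483430) (nat_lit 304) (nat_lit 2033260603) (nat_lit 76) (nat_lit 7853848929) (nat_lit 77) (nat_lit 5) (nat_lit 81) (nat_lit 5) (nat_lit 78) (nat_lit 5) (nat_lit 633) (nat_lit 501) (nat_lit 426)) (XT.lf (nat_lit 0) (nat_lit 8421203413) (nat_lit 228) (nat_lit 718883437) (nat_lit 304) (nat_lit 5029665641) (nat_lit 74) (nat_lit 5) (nat_lit 77) (nat_lit 5) (nat_lit 78) (nat_lit 5) (nat_lit 634) (nat_lit 501) (nat_lit 425))))))) (XT.nd (nat_lit 75192) (nat_lit 0) (nat_lit 23104) (XT.nd (nat_lit 546) (nat_lit 988) (nat_lit 0) (XT.nd (nat_lit 234) (nat_lit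 760) (nat_lit 0) (XT.nd (nat_lit 78) (nat_lit 228) (nat_lit 0) (XT.lf (nat_lit 0) (nat_lit 4743934760) (nat_lit 228) (nat_lit 9555828164) (nat_lit 304) (nat_lit 34599013) (nat_lit 71) (nat_lit 5) (nat_lit 74) (nat_lit 5) (nat_lit 75) (nat_lit 5) (nat_lit 635) (nat_lit 501) (nat_lit 424)) (XT.nd (nat_lit 78) (nat_lit 0) (nat_lit 0) (XT.lf (nat_lit 0) (nat_lit 932699727) (nat_lit 152) (nat_lit 4074826249) (nat_lit 228) (nat_lit 9493810323) (nat_lit 68) (nat_lit 5) (nat_lit 70) (nat_lit 5) (nat_lit 71) (nat_lit 5) (nat_lit 636) (nat_lit 501) (nat_lit 423)) (XT.lf (nat_lit 0) (nat_lit 10188642769) (nat_lit 228) (nat_lit 2949041521) (nat_lit 76) (nat_lit 1533189350) (nat_lit 68) (nat_lit 5) (nat_lit 71) (nat_lit 5) (nat_lit 69) (nat_lit 5) (nat_lit 637) (nat_lit 501) (nat_lit 422)))) (XT.nd (nat_lit 156) (nat_lit 304) (nat_lit 0) (XT.nd (nat_lit 78) (nat_lit 152) (nat_lit 0) (XT.lf (nat_lit 0) (nat_lit 664554640) (nat_lit 304) (nat_lit 6951001169) (nat_lit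 76) (nat_lit 7227299844) (nat_lit 64) (nat_lit 5) (nat_lit 68) (nat_lit 5) (nat_lit 65) (nat_lit 5) (nat_lit 638) (nat_lit 501) (nat_lit 421)) (XT.lf (nat_lit 0) (nat_lit 3930131228) (nat_lit 152) (nat_lit 1934367431) (nat_lit 228) (nat_lit 9152981598) (nat_lit 62) (nat_lit 5) (nat_lit 64) (nat_lit 5) (nat_lit 65) (nat_lit 5) (nat_lit 639) (nat_lit 501) (nat_lit 420))) (XT.nd (nat_lit 78) (nat_lit 304) (nat_lit 0) (XT.lf (nat_lit 0) (nat_lit 11205308232) (nat_lit 228) (nat_lit 160291934) (nat_lit 76) (nat_lit 3829260149) (nat_lit 62) (nat_lit 5) (nat_lit 65) (nat_lit 5) (nat_lit 63) (nat_lit 5) (nat_lit 640) (nat_lit 501) (nat_lit 419)) (XT.lf (nat_lit 0) (nat_lit 1310854437) (nat_lit 304) (nat_lit 4328041217) (nat_lit 76) (nat_lit 9735717594) (nat_lit 58) (nat_lit 5) (nat_lit 62) (nat_lit 5) (nat_lit 59) (nat_lit 5) (nat_lit 641) (nat_lit 501) (nat_lit 418))))) (XT.nd (nat_lit 312) (nat_lit 380) (nat_lit 0) (XT.nd (nat_lit 156) (nat_lit 228) (nat_lit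 0) (XT.nd (nat_lit 78) (nat_lit 228) (nat_lit 0) (XT.lf (nat_lit 0) (nat_lit 6677136355) (nat_lit 228) (nat_lit 8634795367) (nat_lit 76) (nat_lit 245236629) (nat_lit 56) (nat_lit 5) (nat_lit 59) (nat_lit 5) (nat_lit 57) (nat_lit 5) (nat_lit 642) (nat_lit 501) (nat_lit 417)) (XT.lf (nat_lit 0) (nat_lit 2648606257) (nat_lit 228) (nat_lit 9551594029) (nat_lit 304) (nat_lit 3542185414) (nat_lit 53) (nat_lit 5) (nat_lit 56) (nat_lit 5) (nat_lit 57) (nat_lit 5) (nat_lit 643) (nat_lit 501) (nat_lit 416))) (XT.nd (nat_lit 78) (nat_lit 152) (nat_lit 0) (XT.lf (nat_lit 0) (nat_lit 1901521296) (nat_lit 304) (nat_lit 1730471476) (nat_lit 76) (nat_lit 12298586776) (nat_lit 52) (nat_lit 5) (nat_lit 56) (nat_lit 5) (nat_lit 53) (nat_lit 5) (nat_lit 644) (nat_lit 501) (nat_lit 415)) (XT.lf (nat_lit 0) (nat_lit 7453451672) (nat_lit 228) (nat_lit 6232010374) (nat_lit 76) (nat_lit 2435671619) (nat_lit 50) (nat_lit 5) (nat_lit 53) (nat_lit 5) (nat_lit 51) (nat_lit 5) (nat_lit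 645) (nat_lit 501) (nat_lit 414)))) (XT.nd (nat_lit 74178) (nat_lit 0) (nat_lit 34960) (XT.nd (nat_lit 78) (nat_lit 228) (nat_lit 0) (XT.lf (nat_lit 0) (nat_lit 5435279106) (nat_lit 152) (nat_lit 7718658504) (nat_lit 228) (nat_lit 3160811166) (nat_lit 48) (nat_lit 5) (nat_lit 50) (nat_lit 5) (nat_lit 51) (nat_lit 5) (nat_lit 646) (nat_lit 501) (nat_lit 413)) (XT.lf (nat_lit 0) (nat_lit 842599094) (nat_lit 152) (nat_lit 1595479672) (nat_lit 228) (nat_lit 14073556817) (nat_lit 45) (nat_lit 5) (nat_lit 47) (nat_lit 5) (nat_lit 48) (nat_lit 5) (nat_lit 647) (nat_lit 501) (nat_lit 412))) (XT.nd (nat_lit 78) (nat_lit 1748) (nat_lit 0) (XT.lf (nat_lit 0) (nat_lit 914816972) (nat_lit 1748) (nat_lit 1699671052) (nat_lit 0) (nat_lit 914816972) (nat_lit 528) (nat_lit 5) (nat_lit 551) (nat_lit 4) (nat_lit 528) (nat_lit 4) (nat_lit 556) (nat_lit 502) (nat_lit 502)) (XT.lf (nat_lit 0) (nat_lit 1847798619) (nat_lit 1748) (nat_lit 3509394191) (nat_lit 1748) (nat_lit 1736384415)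 (nat_lit 505) (nat_lit 4) (nat_lit 528) (nat_lit 5) (nat_lit 528) (nat_lit 4) (nat_lit 557) (nat_lit 502) (nat_lit 501)))))) (XT.nd (nat_lit 624) (nat_lit 5016) (nat_lit 0) (XT.nd (nat_lit 312) (nat_lit 2812) (nat_lit 0) (XT.nd (nat_lit 156) (nat_lit 2128) (nat_lit 0) (XT.nd (nat_lit 78) (nat_lit 0) (nat_lit 0) (XT.lf (nat_lit 0) (nat_lit 34842435) (nat_lit 1824) (nat_lit 1720651172) (nat_lit 1900) (nat_lit 5374448161) (nat_lit 480) (nat_lit 5) (nat_lit 504) (nat_lit 5) (nat_lit 505) (nat_lit 4) (nat_lit 558) (nat_lit 502) (nat_lit 500)) (XT.lf (nat_lit 0) (nat_lit 5261188112) (nat_lit 1900) (nat_lit 1758239188) (nat_lit 0) (nat_lit 148034879) (nat_lit 480) (nat_lit 5) (nat_lit 505) (nat_lit 4) (nat_lit 480) (nat_lit 4) (nat_lit 559) (nat_lit 502) (nat_lit 499))) (XT.nd (nat_lit 78) (nat_lit 912) (nat_lit 0) (XT.lf (nat_lit 0) (nat_lit 1577204126) (nat_lit 1216) (nat_lit 3565187870) (nat_lit 76) (nat_lit 2063785083) (nat_lit 464) (nat_lit 5) (nat_lit 480)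 (nat_lit 5) (nat_lit 465) (nat_lit 4) (nat_lit 560) (nat_lit 502) (nat_lit 498)) (XT.lf (nat_lit 0) (nat_lit 1867684522) (nat_lit 912) (nat_lit 3194045332) (nat_lit 988) (nat_lit 2184548903) (nat_lit 452) (nat_lit 5) (nat_lit 464) (nat_lit 5) (nat_lit 465) (nat_lit 4) (nat_lit 561) (nat_lit 502) (nat_lit 497)))) (XT.nd (nat_lit 156) (nat_lit 1824) (nat_lit 0) (XT.nd (nat_lit 78) (nat_lit 0) (nat_lit 0) (XT.lf (nat_lit 0) (nat_lit 92122984) (nat_lit 912) (nat_lit 1177189299) (nat_lit 988) (nat_lit 6018540582) (nat_lit 439) (nat_lit 5) (nat_lit 451) (nat_lit 5) (nat_lit 452) (nat_lit 5) (nat_lit 562) (nat_lit 502) (nat_lit 496)) (XT.lf (nat_lit 0) (nat_lit 4739185374) (nat_lit 988) (nat_lit 1676750869) (nat_lit 76) (nat_lit 914512105) (nat_lit 439) (nat_lit 5) (nat_lit 452) (nat_lit 5) (nat_lit 440) (nat_lit 4) (nat_lit 563) (nat_lit 502) (nat_lit 495))) (XT.nd (nat_lit 78) (nat_lit 912) (nat_lit 0) (XT.lf (nat_lit 0) (nat_lit 861176133) (nat_lit 912) (nat_lit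 3454437585) (nat_lit 76) (nat_lit 3058797286) (nat_lit 427) (nat_lit 5) (nat_lit 439) (nat_lit 5) (nat_lit 428) (nat_lit 5) (nat_lit 564) (nat_lit 502) (nat_lit 494)) (XT.lf (nat_lit 0) (nat_lit 2172654885) (nat_lit 912) (nat_lit 2136568698) (nat_lit 988) (nat_lit 3110463898) (nat_lit 415) (nat_lit 5) (nat_lit 427) (nat_lit 5) (nat_lit 428) (nat_lit 5) (nat_lit 565) (nat_lit 502) (nat_lit 493))))) (XT.nd (nat_lit 312) (nat_lit 2432) (nat_lit 0) (XT.nd (nat_lit 156) (nat_lit 1672) (nat_lit 0) (XT.nd (nat_lit 78) (nat_lit 0) (nat_lit 0) (XT.lf (nat_lit 0) (nat_lit 318602532) (nat_lit 912) (nat_lit 7041803374) (nat_lit 76) (nat_lit 106159641) (nat_lit 403) (nat_lit 5) (nat_lit 415) (nat_lit 5) (nat_lit 404) (nat_lit 5) (nat_lit 566) (nat_lit 502) (nat_lit 492)) (XT.lf (nat_lit 0) (nat_lit 3761144665) (nat_lit 912) (nat_lit 1339605426) (nat_lit 76) (nat_lit 2413491144) (nat_lit 403) (nat_lit 5) (nat_lit 415) (nat_lit 5) (nat_lit 404) (nat_lit 5) (nat_lit 567)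 (nat_lit 502) (nat_lit 491))) (XT.nd (nat_lit 78) (nat_lit 836) (nat_lit 0) (XT.lf (nat_lit 0) (nat_lit 4464538265) (nat_lit 836) (nat_lit 2775134707) (nat_lit 912) (nat_lit 323856854) (nat_lit 392) (nat_lit 5) (nat_lit 403) (nat_lit 5) (nat_lit 404) (nat_lit 5) (nat_lit 568) (nat_lit 502) (nat_lit 490)) (XT.lf (nat_lit 0) (nat_lit 2733476179) (nat_lit 760) (nat_lit 364159890) (nat_lit 836) (nat_lit 4516452069) (nat_lit 381) (nat_lit 5) (nat_lit 391) (nat_lit 5) (nat_lit 392) (nat_lit 5) (nat_lit 569) (nat_lit 502) (nat_lit 489)))) (XT.nd (nat_lit 156) (nat_lit 1596) (nat_lit 0) (XT.nd (nat_lit 78) (nat_lit 76) (nat_lit 0) (XT.lf (nat_lit 0) (nat_lit 984696567) (nat_lit 760) (nat_lit 5578642557) (nat_lit 836) (nat_lit 1102675318) (nat_lit 371) (nat_lit 5) (nat_lit 381) (nat_lit 5) (nat_lit 382) (nat_lit 5) (nat_lit 570) (nat_lit 502) (nat_lit 488)) (XT.lf (nat_lit 0) (nat_lit 2323064696) (nat_lit 836) (nat_lit 774958416) (nat_lit 76) (nat_lit 4621151211)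 (nat_lit 370) (nat_lit 5) (nat_lit 381) (nat_lit 5) (nat_lit 371) (nat_lit 5) (nat_lit 571) (nat_lit 502) (nat_lit 487))) (XT.nd (nat_lit 78) (nat_lit 836) (nat_lit 0) (XT.lf (nat_lit 0) (nat_lit 5240339651) (nat_lit 760) (nat_lit 536952262) (nat_lit 836) (nat_lit 1996466829) (nat_lit 360) (nat_lit 5) (nat_lit 370) (nat_lit 5) (nat_lit 371) (nat_lit 5) (nat_lit 572) (nat_lit 502) (nat_lit 486)) (XT.lf (nat_lit 0) (nat_lit 1434644748) (nat_lit 836) (nat_lit 4320711066) (nat_lit 76) (nat_lit 2074234376) (nat_lit 349) (nat_lit 5) (nat_lit 360) (nat_lit 5) (nat_lit 350) (nat_lit 5) (nat_lit 573) (nat_lit 502) (nat_lit 485))))))))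
noncomputable def xc36 : XT := (XT.nd (nat_lit 2418) (nat_lit 7448) (nat_lit 0) (XT.nd (nat_lit 1170) (nat_lit 5624) (nat_lit 0) (XT.nd (nat_lit 546) (nat_lit 4256) (nat_lit 0) (XT.nd (nat_lit 234) (nat_lit 2128) (nat_lit 0) (XT.nd (nat_lit 78) (nat_lit 760) (nat_lit 0) (XT.lf (nat_lit 0) (nat_lit 1754732849) (nat_lit 684) (nat_lit 3126637048) (nat_lit 760) (nat_lit 3005431708) (nat_lit 340) (nat_lit 5) (nat_lit 349) (nat_lit 5) (nat_lit 350) (nat_lit 5) (nat_lit 574) (nat_lit 502) (nat_lit 484)) (XT.nd (nat_lit 78) (nat_lit 684) (nat_lit 0) (XT.lf (nat_lit 0) (nat_lit 417068341) (nat_lit 760) (nat_lit 9308569) (nat_lit 76) (nat_lit 7519300896) (nat_lit 339) (nat_lit 5) (nat_lit 349) (nat_lit 5) (nat_lit 340) (nat_lit 5) (nat_lit 575) (nat_lit 502) (nat_lit 483)) (XT.lf (nat_lit 0) (nat_lit 3866745173) (nat_lit 760) (nat_lit 1793866828) (nat_lit 76) (nat_lit 2344744473) (nat_lit 330) (nat_lit 5) (nat_lit 340) (nat_lit 5) (nat_lit 331) (nat_lit 5) (nat_lit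 576) (nat_lit 502) (nat_lit 482)))) (XT.nd (nat_lit 156) (nat_lit 684) (nat_lit 0) (XT.nd (nat_lit 78) (nat_lit 760) (nat_lit 0) (XT.lf (nat_lit 0) (nat_lit 4475450123) (nat_lit 684) (nat_lit 2885556929) (nat_lit 760) (nat_lit 705711450) (nat_lit 321) (nat_lit 5) (nat_lit 330) (nat_lit 5) (nat_lit 331) (nat_lit 5) (nat_lit 577) (nat_lit 502) (nat_lit 481)) (XT.lf (nat_lit 0) (nat_lit 2711427220) (nat_lit 684) (nat_lit 21396769) (nat_lit 760) (nat_lit 5396649376) (nat_lit 311) (nat_lit 5) (nat_lit 320) (nat_lit 5) (nat_lit 321) (nat_lit 5) (nat_lit 578) (nat_lit 502) (nat_lit 480))) (XT.nd (nat_lit 78) (nat_lit 76) (nat_lit 0) (XT.lf (nat_lit 0) (nat_lit 912313592) (nat_lit 608) (nat_lit 5311850546) (nat_lit 684) (nat_lit 1969357746) (nat_lit 303) (nat_lit 5) (nat_lit 311) (nat_lit 5) (nat_lit 312) (nat_lit 5) (nat_lit 579) (nat_lit 502) (nat_lit 479)) (XT.lf (nat_lit 0) (nat_lit 1487923886) (nat_lit 684) (nat_lit 897802777) (nat_lit 76) (nat_lit 5873298676)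 (nat_lit 302) (nat_lit 5) (nat_lit 311) (nat_lit 5) (nat_lit 303) (nat_lit 5) (nat_lit 580) (nat_lit 502) (nat_lit 478))))) (XT.nd (nat_lit 312) (nat_lit 1824) (nat_lit 0) (XT.nd (nat_lit 156) (nat_lit 1140) (nat_lit 0) (XT.nd (nat_lit 78) (nat_lit 684) (nat_lit 0) (XT.lf (nat_lit 0) (nat_lit 4974300993) (nat_lit 684) (nat_lit 2727025949) (nat_lit 76) (nat_lit 624526616) (nat_lit 294) (nat_lit 5) (nat_lit 303) (nat_lit 5) (nat_lit 295) (nat_lit 5) (nat_lit 581) (nat_lit 502) (nat_lit 477)) (XT.lf (nat_lit 0) (nat_lit 127435053) (nat_lit 684) (nat_lit 4588448320) (nat_lit 76) (nat_lit 3678261909) (nat_lit 285) (nat_lit 5) (nat_lit 294) (nat_lit 5) (nat_lit 286) (nat_lit 5) (nat_lit 582) (nat_lit 502) (nat_lit 476))) (XT.nd (nat_lit 78) (nat_lit 532) (nat_lit 0) (XT.lf (nat_lit 0) (nat_lit 1974747179) (nat_lit 608) (nat_lit 1634209047) (nat_lit 684) (nat_lit 4854848273) (nat_lit 277) (nat_lit 5) (nat_lit 285) (nat_lit 5) (nat_lit 286) (nat_lit 5) (nat_lit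 583) (nat_lit 502) (nat_lit 475)) (XT.lf (nat_lit 0) (nat_lit 116783536) (nat_lit 532) (nat_lit 7031892009) (nat_lit 608) (nat_lit 1386411328) (nat_lit 270) (nat_lit 5) (nat_lit 277) (nat_lit 5) (nat_lit 278) (nat_lit 5) (nat_lit 584) (nat_lit 502) (nat_lit 474)))) (XT.nd (nat_lit 156) (nat_lit 1140) (nat_lit 0) (XT.nd (nat_lit 78) (nat_lit 608) (nat_lit 0) (XT.lf (nat_lit 0) (nat_lit 2125077694) (nat_lit 608) (nat_lit 1761439684) (nat_lit 76) (nat_lit 4720961442) (nat_lit 269) (nat_lit 5) (nat_lit 277) (nat_lit 5) (nat_lit 270) (nat_lit 5) (nat_lit 585) (nat_lit 502) (nat_lit 473)) (XT.lf (nat_lit 0) (nat_lit 5014420674) (nat_lit 608) (nat_lit 654663837) (nat_lit 684) (nat_lit 3012435020) (nat_lit 261) (nat_lit 5) (nat_lit 269) (nat_lit 5) (nat_lit 270) (nat_lit 5) (nat_lit 586) (nat_lit 502) (nat_lit 472))) (XT.nd (nat_lit 78) (nat_lit 532) (nat_lit 0) (XT.lf (nat_lit 0) (nat_lit 518193358) (nat_lit 608) (nat_lit 5614750520) (nat_lit 76) (nat_lit 2624066482)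 (nat_lit 253) (nat_lit 5) (nat_lit 261) (nat_lit 5) (nat_lit 254) (nat_lit 5) (nat_lit 587) (nat_lit 502) (nat_lit 471)) (XT.lf (nat_lit 0) (nat_lit 1224231841) (nat_lit 532) (nat_lit 2840880080) (nat_lit 608) (nat_lit 4768781738) (nat_lit 246) (nat_lit 5) (nat_lit 253) (nat_lit 5) (nat_lit 254) (nat_lit 5) (nat_lit 588) (nat_lit 502) (nat_lit 470)))))) (XT.nd (nat_lit 624) (nat_lit 2584) (nat_lit 0) (XT.nd (nat_lit 312) (nat_lit 1444) (nat_lit 0) (XT.nd (nat_lit 156) (nat_lit 1064) (nat_lit 0) (XT.nd (nat_lit 78) (nat_lit 532) (nat_lit 0) (XT.lf (nat_lit 0) (nat_lit 7673583405) (nat_lit 608) (nat_lit 710845476) (nat_lit 76) (nat_lit 528074607) (nat_lit 246) (nat_lit 5) (nat_lit 254) (nat_lit 5) (nat_lit 247) (nat_lit 5) (nat_lit 589) (nat_lit 502) (nat_lit 469)) (XT.lf (nat_lit 0) (nat_lit 2340801861) (nat_lit 532) (nat_lit 2688240428) (nat_lit 76) (nat_lit 3963132982) (nat_lit 239) (nat_lit 5) (nat_lit 246) (nat_lit 5) (nat_lit 240) (nat_lit 5) (nat_lit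 590) (nat_lit 502) (nat_lit 468))) (XT.nd (nat_lit 78) (nat_lit 532) (nat_lit 0) (XT.lf (nat_lit 0) (nat_lit 4373859458) (nat_lit 532) (nat_lit 1585402142) (nat_lit 608) (nat_lit 3114341542) (nat_lit 232) (nat_lit 5) (nat_lit 239) (nat_lit 5) (nat_lit 240) (nat_lit 5) (nat_lit 591) (nat_lit 502) (nat_lit 467)) (XT.lf (nat_lit 0) (nat_lit 484122827) (nat_lit 532) (nat_lit 6754593554) (nat_lit 76) (nat_lit 1917936899) (nat_lit 225) (nat_lit 5) (nat_lit 232) (nat_lit 5) (nat_lit 226) (nat_lit 5) (nat_lit 592) (nat_lit 502) (nat_lit 466)))) (XT.nd (nat_lit 156) (nat_lit 988) (nat_lit 0) (XT.nd (nat_lit 78) (nat_lit 0) (nat_lit 0) (XT.lf (nat_lit 0) (nat_lit 371275316) (nat_lit 456) (nat_lit 3737353082) (nat_lit 532) (nat_lit 5132409870) (nat_lit 219) (nat_lit 5) (nat_lit 225) (nat_lit 5) (nat_lit 226) (nat_lit 5) (nat_lit 593) (nat_lit 502) (nat_lit 465)) (XT.lf (nat_lit 0) (nat_lit 7660556996) (nat_lit 456) (nat_lit 141971865) (nat_lit 532) (nat_lit 1524645009)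 (nat_lit 219) (nat_lit 5) (nat_lit 225) (nat_lit 5) (nat_lit 226) (nat_lit 5) (nat_lit 594) (nat_lit 502) (nat_lit 464))) (XT.nd (nat_lit 78) (nat_lit 456) (nat_lit 0) (XT.lf (nat_lit 0) (nat_lit 2139122149) (nat_lit 532) (nat_lit 3766993876) (nat_lit 76) (nat_lit 3508394978) (nat_lit 212) (nat_lit 5) (nat_lit 219) (nat_lit 5) (nat_lit 213) (nat_lit 5) (nat_lit 595) (nat_lit 502) (nat_lit 463)) (XT.lf (nat_lit 0) (nat_lit 3592905877) (nat_lit 456) (nat_lit 2250942768) (nat_lit 532) (nat_lit 3659783645) (nat_lit 206) (nat_lit 5) (nat_lit 212) (nat_lit 5) (nat_lit 213) (nat_lit 5) (nat_lit 596) (nat_lit 502) (nat_lit 462))))) (XT.nd (nat_lit 312) (nat_lit 1216) (nat_lit 0) (XT.nd (nat_lit 156) (nat_lit 912) (nat_lit 0) (XT.nd (nat_lit 78) (nat_lit 0) (nat_lit 0) (XT.lf (nat_lit 0) (nat_lit 25384080) (nat_lit 456) (nat_lit 8098438625) (nat_lit 76) (nat_lit 1470758167) (nat_lit 200) (nat_lit 5) (nat_lit 206) (nat_lit 5) (nat_lit 201) (nat_lit 5) (nat_lit 597)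 (nat_lit 502) (nat_lit 461)) (XT.lf (nat_lit 0) (nat_lit 3743172033) (nat_lit 456) (nat_lit 665440880) (nat_lit 76) (nat_lit 5278094157) (nat_lit 200) (nat_lit 5) (nat_lit 206) (nat_lit 5) (nat_lit 201) (nat_lit 5) (nat_lit 598) (nat_lit 502) (nat_lit 460))) (XT.nd (nat_lit 78) (nat_lit 456) (nat_lit 0) (XT.lf (nat_lit 0) (nat_lit 6937846242) (nat_lit 456) (nat_lit 596477248) (nat_lit 532) (nat_lit 2246373022) (nat_lit 194) (nat_lit 5) (nat_lit 200) (nat_lit 5) (nat_lit 201) (nat_lit 5) (nat_lit 599) (nat_lit 502) (nat_lit 459)) (XT.lf (nat_lit 0) (nat_lit 1516092912) (nat_lit 456) (nat_lit 5088720194) (nat_lit 76) (nat_lit 3271328329) (nat_lit 188) (nat_lit 5) (nat_lit 194) (nat_lit 5) (nat_lit 189) (nat_lit 5) (nat_lit 600) (nat_lit 502) (nat_lit 458)))) (XT.nd (nat_lit 156) (nat_lit 456) (nat_lit 0) (XT.nd (nat_lit 78) (nat_lit 380) (nat_lit 0) (XT.lf (nat_lit 0) (nat_lit 2580799803) (nat_lit 380) (nat_lit 2737280531) (nat_lit 456) (nat_lit 4655231758)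 (nat_lit 183) (nat_lit 5) (nat_lit 188) (nat_lit 5) (nat_lit 189) (nat_lit 5) (nat_lit 601) (nat_lit 502) (nat_lit 457)) (XT.lf (nat_lit 0) (nat_lit 327066874) (nat_lit 380) (nat_lit 8868078396) (nat_lit 456) (nat_lit 877300945) (nat_lit 178) (nat_lit 5) (nat_lit 183) (nat_lit 5) (nat_lit 184) (nat_lit 5) (nat_lit 602) (nat_lit 502) (nat_lit 456))) (XT.nd (nat_lit 78) (nat_lit 380) (nat_lit 0) (XT.lf (nat_lit 0) (nat_lit 2960056829) (nat_lit 456) (nat_lit 1979347068) (nat_lit 76) (nat_lit 5233315402) (nat_lit 177) (nat_lit 5) (nat_lit 183) (nat_lit 5) (nat_lit 178) (nat_lit 5) (nat_lit 603) (nat_lit 502) (nat_lit 455)) (XT.lf (nat_lit 0) (nat_lit 5945305279) (nat_lit 380) (nat_lit 911444531) (nat_lit 456) (nat_lit 3418246115) (nat_lit 172) (nat_lit 5) (nat_lit 177) (nat_lit 5) (nat_lit 178) (nat_lit 5) (nat_lit 604) (nat_lit 502) (nat_lit 454))))))) (XT.nd (nat_lit 1170) (nat_lit 3040) (nat_lit 0) (XT.nd (nat_lit 546) (nat_lit 2432) (nat_lit 0) (XT.nd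 (nat_lit 234) (nat_lit 1140) (nat_lit 0) (XT.nd (nat_lit 78) (nat_lit 380) (nat_lit 0) (XT.lf (nat_lit 0) (nat_lit 459929328) (nat_lit 456) (nat_lit 6748157424) (nat_lit 76) (nat_lit 3170897370) (nat_lit 166) (nat_lit 5) (nat_lit 172) (nat_lit 5) (nat_lit 167) (nat_lit 5) (nat_lit 605) (nat_lit 502) (nat_lit 453)) (XT.nd (nat_lit 78) (nat_lit 0) (nat_lit 0) (XT.lf (nat_lit 0) (nat_lit 1242950349) (nat_lit 380) (nat_lit 3126458914) (nat_lit 456) (nat_lit 6115201422) (nat_lit 161) (nat_lit 5) (nat_lit 166) (nat_lit 5) (nat_lit 167) (nat_lit 5) (nat_lit 606) (nat_lit 502) (nat_lit 452)) (XT.lf (nat_lit 0) (nat_lit 8365758754) (nat_lit 456) (nat_lit 1182631063) (nat_lit 76) (nat_lit 1043787067) (nat_lit 161) (nat_lit 5) (nat_lit 167) (nat_lit 5) (nat_lit 162) (nat_lit 5) (nat_lit 607) (nat_lit 502) (nat_lit 451)))) (XT.nd (nat_lit 156) (nat_lit 380) (nat_lit 0) (XT.nd (nat_lit 78) (nat_lit 380) (nat_lit 0) (XT.lf (nat_lit 0) (nat_lit 1741115151) (nat_lit 380)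 (nat_lit 3671804160) (nat_lit 76) (nat_lit 5288273881) (nat_lit 156) (nat_lit 5) (nat_lit 161) (nat_lit 5) (nat_lit 157) (nat_lit 5) (nat_lit 608) (nat_lit 502) (nat_lit 450)) (XT.lf (nat_lit 0) (nat_lit 4586540396) (nat_lit 380) (nat_lit 1166780640) (nat_lit 456) (nat_lit 5058872446) (nat_lit 151) (nat_lit 5) (nat_lit 156) (nat_lit 5) (nat_lit 157) (nat_lit 5) (nat_lit 609) (nat_lit 502) (nat_lit 449))) (XT.nd (nat_lit 78) (nat_lit 76) (nat_lit 0) (XT.lf (nat_lit 0) (nat_lit 2072885493) (nat_lit 304) (nat_lit 7789260235) (nat_lit 380) (nat_lit 1062941205) (nat_lit 147) (nat_lit 5) (nat_lit 151) (nat_lit 5) (nat_lit 152) (nat_lit 5) (nat_lit 610) (nat_lit 502) (nat_lit 448)) (XT.lf (nat_lit 0) (nat_lit 2980854686) (nat_lit 380) (nat_lit 513791519) (nat_lit 76) (nat_lit 7545052222) (nat_lit 146) (nat_lit 5) (nat_lit 151) (nat_lit 5) (nat_lit 147) (nat_lit 5) (nat_lit 611) (nat_lit 502) (nat_lit 447))))) (XT.nd (nat_lit 312) (nat_lit 1064) (nat_lit 0) (XT.nd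 (nat_lit 156) (nat_lit 608) (nat_lit 0) (XT.nd (nat_lit 78) (nat_lit 380) (nat_lit 0) (XT.lf (nat_lit 0) (nat_lit 7107878482) (nat_lit 456) (nat_lit 3139928006) (nat_lit 76) (nat_lit 908324060) (nat_lit 141) (nat_lit 5) (nat_lit 147) (nat_lit 5) (nat_lit 142) (nat_lit 5) (nat_lit 612) (nat_lit 502) (nat_lit 446)) (XT.lf (nat_lit 0) (nat_lit 62717405) (nat_lit 380) (nat_lit 5845387934) (nat_lit 76) (nat_lit 5366366556) (nat_lit 136) (nat_lit 5) (nat_lit 141) (nat_lit 5) (nat_lit 137) (nat_lit 5) (nat_lit 613) (nat_lit 502) (nat_lit 445))) (XT.nd (nat_lit 78) (nat_lit 304) (nat_lit 0) (XT.lf (nat_lit 0) (nat_lit 2758934350) (nat_lit 304) (nat_lit 1440764448) (nat_lit 380) (nat_lit 7194986696) (nat_lit 132) (nat_lit 5) (nat_lit 136) (nat_lit 5) (nat_lit 137) (nat_lit 5) (nat_lit 614) (nat_lit 502) (nat_lit 444)) (XT.lf (nat_lit 0) (nat_lit 9918127) (nat_lit 304) (nat_lit 8428307641) (nat_lit 380) (nat_lit 3078702046) (nat_lit 128) (nat_lit 5) (nat_lit 132)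 (nat_lit 5) (nat_lit 133) (nat_lit 5) (nat_lit 615) (nat_lit 502) (nat_lit 443)))) (XT.nd (nat_lit 156) (nat_lit 684) (nat_lit 0) (XT.nd (nat_lit 78) (nat_lit 304) (nat_lit 0) (XT.lf (nat_lit 0) (nat_lit 1132218465) (nat_lit 380) (nat_lit 2779971151) (nat_lit 76) (nat_lit 7728740525) (nat_lit 127) (nat_lit 5) (nat_lit 132) (nat_lit 5) (nat_lit 128) (nat_lit 5) (nat_lit 616) (nat_lit 502) (nat_lit 442)) (XT.lf (nat_lit 0) (nat_lit 5390531288) (nat_lit 380) (nat_lit 5656877797) (nat_lit 76) (nat_lit 719509004) (nat_lit 123) (nat_lit 5) (nat_lit 128) (nat_lit 5) (nat_lit 124) (nat_lit 5) (nat_lit 617) (nat_lit 502) (nat_lit 441))) (XT.nd (nat_lit 78) (nat_lit 380) (nat_lit 0) (XT.lf (nat_lit 0) (nat_lit 3270610901) (nat_lit 304) (nat_lit 6489430613) (nat_lit 380) (nat_lit 2134864184) (nat_lit 119) (nat_lit 5) (nat_lit 123) (nat_lit 5) (nat_lit 124) (nat_lit 5) (nat_lit 618) (nat_lit 502) (nat_lit 440)) (XT.lf (nat_lit 0) (nat_lit 351947273) (nat_lit 304)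 (nat_lit 1811495345) (nat_lit 380) (nat_lit 9861712462) (nat_lit 114) (nat_lit 5) (nat_lit 118) (nat_lit 5) (nat_lit 119) (nat_lit 5) (nat_lit 619) (nat_lit 502) (nat_lit 439)))))) (XT.nd (nat_lit 624) (nat_lit 1292) (nat_lit 0) (XT.nd (nat_lit 312) (nat_lit 912) (nat_lit 0) (XT.nd (nat_lit 156) (nat_lit 608) (nat_lit 0) (XT.nd (nat_lit 78) (nat_lit 228) (nat_lit 0) (XT.lf (nat_lit 0) (nat_lit 6557004498) (nat_lit 380) (nat_lit 2632972538) (nat_lit 76) (nat_lit 2966993182) (nat_lit 114) (nat_lit 5) (nat_lit 119) (nat_lit 5) (nat_lit 115) (nat_lit 5) (nat_lit 620) (nat_lit 502) (nat_lit 438)) (XT.lf (nat_lit 0) (nat_lit 6596904470) (nat_lit 228) (nat_lit 4457511233) (nat_lit 304) (nat_lit 1236686877) (nat_lit 111) (nat_lit 5) (nat_lit 114) (nat_lit 5) (nat_lit 115) (nat_lit 5) (nat_lit 621) (nat_lit 502) (nat_lit 437))) (XT.nd (nat_lit 78) (nat_lit 228) (nat_lit 0) (XT.lf (nat_lit 0) (nat_lit 3176601481) (nat_lit 380) (nat_lit 8850388884) (nat_lit 76) (nat_lit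 400412474) (nat_lit 106) (nat_lit 5) (nat_lit 111) (nat_lit 5) (nat_lit 107) (nat_lit 5) (nat_lit 622) (nat_lit 502) (nat_lit 436)) (XT.lf (nat_lit 0) (nat_lit 447141984) (nat_lit 228) (nat_lit 7246750852) (nat_lit 304) (nat_lit 4871727305) (nat_lit 103) (nat_lit 5) (nat_lit 106) (nat_lit 5) (nat_lit 107) (nat_lit 5) (nat_lit 623) (nat_lit 502) (nat_lit 435)))) (XT.nd (nat_lit 156) (nat_lit 532) (nat_lit 0) (XT.nd (nat_lit 78) (nat_lit 380) (nat_lit 0) (XT.lf (nat_lit 0) (nat_lit 9985095455) (nat_lit 228) (nat_lit 2337550845) (nat_lit 304) (nat_lit 383533608) (nat_lit 103) (nat_lit 5) (nat_lit 106) (nat_lit 5) (nat_lit 107) (nat_lit 5) (nat_lit 624) (nat_lit 502) (nat_lit 434)) (XT.lf (nat_lit 0) (nat_lit 4163829871) (nat_lit 380) (nat_lit 6004196780) (nat_lit 76) (nat_lit 2680491660) (nat_lit 98) (nat_lit 5) (nat_lit 103) (nat_lit 5) (nat_lit 99) (nat_lit 5) (nat_lit 625) (nat_lit 502) (nat_lit 433))) (XT.nd (nat_lit 78) (nat_lit 304) (nat_lit 0) (XT.lf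 (nat_lit 0) (nat_lit 3608907580) (nat_lit 228) (nat_lit 5207771083) (nat_lit 304) (nat_lit 4176581065) (nat_lit 95) (nat_lit 5) (nat_lit 98) (nat_lit 5) (nat_lit 99) (nat_lit 5) (nat_lit 626) (nat_lit 502) (nat_lit 432)) (XT.lf (nat_lit 0) (nat_lit 291452470) (nat_lit 228) (nat_lit 129603841) (nat_lit 304) (nat_lit 12719687342) (nat_lit 91) (nat_lit 5) (nat_lit 94) (nat_lit 5) (nat_lit 95) (nat_lit 5) (nat_lit 627) (nat_lit 502) (nat_lit 431))))) (XT.nd (nat_lit 312) (nat_lit 760) (nat_lit 0) (XT.nd (nat_lit 156) (nat_lit 304) (nat_lit 0) (XT.nd (nat_lit 78) (nat_lit 228) (nat_lit 0) (XT.lf (nat_lit 0) (nat_lit 5113542354) (nat_lit 304) (nat_lit 3127880920) (nat_lit 76) (nat_lit 5048025829) (nat_lit 91) (nat_lit 5) (nat_lit 95) (nat_lit 5) (nat_lit 92) (nat_lit 5) (nat_lit 628) (nat_lit 502) (nat_lit 430)) (XT.lf (nat_lit 0) (nat_lit 6812645977) (nat_lit 228) (nat_lit 3095644523) (nat_lit 304) (nat_lit 3532670302) (nat_lit 88) (nat_lit 5) (nat_lit 91)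 (nat_lit 5) (nat_lit 92) (nat_lit 5) (nat_lit 629) (nat_lit 502) (nat_lit 429))) (XT.nd (nat_lit 78) (nat_lit 0) (nat_lit 0) (XT.lf (nat_lit 0) (nat_lit 1208194671) (nat_lit 304) (nat_lit 10237659218) (nat_lit 76) (nat_lit 2149082011) (nat_lit 84) (nat_lit 5) (nat_lit 88) (nat_lit 5) (nat_lit 85) (nat_lit 5) (nat_lit 630) (nat_lit 502) (nat_lit 428)) (XT.lf (nat_lit 0) (nat_lit 6025411678) (nat_lit 304) (nat_lit 226862600) (nat_lit 76) (nat_lit 7498672826) (nat_lit 84) (nat_lit 5) (nat_lit 88) (nat_lit 5) (nat_lit 85) (nat_lit 5) (nat_lit 631) (nat_lit 502) (nat_lit 427)))) (XT.nd (nat_lit 156) (nat_lit 228) (nat_lit 0) (XT.nd (nat_lit 78) (nat_lit 304) (nat_lit 0) (XT.lf (nat_lit 0) (nat_lit 10053255527) (nat_lit 228) (nat_lit 915223204) (nat_lit 304) (nat_lit 2941010046) (nat_lit 81) (nat_lit 5) (nat_lit 84) (nat_lit 5) (nat_lit 85) (nat_lit 5) (nat_lit 632) (nat_lit 502) (nat_lit 426)) (XT.lf (nat_lit 0) (nat_lit 1951274086) (nat_lit 304) (nat_lit 7619925048)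 (nat_lit 76) (nat_lit 4499000656) (nat_lit 77) (nat_lit 5) (nat_lit 81) (nat_lit 5) (nat_lit 78) (nat_lit 5) (nat_lit 633) (nat_lit 502) (nat_lit 425))) (XT.nd (nat_lit 78) (nat_lit 0) (nat_lit 0) (XT.lf (nat_lit 0) (nat_lit 2728729223) (nat_lit 228) (nat_lit 4187572367) (nat_lit 304) (nat_lit 7317149414) (nat_lit 74) (nat_lit 5) (nat_lit 77) (nat_lit 5) (nat_lit 78) (nat_lit 5) (nat_lit 634) (nat_lit 502) (nat_lit 424)) (XT.lf (nat_lit 0) (nat_lit 12005096274) (nat_lit 304) (nat_lit 1083143566) (nat_lit 76) (nat_lit 1311238403) (nat_lit 74) (nat_lit 5) (nat_lit 78) (nat_lit 5) (nat_lit 75) (nat_lit 5) (nat_lit 635) (nat_lit 502) (nat_lit 423))))))))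
noncomputable def xc37 : XT := (XT.nd (nat_lit 76284) (nat_lit 0) (nat_lit 9804) (XT.nd (nat_lit 75036) (nat_lit 0) (nat_lit 23712) (XT.nd (nat_lit 546) (nat_lit 608) (nat_lit 0) (XT.nd (nat_lit 234) (nat_lit 684) (nat_lit 0) (XT.nd (nat_lit 78) (nat_lit 380) (nat_lit 0) (XT.lf (nat_lit 0) (nat_lit 2647931074) (nat_lit 304) (nat_lit 5002132811) (nat_lit 76) (nat_lit 6917310521) (nat_lit 70) (nat_lit 5) (nat_lit 74) (nat_lit 5) (nat_lit 71) (nat_lit 5) (nat_lit 636) (nat_lit 502) (nat_lit 422)) (XT.nd (nat_lit 78) (nat_lit 228) (nat_lit 0) (XT.lf (nat_lit 0) (nat_lit 5699780961) (nat_lit 152) (nat_lit 2068881573) (nat_lit 228) (nat_lit 6969457076) (nat_lit 68) (nat_lit 5) (nat_lit 70) (nat_lit 5) (nat_lit 71) (nat_lit 5) (nat_lit 637) (nat_lit 502) (nat_lit 421)) (XT.lf (nat_lit 0) (nat_lit 1708619441) (nat_lit 228) (nat_lit 11316986822) (nat_lit 304) (nat_lit 1885997808) (nat_lit 65) (nat_lit 5) (nat_lit 68) (nat_lit 5) (nat_lit 69) (nat_lit 5) (nat_lit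 638) (nat_lit 502) (nat_lit 420)))) (XT.nd (nat_lit 156) (nat_lit 456) (nat_lit 0) (XT.nd (nat_lit 78) (nat_lit 152) (nat_lit 0) (XT.lf (nat_lit 0) (nat_lit 3296054155) (nat_lit 304) (nat_lit 2391854422) (nat_lit 76) (nat_lit 9399417694) (nat_lit 64) (nat_lit 5) (nat_lit 68) (nat_lit 5) (nat_lit 65) (nat_lit 5) (nat_lit 639) (nat_lit 502) (nat_lit 419)) (XT.lf (nat_lit 0) (nat_lit 8579592544) (nat_lit 228) (nat_lit 6590502841) (nat_lit 76) (nat_lit 95756509) (nat_lit 62) (nat_lit 5) (nat_lit 65) (nat_lit 5) (nat_lit 63) (nat_lit 5) (nat_lit 640) (nat_lit 502) (nat_lit 418))) (XT.nd (nat_lit 78) (nat_lit 228) (nat_lit 0) (XT.lf (nat_lit 0) (nat_lit 4509153119) (nat_lit 228) (nat_lit 9508963467) (nat_lit 304) (nat_lit 1428845432) (nat_lit 59) (nat_lit 5) (nat_lit 62) (nat_lit 5) (nat_lit 63) (nat_lit 5) (nat_lit 641) (nat_lit 502) (nat_lit 417)) (XT.lf (nat_lit 0) (nat_lit 205236458) (nat_lit 152) (nat_lit 3689000793) (nat_lit 228) (nat_lit 11736704320)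 (nat_lit 56) (nat_lit 5) (nat_lit 58) (nat_lit 5) (nat_lit 59) (nat_lit 5) (nat_lit 642) (nat_lit 502) (nat_lit 416))))) (XT.nd (nat_lit 312) (nat_lit 152) (nat_lit 0) (XT.nd (nat_lit 156) (nat_lit 228) (nat_lit 0) (XT.nd (nat_lit 78) (nat_lit 228) (nat_lit 0) (XT.lf (nat_lit 0) (nat_lit 9359496474) (nat_lit 228) (nat_lit 4183308463) (nat_lit 76) (nat_lit 2274510210) (nat_lit 56) (nat_lit 5) (nat_lit 59) (nat_lit 5) (nat_lit 57) (nat_lit 5) (nat_lit 643) (nat_lit 502) (nat_lit 415)) (XT.lf (nat_lit 0) (nat_lit 7295338938) (nat_lit 228) (nat_lit 7677531675) (nat_lit 304) (nat_lit 1033769649) (nat_lit 53) (nat_lit 5) (nat_lit 56) (nat_lit 5) (nat_lit 57) (nat_lit 5) (nat_lit 644) (nat_lit 502) (nat_lit 414))) (XT.nd (nat_lit 78) (nat_lit 0) (nat_lit 0) (XT.lf (nat_lit 0) (nat_lit 2808624756) (nat_lit 152) (nat_lit 1644684010) (nat_lit 228) (nat_lit 11745588176) (nat_lit 50) (nat_lit 5) (nat_lit 52) (nat_lit 5) (nat_lit 53) (nat_lit 5) (nat_lit 645) (nat_lit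 502) (nat_lit 413)) (XT.lf (nat_lit 0) (nat_lit 10091560779) (nat_lit 228) (nat_lit 1813280338) (nat_lit 76) (nat_lit 4488915737) (nat_lit 50) (nat_lit 5) (nat_lit 53) (nat_lit 5) (nat_lit 51) (nat_lit 5) (nat_lit 646) (nat_lit 502) (nat_lit 412)))) (XT.nd (nat_lit 74022) (nat_lit 0) (nat_lit 36480) (XT.nd (nat_lit 73944) (nat_lit 0) (nat_lit 38228) (XT.lf (nat_lit 0) (nat_lit 10057464337) (nat_lit 152) (nat_lit 5829091896) (nat_lit 228) (nat_lit 705078406) (nat_lit 48) (nat_lit 5) (nat_lit 50) (nat_lit 5) (nat_lit 51) (nat_lit 5) (nat_lit 647) (nat_lit 502) (nat_lit 411)) (XT.lf (nat_lit 0) (nat_lit 159276855) (nat_lit 1596) (nat_lit 1668345060) (nat_lit 1596) (nat_lit 1668345060) (nat_lit 551) (nat_lit 4) (nat_lit 572) (nat_lit 5) (nat_lit 572) (nat_lit 4) (nat_lit 554) (nat_lit 503) (nat_lit 503))) (XT.nd (nat_lit 78) (nat_lit 1672) (nat_lit 0) (XT.lf (nat_lit 0) (nat_lit 143900053) (nat_lit 1672) (nat_lit 1553961262) (nat_lit 76) (nat_lit 5327186155)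 (nat_lit 550) (nat_lit 5) (nat_lit 572) (nat_lit 5) (nat_lit 551) (nat_lit 4) (nat_lit 555) (nat_lit 503) (nat_lit 502)) (XT.lf (nat_lit 0) (nat_lit 3603318133) (nat_lit 1748) (nat_lit 3434150613) (nat_lit 0) (nat_lit 21838387) (nat_lit 528) (nat_lit 5) (nat_lit 551) (nat_lit 4) (nat_lit 528) (nat_lit 4) (nat_lit 556) (nat_lit 503) (nat_lit 501)))))) (XT.nd (nat_lit 624) (nat_lit 5092) (nat_lit 0) (XT.nd (nat_lit 312) (nat_lit 2812) (nat_lit 0) (XT.nd (nat_lit 156) (nat_lit 3040) (nat_lit 0) (XT.nd (nat_lit 78) (nat_lit 0) (nat_lit 0) (XT.lf (nat_lit 0) (nat_lit 1335126) (nat_lit 1824) (nat_lit 5317027669) (nat_lit 76) (nat_lit 1776603932) (nat_lit 504) (nat_lit 5) (nat_lit 528) (nat_lit 5) (nat_lit 505) (nat_lit 4) (nat_lit 557) (nat_lit 503) (nat_lit 500)) (XT.lf (nat_lit 0) (nat_lit 3436334585) (nat_lit 1824) (nat_lit 82490406) (nat_lit 76) (nat_lit 3612964256) (nat_lit 504) (nat_lit 5) (nat_lit 528) (nat_lit 5) (nat_lit 505) (nat_lit 4) (nat_lit 558)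 (nat_lit 503) (nat_lit 499))) (XT.nd (nat_lit 78) (nat_lit 1216) (nat_lit 0) (XT.lf (nat_lit 0) (nat_lit 5257660239) (nat_lit 1824) (nat_lit 1649415611) (nat_lit 1900) (nat_lit 262934187) (nat_lit 480) (nat_lit 5) (nat_lit 504) (nat_lit 5) (nat_lit 505) (nat_lit 4) (nat_lit 559) (nat_lit 503) (nat_lit 498)) (XT.lf (nat_lit 0) (nat_lit 3154031918) (nat_lit 1216) (nat_lit 3758875085) (nat_lit 76) (nat_lit 296504991) (nat_lit 464) (nat_lit 5) (nat_lit 480) (nat_lit 5) (nat_lit 465) (nat_lit 4) (nat_lit 560) (nat_lit 503) (nat_lit 497)))) (XT.nd (nat_lit 156) (nat_lit 1824) (nat_lit 0) (XT.nd (nat_lit 78) (nat_lit 76) (nat_lit 0) (XT.lf (nat_lit 0) (nat_lit 1636647029) (nat_lit 912) (nat_lit 4967832441) (nat_lit 988) (nat_lit 645717005) (nat_lit 452) (nat_lit 5) (nat_lit 464) (nat_lit 5) (nat_lit 465) (nat_lit 4) (nat_lit 561) (nat_lit 503) (nat_lit 496)) (XT.lf (nat_lit 0) (nat_lit 2754989115) (nat_lit 988) (nat_lit 188557375) (nat_lit 76) (nat_lit 4348684922)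 (nat_lit 451) (nat_lit 5) (nat_lit 464) (nat_lit 5) (nat_lit 452) (nat_lit 5) (nat_lit 562) (nat_lit 503) (nat_lit 495))) (XT.nd (nat_lit 78) (nat_lit 912) (nat_lit 0) (XT.lf (nat_lit 0) (nat_lit 5342349468) (nat_lit 912) (nat_lit 843292924) (nat_lit 988) (nat_lit 1149970065) (nat_lit 439) (nat_lit 5) (nat_lit 451) (nat_lit 5) (nat_lit 452) (nat_lit 5) (nat_lit 563) (nat_lit 503) (nat_lit 494)) (XT.lf (nat_lit 0) (nat_lit 2244208479) (nat_lit 912) (nat_lit 3819348284) (nat_lit 76) (nat_lit 1316619470) (nat_lit 427) (nat_lit 5) (nat_lit 439) (nat_lit 5) (nat_lit 428) (nat_lit 5) (nat_lit 564) (nat_lit 503) (nat_lit 493))))) (XT.nd (nat_lit 312) (nat_lit 2356) (nat_lit 0) (XT.nd (nat_lit 156) (nat_lit 1748) (nat_lit 0) (XT.nd (nat_lit 78) (nat_lit 76) (nat_lit 0) (XT.lf (nat_lit 0) (nat_lit 1768008032) (nat_lit 912) (nat_lit 3890457501) (nat_lit 988) (nat_lit 1767664085) (nat_lit 415) (nat_lit 5) (nat_lit 427) (nat_lit 5) (nat_lit 428) (nat_lit 5) (nat_lit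 565) (nat_lit 503) (nat_lit 492)) (XT.lf (nat_lit 0) (nat_lit 1609351351) (nat_lit 988) (nat_lit 34528334) (nat_lit 76) (nat_lit 5829643488) (nat_lit 414) (nat_lit 5) (nat_lit 427) (nat_lit 5) (nat_lit 415) (nat_lit 5) (nat_lit 566) (nat_lit 503) (nat_lit 491))) (XT.nd (nat_lit 78) (nat_lit 912) (nat_lit 0) (XT.lf (nat_lit 0) (nat_lit 5010372151) (nat_lit 912) (nat_lit 1830618264) (nat_lit 76) (nat_lit 681039909) (nat_lit 403) (nat_lit 5) (nat_lit 415) (nat_lit 5) (nat_lit 404) (nat_lit 5) (nat_lit 567) (nat_lit 503) (nat_lit 490)) (XT.lf (nat_lit 0) (nat_lit 871849534) (nat_lit 912) (nat_lit 3645471014) (nat_lit 76) (nat_lit 3054554167) (nat_lit 391) (nat_lit 5) (nat_lit 403) (nat_lit 5) (nat_lit 392) (nat_lit 5) (nat_lit 568) (nat_lit 503) (nat_lit 489)))) (XT.nd (nat_lit 156) (nat_lit 760) (nat_lit 0) (XT.nd (nat_lit 78) (nat_lit 836) (nat_lit 0) (XT.lf (nat_lit 0) (nat_lit 2142683463) (nat_lit 760) (nat_lit 2112726696) (nat_lit 836) (nat_lit 3367655488)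 (nat_lit 381) (nat_lit 5) (nat_lit 391) (nat_lit 5) (nat_lit 392) (nat_lit 5) (nat_lit 569) (nat_lit 503) (nat_lit 488)) (XT.lf (nat_lit 0) (nat_lit 247796) (nat_lit 836) (nat_lit 7322692240) (nat_lit 76) (nat_lit 352952235) (nat_lit 370) (nat_lit 5) (nat_lit 381) (nat_lit 5) (nat_lit 371) (nat_lit 5) (nat_lit 570) (nat_lit 503) (nat_lit 487))) (XT.nd (nat_lit 78) (nat_lit 760) (nat_lit 0) (XT.lf (nat_lit 0) (nat_lit 3382169423) (nat_lit 836) (nat_lit 1458449552) (nat_lit 76) (nat_lit 2888878044) (nat_lit 370) (nat_lit 5) (nat_lit 381) (nat_lit 5) (nat_lit 371) (nat_lit 5) (nat_lit 571) (nat_lit 503) (nat_lit 486)) (XT.lf (nat_lit 0) (nat_lit 4513037790) (nat_lit 760) (nat_lit 2289855742) (nat_lit 836) (nat_lit 981858871) (nat_lit 360) (nat_lit 5) (nat_lit 370) (nat_lit 5) (nat_lit 371) (nat_lit 5) (nat_lit 572) (nat_lit 503) (nat_lit 485))))))) (XT.nd (nat_lit 1170) (nat_lit 5776) (nat_lit 0) (XT.nd (nat_lit 546) (nat_lit 4408) (nat_lit 0) (XT.nd (nat_lit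 234) (nat_lit 2128) (nat_lit 0) (XT.nd (nat_lit 78) (nat_lit 760) (nat_lit 0) (XT.lf (nat_lit 0) (nat_lit 2390782987) (nat_lit 836) (nat_lit 5110507441) (nat_lit 76) (nat_lit 340065799) (nat_lit 349) (nat_lit 5) (nat_lit 360) (nat_lit 5) (nat_lit 350) (nat_lit 5) (nat_lit 573) (nat_lit 503) (nat_lit 484)) (XT.nd (nat_lit 78) (nat_lit 76) (nat_lit 0) (XT.lf (nat_lit 0) (nat_lit 919249390) (nat_lit 684) (nat_lit 4884508187) (nat_lit 760) (nat_lit 2095485926) (nat_lit 340) (nat_lit 5) (nat_lit 349) (nat_lit 5) (nat_lit 350) (nat_lit 5) (nat_lit 574) (nat_lit 503) (nat_lit 483)) (XT.lf (nat_lit 0) (nat_lit 1286899165) (nat_lit 760) (nat_lit 898018309) (nat_lit 76) (nat_lit 5773648505) (nat_lit 339) (nat_lit 5) (nat_lit 349) (nat_lit 5) (nat_lit 340) (nat_lit 5) (nat_lit 575) (nat_lit 503) (nat_lit 482)))) (XT.nd (nat_lit 156) (nat_lit 684) (nat_lit 0) (XT.nd (nat_lit 78) (nat_lit 760) (nat_lit 0) (XT.lf (nat_lit 0) (nat_lit 4691375541) (nat_lit 760) (nat_lit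 2731096546) (nat_lit 76) (nat_lit 596677370) (nat_lit 330) (nat_lit 5) (nat_lit 340) (nat_lit 5) (nat_lit 331) (nat_lit 5) (nat_lit 576) (nat_lit 503) (nat_lit 481)) (XT.lf (nat_lit 0) (nat_lit 69779836) (nat_lit 760) (nat_lit 4590810493) (nat_lit 76) (nat_lit 3420587623) (nat_lit 320) (nat_lit 5) (nat_lit 330) (nat_lit 5) (nat_lit 321) (nat_lit 5) (nat_lit 577) (nat_lit 503) (nat_lit 480))) (XT.nd (nat_lit 78) (nat_lit 0) (nat_lit 0) (XT.lf (nat_lit 0) (nat_lit 1658892021) (nat_lit 684) (nat_lit 1806117757) (nat_lit 760) (nat_lit 4679513152) (nat_lit 311) (nat_lit 5) (nat_lit 320) (nat_lit 5) (nat_lit 321) (nat_lit 5) (nat_lit 578) (nat_lit 503) (nat_lit 479)) (XT.lf (nat_lit 0) (nat_lit 6911884698) (nat_lit 760) (nat_lit 190518341) (nat_lit 76) (nat_lit 1107058456) (nat_lit 311) (nat_lit 5) (nat_lit 321) (nat_lit 5) (nat_lit 312) (nat_lit 5) (nat_lit 579) (nat_lit 503) (nat_lit 478))))) (XT.nd (nat_lit 312) (nat_lit 1824) (nat_lit 0) (XT.nd (nat_lit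 156) (nat_lit 1292) (nat_lit 0) (XT.nd (nat_lit 78) (nat_lit 608) (nat_lit 0) (XT.lf (nat_lit 0) (nat_lit 2122804701) (nat_lit 684) (nat_lit 2058482064) (nat_lit 76) (nat_lit 4094153454) (nat_lit 302) (nat_lit 5) (nat_lit 311) (nat_lit 5) (nat_lit 303) (nat_lit 5) (nat_lit 580) (nat_lit 503) (nat_lit 477)) (XT.lf (nat_lit 0) (nat_lit 4392147213) (nat_lit 608) (nat_lit 1178762228) (nat_lit 684) (nat_lit 2772125141) (nat_lit 294) (nat_lit 5) (nat_lit 302) (nat_lit 5) (nat_lit 303) (nat_lit 5) (nat_lit 581) (nat_lit 503) (nat_lit 476))) (XT.nd (nat_lit 78) (nat_lit 608) (nat_lit 0) (XT.lf (nat_lit 0) (nat_lit 657042854) (nat_lit 684) (nat_lit 5877337081) (nat_lit 76) (nat_lit 1877716209) (nat_lit 285) (nat_lit 5) (nat_lit 294) (nat_lit 5) (nat_lit 286) (nat_lit 5) (nat_lit 582) (nat_lit 503) (nat_lit 475)) (XT.lf (nat_lit 0) (nat_lit 633597025) (nat_lit 608) (nat_lit 3470316248) (nat_lit 684) (nat_lit 4378535759) (nat_lit 277) (nat_lit 5) (nat_lit 285) (nat_lit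 5) (nat_lit 286) (nat_lit 5) (nat_lit 583) (nat_lit 503) (nat_lit 474)))) (XT.nd (nat_lit 156) (nat_lit 1216) (nat_lit 0) (XT.nd (nat_lit 78) (nat_lit 608) (nat_lit 0) (XT.lf (nat_lit 0) (nat_lit 7284842061) (nat_lit 608) (nat_lit 322489782) (nat_lit 684) (nat_lit 947126223) (nat_lit 277) (nat_lit 5) (nat_lit 285) (nat_lit 5) (nat_lit 286) (nat_lit 5) (nat_lit 584) (nat_lit 503) (nat_lit 473)) (XT.lf (nat_lit 0) (nat_lit 2522494558) (nat_lit 608) (nat_lit 3219964912) (nat_lit 76) (nat_lit 2885056257) (nat_lit 269) (nat_lit 5) (nat_lit 277) (nat_lit 5) (nat_lit 270) (nat_lit 5) (nat_lit 585) (nat_lit 503) (nat_lit 472))) (XT.nd (nat_lit 78) (nat_lit 608) (nat_lit 0) (XT.lf (nat_lit 0) (nat_lit 3501730841) (nat_lit 608) (nat_lit 2529846141) (nat_lit 684) (nat_lit 2670678552) (nat_lit 261) (nat_lit 5) (nat_lit 269) (nat_lit 5) (nat_lit 270) (nat_lit 5) (nat_lit 586) (nat_lit 503) (nat_lit 471)) (XT.lf (nat_lit 0) (nat_lit 807851047) (nat_lit 608) (nat_lit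 7214801972) (nat_lit 76) (nat_lit 756001882) (nat_lit 253) (nat_lit 5) (nat_lit 261) (nat_lit 5) (nat_lit 254) (nat_lit 5) (nat_lit 587) (nat_lit 503) (nat_lit 470)))))) (XT.nd (nat_lit 624) (nat_lit 2660) (nat_lit 0) (XT.nd (nat_lit 312) (nat_lit 1520) (nat_lit 0) (XT.nd (nat_lit 156) (nat_lit 1064) (nat_lit 0) (XT.nd (nat_lit 78) (nat_lit 532) (nat_lit 0) (XT.lf (nat_lit 0) (nat_lit 4322030384) (nat_lit 608) (nat_lit 426515092) (nat_lit 76) (nat_lit 4107648080) (nat_lit 253) (nat_lit 5) (nat_lit 261) (nat_lit 5) (nat_lit 254) (nat_lit 5) (nat_lit 588) (nat_lit 503) (nat_lit 469)) (XT.lf (nat_lit 0) (nat_lit 6514375005) (nat_lit 532) (nat_lit 1385318635) (nat_lit 608) (nat_lit 1035726471) (nat_lit 246) (nat_lit 5) (nat_lit 253) (nat_lit 5) (nat_lit 254) (nat_lit 5) (nat_lit 589) (nat_lit 503) (nat_lit 468))) (XT.nd (nat_lit 78) (nat_lit 532) (nat_lit 0) (XT.lf (nat_lit 0) (nat_lit 2496513911) (nat_lit 532) (nat_lit 4471495113) (nat_lit 76) (nat_lit 2047953356)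 (nat_lit 239) (nat_lit 5) (nat_lit 246) (nat_lit 5) (nat_lit 240) (nat_lit 5) (nat_lit 590) (nat_lit 503) (nat_lit 467)) (XT.lf (nat_lit 0) (nat_lit 2532200691) (nat_lit 532) (nat_lit 3546799602) (nat_lit 608) (nat_lit 3019109955) (nat_lit 232) (nat_lit 5) (nat_lit 239) (nat_lit 5) (nat_lit 240) (nat_lit 5) (nat_lit 591) (nat_lit 503) (nat_lit 466)))) (XT.nd (nat_lit 156) (nat_lit 988) (nat_lit 0) (XT.nd (nat_lit 78) (nat_lit 0) (nat_lit 0) (XT.lf (nat_lit 0) (nat_lit 488537416) (nat_lit 456) (nat_lit 40518593) (nat_lit 532) (nat_lit 8653073505) (nat_lit 225) (nat_lit 5) (nat_lit 231) (nat_lit 5) (nat_lit 232) (nat_lit 5) (nat_lit 592) (nat_lit 503) (nat_lit 465)) (XT.lf (nat_lit 0) (nat_lit 4127143737) (nat_lit 532) (nat_lit 1606853298) (nat_lit 76) (nat_lit 3533046324) (nat_lit 225) (nat_lit 5) (nat_lit 232) (nat_lit 5) (nat_lit 226) (nat_lit 5) (nat_lit 593) (nat_lit 503) (nat_lit 464))) (XT.nd (nat_lit 78) (nat_lit 532) (nat_lit 0) (XT.lf (nat_lit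 0) (nat_lit 5626777474) (nat_lit 456) (nat_lit 2160194010) (nat_lit 532) (nat_lit 1566889418) (nat_lit 219) (nat_lit 5) (nat_lit 225) (nat_lit 5) (nat_lit 226) (nat_lit 5) (nat_lit 594) (nat_lit 503) (nat_lit 463)) (XT.lf (nat_lit 0) (nat_lit 2047194666) (nat_lit 532) (nat_lit 5903114843) (nat_lit 76) (nat_lit 1491899225) (nat_lit 212) (nat_lit 5) (nat_lit 219) (nat_lit 5) (nat_lit 213) (nat_lit 5) (nat_lit 595) (nat_lit 503) (nat_lit 462))))) (XT.nd (nat_lit 312) (nat_lit 1292) (nat_lit 0) (XT.nd (nat_lit 156) (nat_lit 912) (nat_lit 0) (XT.nd (nat_lit 78) (nat_lit 0) (nat_lit 0) (XT.lf (nat_lit 0) (nat_lit 1393844375) (nat_lit 456) (nat_lit 4320771563) (nat_lit 532) (nat_lit 3817460647) (nat_lit 206) (nat_lit 5) (nat_lit 212) (nat_lit 5) (nat_lit 213) (nat_lit 5) (nat_lit 596) (nat_lit 503) (nat_lit 461)) (XT.lf (nat_lit 0) (nat_lit 8848333331) (nat_lit 456) (nat_lit 600617638) (nat_lit 532) (nat_lit 174920430) (nat_lit 206) (nat_lit 5) (nat_lit 212)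 (nat_lit 5) (nat_lit 213) (nat_lit 5) (nat_lit 597) (nat_lit 503) (nat_lit 460))) (XT.nd (nat_lit 78) (nat_lit 456) (nat_lit 0) (XT.lf (nat_lit 0) (nat_lit 3513335244) (nat_lit 456) (nat_lit 3006088627) (nat_lit 76) (nat_lit 3197233399) (nat_lit 200) (nat_lit 5) (nat_lit 206) (nat_lit 5) (nat_lit 201) (nat_lit 5) (nat_lit 598) (nat_lit 503) (nat_lit 459)) (XT.lf (nat_lit 0) (nat_lit 4531980959) (nat_lit 456) (nat_lit 2734541377) (nat_lit 532) (nat_lit 2544884088) (nat_lit 194) (nat_lit 5) (nat_lit 200) (nat_lit 5) (nat_lit 201) (nat_lit 5) (nat_lit 599) (nat_lit 503) (nat_lit 458)))) (XT.nd (nat_lit 156) (nat_lit 836) (nat_lit 0) (XT.nd (nat_lit 78) (nat_lit 0) (nat_lit 0) (XT.lf (nat_lit 0) (nat_lit 1168911150) (nat_lit 456) (nat_lit 7607342437) (nat_lit 76) (nat_lit 1131688647) (nat_lit 188) (nat_lit 5) (nat_lit 194) (nat_lit 5) (nat_lit 189) (nat_lit 5) (nat_lit 600) (nat_lit 503) (nat_lit 457)) (XT.lf (nat_lit 0) (nat_lit 4932017080) (nat_lit 456)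 (nat_lit 5554163) (nat_lit 76) (nat_lit 5068319678) (nat_lit 188) (nat_lit 5) (nat_lit 194) (nat_lit 5) (nat_lit 189) (nat_lit 5) (nat_lit 601) (nat_lit 503) (nat_lit 456))) (XT.nd (nat_lit 78) (nat_lit 456) (nat_lit 0) (XT.lf (nat_lit 0) (nat_lit 7783244784) (nat_lit 380) (nat_lit 993857705) (nat_lit 456) (nat_lit 1328562538) (nat_lit 183) (nat_lit 5) (nat_lit 188) (nat_lit 5) (nat_lit 189) (nat_lit 5) (nat_lit 602) (nat_lit 503) (nat_lit 455)) (XT.lf (nat_lit 0) (nat_lit 2470961386) (nat_lit 456) (nat_lit 4717829741) (nat_lit 76) (nat_lit 3018081003) (nat_lit 177) (nat_lit 5) (nat_lit 183) (nat_lit 5) (nat_lit 178) (nat_lit 5) (nat_lit 603) (nat_lit 503) (nat_lit 454))))))))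
noncomputable def xc38 : XT := (XT.nd (nat_lit 2418) (nat_lit 2204) (nat_lit 0) (XT.nd (nat_lit 1170) (nat_lit 3496) (nat_lit 0) (XT.nd (nat_lit 546) (nat_lit 2128) (nat_lit 0) (XT.nd (nat_lit 234) (nat_lit 1140) (nat_lit 0) (XT.nd (nat_lit 78) (nat_lit 456) (nat_lit 0) (XT.lf (nat_lit 0) (nat_lit 3136562620) (nat_lit 380) (nat_lit 3191366139) (nat_lit 456) (nat_lit 3982014880) (nat_lit 172) (nat_lit 5) (nat_lit 177) (nat_lit 5) (nat_lit 178) (nat_lit 5) (nat_lit 604) (nat_lit 503) (nat_lit 453)) (XT.nd (nat_lit 78) (nat_lit 76) (nat_lit 0) (XT.lf (nat_lit 0) (nat_lit 733433566) (nat_lit 380) (nat_lit 9527835980) (nat_lit 456) (nat_lit 153823083) (nat_lit 167) (nat_lit 5) (nat_lit 172) (nat_lit 5) (nat_lit 173) (nat_lit 5) (nat_lit 605) (nat_lit 503) (nat_lit 452)) (XT.lf (nat_lit 0) (nat_lit 3728305183) (nat_lit 456) (nat_lit 1739468333) (nat_lit 76) (nat_lit 5053553381) (nat_lit 166) (nat_lit 5) (nat_lit 172) (nat_lit 5) (nat_lit 167) (nat_lit 5) (nat_lit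 606) (nat_lit 503) (nat_lit 451)))) (XT.nd (nat_lit 156) (nat_lit 380) (nat_lit 0) (XT.nd (nat_lit 78) (nat_lit 380) (nat_lit 0) (XT.lf (nat_lit 0) (nat_lit 6377621779) (nat_lit 380) (nat_lit 1307623792) (nat_lit 456) (nat_lit 2944436048) (nat_lit 161) (nat_lit 5) (nat_lit 166) (nat_lit 5) (nat_lit 167) (nat_lit 5) (nat_lit 607) (nat_lit 503) (nat_lit 450)) (XT.lf (nat_lit 0) (nat_lit 982577216) (nat_lit 380) (nat_lit 6840441730) (nat_lit 76) (nat_lit 2916771284) (nat_lit 156) (nat_lit 5) (nat_lit 161) (nat_lit 5) (nat_lit 157) (nat_lit 5) (nat_lit 608) (nat_lit 503) (nat_lit 449))) (XT.nd (nat_lit 78) (nat_lit 0) (nat_lit 0) (XT.lf (nat_lit 0) (nat_lit 1342220999) (nat_lit 380) (nat_lit 3610792292) (nat_lit 456) (nat_lit 5898612948) (nat_lit 151) (nat_lit 5) (nat_lit 156) (nat_lit 5) (nat_lit 157) (nat_lit 5) (nat_lit 609) (nat_lit 503) (nat_lit 448)) (XT.lf (nat_lit 0) (nat_lit 9011917532) (nat_lit 456) (nat_lit 1255428869) (nat_lit 76) (nat_lit 698172014)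 (nat_lit 151) (nat_lit 5) (nat_lit 157) (nat_lit 5) (nat_lit 152) (nat_lit 5) (nat_lit 610) (nat_lit 503) (nat_lit 447))))) (XT.nd (nat_lit 312) (nat_lit 988) (nat_lit 0) (XT.nd (nat_lit 156) (nat_lit 380) (nat_lit 0) (XT.nd (nat_lit 78) (nat_lit 380) (nat_lit 0) (XT.lf (nat_lit 0) (nat_lit 2073022253) (nat_lit 380) (nat_lit 3926847734) (nat_lit 76) (nat_lit 5080952960) (nat_lit 146) (nat_lit 5) (nat_lit 151) (nat_lit 5) (nat_lit 147) (nat_lit 5) (nat_lit 611) (nat_lit 503) (nat_lit 446)) (XT.lf (nat_lit 0) (nat_lit 4530804366) (nat_lit 380) (nat_lit 1620459699) (nat_lit 456) (nat_lit 5046966940) (nat_lit 141) (nat_lit 5) (nat_lit 146) (nat_lit 5) (nat_lit 147) (nat_lit 5) (nat_lit 612) (nat_lit 503) (nat_lit 445))) (XT.nd (nat_lit 78) (nat_lit 76) (nat_lit 0) (XT.lf (nat_lit 0) (nat_lit 1832604007) (nat_lit 304) (nat_lit 8494904235) (nat_lit 380) (nat_lit 990150822) (nat_lit 137) (nat_lit 5) (nat_lit 141) (nat_lit 5) (nat_lit 142) (nat_lit 5) (nat_lit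 613) (nat_lit 503) (nat_lit 444)) (XT.lf (nat_lit 0) (nat_lit 3121919770) (nat_lit 380) (nat_lit 943287662) (nat_lit 76) (nat_lit 7373552022) (nat_lit 136) (nat_lit 5) (nat_lit 141) (nat_lit 5) (nat_lit 137) (nat_lit 5) (nat_lit 614) (nat_lit 503) (nat_lit 443)))) (XT.nd (nat_lit 156) (nat_lit 380) (nat_lit 0) (XT.nd (nat_lit 78) (nat_lit 304) (nat_lit 0) (XT.lf (nat_lit 0) (nat_lit 7317209114) (nat_lit 380) (nat_lit 3764984383) (nat_lit 76) (nat_lit 479673303) (nat_lit 132) (nat_lit 5) (nat_lit 137) (nat_lit 5) (nat_lit 133) (nat_lit 5) (nat_lit 615) (nat_lit 503) (nat_lit 442)) (XT.lf (nat_lit 0) (nat_lit 5010938759) (nat_lit 304) (nat_lit 6611910205) (nat_lit 380) (nat_lit 64058981) (nat_lit 128) (nat_lit 5) (nat_lit 132) (nat_lit 5) (nat_lit 133) (nat_lit 5) (nat_lit 616) (nat_lit 503) (nat_lit 441))) (XT.nd (nat_lit 78) (nat_lit 0) (nat_lit 0) (XT.lf (nat_lit 0) (nat_lit 2134788196) (nat_lit 304) (nat_lit 2010280163) (nat_lit 380) (nat_lit 7668836625)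 (nat_lit 123) (nat_lit 5) (nat_lit 127) (nat_lit 5) (nat_lit 128) (nat_lit 5) (nat_lit 617) (nat_lit 503) (nat_lit 440)) (XT.lf (nat_lit 0) (nat_lit 8460930744) (nat_lit 380) (nat_lit 813859607) (nat_lit 76) (nat_lit 2668175452) (nat_lit 123) (nat_lit 5) (nat_lit 128) (nat_lit 5) (nat_lit 124) (nat_lit 5) (nat_lit 618) (nat_lit 503) (nat_lit 439)))))) (XT.nd (nat_lit 624) (nat_lit 1596) (nat_lit 0) (XT.nd (nat_lit 312) (nat_lit 912) (nat_lit 0) (XT.nd (nat_lit 156) (nat_lit 304) (nat_lit 0) (XT.nd (nat_lit 78) (nat_lit 304) (nat_lit 0) (XT.lf (nat_lit 0) (nat_lit 806947847) (nat_lit 380) (nat_lit 3819772677) (nat_lit 76) (nat_lit 7447209686) (nat_lit 118) (nat_lit 5) (nat_lit 123) (nat_lit 5) (nat_lit 119) (nat_lit 5) (nat_lit 619) (nat_lit 503) (nat_lit 438)) (XT.lf (nat_lit 0) (nat_lit 5137702212) (nat_lit 380) (nat_lit 6918806025) (nat_lit 76) (nat_lit 150493500) (nat_lit 114) (nat_lit 5) (nat_lit 119) (nat_lit 5) (nat_lit 115) (nat_lit 5) (nat_lit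 620) (nat_lit 503) (nat_lit 437))) (XT.nd (nat_lit 78) (nat_lit 76) (nat_lit 0) (XT.lf (nat_lit 0) (nat_lit 2221810673) (nat_lit 228) (nat_lit 7366041146) (nat_lit 304) (nat_lit 2754227746) (nat_lit 111) (nat_lit 5) (nat_lit 114) (nat_lit 5) (nat_lit 115) (nat_lit 5) (nat_lit 621) (nat_lit 503) (nat_lit 436)) (XT.lf (nat_lit 0) (nat_lit 1634271843) (nat_lit 304) (nat_lit 915386089) (nat_lit 76) (nat_lit 9929813008) (nat_lit 110) (nat_lit 5) (nat_lit 114) (nat_lit 5) (nat_lit 111) (nat_lit 5) (nat_lit 622) (nat_lit 503) (nat_lit 435)))) (XT.nd (nat_lit 156) (nat_lit 380) (nat_lit 0) (XT.nd (nat_lit 78) (nat_lit 228) (nat_lit 0) (XT.lf (nat_lit 0) (nat_lit 6107306581) (nat_lit 380) (nat_lit 4130881187) (nat_lit 76) (nat_lit 2380385826) (nat_lit 106) (nat_lit 5) (nat_lit 111) (nat_lit 5) (nat_lit 107) (nat_lit 5) (nat_lit 623) (nat_lit 503) (nat_lit 434)) (XT.lf (nat_lit 0) (nat_lit 5320386381) (nat_lit 228) (nat_lit 5369920574) (nat_lit 304) (nat_lit 2069741686)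 (nat_lit 103) (nat_lit 5) (nat_lit 106) (nat_lit 5) (nat_lit 107) (nat_lit 5) (nat_lit 624) (nat_lit 503) (nat_lit 433))) (XT.nd (nat_lit 78) (nat_lit 0) (nat_lit 0) (XT.lf (nat_lit 0) (nat_lit 2060290681) (nat_lit 304) (nat_lit 372300513) (nat_lit 380) (nat_lit 10471357928) (nat_lit 98) (nat_lit 5) (nat_lit 102) (nat_lit 5) (nat_lit 103) (nat_lit 5) (nat_lit 625) (nat_lit 503) (nat_lit 432)) (XT.lf (nat_lit 0) (nat_lit 7041330826) (nat_lit 380) (nat_lit 1306950037) (nat_lit 76) (nat_lit 4701292064) (nat_lit 98) (nat_lit 5) (nat_lit 103) (nat_lit 5) (nat_lit 99) (nat_lit 5) (nat_lit 626) (nat_lit 503) (nat_lit 431))))) (XT.nd (nat_lit 312) (nat_lit 836) (nat_lit 0) (XT.nd (nat_lit 156) (nat_lit 228) (nat_lit 0) (XT.nd (nat_lit 78) (nat_lit 304) (nat_lit 0) (XT.lf (nat_lit 0) (nat_lit 8466723446) (nat_lit 228) (nat_lit 3296795970) (nat_lit 304) (nat_lit 1434164713) (nat_lit 95) (nat_lit 5) (nat_lit 98) (nat_lit 5) (nat_lit 99) (nat_lit 5) (nat_lit 627)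 (nat_lit 503) (nat_lit 430)) (XT.lf (nat_lit 0) (nat_lit 3207078785) (nat_lit 304) (nat_lit 8272233157) (nat_lit 76) (nat_lit 1868665097) (nat_lit 91) (nat_lit 5) (nat_lit 95) (nat_lit 5) (nat_lit 92) (nat_lit 5) (nat_lit 628) (nat_lit 503) (nat_lit 429))) (XT.nd (nat_lit 78) (nat_lit 0) (nat_lit 0) (XT.lf (nat_lit 0) (nat_lit 1568550485) (nat_lit 228) (nat_lit 6381426836) (nat_lit 304) (nat_lit 5550548599) (nat_lit 88) (nat_lit 5) (nat_lit 91) (nat_lit 5) (nat_lit 92) (nat_lit 5) (nat_lit 629) (nat_lit 503) (nat_lit 428)) (XT.lf (nat_lit 0) (nat_lit 11656142302) (nat_lit 228) (nat_lit 1151445231) (nat_lit 304) (nat_lit 848141545) (nat_lit 88) (nat_lit 5) (nat_lit 91) (nat_lit 5) (nat_lit 92) (nat_lit 5) (nat_lit 630) (nat_lit 503) (nat_lit 427)))) (XT.nd (nat_lit 156) (nat_lit 304) (nat_lit 0) (XT.nd (nat_lit 78) (nat_lit 228) (nat_lit 0) (XT.lf (nat_lit 0) (nat_lit 3941774462) (nat_lit 304) (nat_lit 5689347754) (nat_lit 76) (nat_lit 4181496868) (nat_lit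 84) (nat_lit 5) (nat_lit 88) (nat_lit 5) (nat_lit 85) (nat_lit 5) (nat_lit 631) (nat_lit 503) (nat_lit 426)) (XT.lf (nat_lit 0) (nat_lit 4487319451) (nat_lit 228) (nat_lit 4344025210) (nat_lit 304) (nat_lit 5140886206) (nat_lit 81) (nat_lit 5) (nat_lit 84) (nat_lit 5) (nat_lit 85) (nat_lit 5) (nat_lit 632) (nat_lit 503) (nat_lit 425))) (XT.nd (nat_lit 78) (nat_lit 76) (nat_lit 0) (XT.lf (nat_lit 0) (nat_lit 751528750) (nat_lit 228) (nat_lit 13082352306) (nat_lit 304) (nat_lit 300850682) (nat_lit 78) (nat_lit 5) (nat_lit 81) (nat_lit 5) (nat_lit 82) (nat_lit 5) (nat_lit 633) (nat_lit 503) (nat_lit 424)) (XT.lf (nat_lit 0) (nat_lit 4633134638) (nat_lit 304) (nat_lit 3098924270) (nat_lit 76) (nat_lit 6566663032) (nat_lit 77) (nat_lit 5) (nat_lit 81) (nat_lit 5) (nat_lit 78) (nat_lit 5) (nat_lit 634) (nat_lit 503) (nat_lit 423))))))) (XT.nd (nat_lit 74880) (nat_lit 0) (nat_lit 25308) (XT.nd (nat_lit 546) (nat_lit 1064) (nat_lit 0) (XT.nd (nat_lit 234) (nat_lit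 608) (nat_lit 0) (XT.nd (nat_lit 78) (nat_lit 304) (nat_lit 0) (XT.lf (nat_lit 0) (nat_lit 7425957039) (nat_lit 228) (nat_lit 2249828542) (nat_lit 304) (nat_lit 4789886634) (nat_lit 74) (nat_lit 5) (nat_lit 77) (nat_lit 5) (nat_lit 78) (nat_lit 5) (nat_lit 635) (nat_lit 503) (nat_lit 422)) (XT.nd (nat_lit 78) (nat_lit 0) (nat_lit 0) (XT.lf (nat_lit 0) (nat_lit 212600695) (nat_lit 304) (nat_lit 11105046180) (nat_lit 76) (nat_lit 3317657586) (nat_lit 70) (nat_lit 5) (nat_lit 74) (nat_lit 5) (nat_lit 71) (nat_lit 5) (nat_lit 636) (nat_lit 503) (nat_lit 421)) (XT.lf (nat_lit 0) (nat_lit 5279474107) (nat_lit 304) (nat_lit 507910013) (nat_lit 76) (nat_lit 9019742857) (nat_lit 70) (nat_lit 5) (nat_lit 74) (nat_lit 5) (nat_lit 71) (nat_lit 5) (nat_lit 637) (nat_lit 503) (nat_lit 420)))) (XT.nd (nat_lit 156) (nat_lit 152) (nat_lit 0) (XT.nd (nat_lit 78) (nat_lit 304) (nat_lit 0) (XT.lf (nat_lit 0) (nat_lit 10377816603) (nat_lit 152) (nat_lit 103875889) (nat_lit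 228) (nat_lit 4500013603) (nat_lit 68) (nat_lit 5) (nat_lit 70) (nat_lit 5) (nat_lit 71) (nat_lit 5) (nat_lit 638) (nat_lit 503) (nat_lit 419)) (XT.lf (nat_lit 0) (nat_lit 668383140) (nat_lit 304) (nat_lit 8848508418) (nat_lit 76) (nat_lit 5641835086) (nat_lit 64) (nat_lit 5) (nat_lit 68) (nat_lit 5) (nat_lit 65) (nat_lit 5) (nat_lit 639) (nat_lit 503) (nat_lit 418))) (XT.nd (nat_lit 78) (nat_lit 0) (nat_lit 0) (XT.lf (nat_lit 0) (nat_lit 2103629193) (nat_lit 152) (nat_lit 3788544398) (nat_lit 228) (nat_lit 9446273777) (nat_lit 62) (nat_lit 5) (nat_lit 64) (nat_lit 5) (nat_lit 65) (nat_lit 5) (nat_lit 640) (nat_lit 503) (nat_lit 417)) (XT.lf (nat_lit 0) (nat_lit 11260425353) (nat_lit 228) (nat_lit 2199261390) (nat_lit 76) (nat_lit 2061276331) (nat_lit 62) (nat_lit 5) (nat_lit 65) (nat_lit 5) (nat_lit 63) (nat_lit 5) (nat_lit 641) (nat_lit 503) (nat_lit 416))))) (XT.nd (nat_lit 312) (nat_lit 304) (nat_lit 0) (XT.nd (nat_lit 156) (nat_lit 304) (nat_lit 0)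 (XT.nd (nat_lit 78) (nat_lit 152) (nat_lit 0) (XT.lf (nat_lit 0) (nat_lit 1067410832) (nat_lit 304) (nat_lit 6620488027) (nat_lit 76) (nat_lit 8018057051) (nat_lit 58) (nat_lit 5) (nat_lit 62) (nat_lit 5) (nat_lit 59) (nat_lit 5) (nat_lit 642) (nat_lit 503) (nat_lit 415)) (XT.lf (nat_lit 0) (nat_lit 4706175326) (nat_lit 152) (nat_lit 1751730176) (nat_lit 228) (nat_lit 9435919405) (nat_lit 56) (nat_lit 5) (nat_lit 58) (nat_lit 5) (nat_lit 59) (nat_lit 5) (nat_lit 643) (nat_lit 503) (nat_lit 414))) (XT.nd (nat_lit 78) (nat_lit 76) (nat_lit 0) (XT.lf (nat_lit 0) (nat_lit 180006339) (nat_lit 228) (nat_lit 11817692492) (nat_lit 304) (nat_lit 4086922934) (nat_lit 53) (nat_lit 5) (nat_lit 56) (nat_lit 5) (nat_lit 57) (nat_lit 5) (nat_lit 644) (nat_lit 503) (nat_lit 413)) (XT.lf (nat_lit 0) (nat_lit 1405973988) (nat_lit 304) (nat_lit 4430769386) (nat_lit 76) (nat_lit 10441216138) (nat_lit 52) (nat_lit 5) (nat_lit 56) (nat_lit 5) (nat_lit 53) (nat_lit 5) (nat_lit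 645) (nat_lit 503) (nat_lit 412)))) (XT.nd (nat_lit 73866) (nat_lit 0) (nat_lit 39824) (XT.nd (nat_lit 78) (nat_lit 152) (nat_lit 0) (XT.lf (nat_lit 0) (nat_lit 6971718361) (nat_lit 228) (nat_lit 9192901131) (nat_lit 76) (nat_lit 309650204) (nat_lit 50) (nat_lit 5) (nat_lit 53) (nat_lit 5) (nat_lit 51) (nat_lit 5) (nat_lit 646) (nat_lit 503) (nat_lit 411)) (XT.lf (nat_lit 0) (nat_lit 2550854610) (nat_lit 152) (nat_lit 10151486839) (nat_lit 228) (nat_lit 3971093597) (nat_lit 48) (nat_lit 5) (nat_lit 50) (nat_lit 5) (nat_lit 51) (nat_lit 5) (nat_lit 647) (nat_lit 503) (nat_lit 410))) (XT.nd (nat_lit 78) (nat_lit 1596) (nat_lit 0) (XT.lf (nat_lit 0) (nat_lit 2076255102) (nat_lit 1444) (nat_lit 694135624) (nat_lit 1444) (nat_lit 694135624) (nat_lit 593) (nat_lit 4) (nat_lit 612) (nat_lit 5) (nat_lit 612) (nat_lit 4) (nat_lit 552) (nat_lit 504) (nat_lit 504)) (XT.lf (nat_lit 0) (nat_lit 2051879372) (nat_lit 1596) (nat_lit 4737991416) (nat_lit 0) (nat_lit 170347215)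 (nat_lit 572) (nat_lit 5) (nat_lit 593) (nat_lit 4) (nat_lit 572) (nat_lit 4) (nat_lit 553) (nat_lit 504) (nat_lit 503)))))) (XT.nd (nat_lit 624) (nat_lit 5320) (nat_lit 0) (XT.nd (nat_lit 312) (nat_lit 4028) (nat_lit 0) (XT.nd (nat_lit 156) (nat_lit 3496) (nat_lit 0) (XT.nd (nat_lit 78) (nat_lit 76) (nat_lit 0) (XT.lf (nat_lit 0) (nat_lit 284691033) (nat_lit 1596) (nat_lit 5217058232) (nat_lit 1596) (nat_lit 1490886703) (nat_lit 551) (nat_lit 4) (nat_lit 572) (nat_lit 5) (nat_lit 572) (nat_lit 4) (nat_lit 554) (nat_lit 504) (nat_lit 502)) (XT.lf (nat_lit 0) (nat_lit 1930926651) (nat_lit 1672) (nat_lit 1634169663) (nat_lit 76) (nat_lit 3461106286) (nat_lit 550) (nat_lit 5) (nat_lit 572) (nat_lit 5) (nat_lit 551) (nat_lit 4) (nat_lit 555) (nat_lit 504) (nat_lit 501))) (XT.nd (nat_lit 78) (nat_lit 1824) (nat_lit 0) (XT.lf (nat_lit 0) (nat_lit 3510590656) (nat_lit 1672) (nat_lit 1844974655) (nat_lit 1748) (nat_lit 1705593934) (nat_lit 528) (nat_lit 5) (nat_lit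 550) (nat_lit 5) (nat_lit 551) (nat_lit 4) (nat_lit 556) (nat_lit 504) (nat_lit 500)) (XT.lf (nat_lit 0) (nat_lit 1626560841) (nat_lit 1748) (nat_lit 55946718) (nat_lit 1824) (nat_lit 5415010643) (nat_lit 504) (nat_lit 5) (nat_lit 527) (nat_lit 5) (nat_lit 528) (nat_lit 5) (nat_lit 557) (nat_lit 504) (nat_lit 499)))) (XT.nd (nat_lit 156) (nat_lit 2128) (nat_lit 0) (XT.nd (nat_lit 78) (nat_lit 1900) (nat_lit 0) (XT.lf (nat_lit 0) (nat_lit 5083928726) (nat_lit 1824) (nat_lit 269736322) (nat_lit 76) (nat_lit 1781348555) (nat_lit 504) (nat_lit 5) (nat_lit 528) (nat_lit 5) (nat_lit 505) (nat_lit 4) (nat_lit 558) (nat_lit 504) (nat_lit 498)) (XT.lf (nat_lit 0) (nat_lit 1329078412) (nat_lit 1900) (nat_lit 2148191845) (nat_lit 76) (nat_lit 3696470804) (nat_lit 479) (nat_lit 5) (nat_lit 504) (nat_lit 5) (nat_lit 480) (nat_lit 5) (nat_lit 559) (nat_lit 504) (nat_lit 497))) (XT.nd (nat_lit 78) (nat_lit 988) (nat_lit 0) (XT.lf (nat_lit 0) (nat_lit 3178145834) (nat_lit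 1140) (nat_lit 1528365778) (nat_lit 1216) (nat_lit 2507320191) (nat_lit 464) (nat_lit 5) (nat_lit 479) (nat_lit 5) (nat_lit 480) (nat_lit 5) (nat_lit 560) (nat_lit 504) (nat_lit 496)) (XT.lf (nat_lit 0) (nat_lit 846377254) (nat_lit 988) (nat_lit 5928944441) (nat_lit 76) (nat_lit 480061232) (nat_lit 451) (nat_lit 5) (nat_lit 464) (nat_lit 5) (nat_lit 452) (nat_lit 5) (nat_lit 561) (nat_lit 504) (nat_lit 495))))) (XT.nd (nat_lit 312) (nat_lit 2584) (nat_lit 0) (XT.nd (nat_lit 156) (nat_lit 1748) (nat_lit 0) (XT.nd (nat_lit 78) (nat_lit 988) (nat_lit 0) (XT.lf (nat_lit 0) (nat_lit 4206874595) (nat_lit 988) (nat_lit 541993640) (nat_lit 76) (nat_lit 2549101750) (nat_lit 451) (nat_lit 5) (nat_lit 464) (nat_lit 5) (nat_lit 452) (nat_lit 5) (nat_lit 562) (nat_lit 504) (nat_lit 494)) (XT.lf (nat_lit 0) (nat_lit 258407084) (nat_lit 988) (nat_lit 2393135383) (nat_lit 76) (nat_lit 4690448932) (nat_lit 438) (nat_lit 5) (nat_lit 451) (nat_lit 5) (nat_lit 439) (nat_lit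 5) (nat_lit 563) (nat_lit 504) (nat_lit 493))) (XT.nd (nat_lit 78) (nat_lit 912) (nat_lit 0) (XT.lf (nat_lit 0) (nat_lit 3123088579) (nat_lit 836) (nat_lit 471927374) (nat_lit 912) (nat_lit 3792240746) (nat_lit 427) (nat_lit 5) (nat_lit 438) (nat_lit 5) (nat_lit 439) (nat_lit 5) (nat_lit 564) (nat_lit 504) (nat_lit 492)) (XT.lf (nat_lit 0) (nat_lit 1286178929) (nat_lit 912) (nat_lit 5686349541) (nat_lit 988) (nat_lit 461417583) (nat_lit 415) (nat_lit 5) (nat_lit 427) (nat_lit 5) (nat_lit 428) (nat_lit 5) (nat_lit 565) (nat_lit 504) (nat_lit 491)))) (XT.nd (nat_lit 156) (nat_lit 1672) (nat_lit 0) (XT.nd (nat_lit 78) (nat_lit 836) (nat_lit 0) (XT.lf (nat_lit 0) (nat_lit 2868094577) (nat_lit 988) (nat_lit 566591540) (nat_lit 76) (nat_lit 4047092339) (nat_lit 414) (nat_lit 5) (nat_lit 427) (nat_lit 5) (nat_lit 415) (nat_lit 5) (nat_lit 566) (nat_lit 504) (nat_lit 490)) (XT.lf (nat_lit 0) (nat_lit 5123134769) (nat_lit 836) (nat_lit 1108004680) (nat_lit 912)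 (nat_lit 1299906694) (nat_lit 403) (nat_lit 5) (nat_lit 414) (nat_lit 5) (nat_lit 415) (nat_lit 5) (nat_lit 567) (nat_lit 504) (nat_lit 489))) (XT.nd (nat_lit 78) (nat_lit 760) (nat_lit 0) (XT.lf (nat_lit 0) (nat_lit 2026842601) (nat_lit 912) (nat_lit 4274638481) (nat_lit 76) (nat_lit 1280070399) (nat_lit 391) (nat_lit 5) (nat_lit 403) (nat_lit 5) (nat_lit 392) (nat_lit 5) (nat_lit 568) (nat_lit 504) (nat_lit 488)) (XT.lf (nat_lit 0) (nat_lit 1470919200) (nat_lit 760) (nat_lit 3905858723) (nat_lit 836) (nat_lit 2256637954) (nat_lit 381) (nat_lit 5) (nat_lit 391) (nat_lit 5) (nat_lit 392) (nat_lit 5) (nat_lit 569) (nat_lit 504) (nat_lit 487))))))))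
noncomputable def xc39 : XT := (XT.nd (nat_lit 2418) (nat_lit 8284) (nat_lit 0) (XT.nd (nat_lit 1170) (nat_lit 6384) (nat_lit 0) (XT.nd (nat_lit 546) (nat_lit 4028) (nat_lit 0) (XT.nd (nat_lit 234) (nat_lit 2280) (nat_lit 0) (XT.nd (nat_lit 78) (nat_lit 1520) (nat_lit 0) (XT.lf (nat_lit 0) (nat_lit 1062963239) (nat_lit 836) (nat_lit 372374628) (nat_lit 76) (nat_lit 6251435903) (nat_lit 380) (nat_lit 5) (nat_lit 391) (nat_lit 5) (nat_lit 381) (nat_lit 5) (nat_lit 570) (nat_lit 504) (nat_lit 486)) (XT.nd (nat_lit 78) (nat_lit 760) (nat_lit 0) (XT.lf (nat_lit 0) (nat_lit 4404318661) (nat_lit 836) (nat_lit 2224840012) (nat_lit 76) (nat_lit 1112032072) (nat_lit 370) (nat_lit 5) (nat_lit 381) (nat_lit 5) (nat_lit 371) (nat_lit 5) (nat_lit 571) (nat_lit 504) (nat_lit 485)) (XT.lf (nat_lit 0) (nat_lit 3702415848) (nat_lit 760) (nat_lit 4089147178) (nat_lit 836) (nat_lit 5553582) (nat_lit 360) (nat_lit 5) (nat_lit 370) (nat_lit 5) (nat_lit 371) (nat_lit 5) (nat_lit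 572) (nat_lit 504) (nat_lit 484)))) (XT.nd (nat_lit 156) (nat_lit 1444) (nat_lit 0) (XT.nd (nat_lit 78) (nat_lit 0) (nat_lit 0) (XT.lf (nat_lit 0) (nat_lit 1858583186) (nat_lit 760) (nat_lit 1459719659) (nat_lit 836) (nat_lit 4536011280) (nat_lit 349) (nat_lit 5) (nat_lit 359) (nat_lit 5) (nat_lit 360) (nat_lit 5) (nat_lit 573) (nat_lit 504) (nat_lit 483)) (XT.lf (nat_lit 0) (nat_lit 6688060958) (nat_lit 836) (nat_lit 2601357) (nat_lit 76) (nat_lit 1222404249) (nat_lit 349) (nat_lit 5) (nat_lit 360) (nat_lit 5) (nat_lit 350) (nat_lit 5) (nat_lit 574) (nat_lit 504) (nat_lit 482))) (XT.nd (nat_lit 78) (nat_lit 684) (nat_lit 0) (XT.lf (nat_lit 0) (nat_lit 2118317462) (nat_lit 760) (nat_lit 1873571213) (nat_lit 76) (nat_lit 3980941043) (nat_lit 339) (nat_lit 5) (nat_lit 349) (nat_lit 5) (nat_lit 340) (nat_lit 5) (nat_lit 575) (nat_lit 504) (nat_lit 481)) (XT.lf (nat_lit 0) (nat_lit 4269571834) (nat_lit 684) (nat_lit 1215571285) (nat_lit 760) (nat_lit 2549023876)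 (nat_lit 330) (nat_lit 5) (nat_lit 339) (nat_lit 5) (nat_lit 340) (nat_lit 5) (nat_lit 576) (nat_lit 504) (nat_lit 480))))) (XT.nd (nat_lit 312) (nat_lit 1900) (nat_lit 0) (XT.nd (nat_lit 156) (nat_lit 684) (nat_lit 0) (XT.nd (nat_lit 78) (nat_lit 684) (nat_lit 0) (XT.lf (nat_lit 0) (nat_lit 796363565) (nat_lit 760) (nat_lit 5684923074) (nat_lit 76) (nat_lit 1615647540) (nat_lit 320) (nat_lit 5) (nat_lit 330) (nat_lit 5) (nat_lit 321) (nat_lit 5) (nat_lit 577) (nat_lit 504) (nat_lit 479)) (XT.lf (nat_lit 0) (nat_lit 515859987) (nat_lit 684) (nat_lit 3641629641) (nat_lit 760) (nat_lit 4003472347) (nat_lit 311) (nat_lit 5) (nat_lit 320) (nat_lit 5) (nat_lit 321) (nat_lit 5) (nat_lit 578) (nat_lit 504) (nat_lit 478))) (XT.nd (nat_lit 78) (nat_lit 684) (nat_lit 0) (XT.lf (nat_lit 0) (nat_lit 6849634896) (nat_lit 684) (nat_lit 721068166) (nat_lit 760) (nat_lit 655871433) (nat_lit 311) (nat_lit 5) (nat_lit 320) (nat_lit 5) (nat_lit 321) (nat_lit 5) (nat_lit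 579) (nat_lit 504) (nat_lit 477)) (XT.lf (nat_lit 0) (nat_lit 2717253378) (nat_lit 684) (nat_lit 3311683593) (nat_lit 76) (nat_lit 2264310429) (nat_lit 302) (nat_lit 5) (nat_lit 311) (nat_lit 5) (nat_lit 303) (nat_lit 5) (nat_lit 580) (nat_lit 504) (nat_lit 476)))) (XT.nd (nat_lit 156) (nat_lit 608) (nat_lit 0) (XT.nd (nat_lit 78) (nat_lit 684) (nat_lit 0) (XT.lf (nat_lit 0) (nat_lit 3088205811) (nat_lit 608) (nat_lit 3042900120) (nat_lit 684) (nat_lit 2230421561) (nat_lit 294) (nat_lit 5) (nat_lit 302) (nat_lit 5) (nat_lit 303) (nat_lit 5) (nat_lit 581) (nat_lit 504) (nat_lit 475)) (XT.lf (nat_lit 0) (nat_lit 1144837714) (nat_lit 684) (nat_lit 7262040992) (nat_lit 76) (nat_lit 24576746) (nat_lit 285) (nat_lit 5) (nat_lit 294) (nat_lit 5) (nat_lit 286) (nat_lit 5) (nat_lit 582) (nat_lit 504) (nat_lit 474))) (XT.nd (nat_lit 78) (nat_lit 608) (nat_lit 0) (XT.lf (nat_lit 0) (nat_lit 4562159973) (nat_lit 684) (nat_lit 793408750) (nat_lit 76) (nat_lit 3146831225)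 (nat_lit 285) (nat_lit 5) (nat_lit 294) (nat_lit 5) (nat_lit 286) (nat_lit 5) (nat_lit 583) (nat_lit 504) (nat_lit 473)) (XT.lf (nat_lit 0) (nat_lit 5813523807) (nat_lit 608) (nat_lit 2221679980) (nat_lit 684) (nat_lit 539813322) (nat_lit 277) (nat_lit 5) (nat_lit 285) (nat_lit 5) (nat_lit 286) (nat_lit 5) (nat_lit 584) (nat_lit 504) (nat_lit 472)))))) (XT.nd (nat_lit 624) (nat_lit 2888) (nat_lit 0) (XT.nd (nat_lit 312) (nat_lit 1672) (nat_lit 0) (XT.nd (nat_lit 156) (nat_lit 608) (nat_lit 0) (XT.nd (nat_lit 78) (nat_lit 608) (nat_lit 0) (XT.lf (nat_lit 0) (nat_lit 2877151685) (nat_lit 608) (nat_lit 4776997963) (nat_lit 76) (nat_lit 994819114) (nat_lit 269) (nat_lit 5) (nat_lit 277) (nat_lit 5) (nat_lit 270) (nat_lit 5) (nat_lit 585) (nat_lit 504) (nat_lit 471)) (XT.lf (nat_lit 0) (nat_lit 1889906060) (nat_lit 608) (nat_lit 4461252222) (nat_lit 684) (nat_lit 2373252399) (nat_lit 261) (nat_lit 5) (nat_lit 269) (nat_lit 5) (nat_lit 270) (nat_lit 5) (nat_lit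 586) (nat_lit 504) (nat_lit 470))) (XT.nd (nat_lit 78) (nat_lit 532) (nat_lit 0) (XT.lf (nat_lit 0) (nat_lit 1061709112) (nat_lit 684) (nat_lit 121318882) (nat_lit 76) (nat_lit 7618537350) (nat_lit 260) (nat_lit 5) (nat_lit 269) (nat_lit 5) (nat_lit 261) (nat_lit 5) (nat_lit 587) (nat_lit 504) (nat_lit 469)) (XT.lf (nat_lit 0) (nat_lit 4543099401) (nat_lit 608) (nat_lit 2162499543) (nat_lit 76) (nat_lit 2174161397) (nat_lit 253) (nat_lit 5) (nat_lit 261) (nat_lit 5) (nat_lit 254) (nat_lit 5) (nat_lit 588) (nat_lit 504) (nat_lit 468)))) (XT.nd (nat_lit 156) (nat_lit 608) (nat_lit 0) (XT.nd (nat_lit 78) (nat_lit 532) (nat_lit 0) (XT.lf (nat_lit 0) (nat_lit 4721583401) (nat_lit 532) (nat_lit 3363711214) (nat_lit 608) (nat_lit 874402191) (nat_lit 246) (nat_lit 5) (nat_lit 253) (nat_lit 5) (nat_lit 254) (nat_lit 5) (nat_lit 589) (nat_lit 504) (nat_lit 467)) (XT.lf (nat_lit 0) (nat_lit 2606827705) (nat_lit 532) (nat_lit 6359600692) (nat_lit 76) (nat_lit 74768152)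 (nat_lit 239) (nat_lit 5) (nat_lit 246) (nat_lit 5) (nat_lit 240) (nat_lit 5) (nat_lit 590) (nat_lit 504) (nat_lit 466))) (XT.nd (nat_lit 78) (nat_lit 76) (nat_lit 0) (XT.lf (nat_lit 0) (nat_lit 584978117) (nat_lit 532) (nat_lit 5568148126) (nat_lit 608) (nat_lit 2970942449) (nat_lit 232) (nat_lit 5) (nat_lit 239) (nat_lit 5) (nat_lit 240) (nat_lit 5) (nat_lit 591) (nat_lit 504) (nat_lit 465)) (XT.lf (nat_lit 0) (nat_lit 549964980) (nat_lit 608) (nat_lit 1525033700) (nat_lit 76) (nat_lit 7133616058) (nat_lit 231) (nat_lit 5) (nat_lit 239) (nat_lit 5) (nat_lit 232) (nat_lit 5) (nat_lit 592) (nat_lit 504) (nat_lit 464))))) (XT.nd (nat_lit 312) (nat_lit 1444) (nat_lit 0) (XT.nd (nat_lit 156) (nat_lit 532) (nat_lit 0) (XT.nd (nat_lit 78) (nat_lit 456) (nat_lit 0) (XT.lf (nat_lit 0) (nat_lit 4101465318) (nat_lit 532) (nat_lit 3687948423) (nat_lit 76) (nat_lit 1505047078) (nat_lit 225) (nat_lit 5) (nat_lit 232) (nat_lit 5) (nat_lit 226) (nat_lit 5) (nat_lit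 593) (nat_lit 504) (nat_lit 463)) (XT.lf (nat_lit 0) (nat_lit 3484401503) (nat_lit 456) (nat_lit 4240159647) (nat_lit 532) (nat_lit 1657452329) (nat_lit 219) (nat_lit 5) (nat_lit 225) (nat_lit 5) (nat_lit 226) (nat_lit 5) (nat_lit 594) (nat_lit 504) (nat_lit 462))) (XT.nd (nat_lit 78) (nat_lit 0) (nat_lit 0) (XT.lf (nat_lit 0) (nat_lit 1316617754) (nat_lit 456) (nat_lit 594153049) (nat_lit 532) (nat_lit 7560543702) (nat_lit 212) (nat_lit 5) (nat_lit 218) (nat_lit 5) (nat_lit 219) (nat_lit 5) (nat_lit 595) (nat_lit 504) (nat_lit 461)) (XT.lf (nat_lit 0) (nat_lit 5542708739) (nat_lit 532) (nat_lit 905591248) (nat_lit 76) (nat_lit 3113592487) (nat_lit 212) (nat_lit 5) (nat_lit 219) (nat_lit 5) (nat_lit 213) (nat_lit 5) (nat_lit 596) (nat_lit 504) (nat_lit 460)))) (XT.nd (nat_lit 156) (nat_lit 532) (nat_lit 0) (XT.nd (nat_lit 78) (nat_lit 456) (nat_lit 0) (XT.lf (nat_lit 0) (nat_lit 6503651984) (nat_lit 456) (nat_lit 2745085048) (nat_lit 532) (nat_lit 405516832)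 (nat_lit 206) (nat_lit 5) (nat_lit 212) (nat_lit 5) (nat_lit 213) (nat_lit 5) (nat_lit 597) (nat_lit 504) (nat_lit 459)) (XT.lf (nat_lit 0) (nat_lit 3233767059) (nat_lit 456) (nat_lit 5461550973) (nat_lit 76) (nat_lit 1052791995) (nat_lit 200) (nat_lit 5) (nat_lit 206) (nat_lit 5) (nat_lit 201) (nat_lit 5) (nat_lit 598) (nat_lit 504) (nat_lit 458))) (XT.nd (nat_lit 78) (nat_lit 76) (nat_lit 0) (XT.lf (nat_lit 0) (nat_lit 2010444105) (nat_lit 456) (nat_lit 4938232781) (nat_lit 532) (nat_lit 2894948257) (nat_lit 194) (nat_lit 5) (nat_lit 200) (nat_lit 5) (nat_lit 201) (nat_lit 5) (nat_lit 599) (nat_lit 504) (nat_lit 457)) (XT.lf (nat_lit 0) (nat_lit 779173324) (nat_lit 532) (nat_lit 306638597) (nat_lit 76) (nat_lit 8855280186) (nat_lit 193) (nat_lit 5) (nat_lit 200) (nat_lit 5) (nat_lit 194) (nat_lit 5) (nat_lit 600) (nat_lit 504) (nat_lit 456))))))) (XT.nd (nat_lit 1170) (nat_lit 3648) (nat_lit 0) (XT.nd (nat_lit 546) (nat_lit 2204) (nat_lit 0) (XT.nd (nat_lit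 234) (nat_lit 1216) (nat_lit 0) (XT.nd (nat_lit 78) (nat_lit 836) (nat_lit 0) (XT.lf (nat_lit 0) (nat_lit 4511507324) (nat_lit 456) (nat_lit 2676214349) (nat_lit 76) (nat_lit 2851934951) (nat_lit 188) (nat_lit 5) (nat_lit 194) (nat_lit 5) (nat_lit 189) (nat_lit 5) (nat_lit 601) (nat_lit 504) (nat_lit 455)) (XT.nd (nat_lit 78) (nat_lit 456) (nat_lit 0) (XT.lf (nat_lit 0) (nat_lit 5044091803) (nat_lit 380) (nat_lit 3273450453) (nat_lit 456) (nat_lit 1822669869) (nat_lit 183) (nat_lit 5) (nat_lit 188) (nat_lit 5) (nat_lit 189) (nat_lit 5) (nat_lit 602) (nat_lit 504) (nat_lit 454)) (XT.lf (nat_lit 0) (nat_lit 1928675471) (nat_lit 456) (nat_lit 7578596165) (nat_lit 76) (nat_lit 735305301) (nat_lit 177) (nat_lit 5) (nat_lit 183) (nat_lit 5) (nat_lit 178) (nat_lit 5) (nat_lit 603) (nat_lit 504) (nat_lit 453)))) (XT.nd (nat_lit 156) (nat_lit 836) (nat_lit 0) (XT.nd (nat_lit 78) (nat_lit 0) (nat_lit 0) (XT.lf (nat_lit 0) (nat_lit 204575181) (nat_lit 380) (nat_lit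 5540963228) (nat_lit 456) (nat_lit 4600912489) (nat_lit 172) (nat_lit 5) (nat_lit 177) (nat_lit 5) (nat_lit 178) (nat_lit 5) (nat_lit 604) (nat_lit 504) (nat_lit 452)) (XT.lf (nat_lit 0) (nat_lit 8180384991) (nat_lit 380) (nat_lit 1467060104) (nat_lit 456) (nat_lit 804783831) (nat_lit 172) (nat_lit 5) (nat_lit 177) (nat_lit 5) (nat_lit 178) (nat_lit 5) (nat_lit 605) (nat_lit 504) (nat_lit 451))) (XT.nd (nat_lit 78) (nat_lit 380) (nat_lit 0) (XT.lf (nat_lit 0) (nat_lit 3040430051) (nat_lit 456) (nat_lit 4831477235) (nat_lit 76) (nat_lit 2687549815) (nat_lit 166) (nat_lit 5) (nat_lit 172) (nat_lit 5) (nat_lit 167) (nat_lit 5) (nat_lit 606) (nat_lit 504) (nat_lit 450)) (XT.lf (nat_lit 0) (nat_lit 3211783371) (nat_lit 380) (nat_lit 3744560386) (nat_lit 456) (nat_lit 3712288937) (nat_lit 161) (nat_lit 5) (nat_lit 166) (nat_lit 5) (nat_lit 167) (nat_lit 5) (nat_lit 607) (nat_lit 504) (nat_lit 449))))) (XT.nd (nat_lit 312) (nat_lit 1064) (nat_lit 0) (XT.nd (nat_lit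 156) (nat_lit 760) (nat_lit 0) (XT.nd (nat_lit 78) (nat_lit 0) (nat_lit 0) (XT.lf (nat_lit 0) (nat_lit 167043339) (nat_lit 380) (nat_lit 10139378680) (nat_lit 76) (nat_lit 473574347) (nat_lit 156) (nat_lit 5) (nat_lit 161) (nat_lit 5) (nat_lit 157) (nat_lit 5) (nat_lit 608) (nat_lit 504) (nat_lit 448)) (XT.lf (nat_lit 0) (nat_lit 4108465279) (nat_lit 380) (nat_lit 2006801767) (nat_lit 76) (nat_lit 4777145926) (nat_lit 156) (nat_lit 5) (nat_lit 161) (nat_lit 5) (nat_lit 157) (nat_lit 5) (nat_lit 609) (nat_lit 504) (nat_lit 447))) (XT.nd (nat_lit 78) (nat_lit 380) (nat_lit 0) (XT.lf (nat_lit 0) (nat_lit 6306813895) (nat_lit 380) (nat_lit 1822648720) (nat_lit 456) (nat_lit 2877600983) (nat_lit 151) (nat_lit 5) (nat_lit 156) (nat_lit 5) (nat_lit 157) (nat_lit 5) (nat_lit 610) (nat_lit 504) (nat_lit 446)) (XT.lf (nat_lit 0) (nat_lit 1106356279) (nat_lit 380) (nat_lit 7474109445) (nat_lit 76) (nat_lit 2543118372) (nat_lit 146) (nat_lit 5) (nat_lit 151) (nat_lit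 5) (nat_lit 147) (nat_lit 5) (nat_lit 611) (nat_lit 504) (nat_lit 445)))) (XT.nd (nat_lit 156) (nat_lit 684) (nat_lit 0) (XT.nd (nat_lit 78) (nat_lit 0) (nat_lit 0) (XT.lf (nat_lit 0) (nat_lit 903970459) (nat_lit 380) (nat_lit 4237337589) (nat_lit 456) (nat_lit 6100550198) (nat_lit 141) (nat_lit 5) (nat_lit 146) (nat_lit 5) (nat_lit 147) (nat_lit 5) (nat_lit 612) (nat_lit 504) (nat_lit 444)) (XT.lf (nat_lit 0) (nat_lit 9269022247) (nat_lit 456) (nat_lit 1877008707) (nat_lit 76) (nat_lit 216226237) (nat_lit 141) (nat_lit 5) (nat_lit 147) (nat_lit 5) (nat_lit 142) (nat_lit 5) (nat_lit 613) (nat_lit 504) (nat_lit 443))) (XT.nd (nat_lit 78) (nat_lit 304) (nat_lit 0) (XT.lf (nat_lit 0) (nat_lit 2001280139) (nat_lit 380) (nat_lit 4747602759) (nat_lit 76) (nat_lit 4735258651) (nat_lit 136) (nat_lit 5) (nat_lit 141) (nat_lit 5) (nat_lit 137) (nat_lit 5) (nat_lit 614) (nat_lit 504) (nat_lit 442)) (XT.lf (nat_lit 0) (nat_lit 3913283837) (nat_lit 304) (nat_lit 2235686130)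 (nat_lit 380) (nat_lit 5459231189) (nat_lit 132) (nat_lit 5) (nat_lit 136) (nat_lit 5) (nat_lit 137) (nat_lit 5) (nat_lit 615) (nat_lit 504) (nat_lit 441)))))) (XT.nd (nat_lit 624) (nat_lit 1672) (nat_lit 0) (XT.nd (nat_lit 312) (nat_lit 988) (nat_lit 0) (XT.nd (nat_lit 156) (nat_lit 608) (nat_lit 0) (XT.nd (nat_lit 78) (nat_lit 76) (nat_lit 0) (XT.lf (nat_lit 0) (nat_lit 1011447504) (nat_lit 304) (nat_lit 9383564962) (nat_lit 380) (nat_lit 1339422045) (nat_lit 128) (nat_lit 5) (nat_lit 132) (nat_lit 5) (nat_lit 133) (nat_lit 5) (nat_lit 616) (nat_lit 504) (nat_lit 440)) (XT.lf (nat_lit 0) (nat_lit 2853502144) (nat_lit 380) (nat_lit 1963612731) (nat_lit 76) (nat_lit 7045141135) (nat_lit 127) (nat_lit 5) (nat_lit 132) (nat_lit 5) (nat_lit 128) (nat_lit 5) (nat_lit 617) (nat_lit 504) (nat_lit 439))) (XT.nd (nat_lit 78) (nat_lit 304) (nat_lit 0) (XT.lf (nat_lit 0) (nat_lit 6991057597) (nat_lit 304) (nat_lit 128935000) (nat_lit 380) (nat_lit 4872311919) (nat_lit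 123) (nat_lit 5) (nat_lit 127) (nat_lit 5) (nat_lit 128) (nat_lit 5) (nat_lit 618) (nat_lit 504) (nat_lit 438)) (XT.lf (nat_lit 0) (nat_lit 3985840391) (nat_lit 304) (nat_lit 7517735581) (nat_lit 380) (nat_lit 620743251) (nat_lit 119) (nat_lit 5) (nat_lit 123) (nat_lit 5) (nat_lit 124) (nat_lit 5) (nat_lit 619) (nat_lit 504) (nat_lit 437)))) (XT.nd (nat_lit 156) (nat_lit 608) (nat_lit 0) (XT.nd (nat_lit 78) (nat_lit 0) (nat_lit 0) (XT.lf (nat_lit 0) (nat_lit 885602261) (nat_lit 304) (nat_lit 2784401516) (nat_lit 380) (nat_lit 8588430785) (nat_lit 114) (nat_lit 5) (nat_lit 118) (nat_lit 5) (nat_lit 119) (nat_lit 5) (nat_lit 620) (nat_lit 504) (nat_lit 436)) (XT.lf (nat_lit 0) (nat_lit 8069163867) (nat_lit 380) (nat_lit 2274531933) (nat_lit 76) (nat_lit 2050836611) (nat_lit 114) (nat_lit 5) (nat_lit 119) (nat_lit 5) (nat_lit 115) (nat_lit 5) (nat_lit 621) (nat_lit 504) (nat_lit 435))) (XT.nd (nat_lit 78) (nat_lit 304) (nat_lit 0) (XT.lf (nat_lit 0) (nat_lit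 50227138) (nat_lit 304) (nat_lit 5515702975) (nat_lit 76) (nat_lit 6966868106) (nat_lit 110) (nat_lit 5) (nat_lit 114) (nat_lit 5) (nat_lit 111) (nat_lit 5) (nat_lit 622) (nat_lit 504) (nat_lit 434)) (XT.lf (nat_lit 0) (nat_lit 3811124454) (nat_lit 304) (nat_lit 647925020) (nat_lit 380) (nat_lit 8214135864) (nat_lit 106) (nat_lit 5) (nat_lit 110) (nat_lit 5) (nat_lit 111) (nat_lit 5) (nat_lit 623) (nat_lit 504) (nat_lit 433))))) (XT.nd (nat_lit 312) (nat_lit 836) (nat_lit 0) (XT.nd (nat_lit 156) (nat_lit 532) (nat_lit 0) (XT.nd (nat_lit 78) (nat_lit 76) (nat_lit 0) (XT.lf (nat_lit 0) (nat_lit 499429102) (nat_lit 228) (nat_lit 8489103481) (nat_lit 304) (nat_lit 3827198360) (nat_lit 103) (nat_lit 5) (nat_lit 106) (nat_lit 5) (nat_lit 107) (nat_lit 5) (nat_lit 624) (nat_lit 504) (nat_lit 432)) (XT.lf (nat_lit 0) (nat_lit 666833756) (nat_lit 304) (nat_lit 2862752740) (nat_lit 76) (nat_lit 9430900346) (nat_lit 102) (nat_lit 5) (nat_lit 106) (nat_lit 5) (nat_lit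 103) (nat_lit 5) (nat_lit 625) (nat_lit 504) (nat_lit 431))) (XT.nd (nat_lit 78) (nat_lit 228) (nat_lit 0) (XT.lf (nat_lit 0) (nat_lit 5218213097) (nat_lit 380) (nat_lit 6335192829) (nat_lit 76) (nat_lit 1553852127) (nat_lit 98) (nat_lit 5) (nat_lit 103) (nat_lit 5) (nat_lit 99) (nat_lit 5) (nat_lit 626) (nat_lit 504) (nat_lit 430)) (XT.lf (nat_lit 0) (nat_lit 3340996591) (nat_lit 228) (nat_lit 6548574038) (nat_lit 304) (nat_lit 3366815444) (nat_lit 95) (nat_lit 5) (nat_lit 98) (nat_lit 5) (nat_lit 99) (nat_lit 5) (nat_lit 627) (nat_lit 504) (nat_lit 429)))) (XT.nd (nat_lit 156) (nat_lit 532) (nat_lit 0) (XT.nd (nat_lit 78) (nat_lit 228) (nat_lit 0) (XT.lf (nat_lit 0) (nat_lit 1236926853) (nat_lit 304) (nat_lit 180624044) (nat_lit 76) (nat_lit 11990636200) (nat_lit 94) (nat_lit 5) (nat_lit 98) (nat_lit 5) (nat_lit 95) (nat_lit 5) (nat_lit 628) (nat_lit 504) (nat_lit 428)) (XT.lf (nat_lit 0) (nat_lit 5941789037) (nat_lit 304) (nat_lit 3792170759) (nat_lit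 76) (nat_lit 3827537094) (nat_lit 91) (nat_lit 5) (nat_lit 95) (nat_lit 5) (nat_lit 92) (nat_lit 5) (nat_lit 629) (nat_lit 504) (nat_lit 427))) (XT.nd (nat_lit 78) (nat_lit 304) (nat_lit 0) (XT.lf (nat_lit 0) (nat_lit 6214866009) (nat_lit 228) (nat_lit 4542278723) (nat_lit 304) (nat_lit 2960400587) (nat_lit 88) (nat_lit 5) (nat_lit 91) (nat_lit 5) (nat_lit 92) (nat_lit 5) (nat_lit 630) (nat_lit 504) (nat_lit 426)) (XT.lf (nat_lit 0) (nat_lit 1781399111) (nat_lit 304) (nat_lit 11322597001) (nat_lit 76) (nat_lit 772230051) (nat_lit 84) (nat_lit 5) (nat_lit 88) (nat_lit 5) (nat_lit 85) (nat_lit 5) (nat_lit 631) (nat_lit 504) (nat_lit 425))))))))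
noncomputable def xc40 : XT := (XT.nd (nat_lit 75972) (nat_lit 0) (nat_lit 12768) (XT.nd (nat_lit 1170) (nat_lit 152) (nat_lit 0) (XT.nd (nat_lit 546) (nat_lit 1216) (nat_lit 0) (XT.nd (nat_lit 234) (nat_lit 684) (nat_lit 0) (XT.nd (nat_lit 78) (nat_lit 532) (nat_lit 0) (XT.lf (nat_lit 0) (nat_lit 6624815927) (nat_lit 304) (nat_lit 1234637354) (nat_lit 76) (nat_lit 6177307905) (nat_lit 84) (nat_lit 5) (nat_lit 88) (nat_lit 5) (nat_lit 85) (nat_lit 5) (nat_lit 632) (nat_lit 504) (nat_lit 424)) (XT.nd (nat_lit 78) (nat_lit 304) (nat_lit 0) (XT.lf (nat_lit 0) (nat_lit 9115507292) (nat_lit 228) (nat_lit 2475073948) (nat_lit 304) (nat_lit 2609416404) (nat_lit 81) (nat_lit 5) (nat_lit 84) (nat_lit 5) (nat_lit 85) (nat_lit 5) (nat_lit 633) (nat_lit 504) (nat_lit 423)) (XT.lf (nat_lit 0) (nat_lit 2288171703) (nat_lit 304) (nat_lit 9067110660) (nat_lit 76) (nat_lit 3010338910) (nat_lit 77) (nat_lit 5) (nat_lit 81) (nat_lit 5) (nat_lit 78) (nat_lit 5) (nat_lit 634)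 (nat_lit 504) (nat_lit 422)))) (XT.nd (nat_lit 156) (nat_lit 456) (nat_lit 0) (XT.nd (nat_lit 78) (nat_lit 0) (nat_lit 0) (XT.lf (nat_lit 0) (nat_lit 1348711325) (nat_lit 228) (nat_lit 5926053297) (nat_lit 304) (nat_lit 7258928243) (nat_lit 74) (nat_lit 5) (nat_lit 77) (nat_lit 5) (nat_lit 78) (nat_lit 5) (nat_lit 635) (nat_lit 504) (nat_lit 421)) (XT.lf (nat_lit 0) (nat_lit 12036849527) (nat_lit 228) (nat_lit 351826966) (nat_lit 304) (nat_lit 2315897968) (nat_lit 74) (nat_lit 5) (nat_lit 77) (nat_lit 5) (nat_lit 78) (nat_lit 5) (nat_lit 636) (nat_lit 504) (nat_lit 420))) (XT.nd (nat_lit 78) (nat_lit 152) (nat_lit 0) (XT.lf (nat_lit 0) (nat_lit 2744876641) (nat_lit 304) (nat_lit 6822965286) (nat_lit 76) (nat_lit 5309585370) (nat_lit 70) (nat_lit 5) (nat_lit 74) (nat_lit 5) (nat_lit 71) (nat_lit 5) (nat_lit 637) (nat_lit 504) (nat_lit 419)) (XT.lf (nat_lit 0) (nat_lit 3949595974) (nat_lit 152) (nat_lit 3939565847) (nat_lit 228) (nat_lit 7164003404) (nat_lit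 68) (nat_lit 5) (nat_lit 70) (nat_lit 5) (nat_lit 71) (nat_lit 5) (nat_lit 638) (nat_lit 504) (nat_lit 418))))) (XT.nd (nat_lit 312) (nat_lit 532) (nat_lit 0) (XT.nd (nat_lit 156) (nat_lit 380) (nat_lit 0) (XT.nd (nat_lit 78) (nat_lit 304) (nat_lit 0) (XT.lf (nat_lit 0) (nat_lit 13161499128) (nat_lit 228) (nat_lit 271798816) (nat_lit 76) (nat_lit 1798616926) (nat_lit 68) (nat_lit 5) (nat_lit 71) (nat_lit 5) (nat_lit 69) (nat_lit 5) (nat_lit 639) (nat_lit 504) (nat_lit 417)) (XT.lf (nat_lit 0) (nat_lit 3148947075) (nat_lit 304) (nat_lit 4598291108) (nat_lit 76) (nat_lit 7665298030) (nat_lit 64) (nat_lit 5) (nat_lit 68) (nat_lit 5) (nat_lit 65) (nat_lit 5) (nat_lit 640) (nat_lit 504) (nat_lit 416))) (XT.nd (nat_lit 78) (nat_lit 228) (nat_lit 0) (XT.lf (nat_lit 0) (nat_lit 6543763022) (nat_lit 152) (nat_lit 1913629046) (nat_lit 228) (nat_lit 7138856121) (nat_lit 62) (nat_lit 5) (nat_lit 64) (nat_lit 5) (nat_lit 65) (nat_lit 5) (nat_lit 641) (nat_lit 504)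 (nat_lit 415)) (XT.lf (nat_lit 0) (nat_lit 2132132589) (nat_lit 228) (nat_lit 11779148562) (nat_lit 304) (nat_lit 1871568016) (nat_lit 59) (nat_lit 5) (nat_lit 62) (nat_lit 5) (nat_lit 63) (nat_lit 5) (nat_lit 642) (nat_lit 504) (nat_lit 414)))) (XT.nd (nat_lit 156) (nat_lit 304) (nat_lit 0) (XT.nd (nat_lit 78) (nat_lit 152) (nat_lit 0) (XT.lf (nat_lit 0) (nat_lit 3497177751) (nat_lit 304) (nat_lit 2402057249) (nat_lit 76) (nat_lit 10072652217) (nat_lit 58) (nat_lit 5) (nat_lit 62) (nat_lit 5) (nat_lit 59) (nat_lit 5) (nat_lit 643) (nat_lit 504) (nat_lit 413)) (XT.lf (nat_lit 0) (nat_lit 8977270306) (nat_lit 228) (nat_lit 7042330969) (nat_lit 76) (nat_lit 144276940) (nat_lit 56) (nat_lit 5) (nat_lit 59) (nat_lit 5) (nat_lit 57) (nat_lit 5) (nat_lit 644) (nat_lit 504) (nat_lit 412))) (XT.nd (nat_lit 78) (nat_lit 76) (nat_lit 0) (XT.lf (nat_lit 0) (nat_lit 4512409637) (nat_lit 228) (nat_lit 10108061921) (nat_lit 304) (nat_lit 1738167584) (nat_lit 53) (nat_lit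 5) (nat_lit 56) (nat_lit 5) (nat_lit 57) (nat_lit 5) (nat_lit 645) (nat_lit 504) (nat_lit 411)) (XT.lf (nat_lit 0) (nat_lit 3785679198) (nat_lit 304) (nat_lit 244190803) (nat_lit 76) (nat_lit 12526599030) (nat_lit 52) (nat_lit 5) (nat_lit 56) (nat_lit 5) (nat_lit 53) (nat_lit 5) (nat_lit 646) (nat_lit 504) (nat_lit 410)))))) (XT.nd (nat_lit 74178) (nat_lit 0) (nat_lit 28652) (XT.nd (nat_lit 73866) (nat_lit 0) (nat_lit 36252) (XT.nd (nat_lit 73710) (nat_lit 0) (nat_lit 41192) (XT.nd (nat_lit 73632) (nat_lit 0) (nat_lit 42712) (XT.lf (nat_lit 0) (nat_lit 9456630781) (nat_lit 228) (nat_lit 5095439900) (nat_lit 76) (nat_lit 2204757243) (nat_lit 50) (nat_lit 5) (nat_lit 53) (nat_lit 5) (nat_lit 51) (nat_lit 5) (nat_lit 647) (nat_lit 504) (nat_lit 409)) (XT.lf (nat_lit 0) (nat_lit 299901570) (nat_lit 1444) (nat_lit 2835263093) (nat_lit 0) (nat_lit 299901570) (nat_lit 612) (nat_lit 5) (nat_lit 631) (nat_lit 4) (nat_lit 612) (nat_lit 4) (nat_lit 550) (nat_lit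 505) (nat_lit 505))) (XT.nd (nat_lit 78) (nat_lit 1520) (nat_lit 0) (XT.lf (nat_lit 0) (nat_lit 4019167784) (nat_lit 1444) (nat_lit 818425538) (nat_lit 0) (nat_lit 2061621727) (nat_lit 612) (nat_lit 5) (nat_lit 631) (nat_lit 4) (nat_lit 612) (nat_lit 4) (nat_lit 551) (nat_lit 505) (nat_lit 504)) (XT.lf (nat_lit 0) (nat_lit 526508267) (nat_lit 1520) (nat_lit 2813162157) (nat_lit 76) (nat_lit 3590015872) (nat_lit 592) (nat_lit 5) (nat_lit 612) (nat_lit 5) (nat_lit 593) (nat_lit 4) (nat_lit 552) (nat_lit 505) (nat_lit 503)))) (XT.nd (nat_lit 156) (nat_lit 1748) (nat_lit 0) (XT.nd (nat_lit 78) (nat_lit 1672) (nat_lit 0) (XT.lf (nat_lit 0) (nat_lit 2144423080) (nat_lit 1520) (nat_lit 1767786868) (nat_lit 1596) (nat_lit 3049187690) (nat_lit 572) (nat_lit 5) (nat_lit 592) (nat_lit 5) (nat_lit 593) (nat_lit 4) (nat_lit 553) (nat_lit 505) (nat_lit 502)) (XT.lf (nat_lit 0) (nat_lit 180051419) (nat_lit 1596) (nat_lit 137707567) (nat_lit 1672) (nat_lit 6676923727)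 (nat_lit 550) (nat_lit 5) (nat_lit 571) (nat_lit 5) (nat_lit 572) (nat_lit 5) (nat_lit 554) (nat_lit 505) (nat_lit 501))) (XT.nd (nat_lit 78) (nat_lit 1748) (nat_lit 0) (XT.lf (nat_lit 0) (nat_lit 3685234049) (nat_lit 1672) (nat_lit 1782641295) (nat_lit 76) (nat_lit 1560877499) (nat_lit 550) (nat_lit 5) (nat_lit 572) (nat_lit 5) (nat_lit 551) (nat_lit 4) (nat_lit 555) (nat_lit 505) (nat_lit 500)) (XT.lf (nat_lit 0) (nat_lit 10912450) (nat_lit 1748) (nat_lit 3737107491) (nat_lit 76) (nat_lit 3316377801) (nat_lit 527) (nat_lit 5) (nat_lit 550) (nat_lit 5) (nat_lit 528) (nat_lit 5) (nat_lit 556) (nat_lit 505) (nat_lit 499))))) (XT.nd (nat_lit 312) (nat_lit 2812) (nat_lit 0) (XT.nd (nat_lit 156) (nat_lit 3040) (nat_lit 0) (XT.nd (nat_lit 78) (nat_lit 0) (nat_lit 0) (XT.lf (nat_lit 0) (nat_lit 1393309422) (nat_lit 1748) (nat_lit 1948818893) (nat_lit 1824) (nat_lit 3759098551) (nat_lit 504) (nat_lit 5) (nat_lit 527) (nat_lit 5) (nat_lit 528) (nat_lit 5) (nat_lit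 557) (nat_lit 505) (nat_lit 498)) (XT.lf (nat_lit 0) (nat_lit 6611614452) (nat_lit 1748) (nat_lit 87650559) (nat_lit 1824) (nat_lit 440344234) (nat_lit 504) (nat_lit 5) (nat_lit 527) (nat_lit 5) (nat_lit 528) (nat_lit 5) (nat_lit 558) (nat_lit 505) (nat_lit 497))) (XT.nd (nat_lit 78) (nat_lit 1140) (nat_lit 0) (XT.lf (nat_lit 0) (nat_lit 2884062173) (nat_lit 1900) (nat_lit 2457622754) (nat_lit 76) (nat_lit 1837136488) (nat_lit 479) (nat_lit 5) (nat_lit 504) (nat_lit 5) (nat_lit 480) (nat_lit 5) (nat_lit 559) (nat_lit 505) (nat_lit 496)) (XT.lf (nat_lit 0) (nat_lit 2831588352) (nat_lit 1140) (nat_lit 3395938977) (nat_lit 1216) (nat_lit 992065404) (nat_lit 464) (nat_lit 5) (nat_lit 479) (nat_lit 5) (nat_lit 480) (nat_lit 5) (nat_lit 560) (nat_lit 505) (nat_lit 495)))) (XT.nd (nat_lit 156) (nat_lit 1824) (nat_lit 0) (XT.nd (nat_lit 78) (nat_lit 0) (nat_lit 0) (XT.lf (nat_lit 0) (nat_lit 929467870) (nat_lit 912) (nat_lit 1375020030) (nat_lit 988) (nat_lit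 4957205789) (nat_lit 451) (nat_lit 5) (nat_lit 463) (nat_lit 5) (nat_lit 464) (nat_lit 5) (nat_lit 561) (nat_lit 505) (nat_lit 494)) (XT.lf (nat_lit 0) (nat_lit 5624939968) (nat_lit 988) (nat_lit 969532620) (nat_lit 76) (nat_lit 710610208) (nat_lit 451) (nat_lit 5) (nat_lit 464) (nat_lit 5) (nat_lit 452) (nat_lit 5) (nat_lit 562) (nat_lit 505) (nat_lit 493))) (XT.nd (nat_lit 78) (nat_lit 836) (nat_lit 0) (XT.lf (nat_lit 0) (nat_lit 1617097183) (nat_lit 988) (nat_lit 2876046323) (nat_lit 76) (nat_lit 2856453739) (nat_lit 438) (nat_lit 5) (nat_lit 451) (nat_lit 5) (nat_lit 439) (nat_lit 5) (nat_lit 563) (nat_lit 505) (nat_lit 492)) (XT.lf (nat_lit 0) (nat_lit 2600600692) (nat_lit 836) (nat_lit 2319393235) (nat_lit 912) (nat_lit 2475543939) (nat_lit 427) (nat_lit 5) (nat_lit 438) (nat_lit 5) (nat_lit 439) (nat_lit 5) (nat_lit 564) (nat_lit 505) (nat_lit 491))))))) (XT.nd (nat_lit 1170) (nat_lit 7068) (nat_lit 0) (XT.nd (nat_lit 546) (nat_lit 4484) (nat_lit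 0) (XT.nd (nat_lit 234) (nat_lit 2508) (nat_lit 0) (XT.nd (nat_lit 78) (nat_lit 836) (nat_lit 0) (XT.lf (nat_lit 0) (nat_lit 721108669) (nat_lit 912) (nat_lit 77575465) (nat_lit 988) (nat_lit 6644340621) (nat_lit 414) (nat_lit 5) (nat_lit 426) (nat_lit 5) (nat_lit 427) (nat_lit 5) (nat_lit 565) (nat_lit 505) (nat_lit 490)) (XT.nd (nat_lit 78) (nat_lit 836) (nat_lit 0) (XT.lf (nat_lit 0) (nat_lit 4091864953) (nat_lit 988) (nat_lit 1176503884) (nat_lit 76) (nat_lit 2223035015) (nat_lit 414) (nat_lit 5) (nat_lit 427) (nat_lit 5) (nat_lit 415) (nat_lit 5) (nat_lit 566) (nat_lit 505) (nat_lit 489)) (XT.lf (nat_lit 0) (nat_lit 4472064675) (nat_lit 836) (nat_lit 2949425719) (nat_lit 912) (nat_lit 119850530) (nat_lit 403) (nat_lit 5) (nat_lit 414) (nat_lit 5) (nat_lit 415) (nat_lit 5) (nat_lit 567) (nat_lit 505) (nat_lit 488)))) (XT.nd (nat_lit 156) (nat_lit 836) (nat_lit 0) (XT.nd (nat_lit 78) (nat_lit 760) (nat_lit 0) (XT.lf (nat_lit 0) (nat_lit 2604358684)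 (nat_lit 836) (nat_lit 545002560) (nat_lit 912) (nat_lit 4443173959) (nat_lit 391) (nat_lit 5) (nat_lit 402) (nat_lit 5) (nat_lit 403) (nat_lit 5) (nat_lit 568) (nat_lit 505) (nat_lit 487)) (XT.lf (nat_lit 0) (nat_lit 717919952) (nat_lit 760) (nat_lit 5744259160) (nat_lit 836) (nat_lit 1182963774) (nat_lit 381) (nat_lit 5) (nat_lit 391) (nat_lit 5) (nat_lit 392) (nat_lit 5) (nat_lit 569) (nat_lit 505) (nat_lit 486))) (XT.nd (nat_lit 78) (nat_lit 760) (nat_lit 0) (XT.lf (nat_lit 0) (nat_lit 2094026327) (nat_lit 836) (nat_lit 1177358022) (nat_lit 76) (nat_lit 4427548505) (nat_lit 380) (nat_lit 5) (nat_lit 391) (nat_lit 5) (nat_lit 381) (nat_lit 5) (nat_lit 570) (nat_lit 505) (nat_lit 485)) (XT.lf (nat_lit 0) (nat_lit 4675064709) (nat_lit 760) (nat_lit 719520145) (nat_lit 836) (nat_lit 2359581797) (nat_lit 370) (nat_lit 5) (nat_lit 380) (nat_lit 5) (nat_lit 381) (nat_lit 5) (nat_lit 571) (nat_lit 505) (nat_lit 484))))) (XT.nd (nat_lit 312) (nat_lit 2128)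 (nat_lit 0) (XT.nd (nat_lit 156) (nat_lit 760) (nat_lit 0) (XT.nd (nat_lit 78) (nat_lit 760) (nat_lit 0) (XT.lf (nat_lit 0) (nat_lit 920597644) (nat_lit 836) (nat_lit 5008756834) (nat_lit 76) (nat_lit 1881380595) (nat_lit 359) (nat_lit 5) (nat_lit 370) (nat_lit 5) (nat_lit 360) (nat_lit 5) (nat_lit 572) (nat_lit 505) (nat_lit 483)) (XT.lf (nat_lit 0) (nat_lit 898812506) (nat_lit 760) (nat_lit 3311821976) (nat_lit 836) (nat_lit 3657973157) (nat_lit 349) (nat_lit 5) (nat_lit 359) (nat_lit 5) (nat_lit 360) (nat_lit 5) (nat_lit 573) (nat_lit 505) (nat_lit 482))) (XT.nd (nat_lit 78) (nat_lit 760) (nat_lit 0) (XT.lf (nat_lit 0) (nat_lit 6926024223) (nat_lit 760) (nat_lit 619137031) (nat_lit 836) (nat_lit 382904267) (nat_lit 349) (nat_lit 5) (nat_lit 359) (nat_lit 5) (nat_lit 360) (nat_lit 5) (nat_lit 574) (nat_lit 505) (nat_lit 481)) (XT.lf (nat_lit 0) (nat_lit 2911649278) (nat_lit 760) (nat_lit 2936349851) (nat_lit 76) (nat_lit 2140475485) (nat_lit 339) (nat_lit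 5) (nat_lit 349) (nat_lit 5) (nat_lit 340) (nat_lit 5) (nat_lit 575) (nat_lit 505) (nat_lit 480)))) (XT.nd (nat_lit 156) (nat_lit 684) (nat_lit 0) (XT.nd (nat_lit 78) (nat_lit 760) (nat_lit 0) (XT.lf (nat_lit 0) (nat_lit 3159367851) (nat_lit 684) (nat_lit 3085343454) (nat_lit 760) (nat_lit 1805776629) (nat_lit 330) (nat_lit 5) (nat_lit 339) (nat_lit 5) (nat_lit 340) (nat_lit 5) (nat_lit 576) (nat_lit 505) (nat_lit 479)) (XT.lf (nat_lit 0) (nat_lit 1243028292) (nat_lit 684) (nat_lit 242123939) (nat_lit 760) (nat_lit 6628901328) (nat_lit 320) (nat_lit 5) (nat_lit 329) (nat_lit 5) (nat_lit 330) (nat_lit 5) (nat_lit 577) (nat_lit 505) (nat_lit 478))) (XT.nd (nat_lit 78) (nat_lit 684) (nat_lit 0) (XT.lf (nat_lit 0) (nat_lit 4815197591) (nat_lit 760) (nat_lit 708698894) (nat_lit 76) (nat_lit 2654807210) (nat_lit 320) (nat_lit 5) (nat_lit 330) (nat_lit 5) (nat_lit 321) (nat_lit 5) (nat_lit 578) (nat_lit 505) (nat_lit 477)) (XT.lf (nat_lit 0) (nat_lit 5582613495)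 (nat_lit 684) (nat_lit 2615274051) (nat_lit 760) (nat_lit 47039851) (nat_lit 311) (nat_lit 5) (nat_lit 320) (nat_lit 5) (nat_lit 321) (nat_lit 5) (nat_lit 579) (nat_lit 505) (nat_lit 476)))))) (XT.nd (nat_lit 624) (nat_lit 3192) (nat_lit 0) (XT.nd (nat_lit 312) (nat_lit 1900) (nat_lit 0) (XT.nd (nat_lit 156) (nat_lit 684) (nat_lit 0) (XT.nd (nat_lit 78) (nat_lit 608) (nat_lit 0) (XT.lf (nat_lit 0) (nat_lit 3271503035) (nat_lit 684) (nat_lit 4657898816) (nat_lit 76) (nat_lit 383052016) (nat_lit 302) (nat_lit 5) (nat_lit 311) (nat_lit 5) (nat_lit 303) (nat_lit 5) (nat_lit 580) (nat_lit 505) (nat_lit 475)) (XT.lf (nat_lit 0) (nat_lit 1690682956) (nat_lit 608) (nat_lit 4960318462) (nat_lit 684) (nat_lit 1730420295) (nat_lit 294) (nat_lit 5) (nat_lit 302) (nat_lit 5) (nat_lit 303) (nat_lit 5) (nat_lit 581) (nat_lit 505) (nat_lit 474))) (XT.nd (nat_lit 78) (nat_lit 608) (nat_lit 0) (XT.lf (nat_lit 0) (nat_lit 1605362265) (nat_lit 684) (nat_lit 299520235) (nat_lit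 76) (nat_lit 6547061272) (nat_lit 293) (nat_lit 5) (nat_lit 302) (nat_lit 5) (nat_lit 294) (nat_lit 5) (nat_lit 582) (nat_lit 505) (nat_lit 473)) (XT.lf (nat_lit 0) (nat_lit 4983397471) (nat_lit 684) (nat_lit 2307796447) (nat_lit 76) (nat_lit 1232480723) (nat_lit 285) (nat_lit 5) (nat_lit 294) (nat_lit 5) (nat_lit 286) (nat_lit 5) (nat_lit 583) (nat_lit 505) (nat_lit 472)))) (XT.nd (nat_lit 156) (nat_lit 684) (nat_lit 0) (XT.nd (nat_lit 78) (nat_lit 608) (nat_lit 0) (XT.lf (nat_lit 0) (nat_lit 4245904328) (nat_lit 608) (nat_lit 4175912151) (nat_lit 684) (nat_lit 175168437) (nat_lit 277) (nat_lit 5) (nat_lit 285) (nat_lit 5) (nat_lit 286) (nat_lit 5) (nat_lit 584) (nat_lit 505) (nat_lit 471)) (XT.lf (nat_lit 0) (nat_lit 2232318601) (nat_lit 532) (nat_lit 963122786) (nat_lit 608) (nat_lit 5476279884) (nat_lit 269) (nat_lit 5) (nat_lit 276) (nat_lit 5) (nat_lit 277) (nat_lit 5) (nat_lit 585) (nat_lit 505) (nat_lit 470))) (XT.nd (nat_lit 78) (nat_lit 76) (nat_lit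 0) (XT.lf (nat_lit 0) (nat_lit 178314243) (nat_lit 608) (nat_lit 6449639494) (nat_lit 684) (nat_lit 2120039922) (nat_lit 261) (nat_lit 5) (nat_lit 269) (nat_lit 5) (nat_lit 270) (nat_lit 5) (nat_lit 586) (nat_lit 505) (nat_lit 469)) (XT.lf (nat_lit 0) (nat_lit 1287574107) (nat_lit 684) (nat_lit 1891233014) (nat_lit 76) (nat_lit 5646789412) (nat_lit 260) (nat_lit 5) (nat_lit 269) (nat_lit 5) (nat_lit 261) (nat_lit 5) (nat_lit 587) (nat_lit 505) (nat_lit 468))))) (XT.nd (nat_lit 312) (nat_lit 1596) (nat_lit 0) (XT.nd (nat_lit 156) (nat_lit 532) (nat_lit 0) (XT.nd (nat_lit 78) (nat_lit 532) (nat_lit 0) (XT.lf (nat_lit 0) (nat_lit 4720457140) (nat_lit 608) (nat_lit 4000458308) (nat_lit 76) (nat_lit 183846778) (nat_lit 253) (nat_lit 5) (nat_lit 261) (nat_lit 5) (nat_lit 254) (nat_lit 5) (nat_lit 588) (nat_lit 505) (nat_lit 467)) (XT.lf (nat_lit 0) (nat_lit 2826123804) (nat_lit 532) (nat_lit 5400861138) (nat_lit 608) (nat_lit 758427636) (nat_lit 246) (nat_lit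 5) (nat_lit 253) (nat_lit 5) (nat_lit 254) (nat_lit 5) (nat_lit 589) (nat_lit 505) (nat_lit 466))) (XT.nd (nat_lit 78) (nat_lit 0) (nat_lit 0) (XT.lf (nat_lit 0) (nat_lit 701456257) (nat_lit 456) (nat_lit 1983206540) (nat_lit 532) (nat_lit 6382967351) (nat_lit 239) (nat_lit 5) (nat_lit 245) (nat_lit 5) (nat_lit 246) (nat_lit 5) (nat_lit 590) (nat_lit 505) (nat_lit 465)) (XT.lf (nat_lit 0) (nat_lit 6191203464) (nat_lit 532) (nat_lit 1449311294) (nat_lit 76) (nat_lit 1510783198) (nat_lit 239) (nat_lit 5) (nat_lit 246) (nat_lit 5) (nat_lit 240) (nat_lit 5) (nat_lit 591) (nat_lit 505) (nat_lit 464)))) (XT.nd (nat_lit 156) (nat_lit 532) (nat_lit 0) (XT.nd (nat_lit 78) (nat_lit 456) (nat_lit 0) (XT.lf (nat_lit 0) (nat_lit 528077574) (nat_lit 608) (nat_lit 3639020857) (nat_lit 76) (nat_lit 5069396513) (nat_lit 231) (nat_lit 5) (nat_lit 239) (nat_lit 5) (nat_lit 232) (nat_lit 5) (nat_lit 592) (nat_lit 505) (nat_lit 463)) (XT.lf (nat_lit 0) (nat_lit 3441738382)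 (nat_lit 456) (nat_lit 591273062) (nat_lit 532) (nat_lit 5290261389) (nat_lit 225) (nat_lit 5) (nat_lit 231) (nat_lit 5) (nat_lit 232) (nat_lit 5) (nat_lit 593) (nat_lit 505) (nat_lit 462))) (XT.nd (nat_lit 78) (nat_lit 76) (nat_lit 0) (XT.lf (nat_lit 0) (nat_lit 1232588936) (nat_lit 456) (nat_lit 6382684448) (nat_lit 532) (nat_lit 1796369258) (nat_lit 219) (nat_lit 5) (nat_lit 225) (nat_lit 5) (nat_lit 226) (nat_lit 5) (nat_lit 594) (nat_lit 505) (nat_lit 461)) (XT.lf (nat_lit 0) (nat_lit 1742834515) (nat_lit 532) (nat_lit 1013804943) (nat_lit 76) (nat_lit 6744939523) (nat_lit 218) (nat_lit 5) (nat_lit 225) (nat_lit 5) (nat_lit 219) (nat_lit 5) (nat_lit 595) (nat_lit 505) (nat_lit 460))))))))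
noncomputable def xc41 : XT := (XT.nd (nat_lit 2418) (nat_lit 3648) (nat_lit 0) (XT.nd (nat_lit 1170) (nat_lit 4028) (nat_lit 0) (XT.nd (nat_lit 546) (nat_lit 2432) (nat_lit 0) (XT.nd (nat_lit 234) (nat_lit 1292) (nat_lit 0) (XT.nd (nat_lit 78) (nat_lit 912) (nat_lit 0) (XT.lf (nat_lit 0) (nat_lit 5331884941) (nat_lit 532) (nat_lit 3298575611) (nat_lit 76) (nat_lit 962554591) (nat_lit 212) (nat_lit 5) (nat_lit 219) (nat_lit 5) (nat_lit 213) (nat_lit 5) (nat_lit 596) (nat_lit 505) (nat_lit 459)) (XT.nd (nat_lit 78) (nat_lit 456) (nat_lit 0) (XT.lf (nat_lit 0) (nat_lit 4046306420) (nat_lit 456) (nat_lit 4953952809) (nat_lit 532) (nat_lit 685870818) (nat_lit 206) (nat_lit 5) (nat_lit 212) (nat_lit 5) (nat_lit 213) (nat_lit 5) (nat_lit 597) (nat_lit 505) (nat_lit 458)) (XT.lf (nat_lit 0) (nat_lit 1740528984) (nat_lit 380) (nat_lit 1171434590) (nat_lit 456) (nat_lit 6868961986) (nat_lit 200) (nat_lit 5) (nat_lit 205) (nat_lit 5) (nat_lit 206) (nat_lit 5) (nat_lit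 598) (nat_lit 505) (nat_lit 457)))) (XT.nd (nat_lit 156) (nat_lit 760) (nat_lit 0) (XT.nd (nat_lit 78) (nat_lit 532) (nat_lit 0) (XT.lf (nat_lit 0) (nat_lit 6584738284) (nat_lit 456) (nat_lit 619520062) (nat_lit 76) (nat_lit 2673025440) (nat_lit 200) (nat_lit 5) (nat_lit 206) (nat_lit 5) (nat_lit 201) (nat_lit 5) (nat_lit 599) (nat_lit 505) (nat_lit 456)) (XT.lf (nat_lit 0) (nat_lit 361282791) (nat_lit 532) (nat_lit 3008396502) (nat_lit 76) (nat_lit 6605633636) (nat_lit 193) (nat_lit 5) (nat_lit 200) (nat_lit 5) (nat_lit 194) (nat_lit 5) (nat_lit 600) (nat_lit 505) (nat_lit 455))) (XT.nd (nat_lit 78) (nat_lit 380) (nat_lit 0) (XT.lf (nat_lit 0) (nat_lit 4039629895) (nat_lit 456) (nat_lit 5466075727) (nat_lit 76) (nat_lit 569251948) (nat_lit 188) (nat_lit 5) (nat_lit 194) (nat_lit 5) (nat_lit 189) (nat_lit 5) (nat_lit 601) (nat_lit 505) (nat_lit 454)) (XT.lf (nat_lit 0) (nat_lit 2184800591) (nat_lit 380) (nat_lit 5621450725) (nat_lit 456) (nat_lit 2370050402)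 (nat_lit 183) (nat_lit 5) (nat_lit 188) (nat_lit 5) (nat_lit 189) (nat_lit 5) (nat_lit 602) (nat_lit 505) (nat_lit 453))))) (XT.nd (nat_lit 312) (nat_lit 1140) (nat_lit 0) (XT.nd (nat_lit 156) (nat_lit 836) (nat_lit 0) (XT.nd (nat_lit 78) (nat_lit 380) (nat_lit 0) (XT.lf (nat_lit 0) (nat_lit 1345524700) (nat_lit 456) (nat_lit 289911303) (nat_lit 76) (nat_lit 8644160953) (nat_lit 182) (nat_lit 5) (nat_lit 188) (nat_lit 5) (nat_lit 183) (nat_lit 5) (nat_lit 603) (nat_lit 505) (nat_lit 452)) (XT.lf (nat_lit 0) (nat_lit 5127866194) (nat_lit 456) (nat_lit 2814404876) (nat_lit 76) (nat_lit 2441890632) (nat_lit 177) (nat_lit 5) (nat_lit 183) (nat_lit 5) (nat_lit 178) (nat_lit 5) (nat_lit 604) (nat_lit 505) (nat_lit 451))) (XT.nd (nat_lit 78) (nat_lit 456) (nat_lit 0) (XT.lf (nat_lit 0) (nat_lit 5092089350) (nat_lit 380) (nat_lit 3898710573) (nat_lit 456) (nat_lit 1499919614) (nat_lit 172) (nat_lit 5) (nat_lit 177) (nat_lit 5) (nat_lit 178) (nat_lit 5) (nat_lit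 605) (nat_lit 505) (nat_lit 450)) (XT.lf (nat_lit 0) (nat_lit 2297444056) (nat_lit 456) (nat_lit 8050590426) (nat_lit 76) (nat_lit 251143172) (nat_lit 166) (nat_lit 5) (nat_lit 172) (nat_lit 5) (nat_lit 167) (nat_lit 5) (nat_lit 606) (nat_lit 505) (nat_lit 449)))) (XT.nd (nat_lit 156) (nat_lit 760) (nat_lit 0) (XT.nd (nat_lit 78) (nat_lit 380) (nat_lit 0) (XT.lf (nat_lit 0) (nat_lit 6172434184) (nat_lit 456) (nat_lit 81128393) (nat_lit 76) (nat_lit 4455609471) (nat_lit 166) (nat_lit 5) (nat_lit 172) (nat_lit 5) (nat_lit 167) (nat_lit 5) (nat_lit 607) (nat_lit 505) (nat_lit 448)) (XT.lf (nat_lit 0) (nat_lit 8091109410) (nat_lit 380) (nat_lit 2046599994) (nat_lit 456) (nat_lit 683401869) (nat_lit 161) (nat_lit 5) (nat_lit 166) (nat_lit 5) (nat_lit 167) (nat_lit 5) (nat_lit 608) (nat_lit 505) (nat_lit 447))) (XT.nd (nat_lit 78) (nat_lit 380) (nat_lit 0) (XT.lf (nat_lit 0) (nat_lit 3215714125) (nat_lit 380) (nat_lit 5469177237) (nat_lit 76) (nat_lit 2249750947)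 (nat_lit 156) (nat_lit 5) (nat_lit 161) (nat_lit 5) (nat_lit 157) (nat_lit 5) (nat_lit 609) (nat_lit 505) (nat_lit 446)) (XT.lf (nat_lit 0) (nat_lit 2766789349) (nat_lit 380) (nat_lit 4427426635) (nat_lit 456) (nat_lit 3855927164) (nat_lit 151) (nat_lit 5) (nat_lit 156) (nat_lit 5) (nat_lit 157) (nat_lit 5) (nat_lit 610) (nat_lit 505) (nat_lit 445)))))) (XT.nd (nat_lit 624) (nat_lit 1900) (nat_lit 0) (XT.nd (nat_lit 312) (nat_lit 988) (nat_lit 0) (XT.nd (nat_lit 156) (nat_lit 760) (nat_lit 0) (XT.nd (nat_lit 78) (nat_lit 0) (nat_lit 0) (XT.lf (nat_lit 0) (nat_lit 10564885) (nat_lit 304) (nat_lit 70369680) (nat_lit 380) (nat_lit 11087054941) (nat_lit 146) (nat_lit 5) (nat_lit 150) (nat_lit 5) (nat_lit 151) (nat_lit 5) (nat_lit 611) (nat_lit 505) (nat_lit 444)) (XT.lf (nat_lit 0) (nat_lit 4090205145) (nat_lit 380) (nat_lit 2822121620) (nat_lit 76) (nat_lit 4374450802) (nat_lit 146) (nat_lit 5) (nat_lit 151) (nat_lit 5) (nat_lit 147) (nat_lit 5) (nat_lit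 612) (nat_lit 505) (nat_lit 443))) (XT.nd (nat_lit 78) (nat_lit 380) (nat_lit 0) (XT.lf (nat_lit 0) (nat_lit 5691931264) (nat_lit 380) (nat_lit 2486820945) (nat_lit 456) (nat_lit 3229207925) (nat_lit 141) (nat_lit 5) (nat_lit 146) (nat_lit 5) (nat_lit 147) (nat_lit 5) (nat_lit 613) (nat_lit 505) (nat_lit 442)) (XT.lf (nat_lit 0) (nat_lit 819427608) (nat_lit 380) (nat_lit 8691686748) (nat_lit 76) (nat_lit 2020093475) (nat_lit 136) (nat_lit 5) (nat_lit 141) (nat_lit 5) (nat_lit 137) (nat_lit 5) (nat_lit 614) (nat_lit 505) (nat_lit 441)))) (XT.nd (nat_lit 156) (nat_lit 684) (nat_lit 0) (XT.nd (nat_lit 78) (nat_lit 304) (nat_lit 0) (XT.lf (nat_lit 0) (nat_lit 4922878456) (nat_lit 380) (nat_lit 113031450) (nat_lit 76) (nat_lit 6620242577) (nat_lit 136) (nat_lit 5) (nat_lit 141) (nat_lit 5) (nat_lit 137) (nat_lit 5) (nat_lit 615) (nat_lit 505) (nat_lit 440)) (XT.lf (nat_lit 0) (nat_lit 8689957593) (nat_lit 304) (nat_lit 437568243) (nat_lit 380) (nat_lit 2655688163)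 (nat_lit 132) (nat_lit 5) (nat_lit 136) (nat_lit 5) (nat_lit 137) (nat_lit 5) (nat_lit 616) (nat_lit 505) (nat_lit 439))) (XT.nd (nat_lit 78) (nat_lit 304) (nat_lit 0) (XT.lf (nat_lit 0) (nat_lit 1512477568) (nat_lit 380) (nat_lit 6178133650) (nat_lit 76) (nat_lit 4221435881) (nat_lit 127) (nat_lit 5) (nat_lit 132) (nat_lit 5) (nat_lit 128) (nat_lit 5) (nat_lit 617) (nat_lit 505) (nat_lit 438)) (XT.lf (nat_lit 0) (nat_lit 2689687566) (nat_lit 304) (nat_lit 3043024285) (nat_lit 380) (nat_lit 6310309122) (nat_lit 123) (nat_lit 5) (nat_lit 127) (nat_lit 5) (nat_lit 128) (nat_lit 5) (nat_lit 618) (nat_lit 505) (nat_lit 437))))) (XT.nd (nat_lit 312) (nat_lit 988) (nat_lit 0) (XT.nd (nat_lit 156) (nat_lit 532) (nat_lit 0) (XT.nd (nat_lit 78) (nat_lit 380) (nat_lit 0) (XT.lf (nat_lit 0) (nat_lit 10053252198) (nat_lit 380) (nat_lit 430121731) (nat_lit 76) (nat_lit 1692922853) (nat_lit 123) (nat_lit 5) (nat_lit 128) (nat_lit 5) (nat_lit 124) (nat_lit 5) (nat_lit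 619) (nat_lit 505) (nat_lit 436)) (XT.lf (nat_lit 0) (nat_lit 2160603763) (nat_lit 380) (nat_lit 3620514430) (nat_lit 76) (nat_lit 6530025267) (nat_lit 118) (nat_lit 5) (nat_lit 123) (nat_lit 5) (nat_lit 119) (nat_lit 5) (nat_lit 620) (nat_lit 505) (nat_lit 435))) (XT.nd (nat_lit 78) (nat_lit 228) (nat_lit 0) (XT.lf (nat_lit 0) (nat_lit 5549170146) (nat_lit 304) (nat_lit 955238760) (nat_lit 380) (nat_lit 5943939728) (nat_lit 114) (nat_lit 5) (nat_lit 118) (nat_lit 5) (nat_lit 119) (nat_lit 5) (nat_lit 621) (nat_lit 505) (nat_lit 434)) (XT.lf (nat_lit 0) (nat_lit 2307170458) (nat_lit 228) (nat_lit 8657221814) (nat_lit 304) (nat_lit 1623320045) (nat_lit 111) (nat_lit 5) (nat_lit 114) (nat_lit 5) (nat_lit 115) (nat_lit 5) (nat_lit 622) (nat_lit 505) (nat_lit 433)))) (XT.nd (nat_lit 156) (nat_lit 608) (nat_lit 0) (XT.nd (nat_lit 78) (nat_lit 304) (nat_lit 0) (XT.lf (nat_lit 0) (nat_lit 2764317805) (nat_lit 304) (nat_lit 1023237933) (nat_lit 76) (nat_lit 8941604195)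 (nat_lit 110) (nat_lit 5) (nat_lit 114) (nat_lit 5) (nat_lit 111) (nat_lit 5) (nat_lit 623) (nat_lit 505) (nat_lit 432)) (XT.lf (nat_lit 0) (nat_lit 7245740791) (nat_lit 380) (nat_lit 4420915315) (nat_lit 76) (nat_lit 1206010844) (nat_lit 106) (nat_lit 5) (nat_lit 111) (nat_lit 5) (nat_lit 107) (nat_lit 5) (nat_lit 624) (nat_lit 505) (nat_lit 431))) (XT.nd (nat_lit 78) (nat_lit 380) (nat_lit 0) (XT.lf (nat_lit 0) (nat_lit 5093157683) (nat_lit 228) (nat_lit 6753730959) (nat_lit 304) (nat_lit 1171553948) (nat_lit 103) (nat_lit 5) (nat_lit 106) (nat_lit 5) (nat_lit 107) (nat_lit 5) (nat_lit 625) (nat_lit 505) (nat_lit 430)) (XT.lf (nat_lit 0) (nat_lit 1630398499) (nat_lit 304) (nat_lit 1703843086) (nat_lit 380) (nat_lit 9832343521) (nat_lit 98) (nat_lit 5) (nat_lit 102) (nat_lit 5) (nat_lit 103) (nat_lit 5) (nat_lit 626) (nat_lit 505) (nat_lit 429))))))) (XT.nd (nat_lit 1170) (nat_lit 1064) (nat_lit 0) (XT.nd (nat_lit 546) (nat_lit 1292) (nat_lit 0) (XT.nd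 (nat_lit 234) (nat_lit 760) (nat_lit 0) (XT.nd (nat_lit 78) (nat_lit 532) (nat_lit 0) (XT.lf (nat_lit 0) (nat_lit 7955637379) (nat_lit 380) (nat_lit 1922418393) (nat_lit 76) (nat_lit 3438656780) (nat_lit 98) (nat_lit 5) (nat_lit 103) (nat_lit 5) (nat_lit 99) (nat_lit 5) (nat_lit 627) (nat_lit 505) (nat_lit 428)) (XT.nd (nat_lit 78) (nat_lit 304) (nat_lit 0) (XT.lf (nat_lit 0) (nat_lit 7917429826) (nat_lit 228) (nat_lit 4780643008) (nat_lit 304) (nat_lit 771197861) (nat_lit 95) (nat_lit 5) (nat_lit 98) (nat_lit 5) (nat_lit 99) (nat_lit 5) (nat_lit 628) (nat_lit 505) (nat_lit 427)) (XT.lf (nat_lit 0) (nat_lit 3869262111) (nat_lit 304) (nat_lit 9299245546) (nat_lit 76) (nat_lit 455663487) (nat_lit 91) (nat_lit 5) (nat_lit 95) (nat_lit 5) (nat_lit 92) (nat_lit 5) (nat_lit 629) (nat_lit 505) (nat_lit 426)))) (XT.nd (nat_lit 156) (nat_lit 532) (nat_lit 0) (XT.nd (nat_lit 78) (nat_lit 0) (nat_lit 0) (XT.lf (nat_lit 0) (nat_lit 605037358) (nat_lit 228) (nat_lit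 8026383003) (nat_lit 304) (nat_lit 5149863339) (nat_lit 88) (nat_lit 5) (nat_lit 91) (nat_lit 5) (nat_lit 92) (nat_lit 5) (nat_lit 630) (nat_lit 505) (nat_lit 425)) (XT.lf (nat_lit 0) (nat_lit 10774903924) (nat_lit 228) (nat_lit 2742719983) (nat_lit 304) (nat_lit 423338911) (nat_lit 88) (nat_lit 5) (nat_lit 91) (nat_lit 5) (nat_lit 92) (nat_lit 5) (nat_lit 631) (nat_lit 505) (nat_lit 424))) (XT.nd (nat_lit 78) (nat_lit 228) (nat_lit 0) (XT.lf (nat_lit 0) (nat_lit 4370170207) (nat_lit 304) (nat_lit 7070129966) (nat_lit 76) (nat_lit 2662362005) (nat_lit 84) (nat_lit 5) (nat_lit 88) (nat_lit 5) (nat_lit 85) (nat_lit 5) (nat_lit 632) (nat_lit 505) (nat_lit 423)) (XT.lf (nat_lit 0) (nat_lit 3173386468) (nat_lit 228) (nat_lit 6107610991) (nat_lit 304) (nat_lit 4986000102) (nat_lit 81) (nat_lit 5) (nat_lit 84) (nat_lit 5) (nat_lit 85) (nat_lit 5) (nat_lit 633) (nat_lit 505) (nat_lit 422))))) (XT.nd (nat_lit 312) (nat_lit 456) (nat_lit 0) (XT.nd (nat_lit 156)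 (nat_lit 532) (nat_lit 0) (XT.nd (nat_lit 78) (nat_lit 304) (nat_lit 0) (XT.lf (nat_lit 0) (nat_lit 13660025677) (nat_lit 228) (nat_lit 644690992) (nat_lit 304) (nat_lit 129609801) (nat_lit 81) (nat_lit 5) (nat_lit 84) (nat_lit 5) (nat_lit 85) (nat_lit 5) (nat_lit 634) (nat_lit 505) (nat_lit 421)) (XT.lf (nat_lit 0) (nat_lit 4824337651) (nat_lit 304) (nat_lit 4844604354) (nat_lit 76) (nat_lit 4934159950) (nat_lit 77) (nat_lit 5) (nat_lit 81) (nat_lit 5) (nat_lit 78) (nat_lit 5) (nat_lit 635) (nat_lit 505) (nat_lit 420))) (XT.nd (nat_lit 78) (nat_lit 304) (nat_lit 0) (XT.lf (nat_lit 0) (nat_lit 5750561383) (nat_lit 228) (nat_lit 4139674219) (nat_lit 304) (nat_lit 4884708378) (nat_lit 74) (nat_lit 5) (nat_lit 77) (nat_lit 5) (nat_lit 78) (nat_lit 5) (nat_lit 636) (nat_lit 505) (nat_lit 419)) (XT.lf (nat_lit 0) (nat_lit 126869420) (nat_lit 304) (nat_lit 13322615001) (nat_lit 76) (nat_lit 1500303854) (nat_lit 70) (nat_lit 5) (nat_lit 74) (nat_lit 5) (nat_lit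 71) (nat_lit 5) (nat_lit 637) (nat_lit 505) (nat_lit 418)))) (XT.nd (nat_lit 156) (nat_lit 304) (nat_lit 0) (XT.nd (nat_lit 78) (nat_lit 152) (nat_lit 0) (XT.lf (nat_lit 0) (nat_lit 5229631856) (nat_lit 304) (nat_lit 2630145644) (nat_lit 76) (nat_lit 7266579300) (nat_lit 70) (nat_lit 5) (nat_lit 74) (nat_lit 5) (nat_lit 71) (nat_lit 5) (nat_lit 638) (nat_lit 505) (nat_lit 417)) (XT.lf (nat_lit 0) (nat_lit 8329384742) (nat_lit 152) (nat_lit 2127697354) (nat_lit 228) (nat_lit 4848922232) (nat_lit 68) (nat_lit 5) (nat_lit 70) (nat_lit 5) (nat_lit 71) (nat_lit 5) (nat_lit 639) (nat_lit 505) (nat_lit 416))) (XT.nd (nat_lit 78) (nat_lit 0) (nat_lit 0) (XT.lf (nat_lit 0) (nat_lit 332856776) (nat_lit 304) (nat_lit 11463405422) (nat_lit 76) (nat_lit 3692204893) (nat_lit 64) (nat_lit 5) (nat_lit 68) (nat_lit 5) (nat_lit 65) (nat_lit 5) (nat_lit 640) (nat_lit 505) (nat_lit 415)) (XT.lf (nat_lit 0) (nat_lit 5583318051) (nat_lit 304) (nat_lit 434982536) (nat_lit 76)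 (nat_lit 9655038287) (nat_lit 64) (nat_lit 5) (nat_lit 68) (nat_lit 5) (nat_lit 65) (nat_lit 5) (nat_lit 641) (nat_lit 505) (nat_lit 414)))))) (XT.nd (nat_lit 74022) (nat_lit 0) (nat_lit 34504) (XT.nd (nat_lit 312) (nat_lit 456) (nat_lit 0) (XT.nd (nat_lit 156) (nat_lit 152) (nat_lit 0) (XT.nd (nat_lit 78) (nat_lit 304) (nat_lit 0) (XT.lf (nat_lit 0) (nat_lit 10901917450) (nat_lit 152) (nat_lit 76962910) (nat_lit 228) (nat_lit 4882226157) (nat_lit 62) (nat_lit 5) (nat_lit 64) (nat_lit 5) (nat_lit 65) (nat_lit 5) (nat_lit 642) (nat_lit 505) (nat_lit 413)) (XT.lf (nat_lit 0) (nat_lit 477232299) (nat_lit 304) (nat_lit 9645806479) (nat_lit 76) (nat_lit 5928472310) (nat_lit 58) (nat_lit 5) (nat_lit 62) (nat_lit 5) (nat_lit 59) (nat_lit 5) (nat_lit 643) (nat_lit 505) (nat_lit 412))) (XT.nd (nat_lit 78) (nat_lit 0) (nat_lit 0) (XT.lf (nat_lit 0) (nat_lit 1754808331) (nat_lit 152) (nat_lit 4138603223) (nat_lit 228) (nat_lit 10351368920) (nat_lit 56) (nat_lit 5)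 (nat_lit 58) (nat_lit 5) (nat_lit 59) (nat_lit 5) (nat_lit 644) (nat_lit 505) (nat_lit 411)) (XT.lf (nat_lit 0) (nat_lit 11465358153) (nat_lit 228) (nat_lit 2994912746) (nat_lit 76) (nat_lit 1980695715) (nat_lit 56) (nat_lit 5) (nat_lit 59) (nat_lit 5) (nat_lit 57) (nat_lit 5) (nat_lit 645) (nat_lit 505) (nat_lit 410)))) (XT.nd (nat_lit 73554) (nat_lit 0) (nat_lit 44156) (XT.nd (nat_lit 78) (nat_lit 152) (nat_lit 0) (XT.lf (nat_lit 0) (nat_lit 555797578) (nat_lit 304) (nat_lit 7880276413) (nat_lit 76) (nat_lit 8203841025) (nat_lit 52) (nat_lit 5) (nat_lit 56) (nat_lit 5) (nat_lit 53) (nat_lit 5) (nat_lit 646) (nat_lit 505) (nat_lit 409)) (XT.lf (nat_lit 0) (nat_lit 3911407168) (nat_lit 152) (nat_lit 2235651854) (nat_lit 228) (nat_lit 10694808804) (nat_lit 50) (nat_lit 5) (nat_lit 52) (nat_lit 5) (nat_lit 53) (nat_lit 5) (nat_lit 647) (nat_lit 505) (nat_lit 408))) (XT.nd (nat_lit 78) (nat_lit 1292) (nat_lit 0) (XT.lf (nat_lit 0) (nat_lit 1317741948) (nat_lit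 1292) (nat_lit 771902775) (nat_lit 0) (nat_lit 1317741948) (nat_lit 648) (nat_lit 5) (nat_lit 665) (nat_lit 4) (nat_lit 648) (nat_lit 4) (nat_lit 548) (nat_lit 506) (nat_lit 506)) (XT.lf (nat_lit 0) (nat_lit 3216936792) (nat_lit 1292) (nat_lit 2830887328) (nat_lit 1292) (nat_lit 794256410) (nat_lit 631) (nat_lit 4) (nat_lit 648) (nat_lit 5) (nat_lit 648) (nat_lit 4) (nat_lit 549) (nat_lit 506) (nat_lit 505))))) (XT.nd (nat_lit 312) (nat_lit 5168) (nat_lit 0) (XT.nd (nat_lit 156) (nat_lit 3040) (nat_lit 0) (XT.nd (nat_lit 78) (nat_lit 0) (nat_lit 0) (XT.lf (nat_lit 0) (nat_lit 1158301326) (nat_lit 1368) (nat_lit 1411812150) (nat_lit 1444) (nat_lit 4300548294) (nat_lit 612) (nat_lit 5) (nat_lit 630) (nat_lit 5) (nat_lit 631) (nat_lit 4) (nat_lit 550) (nat_lit 506) (nat_lit 504)) (XT.lf (nat_lit 0) (nat_lit 5945455756) (nat_lit 1444) (nat_lit 883120665) (nat_lit 0) (nat_lit 72049919) (nat_lit 612) (nat_lit 5) (nat_lit 631) (nat_lit 4) (nat_lit 612) (nat_lit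 4) (nat_lit 551) (nat_lit 506) (nat_lit 503))) (XT.nd (nat_lit 78) (nat_lit 1520) (nat_lit 0) (XT.lf (nat_lit 0) (nat_lit 2391103165) (nat_lit 1520) (nat_lit 2924909599) (nat_lit 76) (nat_lit 1615537085) (nat_lit 592) (nat_lit 5) (nat_lit 612) (nat_lit 5) (nat_lit 593) (nat_lit 4) (nat_lit 552) (nat_lit 506) (nat_lit 502)) (XT.lf (nat_lit 0) (nat_lit 1999124937) (nat_lit 1520) (nat_lit 3742806895) (nat_lit 1596) (nat_lit 1222028270) (nat_lit 572) (nat_lit 5) (nat_lit 592) (nat_lit 5) (nat_lit 593) (nat_lit 4) (nat_lit 553) (nat_lit 506) (nat_lit 501)))) (XT.nd (nat_lit 156) (nat_lit 3496) (nat_lit 0) (XT.nd (nat_lit 78) (nat_lit 1596) (nat_lit 0) (XT.lf (nat_lit 0) (nat_lit 2086094355) (nat_lit 1596) (nat_lit 13919760) (nat_lit 76) (nat_lit 4897692406) (nat_lit 571) (nat_lit 5) (nat_lit 592) (nat_lit 5) (nat_lit 572) (nat_lit 5) (nat_lit 554) (nat_lit 506) (nat_lit 500)) (XT.lf (nat_lit 0) (nat_lit 5030753435) (nat_lit 1596) (nat_lit 379218916) (nat_lit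 1672) (nat_lit 1622677609) (nat_lit 550) (nat_lit 5) (nat_lit 571) (nat_lit 5) (nat_lit 572) (nat_lit 5) (nat_lit 555) (nat_lit 506) (nat_lit 499))) (XT.nd (nat_lit 78) (nat_lit 1748) (nat_lit 0) (XT.lf (nat_lit 0) (nat_lit 1672268298) (nat_lit 1748) (nat_lit 4004483158) (nat_lit 76) (nat_lit 1392059584) (nat_lit 527) (nat_lit 5) (nat_lit 550) (nat_lit 5) (nat_lit 528) (nat_lit 5) (nat_lit 556) (nat_lit 506) (nat_lit 498)) (XT.lf (nat_lit 0) (nat_lit 1090015277) (nat_lit 1748) (nat_lit 3879144764) (nat_lit 1824) (nat_lit 2137167893) (nat_lit 504) (nat_lit 5) (nat_lit 527) (nat_lit 5) (nat_lit 528) (nat_lit 5) (nat_lit 557) (nat_lit 506) (nat_lit 497))))))))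
noncomputable def xc42 : XT := (XT.nd (nat_lit 2418) (nat_lit 9880) (nat_lit 0) (XT.nd (nat_lit 1170) (nat_lit 8056) (nat_lit 0) (XT.nd (nat_lit 546) (nat_lit 5168) (nat_lit 0) (XT.nd (nat_lit 234) (nat_lit 2736) (nat_lit 0) (XT.nd (nat_lit 78) (nat_lit 3040) (nat_lit 0) (XT.lf (nat_lit 0) (nat_lit 1133950482) (nat_lit 1824) (nat_lit 876220586) (nat_lit 76) (nat_lit 5135029835) (nat_lit 503) (nat_lit 5) (nat_lit 527) (nat_lit 5) (nat_lit 504) (nat_lit 5) (nat_lit 558) (nat_lit 506) (nat_lit 496)) (XT.nd (nat_lit 78) (nat_lit 1216) (nat_lit 0) (XT.lf (nat_lit 0) (nat_lit 4345828918) (nat_lit 1824) (nat_lit 60640121) (nat_lit 1900) (nat_lit 2778810323) (nat_lit 479) (nat_lit 5) (nat_lit 503) (nat_lit 5) (nat_lit 504) (nat_lit 5) (nat_lit 559) (nat_lit 506) (nat_lit 495)) (XT.lf (nat_lit 0) (nat_lit 482575621) (nat_lit 1216) (nat_lit 4817192632) (nat_lit 76) (nat_lit 1926904305) (nat_lit 463) (nat_lit 5) (nat_lit 479) (nat_lit 5) (nat_lit 464) (nat_lit 5)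 (nat_lit 560) (nat_lit 506) (nat_lit 494)))) (XT.nd (nat_lit 156) (nat_lit 1824) (nat_lit 0) (XT.nd (nat_lit 78) (nat_lit 0) (nat_lit 0) (XT.lf (nat_lit 0) (nat_lit 455477853) (nat_lit 912) (nat_lit 3276665743) (nat_lit 988) (nat_lit 3537181725) (nat_lit 451) (nat_lit 5) (nat_lit 463) (nat_lit 5) (nat_lit 464) (nat_lit 5) (nat_lit 561) (nat_lit 506) (nat_lit 493)) (XT.lf (nat_lit 0) (nat_lit 5834396047) (nat_lit 912) (nat_lit 1183026284) (nat_lit 988) (nat_lit 295996686) (nat_lit 451) (nat_lit 5) (nat_lit 463) (nat_lit 5) (nat_lit 464) (nat_lit 5) (nat_lit 562) (nat_lit 506) (nat_lit 492))) (XT.nd (nat_lit 78) (nat_lit 836) (nat_lit 0) (XT.lf (nat_lit 0) (nat_lit 2941715112) (nat_lit 988) (nat_lit 3434718820) (nat_lit 76) (nat_lit 982148373) (nat_lit 438) (nat_lit 5) (nat_lit 451) (nat_lit 5) (nat_lit 439) (nat_lit 5) (nat_lit 563) (nat_lit 506) (nat_lit 491)) (XT.lf (nat_lit 0) (nat_lit 2001994599) (nat_lit 836) (nat_lit 4209005427) (nat_lit 912) (nat_lit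 1194196193) (nat_lit 427) (nat_lit 5) (nat_lit 438) (nat_lit 5) (nat_lit 439) (nat_lit 5) (nat_lit 564) (nat_lit 506) (nat_lit 490))))) (XT.nd (nat_lit 312) (nat_lit 2432) (nat_lit 0) (XT.nd (nat_lit 156) (nat_lit 1748) (nat_lit 0) (XT.nd (nat_lit 78) (nat_lit 0) (nat_lit 0) (XT.lf (nat_lit 0) (nat_lit 63636650) (nat_lit 912) (nat_lit 1965776624) (nat_lit 988) (nat_lit 5423780733) (nat_lit 414) (nat_lit 5) (nat_lit 426) (nat_lit 5) (nat_lit 427) (nat_lit 5) (nat_lit 565) (nat_lit 506) (nat_lit 489)) (XT.lf (nat_lit 0) (nat_lit 5281142388) (nat_lit 988) (nat_lit 1864504549) (nat_lit 76) (nat_lit 356756199) (nat_lit 414) (nat_lit 5) (nat_lit 427) (nat_lit 5) (nat_lit 415) (nat_lit 5) (nat_lit 566) (nat_lit 506) (nat_lit 488))) (XT.nd (nat_lit 78) (nat_lit 836) (nat_lit 0) (XT.lf (nat_lit 0) (nat_lit 1010967720) (nat_lit 912) (nat_lit 3817142824) (nat_lit 76) (nat_lit 2724764748) (nat_lit 402) (nat_lit 5) (nat_lit 414) (nat_lit 5) (nat_lit 403) (nat_lit 5)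 (nat_lit 567) (nat_lit 506) (nat_lit 487)) (XT.lf (nat_lit 0) (nat_lit 1813189698) (nat_lit 836) (nat_lit 2431828067) (nat_lit 912) (nat_lit 3359708980) (nat_lit 391) (nat_lit 5) (nat_lit 402) (nat_lit 5) (nat_lit 403) (nat_lit 5) (nat_lit 568) (nat_lit 506) (nat_lit 486)))) (XT.nd (nat_lit 156) (nat_lit 1596) (nat_lit 0) (XT.nd (nat_lit 78) (nat_lit 836) (nat_lit 0) (XT.lf (nat_lit 0) (nat_lit 7512796481) (nat_lit 912) (nat_lit 115080218) (nat_lit 76) (nat_lit 30359432) (nat_lit 391) (nat_lit 5) (nat_lit 403) (nat_lit 5) (nat_lit 392) (nat_lit 5) (nat_lit 569) (nat_lit 506) (nat_lit 485)) (XT.lf (nat_lit 0) (nat_lit 3089210758) (nat_lit 836) (nat_lit 2064360680) (nat_lit 76) (nat_lit 2558895468) (nat_lit 380) (nat_lit 5) (nat_lit 391) (nat_lit 5) (nat_lit 381) (nat_lit 5) (nat_lit 570) (nat_lit 506) (nat_lit 484))) (XT.nd (nat_lit 78) (nat_lit 836) (nat_lit 0) (XT.lf (nat_lit 0) (nat_lit 3743855484) (nat_lit 760) (nat_lit 2612445952) (nat_lit 836) (nat_lit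 1412069491) (nat_lit 370) (nat_lit 5) (nat_lit 380) (nat_lit 5) (nat_lit 381) (nat_lit 5) (nat_lit 571) (nat_lit 506) (nat_lit 483)) (XT.lf (nat_lit 0) (nat_lit 1809616723) (nat_lit 836) (nat_lit 6007974596) (nat_lit 76) (nat_lit 8147154) (nat_lit 359) (nat_lit 5) (nat_lit 370) (nat_lit 5) (nat_lit 360) (nat_lit 5) (nat_lit 572) (nat_lit 506) (nat_lit 482)))))) (XT.nd (nat_lit 624) (nat_lit 3724) (nat_lit 0) (XT.nd (nat_lit 312) (nat_lit 2128) (nat_lit 0) (XT.nd (nat_lit 156) (nat_lit 1368) (nat_lit 0) (XT.nd (nat_lit 78) (nat_lit 836) (nat_lit 0) (XT.lf (nat_lit 0) (nat_lit 5066842103) (nat_lit 836) (nat_lit 144635485) (nat_lit 76) (nat_lit 2672790496) (nat_lit 359) (nat_lit 5) (nat_lit 370) (nat_lit 5) (nat_lit 360) (nat_lit 5) (nat_lit 573) (nat_lit 506) (nat_lit 481)) (XT.lf (nat_lit 0) (nat_lit 423849581) (nat_lit 836) (nat_lit 2098642010) (nat_lit 76) (nat_lit 5421731560) (nat_lit 348) (nat_lit 5) (nat_lit 359) (nat_lit 5) (nat_lit 349) (nat_lit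 5) (nat_lit 574) (nat_lit 506) (nat_lit 480))) (XT.nd (nat_lit 78) (nat_lit 684) (nat_lit 0) (XT.lf (nat_lit 0) (nat_lit 3667205724) (nat_lit 760) (nat_lit 4086770998) (nat_lit 76) (nat_lit 251530082) (nat_lit 339) (nat_lit 5) (nat_lit 349) (nat_lit 5) (nat_lit 340) (nat_lit 5) (nat_lit 575) (nat_lit 506) (nat_lit 479)) (XT.lf (nat_lit 0) (nat_lit 1961009607) (nat_lit 684) (nat_lit 5005442853) (nat_lit 760) (nat_lit 1101744724) (nat_lit 330) (nat_lit 5) (nat_lit 339) (nat_lit 5) (nat_lit 340) (nat_lit 5) (nat_lit 576) (nat_lit 506) (nat_lit 478)))) (XT.nd (nat_lit 156) (nat_lit 1368) (nat_lit 0) (XT.nd (nat_lit 78) (nat_lit 684) (nat_lit 0) (XT.lf (nat_lit 0) (nat_lit 2145976838) (nat_lit 760) (nat_lit 26266184) (nat_lit 76) (nat_lit 5960108569) (nat_lit 329) (nat_lit 5) (nat_lit 339) (nat_lit 5) (nat_lit 330) (nat_lit 5) (nat_lit 577) (nat_lit 506) (nat_lit 477)) (XT.lf (nat_lit 0) (nat_lit 5437670194) (nat_lit 760) (nat_lit 2016722067) (nat_lit 76) (nat_lit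 743377217) (nat_lit 320) (nat_lit 5) (nat_lit 330) (nat_lit 5) (nat_lit 321) (nat_lit 5) (nat_lit 578) (nat_lit 506) (nat_lit 476))) (XT.nd (nat_lit 78) (nat_lit 608) (nat_lit 0) (XT.lf (nat_lit 0) (nat_lit 514885207) (nat_lit 760) (nat_lit 4043249441) (nat_lit 76) (nat_lit 3706470667) (nat_lit 310) (nat_lit 5) (nat_lit 320) (nat_lit 5) (nat_lit 311) (nat_lit 5) (nat_lit 579) (nat_lit 506) (nat_lit 475)) (XT.lf (nat_lit 0) (nat_lit 2225007764) (nat_lit 608) (nat_lit 1570962995) (nat_lit 684) (nat_lit 4536892397) (nat_lit 302) (nat_lit 5) (nat_lit 310) (nat_lit 5) (nat_lit 311) (nat_lit 5) (nat_lit 580) (nat_lit 506) (nat_lit 474))))) (XT.nd (nat_lit 312) (nat_lit 1748) (nat_lit 0) (XT.nd (nat_lit 156) (nat_lit 1292) (nat_lit 0) (XT.nd (nat_lit 78) (nat_lit 76) (nat_lit 0) (XT.lf (nat_lit 0) (nat_lit 199030598) (nat_lit 608) (nat_lit 6931769184) (nat_lit 684) (nat_lit 1271925263) (nat_lit 294) (nat_lit 5) (nat_lit 302) (nat_lit 5) (nat_lit 303) (nat_lit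 5) (nat_lit 581) (nat_lit 506) (nat_lit 473)) (XT.lf (nat_lit 0) (nat_lit 2033173723) (nat_lit 684) (nat_lit 1847900780) (nat_lit 76) (nat_lit 4592607104) (nat_lit 293) (nat_lit 5) (nat_lit 302) (nat_lit 5) (nat_lit 294) (nat_lit 5) (nat_lit 582) (nat_lit 506) (nat_lit 472))) (XT.nd (nat_lit 78) (nat_lit 684) (nat_lit 0) (XT.lf (nat_lit 0) (nat_lit 4622956555) (nat_lit 608) (nat_lit 745561348) (nat_lit 684) (nat_lit 3177749012) (nat_lit 285) (nat_lit 5) (nat_lit 293) (nat_lit 5) (nat_lit 294) (nat_lit 5) (nat_lit 583) (nat_lit 506) (nat_lit 471)) (XT.lf (nat_lit 0) (nat_lit 145024135) (nat_lit 684) (nat_lit 6039955339) (nat_lit 76) (nat_lit 2435371549) (nat_lit 276) (nat_lit 5) (nat_lit 285) (nat_lit 5) (nat_lit 277) (nat_lit 5) (nat_lit 584) (nat_lit 506) (nat_lit 470)))) (XT.nd (nat_lit 156) (nat_lit 1216) (nat_lit 0) (XT.nd (nat_lit 78) (nat_lit 0) (nat_lit 0) (XT.lf (nat_lit 0) (nat_lit 487281569) (nat_lit 532) (nat_lit 2990863437) (nat_lit 608) (nat_lit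 5217624041) (nat_lit 269) (nat_lit 5) (nat_lit 276) (nat_lit 5) (nat_lit 277) (nat_lit 5) (nat_lit 585) (nat_lit 506) (nat_lit 469)) (XT.lf (nat_lit 0) (nat_lit 6872679060) (nat_lit 608) (nat_lit 1612289346) (nat_lit 76) (nat_lit 287833166) (nat_lit 269) (nat_lit 5) (nat_lit 277) (nat_lit 5) (nat_lit 270) (nat_lit 5) (nat_lit 586) (nat_lit 506) (nat_lit 468))) (XT.nd (nat_lit 78) (nat_lit 532) (nat_lit 0) (XT.lf (nat_lit 0) (nat_lit 1470374401) (nat_lit 684) (nat_lit 3762087126) (nat_lit 76) (nat_lit 3618599570) (nat_lit 260) (nat_lit 5) (nat_lit 269) (nat_lit 5) (nat_lit 261) (nat_lit 5) (nat_lit 587) (nat_lit 506) (nat_lit 467)) (XT.lf (nat_lit 0) (nat_lit 2977587925) (nat_lit 532) (nat_lit 1888848887) (nat_lit 608) (nat_lit 4064526928) (nat_lit 253) (nat_lit 5) (nat_lit 260) (nat_lit 5) (nat_lit 261) (nat_lit 5) (nat_lit 588) (nat_lit 506) (nat_lit 466))))))) (XT.nd (nat_lit 1170) (nat_lit 4484) (nat_lit 0) (XT.nd (nat_lit 546) (nat_lit 2736) (nat_lit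 0) (XT.nd (nat_lit 234) (nat_lit 1596) (nat_lit 0) (XT.nd (nat_lit 78) (nat_lit 532) (nat_lit 0) (XT.lf (nat_lit 0) (nat_lit 827252896) (nat_lit 532) (nat_lit 7497567287) (nat_lit 608) (nat_lit 687757328) (nat_lit 246) (nat_lit 5) (nat_lit 253) (nat_lit 5) (nat_lit 254) (nat_lit 5) (nat_lit 589) (nat_lit 506) (nat_lit 465)) (XT.nd (nat_lit 78) (nat_lit 456) (nat_lit 0) (XT.lf (nat_lit 0) (nat_lit 2727041244) (nat_lit 608) (nat_lit 1366332769) (nat_lit 76) (nat_lit 5001959699) (nat_lit 245) (nat_lit 5) (nat_lit 253) (nat_lit 5) (nat_lit 246) (nat_lit 5) (nat_lit 590) (nat_lit 506) (nat_lit 464)) (XT.lf (nat_lit 0) (nat_lit 5594294470) (nat_lit 456) (nat_lit 597788617) (nat_lit 532) (nat_lit 2987748908) (nat_lit 239) (nat_lit 5) (nat_lit 245) (nat_lit 5) (nat_lit 246) (nat_lit 5) (nat_lit 591) (nat_lit 506) (nat_lit 463)))) (XT.nd (nat_lit 156) (nat_lit 532) (nat_lit 0) (XT.nd (nat_lit 78) (nat_lit 456) (nat_lit 0) (XT.lf (nat_lit 0) (nat_lit 460213298)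 (nat_lit 608) (nat_lit 5860660323) (nat_lit 76) (nat_lit 2944970882) (nat_lit 231) (nat_lit 5) (nat_lit 239) (nat_lit 5) (nat_lit 232) (nat_lit 5) (nat_lit 592) (nat_lit 506) (nat_lit 462)) (XT.lf (nat_lit 0) (nat_lit 1158424752) (nat_lit 456) (nat_lit 2769795552) (nat_lit 532) (nat_lit 5425141094) (nat_lit 225) (nat_lit 5) (nat_lit 231) (nat_lit 5) (nat_lit 232) (nat_lit 5) (nat_lit 593) (nat_lit 506) (nat_lit 461))) (XT.nd (nat_lit 78) (nat_lit 532) (nat_lit 0) (XT.lf (nat_lit 0) (nat_lit 7466399070) (nat_lit 532) (nat_lit 1114729128) (nat_lit 76) (nat_lit 861485132) (nat_lit 225) (nat_lit 5) (nat_lit 232) (nat_lit 5) (nat_lit 226) (nat_lit 5) (nat_lit 594) (nat_lit 506) (nat_lit 460)) (XT.lf (nat_lit 0) (nat_lit 1536110091) (nat_lit 532) (nat_lit 3437814012) (nat_lit 76) (nat_lit 4559234126) (nat_lit 218) (nat_lit 5) (nat_lit 225) (nat_lit 5) (nat_lit 219) (nat_lit 5) (nat_lit 595) (nat_lit 506) (nat_lit 459))))) (XT.nd (nat_lit 312) (nat_lit 1368)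 (nat_lit 0) (XT.nd (nat_lit 156) (nat_lit 456) (nat_lit 0) (XT.nd (nat_lit 78) (nat_lit 456) (nat_lit 0) (XT.lf (nat_lit 0) (nat_lit 3812910555) (nat_lit 456) (nat_lit 1268336432) (nat_lit 532) (nat_lit 4544226108) (nat_lit 212) (nat_lit 5) (nat_lit 218) (nat_lit 5) (nat_lit 219) (nat_lit 5) (nat_lit 596) (nat_lit 506) (nat_lit 458)) (XT.lf (nat_lit 0) (nat_lit 1475332973) (nat_lit 456) (nat_lit 7228087143) (nat_lit 532) (nat_lit 1016092330) (nat_lit 206) (nat_lit 5) (nat_lit 212) (nat_lit 5) (nat_lit 213) (nat_lit 5) (nat_lit 597) (nat_lit 506) (nat_lit 457))) (XT.nd (nat_lit 78) (nat_lit 380) (nat_lit 0) (XT.lf (nat_lit 0) (nat_lit 2553572559) (nat_lit 532) (nat_lit 916087703) (nat_lit 76) (nat_lit 6345340995) (nat_lit 205) (nat_lit 5) (nat_lit 212) (nat_lit 5) (nat_lit 206) (nat_lit 5) (nat_lit 598) (nat_lit 506) (nat_lit 456)) (XT.lf (nat_lit 0) (nat_lit 6184303710) (nat_lit 456) (nat_lit 3339268299) (nat_lit 76) (nat_lit 388628747) (nat_lit 200) (nat_lit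 5) (nat_lit 206) (nat_lit 5) (nat_lit 201) (nat_lit 5) (nat_lit 599) (nat_lit 506) (nat_lit 455)))) (XT.nd (nat_lit 156) (nat_lit 456) (nat_lit 0) (XT.nd (nat_lit 78) (nat_lit 456) (nat_lit 0) (XT.lf (nat_lit 0) (nat_lit 4181934757) (nat_lit 456) (nat_lit 5720335195) (nat_lit 532) (nat_lit 108782676) (nat_lit 194) (nat_lit 5) (nat_lit 200) (nat_lit 5) (nat_lit 201) (nat_lit 5) (nat_lit 600) (nat_lit 506) (nat_lit 454)) (XT.lf (nat_lit 0) (nat_lit 1723626314) (nat_lit 380) (nat_lit 1804288064) (nat_lit 456) (nat_lit 6583658929) (nat_lit 188) (nat_lit 5) (nat_lit 193) (nat_lit 5) (nat_lit 194) (nat_lit 5) (nat_lit 601) (nat_lit 506) (nat_lit 453))) (XT.nd (nat_lit 78) (nat_lit 456) (nat_lit 0) (XT.lf (nat_lit 0) (nat_lit 7248195701) (nat_lit 456) (nat_lit 785313736) (nat_lit 76) (nat_lit 2180335191) (nat_lit 188) (nat_lit 5) (nat_lit 194) (nat_lit 5) (nat_lit 189) (nat_lit 5) (nat_lit 602) (nat_lit 506) (nat_lit 452)) (XT.lf (nat_lit 0) (nat_lit 732160989)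 (nat_lit 456) (nat_lit 3335575879) (nat_lit 76) (nat_lit 6249992226) (nat_lit 182) (nat_lit 5) (nat_lit 188) (nat_lit 5) (nat_lit 183) (nat_lit 5) (nat_lit 603) (nat_lit 506) (nat_lit 451)))))) (XT.nd (nat_lit 624) (nat_lit 2128) (nat_lit 0) (XT.nd (nat_lit 312) (nat_lit 1140) (nat_lit 0) (XT.nd (nat_lit 156) (nat_lit 456) (nat_lit 0) (XT.nd (nat_lit 78) (nat_lit 380) (nat_lit 0) (XT.lf (nat_lit 0) (nat_lit 4458290478) (nat_lit 456) (nat_lit 5954647876) (nat_lit 76) (nat_lit 10480073) (nat_lit 177) (nat_lit 5) (nat_lit 183) (nat_lit 5) (nat_lit 178) (nat_lit 5) (nat_lit 604) (nat_lit 506) (nat_lit 450)) (XT.lf (nat_lit 0) (nat_lit 1878826307) (nat_lit 380) (nat_lit 6401682392) (nat_lit 456) (nat_lit 2250282216) (nat_lit 172) (nat_lit 5) (nat_lit 177) (nat_lit 5) (nat_lit 178) (nat_lit 5) (nat_lit 605) (nat_lit 506) (nat_lit 449))) (XT.nd (nat_lit 78) (nat_lit 380) (nat_lit 0) (XT.lf (nat_lit 0) (nat_lit 1518918970) (nat_lit 456) (nat_lit 762575069) (nat_lit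 76) (nat_lit 8358612833) (nat_lit 171) (nat_lit 5) (nat_lit 177) (nat_lit 5) (nat_lit 172) (nat_lit 5) (nat_lit 606) (nat_lit 506) (nat_lit 448)) (XT.lf (nat_lit 0) (nat_lit 5354368950) (nat_lit 456) (nat_lit 3459662640) (nat_lit 76) (nat_lit 1936860800) (nat_lit 166) (nat_lit 5) (nat_lit 172) (nat_lit 5) (nat_lit 167) (nat_lit 5) (nat_lit 607) (nat_lit 506) (nat_lit 447)))) (XT.nd (nat_lit 156) (nat_lit 380) (nat_lit 0) (XT.nd (nat_lit 78) (nat_lit 380) (nat_lit 0) (XT.lf (nat_lit 0) (nat_lit 4636826156) (nat_lit 380) (nat_lit 4641099329) (nat_lit 456) (nat_lit 1585740818) (nat_lit 161) (nat_lit 5) (nat_lit 166) (nat_lit 5) (nat_lit 167) (nat_lit 5) (nat_lit 608) (nat_lit 506) (nat_lit 446)) (XT.lf (nat_lit 0) (nat_lit 1912282656) (nat_lit 304) (nat_lit 355722071) (nat_lit 380) (nat_lit 8710454184) (nat_lit 156) (nat_lit 5) (nat_lit 160) (nat_lit 5) (nat_lit 161) (nat_lit 5) (nat_lit 609) (nat_lit 506) (nat_lit 445))) (XT.nd (nat_lit 78) (nat_lit 380)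 (nat_lit 0) (XT.lf (nat_lit 0) (nat_lit 6207104455) (nat_lit 380) (nat_lit 894795867) (nat_lit 76) (nat_lit 3992847767) (nat_lit 156) (nat_lit 5) (nat_lit 161) (nat_lit 5) (nat_lit 157) (nat_lit 5) (nat_lit 610) (nat_lit 506) (nat_lit 444)) (XT.lf (nat_lit 0) (nat_lit 7475075807) (nat_lit 380) (nat_lit 2762916938) (nat_lit 456) (nat_lit 975110765) (nat_lit 151) (nat_lit 5) (nat_lit 156) (nat_lit 5) (nat_lit 157) (nat_lit 5) (nat_lit 611) (nat_lit 506) (nat_lit 443))))) (XT.nd (nat_lit 312) (nat_lit 988) (nat_lit 0) (XT.nd (nat_lit 156) (nat_lit 380) (nat_lit 0) (XT.nd (nat_lit 78) (nat_lit 380) (nat_lit 0) (XT.lf (nat_lit 0) (nat_lit 2985735998) (nat_lit 380) (nat_lit 6672783547) (nat_lit 76) (nat_lit 1674723179) (nat_lit 146) (nat_lit 5) (nat_lit 151) (nat_lit 5) (nat_lit 147) (nat_lit 5) (nat_lit 612) (nat_lit 506) (nat_lit 442)) (XT.lf (nat_lit 0) (nat_lit 1759535654) (nat_lit 380) (nat_lit 5270612142) (nat_lit 456) (nat_lit 4425160475) (nat_lit 141)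 (nat_lit 5) (nat_lit 146) (nat_lit 5) (nat_lit 147) (nat_lit 5) (nat_lit 613) (nat_lit 506) (nat_lit 441))) (XT.nd (nat_lit 78) (nat_lit 380) (nat_lit 0) (XT.lf (nat_lit 0) (nat_lit 10390430976) (nat_lit 380) (nat_lit 772559482) (nat_lit 456) (nat_lit 416674362) (nat_lit 141) (nat_lit 5) (nat_lit 146) (nat_lit 5) (nat_lit 147) (nat_lit 5) (nat_lit 614) (nat_lit 506) (nat_lit 440)) (XT.lf (nat_lit 0) (nat_lit 3660887449) (nat_lit 380) (nat_lit 4228732871) (nat_lit 76) (nat_lit 3815670594) (nat_lit 136) (nat_lit 5) (nat_lit 141) (nat_lit 5) (nat_lit 137) (nat_lit 5) (nat_lit 615) (nat_lit 506) (nat_lit 439)))) (XT.nd (nat_lit 156) (nat_lit 304) (nat_lit 0) (XT.nd (nat_lit 78) (nat_lit 380) (nat_lit 0) (XT.lf (nat_lit 0) (nat_lit 4489458180) (nat_lit 304) (nat_lit 3330704118) (nat_lit 380) (nat_lit 4013097837) (nat_lit 132) (nat_lit 5) (nat_lit 136) (nat_lit 5) (nat_lit 137) (nat_lit 5) (nat_lit 616) (nat_lit 506) (nat_lit 438)) (XT.lf (nat_lit 0) (nat_lit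 107608279) (nat_lit 380) (nat_lit 10538425445) (nat_lit 76) (nat_lit 1317541265) (nat_lit 127) (nat_lit 5) (nat_lit 132) (nat_lit 5) (nat_lit 128) (nat_lit 5) (nat_lit 617) (nat_lit 506) (nat_lit 437))) (XT.nd (nat_lit 78) (nat_lit 304) (nat_lit 0) (XT.lf (nat_lit 0) (nat_lit 4292409893) (nat_lit 380) (nat_lit 1735719052) (nat_lit 76) (nat_lit 6067128810) (nat_lit 127) (nat_lit 5) (nat_lit 132) (nat_lit 5) (nat_lit 128) (nat_lit 5) (nat_lit 618) (nat_lit 506) (nat_lit 436)) (XT.lf (nat_lit 0) (nat_lit 7279419264) (nat_lit 304) (nat_lit 1293164567) (nat_lit 380) (nat_lit 3656757295) (nat_lit 123) (nat_lit 5) (nat_lit 127) (nat_lit 5) (nat_lit 128) (nat_lit 5) (nat_lit 619) (nat_lit 506) (nat_lit 435))))))))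
noncomputable def xc43 : XT := (XT.nd (nat_lit 75660) (nat_lit 0) (nat_lit 19608) (XT.nd (nat_lit 1170) (nat_lit 2204) (nat_lit 0) (XT.nd (nat_lit 546) (nat_lit 1596) (nat_lit 0) (XT.nd (nat_lit 234) (nat_lit 912) (nat_lit 0) (XT.nd (nat_lit 78) (nat_lit 304) (nat_lit 0) (XT.lf (nat_lit 0) (nat_lit 590831136) (nat_lit 380) (nat_lit 8265431406) (nat_lit 76) (nat_lit 3509248143) (nat_lit 118) (nat_lit 5) (nat_lit 123) (nat_lit 5) (nat_lit 119) (nat_lit 5) (nat_lit 620) (nat_lit 506) (nat_lit 434)) (XT.nd (nat_lit 78) (nat_lit 0) (nat_lit 0) (XT.lf (nat_lit 0) (nat_lit 812758882) (nat_lit 304) (nat_lit 4073629100) (nat_lit 380) (nat_lit 7617293065) (nat_lit 114) (nat_lit 5) (nat_lit 118) (nat_lit 5) (nat_lit 119) (nat_lit 5) (nat_lit 621) (nat_lit 506) (nat_lit 433)) (XT.lf (nat_lit 0) (nat_lit 9293725360) (nat_lit 380) (nat_lit 2524037861) (nat_lit 76) (nat_lit 826334643) (nat_lit 114) (nat_lit 5) (nat_lit 119) (nat_lit 5) (nat_lit 115) (nat_lit 5) (nat_lit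 622) (nat_lit 506) (nat_lit 432)))) (XT.nd (nat_lit 156) (nat_lit 304) (nat_lit 0) (XT.nd (nat_lit 78) (nat_lit 304) (nat_lit 0) (XT.lf (nat_lit 0) (nat_lit 1025817848) (nat_lit 304) (nat_lit 5962873702) (nat_lit 76) (nat_lit 5797760367) (nat_lit 110) (nat_lit 5) (nat_lit 114) (nat_lit 5) (nat_lit 111) (nat_lit 5) (nat_lit 623) (nat_lit 506) (nat_lit 431)) (XT.lf (nat_lit 0) (nat_lit 3425267890) (nat_lit 304) (nat_lit 2024309066) (nat_lit 380) (nat_lit 7481535457) (nat_lit 106) (nat_lit 5) (nat_lit 110) (nat_lit 5) (nat_lit 111) (nat_lit 5) (nat_lit 624) (nat_lit 506) (nat_lit 430))) (XT.nd (nat_lit 78) (nat_lit 304) (nat_lit 0) (XT.lf (nat_lit 0) (nat_lit 9987542594) (nat_lit 380) (nat_lit 74408695) (nat_lit 76) (nat_lit 3016200610) (nat_lit 106) (nat_lit 5) (nat_lit 111) (nat_lit 5) (nat_lit 107) (nat_lit 5) (nat_lit 625) (nat_lit 506) (nat_lit 429)) (XT.lf (nat_lit 0) (nat_lit 1412339892) (nat_lit 304) (nat_lit 3635813024) (nat_lit 76) (nat_lit 8178951189)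 (nat_lit 102) (nat_lit 5) (nat_lit 106) (nat_lit 5) (nat_lit 103) (nat_lit 5) (nat_lit 626) (nat_lit 506) (nat_lit 428))))) (XT.nd (nat_lit 312) (nat_lit 760) (nat_lit 0) (XT.nd (nat_lit 156) (nat_lit 304) (nat_lit 0) (XT.nd (nat_lit 78) (nat_lit 228) (nat_lit 0) (XT.lf (nat_lit 0) (nat_lit 5971074081) (nat_lit 380) (nat_lit 7305157697) (nat_lit 76) (nat_lit 102253195) (nat_lit 98) (nat_lit 5) (nat_lit 103) (nat_lit 5) (nat_lit 99) (nat_lit 5) (nat_lit 627) (nat_lit 506) (nat_lit 427)) (XT.lf (nat_lit 0) (nat_lit 2434263863) (nat_lit 228) (nat_lit 8227106209) (nat_lit 304) (nat_lit 2870716017) (nat_lit 95) (nat_lit 5) (nat_lit 98) (nat_lit 5) (nat_lit 99) (nat_lit 5) (nat_lit 628) (nat_lit 506) (nat_lit 426))) (XT.nd (nat_lit 78) (nat_lit 228) (nat_lit 0) (XT.lf (nat_lit 0) (nat_lit 1749674079) (nat_lit 304) (nat_lit 1289674743) (nat_lit 76) (nat_lit 10648862631) (nat_lit 94) (nat_lit 5) (nat_lit 98) (nat_lit 5) (nat_lit 95) (nat_lit 5) (nat_lit 629) (nat_lit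 506) (nat_lit 425)) (XT.lf (nat_lit 0) (nat_lit 6463183863) (nat_lit 304) (nat_lit 5107665398) (nat_lit 76) (nat_lit 2275447893) (nat_lit 91) (nat_lit 5) (nat_lit 95) (nat_lit 5) (nat_lit 92) (nat_lit 5) (nat_lit 630) (nat_lit 506) (nat_lit 424)))) (XT.nd (nat_lit 156) (nat_lit 228) (nat_lit 0) (XT.nd (nat_lit 78) (nat_lit 304) (nat_lit 0) (XT.lf (nat_lit 0) (nat_lit 4965903394) (nat_lit 228) (nat_lit 6333573099) (nat_lit 304) (nat_lit 2707498167) (nat_lit 88) (nat_lit 5) (nat_lit 91) (nat_lit 5) (nat_lit 92) (nat_lit 5) (nat_lit 631) (nat_lit 506) (nat_lit 423)) (XT.lf (nat_lit 0) (nat_lit 1083887723) (nat_lit 228) (nat_lit 959732166) (nat_lit 304) (nat_lit 12126797865) (nat_lit 84) (nat_lit 5) (nat_lit 87) (nat_lit 5) (nat_lit 88) (nat_lit 5) (nat_lit 632) (nat_lit 506) (nat_lit 422))) (XT.nd (nat_lit 78) (nat_lit 228) (nat_lit 0) (XT.lf (nat_lit 0) (nat_lit 6911575066) (nat_lit 304) (nat_lit 2906535471) (nat_lit 76) (nat_lit 4517500203) (nat_lit 84)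 (nat_lit 5) (nat_lit 88) (nat_lit 5) (nat_lit 85) (nat_lit 5) (nat_lit 633) (nat_lit 506) (nat_lit 421)) (XT.lf (nat_lit 0) (nat_lit 7513528941) (nat_lit 228) (nat_lit 4386739255) (nat_lit 304) (nat_lit 2603372132) (nat_lit 81) (nat_lit 5) (nat_lit 84) (nat_lit 5) (nat_lit 85) (nat_lit 5) (nat_lit 634) (nat_lit 506) (nat_lit 420)))))) (XT.nd (nat_lit 624) (nat_lit 760) (nat_lit 0) (XT.nd (nat_lit 312) (nat_lit 608) (nat_lit 0) (XT.nd (nat_lit 156) (nat_lit 532) (nat_lit 0) (XT.nd (nat_lit 78) (nat_lit 0) (nat_lit 0) (XT.lf (nat_lit 0) (nat_lit 2301603094) (nat_lit 304) (nat_lit 11200738802) (nat_lit 76) (nat_lit 1172023616) (nat_lit 77) (nat_lit 5) (nat_lit 81) (nat_lit 5) (nat_lit 78) (nat_lit 5) (nat_lit 635) (nat_lit 506) (nat_lit 419)) (XT.lf (nat_lit 0) (nat_lit 7314521552) (nat_lit 304) (nat_lit 708654728) (nat_lit 76) (nat_lit 6824090997) (nat_lit 77) (nat_lit 5) (nat_lit 81) (nat_lit 5) (nat_lit 78) (nat_lit 5) (nat_lit 636) (nat_lit 506) (nat_lit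 418))) (XT.nd (nat_lit 78) (nat_lit 304) (nat_lit 0) (XT.lf (nat_lit 0) (nat_lit 10070566681) (nat_lit 228) (nat_lit 2391537153) (nat_lit 304) (nat_lit 2560835427) (nat_lit 74) (nat_lit 5) (nat_lit 77) (nat_lit 5) (nat_lit 78) (nat_lit 5) (nat_lit 637) (nat_lit 506) (nat_lit 417)) (XT.lf (nat_lit 0) (nat_lit 2511620222) (nat_lit 304) (nat_lit 9344676175) (nat_lit 76) (nat_lit 3344821914) (nat_lit 70) (nat_lit 5) (nat_lit 74) (nat_lit 5) (nat_lit 71) (nat_lit 5) (nat_lit 638) (nat_lit 506) (nat_lit 416)))) (XT.nd (nat_lit 156) (nat_lit 456) (nat_lit 0) (XT.nd (nat_lit 78) (nat_lit 0) (nat_lit 0) (XT.lf (nat_lit 0) (nat_lit 1498066625) (nat_lit 152) (nat_lit 6181387657) (nat_lit 228) (nat_lit 7702504020) (nat_lit 68) (nat_lit 5) (nat_lit 70) (nat_lit 5) (nat_lit 71) (nat_lit 5) (nat_lit 639) (nat_lit 506) (nat_lit 415)) (XT.lf (nat_lit 0) (nat_lit 12629764103) (nat_lit 152) (nat_lit 353008116) (nat_lit 228) (nat_lit 2583000599) (nat_lit 68) (nat_lit 5) (nat_lit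 70) (nat_lit 5) (nat_lit 71) (nat_lit 5) (nat_lit 640) (nat_lit 506) (nat_lit 414))) (XT.nd (nat_lit 78) (nat_lit 152) (nat_lit 0) (XT.lf (nat_lit 0) (nat_lit 2664408062) (nat_lit 304) (nat_lit 7520835890) (nat_lit 76) (nat_lit 5566474772) (nat_lit 64) (nat_lit 5) (nat_lit 68) (nat_lit 5) (nat_lit 65) (nat_lit 5) (nat_lit 641) (nat_lit 506) (nat_lit 413)) (XT.lf (nat_lit 0) (nat_lit 3694812850) (nat_lit 152) (nat_lit 4303468728) (nat_lit 228) (nat_lit 7942438693) (nat_lit 62) (nat_lit 5) (nat_lit 64) (nat_lit 5) (nat_lit 65) (nat_lit 5) (nat_lit 642) (nat_lit 506) (nat_lit 412))))) (XT.nd (nat_lit 312) (nat_lit 76) (nat_lit 0) (XT.nd (nat_lit 156) (nat_lit 380) (nat_lit 0) (XT.nd (nat_lit 78) (nat_lit 304) (nat_lit 0) (XT.lf (nat_lit 0) (nat_lit 13470645125) (nat_lit 228) (nat_lit 961196056) (nat_lit 76) (nat_lit 1701024669) (nat_lit 62) (nat_lit 5) (nat_lit 65) (nat_lit 5) (nat_lit 63) (nat_lit 5) (nat_lit 643) (nat_lit 506) (nat_lit 411)) (XT.lf (nat_lit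 0) (nat_lit 2756283679) (nat_lit 304) (nat_lit 5738828395) (nat_lit 76) (nat_lit 7832020786) (nat_lit 58) (nat_lit 5) (nat_lit 62) (nat_lit 5) (nat_lit 59) (nat_lit 5) (nat_lit 644) (nat_lit 506) (nat_lit 410))) (XT.nd (nat_lit 78) (nat_lit 228) (nat_lit 0) (XT.lf (nat_lit 0) (nat_lit 5862825723) (nat_lit 152) (nat_lit 2399904770) (nat_lit 228) (nat_lit 8261898619) (nat_lit 56) (nat_lit 5) (nat_lit 58) (nat_lit 5) (nat_lit 59) (nat_lit 5) (nat_lit 645) (nat_lit 506) (nat_lit 409)) (XT.lf (nat_lit 0) (nat_lit 983720078) (nat_lit 228) (nat_lit 12936231125) (nat_lit 304) (nat_lit 2805311421) (nat_lit 53) (nat_lit 5) (nat_lit 56) (nat_lit 5) (nat_lit 57) (nat_lit 5) (nat_lit 646) (nat_lit 506) (nat_lit 408)))) (XT.nd (nat_lit 73398) (nat_lit 0) (nat_lit 45296) (XT.nd (nat_lit 73320) (nat_lit 0) (nat_lit 46588) (XT.lf (nat_lit 0) (nat_lit 2782865285) (nat_lit 304) (nat_lit 4009271178) (nat_lit 76) (nat_lit 10136240898) (nat_lit 52) (nat_lit 5) (nat_lit 56)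 (nat_lit 5) (nat_lit 53) (nat_lit 5) (nat_lit 647) (nat_lit 506) (nat_lit 407)) (XT.lf (nat_lit 0) (nat_lit 1347917849) (nat_lit 1140) (nat_lit 1016889188) (nat_lit 1140) (nat_lit 1016889188) (nat_lit 665) (nat_lit 4) (nat_lit 680) (nat_lit 5) (nat_lit 680) (nat_lit 4) (nat_lit 546) (nat_lit 507) (nat_lit 507))) (XT.nd (nat_lit 78) (nat_lit 0) (nat_lit 0) (XT.lf (nat_lit 0) (nat_lit 552189997) (nat_lit 1216) (nat_lit 770137133) (nat_lit 1292) (nat_lit 5466579475) (nat_lit 648) (nat_lit 5) (nat_lit 664) (nat_lit 5) (nat_lit 665) (nat_lit 4) (nat_lit 547) (nat_lit 507) (nat_lit 506)) (XT.lf (nat_lit 0) (nat_lit 4677215146) (nat_lit 1292) (nat_lit 1575051785) (nat_lit 0) (nat_lit 563220693) (nat_lit 648) (nat_lit 5) (nat_lit 665) (nat_lit 4) (nat_lit 648) (nat_lit 4) (nat_lit 548) (nat_lit 507) (nat_lit 505))))))) (XT.nd (nat_lit 1170) (nat_lit 9728) (nat_lit 0) (XT.nd (nat_lit 546) (nat_lit 8436) (nat_lit 0) (XT.nd (nat_lit 234) (nat_lit 4712) (nat_lit 0)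 (XT.nd (nat_lit 78) (nat_lit 1444) (nat_lit 0) (XT.lf (nat_lit 0) (nat_lit 1194832725) (nat_lit 1368) (nat_lit 3697129326) (nat_lit 76) (nat_lit 1951383961) (nat_lit 630) (nat_lit 5) (nat_lit 648) (nat_lit 5) (nat_lit 631) (nat_lit 4) (nat_lit 549) (nat_lit 507) (nat_lit 504)) (XT.nd (nat_lit 78) (nat_lit 76) (nat_lit 0) (XT.lf (nat_lit 0) (nat_lit 1048828755) (nat_lit 1368) (nat_lit 3464570375) (nat_lit 1444) (nat_lit 2359134257) (nat_lit 612) (nat_lit 5) (nat_lit 630) (nat_lit 5) (nat_lit 631) (nat_lit 4) (nat_lit 550) (nat_lit 507) (nat_lit 503)) (XT.lf (nat_lit 0) (nat_lit 938408345) (nat_lit 1444) (nat_lit 1031541134) (nat_lit 76) (nat_lit 4933119900) (nat_lit 611) (nat_lit 5) (nat_lit 630) (nat_lit 5) (nat_lit 612) (nat_lit 5) (nat_lit 551) (nat_lit 507) (nat_lit 502)))) (XT.nd (nat_lit 156) (nat_lit 1672) (nat_lit 0) (XT.nd (nat_lit 78) (nat_lit 1596) (nat_lit 0) (XT.lf (nat_lit 0) (nat_lit 3829375795) (nat_lit 1444) (nat_lit 397658150) (nat_lit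 1520) (nat_lit 2707738780) (nat_lit 592) (nat_lit 5) (nat_lit 611) (nat_lit 5) (nat_lit 612) (nat_lit 5) (nat_lit 552) (nat_lit 507) (nat_lit 501)) (XT.lf (nat_lit 0) (nat_lit 565201806) (nat_lit 1596) (nat_lit 5184228950) (nat_lit 76) (nat_lit 1218423691) (nat_lit 571) (nat_lit 5) (nat_lit 592) (nat_lit 5) (nat_lit 572) (nat_lit 5) (nat_lit 553) (nat_lit 507) (nat_lit 500))) (XT.nd (nat_lit 78) (nat_lit 1672) (nat_lit 0) (XT.lf (nat_lit 0) (nat_lit 3824266416) (nat_lit 1596) (nat_lit 272508580) (nat_lit 76) (nat_lit 2905329169) (nat_lit 571) (nat_lit 5) (nat_lit 592) (nat_lit 5) (nat_lit 572) (nat_lit 5) (nat_lit 554) (nat_lit 507) (nat_lit 499)) (XT.lf (nat_lit 0) (nat_lit 75125264) (nat_lit 1672) (nat_lit 2300555963) (nat_lit 76) (nat_lit 4662043555) (nat_lit 549) (nat_lit 5) (nat_lit 571) (nat_lit 5) (nat_lit 550) (nat_lit 5) (nat_lit 555) (nat_lit 507) (nat_lit 498))))) (XT.nd (nat_lit 312) (nat_lit 3116) (nat_lit 0) (XT.nd (nat_lit 156) (nat_lit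 1900) (nat_lit 0) (XT.nd (nat_lit 78) (nat_lit 1748) (nat_lit 0) (XT.lf (nat_lit 0) (nat_lit 2729080155) (nat_lit 1672) (nat_lit 576154917) (nat_lit 1748) (nat_lit 3769312457) (nat_lit 527) (nat_lit 5) (nat_lit 549) (nat_lit 5) (nat_lit 550) (nat_lit 5) (nat_lit 556) (nat_lit 507) (nat_lit 497)) (XT.lf (nat_lit 0) (nat_lit 716559467) (nat_lit 1748) (nat_lit 5847681321) (nat_lit 1824) (nat_lit 548582620) (nat_lit 504) (nat_lit 5) (nat_lit 527) (nat_lit 5) (nat_lit 528) (nat_lit 5) (nat_lit 557) (nat_lit 507) (nat_lit 496))) (XT.nd (nat_lit 78) (nat_lit 1824) (nat_lit 0) (XT.lf (nat_lit 0) (nat_lit 2670192133) (nat_lit 1824) (nat_lit 1298014388) (nat_lit 76) (nat_lit 3183914968) (nat_lit 503) (nat_lit 5) (nat_lit 527) (nat_lit 5) (nat_lit 504) (nat_lit 5) (nat_lit 558) (nat_lit 507) (nat_lit 495)) (XT.lf (nat_lit 0) (nat_lit 3887108752) (nat_lit 1824) (nat_lit 2021732405) (nat_lit 1900) (nat_lit 1284037371) (nat_lit 479) (nat_lit 5) (nat_lit 503) (nat_lit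 5) (nat_lit 504) (nat_lit 5) (nat_lit 559) (nat_lit 507) (nat_lit 494)))) (XT.nd (nat_lit 156) (nat_lit 1900) (nat_lit 0) (XT.nd (nat_lit 78) (nat_lit 0) (nat_lit 0) (XT.lf (nat_lit 0) (nat_lit 1908530673) (nat_lit 1140) (nat_lit 2512319) (nat_lit 1216) (nat_lit 5323969804) (nat_lit 463) (nat_lit 5) (nat_lit 478) (nat_lit 5) (nat_lit 479) (nat_lit 5) (nat_lit 560) (nat_lit 507) (nat_lit 493)) (XT.lf (nat_lit 0) (nat_lit 5127346453) (nat_lit 1216) (nat_lit 91282878) (nat_lit 76) (nat_lit 2059702639) (nat_lit 463) (nat_lit 5) (nat_lit 479) (nat_lit 5) (nat_lit 464) (nat_lit 5) (nat_lit 561) (nat_lit 507) (nat_lit 492))) (XT.nd (nat_lit 78) (nat_lit 912) (nat_lit 0) (XT.lf (nat_lit 0) (nat_lit 1045197475) (nat_lit 988) (nat_lit 2074797418) (nat_lit 76) (nat_lit 4202904364) (nat_lit 450) (nat_lit 5) (nat_lit 463) (nat_lit 5) (nat_lit 451) (nat_lit 5) (nat_lit 562) (nat_lit 507) (nat_lit 491)) (XT.lf (nat_lit 0) (nat_lit 3293315866) (nat_lit 912) (nat_lit 945603953)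 (nat_lit 988) (nat_lit 3129907495) (nat_lit 438) (nat_lit 5) (nat_lit 450) (nat_lit 5) (nat_lit 451) (nat_lit 5) (nat_lit 563) (nat_lit 507) (nat_lit 490)))))) (XT.nd (nat_lit 624) (nat_lit 4560) (nat_lit 0) (XT.nd (nat_lit 312) (nat_lit 2432) (nat_lit 0) (XT.nd (nat_lit 156) (nat_lit 1824) (nat_lit 0) (XT.nd (nat_lit 78) (nat_lit 0) (nat_lit 0) (XT.lf (nat_lit 0) (nat_lit 51618992) (nat_lit 912) (nat_lit 6089539593) (nat_lit 76) (nat_lit 1275070172) (nat_lit 426) (nat_lit 5) (nat_lit 438) (nat_lit 5) (nat_lit 427) (nat_lit 5) (nat_lit 564) (nat_lit 507) (nat_lit 489)) (XT.lf (nat_lit 0) (nat_lit 3230187746) (nat_lit 912) (nat_lit 662922135) (nat_lit 76) (nat_lit 3571550161) (nat_lit 426) (nat_lit 5) (nat_lit 438) (nat_lit 5) (nat_lit 427) (nat_lit 5) (nat_lit 565) (nat_lit 507) (nat_lit 488))) (XT.nd (nat_lit 78) (nat_lit 912) (nat_lit 0) (XT.lf (nat_lit 0) (nat_lit 4873499351) (nat_lit 912) (nat_lit 1573107572) (nat_lit 988) (nat_lit 1067969422) (nat_lit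 414) (nat_lit 5) (nat_lit 426) (nat_lit 5) (nat_lit 427) (nat_lit 5) (nat_lit 566) (nat_lit 507) (nat_lit 487)) (XT.lf (nat_lit 0) (nat_lit 2105323826) (nat_lit 912) (nat_lit 4645699278) (nat_lit 76) (nat_lit 814752771) (nat_lit 402) (nat_lit 5) (nat_lit 414) (nat_lit 5) (nat_lit 403) (nat_lit 5) (nat_lit 567) (nat_lit 507) (nat_lit 486)))) (XT.nd (nat_lit 156) (nat_lit 1520) (nat_lit 0) (XT.nd (nat_lit 78) (nat_lit 76) (nat_lit 0) (XT.lf (nat_lit 0) (nat_lit 941685727) (nat_lit 836) (nat_lit 4364134590) (nat_lit 912) (nat_lit 2312479002) (nat_lit 391) (nat_lit 5) (nat_lit 402) (nat_lit 5) (nat_lit 403) (nat_lit 5) (nat_lit 568) (nat_lit 507) (nat_lit 485)) (XT.lf (nat_lit 0) (nat_lit 862027284) (nat_lit 912) (nat_lit 1037490427) (nat_lit 76) (nat_lit 5772733495) (nat_lit 390) (nat_lit 5) (nat_lit 402) (nat_lit 5) (nat_lit 391) (nat_lit 5) (nat_lit 569) (nat_lit 507) (nat_lit 484))) (XT.nd (nat_lit 78) (nat_lit 760) (nat_lit 0) (XT.lf (nat_lit 0) (nat_lit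 4048906799) (nat_lit 836) (nat_lit 3033730445) (nat_lit 76) (nat_lit 644743987) (nat_lit 380) (nat_lit 5) (nat_lit 391) (nat_lit 5) (nat_lit 381) (nat_lit 5) (nat_lit 570) (nat_lit 507) (nat_lit 483)) (XT.lf (nat_lit 0) (nat_lit 2729820198) (nat_lit 760) (nat_lit 4552709352) (nat_lit 836) (nat_lit 501425911) (nat_lit 370) (nat_lit 5) (nat_lit 380) (nat_lit 5) (nat_lit 381) (nat_lit 5) (nat_lit 571) (nat_lit 507) (nat_lit 482))))) (XT.nd (nat_lit 312) (nat_lit 2204) (nat_lit 0) (XT.nd (nat_lit 156) (nat_lit 1520) (nat_lit 0) (XT.nd (nat_lit 78) (nat_lit 0) (nat_lit 0) (XT.lf (nat_lit 0) (nat_lit 736589682) (nat_lit 760) (nat_lit 1937917691) (nat_lit 836) (nat_lit 5167374395) (nat_lit 359) (nat_lit 5) (nat_lit 369) (nat_lit 5) (nat_lit 370) (nat_lit 5) (nat_lit 572) (nat_lit 507) (nat_lit 481)) (XT.lf (nat_lit 0) (nat_lit 5892703672) (nat_lit 836) (nat_lit 1261176749) (nat_lit 76) (nat_lit 747312341) (nat_lit 359) (nat_lit 5) (nat_lit 370) (nat_lit 5) (nat_lit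 360) (nat_lit 5) (nat_lit 573) (nat_lit 507) (nat_lit 480))) (XT.nd (nat_lit 78) (nat_lit 684) (nat_lit 0) (XT.lf (nat_lit 0) (nat_lit 1188475546) (nat_lit 836) (nat_lit 3284243769) (nat_lit 76) (nat_lit 3488998272) (nat_lit 348) (nat_lit 5) (nat_lit 359) (nat_lit 5) (nat_lit 349) (nat_lit 5) (nat_lit 574) (nat_lit 507) (nat_lit 479)) (XT.lf (nat_lit 0) (nat_lit 2687328950) (nat_lit 684) (nat_lit 1709050434) (nat_lit 760) (nat_lit 3627331657) (nat_lit 339) (nat_lit 5) (nat_lit 348) (nat_lit 5) (nat_lit 349) (nat_lit 5) (nat_lit 575) (nat_lit 507) (nat_lit 478)))) (XT.nd (nat_lit 156) (nat_lit 1444) (nat_lit 0) (XT.nd (nat_lit 78) (nat_lit 76) (nat_lit 0) (XT.lf (nat_lit 0) (nat_lit 674027158) (nat_lit 684) (nat_lit 6976622462) (nat_lit 760) (nat_lit 436652071) (nat_lit 330) (nat_lit 5) (nat_lit 339) (nat_lit 5) (nat_lit 340) (nat_lit 5) (nat_lit 576) (nat_lit 507) (nat_lit 477)) (XT.lf (nat_lit 0) (nat_lit 2776951357) (nat_lit 760) (nat_lit 1368390384)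 (nat_lit 76) (nat_lit 4006536610) (nat_lit 329) (nat_lit 5) (nat_lit 339) (nat_lit 5) (nat_lit 330) (nat_lit 5) (nat_lit 577) (nat_lit 507) (nat_lit 476))) (XT.nd (nat_lit 78) (nat_lit 760) (nat_lit 0) (XT.lf (nat_lit 0) (nat_lit 4794565196) (nat_lit 684) (nat_lit 1235257151) (nat_lit 760) (nat_lit 2188251036) (nat_lit 320) (nat_lit 5) (nat_lit 329) (nat_lit 5) (nat_lit 330) (nat_lit 5) (nat_lit 578) (nat_lit 507) (nat_lit 475)) (XT.lf (nat_lit 0) (nat_lit 1036874928) (nat_lit 760) (nat_lit 5516945768) (nat_lit 76) (nat_lit 1731862111) (nat_lit 310) (nat_lit 5) (nat_lit 320) (nat_lit 5) (nat_lit 311) (nat_lit 5) (nat_lit 579) (nat_lit 507) (nat_lit 474))))))))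
noncomputable def xc44 : XT := (XT.nd (nat_lit 2418) (nat_lit 6916) (nat_lit 0) (XT.nd (nat_lit 1170) (nat_lit 5244) (nat_lit 0) (XT.nd (nat_lit 546) (nat_lit 3344) (nat_lit 0) (XT.nd (nat_lit 234) (nat_lit 1824) (nat_lit 0) (XT.nd (nat_lit 78) (nat_lit 684) (nat_lit 0) (XT.lf (nat_lit 0) (nat_lit 699843600) (nat_lit 608) (nat_lit 3583683068) (nat_lit 684) (nat_lit 4071103312) (nat_lit 302) (nat_lit 5) (nat_lit 310) (nat_lit 5) (nat_lit 311) (nat_lit 5) (nat_lit 580) (nat_lit 507) (nat_lit 473)) (XT.nd (nat_lit 78) (nat_lit 684) (nat_lit 0) (XT.lf (nat_lit 0) (nat_lit 7052611195) (nat_lit 608) (nat_lit 530530047) (nat_lit 684) (nat_lit 842055562) (nat_lit 302) (nat_lit 5) (nat_lit 310) (nat_lit 5) (nat_lit 311) (nat_lit 5) (nat_lit 581) (nat_lit 507) (nat_lit 472)) (XT.lf (nat_lit 0) (nat_lit 2420684484) (nat_lit 684) (nat_lit 3491508701) (nat_lit 76) (nat_lit 2584639403) (nat_lit 293) (nat_lit 5) (nat_lit 302) (nat_lit 5) (nat_lit 294) (nat_lit 5) (nat_lit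 582) (nat_lit 507) (nat_lit 471)))) (XT.nd (nat_lit 156) (nat_lit 532) (nat_lit 0) (XT.nd (nat_lit 78) (nat_lit 684) (nat_lit 0) (XT.lf (nat_lit 0) (nat_lit 2925903473) (nat_lit 608) (nat_lit 2795394447) (nat_lit 684) (nat_lit 2848815198) (nat_lit 285) (nat_lit 5) (nat_lit 293) (nat_lit 5) (nat_lit 294) (nat_lit 5) (nat_lit 583) (nat_lit 507) (nat_lit 470)) (XT.lf (nat_lit 0) (nat_lit 421076713) (nat_lit 684) (nat_lit 7828687405) (nat_lit 76) (nat_lit 395362322) (nat_lit 276) (nat_lit 5) (nat_lit 285) (nat_lit 5) (nat_lit 277) (nat_lit 5) (nat_lit 584) (nat_lit 507) (nat_lit 469))) (XT.nd (nat_lit 78) (nat_lit 532) (nat_lit 0) (XT.lf (nat_lit 0) (nat_lit 3727640054) (nat_lit 684) (nat_lit 1339349613) (nat_lit 76) (nat_lit 3654086519) (nat_lit 276) (nat_lit 5) (nat_lit 285) (nat_lit 5) (nat_lit 277) (nat_lit 5) (nat_lit 585) (nat_lit 507) (nat_lit 468)) (XT.lf (nat_lit 0) (nat_lit 5286712264) (nat_lit 532) (nat_lit 1801618392) (nat_lit 608) (nat_lit 1710455485)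 (nat_lit 269) (nat_lit 5) (nat_lit 276) (nat_lit 5) (nat_lit 277) (nat_lit 5) (nat_lit 586) (nat_lit 507) (nat_lit 467))))) (XT.nd (nat_lit 312) (nat_lit 1520) (nat_lit 0) (XT.nd (nat_lit 156) (nat_lit 608) (nat_lit 0) (XT.nd (nat_lit 78) (nat_lit 532) (nat_lit 0) (XT.lf (nat_lit 0) (nat_lit 1610181681) (nat_lit 684) (nat_lit 5734614888) (nat_lit 76) (nat_lit 1533172452) (nat_lit 260) (nat_lit 5) (nat_lit 269) (nat_lit 5) (nat_lit 261) (nat_lit 5) (nat_lit 587) (nat_lit 507) (nat_lit 466)) (XT.lf (nat_lit 0) (nat_lit 947245403) (nat_lit 532) (nat_lit 4023175599) (nat_lit 608) (nat_lit 3988167653) (nat_lit 253) (nat_lit 5) (nat_lit 260) (nat_lit 5) (nat_lit 261) (nat_lit 5) (nat_lit 588) (nat_lit 507) (nat_lit 465))) (XT.nd (nat_lit 78) (nat_lit 608) (nat_lit 0) (XT.lf (nat_lit 0) (nat_lit 7777894933) (nat_lit 532) (nat_lit 613208556) (nat_lit 608) (nat_lit 649853473) (nat_lit 253) (nat_lit 5) (nat_lit 260) (nat_lit 5) (nat_lit 261) (nat_lit 5) (nat_lit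 589) (nat_lit 507) (nat_lit 464)) (XT.lf (nat_lit 0) (nat_lit 2729738557) (nat_lit 608) (nat_lit 3529653794) (nat_lit 76) (nat_lit 2865010577) (nat_lit 245) (nat_lit 5) (nat_lit 253) (nat_lit 5) (nat_lit 246) (nat_lit 5) (nat_lit 590) (nat_lit 507) (nat_lit 463)))) (XT.nd (nat_lit 156) (nat_lit 456) (nat_lit 0) (XT.nd (nat_lit 78) (nat_lit 608) (nat_lit 0) (XT.lf (nat_lit 0) (nat_lit 3370965739) (nat_lit 456) (nat_lit 2787454414) (nat_lit 532) (nat_lit 3051208750) (nat_lit 239) (nat_lit 5) (nat_lit 245) (nat_lit 5) (nat_lit 246) (nat_lit 5) (nat_lit 591) (nat_lit 507) (nat_lit 462)) (XT.lf (nat_lit 0) (nat_lit 346345541) (nat_lit 608) (nat_lit 8190823330) (nat_lit 76) (nat_lit 759506055) (nat_lit 231) (nat_lit 5) (nat_lit 239) (nat_lit 5) (nat_lit 232) (nat_lit 5) (nat_lit 592) (nat_lit 507) (nat_lit 461))) (XT.nd (nat_lit 78) (nat_lit 456) (nat_lit 0) (XT.lf (nat_lit 0) (nat_lit 3785162582) (nat_lit 608) (nat_lit 1218037178) (nat_lit 76) (nat_lit 4381576321)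 (nat_lit 231) (nat_lit 5) (nat_lit 239) (nat_lit 5) (nat_lit 232) (nat_lit 5) (nat_lit 593) (nat_lit 507) (nat_lit 460)) (XT.lf (nat_lit 0) (nat_lit 5910114886) (nat_lit 456) (nat_lit 1378100934) (nat_lit 532) (nat_lit 2186515155) (nat_lit 225) (nat_lit 5) (nat_lit 231) (nat_lit 5) (nat_lit 232) (nat_lit 5) (nat_lit 594) (nat_lit 507) (nat_lit 459)))))) (XT.nd (nat_lit 624) (nat_lit 2432) (nat_lit 0) (XT.nd (nat_lit 312) (nat_lit 1292) (nat_lit 0) (XT.nd (nat_lit 156) (nat_lit 532) (nat_lit 0) (XT.nd (nat_lit 78) (nat_lit 456) (nat_lit 0) (XT.lf (nat_lit 0) (nat_lit 1281968105) (nat_lit 532) (nat_lit 5973627723) (nat_lit 76) (nat_lit 2310639771) (nat_lit 218) (nat_lit 5) (nat_lit 225) (nat_lit 5) (nat_lit 219) (nat_lit 5) (nat_lit 595) (nat_lit 507) (nat_lit 458)) (XT.lf (nat_lit 0) (nat_lit 1212254714) (nat_lit 456) (nat_lit 3576957984) (nat_lit 532) (nat_lit 4870096038) (nat_lit 212) (nat_lit 5) (nat_lit 218) (nat_lit 5) (nat_lit 219) (nat_lit 5) (nat_lit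 596) (nat_lit 507) (nat_lit 457))) (XT.nd (nat_lit 78) (nat_lit 532) (nat_lit 0) (XT.lf (nat_lit 0) (nat_lit 8365961208) (nat_lit 532) (nat_lit 1194403584) (nat_lit 76) (nat_lit 193892205) (nat_lit 212) (nat_lit 5) (nat_lit 219) (nat_lit 5) (nat_lit 213) (nat_lit 5) (nat_lit 597) (nat_lit 507) (nat_lit 456)) (XT.lf (nat_lit 0) (nat_lit 2157556589) (nat_lit 532) (nat_lit 3665088675) (nat_lit 76) (nat_lit 4027723155) (nat_lit 205) (nat_lit 5) (nat_lit 212) (nat_lit 5) (nat_lit 206) (nat_lit 5) (nat_lit 598) (nat_lit 507) (nat_lit 455)))) (XT.nd (nat_lit 156) (nat_lit 456) (nat_lit 0) (XT.nd (nat_lit 78) (nat_lit 456) (nat_lit 0) (XT.lf (nat_lit 0) (nat_lit 3759251945) (nat_lit 380) (nat_lit 1987817278) (nat_lit 456) (nat_lit 4201323459) (nat_lit 200) (nat_lit 5) (nat_lit 205) (nat_lit 5) (nat_lit 206) (nat_lit 5) (nat_lit 599) (nat_lit 507) (nat_lit 454)) (XT.lf (nat_lit 0) (nat_lit 1276370869) (nat_lit 456) (nat_lit 8136655970) (nat_lit 532) (nat_lit 635258274)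 (nat_lit 194) (nat_lit 5) (nat_lit 200) (nat_lit 5) (nat_lit 201) (nat_lit 5) (nat_lit 600) (nat_lit 507) (nat_lit 453))) (XT.nd (nat_lit 78) (nat_lit 380) (nat_lit 0) (XT.lf (nat_lit 0) (nat_lit 2976982208) (nat_lit 532) (nat_lit 1268916012) (nat_lit 76) (nat_lit 5903603534) (nat_lit 193) (nat_lit 5) (nat_lit 200) (nat_lit 5) (nat_lit 194) (nat_lit 5) (nat_lit 601) (nat_lit 507) (nat_lit 452)) (XT.lf (nat_lit 0) (nat_lit 6403399065) (nat_lit 380) (nat_lit 251199951) (nat_lit 456) (nat_lit 3598027711) (nat_lit 188) (nat_lit 5) (nat_lit 193) (nat_lit 5) (nat_lit 194) (nat_lit 5) (nat_lit 602) (nat_lit 507) (nat_lit 451))))) (XT.nd (nat_lit 312) (nat_lit 1140) (nat_lit 0) (XT.nd (nat_lit 156) (nat_lit 456) (nat_lit 0) (XT.nd (nat_lit 78) (nat_lit 380) (nat_lit 0) (XT.lf (nat_lit 0) (nat_lit 66177901) (nat_lit 456) (nat_lit 6504276347) (nat_lit 76) (nat_lit 3786977372) (nat_lit 182) (nat_lit 5) (nat_lit 188) (nat_lit 5) (nat_lit 183) (nat_lit 5) (nat_lit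 603) (nat_lit 507) (nat_lit 450)) (XT.lf (nat_lit 0) (nat_lit 1227478614) (nat_lit 380) (nat_lit 2524130157) (nat_lit 456) (nat_lit 6712326496) (nat_lit 177) (nat_lit 5) (nat_lit 182) (nat_lit 5) (nat_lit 183) (nat_lit 5) (nat_lit 604) (nat_lit 507) (nat_lit 449))) (XT.nd (nat_lit 78) (nat_lit 456) (nat_lit 0) (XT.lf (nat_lit 0) (nat_lit 7525776479) (nat_lit 456) (nat_lit 1441507366) (nat_lit 76) (nat_lit 1604985256) (nat_lit 177) (nat_lit 5) (nat_lit 183) (nat_lit 5) (nat_lit 178) (nat_lit 5) (nat_lit 605) (nat_lit 507) (nat_lit 448)) (XT.lf (nat_lit 0) (nat_lit 704199396) (nat_lit 456) (nat_lit 4168832271) (nat_lit 76) (nat_lit 5809236134) (nat_lit 171) (nat_lit 5) (nat_lit 177) (nat_lit 5) (nat_lit 172) (nat_lit 5) (nat_lit 606) (nat_lit 507) (nat_lit 447)))) (XT.nd (nat_lit 156) (nat_lit 380) (nat_lit 0) (XT.nd (nat_lit 78) (nat_lit 380) (nat_lit 0) (XT.lf (nat_lit 0) (nat_lit 3822570957) (nat_lit 380) (nat_lit 662705984) (nat_lit 456) (nat_lit 6308864143)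 (nat_lit 166) (nat_lit 5) (nat_lit 171) (nat_lit 5) (nat_lit 172) (nat_lit 5) (nat_lit 607) (nat_lit 507) (nat_lit 446)) (XT.lf (nat_lit 0) (nat_lit 1052362013) (nat_lit 380) (nat_lit 7309983091) (nat_lit 456) (nat_lit 2545499972) (nat_lit 161) (nat_lit 5) (nat_lit 166) (nat_lit 5) (nat_lit 167) (nat_lit 5) (nat_lit 608) (nat_lit 507) (nat_lit 445))) (XT.nd (nat_lit 78) (nat_lit 304) (nat_lit 0) (XT.lf (nat_lit 0) (nat_lit 1289558203) (nat_lit 456) (nat_lit 1765111840) (nat_lit 76) (nat_lit 7968718061) (nat_lit 160) (nat_lit 5) (nat_lit 166) (nat_lit 5) (nat_lit 161) (nat_lit 5) (nat_lit 609) (nat_lit 507) (nat_lit 444)) (XT.lf (nat_lit 0) (nat_lit 5180691446) (nat_lit 380) (nat_lit 4653217619) (nat_lit 76) (nat_lit 1306727839) (nat_lit 156) (nat_lit 5) (nat_lit 161) (nat_lit 5) (nat_lit 157) (nat_lit 5) (nat_lit 610) (nat_lit 507) (nat_lit 443))))))) (XT.nd (nat_lit 1170) (nat_lit 3116) (nat_lit 0) (XT.nd (nat_lit 546) (nat_lit 1976) (nat_lit 0) (XT.nd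 (nat_lit 234) (nat_lit 1064) (nat_lit 0) (XT.nd (nat_lit 78) (nat_lit 380) (nat_lit 0) (XT.lf (nat_lit 0) (nat_lit 3636895365) (nat_lit 380) (nat_lit 5531378433) (nat_lit 456) (nat_lit 2091584932) (nat_lit 151) (nat_lit 5) (nat_lit 156) (nat_lit 5) (nat_lit 157) (nat_lit 5) (nat_lit 611) (nat_lit 507) (nat_lit 442)) (XT.nd (nat_lit 78) (nat_lit 0) (nat_lit 0) (XT.lf (nat_lit 0) (nat_lit 712615954) (nat_lit 304) (nat_lit 1116229655) (nat_lit 380) (nat_lit 9552398767) (nat_lit 146) (nat_lit 5) (nat_lit 150) (nat_lit 5) (nat_lit 151) (nat_lit 5) (nat_lit 612) (nat_lit 507) (nat_lit 441)) (XT.lf (nat_lit 0) (nat_lit 5836347262) (nat_lit 380) (nat_lit 2281706786) (nat_lit 76) (nat_lit 3385994347) (nat_lit 146) (nat_lit 5) (nat_lit 151) (nat_lit 5) (nat_lit 147) (nat_lit 5) (nat_lit 613) (nat_lit 507) (nat_lit 440)))) (XT.nd (nat_lit 156) (nat_lit 304) (nat_lit 0) (XT.nd (nat_lit 78) (nat_lit 380) (nat_lit 0) (XT.lf (nat_lit 0) (nat_lit 6289492139) (nat_lit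 380) (nat_lit 3646614697) (nat_lit 456) (nat_lit 1692960036) (nat_lit 141) (nat_lit 5) (nat_lit 146) (nat_lit 5) (nat_lit 147) (nat_lit 5) (nat_lit 614) (nat_lit 507) (nat_lit 439)) (XT.lf (nat_lit 0) (nat_lit 2337094414) (nat_lit 380) (nat_lit 8486757847) (nat_lit 76) (nat_lit 932291608) (nat_lit 136) (nat_lit 5) (nat_lit 141) (nat_lit 5) (nat_lit 137) (nat_lit 5) (nat_lit 615) (nat_lit 507) (nat_lit 438))) (XT.nd (nat_lit 78) (nat_lit 0) (nat_lit 0) (XT.lf (nat_lit 0) (nat_lit 145334051) (nat_lit 304) (nat_lit 6305085078) (nat_lit 380) (nat_lit 5434613213) (nat_lit 132) (nat_lit 5) (nat_lit 136) (nat_lit 5) (nat_lit 137) (nat_lit 5) (nat_lit 616) (nat_lit 507) (nat_lit 437)) (XT.lf (nat_lit 0) (nat_lit 9006662213) (nat_lit 304) (nat_lit 1660776816) (nat_lit 380) (nat_lit 1348631475) (nat_lit 132) (nat_lit 5) (nat_lit 136) (nat_lit 5) (nat_lit 137) (nat_lit 5) (nat_lit 617) (nat_lit 507) (nat_lit 436))))) (XT.nd (nat_lit 312) (nat_lit 912) (nat_lit 0)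 (XT.nd (nat_lit 156) (nat_lit 380) (nat_lit 0) (XT.nd (nat_lit 78) (nat_lit 304) (nat_lit 0) (XT.lf (nat_lit 0) (nat_lit 2805527869) (nat_lit 380) (nat_lit 6272745649) (nat_lit 76) (nat_lit 3070621709) (nat_lit 127) (nat_lit 5) (nat_lit 132) (nat_lit 5) (nat_lit 128) (nat_lit 5) (nat_lit 618) (nat_lit 507) (nat_lit 435)) (XT.lf (nat_lit 0) (nat_lit 2653036424) (nat_lit 304) (nat_lit 4385356179) (nat_lit 380) (nat_lit 5245532409) (nat_lit 123) (nat_lit 5) (nat_lit 127) (nat_lit 5) (nat_lit 128) (nat_lit 5) (nat_lit 619) (nat_lit 507) (nat_lit 434))) (XT.nd (nat_lit 78) (nat_lit 380) (nat_lit 0) (XT.lf (nat_lit 0) (nat_lit 11366165603) (nat_lit 380) (nat_lit 639431828) (nat_lit 76) (nat_lit 415853399) (nat_lit 123) (nat_lit 5) (nat_lit 128) (nat_lit 5) (nat_lit 124) (nat_lit 5) (nat_lit 620) (nat_lit 507) (nat_lit 433)) (XT.lf (nat_lit 0) (nat_lit 3227446948) (nat_lit 380) (nat_lit 4023853640) (nat_lit 76) (nat_lit 5308991150) (nat_lit 118) (nat_lit 5) (nat_lit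 123) (nat_lit 5) (nat_lit 119) (nat_lit 5) (nat_lit 621) (nat_lit 507) (nat_lit 432)))) (XT.nd (nat_lit 156) (nat_lit 380) (nat_lit 0) (XT.nd (nat_lit 78) (nat_lit 228) (nat_lit 0) (XT.lf (nat_lit 0) (nat_lit 5206907780) (nat_lit 304) (nat_lit 2378964689) (nat_lit 380) (nat_lit 5115814537) (nat_lit 114) (nat_lit 5) (nat_lit 118) (nat_lit 5) (nat_lit 119) (nat_lit 5) (nat_lit 622) (nat_lit 507) (nat_lit 431)) (XT.lf (nat_lit 0) (nat_lit 1780628291) (nat_lit 228) (nat_lit 10272580232) (nat_lit 304) (nat_lit 792267238) (nat_lit 111) (nat_lit 5) (nat_lit 114) (nat_lit 5) (nat_lit 115) (nat_lit 5) (nat_lit 623) (nat_lit 507) (nat_lit 430))) (XT.nd (nat_lit 78) (nat_lit 304) (nat_lit 0) (XT.lf (nat_lit 0) (nat_lit 3602935855) (nat_lit 304) (nat_lit 1744829628) (nat_lit 76) (nat_lit 7643252788) (nat_lit 110) (nat_lit 5) (nat_lit 114) (nat_lit 5) (nat_lit 111) (nat_lit 5) (nat_lit 624) (nat_lit 507) (nat_lit 429)) (XT.lf (nat_lit 0) (nat_lit 7802539918) (nat_lit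 304) (nat_lit 290476155) (nat_lit 380) (nat_lit 5045999588) (nat_lit 106) (nat_lit 5) (nat_lit 110) (nat_lit 5) (nat_lit 111) (nat_lit 5) (nat_lit 625) (nat_lit 507) (nat_lit 428)))))) (XT.nd (nat_lit 624) (nat_lit 1444) (nat_lit 0) (XT.nd (nat_lit 312) (nat_lit 836) (nat_lit 0) (XT.nd (nat_lit 156) (nat_lit 228) (nat_lit 0) (XT.nd (nat_lit 78) (nat_lit 380) (nat_lit 0) (XT.lf (nat_lit 0) (nat_lit 4242455078) (nat_lit 228) (nat_lit 8468429900) (nat_lit 304) (nat_lit 578328668) (nat_lit 103) (nat_lit 5) (nat_lit 106) (nat_lit 5) (nat_lit 107) (nat_lit 5) (nat_lit 626) (nat_lit 507) (nat_lit 427)) (XT.lf (nat_lit 0) (nat_lit 566702959) (nat_lit 304) (nat_lit 3368578595) (nat_lit 380) (nat_lit 9506442419) (nat_lit 98) (nat_lit 5) (nat_lit 102) (nat_lit 5) (nat_lit 103) (nat_lit 5) (nat_lit 627) (nat_lit 507) (nat_lit 426))) (XT.nd (nat_lit 78) (nat_lit 228) (nat_lit 0) (XT.lf (nat_lit 0) (nat_lit 8571686827) (nat_lit 380) (nat_lit 3173609069) (nat_lit 76)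 (nat_lit 1851107189) (nat_lit 98) (nat_lit 5) (nat_lit 103) (nat_lit 5) (nat_lit 99) (nat_lit 5) (nat_lit 628) (nat_lit 507) (nat_lit 425)) (XT.lf (nat_lit 0) (nat_lit 6732458476) (nat_lit 228) (nat_lit 6602270086) (nat_lit 304) (nat_lit 418769410) (nat_lit 95) (nat_lit 5) (nat_lit 98) (nat_lit 5) (nat_lit 99) (nat_lit 5) (nat_lit 629) (nat_lit 507) (nat_lit 424)))) (XT.nd (nat_lit 156) (nat_lit 532) (nat_lit 0) (XT.nd (nat_lit 78) (nat_lit 0) (nat_lit 0) (XT.lf (nat_lit 0) (nat_lit 2921322627) (nat_lit 228) (nat_lit 1310204458) (nat_lit 304) (nat_lit 9681485247) (nat_lit 91) (nat_lit 5) (nat_lit 94) (nat_lit 5) (nat_lit 95) (nat_lit 5) (nat_lit 630) (nat_lit 507) (nat_lit 423)) (XT.lf (nat_lit 0) (nat_lit 9011263870) (nat_lit 304) (nat_lit 1002239833) (nat_lit 76) (nat_lit 4061317420) (nat_lit 91) (nat_lit 5) (nat_lit 95) (nat_lit 5) (nat_lit 92) (nat_lit 5) (nat_lit 631) (nat_lit 507) (nat_lit 422))) (XT.nd (nat_lit 78) (nat_lit 304) (nat_lit 0) (XT.lf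 (nat_lit 0) (nat_lit 9245118895) (nat_lit 228) (nat_lit 4678874354) (nat_lit 304) (nat_lit 315125216) (nat_lit 88) (nat_lit 5) (nat_lit 91) (nat_lit 5) (nat_lit 92) (nat_lit 5) (nat_lit 632) (nat_lit 507) (nat_lit 421)) (XT.lf (nat_lit 0) (nat_lit 4484020225) (nat_lit 304) (nat_lit 9121319404) (nat_lit 76) (nat_lit 800471754) (nat_lit 84) (nat_lit 5) (nat_lit 88) (nat_lit 5) (nat_lit 85) (nat_lit 5) (nat_lit 633) (nat_lit 507) (nat_lit 420))))) (XT.nd (nat_lit 312) (nat_lit 684) (nat_lit 0) (XT.nd (nat_lit 156) (nat_lit 532) (nat_lit 0) (XT.nd (nat_lit 78) (nat_lit 0) (nat_lit 0) (XT.lf (nat_lit 0) (nat_lit 1188753341) (nat_lit 228) (nat_lit 8227480988) (nat_lit 304) (nat_lit 5158736377) (nat_lit 81) (nat_lit 5) (nat_lit 84) (nat_lit 5) (nat_lit 85) (nat_lit 5) (nat_lit 634) (nat_lit 507) (nat_lit 419)) (XT.lf (nat_lit 0) (nat_lit 11774405772) (nat_lit 228) (nat_lit 2703016951) (nat_lit 304) (nat_lit 269484200) (nat_lit 81) (nat_lit 5) (nat_lit 84) (nat_lit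 5) (nat_lit 85) (nat_lit 5) (nat_lit 635) (nat_lit 507) (nat_lit 418))) (XT.nd (nat_lit 78) (nat_lit 228) (nat_lit 0) (XT.lf (nat_lit 0) (nat_lit 4694397065) (nat_lit 304) (nat_lit 7274908761) (nat_lit 76) (nat_lit 2951589430) (nat_lit 77) (nat_lit 5) (nat_lit 81) (nat_lit 5) (nat_lit 78) (nat_lit 5) (nat_lit 636) (nat_lit 507) (nat_lit 417)) (XT.lf (nat_lit 0) (nat_lit 3390109382) (nat_lit 228) (nat_lit 6393460410) (nat_lit 304) (nat_lit 5314165785) (nat_lit 74) (nat_lit 5) (nat_lit 77) (nat_lit 5) (nat_lit 78) (nat_lit 5) (nat_lit 637) (nat_lit 507) (nat_lit 416)))) (XT.nd (nat_lit 156) (nat_lit 380) (nat_lit 0) (XT.nd (nat_lit 78) (nat_lit 304) (nat_lit 0) (XT.lf (nat_lit 0) (nat_lit 14313687041) (nat_lit 228) (nat_lit 679534611) (nat_lit 304) (nat_lit 284517420) (nat_lit 74) (nat_lit 5) (nat_lit 77) (nat_lit 5) (nat_lit 78) (nat_lit 5) (nat_lit 638) (nat_lit 507) (nat_lit 415)) (XT.lf (nat_lit 0) (nat_lit 4851561790) (nat_lit 304) (nat_lit 5451993454)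 (nat_lit 76) (nat_lit 5155770624) (nat_lit 70) (nat_lit 5) (nat_lit 74) (nat_lit 5) (nat_lit 71) (nat_lit 5) (nat_lit 639) (nat_lit 507) (nat_lit 414))) (XT.nd (nat_lit 78) (nat_lit 228) (nat_lit 0) (XT.lf (nat_lit 0) (nat_lit 5580764885) (nat_lit 152) (nat_lit 4523404444) (nat_lit 228) (nat_lit 5539985397) (nat_lit 68) (nat_lit 5) (nat_lit 70) (nat_lit 5) (nat_lit 71) (nat_lit 5) (nat_lit 640) (nat_lit 507) (nat_lit 413)) (XT.lf (nat_lit 0) (nat_lit 1027568270) (nat_lit 228) (nat_lit 14457127914) (nat_lit 304) (nat_lit 347526894) (nat_lit 65) (nat_lit 5) (nat_lit 68) (nat_lit 5) (nat_lit 69) (nat_lit 5) (nat_lit 641) (nat_lit 507) (nat_lit 412))))))))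
noncomputable def xc45 : XT := (XT.nd (nat_lit 75504) (nat_lit 0) (nat_lit 11172) (XT.nd (nat_lit 74256) (nat_lit 0) (nat_lit 26524) (XT.nd (nat_lit 73632) (nat_lit 0) (nat_lit 40964) (XT.nd (nat_lit 234) (nat_lit 456) (nat_lit 0) (XT.nd (nat_lit 78) (nat_lit 380) (nat_lit 0) (XT.lf (nat_lit 0) (nat_lit 4952311901) (nat_lit 304) (nat_lit 3661412507) (nat_lit 76) (nat_lit 7408317321) (nat_lit 64) (nat_lit 5) (nat_lit 68) (nat_lit 5) (nat_lit 65) (nat_lit 5) (nat_lit 642) (nat_lit 507) (nat_lit 411)) (XT.nd (nat_lit 78) (nat_lit 228) (nat_lit 0) (XT.lf (nat_lit 0) (nat_lit 7752168681) (nat_lit 152) (nat_lit 2622741474) (nat_lit 228) (nat_lit 5840272580) (nat_lit 62) (nat_lit 5) (nat_lit 64) (nat_lit 5) (nat_lit 65) (nat_lit 5) (nat_lit 643) (nat_lit 507) (nat_lit 410)) (XT.lf (nat_lit 0) (nat_lit 2996467765) (nat_lit 228) (nat_lit 12947490574) (nat_lit 304) (nat_lit 467468505) (nat_lit 59) (nat_lit 5) (nat_lit 62) (nat_lit 5) (nat_lit 63) (nat_lit 5) (nat_lit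 644) (nat_lit 507) (nat_lit 409)))) (XT.nd (nat_lit 156) (nat_lit 228) (nat_lit 0) (XT.nd (nat_lit 78) (nat_lit 152) (nat_lit 0) (XT.lf (nat_lit 0) (nat_lit 4992788374) (nat_lit 304) (nat_lit 1912914638) (nat_lit 76) (nat_lit 9704327320) (nat_lit 58) (nat_lit 5) (nat_lit 62) (nat_lit 5) (nat_lit 59) (nat_lit 5) (nat_lit 645) (nat_lit 507) (nat_lit 408)) (XT.lf (nat_lit 0) (nat_lit 9894846969) (nat_lit 152) (nat_lit 697162268) (nat_lit 228) (nat_lit 6219814716) (nat_lit 56) (nat_lit 5) (nat_lit 58) (nat_lit 5) (nat_lit 59) (nat_lit 5) (nat_lit 646) (nat_lit 507) (nat_lit 407))) (XT.nd (nat_lit 73164) (nat_lit 0) (nat_lit 47652) (XT.lf (nat_lit 0) (nat_lit 4924124882) (nat_lit 228) (nat_lit 11432417703) (nat_lit 304) (nat_lit 660044523) (nat_lit 53) (nat_lit 5) (nat_lit 56) (nat_lit 5) (nat_lit 57) (nat_lit 5) (nat_lit 647) (nat_lit 507) (nat_lit 406)) (XT.lf (nat_lit 0) (nat_lit 81449596) (nat_lit 1140) (nat_lit 3195142930) (nat_lit 0) (nat_lit 81449596)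 (nat_lit 680) (nat_lit 5) (nat_lit 695) (nat_lit 4) (nat_lit 680) (nat_lit 4) (nat_lit 544) (nat_lit 508) (nat_lit 508))))) (XT.nd (nat_lit 312) (nat_lit 4256) (nat_lit 0) (XT.nd (nat_lit 156) (nat_lit 1216) (nat_lit 0) (XT.nd (nat_lit 78) (nat_lit 1216) (nat_lit 0) (XT.lf (nat_lit 0) (nat_lit 3502976865) (nat_lit 1140) (nat_lit 1894650929) (nat_lit 0) (nat_lit 1341687842) (nat_lit 680) (nat_lit 5) (nat_lit 695) (nat_lit 4) (nat_lit 680) (nat_lit 4) (nat_lit 545) (nat_lit 508) (nat_lit 507)) (XT.lf (nat_lit 0) (nat_lit 89661134) (nat_lit 1216) (nat_lit 4099084337) (nat_lit 76) (nat_lit 2575355631) (nat_lit 664) (nat_lit 5) (nat_lit 680) (nat_lit 5) (nat_lit 665) (nat_lit 4) (nat_lit 546) (nat_lit 508) (nat_lit 506))) (XT.nd (nat_lit 78) (nat_lit 0) (nat_lit 0) (XT.lf (nat_lit 0) (nat_lit 476365577) (nat_lit 1216) (nat_lit 2906767562) (nat_lit 1292) (nat_lit 3406938862) (nat_lit 648) (nat_lit 5) (nat_lit 664) (nat_lit 5) (nat_lit 665) (nat_lit 4) (nat_lit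 547) (nat_lit 508) (nat_lit 505)) (XT.lf (nat_lit 0) (nat_lit 5138491192) (nat_lit 1216) (nat_lit 1560858052) (nat_lit 1292) (nat_lit 118078817) (nat_lit 648) (nat_lit 5) (nat_lit 664) (nat_lit 5) (nat_lit 665) (nat_lit 4) (nat_lit 548) (nat_lit 508) (nat_lit 504)))) (XT.nd (nat_lit 156) (nat_lit 1520) (nat_lit 0) (XT.nd (nat_lit 78) (nat_lit 1368) (nat_lit 0) (XT.lf (nat_lit 0) (nat_lit 3006806288) (nat_lit 1292) (nat_lit 137117146) (nat_lit 1368) (nat_lit 3701994381) (nat_lit 630) (nat_lit 5) (nat_lit 647) (nat_lit 5) (nat_lit 648) (nat_lit 5) (nat_lit 549) (nat_lit 508) (nat_lit 503)) (XT.lf (nat_lit 0) (nat_lit 875170632) (nat_lit 1368) (nat_lit 5551305471) (nat_lit 1444) (nat_lit 449350873) (nat_lit 612) (nat_lit 5) (nat_lit 630) (nat_lit 5) (nat_lit 631) (nat_lit 4) (nat_lit 550) (nat_lit 508) (nat_lit 502))) (XT.nd (nat_lit 78) (nat_lit 1444) (nat_lit 0) (XT.lf (nat_lit 0) (nat_lit 2789396348) (nat_lit 1444) (nat_lit 1251431725) (nat_lit 76) (nat_lit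 2865963318) (nat_lit 611) (nat_lit 5) (nat_lit 630) (nat_lit 5) (nat_lit 612) (nat_lit 5) (nat_lit 551) (nat_lit 508) (nat_lit 501)) (XT.lf (nat_lit 0) (nat_lit 3576224590) (nat_lit 1444) (nat_lit 2467067232) (nat_lit 1520) (nat_lit 895898939) (nat_lit 592) (nat_lit 5) (nat_lit 611) (nat_lit 5) (nat_lit 612) (nat_lit 5) (nat_lit 552) (nat_lit 508) (nat_lit 500)))))) (XT.nd (nat_lit 624) (nat_lit 4636) (nat_lit 0) (XT.nd (nat_lit 312) (nat_lit 4864) (nat_lit 0) (XT.nd (nat_lit 156) (nat_lit 3344) (nat_lit 0) (XT.nd (nat_lit 78) (nat_lit 0) (nat_lit 0) (XT.lf (nat_lit 0) (nat_lit 1488307049) (nat_lit 1520) (nat_lit 822137224) (nat_lit 1596) (nat_lit 4662451001) (nat_lit 571) (nat_lit 5) (nat_lit 591) (nat_lit 5) (nat_lit 592) (nat_lit 5) (nat_lit 553) (nat_lit 508) (nat_lit 499)) (XT.lf (nat_lit 0) (nat_lit 5531787793) (nat_lit 1596) (nat_lit 598177856) (nat_lit 76) (nat_lit 877935106) (nat_lit 571) (nat_lit 5) (nat_lit 592) (nat_lit 5) (nat_lit 572) (nat_lit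 5) (nat_lit 554) (nat_lit 508) (nat_lit 498))) (XT.nd (nat_lit 78) (nat_lit 1672) (nat_lit 0) (XT.lf (nat_lit 0) (nat_lit 1720216073) (nat_lit 1672) (nat_lit 2678302082) (nat_lit 76) (nat_lit 2645469842) (nat_lit 549) (nat_lit 5) (nat_lit 571) (nat_lit 5) (nat_lit 550) (nat_lit 5) (nat_lit 555) (nat_lit 508) (nat_lit 497)) (XT.lf (nat_lit 0) (nat_lit 2315642221) (nat_lit 1672) (nat_lit 2600471109) (nat_lit 1748) (nat_lit 2165382928) (nat_lit 527) (nat_lit 5) (nat_lit 549) (nat_lit 5) (nat_lit 550) (nat_lit 5) (nat_lit 556) (nat_lit 508) (nat_lit 496)))) (XT.nd (nat_lit 156) (nat_lit 3040) (nat_lit 0) (XT.nd (nat_lit 78) (nat_lit 0) (nat_lit 0) (XT.lf (nat_lit 0) (nat_lit 261239918) (nat_lit 1748) (nat_lit 737618774) (nat_lit 1824) (nat_lit 6121630562) (nat_lit 503) (nat_lit 5) (nat_lit 526) (nat_lit 5) (nat_lit 527) (nat_lit 5) (nat_lit 557) (nat_lit 508) (nat_lit 495)) (XT.lf (nat_lit 0) (nat_lit 4174758359) (nat_lit 1824) (nat_lit 1790682602) (nat_lit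 76) (nat_lit 1194989936) (nat_lit 503) (nat_lit 5) (nat_lit 527) (nat_lit 5) (nat_lit 504) (nat_lit 5) (nat_lit 558) (nat_lit 508) (nat_lit 494))) (XT.nd (nat_lit 78) (nat_lit 1140) (nat_lit 0) (XT.lf (nat_lit 0) (nat_lit 175485533) (nat_lit 1900) (nat_lit 3845831708) (nat_lit 76) (nat_lit 3180523294) (nat_lit 478) (nat_lit 5) (nat_lit 503) (nat_lit 5) (nat_lit 479) (nat_lit 5) (nat_lit 559) (nat_lit 508) (nat_lit 493)) (XT.lf (nat_lit 0) (nat_lit 1321932917) (nat_lit 1140) (nat_lit 1997897827) (nat_lit 1216) (nat_lit 3924656339) (nat_lit 463) (nat_lit 5) (nat_lit 478) (nat_lit 5) (nat_lit 479) (nat_lit 5) (nat_lit 560) (nat_lit 508) (nat_lit 492))))) (XT.nd (nat_lit 312) (nat_lit 1824) (nat_lit 0) (XT.nd (nat_lit 156) (nat_lit 1824) (nat_lit 0) (XT.nd (nat_lit 78) (nat_lit 988) (nat_lit 0) (XT.lf (nat_lit 0) (nat_lit 6493481842) (nat_lit 1216) (nat_lit 705295514) (nat_lit 76) (nat_lit 89883049) (nat_lit 463) (nat_lit 5) (nat_lit 479) (nat_lit 5) (nat_lit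 464) (nat_lit 5) (nat_lit 561) (nat_lit 508) (nat_lit 491)) (XT.lf (nat_lit 0) (nat_lit 2349647290) (nat_lit 988) (nat_lit 2747241144) (nat_lit 76) (nat_lit 2236835767) (nat_lit 450) (nat_lit 5) (nat_lit 463) (nat_lit 5) (nat_lit 451) (nat_lit 5) (nat_lit 562) (nat_lit 508) (nat_lit 490))) (XT.nd (nat_lit 78) (nat_lit 912) (nat_lit 0) (XT.lf (nat_lit 0) (nat_lit 2581054315) (nat_lit 912) (nat_lit 2928760279) (nat_lit 988) (nat_lit 1870509803) (nat_lit 438) (nat_lit 5) (nat_lit 450) (nat_lit 5) (nat_lit 451) (nat_lit 5) (nat_lit 563) (nat_lit 508) (nat_lit 489)) (XT.lf (nat_lit 0) (nat_lit 562516645) (nat_lit 836) (nat_lit 689827110) (nat_lit 912) (nat_lit 6176062656) (nat_lit 426) (nat_lit 5) (nat_lit 437) (nat_lit 5) (nat_lit 438) (nat_lit 5) (nat_lit 564) (nat_lit 508) (nat_lit 488)))) (XT.nd (nat_lit 156) (nat_lit 836) (nat_lit 0) (XT.nd (nat_lit 78) (nat_lit 988) (nat_lit 0) (XT.lf (nat_lit 0) (nat_lit 4398036199) (nat_lit 912) (nat_lit 1465805940)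 (nat_lit 76) (nat_lit 1613654062) (nat_lit 426) (nat_lit 5) (nat_lit 438) (nat_lit 5) (nat_lit 427) (nat_lit 5) (nat_lit 565) (nat_lit 508) (nat_lit 487)) (XT.lf (nat_lit 0) (nat_lit 52356821) (nat_lit 988) (nat_lit 3499287145) (nat_lit 76) (nat_lit 3976429063) (nat_lit 413) (nat_lit 5) (nat_lit 426) (nat_lit 5) (nat_lit 414) (nat_lit 5) (nat_lit 566) (nat_lit 508) (nat_lit 486))) (XT.nd (nat_lit 78) (nat_lit 0) (nat_lit 0) (XT.lf (nat_lit 0) (nat_lit 2017923271) (nat_lit 836) (nat_lit 1154793219) (nat_lit 912) (nat_lit 4407196849) (nat_lit 402) (nat_lit 5) (nat_lit 413) (nat_lit 5) (nat_lit 414) (nat_lit 5) (nat_lit 567) (nat_lit 508) (nat_lit 485)) (XT.lf (nat_lit 0) (nat_lit 6332253041) (nat_lit 912) (nat_lit 10357351) (nat_lit 76) (nat_lit 1290646491) (nat_lit 402) (nat_lit 5) (nat_lit 414) (nat_lit 5) (nat_lit 403) (nat_lit 5) (nat_lit 568) (nat_lit 508) (nat_lit 484))))))) (XT.nd (nat_lit 1170) (nat_lit 6460) (nat_lit 0) (XT.nd (nat_lit 546) (nat_lit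 4104) (nat_lit 0) (XT.nd (nat_lit 234) (nat_lit 2280) (nat_lit 0) (XT.nd (nat_lit 78) (nat_lit 1596) (nat_lit 0) (XT.lf (nat_lit 0) (nat_lit 1832977148) (nat_lit 912) (nat_lit 2042255323) (nat_lit 76) (nat_lit 3812391016) (nat_lit 390) (nat_lit 5) (nat_lit 402) (nat_lit 5) (nat_lit 391) (nat_lit 5) (nat_lit 569) (nat_lit 508) (nat_lit 483)) (XT.nd (nat_lit 78) (nat_lit 836) (nat_lit 0) (XT.lf (nat_lit 0) (nat_lit 3649005470) (nat_lit 760) (nat_lit 1333140968) (nat_lit 836) (nat_lit 2761362129) (nat_lit 380) (nat_lit 5) (nat_lit 390) (nat_lit 5) (nat_lit 391) (nat_lit 5) (nat_lit 570) (nat_lit 508) (nat_lit 482)) (XT.lf (nat_lit 0) (nat_lit 367817949) (nat_lit 836) (nat_lit 6170785031) (nat_lit 76) (nat_lit 1262274988) (nat_lit 369) (nat_lit 5) (nat_lit 380) (nat_lit 5) (nat_lit 370) (nat_lit 5) (nat_lit 571) (nat_lit 508) (nat_lit 481)))) (XT.nd (nat_lit 156) (nat_lit 1520) (nat_lit 0) (XT.nd (nat_lit 78) (nat_lit 760) (nat_lit 0) (XT.lf (nat_lit 0) (nat_lit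 3506180730) (nat_lit 836) (nat_lit 423874252) (nat_lit 76) (nat_lit 3929304867) (nat_lit 369) (nat_lit 5) (nat_lit 380) (nat_lit 5) (nat_lit 370) (nat_lit 5) (nat_lit 572) (nat_lit 508) (nat_lit 480)) (XT.lf (nat_lit 0) (nat_lit 5448239076) (nat_lit 760) (nat_lit 1242535657) (nat_lit 836) (nat_lit 1228568941) (nat_lit 359) (nat_lit 5) (nat_lit 369) (nat_lit 5) (nat_lit 370) (nat_lit 5) (nat_lit 573) (nat_lit 508) (nat_lit 479))) (XT.nd (nat_lit 78) (nat_lit 684) (nat_lit 0) (XT.lf (nat_lit 0) (nat_lit 1916295338) (nat_lit 836) (nat_lit 4556825450) (nat_lit 76) (nat_lit 1507484623) (nat_lit 348) (nat_lit 5) (nat_lit 359) (nat_lit 5) (nat_lit 349) (nat_lit 5) (nat_lit 574) (nat_lit 508) (nat_lit 478)) (XT.lf (nat_lit 0) (nat_lit 1366720650) (nat_lit 684) (nat_lit 3723618543) (nat_lit 760) (nat_lit 2952937610) (nat_lit 339) (nat_lit 5) (nat_lit 348) (nat_lit 5) (nat_lit 349) (nat_lit 5) (nat_lit 575) (nat_lit 508) (nat_lit 477))))) (XT.nd (nat_lit 312) (nat_lit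 1900) (nat_lit 0) (XT.nd (nat_lit 156) (nat_lit 1444) (nat_lit 0) (XT.nd (nat_lit 78) (nat_lit 684) (nat_lit 0) (XT.lf (nat_lit 0) (nat_lit 197738048) (nat_lit 760) (nat_lit 700014562) (nat_lit 76) (nat_lit 7209822402) (nat_lit 338) (nat_lit 5) (nat_lit 348) (nat_lit 5) (nat_lit 339) (nat_lit 5) (nat_lit 576) (nat_lit 508) (nat_lit 476)) (XT.lf (nat_lit 0) (nat_lit 3370252667) (nat_lit 760) (nat_lit 2800173169) (nat_lit 76) (nat_lit 2002377074) (nat_lit 329) (nat_lit 5) (nat_lit 339) (nat_lit 5) (nat_lit 330) (nat_lit 5) (nat_lit 577) (nat_lit 508) (nat_lit 475))) (XT.nd (nat_lit 78) (nat_lit 760) (nat_lit 0) (XT.lf (nat_lit 0) (nat_lit 3312862279) (nat_lit 684) (nat_lit 3276231988) (nat_lit 760) (nat_lit 1650584946) (nat_lit 320) (nat_lit 5) (nat_lit 329) (nat_lit 5) (nat_lit 330) (nat_lit 5) (nat_lit 578) (nat_lit 508) (nat_lit 474)) (XT.lf (nat_lit 0) (nat_lit 1222517560) (nat_lit 684) (nat_lit 299175835) (nat_lit 760) (nat_lit 6786442002) (nat_lit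 310) (nat_lit 5) (nat_lit 319) (nat_lit 5) (nat_lit 320) (nat_lit 5) (nat_lit 579) (nat_lit 508) (nat_lit 473)))) (XT.nd (nat_lit 156) (nat_lit 1292) (nat_lit 0) (XT.nd (nat_lit 78) (nat_lit 608) (nat_lit 0) (XT.lf (nat_lit 0) (nat_lit 4737808415) (nat_lit 760) (nat_lit 906912667) (nat_lit 76) (nat_lit 2732972867) (nat_lit 310) (nat_lit 5) (nat_lit 320) (nat_lit 5) (nat_lit 311) (nat_lit 5) (nat_lit 580) (nat_lit 508) (nat_lit 472)) (XT.lf (nat_lit 0) (nat_lit 5403157410) (nat_lit 608) (nat_lit 2604521232) (nat_lit 684) (nat_lit 441177650) (nat_lit 302) (nat_lit 5) (nat_lit 310) (nat_lit 5) (nat_lit 311) (nat_lit 5) (nat_lit 581) (nat_lit 508) (nat_lit 471))) (XT.nd (nat_lit 78) (nat_lit 608) (nat_lit 0) (XT.lf (nat_lit 0) (nat_lit 2768046513) (nat_lit 684) (nat_lit 5230988550) (nat_lit 76) (nat_lit 522370730) (nat_lit 293) (nat_lit 5) (nat_lit 302) (nat_lit 5) (nat_lit 294) (nat_lit 5) (nat_lit 582) (nat_lit 508) (nat_lit 470)) (XT.lf (nat_lit 0) (nat_lit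 1132324032) (nat_lit 608) (nat_lit 4901443408) (nat_lit 684) (nat_lit 2561617329) (nat_lit 285) (nat_lit 5) (nat_lit 293) (nat_lit 5) (nat_lit 294) (nat_lit 5) (nat_lit 583) (nat_lit 508) (nat_lit 469)))))) (XT.nd (nat_lit 624) (nat_lit 2964) (nat_lit 0) (XT.nd (nat_lit 312) (nat_lit 1596) (nat_lit 0) (XT.nd (nat_lit 156) (nat_lit 1216) (nat_lit 0) (XT.nd (nat_lit 78) (nat_lit 608) (nat_lit 0) (XT.lf (nat_lit 0) (nat_lit 673447166) (nat_lit 684) (nat_lit 1043049613) (nat_lit 76) (nat_lit 6954485806) (nat_lit 284) (nat_lit 5) (nat_lit 293) (nat_lit 5) (nat_lit 285) (nat_lit 5) (nat_lit 584) (nat_lit 508) (nat_lit 468)) (XT.lf (nat_lit 0) (nat_lit 3939023185) (nat_lit 684) (nat_lit 3258393671) (nat_lit 76) (nat_lit 1550335783) (nat_lit 276) (nat_lit 5) (nat_lit 285) (nat_lit 5) (nat_lit 277) (nat_lit 5) (nat_lit 585) (nat_lit 508) (nat_lit 467))) (XT.nd (nat_lit 78) (nat_lit 684) (nat_lit 0) (XT.lf (nat_lit 0) (nat_lit 3311477827) (nat_lit 532) (nat_lit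 3952926061) (nat_lit 608) (nat_lit 1561765453) (nat_lit 269) (nat_lit 5) (nat_lit 276) (nat_lit 5) (nat_lit 277) (nat_lit 5) (nat_lit 586) (nat_lit 508) (nat_lit 466)) (XT.lf (nat_lit 0) (nat_lit 1092645520) (nat_lit 608) (nat_lit 618420448) (nat_lit 684) (nat_lit 7195184587) (nat_lit 260) (nat_lit 5) (nat_lit 268) (nat_lit 5) (nat_lit 269) (nat_lit 5) (nat_lit 587) (nat_lit 508) (nat_lit 465)))) (XT.nd (nat_lit 156) (nat_lit 1064) (nat_lit 0) (XT.nd (nat_lit 78) (nat_lit 532) (nat_lit 0) (XT.lf (nat_lit 0) (nat_lit 5038943127) (nat_lit 684) (nat_lit 1170727794) (nat_lit 76) (nat_lit 2777847029) (nat_lit 260) (nat_lit 5) (nat_lit 269) (nat_lit 5) (nat_lit 261) (nat_lit 5) (nat_lit 588) (nat_lit 508) (nat_lit 464)) (XT.lf (nat_lit 0) (nat_lit 5613989575) (nat_lit 532) (nat_lit 2815975083) (nat_lit 608) (nat_lit 640515325) (nat_lit 253) (nat_lit 5) (nat_lit 260) (nat_lit 5) (nat_lit 261) (nat_lit 5) (nat_lit 589) (nat_lit 508) (nat_lit 463))) (XT.nd (nat_lit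 78) (nat_lit 456) (nat_lit 0) (XT.lf (nat_lit 0) (nat_lit 2688201474) (nat_lit 608) (nat_lit 5798554904) (nat_lit 76) (nat_lit 668183903) (nat_lit 245) (nat_lit 5) (nat_lit 253) (nat_lit 5) (nat_lit 246) (nat_lit 5) (nat_lit 590) (nat_lit 508) (nat_lit 462)) (XT.lf (nat_lit 0) (nat_lit 1041266728) (nat_lit 456) (nat_lit 5038995369) (nat_lit 532) (nat_lit 3160637057) (nat_lit 239) (nat_lit 5) (nat_lit 245) (nat_lit 5) (nat_lit 246) (nat_lit 5) (nat_lit 591) (nat_lit 508) (nat_lit 461))))) (XT.nd (nat_lit 312) (nat_lit 1368) (nat_lit 0) (XT.nd (nat_lit 156) (nat_lit 988) (nat_lit 0) (XT.nd (nat_lit 78) (nat_lit 532) (nat_lit 0) (XT.lf (nat_lit 0) (nat_lit 204732708) (nat_lit 532) (nat_lit 1294210282) (nat_lit 76) (nat_lit 7829689251) (nat_lit 238) (nat_lit 5) (nat_lit 245) (nat_lit 5) (nat_lit 239) (nat_lit 5) (nat_lit 592) (nat_lit 508) (nat_lit 460)) (XT.lf (nat_lit 0) (nat_lit 3604002861) (nat_lit 608) (nat_lit 3688133570) (nat_lit 76) (nat_lit 2125388353)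 (nat_lit 231) (nat_lit 5) (nat_lit 239) (nat_lit 5) (nat_lit 232) (nat_lit 5) (nat_lit 593) (nat_lit 508) (nat_lit 459))) (XT.nd (nat_lit 78) (nat_lit 532) (nat_lit 0) (XT.lf (nat_lit 0) (nat_lit 3376896790) (nat_lit 456) (nat_lit 3692884695) (nat_lit 532) (nat_lit 2438444127) (nat_lit 225) (nat_lit 5) (nat_lit 231) (nat_lit 5) (nat_lit 232) (nat_lit 5) (nat_lit 594) (nat_lit 508) (nat_lit 458)) (XT.lf (nat_lit 0) (nat_lit 978571973) (nat_lit 456) (nat_lit 1748273) (nat_lit 532) (nat_lit 8620503589) (nat_lit 218) (nat_lit 5) (nat_lit 224) (nat_lit 5) (nat_lit 225) (nat_lit 5) (nat_lit 595) (nat_lit 508) (nat_lit 457)))) (XT.nd (nat_lit 156) (nat_lit 912) (nat_lit 0) (XT.nd (nat_lit 78) (nat_lit 456) (nat_lit 0) (XT.lf (nat_lit 0) (nat_lit 4459087511) (nat_lit 532) (nat_lit 1482388445) (nat_lit 76) (nat_lit 3752990980) (nat_lit 218) (nat_lit 5) (nat_lit 225) (nat_lit 5) (nat_lit 219) (nat_lit 5) (nat_lit 596) (nat_lit 508) (nat_lit 456)) (XT.lf (nat_lit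 0) (nat_lit 5816878010) (nat_lit 456) (nat_lit 2187544113) (nat_lit 532) (nat_lit 1785621761) (nat_lit 212) (nat_lit 5) (nat_lit 218) (nat_lit 5) (nat_lit 219) (nat_lit 5) (nat_lit 597) (nat_lit 508) (nat_lit 455))) (XT.nd (nat_lit 78) (nat_lit 380) (nat_lit 0) (XT.lf (nat_lit 0) (nat_lit 1712459696) (nat_lit 532) (nat_lit 6530379322) (nat_lit 76) (nat_lit 1644427914) (nat_lit 205) (nat_lit 5) (nat_lit 212) (nat_lit 5) (nat_lit 206) (nat_lit 5) (nat_lit 598) (nat_lit 508) (nat_lit 454)) (XT.lf (nat_lit 0) (nat_lit 825731458) (nat_lit 380) (nat_lit 4437217513) (nat_lit 456) (nat_lit 4723123074) (nat_lit 200) (nat_lit 5) (nat_lit 205) (nat_lit 5) (nat_lit 206) (nat_lit 5) (nat_lit 599) (nat_lit 508) (nat_lit 453))))))))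
noncomputable def xc46 : XT := (XT.nd (nat_lit 2418) (nat_lit 2888) (nat_lit 0) (XT.nd (nat_lit 1170) (nat_lit 3572) (nat_lit 0) (XT.nd (nat_lit 546) (nat_lit 2356) (nat_lit 0) (XT.nd (nat_lit 234) (nat_lit 1216) (nat_lit 0) (XT.nd (nat_lit 78) (nat_lit 912) (nat_lit 0) (XT.lf (nat_lit 0) (nat_lit 8357773405) (nat_lit 380) (nat_lit 530546932) (nat_lit 456) (nat_lit 1198456242) (nat_lit 200) (nat_lit 5) (nat_lit 205) (nat_lit 5) (nat_lit 206) (nat_lit 5) (nat_lit 600) (nat_lit 508) (nat_lit 452)) (XT.nd (nat_lit 78) (nat_lit 380) (nat_lit 0) (XT.lf (nat_lit 0) (nat_lit 2386500697) (nat_lit 532) (nat_lit 4358769244) (nat_lit 76) (nat_lit 3443490175) (nat_lit 193) (nat_lit 5) (nat_lit 200) (nat_lit 5) (nat_lit 194) (nat_lit 5) (nat_lit 601) (nat_lit 508) (nat_lit 451)) (XT.lf (nat_lit 0) (nat_lit 3242721083) (nat_lit 380) (nat_lit 2781487979) (nat_lit 456) (nat_lit 4268474552) (nat_lit 188) (nat_lit 5) (nat_lit 193) (nat_lit 5) (nat_lit 194) (nat_lit 5) (nat_lit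 602) (nat_lit 508) (nat_lit 450)))) (XT.nd (nat_lit 156) (nat_lit 760) (nat_lit 0) (XT.nd (nat_lit 78) (nat_lit 76) (nat_lit 0) (XT.lf (nat_lit 0) (nat_lit 597084906) (nat_lit 380) (nat_lit 9140189737) (nat_lit 456) (nat_lit 661359583) (nat_lit 183) (nat_lit 5) (nat_lit 188) (nat_lit 5) (nat_lit 189) (nat_lit 5) (nat_lit 603) (nat_lit 508) (nat_lit 449)) (XT.lf (nat_lit 0) (nat_lit 3005574947) (nat_lit 456) (nat_lit 2111158531) (nat_lit 76) (nat_lit 5389034013) (nat_lit 182) (nat_lit 5) (nat_lit 188) (nat_lit 5) (nat_lit 183) (nat_lit 5) (nat_lit 604) (nat_lit 508) (nat_lit 448))) (XT.nd (nat_lit 78) (nat_lit 380) (nat_lit 0) (XT.lf (nat_lit 0) (nat_lit 5745473613) (nat_lit 380) (nat_lit 990805966) (nat_lit 456) (nat_lit 3878691336) (nat_lit 177) (nat_lit 5) (nat_lit 182) (nat_lit 5) (nat_lit 183) (nat_lit 5) (nat_lit 605) (nat_lit 508) (nat_lit 447)) (XT.lf (nat_lit 0) (nat_lit 3021650166) (nat_lit 380) (nat_lit 7536928787) (nat_lit 456) (nat_lit 167440491)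 (nat_lit 172) (nat_lit 5) (nat_lit 177) (nat_lit 5) (nat_lit 178) (nat_lit 5) (nat_lit 606) (nat_lit 508) (nat_lit 446))))) (XT.nd (nat_lit 312) (nat_lit 1140) (nat_lit 0) (XT.nd (nat_lit 156) (nat_lit 760) (nat_lit 0) (XT.nd (nat_lit 78) (nat_lit 0) (nat_lit 0) (XT.lf (nat_lit 0) (nat_lit 211609340) (nat_lit 380) (nat_lit 3362127291) (nat_lit 456) (nat_lit 7265020077) (nat_lit 166) (nat_lit 5) (nat_lit 171) (nat_lit 5) (nat_lit 172) (nat_lit 5) (nat_lit 607) (nat_lit 508) (nat_lit 445)) (XT.lf (nat_lit 0) (nat_lit 7407903643) (nat_lit 456) (nat_lit 2628753936) (nat_lit 76) (nat_lit 916661447) (nat_lit 166) (nat_lit 5) (nat_lit 172) (nat_lit 5) (nat_lit 167) (nat_lit 5) (nat_lit 608) (nat_lit 508) (nat_lit 444))) (XT.nd (nat_lit 78) (nat_lit 304) (nat_lit 0) (XT.lf (nat_lit 0) (nat_lit 266858703) (nat_lit 456) (nat_lit 5549692447) (nat_lit 76) (nat_lit 5253159003) (nat_lit 160) (nat_lit 5) (nat_lit 166) (nat_lit 5) (nat_lit 161) (nat_lit 5) (nat_lit 609)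 (nat_lit 508) (nat_lit 443)) (XT.lf (nat_lit 0) (nat_lit 2632188591) (nat_lit 304) (nat_lit 1473992152) (nat_lit 380) (nat_lit 7081814719) (nat_lit 156) (nat_lit 5) (nat_lit 160) (nat_lit 5) (nat_lit 161) (nat_lit 5) (nat_lit 610) (nat_lit 508) (nat_lit 442)))) (XT.nd (nat_lit 156) (nat_lit 684) (nat_lit 0) (XT.nd (nat_lit 78) (nat_lit 456) (nat_lit 0) (XT.lf (nat_lit 0) (nat_lit 8042554409) (nat_lit 380) (nat_lit 332665683) (nat_lit 76) (nat_lit 2933021650) (nat_lit 156) (nat_lit 5) (nat_lit 161) (nat_lit 5) (nat_lit 157) (nat_lit 5) (nat_lit 611) (nat_lit 508) (nat_lit 441)) (XT.lf (nat_lit 0) (nat_lit 645335362) (nat_lit 456) (nat_lit 3340394176) (nat_lit 76) (nat_lit 7444546710) (nat_lit 150) (nat_lit 5) (nat_lit 156) (nat_lit 5) (nat_lit 151) (nat_lit 5) (nat_lit 612) (nat_lit 508) (nat_lit 440))) (XT.nd (nat_lit 78) (nat_lit 380) (nat_lit 0) (XT.lf (nat_lit 0) (nat_lit 4594203355) (nat_lit 380) (nat_lit 6438792631) (nat_lit 76) (nat_lit 521257217)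 (nat_lit 146) (nat_lit 5) (nat_lit 151) (nat_lit 5) (nat_lit 147) (nat_lit 5) (nat_lit 613) (nat_lit 508) (nat_lit 439)) (XT.lf (nat_lit 0) (nat_lit 2048363051) (nat_lit 380) (nat_lit 6600533118) (nat_lit 456) (nat_lit 3031277105) (nat_lit 141) (nat_lit 5) (nat_lit 146) (nat_lit 5) (nat_lit 147) (nat_lit 5) (nat_lit 614) (nat_lit 508) (nat_lit 438)))))) (XT.nd (nat_lit 624) (nat_lit 1520) (nat_lit 0) (XT.nd (nat_lit 312) (nat_lit 988) (nat_lit 0) (XT.nd (nat_lit 156) (nat_lit 684) (nat_lit 0) (XT.nd (nat_lit 78) (nat_lit 304) (nat_lit 0) (XT.lf (nat_lit 0) (nat_lit 971443082) (nat_lit 456) (nat_lit 1079330412) (nat_lit 76) (nat_lit 9757548543) (nat_lit 140) (nat_lit 5) (nat_lit 146) (nat_lit 5) (nat_lit 141) (nat_lit 5) (nat_lit 615) (nat_lit 508) (nat_lit 437)) (XT.lf (nat_lit 0) (nat_lit 5045964074) (nat_lit 380) (nat_lit 4287144477) (nat_lit 76) (nat_lit 2604878278) (nat_lit 136) (nat_lit 5) (nat_lit 141) (nat_lit 5) (nat_lit 137) (nat_lit 5) (nat_lit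 616) (nat_lit 508) (nat_lit 436))) (XT.nd (nat_lit 78) (nat_lit 380) (nat_lit 0) (XT.lf (nat_lit 0) (nat_lit 4488843546) (nat_lit 304) (nat_lit 4728695227) (nat_lit 380) (nat_lit 2852395362) (nat_lit 132) (nat_lit 5) (nat_lit 136) (nat_lit 5) (nat_lit 137) (nat_lit 5) (nat_lit 617) (nat_lit 508) (nat_lit 435)) (XT.lf (nat_lit 0) (nat_lit 1245801726) (nat_lit 304) (nat_lit 8271432) (nat_lit 380) (nat_lit 10950229457) (nat_lit 127) (nat_lit 5) (nat_lit 131) (nat_lit 5) (nat_lit 132) (nat_lit 5) (nat_lit 618) (nat_lit 508) (nat_lit 434)))) (XT.nd (nat_lit 156) (nat_lit 684) (nat_lit 0) (XT.nd (nat_lit 78) (nat_lit 304) (nat_lit 0) (XT.lf (nat_lit 0) (nat_lit 5452725918) (nat_lit 380) (nat_lit 2095578201) (nat_lit 76) (nat_lit 4791712747) (nat_lit 127) (nat_lit 5) (nat_lit 132) (nat_lit 5) (nat_lit 128) (nat_lit 5) (nat_lit 619) (nat_lit 508) (nat_lit 433)) (XT.lf (nat_lit 0) (nat_lit 6980412788) (nat_lit 304) (nat_lit 2766781213) (nat_lit 380) (nat_lit 2731015000)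 (nat_lit 123) (nat_lit 5) (nat_lit 127) (nat_lit 5) (nat_lit 128) (nat_lit 5) (nat_lit 620) (nat_lit 508) (nat_lit 432))) (XT.nd (nat_lit 78) (nat_lit 304) (nat_lit 0) (XT.lf (nat_lit 0) (nat_lit 1506739326) (nat_lit 380) (nat_lit 9003359879) (nat_lit 76) (nat_lit 2108507624) (nat_lit 118) (nat_lit 5) (nat_lit 123) (nat_lit 5) (nat_lit 119) (nat_lit 5) (nat_lit 621) (nat_lit 508) (nat_lit 431)) (XT.lf (nat_lit 0) (nat_lit 133177559) (nat_lit 304) (nat_lit 5682558042) (nat_lit 380) (nat_lit 6945255289) (nat_lit 114) (nat_lit 5) (nat_lit 118) (nat_lit 5) (nat_lit 119) (nat_lit 5) (nat_lit 622) (nat_lit 508) (nat_lit 430))))) (XT.nd (nat_lit 312) (nat_lit 912) (nat_lit 0) (XT.nd (nat_lit 156) (nat_lit 304) (nat_lit 0) (XT.nd (nat_lit 78) (nat_lit 304) (nat_lit 0) (XT.lf (nat_lit 0) (nat_lit 9518940708) (nat_lit 304) (nat_lit 719376554) (nat_lit 380) (nat_lit 2667357673) (nat_lit 114) (nat_lit 5) (nat_lit 118) (nat_lit 5) (nat_lit 119) (nat_lit 5) (nat_lit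 623) (nat_lit 508) (nat_lit 429)) (XT.lf (nat_lit 0) (nat_lit 1708958165) (nat_lit 304) (nat_lit 7028641197) (nat_lit 76) (nat_lit 4314731356) (nat_lit 110) (nat_lit 5) (nat_lit 114) (nat_lit 5) (nat_lit 111) (nat_lit 5) (nat_lit 624) (nat_lit 508) (nat_lit 428))) (XT.nd (nat_lit 78) (nat_lit 0) (nat_lit 0) (XT.lf (nat_lit 0) (nat_lit 2420903202) (nat_lit 304) (nat_lit 3727135172) (nat_lit 380) (nat_lit 7053309926) (nat_lit 106) (nat_lit 5) (nat_lit 110) (nat_lit 5) (nat_lit 111) (nat_lit 5) (nat_lit 625) (nat_lit 508) (nat_lit 427)) (XT.lf (nat_lit 0) (nat_lit 10700057320) (nat_lit 380) (nat_lit 1262152765) (nat_lit 76) (nat_lit 1390653388) (nat_lit 106) (nat_lit 5) (nat_lit 111) (nat_lit 5) (nat_lit 107) (nat_lit 5) (nat_lit 626) (nat_lit 508) (nat_lit 426)))) (XT.nd (nat_lit 156) (nat_lit 304) (nat_lit 0) (XT.nd (nat_lit 78) (nat_lit 304) (nat_lit 0) (XT.lf (nat_lit 0) (nat_lit 1860013352) (nat_lit 304) (nat_lit 5039746265) (nat_lit 76) (nat_lit 6606443700)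 (nat_lit 102) (nat_lit 5) (nat_lit 106) (nat_lit 5) (nat_lit 103) (nat_lit 5) (nat_lit 627) (nat_lit 508) (nat_lit 425)) (XT.lf (nat_lit 0) (nat_lit 4734627413) (nat_lit 304) (nat_lit 1700633400) (nat_lit 380) (nat_lit 7226844950) (nat_lit 98) (nat_lit 5) (nat_lit 102) (nat_lit 5) (nat_lit 103) (nat_lit 5) (nat_lit 628) (nat_lit 508) (nat_lit 424))) (XT.nd (nat_lit 78) (nat_lit 76) (nat_lit 0) (XT.lf (nat_lit 0) (nat_lit 886085266) (nat_lit 228) (nat_lit 10247631935) (nat_lit 304) (nat_lit 2686775331) (nat_lit 95) (nat_lit 5) (nat_lit 98) (nat_lit 5) (nat_lit 99) (nat_lit 5) (nat_lit 629) (nat_lit 508) (nat_lit 423)) (XT.lf (nat_lit 0) (nat_lit 1958743910) (nat_lit 304) (nat_lit 3042532866) (nat_lit 76) (nat_lit 8979715242) (nat_lit 94) (nat_lit 5) (nat_lit 98) (nat_lit 5) (nat_lit 95) (nat_lit 5) (nat_lit 630) (nat_lit 508) (nat_lit 422))))))) (XT.nd (nat_lit 1170) (nat_lit 152) (nat_lit 0) (XT.nd (nat_lit 546) (nat_lit 1444) (nat_lit 0) (XT.nd (nat_lit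 234) (nat_lit 760) (nat_lit 0) (XT.nd (nat_lit 78) (nat_lit 304) (nat_lit 0) (XT.lf (nat_lit 0) (nat_lit 6678869335) (nat_lit 304) (nat_lit 7077769323) (nat_lit 76) (nat_lit 387354543) (nat_lit 91) (nat_lit 5) (nat_lit 95) (nat_lit 5) (nat_lit 92) (nat_lit 5) (nat_lit 631) (nat_lit 508) (nat_lit 421)) (XT.nd (nat_lit 78) (nat_lit 76) (nat_lit 0) (XT.lf (nat_lit 0) (nat_lit 3062068404) (nat_lit 228) (nat_lit 8474192466) (nat_lit 304) (nat_lit 2773136590) (nat_lit 88) (nat_lit 5) (nat_lit 91) (nat_lit 5) (nat_lit 92) (nat_lit 5) (nat_lit 632) (nat_lit 508) (nat_lit 420)) (XT.lf (nat_lit 0) (nat_lit 2003468682) (nat_lit 304) (nat_lit 1043341398) (nat_lit 76) (nat_lit 11430695182) (nat_lit 87) (nat_lit 5) (nat_lit 91) (nat_lit 5) (nat_lit 88) (nat_lit 5) (nat_lit 633) (nat_lit 508) (nat_lit 419)))) (XT.nd (nat_lit 156) (nat_lit 304) (nat_lit 0) (XT.nd (nat_lit 78) (nat_lit 228) (nat_lit 0) (XT.lf (nat_lit 0) (nat_lit 6886161009) (nat_lit 304) (nat_lit 5247050881)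 (nat_lit 76) (nat_lit 2514443284) (nat_lit 84) (nat_lit 5) (nat_lit 88) (nat_lit 5) (nat_lit 85) (nat_lit 5) (nat_lit 634) (nat_lit 508) (nat_lit 418)) (XT.lf (nat_lit 0) (nat_lit 5242534537) (nat_lit 228) (nat_lit 6655307971) (nat_lit 304) (nat_lit 2922739168) (nat_lit 81) (nat_lit 5) (nat_lit 84) (nat_lit 5) (nat_lit 85) (nat_lit 5) (nat_lit 635) (nat_lit 508) (nat_lit 417))) (XT.nd (nat_lit 78) (nat_lit 0) (nat_lit 0) (XT.lf (nat_lit 0) (nat_lit 963556108) (nat_lit 228) (nat_lit 1034659774) (nat_lit 304) (nat_lit 12998253289) (nat_lit 77) (nat_lit 5) (nat_lit 80) (nat_lit 5) (nat_lit 81) (nat_lit 5) (nat_lit 636) (nat_lit 508) (nat_lit 416)) (XT.lf (nat_lit 0) (nat_lit 7043919292) (nat_lit 304) (nat_lit 3431705651) (nat_lit 76) (nat_lit 4698554074) (nat_lit 77) (nat_lit 5) (nat_lit 81) (nat_lit 5) (nat_lit 78) (nat_lit 5) (nat_lit 637) (nat_lit 508) (nat_lit 415))))) (XT.nd (nat_lit 312) (nat_lit 760) (nat_lit 0) (XT.nd (nat_lit 156) (nat_lit 152) (nat_lit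 0) (XT.nd (nat_lit 78) (nat_lit 304) (nat_lit 0) (XT.lf (nat_lit 0) (nat_lit 7420371399) (nat_lit 228) (nat_lit 4796002868) (nat_lit 304) (nat_lit 3138552320) (nat_lit 74) (nat_lit 5) (nat_lit 77) (nat_lit 5) (nat_lit 78) (nat_lit 5) (nat_lit 638) (nat_lit 508) (nat_lit 414)) (XT.lf (nat_lit 0) (nat_lit 1947398894) (nat_lit 304) (nat_lit 12573812445) (nat_lit 76) (nat_lit 1017423966) (nat_lit 70) (nat_lit 5) (nat_lit 74) (nat_lit 5) (nat_lit 71) (nat_lit 5) (nat_lit 639) (nat_lit 508) (nat_lit 413))) (XT.nd (nat_lit 78) (nat_lit 152) (nat_lit 0) (XT.lf (nat_lit 0) (nat_lit 7149389992) (nat_lit 304) (nat_lit 1639871996) (nat_lit 76) (nat_lit 6935214633) (nat_lit 70) (nat_lit 5) (nat_lit 74) (nat_lit 5) (nat_lit 71) (nat_lit 5) (nat_lit 640) (nat_lit 508) (nat_lit 412)) (XT.lf (nat_lit 0) (nat_lit 9587744396) (nat_lit 152) (nat_lit 2901443692) (nat_lit 228) (nat_lit 3424171588) (nat_lit 68) (nat_lit 5) (nat_lit 70) (nat_lit 5) (nat_lit 71) (nat_lit 5) (nat_lit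 641) (nat_lit 508) (nat_lit 411)))) (XT.nd (nat_lit 156) (nat_lit 304) (nat_lit 0) (XT.nd (nat_lit 78) (nat_lit 152) (nat_lit 0) (XT.lf (nat_lit 0) (nat_lit 1840971286) (nat_lit 304) (nat_lit 11167230617) (nat_lit 76) (nat_lit 3096876991) (nat_lit 64) (nat_lit 5) (nat_lit 68) (nat_lit 5) (nat_lit 65) (nat_lit 5) (nat_lit 642) (nat_lit 508) (nat_lit 410)) (XT.lf (nat_lit 0) (nat_lit 121080355) (nat_lit 152) (nat_lit 7078906745) (nat_lit 228) (nat_lit 9099504569) (nat_lit 62) (nat_lit 5) (nat_lit 64) (nat_lit 5) (nat_lit 65) (nat_lit 5) (nat_lit 643) (nat_lit 508) (nat_lit 409))) (XT.nd (nat_lit 78) (nat_lit 304) (nat_lit 0) (XT.lf (nat_lit 0) (nat_lit 11735989038) (nat_lit 152) (nat_lit 977006542) (nat_lit 228) (nat_lit 3783861108) (nat_lit 62) (nat_lit 5) (nat_lit 64) (nat_lit 5) (nat_lit 65) (nat_lit 5) (nat_lit 644) (nat_lit 508) (nat_lit 408)) (XT.lf (nat_lit 0) (nat_lit 1668042560) (nat_lit 304) (nat_lit 9816740555) (nat_lit 76) (nat_lit 5212144783)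 (nat_lit 58) (nat_lit 5) (nat_lit 62) (nat_lit 5) (nat_lit 59) (nat_lit 5) (nat_lit 645) (nat_lit 508) (nat_lit 407)))))) (XT.nd (nat_lit 73632) (nat_lit 0) (nat_lit 35796) (XT.nd (nat_lit 73320) (nat_lit 0) (nat_lit 44916) (XT.nd (nat_lit 73164) (nat_lit 0) (nat_lit 47424) (XT.nd (nat_lit 73086) (nat_lit 0) (nat_lit 49552) (XT.lf (nat_lit 0) (nat_lit 1860901645) (nat_lit 152) (nat_lit 5340498119) (nat_lit 228) (nat_lit 9698639140) (nat_lit 56) (nat_lit 5) (nat_lit 58) (nat_lit 5) (nat_lit 59) (nat_lit 5) (nat_lit 646) (nat_lit 508) (nat_lit 406)) (XT.lf (nat_lit 0) (nat_lit 1207865107) (nat_lit 988) (nat_lit 920317156) (nat_lit 0) (nat_lit 1207865107) (nat_lit 708) (nat_lit 5) (nat_lit 721) (nat_lit 4) (nat_lit 708) (nat_lit 4) (nat_lit 542) (nat_lit 509) (nat_lit 509))) (XT.nd (nat_lit 78) (nat_lit 1140) (nat_lit 0) (XT.lf (nat_lit 0) (nat_lit 2557807071) (nat_lit 988) (nat_lit 3192234465) (nat_lit 988) (nat_lit 943629366) (nat_lit 695) (nat_lit 4) (nat_lit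 708) (nat_lit 5) (nat_lit 708) (nat_lit 4) (nat_lit 543) (nat_lit 509) (nat_lit 508)) (XT.lf (nat_lit 0) (nat_lit 282456981) (nat_lit 1064) (nat_lit 2061888010) (nat_lit 1140) (nat_lit 4372202367) (nat_lit 680) (nat_lit 5) (nat_lit 694) (nat_lit 5) (nat_lit 695) (nat_lit 4) (nat_lit 544) (nat_lit 509) (nat_lit 507)))) (XT.nd (nat_lit 156) (nat_lit 1292) (nat_lit 0) (XT.nd (nat_lit 78) (nat_lit 1216) (nat_lit 0) (XT.lf (nat_lit 0) (nat_lit 4780173707) (nat_lit 1064) (nat_lit 860708784) (nat_lit 1140) (nat_lit 1099768763) (nat_lit 680) (nat_lit 5) (nat_lit 694) (nat_lit 5) (nat_lit 695) (nat_lit 4) (nat_lit 545) (nat_lit 509) (nat_lit 506)) (XT.lf (nat_lit 0) (nat_lit 2156717582) (nat_lit 1216) (nat_lit 4205508651) (nat_lit 76) (nat_lit 403764521) (nat_lit 664) (nat_lit 5) (nat_lit 680) (nat_lit 5) (nat_lit 665) (nat_lit 4) (nat_lit 546) (nat_lit 509) (nat_lit 505))) (XT.nd (nat_lit 78) (nat_lit 76) (nat_lit 0) (XT.lf (nat_lit 0) (nat_lit 338627204) (nat_lit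 1216) (nat_lit 5075895711) (nat_lit 1292) (nat_lit 1378153674) (nat_lit 648) (nat_lit 5) (nat_lit 664) (nat_lit 5) (nat_lit 665) (nat_lit 4) (nat_lit 547) (nat_lit 509) (nat_lit 504)) (XT.lf (nat_lit 0) (nat_lit 1851137643) (nat_lit 1292) (nat_lit 1861459022) (nat_lit 76) (nat_lit 3107879603) (nat_lit 647) (nat_lit 5) (nat_lit 664) (nat_lit 5) (nat_lit 648) (nat_lit 5) (nat_lit 548) (nat_lit 509) (nat_lit 503))))) (XT.nd (nat_lit 312) (nat_lit 4864) (nat_lit 0) (XT.nd (nat_lit 156) (nat_lit 1520) (nat_lit 0) (XT.nd (nat_lit 78) (nat_lit 1444) (nat_lit 0) (XT.lf (nat_lit 0) (nat_lit 2791503940) (nat_lit 1292) (nat_lit 2284856632) (nat_lit 1368) (nat_lit 1773296241) (nat_lit 630) (nat_lit 5) (nat_lit 647) (nat_lit 5) (nat_lit 648) (nat_lit 5) (nat_lit 549) (nat_lit 509) (nat_lit 502)) (XT.lf (nat_lit 0) (nat_lit 622537220) (nat_lit 1368) (nat_lit 793416142) (nat_lit 1444) (nat_lit 5464301804) (nat_lit 611) (nat_lit 5) (nat_lit 629) (nat_lit 5) (nat_lit 630)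 (nat_lit 5) (nat_lit 550) (nat_lit 509) (nat_lit 501))) (XT.nd (nat_lit 78) (nat_lit 1520) (nat_lit 0) (XT.lf (nat_lit 0) (nat_lit 4610569382) (nat_lit 1444) (nat_lit 1536199917) (nat_lit 76) (nat_lit 765158112) (nat_lit 611) (nat_lit 5) (nat_lit 630) (nat_lit 5) (nat_lit 612) (nat_lit 5) (nat_lit 551) (nat_lit 509) (nat_lit 500)) (XT.lf (nat_lit 0) (nat_lit 873336081) (nat_lit 1520) (nat_lit 3692835431) (nat_lit 76) (nat_lit 2378731840) (nat_lit 591) (nat_lit 5) (nat_lit 611) (nat_lit 5) (nat_lit 592) (nat_lit 5) (nat_lit 552) (nat_lit 509) (nat_lit 499)))) (XT.nd (nat_lit 156) (nat_lit 3268) (nat_lit 0) (XT.nd (nat_lit 78) (nat_lit 76) (nat_lit 0) (XT.lf (nat_lit 0) (nat_lit 1118177075) (nat_lit 1520) (nat_lit 2915144966) (nat_lit 1596) (nat_lit 2945862975) (nat_lit 571) (nat_lit 5) (nat_lit 591) (nat_lit 5) (nat_lit 592) (nat_lit 5) (nat_lit 553) (nat_lit 509) (nat_lit 498)) (XT.lf (nat_lit 0) (nat_lit 199531752) (nat_lit 1596) (nat_lit 1000165936)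 (nat_lit 76) (nat_lit 5815218660) (nat_lit 570) (nat_lit 5) (nat_lit 591) (nat_lit 5) (nat_lit 571) (nat_lit 5) (nat_lit 554) (nat_lit 509) (nat_lit 497))) (XT.nd (nat_lit 78) (nat_lit 1672) (nat_lit 0) (XT.lf (nat_lit 0) (nat_lit 3334521658) (nat_lit 1672) (nat_lit 3124747518) (nat_lit 76) (nat_lit 592383592) (nat_lit 549) (nat_lit 5) (nat_lit 571) (nat_lit 5) (nat_lit 550) (nat_lit 5) (nat_lit 555) (nat_lit 509) (nat_lit 496)) (XT.lf (nat_lit 0) (nat_lit 1833193400) (nat_lit 1672) (nat_lit 4663183102) (nat_lit 1748) (nat_lit 593466615) (nat_lit 527) (nat_lit 5) (nat_lit 549) (nat_lit 5) (nat_lit 550) (nat_lit 5) (nat_lit 556) (nat_lit 509) (nat_lit 495))))))))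
noncomputable def xc47 : XT := (XT.nd (nat_lit 2418) (nat_lit 10716) (nat_lit 0) (XT.nd (nat_lit 1170) (nat_lit 7676) (nat_lit 0) (XT.nd (nat_lit 546) (nat_lit 5244) (nat_lit 0) (XT.nd (nat_lit 234) (nat_lit 3040) (nat_lit 0) (XT.nd (nat_lit 78) (nat_lit 3648) (nat_lit 0) (XT.lf (nat_lit 0) (nat_lit 2517764377) (nat_lit 1748) (nat_lit 273077797) (nat_lit 76) (nat_lit 4338438904) (nat_lit 526) (nat_lit 5) (nat_lit 549) (nat_lit 5) (nat_lit 527) (nat_lit 5) (nat_lit 557) (nat_lit 509) (nat_lit 494)) (XT.nd (nat_lit 78) (nat_lit 1900) (nat_lit 0) (XT.lf (nat_lit 0) (nat_lit 4810127272) (nat_lit 1748) (nat_lit 843589054) (nat_lit 1824) (nat_lit 1516306515) (nat_lit 503) (nat_lit 5) (nat_lit 526) (nat_lit 5) (nat_lit 527) (nat_lit 5) (nat_lit 558) (nat_lit 509) (nat_lit 493)) (XT.lf (nat_lit 0) (nat_lit 1586247604) (nat_lit 1900) (nat_lit 4466819884) (nat_lit 76) (nat_lit 1158961971) (nat_lit 478) (nat_lit 5) (nat_lit 503) (nat_lit 5) (nat_lit 479) (nat_lit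 5) (nat_lit 559) (nat_lit 509) (nat_lit 492)))) (XT.nd (nat_lit 156) (nat_lit 1824) (nat_lit 0) (XT.nd (nat_lit 78) (nat_lit 76) (nat_lit 0) (XT.lf (nat_lit 0) (nat_lit 662387164) (nat_lit 1140) (nat_lit 4034427178) (nat_lit 1216) (nat_lit 2558538334) (nat_lit 463) (nat_lit 5) (nat_lit 478) (nat_lit 5) (nat_lit 479) (nat_lit 5) (nat_lit 560) (nat_lit 509) (nat_lit 491)) (XT.lf (nat_lit 0) (nat_lit 533551555) (nat_lit 1216) (nat_lit 1408919783) (nat_lit 76) (nat_lit 5357579577) (nat_lit 462) (nat_lit 5) (nat_lit 478) (nat_lit 5) (nat_lit 463) (nat_lit 5) (nat_lit 561) (nat_lit 509) (nat_lit 490))) (XT.nd (nat_lit 78) (nat_lit 912) (nat_lit 0) (XT.lf (nat_lit 0) (nat_lit 3621746358) (nat_lit 988) (nat_lit 3494696046) (nat_lit 76) (nat_lit 229494130) (nat_lit 450) (nat_lit 5) (nat_lit 463) (nat_lit 5) (nat_lit 451) (nat_lit 5) (nat_lit 562) (nat_lit 509) (nat_lit 489)) (XT.lf (nat_lit 0) (nat_lit 1793390246) (nat_lit 912) (nat_lit 4955046077) (nat_lit 988)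 (nat_lit 644770968) (nat_lit 438) (nat_lit 5) (nat_lit 450) (nat_lit 5) (nat_lit 451) (nat_lit 5) (nat_lit 563) (nat_lit 509) (nat_lit 488))))) (XT.nd (nat_lit 312) (nat_lit 2508) (nat_lit 0) (XT.nd (nat_lit 156) (nat_lit 1824) (nat_lit 0) (XT.nd (nat_lit 78) (nat_lit 836) (nat_lit 0) (XT.lf (nat_lit 0) (nat_lit 2430168288) (nat_lit 988) (nat_lit 283423930) (nat_lit 76) (nat_lit 4728175670) (nat_lit 437) (nat_lit 5) (nat_lit 450) (nat_lit 5) (nat_lit 438) (nat_lit 5) (nat_lit 564) (nat_lit 509) (nat_lit 487)) (XT.lf (nat_lit 0) (nat_lit 5142951549) (nat_lit 836) (nat_lit 392600919) (nat_lit 912) (nat_lit 1956112331) (nat_lit 426) (nat_lit 5) (nat_lit 437) (nat_lit 5) (nat_lit 438) (nat_lit 5) (nat_lit 565) (nat_lit 509) (nat_lit 486))) (XT.nd (nat_lit 78) (nat_lit 836) (nat_lit 0) (XT.lf (nat_lit 0) (nat_lit 1124901614) (nat_lit 988) (nat_lit 4443491646) (nat_lit 76) (nat_lit 1974424817) (nat_lit 413) (nat_lit 5) (nat_lit 426) (nat_lit 5) (nat_lit 414)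 (nat_lit 5) (nat_lit 566) (nat_lit 509) (nat_lit 485)) (XT.lf (nat_lit 0) (nat_lit 1030798906) (nat_lit 836) (nat_lit 3180922057) (nat_lit 912) (nat_lit 3383609133) (nat_lit 402) (nat_lit 5) (nat_lit 413) (nat_lit 5) (nat_lit 414) (nat_lit 5) (nat_lit 567) (nat_lit 509) (nat_lit 484)))) (XT.nd (nat_lit 156) (nat_lit 1596) (nat_lit 0) (XT.nd (nat_lit 78) (nat_lit 912) (nat_lit 0) (XT.lf (nat_lit 0) (nat_lit 6614659728) (nat_lit 836) (nat_lit 721314094) (nat_lit 912) (nat_lit 313406375) (nat_lit 402) (nat_lit 5) (nat_lit 413) (nat_lit 5) (nat_lit 414) (nat_lit 5) (nat_lit 568) (nat_lit 509) (nat_lit 483)) (XT.lf (nat_lit 0) (nat_lit 2769497118) (nat_lit 912) (nat_lit 3128623584) (nat_lit 76) (nat_lit 1806261208) (nat_lit 390) (nat_lit 5) (nat_lit 402) (nat_lit 5) (nat_lit 391) (nat_lit 5) (nat_lit 569) (nat_lit 509) (nat_lit 482))) (XT.nd (nat_lit 78) (nat_lit 836) (nat_lit 0) (XT.lf (nat_lit 0) (nat_lit 2517950734) (nat_lit 760) (nat_lit 3367236952) (nat_lit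 836) (nat_lit 1875749710) (nat_lit 380) (nat_lit 5) (nat_lit 390) (nat_lit 5) (nat_lit 391) (nat_lit 5) (nat_lit 570) (nat_lit 509) (nat_lit 481)) (XT.lf (nat_lit 0) (nat_lit 438589803) (nat_lit 760) (nat_lit 761143107) (nat_lit 836) (nat_lit 6619301338) (nat_lit 369) (nat_lit 5) (nat_lit 379) (nat_lit 5) (nat_lit 380) (nat_lit 5) (nat_lit 571) (nat_lit 509) (nat_lit 480)))))) (XT.nd (nat_lit 624) (nat_lit 3876) (nat_lit 0) (XT.nd (nat_lit 312) (nat_lit 2204) (nat_lit 0) (XT.nd (nat_lit 156) (nat_lit 836) (nat_lit 0) (XT.nd (nat_lit 78) (nat_lit 760) (nat_lit 0) (XT.lf (nat_lit 0) (nat_lit 4307456017) (nat_lit 836) (nat_lit 1658884050) (nat_lit 76) (nat_lit 1911789642) (nat_lit 369) (nat_lit 5) (nat_lit 380) (nat_lit 5) (nat_lit 370) (nat_lit 5) (nat_lit 572) (nat_lit 509) (nat_lit 479)) (XT.lf (nat_lit 0) (nat_lit 4166723712) (nat_lit 760) (nat_lit 3291811912) (nat_lit 836) (nat_lit 480248969) (nat_lit 359) (nat_lit 5) (nat_lit 369) (nat_lit 5) (nat_lit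 370) (nat_lit 5) (nat_lit 573) (nat_lit 509) (nat_lit 478))) (XT.nd (nat_lit 78) (nat_lit 0) (nat_lit 0) (XT.lf (nat_lit 0) (nat_lit 2080494385) (nat_lit 760) (nat_lit 530544640) (nat_lit 836) (nat_lit 5389786112) (nat_lit 348) (nat_lit 5) (nat_lit 358) (nat_lit 5) (nat_lit 359) (nat_lit 5) (nat_lit 574) (nat_lit 509) (nat_lit 477)) (XT.lf (nat_lit 0) (nat_lit 5747974657) (nat_lit 836) (nat_lit 41369303) (nat_lit 76) (nat_lit 2274895459) (nat_lit 348) (nat_lit 5) (nat_lit 359) (nat_lit 5) (nat_lit 349) (nat_lit 5) (nat_lit 575) (nat_lit 509) (nat_lit 476)))) (XT.nd (nat_lit 156) (nat_lit 760) (nat_lit 0) (XT.nd (nat_lit 78) (nat_lit 684) (nat_lit 0) (XT.lf (nat_lit 0) (nat_lit 801125892) (nat_lit 760) (nat_lit 2163989138) (nat_lit 76) (nat_lit 5163839319) (nat_lit 338) (nat_lit 5) (nat_lit 348) (nat_lit 5) (nat_lit 339) (nat_lit 5) (nat_lit 576) (nat_lit 509) (nat_lit 475)) (XT.lf (nat_lit 0) (nat_lit 3872600747) (nat_lit 684) (nat_lit 53862399) (nat_lit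 760) (nat_lit 4268663332) (nat_lit 329) (nat_lit 5) (nat_lit 338) (nat_lit 5) (nat_lit 339) (nat_lit 5) (nat_lit 577) (nat_lit 509) (nat_lit 474))) (XT.nd (nat_lit 78) (nat_lit 76) (nat_lit 0) (XT.lf (nat_lit 0) (nat_lit 1740346051) (nat_lit 684) (nat_lit 5370468586) (nat_lit 760) (nat_lit 1151878617) (nat_lit 320) (nat_lit 5) (nat_lit 329) (nat_lit 5) (nat_lit 330) (nat_lit 5) (nat_lit 578) (nat_lit 509) (nat_lit 473)) (XT.lf (nat_lit 0) (nat_lit 1982110268) (nat_lit 760) (nat_lit 422294164) (nat_lit 76) (nat_lit 5927315868) (nat_lit 319) (nat_lit 5) (nat_lit 329) (nat_lit 5) (nat_lit 320) (nat_lit 5) (nat_lit 579) (nat_lit 509) (nat_lit 472))))) (XT.nd (nat_lit 312) (nat_lit 1900) (nat_lit 0) (XT.nd (nat_lit 156) (nat_lit 684) (nat_lit 0) (XT.nd (nat_lit 78) (nat_lit 608) (nat_lit 0) (XT.lf (nat_lit 0) (nat_lit 5158181250) (nat_lit 760) (nat_lit 2597533195) (nat_lit 76) (nat_lit 646365920) (nat_lit 310) (nat_lit 5) (nat_lit 320) (nat_lit 5) (nat_lit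 311) (nat_lit 5) (nat_lit 580) (nat_lit 509) (nat_lit 471)) (XT.lf (nat_lit 0) (nat_lit 3660025185) (nat_lit 608) (nat_lit 4733592203) (nat_lit 684) (nat_lit 80314620) (nat_lit 302) (nat_lit 5) (nat_lit 310) (nat_lit 5) (nat_lit 311) (nat_lit 5) (nat_lit 581) (nat_lit 509) (nat_lit 470))) (XT.nd (nat_lit 78) (nat_lit 0) (nat_lit 0) (XT.lf (nat_lit 0) (nat_lit 1469685043) (nat_lit 608) (nat_lit 1616204458) (nat_lit 684) (nat_lit 5461311489) (nat_lit 293) (nat_lit 5) (nat_lit 301) (nat_lit 5) (nat_lit 302) (nat_lit 5) (nat_lit 582) (nat_lit 509) (nat_lit 469)) (XT.lf (nat_lit 0) (nat_lit 6310973588) (nat_lit 684) (nat_lit 748537464) (nat_lit 76) (nat_lit 1562482234) (nat_lit 293) (nat_lit 5) (nat_lit 302) (nat_lit 5) (nat_lit 294) (nat_lit 5) (nat_lit 583) (nat_lit 509) (nat_lit 468)))) (XT.nd (nat_lit 156) (nat_lit 608) (nat_lit 0) (XT.nd (nat_lit 78) (nat_lit 608) (nat_lit 0) (XT.lf (nat_lit 0) (nat_lit 893113111) (nat_lit 684) (nat_lit 2992242011) (nat_lit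 76) (nat_lit 4812756901) (nat_lit 284) (nat_lit 5) (nat_lit 293) (nat_lit 5) (nat_lit 285) (nat_lit 5) (nat_lit 584) (nat_lit 509) (nat_lit 467)) (XT.lf (nat_lit 0) (nat_lit 3494782514) (nat_lit 608) (nat_lit 618446388) (nat_lit 684) (nat_lit 4662562930) (nat_lit 276) (nat_lit 5) (nat_lit 284) (nat_lit 5) (nat_lit 285) (nat_lit 5) (nat_lit 585) (nat_lit 509) (nat_lit 466))) (XT.nd (nat_lit 78) (nat_lit 76) (nat_lit 0) (XT.lf (nat_lit 0) (nat_lit 1235965826) (nat_lit 532) (nat_lit 6163108339) (nat_lit 608) (nat_lit 1455925618) (nat_lit 269) (nat_lit 5) (nat_lit 276) (nat_lit 5) (nat_lit 277) (nat_lit 5) (nat_lit 586) (nat_lit 509) (nat_lit 465)) (XT.lf (nat_lit 0) (nat_lit 1786474861) (nat_lit 608) (nat_lit 1056502219) (nat_lit 76) (nat_lit 6092671547) (nat_lit 268) (nat_lit 5) (nat_lit 276) (nat_lit 5) (nat_lit 269) (nat_lit 5) (nat_lit 587) (nat_lit 509) (nat_lit 464))))))) (XT.nd (nat_lit 1248) (nat_lit 4636) (nat_lit 0) (XT.nd (nat_lit 624) (nat_lit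 2736) (nat_lit 0) (XT.nd (nat_lit 312) (nat_lit 1596) (nat_lit 0) (XT.nd (nat_lit 156) (nat_lit 608) (nat_lit 0) (XT.nd (nat_lit 78) (nat_lit 532) (nat_lit 0) (XT.lf (nat_lit 0) (nat_lit 5071150428) (nat_lit 684) (nat_lit 3378939096) (nat_lit 76) (nat_lit 567691039) (nat_lit 260) (nat_lit 5) (nat_lit 269) (nat_lit 5) (nat_lit 261) (nat_lit 5) (nat_lit 588) (nat_lit 509) (nat_lit 463)) (XT.lf (nat_lit 0) (nat_lit 3346654070) (nat_lit 532) (nat_lit 5079461950) (nat_lit 608) (nat_lit 675348193) (nat_lit 253) (nat_lit 5) (nat_lit 260) (nat_lit 5) (nat_lit 261) (nat_lit 5) (nat_lit 589) (nat_lit 509) (nat_lit 462))) (XT.nd (nat_lit 78) (nat_lit 0) (nat_lit 0) (XT.lf (nat_lit 0) (nat_lit 1002366294) (nat_lit 532) (nat_lit 1610503871) (nat_lit 608) (nat_lit 6573878453) (nat_lit 245) (nat_lit 5) (nat_lit 252) (nat_lit 5) (nat_lit 253) (nat_lit 5) (nat_lit 590) (nat_lit 509) (nat_lit 461)) (XT.lf (nat_lit 0) (nat_lit 5966640185) (nat_lit 608) (nat_lit 1377411102)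 (nat_lit 76) (nat_lit 1929422486) (nat_lit 245) (nat_lit 5) (nat_lit 253) (nat_lit 5) (nat_lit 246) (nat_lit 5) (nat_lit 591) (nat_lit 509) (nat_lit 460)))) (XT.nd (nat_lit 156) (nat_lit 532) (nat_lit 0) (XT.nd (nat_lit 78) (nat_lit 532) (nat_lit 0) (XT.lf (nat_lit 0) (nat_lit 30341511) (nat_lit 532) (nat_lit 3792674620) (nat_lit 76) (nat_lit 5538812404) (nat_lit 238) (nat_lit 5) (nat_lit 245) (nat_lit 5) (nat_lit 239) (nat_lit 5) (nat_lit 592) (nat_lit 509) (nat_lit 459)) (XT.lf (nat_lit 0) (nat_lit 3182446899) (nat_lit 532) (nat_lit 195974334) (nat_lit 608) (nat_lit 6073324098) (nat_lit 231) (nat_lit 5) (nat_lit 238) (nat_lit 5) (nat_lit 239) (nat_lit 5) (nat_lit 593) (nat_lit 509) (nat_lit 458))) (XT.nd (nat_lit 78) (nat_lit 76) (nat_lit 0) (XT.lf (nat_lit 0) (nat_lit 733017516) (nat_lit 456) (nat_lit 6072325224) (nat_lit 532) (nat_lit 2737880994) (nat_lit 225) (nat_lit 5) (nat_lit 231) (nat_lit 5) (nat_lit 232) (nat_lit 5) (nat_lit 594) (nat_lit 509)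 (nat_lit 457)) (XT.lf (nat_lit 0) (nat_lit 658115174) (nat_lit 532) (nat_lit 1740585189) (nat_lit 76) (nat_lit 7237694802) (nat_lit 224) (nat_lit 5) (nat_lit 231) (nat_lit 5) (nat_lit 225) (nat_lit 5) (nat_lit 595) (nat_lit 509) (nat_lit 456))))) (XT.nd (nat_lit 312) (nat_lit 1292) (nat_lit 0) (XT.nd (nat_lit 156) (nat_lit 532) (nat_lit 0) (XT.nd (nat_lit 78) (nat_lit 456) (nat_lit 0) (XT.lf (nat_lit 0) (nat_lit 4089601392) (nat_lit 532) (nat_lit 4274379604) (nat_lit 76) (nat_lit 1367003298) (nat_lit 218) (nat_lit 5) (nat_lit 225) (nat_lit 5) (nat_lit 219) (nat_lit 5) (nat_lit 596) (nat_lit 509) (nat_lit 455)) (XT.lf (nat_lit 0) (nat_lit 2958436484) (nat_lit 456) (nat_lit 4638145142) (nat_lit 532) (nat_lit 2230747104) (nat_lit 212) (nat_lit 5) (nat_lit 218) (nat_lit 5) (nat_lit 219) (nat_lit 5) (nat_lit 597) (nat_lit 509) (nat_lit 454))) (XT.nd (nat_lit 78) (nat_lit 0) (nat_lit 0) (XT.lf (nat_lit 0) (nat_lit 407222786) (nat_lit 456) (nat_lit 816183752)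 (nat_lit 532) (nat_lit 8702198741) (nat_lit 205) (nat_lit 5) (nat_lit 211) (nat_lit 5) (nat_lit 212) (nat_lit 5) (nat_lit 598) (nat_lit 509) (nat_lit 453)) (XT.lf (nat_lit 0) (nat_lit 4743650120) (nat_lit 532) (nat_lit 2196974858) (nat_lit 76) (nat_lit 3084390706) (nat_lit 205) (nat_lit 5) (nat_lit 212) (nat_lit 5) (nat_lit 206) (nat_lit 5) (nat_lit 599) (nat_lit 509) (nat_lit 452)))) (XT.nd (nat_lit 156) (nat_lit 380) (nat_lit 0) (XT.nd (nat_lit 78) (nat_lit 532) (nat_lit 0) (XT.lf (nat_lit 0) (nat_lit 5276889638) (nat_lit 380) (nat_lit 3058288637) (nat_lit 456) (nat_lit 1791219176) (nat_lit 200) (nat_lit 5) (nat_lit 205) (nat_lit 5) (nat_lit 206) (nat_lit 5) (nat_lit 600) (nat_lit 509) (nat_lit 451)) (XT.lf (nat_lit 0) (nat_lit 1745047360) (nat_lit 532) (nat_lit 7569750758) (nat_lit 76) (nat_lit 914789490) (nat_lit 193) (nat_lit 5) (nat_lit 200) (nat_lit 5) (nat_lit 194) (nat_lit 5) (nat_lit 601) (nat_lit 509) (nat_lit 450))) (XT.nd (nat_lit 78) (nat_lit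 380) (nat_lit 0) (XT.lf (nat_lit 0) (nat_lit 5342694744) (nat_lit 532) (nat_lit 39585271) (nat_lit 76) (nat_lit 4952032659) (nat_lit 193) (nat_lit 5) (nat_lit 200) (nat_lit 5) (nat_lit 194) (nat_lit 5) (nat_lit 602) (nat_lit 509) (nat_lit 449)) (XT.lf (nat_lit 0) (nat_lit 7684945656) (nat_lit 380) (nat_lit 1339603704) (nat_lit 456) (nat_lit 1416338487) (nat_lit 188) (nat_lit 5) (nat_lit 193) (nat_lit 5) (nat_lit 194) (nat_lit 5) (nat_lit 603) (nat_lit 509) (nat_lit 448)))))) (XT.nd (nat_lit 624) (nat_lit 2204) (nat_lit 0) (XT.nd (nat_lit 312) (nat_lit 1140) (nat_lit 0) (XT.nd (nat_lit 156) (nat_lit 456) (nat_lit 0) (XT.nd (nat_lit 78) (nat_lit 380) (nat_lit 0) (XT.lf (nat_lit 0) (nat_lit 2214724755) (nat_lit 456) (nat_lit 5558687360) (nat_lit 76) (nat_lit 2775622822) (nat_lit 182) (nat_lit 5) (nat_lit 188) (nat_lit 5) (nat_lit 183) (nat_lit 5) (nat_lit 604) (nat_lit 509) (nat_lit 447)) (XT.lf (nat_lit 0) (nat_lit 2223339640) (nat_lit 380) (nat_lit 3680766714)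 (nat_lit 456) (nat_lit 4754958789) (nat_lit 177) (nat_lit 5) (nat_lit 182) (nat_lit 5) (nat_lit 183) (nat_lit 5) (nat_lit 605) (nat_lit 509) (nat_lit 446))) (XT.nd (nat_lit 78) (nat_lit 456) (nat_lit 0) (XT.lf (nat_lit 0) (nat_lit 9670981178) (nat_lit 456) (nat_lit 595268566) (nat_lit 76) (nat_lit 504972737) (nat_lit 177) (nat_lit 5) (nat_lit 183) (nat_lit 5) (nat_lit 178) (nat_lit 5) (nat_lit 606) (nat_lit 509) (nat_lit 445)) (XT.lf (nat_lit 0) (nat_lit 2629567630) (nat_lit 456) (nat_lit 3483776255) (nat_lit 76) (nat_lit 4771209331) (nat_lit 171) (nat_lit 5) (nat_lit 177) (nat_lit 5) (nat_lit 172) (nat_lit 5) (nat_lit 607) (nat_lit 509) (nat_lit 444)))) (XT.nd (nat_lit 156) (nat_lit 380) (nat_lit 0) (XT.nd (nat_lit 78) (nat_lit 380) (nat_lit 0) (XT.lf (nat_lit 0) (nat_lit 4560639562) (nat_lit 380) (nat_lit 1856033073) (nat_lit 456) (nat_lit 4583384437) (nat_lit 166) (nat_lit 5) (nat_lit 171) (nat_lit 5) (nat_lit 172) (nat_lit 5) (nat_lit 608) (nat_lit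 509) (nat_lit 443)) (XT.lf (nat_lit 0) (nat_lit 1644213234) (nat_lit 380) (nat_lit 8649657546) (nat_lit 456) (nat_lit 823713794) (nat_lit 161) (nat_lit 5) (nat_lit 166) (nat_lit 5) (nat_lit 167) (nat_lit 5) (nat_lit 609) (nat_lit 509) (nat_lit 442))) (XT.nd (nat_lit 78) (nat_lit 304) (nat_lit 0) (XT.lf (nat_lit 0) (nat_lit 2991550252) (nat_lit 456) (nat_lit 1348842137) (nat_lit 76) (nat_lit 6896281961) (nat_lit 160) (nat_lit 5) (nat_lit 166) (nat_lit 5) (nat_lit 161) (nat_lit 5) (nat_lit 610) (nat_lit 509) (nat_lit 441)) (XT.lf (nat_lit 0) (nat_lit 6882708640) (nat_lit 380) (nat_lit 4390086679) (nat_lit 76) (nat_lit 85029891) (nat_lit 156) (nat_lit 5) (nat_lit 161) (nat_lit 5) (nat_lit 157) (nat_lit 5) (nat_lit 611) (nat_lit 509) (nat_lit 440))))) (XT.nd (nat_lit 312) (nat_lit 1064) (nat_lit 0) (XT.nd (nat_lit 156) (nat_lit 380) (nat_lit 0) (XT.nd (nat_lit 78) (nat_lit 380) (nat_lit 0) (XT.lf (nat_lit 0) (nat_lit 3954778826) (nat_lit 380) (nat_lit 6925446677)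 (nat_lit 456) (nat_lit 600603422) (nat_lit 151) (nat_lit 5) (nat_lit 156) (nat_lit 5) (nat_lit 157) (nat_lit 5) (nat_lit 612) (nat_lit 509) (nat_lit 439)) (XT.lf (nat_lit 0) (nat_lit 853488812) (nat_lit 304) (nat_lit 2454250698) (nat_lit 380) (nat_lit 8298112663) (nat_lit 146) (nat_lit 5) (nat_lit 150) (nat_lit 5) (nat_lit 151) (nat_lit 5) (nat_lit 613) (nat_lit 509) (nat_lit 438))) (XT.nd (nat_lit 78) (nat_lit 380) (nat_lit 0) (XT.lf (nat_lit 0) (nat_lit 7316011570) (nat_lit 380) (nat_lit 2304000520) (nat_lit 76) (nat_lit 2112688823) (nat_lit 146) (nat_lit 5) (nat_lit 151) (nat_lit 5) (nat_lit 147) (nat_lit 5) (nat_lit 614) (nat_lit 509) (nat_lit 437)) (XT.lf (nat_lit 0) (nat_lit 6324848487) (nat_lit 380) (nat_lit 5102882406) (nat_lit 456) (nat_lit 433890601) (nat_lit 141) (nat_lit 5) (nat_lit 146) (nat_lit 5) (nat_lit 147) (nat_lit 5) (nat_lit 615) (nat_lit 509) (nat_lit 436)))) (XT.nd (nat_lit 156) (nat_lit 684) (nat_lit 0) (XT.nd (nat_lit 78) (nat_lit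 0) (nat_lit 0) (XT.lf (nat_lit 0) (nat_lit 3126773374) (nat_lit 304) (nat_lit 456117049) (nat_lit 380) (nat_lit 8409721055) (nat_lit 136) (nat_lit 5) (nat_lit 140) (nat_lit 5) (nat_lit 141) (nat_lit 5) (nat_lit 616) (nat_lit 509) (nat_lit 435)) (XT.lf (nat_lit 0) (nat_lit 7705637461) (nat_lit 380) (nat_lit 173205967) (nat_lit 76) (nat_lit 4246692143) (nat_lit 136) (nat_lit 5) (nat_lit 141) (nat_lit 5) (nat_lit 137) (nat_lit 5) (nat_lit 617) (nat_lit 509) (nat_lit 434))) (XT.nd (nat_lit 78) (nat_lit 380) (nat_lit 0) (XT.lf (nat_lit 0) (nat_lit 8750672333) (nat_lit 304) (nat_lit 3186887400) (nat_lit 380) (nat_lit 323024473) (nat_lit 132) (nat_lit 5) (nat_lit 136) (nat_lit 5) (nat_lit 137) (nat_lit 5) (nat_lit 618) (nat_lit 509) (nat_lit 433)) (XT.lf (nat_lit 0) (nat_lit 3819381697) (nat_lit 380) (nat_lit 6959358912) (nat_lit 76) (nat_lit 1618809675) (nat_lit 127) (nat_lit 5) (nat_lit 132) (nat_lit 5) (nat_lit 128) (nat_lit 5) (nat_lit 619) (nat_lit 509)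 (nat_lit 432))))))))
noncomputable def xc48 : XT := (XT.nd (nat_lit 75270) (nat_lit 0) (nat_lit 22040) (XT.nd (nat_lit 1170) (nat_lit 1976) (nat_lit 0) (XT.nd (nat_lit 546) (nat_lit 1672) (nat_lit 0) (XT.nd (nat_lit 234) (nat_lit 912) (nat_lit 0) (XT.nd (nat_lit 78) (nat_lit 380) (nat_lit 0) (XT.lf (nat_lit 0) (nat_lit 2024609645) (nat_lit 304) (nat_lit 6040788305) (nat_lit 380) (nat_lit 4471313725) (nat_lit 123) (nat_lit 5) (nat_lit 127) (nat_lit 5) (nat_lit 128) (nat_lit 5) (nat_lit 620) (nat_lit 509) (nat_lit 431)) (XT.nd (nat_lit 78) (nat_lit 380) (nat_lit 0) (XT.lf (nat_lit 0) (nat_lit 11228359793) (nat_lit 304) (nat_lit 1182091761) (nat_lit 380) (nat_lit 267922827) (nat_lit 123) (nat_lit 5) (nat_lit 127) (nat_lit 5) (nat_lit 128) (nat_lit 5) (nat_lit 621) (nat_lit 509) (nat_lit 430)) (XT.lf (nat_lit 0) (nat_lit 4010281012) (nat_lit 380) (nat_lit 5030719601) (nat_lit 76) (nat_lit 3780478950) (nat_lit 118) (nat_lit 5) (nat_lit 123) (nat_lit 5) (nat_lit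 119) (nat_lit 5) (nat_lit 622) (nat_lit 509) (nat_lit 429)))) (XT.nd (nat_lit 156) (nat_lit 380) (nat_lit 0) (XT.nd (nat_lit 78) (nat_lit 228) (nat_lit 0) (XT.lf (nat_lit 0) (nat_lit 4261228142) (nat_lit 304) (nat_lit 4122515646) (nat_lit 380) (nat_lit 4583402400) (nat_lit 114) (nat_lit 5) (nat_lit 118) (nat_lit 5) (nat_lit 119) (nat_lit 5) (nat_lit 623) (nat_lit 509) (nat_lit 428)) (XT.lf (nat_lit 0) (nat_lit 640643225) (nat_lit 228) (nat_lit 12216110489) (nat_lit 304) (nat_lit 258731269) (nat_lit 111) (nat_lit 5) (nat_lit 114) (nat_lit 5) (nat_lit 115) (nat_lit 5) (nat_lit 624) (nat_lit 509) (nat_lit 427))) (XT.nd (nat_lit 78) (nat_lit 304) (nat_lit 0) (XT.lf (nat_lit 0) (nat_lit 4152280164) (nat_lit 304) (nat_lit 3082077901) (nat_lit 76) (nat_lit 6030807528) (nat_lit 110) (nat_lit 5) (nat_lit 114) (nat_lit 5) (nat_lit 111) (nat_lit 5) (nat_lit 625) (nat_lit 509) (nat_lit 426)) (XT.lf (nat_lit 0) (nat_lit 6529568333) (nat_lit 304) (nat_lit 2129697367)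 (nat_lit 380) (nat_lit 4758315919) (nat_lit 106) (nat_lit 5) (nat_lit 110) (nat_lit 5) (nat_lit 111) (nat_lit 5) (nat_lit 626) (nat_lit 509) (nat_lit 425))))) (XT.nd (nat_lit 312) (nat_lit 836) (nat_lit 0) (XT.nd (nat_lit 156) (nat_lit 532) (nat_lit 0) (XT.nd (nat_lit 78) (nat_lit 76) (nat_lit 0) (XT.lf (nat_lit 0) (nat_lit 2765725309) (nat_lit 228) (nat_lit 10518370634) (nat_lit 304) (nat_lit 288396289) (nat_lit 103) (nat_lit 5) (nat_lit 106) (nat_lit 5) (nat_lit 107) (nat_lit 5) (nat_lit 627) (nat_lit 509) (nat_lit 424)) (XT.lf (nat_lit 0) (nat_lit 4244553116) (nat_lit 304) (nat_lit 1118898088) (nat_lit 76) (nat_lit 8365902706) (nat_lit 102) (nat_lit 5) (nat_lit 106) (nat_lit 5) (nat_lit 103) (nat_lit 5) (nat_lit 628) (nat_lit 509) (nat_lit 423))) (XT.nd (nat_lit 78) (nat_lit 228) (nat_lit 0) (XT.lf (nat_lit 0) (nat_lit 8824504885) (nat_lit 304) (nat_lit 66713767) (nat_lit 380) (nat_lit 4997558014) (nat_lit 98) (nat_lit 5) (nat_lit 102) (nat_lit 5) (nat_lit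 103) (nat_lit 5) (nat_lit 629) (nat_lit 509) (nat_lit 422)) (XT.lf (nat_lit 0) (nat_lit 4908214529) (nat_lit 228) (nat_lit 8766413487) (nat_lit 304) (nat_lit 375883990) (nat_lit 95) (nat_lit 5) (nat_lit 98) (nat_lit 5) (nat_lit 99) (nat_lit 5) (nat_lit 630) (nat_lit 509) (nat_lit 421)))) (XT.nd (nat_lit 156) (nat_lit 532) (nat_lit 0) (XT.nd (nat_lit 78) (nat_lit 0) (nat_lit 0) (XT.lf (nat_lit 0) (nat_lit 864270368) (nat_lit 228) (nat_lit 3427117033) (nat_lit 304) (nat_lit 9923330434) (nat_lit 91) (nat_lit 5) (nat_lit 94) (nat_lit 5) (nat_lit 95) (nat_lit 5) (nat_lit 631) (nat_lit 509) (nat_lit 420)) (XT.lf (nat_lit 0) (nat_lit 9091751373) (nat_lit 304) (nat_lit 3254429163) (nat_lit 76) (nat_lit 2035082268) (nat_lit 91) (nat_lit 5) (nat_lit 95) (nat_lit 5) (nat_lit 92) (nat_lit 5) (nat_lit 632) (nat_lit 509) (nat_lit 419))) (XT.nd (nat_lit 78) (nat_lit 304) (nat_lit 0) (XT.lf (nat_lit 0) (nat_lit 7062120479) (nat_lit 228) (nat_lit 6965051383) (nat_lit 304)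 (nat_lit 523186138) (nat_lit 88) (nat_lit 5) (nat_lit 91) (nat_lit 5) (nat_lit 92) (nat_lit 5) (nat_lit 633) (nat_lit 509) (nat_lit 418)) (XT.lf (nat_lit 0) (nat_lit 2864606548) (nat_lit 228) (nat_lit 1428096388) (nat_lit 304) (nat_lit 10429346360) (nat_lit 84) (nat_lit 5) (nat_lit 87) (nat_lit 5) (nat_lit 88) (nat_lit 5) (nat_lit 634) (nat_lit 509) (nat_lit 417)))))) (XT.nd (nat_lit 624) (nat_lit 760) (nat_lit 0) (XT.nd (nat_lit 312) (nat_lit 456) (nat_lit 0) (XT.nd (nat_lit 156) (nat_lit 532) (nat_lit 0) (XT.nd (nat_lit 78) (nat_lit 228) (nat_lit 0) (XT.lf (nat_lit 0) (nat_lit 9246548955) (nat_lit 304) (nat_lit 1452823394) (nat_lit 76) (nat_lit 4196760306) (nat_lit 84) (nat_lit 5) (nat_lit 88) (nat_lit 5) (nat_lit 85) (nat_lit 5) (nat_lit 635) (nat_lit 509) (nat_lit 416)) (XT.lf (nat_lit 0) (nat_lit 9220901307) (nat_lit 228) (nat_lit 5119130551) (nat_lit 304) (nat_lit 732854913) (nat_lit 81) (nat_lit 5) (nat_lit 84) (nat_lit 5) (nat_lit 85) (nat_lit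 5) (nat_lit 636) (nat_lit 509) (nat_lit 415))) (XT.nd (nat_lit 78) (nat_lit 228) (nat_lit 0) (XT.lf (nat_lit 0) (nat_lit 4242734310) (nat_lit 304) (nat_lit 10396227817) (nat_lit 76) (nat_lit 613324306) (nat_lit 77) (nat_lit 5) (nat_lit 81) (nat_lit 5) (nat_lit 78) (nat_lit 5) (nat_lit 637) (nat_lit 509) (nat_lit 414)) (XT.lf (nat_lit 0) (nat_lit 337907100) (nat_lit 228) (nat_lit 9017129750) (nat_lit 304) (nat_lit 6079200336) (nat_lit 74) (nat_lit 5) (nat_lit 77) (nat_lit 5) (nat_lit 78) (nat_lit 5) (nat_lit 638) (nat_lit 509) (nat_lit 413)))) (XT.nd (nat_lit 156) (nat_lit 152) (nat_lit 0) (XT.nd (nat_lit 78) (nat_lit 304) (nat_lit 0) (XT.lf (nat_lit 0) (nat_lit 11377371512) (nat_lit 228) (nat_lit 3233592715) (nat_lit 304) (nat_lit 1008035420) (nat_lit 74) (nat_lit 5) (nat_lit 77) (nat_lit 5) (nat_lit 78) (nat_lit 5) (nat_lit 639) (nat_lit 509) (nat_lit 412)) (XT.lf (nat_lit 0) (nat_lit 4143990956) (nat_lit 304) (nat_lit 8981012883) (nat_lit 76) (nat_lit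 2681231853) (nat_lit 70) (nat_lit 5) (nat_lit 74) (nat_lit 5) (nat_lit 71) (nat_lit 5) (nat_lit 640) (nat_lit 509) (nat_lit 411))) (XT.nd (nat_lit 78) (nat_lit 0) (nat_lit 0) (XT.lf (nat_lit 0) (nat_lit 2124086189) (nat_lit 152) (nat_lit 7297419916) (nat_lit 228) (nat_lit 6574858425) (nat_lit 68) (nat_lit 5) (nat_lit 70) (nat_lit 5) (nat_lit 71) (nat_lit 5) (nat_lit 641) (nat_lit 509) (nat_lit 410)) (XT.lf (nat_lit 0) (nat_lit 13523601757) (nat_lit 152) (nat_lit 1313539424) (nat_lit 228) (nat_lit 1352503619) (nat_lit 68) (nat_lit 5) (nat_lit 70) (nat_lit 5) (nat_lit 71) (nat_lit 5) (nat_lit 642) (nat_lit 509) (nat_lit 409))))) (XT.nd (nat_lit 73164) (nat_lit 0) (nat_lit 48336) (XT.nd (nat_lit 156) (nat_lit 304) (nat_lit 0) (XT.nd (nat_lit 78) (nat_lit 152) (nat_lit 0) (XT.lf (nat_lit 0) (nat_lit 3983518974) (nat_lit 304) (nat_lit 7612013345) (nat_lit 76) (nat_lit 4789515631) (nat_lit 64) (nat_lit 5) (nat_lit 68) (nat_lit 5) (nat_lit 65) (nat_lit 5) (nat_lit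 643) (nat_lit 509) (nat_lit 408)) (XT.lf (nat_lit 0) (nat_lit 3877204887) (nat_lit 152) (nat_lit 5555592956) (nat_lit 228) (nat_lit 7150889833) (nat_lit 62) (nat_lit 5) (nat_lit 64) (nat_lit 5) (nat_lit 65) (nat_lit 5) (nat_lit 644) (nat_lit 509) (nat_lit 407))) (XT.nd (nat_lit 78) (nat_lit 304) (nat_lit 0) (XT.lf (nat_lit 0) (nat_lit 15019236803) (nat_lit 228) (nat_lit 1139137147) (nat_lit 76) (nat_lit 627362986) (nat_lit 62) (nat_lit 5) (nat_lit 65) (nat_lit 5) (nat_lit 63) (nat_lit 5) (nat_lit 645) (nat_lit 509) (nat_lit 406)) (XT.lf (nat_lit 0) (nat_lit 3756965584) (nat_lit 304) (nat_lit 6299674860) (nat_lit 76) (nat_lit 6933098181) (nat_lit 58) (nat_lit 5) (nat_lit 62) (nat_lit 5) (nat_lit 59) (nat_lit 5) (nat_lit 646) (nat_lit 509) (nat_lit 405)))) (XT.nd (nat_lit 156) (nat_lit 1064) (nat_lit 0) (XT.nd (nat_lit 78) (nat_lit 988) (nat_lit 0) (XT.lf (nat_lit 0) (nat_lit 1416314296) (nat_lit 836) (nat_lit 949886201) (nat_lit 836) (nat_lit 949886201)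 (nat_lit 721) (nat_lit 4) (nat_lit 732) (nat_lit 5) (nat_lit 732) (nat_lit 4) (nat_lit 540) (nat_lit 510) (nat_lit 510)) (XT.lf (nat_lit 0) (nat_lit 468673807) (nat_lit 912) (nat_lit 921485872) (nat_lit 988) (nat_lit 5261789833) (nat_lit 708) (nat_lit 5) (nat_lit 720) (nat_lit 5) (nat_lit 721) (nat_lit 4) (nat_lit 541) (nat_lit 510) (nat_lit 509))) (XT.nd (nat_lit 78) (nat_lit 1064) (nat_lit 0) (XT.lf (nat_lit 0) (nat_lit 4672708948) (nat_lit 988) (nat_lit 1869592917) (nat_lit 0) (nat_lit 130526647) (nat_lit 708) (nat_lit 5) (nat_lit 721) (nat_lit 4) (nat_lit 708) (nat_lit 4) (nat_lit 542) (nat_lit 510) (nat_lit 508)) (XT.lf (nat_lit 0) (nat_lit 1258900391) (nat_lit 1064) (nat_lit 4203718314) (nat_lit 76) (nat_lit 1232347258) (nat_lit 694) (nat_lit 5) (nat_lit 708) (nat_lit 5) (nat_lit 695) (nat_lit 4) (nat_lit 543) (nat_lit 510) (nat_lit 507))))))) (XT.nd (nat_lit 1170) (nat_lit 11780) (nat_lit 0) (XT.nd (nat_lit 546) (nat_lit 8208) (nat_lit 0) (XT.nd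 (nat_lit 234) (nat_lit 4028) (nat_lit 0) (XT.nd (nat_lit 78) (nat_lit 1216) (nat_lit 0) (XT.lf (nat_lit 0) (nat_lit 178432771) (nat_lit 1064) (nat_lit 4319794406) (nat_lit 1140) (nat_lit 2220219844) (nat_lit 680) (nat_lit 5) (nat_lit 694) (nat_lit 5) (nat_lit 695) (nat_lit 4) (nat_lit 544) (nat_lit 510) (nat_lit 506)) (XT.nd (nat_lit 78) (nat_lit 1140) (nat_lit 0) (XT.lf (nat_lit 0) (nat_lit 1003096483) (nat_lit 1140) (nat_lit 2102194160) (nat_lit 76) (nat_lit 3637831619) (nat_lit 679) (nat_lit 5) (nat_lit 694) (nat_lit 5) (nat_lit 680) (nat_lit 5) (nat_lit 545) (nat_lit 510) (nat_lit 505)) (XT.lf (nat_lit 0) (nat_lit 2383585766) (nat_lit 1140) (nat_lit 1823126124) (nat_lit 1216) (nat_lit 2562377612) (nat_lit 664) (nat_lit 5) (nat_lit 679) (nat_lit 5) (nat_lit 680) (nat_lit 5) (nat_lit 546) (nat_lit 510) (nat_lit 504)))) (XT.nd (nat_lit 156) (nat_lit 2736) (nat_lit 0) (XT.nd (nat_lit 78) (nat_lit 0) (nat_lit 0) (XT.lf (nat_lit 0) (nat_lit 131606025) (nat_lit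 1216) (nat_lit 483969003) (nat_lit 1292) (nat_lit 6181002934) (nat_lit 647) (nat_lit 5) (nat_lit 663) (nat_lit 5) (nat_lit 664) (nat_lit 5) (nat_lit 547) (nat_lit 510) (nat_lit 503)) (XT.lf (nat_lit 0) (nat_lit 3789816553) (nat_lit 1292) (nat_lit 2107377035) (nat_lit 76) (nat_lit 927746106) (nat_lit 647) (nat_lit 5) (nat_lit 664) (nat_lit 5) (nat_lit 648) (nat_lit 5) (nat_lit 548) (nat_lit 510) (nat_lit 502))) (XT.nd (nat_lit 78) (nat_lit 1368) (nat_lit 0) (XT.lf (nat_lit 0) (nat_lit 123600091) (nat_lit 1368) (nat_lit 4342314368) (nat_lit 76) (nat_lit 2388890509) (nat_lit 629) (nat_lit 5) (nat_lit 647) (nat_lit 5) (nat_lit 630) (nat_lit 5) (nat_lit 549) (nat_lit 510) (nat_lit 501)) (XT.lf (nat_lit 0) (nat_lit 293681171) (nat_lit 1368) (nat_lit 2960854635) (nat_lit 1444) (nat_lit 3631339804) (nat_lit 611) (nat_lit 5) (nat_lit 629) (nat_lit 5) (nat_lit 630) (nat_lit 5) (nat_lit 550) (nat_lit 510) (nat_lit 500))))) (XT.nd (nat_lit 312) (nat_lit 5092) (nat_lit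 0) (XT.nd (nat_lit 156) (nat_lit 1596) (nat_lit 0) (XT.nd (nat_lit 78) (nat_lit 1520) (nat_lit 0) (XT.lf (nat_lit 0) (nat_lit 5023327848) (nat_lit 1368) (nat_lit 1388327730) (nat_lit 1444) (nat_lit 506643598) (nat_lit 611) (nat_lit 5) (nat_lit 629) (nat_lit 5) (nat_lit 630) (nat_lit 5) (nat_lit 551) (nat_lit 510) (nat_lit 499)) (XT.lf (nat_lit 0) (nat_lit 2600918348) (nat_lit 1520) (nat_lit 4095006222) (nat_lit 76) (nat_lit 255990721) (nat_lit 591) (nat_lit 5) (nat_lit 611) (nat_lit 5) (nat_lit 592) (nat_lit 5) (nat_lit 552) (nat_lit 510) (nat_lit 498))) (XT.nd (nat_lit 78) (nat_lit 76) (nat_lit 0) (XT.lf (nat_lit 0) (nat_lit 681266689) (nat_lit 1520) (nat_lit 5045228113) (nat_lit 1596) (nat_lit 1260391657) (nat_lit 571) (nat_lit 5) (nat_lit 591) (nat_lit 5) (nat_lit 592) (nat_lit 5) (nat_lit 553) (nat_lit 510) (nat_lit 497)) (XT.lf (nat_lit 0) (nat_lit 1831549481) (nat_lit 1596) (nat_lit 1484957413) (nat_lit 76) (nat_lit 3706520264) (nat_lit 570) (nat_lit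 5) (nat_lit 591) (nat_lit 5) (nat_lit 571) (nat_lit 5) (nat_lit 554) (nat_lit 510) (nat_lit 496)))) (XT.nd (nat_lit 156) (nat_lit 1748) (nat_lit 0) (XT.nd (nat_lit 78) (nat_lit 1748) (nat_lit 0) (XT.lf (nat_lit 0) (nat_lit 3410602250) (nat_lit 1596) (nat_lit 1517928227) (nat_lit 1672) (nat_lit 2131994517) (nat_lit 549) (nat_lit 5) (nat_lit 570) (nat_lit 5) (nat_lit 571) (nat_lit 5) (nat_lit 555) (nat_lit 510) (nat_lit 495)) (XT.lf (nat_lit 0) (nat_lit 934632149) (nat_lit 1748) (nat_lit 5824195778) (nat_lit 76) (nat_lit 340640471) (nat_lit 526) (nat_lit 5) (nat_lit 549) (nat_lit 5) (nat_lit 527) (nat_lit 5) (nat_lit 556) (nat_lit 510) (nat_lit 494))) (XT.nd (nat_lit 78) (nat_lit 1748) (nat_lit 0) (XT.lf (nat_lit 0) (nat_lit 4007983131) (nat_lit 1748) (nat_lit 873780864) (nat_lit 76) (nat_lit 2257668400) (nat_lit 526) (nat_lit 5) (nat_lit 549) (nat_lit 5) (nat_lit 527) (nat_lit 5) (nat_lit 557) (nat_lit 510) (nat_lit 493)) (XT.lf (nat_lit 0) (nat_lit 4172330139)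 (nat_lit 1748) (nat_lit 2937957481) (nat_lit 1824) (nat_lit 70560634) (nat_lit 503) (nat_lit 5) (nat_lit 526) (nat_lit 5) (nat_lit 527) (nat_lit 5) (nat_lit 558) (nat_lit 510) (nat_lit 492)))))) (XT.nd (nat_lit 624) (nat_lit 4940) (nat_lit 0) (XT.nd (nat_lit 312) (nat_lit 2812) (nat_lit 0) (XT.nd (nat_lit 156) (nat_lit 2128) (nat_lit 0) (XT.nd (nat_lit 78) (nat_lit 0) (nat_lit 0) (XT.lf (nat_lit 0) (nat_lit 2056917652) (nat_lit 1824) (nat_lit 914663411) (nat_lit 1900) (nat_lit 4251916197) (nat_lit 478) (nat_lit 5) (nat_lit 502) (nat_lit 5) (nat_lit 503) (nat_lit 5) (nat_lit 559) (nat_lit 510) (nat_lit 491)) (XT.lf (nat_lit 0) (nat_lit 6042990636) (nat_lit 1900) (nat_lit 69442380) (nat_lit 76) (nat_lit 1155171683) (nat_lit 478) (nat_lit 5) (nat_lit 503) (nat_lit 5) (nat_lit 479) (nat_lit 5) (nat_lit 560) (nat_lit 510) (nat_lit 490))) (XT.nd (nat_lit 78) (nat_lit 912) (nat_lit 0) (XT.lf (nat_lit 0) (nat_lit 1820791228) (nat_lit 1216) (nat_lit 2192102071)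 (nat_lit 76) (nat_lit 3299821258) (nat_lit 462) (nat_lit 5) (nat_lit 478) (nat_lit 5) (nat_lit 463) (nat_lit 5) (nat_lit 561) (nat_lit 510) (nat_lit 489)) (XT.lf (nat_lit 0) (nat_lit 3029873261) (nat_lit 912) (nat_lit 1844093356) (nat_lit 988) (nat_lit 2485334964) (nat_lit 450) (nat_lit 5) (nat_lit 462) (nat_lit 5) (nat_lit 463) (nat_lit 5) (nat_lit 562) (nat_lit 510) (nat_lit 488)))) (XT.nd (nat_lit 156) (nat_lit 1824) (nat_lit 0) (XT.nd (nat_lit 78) (nat_lit 0) (nat_lit 0) (XT.lf (nat_lit 0) (nat_lit 540605329) (nat_lit 988) (nat_lit 6481022893) (nat_lit 76) (nat_lit 385781697) (nat_lit 437) (nat_lit 5) (nat_lit 450) (nat_lit 5) (nat_lit 438) (nat_lit 5) (nat_lit 563) (nat_lit 510) (nat_lit 487)) (XT.lf (nat_lit 0) (nat_lit 3579454685) (nat_lit 988) (nat_lit 1198284487) (nat_lit 76) (nat_lit 2678701248) (nat_lit 437) (nat_lit 5) (nat_lit 450) (nat_lit 5) (nat_lit 438) (nat_lit 5) (nat_lit 564) (nat_lit 510) (nat_lit 486))) (XT.nd (nat_lit 78) (nat_lit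 988) (nat_lit 0) (XT.lf (nat_lit 0) (nat_lit 4186658420) (nat_lit 836) (nat_lit 2464879777) (nat_lit 912) (nat_lit 855466086) (nat_lit 426) (nat_lit 5) (nat_lit 437) (nat_lit 5) (nat_lit 438) (nat_lit 5) (nat_lit 565) (nat_lit 510) (nat_lit 485)) (XT.lf (nat_lit 0) (nat_lit 2091344220) (nat_lit 912) (nat_lit 73223365) (nat_lit 988) (nat_lit 5394378858) (nat_lit 413) (nat_lit 5) (nat_lit 425) (nat_lit 5) (nat_lit 426) (nat_lit 5) (nat_lit 566) (nat_lit 510) (nat_lit 484))))) (XT.nd (nat_lit 312) (nat_lit 2432) (nat_lit 0) (XT.nd (nat_lit 156) (nat_lit 1596) (nat_lit 0) (XT.nd (nat_lit 78) (nat_lit 912) (nat_lit 0) (XT.lf (nat_lit 0) (nat_lit 5217619621) (nat_lit 988) (nat_lit 35741203) (nat_lit 76) (nat_lit 2358773867) (nat_lit 413) (nat_lit 5) (nat_lit 426) (nat_lit 5) (nat_lit 414) (nat_lit 5) (nat_lit 567) (nat_lit 510) (nat_lit 483)) (XT.lf (nat_lit 0) (nat_lit 640147161) (nat_lit 912) (nat_lit 2152475073) (nat_lit 76) (nat_lit 4874009245) (nat_lit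 401) (nat_lit 5) (nat_lit 413) (nat_lit 5) (nat_lit 402) (nat_lit 5) (nat_lit 568) (nat_lit 510) (nat_lit 482))) (XT.nd (nat_lit 78) (nat_lit 760) (nat_lit 0) (XT.lf (nat_lit 0) (nat_lit 3423858049) (nat_lit 836) (nat_lit 249717741) (nat_lit 912) (nat_lit 4048924828) (nat_lit 390) (nat_lit 5) (nat_lit 401) (nat_lit 5) (nat_lit 402) (nat_lit 5) (nat_lit 569) (nat_lit 510) (nat_lit 481)) (XT.lf (nat_lit 0) (nat_lit 1304369601) (nat_lit 760) (nat_lit 5449773340) (nat_lit 836) (nat_lit 1025616449) (nat_lit 380) (nat_lit 5) (nat_lit 390) (nat_lit 5) (nat_lit 391) (nat_lit 5) (nat_lit 570) (nat_lit 510) (nat_lit 480)))) (XT.nd (nat_lit 156) (nat_lit 1596) (nat_lit 0) (XT.nd (nat_lit 78) (nat_lit 760) (nat_lit 0) (XT.lf (nat_lit 0) (nat_lit 2010391430) (nat_lit 836) (nat_lit 834499101) (nat_lit 76) (nat_lit 4993422605) (nat_lit 379) (nat_lit 5) (nat_lit 390) (nat_lit 5) (nat_lit 380) (nat_lit 5) (nat_lit 571) (nat_lit 510) (nat_lit 479)) (XT.lf (nat_lit 0) (nat_lit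 4918675361) (nat_lit 760) (nat_lit 156203849) (nat_lit 836) (nat_lit 2823394862) (nat_lit 369) (nat_lit 5) (nat_lit 379) (nat_lit 5) (nat_lit 380) (nat_lit 5) (nat_lit 572) (nat_lit 510) (nat_lit 478))) (XT.nd (nat_lit 78) (nat_lit 760) (nat_lit 0) (XT.lf (nat_lit 0) (nat_lit 228709990) (nat_lit 836) (nat_lit 5161143918) (nat_lit 76) (nat_lit 2569737469) (nat_lit 358) (nat_lit 5) (nat_lit 369) (nat_lit 5) (nat_lit 359) (nat_lit 5) (nat_lit 573) (nat_lit 510) (nat_lit 477)) (XT.lf (nat_lit 0) (nat_lit 640151311) (nat_lit 760) (nat_lit 2639630681) (nat_lit 836) (nat_lit 4742466640) (nat_lit 348) (nat_lit 5) (nat_lit 358) (nat_lit 5) (nat_lit 359) (nat_lit 5) (nat_lit 574) (nat_lit 510) (nat_lit 476))))))))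
noncomputable def xc49 : XT := (XT.nd (nat_lit 2418) (nat_lit 7676) (nat_lit 0) (XT.nd (nat_lit 1170) (nat_lit 5396) (nat_lit 0) (XT.nd (nat_lit 546) (nat_lit 3648) (nat_lit 0) (XT.nd (nat_lit 234) (nat_lit 2128) (nat_lit 0) (XT.nd (nat_lit 78) (nat_lit 1444) (nat_lit 0) (XT.lf (nat_lit 0) (nat_lit 6378720197) (nat_lit 836) (nat_lit 1518956517) (nat_lit 76) (nat_lit 188746862) (nat_lit 348) (nat_lit 5) (nat_lit 359) (nat_lit 5) (nat_lit 349) (nat_lit 5) (nat_lit 575) (nat_lit 510) (nat_lit 475)) (XT.nd (nat_lit 78) (nat_lit 684) (nat_lit 0) (XT.lf (nat_lit 0) (nat_lit 1367743131) (nat_lit 760) (nat_lit 3717120136) (nat_lit 76) (nat_lit 3066876154) (nat_lit 338) (nat_lit 5) (nat_lit 348) (nat_lit 5) (nat_lit 339) (nat_lit 5) (nat_lit 576) (nat_lit 510) (nat_lit 474)) (XT.lf (nat_lit 0) (nat_lit 2269382423) (nat_lit 684) (nat_lit 2189585464) (nat_lit 760) (nat_lit 3759626583) (nat_lit 329) (nat_lit 5) (nat_lit 338) (nat_lit 5) (nat_lit 339) (nat_lit 5) (nat_lit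 577) (nat_lit 510) (nat_lit 473)))) (XT.nd (nat_lit 156) (nat_lit 1368) (nat_lit 0) (XT.nd (nat_lit 78) (nat_lit 76) (nat_lit 0) (XT.lf (nat_lit 0) (nat_lit 76399839) (nat_lit 684) (nat_lit 7518788212) (nat_lit 760) (nat_lit 691936478) (nat_lit 320) (nat_lit 5) (nat_lit 329) (nat_lit 5) (nat_lit 330) (nat_lit 5) (nat_lit 578) (nat_lit 510) (nat_lit 472)) (XT.lf (nat_lit 0) (nat_lit 2412675637) (nat_lit 760) (nat_lit 2143079456) (nat_lit 76) (nat_lit 3800804281) (nat_lit 319) (nat_lit 5) (nat_lit 329) (nat_lit 5) (nat_lit 320) (nat_lit 5) (nat_lit 579) (nat_lit 510) (nat_lit 471))) (XT.nd (nat_lit 78) (nat_lit 684) (nat_lit 0) (XT.lf (nat_lit 0) (nat_lit 4036003011) (nat_lit 684) (nat_lit 1514093665) (nat_lit 760) (nat_lit 2877596381) (nat_lit 310) (nat_lit 5) (nat_lit 319) (nat_lit 5) (nat_lit 320) (nat_lit 5) (nat_lit 580) (nat_lit 510) (nat_lit 470)) (XT.lf (nat_lit 0) (nat_lit 237518546) (nat_lit 684) (nat_lit 6679465470) (nat_lit 76) (nat_lit 1583418518)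 (nat_lit 301) (nat_lit 5) (nat_lit 310) (nat_lit 5) (nat_lit 302) (nat_lit 5) (nat_lit 581) (nat_lit 510) (nat_lit 469))))) (XT.nd (nat_lit 312) (nat_lit 1748) (nat_lit 0) (XT.nd (nat_lit 156) (nat_lit 1292) (nat_lit 0) (XT.nd (nat_lit 78) (nat_lit 608) (nat_lit 0) (XT.lf (nat_lit 0) (nat_lit 3370571817) (nat_lit 684) (nat_lit 444848160) (nat_lit 76) (nat_lit 4758883644) (nat_lit 301) (nat_lit 5) (nat_lit 310) (nat_lit 5) (nat_lit 302) (nat_lit 5) (nat_lit 582) (nat_lit 510) (nat_lit 468)) (XT.lf (nat_lit 0) (nat_lit 5934509942) (nat_lit 608) (nat_lit 625638564) (nat_lit 684) (nat_lit 2089658131) (nat_lit 293) (nat_lit 5) (nat_lit 301) (nat_lit 5) (nat_lit 302) (nat_lit 5) (nat_lit 583) (nat_lit 510) (nat_lit 467))) (XT.nd (nat_lit 78) (nat_lit 608) (nat_lit 0) (XT.lf (nat_lit 0) (nat_lit 1072241536) (nat_lit 684) (nat_lit 5039992000) (nat_lit 76) (nat_lit 2614450243) (nat_lit 284) (nat_lit 5) (nat_lit 293) (nat_lit 5) (nat_lit 285) (nat_lit 5) (nat_lit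 584) (nat_lit 510) (nat_lit 466)) (XT.lf (nat_lit 0) (nat_lit 1390521080) (nat_lit 608) (nat_lit 2866367132) (nat_lit 684) (nat_lit 4548185296) (nat_lit 276) (nat_lit 5) (nat_lit 284) (nat_lit 5) (nat_lit 285) (nat_lit 5) (nat_lit 585) (nat_lit 510) (nat_lit 465)))) (XT.nd (nat_lit 156) (nat_lit 1140) (nat_lit 0) (XT.nd (nat_lit 78) (nat_lit 608) (nat_lit 0) (XT.lf (nat_lit 0) (nat_lit 7498501542) (nat_lit 684) (nat_lit 928301032) (nat_lit 76) (nat_lit 458364053) (nat_lit 276) (nat_lit 5) (nat_lit 285) (nat_lit 5) (nat_lit 277) (nat_lit 5) (nat_lit 586) (nat_lit 510) (nat_lit 464)) (XT.lf (nat_lit 0) (nat_lit 1827161051) (nat_lit 608) (nat_lit 3293007737) (nat_lit 76) (nat_lit 3846191518) (nat_lit 268) (nat_lit 5) (nat_lit 276) (nat_lit 5) (nat_lit 269) (nat_lit 5) (nat_lit 587) (nat_lit 510) (nat_lit 463))) (XT.nd (nat_lit 78) (nat_lit 532) (nat_lit 0) (XT.lf (nat_lit 0) (nat_lit 3347411808) (nat_lit 608) (nat_lit 1724691423) (nat_lit 684) (nat_lit 3977184175)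 (nat_lit 260) (nat_lit 5) (nat_lit 268) (nat_lit 5) (nat_lit 269) (nat_lit 5) (nat_lit 588) (nat_lit 510) (nat_lit 462)) (XT.lf (nat_lit 0) (nat_lit 974999267) (nat_lit 532) (nat_lit 7404556799) (nat_lit 608) (nat_lit 754365735) (nat_lit 253) (nat_lit 5) (nat_lit 260) (nat_lit 5) (nat_lit 261) (nat_lit 5) (nat_lit 589) (nat_lit 510) (nat_lit 461)))))) (XT.nd (nat_lit 624) (nat_lit 2736) (nat_lit 0) (XT.nd (nat_lit 312) (nat_lit 988) (nat_lit 0) (XT.nd (nat_lit 156) (nat_lit 1064) (nat_lit 0) (XT.nd (nat_lit 78) (nat_lit 532) (nat_lit 0) (XT.lf (nat_lit 0) (nat_lit 2507551153) (nat_lit 608) (nat_lit 1443278475) (nat_lit 76) (nat_lit 5268934063) (nat_lit 252) (nat_lit 5) (nat_lit 260) (nat_lit 5) (nat_lit 253) (nat_lit 5) (nat_lit 590) (nat_lit 510) (nat_lit 460)) (XT.lf (nat_lit 0) (nat_lit 5415475859) (nat_lit 532) (nat_lit 403048747) (nat_lit 608) (nat_lit 3488820632) (nat_lit 245) (nat_lit 5) (nat_lit 252) (nat_lit 5) (nat_lit 253) (nat_lit 5) (nat_lit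 591) (nat_lit 510) (nat_lit 459))) (XT.nd (nat_lit 78) (nat_lit 608) (nat_lit 0) (XT.lf (nat_lit 0) (nat_lit 2995257211) (nat_lit 456) (nat_lit 6209619607) (nat_lit 532) (nat_lit 191619322) (nat_lit 239) (nat_lit 5) (nat_lit 245) (nat_lit 5) (nat_lit 246) (nat_lit 5) (nat_lit 592) (nat_lit 510) (nat_lit 458)) (XT.lf (nat_lit 0) (nat_lit 511516819) (nat_lit 532) (nat_lit 2609940192) (nat_lit 608) (nat_lit 6365731571) (nat_lit 231) (nat_lit 5) (nat_lit 238) (nat_lit 5) (nat_lit 239) (nat_lit 5) (nat_lit 593) (nat_lit 510) (nat_lit 457)))) (XT.nd (nat_lit 156) (nat_lit 456) (nat_lit 0) (XT.nd (nat_lit 78) (nat_lit 532) (nat_lit 0) (XT.lf (nat_lit 0) (nat_lit 6507927683) (nat_lit 608) (nat_lit 1996033516) (nat_lit 76) (nat_lit 1075515228) (nat_lit 231) (nat_lit 5) (nat_lit 239) (nat_lit 5) (nat_lit 232) (nat_lit 5) (nat_lit 594) (nat_lit 510) (nat_lit 456)) (XT.lf (nat_lit 0) (nat_lit 295661793) (nat_lit 532) (nat_lit 4559237922) (nat_lit 76) (nat_lit 4818455115)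 (nat_lit 224) (nat_lit 5) (nat_lit 231) (nat_lit 5) (nat_lit 225) (nat_lit 5) (nat_lit 595) (nat_lit 510) (nat_lit 455))) (XT.nd (nat_lit 78) (nat_lit 0) (nat_lit 0) (XT.lf (nat_lit 0) (nat_lit 2581042927) (nat_lit 456) (nat_lit 1098830088) (nat_lit 532) (nat_lit 6089016845) (nat_lit 218) (nat_lit 5) (nat_lit 224) (nat_lit 5) (nat_lit 225) (nat_lit 5) (nat_lit 596) (nat_lit 510) (nat_lit 454)) (XT.lf (nat_lit 0) (nat_lit 7141103452) (nat_lit 532) (nat_lit 15090459) (nat_lit 76) (nat_lit 2709955774) (nat_lit 218) (nat_lit 5) (nat_lit 225) (nat_lit 5) (nat_lit 219) (nat_lit 5) (nat_lit 597) (nat_lit 510) (nat_lit 453))))) (XT.nd (nat_lit 312) (nat_lit 1292) (nat_lit 0) (XT.nd (nat_lit 156) (nat_lit 456) (nat_lit 0) (XT.nd (nat_lit 78) (nat_lit 456) (nat_lit 0) (XT.lf (nat_lit 0) (nat_lit 713508803) (nat_lit 532) (nat_lit 2635922551) (nat_lit 76) (nat_lit 6615501071) (nat_lit 211) (nat_lit 5) (nat_lit 218) (nat_lit 5) (nat_lit 212) (nat_lit 5) (nat_lit 598)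 (nat_lit 510) (nat_lit 452)) (XT.lf (nat_lit 0) (nat_lit 4180647155) (nat_lit 532) (nat_lit 5326862550) (nat_lit 76) (nat_lit 557895600) (nat_lit 205) (nat_lit 5) (nat_lit 212) (nat_lit 5) (nat_lit 206) (nat_lit 5) (nat_lit 599) (nat_lit 510) (nat_lit 451))) (XT.nd (nat_lit 78) (nat_lit 76) (nat_lit 0) (XT.lf (nat_lit 0) (nat_lit 2076994827) (nat_lit 380) (nat_lit 5655579873) (nat_lit 456) (nat_lit 2435004747) (nat_lit 200) (nat_lit 5) (nat_lit 205) (nat_lit 5) (nat_lit 206) (nat_lit 5) (nat_lit 600) (nat_lit 510) (nat_lit 450)) (XT.lf (nat_lit 0) (nat_lit 1067617234) (nat_lit 456) (nat_lit 633991216) (nat_lit 76) (nat_lit 8570086859) (nat_lit 199) (nat_lit 5) (nat_lit 205) (nat_lit 5) (nat_lit 200) (nat_lit 5) (nat_lit 601) (nat_lit 510) (nat_lit 449)))) (XT.nd (nat_lit 156) (nat_lit 456) (nat_lit 0) (XT.nd (nat_lit 78) (nat_lit 380) (nat_lit 0) (XT.lf (nat_lit 0) (nat_lit 4631383634) (nat_lit 532) (nat_lit 3401185618) (nat_lit 76) (nat_lit 2344529085)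 (nat_lit 193) (nat_lit 5) (nat_lit 200) (nat_lit 5) (nat_lit 194) (nat_lit 5) (nat_lit 602) (nat_lit 510) (nat_lit 448)) (XT.lf (nat_lit 0) (nat_lit 4250625799) (nat_lit 380) (nat_lit 4022045552) (nat_lit 456) (nat_lit 2211813831) (nat_lit 188) (nat_lit 5) (nat_lit 193) (nat_lit 5) (nat_lit 194) (nat_lit 5) (nat_lit 603) (nat_lit 510) (nat_lit 447))) (XT.nd (nat_lit 78) (nat_lit 0) (nat_lit 0) (XT.lf (nat_lit 0) (nat_lit 1370778455) (nat_lit 456) (nat_lit 9132558446) (nat_lit 76) (nat_lit 90577065) (nat_lit 182) (nat_lit 5) (nat_lit 188) (nat_lit 5) (nat_lit 183) (nat_lit 5) (nat_lit 604) (nat_lit 510) (nat_lit 446)) (XT.lf (nat_lit 0) (nat_lit 5027631519) (nat_lit 456) (nat_lit 1407545574) (nat_lit 76) (nat_lit 4269417966) (nat_lit 182) (nat_lit 5) (nat_lit 188) (nat_lit 5) (nat_lit 183) (nat_lit 5) (nat_lit 605) (nat_lit 510) (nat_lit 445))))))) (XT.nd (nat_lit 1170) (nat_lit 3496) (nat_lit 0) (XT.nd (nat_lit 546) (nat_lit 2204) (nat_lit 0) (XT.nd (nat_lit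 234) (nat_lit 760) (nat_lit 0) (XT.nd (nat_lit 78) (nat_lit 836) (nat_lit 0) (XT.lf (nat_lit 0) (nat_lit 6502080417) (nat_lit 380) (nat_lit 2261925533) (nat_lit 456) (nat_lit 2053356762) (nat_lit 177) (nat_lit 5) (nat_lit 182) (nat_lit 5) (nat_lit 183) (nat_lit 5) (nat_lit 606) (nat_lit 510) (nat_lit 444)) (XT.nd (nat_lit 78) (nat_lit 380) (nat_lit 0) (XT.lf (nat_lit 0) (nat_lit 1631703270) (nat_lit 456) (nat_lit 7306841734) (nat_lit 76) (nat_lit 1993417490) (nat_lit 171) (nat_lit 5) (nat_lit 177) (nat_lit 5) (nat_lit 172) (nat_lit 5) (nat_lit 607) (nat_lit 510) (nat_lit 443)) (XT.lf (nat_lit 0) (nat_lit 658930632) (nat_lit 380) (nat_lit 4716969270) (nat_lit 456) (nat_lit 5672424907) (nat_lit 166) (nat_lit 5) (nat_lit 171) (nat_lit 5) (nat_lit 172) (nat_lit 5) (nat_lit 608) (nat_lit 510) (nat_lit 442)))) (XT.nd (nat_lit 156) (nat_lit 304) (nat_lit 0) (XT.nd (nat_lit 78) (nat_lit 456) (nat_lit 0) (XT.lf (nat_lit 0) (nat_lit 8827936585) (nat_lit 380) (nat_lit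 380911554) (nat_lit 456) (nat_lit 1957889457) (nat_lit 166) (nat_lit 5) (nat_lit 171) (nat_lit 5) (nat_lit 172) (nat_lit 5) (nat_lit 609) (nat_lit 510) (nat_lit 441)) (XT.lf (nat_lit 0) (nat_lit 1836864848) (nat_lit 456) (nat_lit 5430085514) (nat_lit 76) (nat_lit 4019732254) (nat_lit 160) (nat_lit 5) (nat_lit 166) (nat_lit 5) (nat_lit 161) (nat_lit 5) (nat_lit 610) (nat_lit 510) (nat_lit 440))) (XT.nd (nat_lit 78) (nat_lit 0) (nat_lit 0) (XT.lf (nat_lit 0) (nat_lit 2805384132) (nat_lit 304) (nat_lit 2877970069) (nat_lit 380) (nat_lit 5725372925) (nat_lit 156) (nat_lit 5) (nat_lit 160) (nat_lit 5) (nat_lit 161) (nat_lit 5) (nat_lit 611) (nat_lit 510) (nat_lit 439)) (XT.lf (nat_lit 0) (nat_lit 9619522576) (nat_lit 380) (nat_lit 318839208) (nat_lit 76) (nat_lit 1594596292) (nat_lit 156) (nat_lit 5) (nat_lit 161) (nat_lit 5) (nat_lit 157) (nat_lit 5) (nat_lit 612) (nat_lit 510) (nat_lit 438))))) (XT.nd (nat_lit 312) (nat_lit 988) (nat_lit 0) (XT.nd (nat_lit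 156) (nat_lit 456) (nat_lit 0) (XT.nd (nat_lit 78) (nat_lit 304) (nat_lit 0) (XT.lf (nat_lit 0) (nat_lit 1987532822) (nat_lit 456) (nat_lit 3506419857) (nat_lit 76) (nat_lit 6164691228) (nat_lit 150) (nat_lit 5) (nat_lit 156) (nat_lit 5) (nat_lit 151) (nat_lit 5) (nat_lit 613) (nat_lit 510) (nat_lit 437)) (XT.lf (nat_lit 0) (nat_lit 5009323289) (nat_lit 304) (nat_lit 932730608) (nat_lit 380) (nat_lit 5844514017) (nat_lit 146) (nat_lit 5) (nat_lit 150) (nat_lit 5) (nat_lit 151) (nat_lit 5) (nat_lit 614) (nat_lit 510) (nat_lit 436))) (XT.nd (nat_lit 78) (nat_lit 76) (nat_lit 0) (XT.lf (nat_lit 0) (nat_lit 1771156935) (nat_lit 380) (nat_lit 8230475379) (nat_lit 456) (nat_lit 1914899244) (nat_lit 141) (nat_lit 5) (nat_lit 146) (nat_lit 5) (nat_lit 147) (nat_lit 5) (nat_lit 615) (nat_lit 510) (nat_lit 435)) (XT.lf (nat_lit 0) (nat_lit 2084527512) (nat_lit 456) (nat_lit 1540044628) (nat_lit 76) (nat_lit 8423877510) (nat_lit 140) (nat_lit 5) (nat_lit 146) (nat_lit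 5) (nat_lit 141) (nat_lit 5) (nat_lit 616) (nat_lit 510) (nat_lit 434)))) (XT.nd (nat_lit 156) (nat_lit 380) (nat_lit 0) (XT.nd (nat_lit 78) (nat_lit 304) (nat_lit 0) (XT.lf (nat_lit 0) (nat_lit 6160110046) (nat_lit 380) (nat_lit 4922799519) (nat_lit 76) (nat_lit 1099407699) (nat_lit 136) (nat_lit 5) (nat_lit 141) (nat_lit 5) (nat_lit 137) (nat_lit 5) (nat_lit 617) (nat_lit 510) (nat_lit 433)) (XT.lf (nat_lit 0) (nat_lit 3911229037) (nat_lit 304) (nat_lit 6433310032) (nat_lit 380) (nat_lit 1973776920) (nat_lit 132) (nat_lit 5) (nat_lit 136) (nat_lit 5) (nat_lit 137) (nat_lit 5) (nat_lit 618) (nat_lit 510) (nat_lit 432))) (XT.nd (nat_lit 78) (nat_lit 0) (nat_lit 0) (XT.lf (nat_lit 0) (nat_lit 470888281) (nat_lit 304) (nat_lit 1660386191) (nat_lit 380) (nat_lit 10325402262) (nat_lit 127) (nat_lit 5) (nat_lit 131) (nat_lit 5) (nat_lit 132) (nat_lit 5) (nat_lit 619) (nat_lit 510) (nat_lit 431)) (XT.lf (nat_lit 0) (nat_lit 6337408945) (nat_lit 380) (nat_lit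 3044088943) (nat_lit 76) (nat_lit 3215138085) (nat_lit 127) (nat_lit 5) (nat_lit 132) (nat_lit 5) (nat_lit 128) (nat_lit 5) (nat_lit 620) (nat_lit 510) (nat_lit 430)))))) (XT.nd (nat_lit 624) (nat_lit 1596) (nat_lit 0) (XT.nd (nat_lit 312) (nat_lit 912) (nat_lit 0) (XT.nd (nat_lit 156) (nat_lit 304) (nat_lit 0) (XT.nd (nat_lit 78) (nat_lit 380) (nat_lit 0) (XT.lf (nat_lit 0) (nat_lit 6092884926) (nat_lit 304) (nat_lit 4553736349) (nat_lit 380) (nat_lit 2092394437) (nat_lit 123) (nat_lit 5) (nat_lit 127) (nat_lit 5) (nat_lit 128) (nat_lit 5) (nat_lit 621) (nat_lit 510) (nat_lit 429)) (XT.lf (nat_lit 0) (nat_lit 2137588351) (nat_lit 380) (nat_lit 10349857663) (nat_lit 76) (nat_lit 396354980) (nat_lit 118) (nat_lit 5) (nat_lit 123) (nat_lit 5) (nat_lit 119) (nat_lit 5) (nat_lit 622) (nat_lit 510) (nat_lit 428))) (XT.nd (nat_lit 78) (nat_lit 304) (nat_lit 0) (XT.lf (nat_lit 0) (nat_lit 6467848128) (nat_lit 380) (nat_lit 1139881210) (nat_lit 76) (nat_lit 5422602537)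 (nat_lit 118) (nat_lit 5) (nat_lit 123) (nat_lit 5) (nat_lit 119) (nat_lit 5) (nat_lit 623) (nat_lit 510) (nat_lit 427)) (XT.lf (nat_lit 0) (nat_lit 8311645930) (nat_lit 304) (nat_lit 2596263962) (nat_lit 380) (nat_lit 2271419934) (nat_lit 114) (nat_lit 5) (nat_lit 118) (nat_lit 5) (nat_lit 119) (nat_lit 5) (nat_lit 624) (nat_lit 510) (nat_lit 426)))) (XT.nd (nat_lit 156) (nat_lit 304) (nat_lit 0) (XT.nd (nat_lit 78) (nat_lit 304) (nat_lit 0) (XT.lf (nat_lit 0) (nat_lit 2101460019) (nat_lit 304) (nat_lit 8715628945) (nat_lit 76) (nat_lit 2513473576) (nat_lit 110) (nat_lit 5) (nat_lit 114) (nat_lit 5) (nat_lit 111) (nat_lit 5) (nat_lit 625) (nat_lit 510) (nat_lit 425)) (XT.lf (nat_lit 0) (nat_lit 795136543) (nat_lit 304) (nat_lit 5760944662) (nat_lit 380) (nat_lit 6927944831) (nat_lit 106) (nat_lit 5) (nat_lit 110) (nat_lit 5) (nat_lit 111) (nat_lit 5) (nat_lit 626) (nat_lit 510) (nat_lit 424))) (XT.nd (nat_lit 78) (nat_lit 304) (nat_lit 0) (XT.lf (nat_lit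 0) (nat_lit 10562742425) (nat_lit 304) (nat_lit 565235846) (nat_lit 380) (nat_lit 2512017218) (nat_lit 106) (nat_lit 5) (nat_lit 110) (nat_lit 5) (nat_lit 111) (nat_lit 5) (nat_lit 627) (nat_lit 510) (nat_lit 423)) (XT.lf (nat_lit 0) (nat_lit 2011007033) (nat_lit 304) (nat_lit 7078204998) (nat_lit 76) (nat_lit 4708715819) (nat_lit 102) (nat_lit 5) (nat_lit 106) (nat_lit 5) (nat_lit 103) (nat_lit 5) (nat_lit 628) (nat_lit 510) (nat_lit 422))))) (XT.nd (nat_lit 312) (nat_lit 760) (nat_lit 0) (XT.nd (nat_lit 156) (nat_lit 532) (nat_lit 0) (XT.nd (nat_lit 78) (nat_lit 0) (nat_lit 0) (XT.lf (nat_lit 0) (nat_lit 2760404956) (nat_lit 304) (nat_lit 3843151045) (nat_lit 380) (nat_lit 7354877104) (nat_lit 98) (nat_lit 5) (nat_lit 102) (nat_lit 5) (nat_lit 103) (nat_lit 5) (nat_lit 629) (nat_lit 510) (nat_lit 421)) (XT.lf (nat_lit 0) (nat_lit 11315892586) (nat_lit 380) (nat_lit 1290714392) (nat_lit 76) (nat_lit 1514983086) (nat_lit 98) (nat_lit 5) (nat_lit 103) (nat_lit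 5) (nat_lit 99) (nat_lit 5) (nat_lit 630) (nat_lit 510) (nat_lit 420))) (XT.nd (nat_lit 78) (nat_lit 228) (nat_lit 0) (XT.lf (nat_lit 0) (nat_lit 1864623963) (nat_lit 304) (nat_lit 5443910176) (nat_lit 76) (nat_lit 6978153779) (nat_lit 94) (nat_lit 5) (nat_lit 98) (nat_lit 5) (nat_lit 95) (nat_lit 5) (nat_lit 631) (nat_lit 510) (nat_lit 419)) (XT.lf (nat_lit 0) (nat_lit 4734781676) (nat_lit 228) (nat_lit 1866468086) (nat_lit 304) (nat_lit 7853258044) (nat_lit 91) (nat_lit 5) (nat_lit 94) (nat_lit 5) (nat_lit 95) (nat_lit 5) (nat_lit 632) (nat_lit 510) (nat_lit 418)))) (XT.nd (nat_lit 156) (nat_lit 456) (nat_lit 0) (XT.nd (nat_lit 78) (nat_lit 76) (nat_lit 0) (XT.lf (nat_lit 0) (nat_lit 497946733) (nat_lit 228) (nat_lit 10969669140) (nat_lit 304) (nat_lit 3157368368) (nat_lit 88) (nat_lit 5) (nat_lit 91) (nat_lit 5) (nat_lit 92) (nat_lit 5) (nat_lit 633) (nat_lit 510) (nat_lit 417)) (XT.lf (nat_lit 0) (nat_lit 1660178421) (nat_lit 304) (nat_lit 3819591438)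 (nat_lit 76) (nat_lit 9317905683) (nat_lit 87) (nat_lit 5) (nat_lit 91) (nat_lit 5) (nat_lit 88) (nat_lit 5) (nat_lit 634) (nat_lit 510) (nat_lit 416))) (XT.nd (nat_lit 78) (nat_lit 228) (nat_lit 0) (XT.lf (nat_lit 0) (nat_lit 6548182468) (nat_lit 304) (nat_lit 8262419792) (nat_lit 76) (nat_lit 162473624) (nat_lit 84) (nat_lit 5) (nat_lit 88) (nat_lit 5) (nat_lit 85) (nat_lit 5) (nat_lit 635) (nat_lit 510) (nat_lit 415)) (XT.lf (nat_lit 0) (nat_lit 2295991517) (nat_lit 228) (nat_lit 9286751461) (nat_lit 304) (nat_lit 3568265609) (nat_lit 81) (nat_lit 5) (nat_lit 84) (nat_lit 5) (nat_lit 85) (nat_lit 5) (nat_lit 636) (nat_lit 510) (nat_lit 414))))))))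
noncomputable def xc50 : XT := (XT.nd (nat_lit 75114) (nat_lit 0) (nat_lit 15352) (XT.nd (nat_lit 73866) (nat_lit 0) (nat_lit 33744) (XT.nd (nat_lit 546) (nat_lit 456) (nat_lit 0) (XT.nd (nat_lit 234) (nat_lit 760) (nat_lit 0) (XT.nd (nat_lit 78) (nat_lit 456) (nat_lit 0) (XT.lf (nat_lit 0) (nat_lit 1394982696) (nat_lit 304) (nat_lit 2212706133) (nat_lit 76) (nat_lit 11724078298) (nat_lit 80) (nat_lit 5) (nat_lit 84) (nat_lit 5) (nat_lit 81) (nat_lit 5) (nat_lit 637) (nat_lit 510) (nat_lit 413)) (XT.nd (nat_lit 78) (nat_lit 228) (nat_lit 0) (XT.lf (nat_lit 0) (nat_lit 6453123561) (nat_lit 304) (nat_lit 6845510066) (nat_lit 76) (nat_lit 2216167620) (nat_lit 77) (nat_lit 5) (nat_lit 81) (nat_lit 5) (nat_lit 78) (nat_lit 5) (nat_lit 638) (nat_lit 510) (nat_lit 412)) (XT.lf (nat_lit 0) (nat_lit 4078579639) (nat_lit 228) (nat_lit 7571658414) (nat_lit 304) (nat_lit 4050502041) (nat_lit 74) (nat_lit 5) (nat_lit 77) (nat_lit 5) (nat_lit 78) (nat_lit 5) (nat_lit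 639) (nat_lit 510) (nat_lit 411)))) (XT.nd (nat_lit 156) (nat_lit 456) (nat_lit 0) (XT.nd (nat_lit 78) (nat_lit 228) (nat_lit 0) (XT.lf (nat_lit 0) (nat_lit 1065760380) (nat_lit 304) (nat_lit 631417150) (nat_lit 76) (nat_lit 14192707139) (nat_lit 73) (nat_lit 5) (nat_lit 77) (nat_lit 5) (nat_lit 74) (nat_lit 5) (nat_lit 640) (nat_lit 510) (nat_lit 410)) (XT.lf (nat_lit 0) (nat_lit 6300730910) (nat_lit 304) (nat_lit 5465635245) (nat_lit 76) (nat_lit 4314498366) (nat_lit 70) (nat_lit 5) (nat_lit 74) (nat_lit 5) (nat_lit 71) (nat_lit 5) (nat_lit 641) (nat_lit 510) (nat_lit 409))) (XT.nd (nat_lit 78) (nat_lit 304) (nat_lit 0) (XT.lf (nat_lit 0) (nat_lit 5837256613) (nat_lit 152) (nat_lit 5829708371) (nat_lit 228) (nat_lit 4608167946) (nat_lit 68) (nat_lit 5) (nat_lit 70) (nat_lit 5) (nat_lit 71) (nat_lit 5) (nat_lit 642) (nat_lit 510) (nat_lit 408)) (XT.lf (nat_lit 0) (nat_lit 676270906) (nat_lit 304) (nat_lit 15547051497) (nat_lit 76) (nat_lit 249522198)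 (nat_lit 64) (nat_lit 5) (nat_lit 68) (nat_lit 5) (nat_lit 65) (nat_lit 5) (nat_lit 643) (nat_lit 510) (nat_lit 407))))) (XT.nd (nat_lit 73008) (nat_lit 0) (nat_lit 49324) (XT.nd (nat_lit 156) (nat_lit 304) (nat_lit 0) (XT.nd (nat_lit 78) (nat_lit 152) (nat_lit 0) (XT.lf (nat_lit 0) (nat_lit 6087149621) (nat_lit 304) (nat_lit 4132417890) (nat_lit 76) (nat_lit 6452684933) (nat_lit 64) (nat_lit 5) (nat_lit 68) (nat_lit 5) (nat_lit 65) (nat_lit 5) (nat_lit 644) (nat_lit 510) (nat_lit 406)) (XT.lf (nat_lit 0) (nat_lit 7562691050) (nat_lit 152) (nat_lit 4066462675) (nat_lit 228) (nat_lit 5246036786) (nat_lit 62) (nat_lit 5) (nat_lit 64) (nat_lit 5) (nat_lit 65) (nat_lit 5) (nat_lit 645) (nat_lit 510) (nat_lit 405))) (XT.nd (nat_lit 72774) (nat_lit 0) (nat_lit 51224) (XT.lf (nat_lit 0) (nat_lit 229363387) (nat_lit 304) (nat_lit 14646627722) (nat_lit 76) (nat_lit 2205527031) (nat_lit 58) (nat_lit 5) (nat_lit 62) (nat_lit 5) (nat_lit 59) (nat_lit 5) (nat_lit 646)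 (nat_lit 510) (nat_lit 404)) (XT.lf (nat_lit 0) (nat_lit 258496744) (nat_lit 836) (nat_lit 2781116200) (nat_lit 0) (nat_lit 258496744) (nat_lit 732) (nat_lit 5) (nat_lit 743) (nat_lit 4) (nat_lit 732) (nat_lit 4) (nat_lit 538) (nat_lit 511) (nat_lit 511)))) (XT.nd (nat_lit 156) (nat_lit 988) (nat_lit 0) (XT.nd (nat_lit 78) (nat_lit 912) (nat_lit 0) (XT.lf (nat_lit 0) (nat_lit 3794598440) (nat_lit 836) (nat_lit 1410869017) (nat_lit 0) (nat_lit 1408360719) (nat_lit 732) (nat_lit 5) (nat_lit 743) (nat_lit 4) (nat_lit 732) (nat_lit 4) (nat_lit 539) (nat_lit 511) (nat_lit 510)) (XT.lf (nat_lit 0) (nat_lit 442885156) (nat_lit 912) (nat_lit 3831058450) (nat_lit 76) (nat_lit 2358912466) (nat_lit 720) (nat_lit 5) (nat_lit 732) (nat_lit 5) (nat_lit 721) (nat_lit 4) (nat_lit 540) (nat_lit 511) (nat_lit 509))) (XT.nd (nat_lit 78) (nat_lit 76) (nat_lit 0) (XT.lf (nat_lit 0) (nat_lit 396074222) (nat_lit 912) (nat_lit 3274885128) (nat_lit 988) (nat_lit 2982166788) (nat_lit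 708) (nat_lit 5) (nat_lit 720) (nat_lit 5) (nat_lit 721) (nat_lit 4) (nat_lit 541) (nat_lit 511) (nat_lit 508)) (XT.lf (nat_lit 0) (nat_lit 238798743) (nat_lit 988) (nat_lit 1972418224) (nat_lit 76) (nat_lit 4463494392) (nat_lit 707) (nat_lit 5) (nat_lit 720) (nat_lit 5) (nat_lit 708) (nat_lit 5) (nat_lit 542) (nat_lit 511) (nat_lit 507)))))) (XT.nd (nat_lit 624) (nat_lit 9652) (nat_lit 0) (XT.nd (nat_lit 312) (nat_lit 2660) (nat_lit 0) (XT.nd (nat_lit 156) (nat_lit 1216) (nat_lit 0) (XT.nd (nat_lit 78) (nat_lit 1064) (nat_lit 0) (XT.lf (nat_lit 0) (nat_lit 2353377034) (nat_lit 988) (nat_lit 1074552485) (nat_lit 1064) (nat_lit 3269534413) (nat_lit 694) (nat_lit 5) (nat_lit 707) (nat_lit 5) (nat_lit 708) (nat_lit 5) (nat_lit 543) (nat_lit 511) (nat_lit 506)) (XT.lf (nat_lit 0) (nat_lit 14778098) (nat_lit 1064) (nat_lit 6609540603) (nat_lit 1140) (nat_lit 97486707) (nat_lit 680) (nat_lit 5) (nat_lit 694) (nat_lit 5) (nat_lit 695) (nat_lit 4) (nat_lit 544)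 (nat_lit 511) (nat_lit 505))) (XT.nd (nat_lit 78) (nat_lit 1140) (nat_lit 0) (XT.lf (nat_lit 0) (nat_lit 3063364784) (nat_lit 1140) (nat_lit 2311382619) (nat_lit 76) (nat_lit 1372151701) (nat_lit 679) (nat_lit 5) (nat_lit 694) (nat_lit 5) (nat_lit 680) (nat_lit 5) (nat_lit 545) (nat_lit 511) (nat_lit 504)) (XT.lf (nat_lit 0) (nat_lit 2143410893) (nat_lit 1140) (nat_lit 4088064034) (nat_lit 1216) (nat_lit 542103094) (nat_lit 664) (nat_lit 5) (nat_lit 679) (nat_lit 5) (nat_lit 680) (nat_lit 5) (nat_lit 546) (nat_lit 511) (nat_lit 503)))) (XT.nd (nat_lit 156) (nat_lit 1368) (nat_lit 0) (XT.nd (nat_lit 78) (nat_lit 1216) (nat_lit 0) (XT.lf (nat_lit 0) (nat_lit 2574815875) (nat_lit 1216) (nat_lit 156002845) (nat_lit 76) (nat_lit 4070677681) (nat_lit 663) (nat_lit 5) (nat_lit 679) (nat_lit 5) (nat_lit 664) (nat_lit 5) (nat_lit 547) (nat_lit 511) (nat_lit 502)) (XT.lf (nat_lit 0) (nat_lit 4406188662) (nat_lit 1216) (nat_lit 1302535063) (nat_lit 1292) (nat_lit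 1121942561) (nat_lit 647) (nat_lit 5) (nat_lit 663) (nat_lit 5) (nat_lit 664) (nat_lit 5) (nat_lit 548) (nat_lit 511) (nat_lit 501))) (XT.nd (nat_lit 78) (nat_lit 0) (nat_lit 0) (XT.lf (nat_lit 0) (nat_lit 1968210401) (nat_lit 1368) (nat_lit 4702216404) (nat_lit 76) (nat_lit 190727314) (nat_lit 629) (nat_lit 5) (nat_lit 647) (nat_lit 5) (nat_lit 630) (nat_lit 5) (nat_lit 549) (nat_lit 511) (nat_lit 500)) (XT.lf (nat_lit 0) (nat_lit 5064963229) (nat_lit 1368) (nat_lit 98374638) (nat_lit 76) (nat_lit 1729571948) (nat_lit 629) (nat_lit 5) (nat_lit 647) (nat_lit 5) (nat_lit 630) (nat_lit 5) (nat_lit 550) (nat_lit 511) (nat_lit 499))))) (XT.nd (nat_lit 312) (nat_lit 5168) (nat_lit 0) (XT.nd (nat_lit 156) (nat_lit 1596) (nat_lit 0) (XT.nd (nat_lit 78) (nat_lit 1444) (nat_lit 0) (XT.lf (nat_lit 0) (nat_lit 1247053114) (nat_lit 1444) (nat_lit 2332339707) (nat_lit 76) (nat_lit 3346427301) (nat_lit 610) (nat_lit 5) (nat_lit 629) (nat_lit 5) (nat_lit 611) (nat_lit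 5) (nat_lit 551) (nat_lit 511) (nat_lit 498)) (XT.lf (nat_lit 0) (nat_lit 2383757728) (nat_lit 1444) (nat_lit 1928035576) (nat_lit 1520) (nat_lit 2648301999) (nat_lit 591) (nat_lit 5) (nat_lit 610) (nat_lit 5) (nat_lit 611) (nat_lit 5) (nat_lit 552) (nat_lit 511) (nat_lit 497))) (XT.nd (nat_lit 78) (nat_lit 0) (nat_lit 0) (XT.lf (nat_lit 0) (nat_lit 173350689) (nat_lit 1520) (nat_lit 217509887) (nat_lit 1596) (nat_lit 6605062560) (nat_lit 570) (nat_lit 5) (nat_lit 590) (nat_lit 5) (nat_lit 591) (nat_lit 5) (nat_lit 553) (nat_lit 511) (nat_lit 496)) (XT.lf (nat_lit 0) (nat_lit 3434125577) (nat_lit 1596) (nat_lit 2037344357) (nat_lit 76) (nat_lit 1561074391) (nat_lit 570) (nat_lit 5) (nat_lit 591) (nat_lit 5) (nat_lit 571) (nat_lit 5) (nat_lit 554) (nat_lit 511) (nat_lit 495)))) (XT.nd (nat_lit 156) (nat_lit 1824) (nat_lit 0) (XT.nd (nat_lit 78) (nat_lit 1748) (nat_lit 0) (XT.lf (nat_lit 0) (nat_lit 2822399761) (nat_lit 1596) (nat_lit 3674756775) (nat_lit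 1672) (nat_lit 573565840) (nat_lit 549) (nat_lit 5) (nat_lit 570) (nat_lit 5) (nat_lit 571) (nat_lit 5) (nat_lit 555) (nat_lit 511) (nat_lit 494)) (XT.lf (nat_lit 0) (nat_lit 632262026) (nat_lit 1672) (nat_lit 1804009490) (nat_lit 1748) (nat_lit 4673920069) (nat_lit 526) (nat_lit 5) (nat_lit 548) (nat_lit 5) (nat_lit 549) (nat_lit 5) (nat_lit 556) (nat_lit 511) (nat_lit 493))) (XT.nd (nat_lit 78) (nat_lit 1824) (nat_lit 0) (XT.lf (nat_lit 0) (nat_lit 5468403213) (nat_lit 1748) (nat_lit 1544531061) (nat_lit 76) (nat_lit 138046837) (nat_lit 526) (nat_lit 5) (nat_lit 549) (nat_lit 5) (nat_lit 527) (nat_lit 5) (nat_lit 557) (nat_lit 511) (nat_lit 492)) (XT.lf (nat_lit 0) (nat_lit 1326484770) (nat_lit 1824) (nat_lit 3737669696) (nat_lit 76) (nat_lit 2128739609) (nat_lit 502) (nat_lit 5) (nat_lit 526) (nat_lit 5) (nat_lit 503) (nat_lit 5) (nat_lit 558) (nat_lit 511) (nat_lit 491))))))) (XT.nd (nat_lit 1170) (nat_lit 7448) (nat_lit 0) (XT.nd (nat_lit 546) (nat_lit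 5092) (nat_lit 0) (XT.nd (nat_lit 234) (nat_lit 2812) (nat_lit 0) (XT.nd (nat_lit 78) (nat_lit 1216) (nat_lit 0) (XT.lf (nat_lit 0) (nat_lit 1288871339) (nat_lit 1824) (nat_lit 3045110582) (nat_lit 1900) (nat_lit 2902227458) (nat_lit 478) (nat_lit 5) (nat_lit 502) (nat_lit 5) (nat_lit 503) (nat_lit 5) (nat_lit 559) (nat_lit 511) (nat_lit 490)) (XT.nd (nat_lit 78) (nat_lit 1140) (nat_lit 0) (XT.lf (nat_lit 0) (nat_lit 87243324) (nat_lit 1900) (nat_lit 871920002) (nat_lit 76) (nat_lit 6321862107) (nat_lit 477) (nat_lit 5) (nat_lit 502) (nat_lit 5) (nat_lit 478) (nat_lit 5) (nat_lit 560) (nat_lit 511) (nat_lit 489)) (XT.lf (nat_lit 0) (nat_lit 3076878912) (nat_lit 1216) (nat_lit 3049391430) (nat_lit 76) (nat_lit 1200501119) (nat_lit 462) (nat_lit 5) (nat_lit 478) (nat_lit 5) (nat_lit 463) (nat_lit 5) (nat_lit 561) (nat_lit 511) (nat_lit 488)))) (XT.nd (nat_lit 156) (nat_lit 1824) (nat_lit 0) (XT.nd (nat_lit 78) (nat_lit 76) (nat_lit 0) (XT.lf (nat_lit 0)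 (nat_lit 2132448933) (nat_lit 912) (nat_lit 3964164259) (nat_lit 988) (nat_lit 1277415111) (nat_lit 450) (nat_lit 5) (nat_lit 462) (nat_lit 5) (nat_lit 463) (nat_lit 5) (nat_lit 562) (nat_lit 511) (nat_lit 487)) (XT.lf (nat_lit 0) (nat_lit 1696676136) (nat_lit 988) (nat_lit 31745586) (nat_lit 76) (nat_lit 5694279164) (nat_lit 449) (nat_lit 5) (nat_lit 462) (nat_lit 5) (nat_lit 450) (nat_lit 5) (nat_lit 563) (nat_lit 511) (nat_lit 486))) (XT.nd (nat_lit 78) (nat_lit 912) (nat_lit 0) (XT.lf (nat_lit 0) (nat_lit 4697001417) (nat_lit 988) (nat_lit 2189801299) (nat_lit 76) (nat_lit 585700091) (nat_lit 437) (nat_lit 5) (nat_lit 450) (nat_lit 5) (nat_lit 438) (nat_lit 5) (nat_lit 564) (nat_lit 511) (nat_lit 485)) (XT.lf (nat_lit 0) (nat_lit 209300398) (nat_lit 912) (nat_lit 4371845642) (nat_lit 76) (nat_lit 2942559411) (nat_lit 425) (nat_lit 5) (nat_lit 437) (nat_lit 5) (nat_lit 426) (nat_lit 5) (nat_lit 565) (nat_lit 511) (nat_lit 484))))) (XT.nd (nat_lit 312)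 (nat_lit 2432) (nat_lit 0) (XT.nd (nat_lit 156) (nat_lit 1748) (nat_lit 0) (XT.nd (nat_lit 78) (nat_lit 0) (nat_lit 0) (XT.lf (nat_lit 0) (nat_lit 991374409) (nat_lit 912) (nat_lit 2193201325) (nat_lit 988) (nat_lit 4391632451) (nat_lit 413) (nat_lit 5) (nat_lit 425) (nat_lit 5) (nat_lit 426) (nat_lit 5) (nat_lit 566) (nat_lit 511) (nat_lit 483)) (XT.lf (nat_lit 0) (nat_lit 6197785754) (nat_lit 988) (nat_lit 1168018094) (nat_lit 76) (nat_lit 264390293) (nat_lit 413) (nat_lit 5) (nat_lit 426) (nat_lit 5) (nat_lit 414) (nat_lit 5) (nat_lit 567) (nat_lit 511) (nat_lit 482))) (XT.nd (nat_lit 78) (nat_lit 836) (nat_lit 0) (XT.lf (nat_lit 0) (nat_lit 1556213530) (nat_lit 912) (nat_lit 3353170512) (nat_lit 76) (nat_lit 2775851230) (nat_lit 401) (nat_lit 5) (nat_lit 413) (nat_lit 5) (nat_lit 402) (nat_lit 5) (nat_lit 568) (nat_lit 511) (nat_lit 481)) (XT.lf (nat_lit 0) (nat_lit 2178431113) (nat_lit 836) (nat_lit 2377709623) (nat_lit 912) (nat_lit 3185634521) (nat_lit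 390) (nat_lit 5) (nat_lit 401) (nat_lit 5) (nat_lit 402) (nat_lit 5) (nat_lit 569) (nat_lit 511) (nat_lit 480)))) (XT.nd (nat_lit 156) (nat_lit 1596) (nat_lit 0) (XT.nd (nat_lit 78) (nat_lit 76) (nat_lit 0) (XT.lf (nat_lit 0) (nat_lit 7786156) (nat_lit 760) (nat_lit 7581566813) (nat_lit 836) (nat_lit 210628959) (nat_lit 380) (nat_lit 5) (nat_lit 390) (nat_lit 5) (nat_lit 391) (nat_lit 5) (nat_lit 570) (nat_lit 511) (nat_lit 479)) (XT.lf (nat_lit 0) (nat_lit 2789712295) (nat_lit 836) (nat_lit 2185433745) (nat_lit 76) (nat_lit 2883784134) (nat_lit 379) (nat_lit 5) (nat_lit 390) (nat_lit 5) (nat_lit 380) (nat_lit 5) (nat_lit 571) (nat_lit 511) (nat_lit 478))) (XT.nd (nat_lit 78) (nat_lit 836) (nat_lit 0) (XT.lf (nat_lit 0) (nat_lit 3521140004) (nat_lit 760) (nat_lit 2299498191) (nat_lit 836) (nat_lit 2098924909) (nat_lit 369) (nat_lit 5) (nat_lit 379) (nat_lit 5) (nat_lit 380) (nat_lit 5) (nat_lit 572) (nat_lit 511) (nat_lit 477)) (XT.lf (nat_lit 0) (nat_lit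 895800737) (nat_lit 836) (nat_lit 6640277270) (nat_lit 76) (nat_lit 445666604) (nat_lit 358) (nat_lit 5) (nat_lit 369) (nat_lit 5) (nat_lit 359) (nat_lit 5) (nat_lit 573) (nat_lit 511) (nat_lit 476)))))) (XT.nd (nat_lit 624) (nat_lit 3724) (nat_lit 0) (XT.nd (nat_lit 312) (nat_lit 1520) (nat_lit 0) (XT.nd (nat_lit 156) (nat_lit 1444) (nat_lit 0) (XT.nd (nat_lit 78) (nat_lit 760) (nat_lit 0) (XT.lf (nat_lit 0) (nat_lit 3918632359) (nat_lit 836) (nat_lit 876055762) (nat_lit 76) (nat_lit 3250279265) (nat_lit 358) (nat_lit 5) (nat_lit 369) (nat_lit 5) (nat_lit 359) (nat_lit 5) (nat_lit 574) (nat_lit 511) (nat_lit 475)) (XT.lf (nat_lit 0) (nat_lit 5012394904) (nat_lit 760) (nat_lit 1974373548) (nat_lit 836) (nat_lit 1122990616) (nat_lit 348) (nat_lit 5) (nat_lit 358) (nat_lit 5) (nat_lit 359) (nat_lit 5) (nat_lit 575) (nat_lit 511) (nat_lit 474))) (XT.nd (nat_lit 78) (nat_lit 684) (nat_lit 0) (XT.lf (nat_lit 0) (nat_lit 1897811967) (nat_lit 760) (nat_lit 5360016628)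 (nat_lit 76) (nat_lit 918110569) (nat_lit 338) (nat_lit 5) (nat_lit 348) (nat_lit 5) (nat_lit 339) (nat_lit 5) (nat_lit 576) (nat_lit 511) (nat_lit 473)) (XT.lf (nat_lit 0) (nat_lit 575783063) (nat_lit 684) (nat_lit 4379019121) (nat_lit 760) (nat_lit 3288677376) (nat_lit 329) (nat_lit 5) (nat_lit 338) (nat_lit 5) (nat_lit 339) (nat_lit 5) (nat_lit 577) (nat_lit 511) (nat_lit 472)))) (XT.nd (nat_lit 156) (nat_lit 760) (nat_lit 0) (XT.nd (nat_lit 78) (nat_lit 760) (nat_lit 0) (XT.lf (nat_lit 0) (nat_lit 6645781978) (nat_lit 684) (nat_lit 1416726075) (nat_lit 760) (nat_lit 250072498) (nat_lit 329) (nat_lit 5) (nat_lit 338) (nat_lit 5) (nat_lit 339) (nat_lit 5) (nat_lit 578) (nat_lit 511) (nat_lit 471)) (XT.lf (nat_lit 0) (nat_lit 2805620954) (nat_lit 760) (nat_lit 3956546670) (nat_lit 76) (nat_lit 1620653482) (nat_lit 319) (nat_lit 5) (nat_lit 329) (nat_lit 5) (nat_lit 320) (nat_lit 5) (nat_lit 579) (nat_lit 511) (nat_lit 470))) (XT.nd (nat_lit 78) (nat_lit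 76) (nat_lit 0) (XT.lf (nat_lit 0) (nat_lit 2169780877) (nat_lit 684) (nat_lit 3738706315) (nat_lit 760) (nat_lit 2546159302) (nat_lit 310) (nat_lit 5) (nat_lit 319) (nat_lit 5) (nat_lit 320) (nat_lit 5) (nat_lit 580) (nat_lit 511) (nat_lit 469)) (XT.lf (nat_lit 0) (nat_lit 519971857) (nat_lit 760) (nat_lit 116176460) (nat_lit 76) (nat_lit 7892057937) (nat_lit 309) (nat_lit 5) (nat_lit 319) (nat_lit 5) (nat_lit 310) (nat_lit 5) (nat_lit 581) (nat_lit 511) (nat_lit 468))))) (XT.nd (nat_lit 312) (nat_lit 1824) (nat_lit 0) (XT.nd (nat_lit 156) (nat_lit 684) (nat_lit 0) (XT.nd (nat_lit 78) (nat_lit 608) (nat_lit 0) (XT.lf (nat_lit 0) (nat_lit 3626012371) (nat_lit 684) (nat_lit 2435795058) (nat_lit 76) (nat_lit 2540840739) (nat_lit 301) (nat_lit 5) (nat_lit 310) (nat_lit 5) (nat_lit 302) (nat_lit 5) (nat_lit 582) (nat_lit 511) (nat_lit 467)) (XT.lf (nat_lit 0) (nat_lit 3888686802) (nat_lit 608) (nat_lit 2891939927) (nat_lit 684) (nat_lit 1898224263) (nat_lit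 293) (nat_lit 5) (nat_lit 301) (nat_lit 5) (nat_lit 302) (nat_lit 5) (nat_lit 583) (nat_lit 511) (nat_lit 466))) (XT.nd (nat_lit 78) (nat_lit 0) (nat_lit 0) (XT.lf (nat_lit 0) (nat_lit 1210902685) (nat_lit 684) (nat_lit 7187102618) (nat_lit 76) (nat_lit 358703752) (nat_lit 284) (nat_lit 5) (nat_lit 293) (nat_lit 5) (nat_lit 285) (nat_lit 5) (nat_lit 584) (nat_lit 511) (nat_lit 465)) (XT.lf (nat_lit 0) (nat_lit 4365141910) (nat_lit 684) (nat_lit 803173214) (nat_lit 76) (nat_lit 3667392339) (nat_lit 284) (nat_lit 5) (nat_lit 293) (nat_lit 5) (nat_lit 285) (nat_lit 5) (nat_lit 585) (nat_lit 511) (nat_lit 464)))) (XT.nd (nat_lit 156) (nat_lit 608) (nat_lit 0) (XT.nd (nat_lit 78) (nat_lit 608) (nat_lit 0) (XT.lf (nat_lit 0) (nat_lit 5727413164) (nat_lit 608) (nat_lit 1849899586) (nat_lit 684) (nat_lit 1339077199) (nat_lit 276) (nat_lit 5) (nat_lit 284) (nat_lit 5) (nat_lit 285) (nat_lit 5) (nat_lit 586) (nat_lit 511) (nat_lit 463)) (XT.lf (nat_lit 0) (nat_lit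 1826046314) (nat_lit 608) (nat_lit 5632078335) (nat_lit 76) (nat_lit 1540414867) (nat_lit 268) (nat_lit 5) (nat_lit 276) (nat_lit 5) (nat_lit 269) (nat_lit 5) (nat_lit 587) (nat_lit 511) (nat_lit 462))) (XT.nd (nat_lit 78) (nat_lit 0) (nat_lit 0) (XT.lf (nat_lit 0) (nat_lit 948813382) (nat_lit 608) (nat_lit 4085919113) (nat_lit 684) (nat_lit 4047459730) (nat_lit 260) (nat_lit 5) (nat_lit 268) (nat_lit 5) (nat_lit 269) (nat_lit 5) (nat_lit 588) (nat_lit 511) (nat_lit 461)) (XT.lf (nat_lit 0) (nat_lit 7681339320) (nat_lit 608) (nat_lit 622721700) (nat_lit 684) (nat_lit 863528564) (nat_lit 260) (nat_lit 5) (nat_lit 268) (nat_lit 5) (nat_lit 269) (nat_lit 5) (nat_lit 589) (nat_lit 511) (nat_lit 460))))))))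
noncomputable def xc51 : XT := (XT.nd (nat_lit 2418) (nat_lit 4940) (nat_lit 0) (XT.nd (nat_lit 1170) (nat_lit 4560) (nat_lit 0) (XT.nd (nat_lit 546) (nat_lit 2812) (nat_lit 0) (XT.nd (nat_lit 234) (nat_lit 1140) (nat_lit 0) (XT.nd (nat_lit 78) (nat_lit 988) (nat_lit 0) (XT.lf (nat_lit 0) (nat_lit 2365512828) (nat_lit 608) (nat_lit 3981658747) (nat_lit 76) (nat_lit 2906960678) (nat_lit 252) (nat_lit 5) (nat_lit 260) (nat_lit 5) (nat_lit 253) (nat_lit 5) (nat_lit 590) (nat_lit 511) (nat_lit 459)) (XT.nd (nat_lit 78) (nat_lit 456) (nat_lit 0) (XT.lf (nat_lit 0) (nat_lit 2815215700) (nat_lit 532) (nat_lit 2824367041) (nat_lit 608) (nat_lit 3702869582) (nat_lit 245) (nat_lit 5) (nat_lit 252) (nat_lit 5) (nat_lit 253) (nat_lit 5) (nat_lit 591) (nat_lit 511) (nat_lit 458)) (XT.lf (nat_lit 0) (nat_lit 312485437) (nat_lit 456) (nat_lit 8660452300) (nat_lit 532) (nat_lit 459725874) (nat_lit 239) (nat_lit 5) (nat_lit 245) (nat_lit 5) (nat_lit 246) (nat_lit 5) (nat_lit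 592) (nat_lit 511) (nat_lit 457)))) (XT.nd (nat_lit 156) (nat_lit 532) (nat_lit 0) (XT.nd (nat_lit 78) (nat_lit 532) (nat_lit 0) (XT.lf (nat_lit 0) (nat_lit 2833766149) (nat_lit 532) (nat_lit 2240410101) (nat_lit 76) (nat_lit 4449677055) (nat_lit 238) (nat_lit 5) (nat_lit 245) (nat_lit 5) (nat_lit 239) (nat_lit 5) (nat_lit 593) (nat_lit 511) (nat_lit 456)) (XT.lf (nat_lit 0) (nat_lit 4781123967) (nat_lit 532) (nat_lit 1397725191) (nat_lit 608) (nat_lit 3438120161) (nat_lit 231) (nat_lit 5) (nat_lit 238) (nat_lit 5) (nat_lit 239) (nat_lit 5) (nat_lit 594) (nat_lit 511) (nat_lit 455))) (XT.nd (nat_lit 78) (nat_lit 76) (nat_lit 0) (XT.lf (nat_lit 0) (nat_lit 2219756786) (nat_lit 456) (nat_lit 7377028270) (nat_lit 532) (nat_lit 115044400) (nat_lit 225) (nat_lit 5) (nat_lit 231) (nat_lit 5) (nat_lit 232) (nat_lit 5) (nat_lit 595) (nat_lit 511) (nat_lit 454)) (XT.lf (nat_lit 0) (nat_lit 3234749240) (nat_lit 532) (nat_lit 412590348) (nat_lit 76) (nat_lit 6160758758)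 (nat_lit 224) (nat_lit 5) (nat_lit 231) (nat_lit 5) (nat_lit 225) (nat_lit 5) (nat_lit 596) (nat_lit 511) (nat_lit 453))))) (XT.nd (nat_lit 312) (nat_lit 1368) (nat_lit 0) (XT.nd (nat_lit 156) (nat_lit 456) (nat_lit 0) (XT.nd (nat_lit 78) (nat_lit 532) (nat_lit 0) (XT.lf (nat_lit 0) (nat_lit 6657673879) (nat_lit 532) (nat_lit 3064741814) (nat_lit 76) (nat_lit 183708978) (nat_lit 218) (nat_lit 5) (nat_lit 225) (nat_lit 5) (nat_lit 219) (nat_lit 5) (nat_lit 597) (nat_lit 511) (nat_lit 452)) (XT.lf (nat_lit 0) (nat_lit 157814057) (nat_lit 532) (nat_lit 5790853231) (nat_lit 76) (nat_lit 4057091555) (nat_lit 211) (nat_lit 5) (nat_lit 218) (nat_lit 5) (nat_lit 212) (nat_lit 5) (nat_lit 598) (nat_lit 511) (nat_lit 451))) (XT.nd (nat_lit 78) (nat_lit 0) (nat_lit 0) (XT.lf (nat_lit 0) (nat_lit 1517706106) (nat_lit 456) (nat_lit 2064053190) (nat_lit 532) (nat_lit 6525336652) (nat_lit 205) (nat_lit 5) (nat_lit 211) (nat_lit 5) (nat_lit 212) (nat_lit 5) (nat_lit 599)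 (nat_lit 511) (nat_lit 450)) (XT.lf (nat_lit 0) (nat_lit 7088344754) (nat_lit 532) (nat_lit 1226861544) (nat_lit 76) (nat_lit 1894970989) (nat_lit 205) (nat_lit 5) (nat_lit 212) (nat_lit 5) (nat_lit 206) (nat_lit 5) (nat_lit 600) (nat_lit 511) (nat_lit 449)))) (XT.nd (nat_lit 156) (nat_lit 456) (nat_lit 0) (XT.nd (nat_lit 78) (nat_lit 456) (nat_lit 0) (XT.lf (nat_lit 0) (nat_lit 363279970) (nat_lit 456) (nat_lit 4019952439) (nat_lit 76) (nat_lit 5931680616) (nat_lit 199) (nat_lit 5) (nat_lit 205) (nat_lit 5) (nat_lit 200) (nat_lit 5) (nat_lit 601) (nat_lit 511) (nat_lit 448)) (XT.lf (nat_lit 0) (nat_lit 3533314122) (nat_lit 456) (nat_lit 337822132) (nat_lit 532) (nat_lit 6550298336) (nat_lit 193) (nat_lit 5) (nat_lit 199) (nat_lit 5) (nat_lit 200) (nat_lit 5) (nat_lit 602) (nat_lit 511) (nat_lit 447))) (XT.nd (nat_lit 78) (nat_lit 76) (nat_lit 0) (XT.lf (nat_lit 0) (nat_lit 692078236) (nat_lit 380) (nat_lit 6777137119) (nat_lit 456) (nat_lit 3060470582)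 (nat_lit 188) (nat_lit 5) (nat_lit 193) (nat_lit 5) (nat_lit 194) (nat_lit 5) (nat_lit 603) (nat_lit 511) (nat_lit 446)) (XT.lf (nat_lit 0) (nat_lit 505311659) (nat_lit 456) (nat_lit 2182642976) (nat_lit 76) (nat_lit 7951829409) (nat_lit 187) (nat_lit 5) (nat_lit 193) (nat_lit 5) (nat_lit 188) (nat_lit 5) (nat_lit 604) (nat_lit 511) (nat_lit 445)))))) (XT.nd (nat_lit 624) (nat_lit 2204) (nat_lit 0) (XT.nd (nat_lit 312) (nat_lit 1140) (nat_lit 0) (XT.nd (nat_lit 156) (nat_lit 456) (nat_lit 0) (XT.nd (nat_lit 78) (nat_lit 380) (nat_lit 0) (XT.lf (nat_lit 0) (nat_lit 4112519777) (nat_lit 456) (nat_lit 5136468896) (nat_lit 76) (nat_lit 1502469672) (nat_lit 182) (nat_lit 5) (nat_lit 188) (nat_lit 5) (nat_lit 183) (nat_lit 5) (nat_lit 605) (nat_lit 511) (nat_lit 444)) (XT.lf (nat_lit 0) (nat_lit 2696472867) (nat_lit 380) (nat_lit 5110322252) (nat_lit 456) (nat_lit 3058273166) (nat_lit 177) (nat_lit 5) (nat_lit 182) (nat_lit 5) (nat_lit 183) (nat_lit 5) (nat_lit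 606) (nat_lit 511) (nat_lit 443))) (XT.nd (nat_lit 78) (nat_lit 380) (nat_lit 0) (XT.lf (nat_lit 0) (nat_lit 585891794) (nat_lit 456) (nat_lit 282837997) (nat_lit 76) (nat_lit 10112150553) (nat_lit 176) (nat_lit 5) (nat_lit 182) (nat_lit 5) (nat_lit 177) (nat_lit 5) (nat_lit 607) (nat_lit 511) (nat_lit 442)) (XT.lf (nat_lit 0) (nat_lit 4301065478) (nat_lit 456) (nat_lit 3331664432) (nat_lit 76) (nat_lit 3465093494) (nat_lit 171) (nat_lit 5) (nat_lit 177) (nat_lit 5) (nat_lit 172) (nat_lit 5) (nat_lit 608) (nat_lit 511) (nat_lit 441)))) (XT.nd (nat_lit 156) (nat_lit 304) (nat_lit 0) (XT.nd (nat_lit 78) (nat_lit 456) (nat_lit 0) (XT.lf (nat_lit 0) (nat_lit 4766309472) (nat_lit 380) (nat_lit 3328718283) (nat_lit 456) (nat_lit 3121988436) (nat_lit 166) (nat_lit 5) (nat_lit 171) (nat_lit 5) (nat_lit 172) (nat_lit 5) (nat_lit 609) (nat_lit 511) (nat_lit 440)) (XT.lf (nat_lit 0) (nat_lit 624581801) (nat_lit 456) (nat_lit 9647663654) (nat_lit 76) (nat_lit 1066136216)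 (nat_lit 160) (nat_lit 5) (nat_lit 166) (nat_lit 5) (nat_lit 161) (nat_lit 5) (nat_lit 610) (nat_lit 511) (nat_lit 439))) (XT.nd (nat_lit 78) (nat_lit 304) (nat_lit 0) (XT.lf (nat_lit 0) (nat_lit 4436110508) (nat_lit 456) (nat_lit 1475540170) (nat_lit 76) (nat_lit 5549474980) (nat_lit 160) (nat_lit 5) (nat_lit 166) (nat_lit 5) (nat_lit 161) (nat_lit 5) (nat_lit 611) (nat_lit 511) (nat_lit 438)) (XT.lf (nat_lit 0) (nat_lit 6897907638) (nat_lit 304) (nat_lit 1437583837) (nat_lit 380) (nat_lit 3250601140) (nat_lit 156) (nat_lit 5) (nat_lit 160) (nat_lit 5) (nat_lit 161) (nat_lit 5) (nat_lit 612) (nat_lit 511) (nat_lit 437))))) (XT.nd (nat_lit 312) (nat_lit 988) (nat_lit 0) (XT.nd (nat_lit 156) (nat_lit 456) (nat_lit 0) (XT.nd (nat_lit 78) (nat_lit 304) (nat_lit 0) (XT.lf (nat_lit 0) (nat_lit 613026984) (nat_lit 456) (nat_lit 7996027987) (nat_lit 76) (nat_lit 3103994907) (nat_lit 150) (nat_lit 5) (nat_lit 156) (nat_lit 5) (nat_lit 151) (nat_lit 5) (nat_lit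 613) (nat_lit 511) (nat_lit 436)) (XT.lf (nat_lit 0) (nat_lit 433533753) (nat_lit 304) (nat_lit 4088023329) (nat_lit 380) (nat_lit 7320336868) (nat_lit 146) (nat_lit 5) (nat_lit 150) (nat_lit 5) (nat_lit 151) (nat_lit 5) (nat_lit 614) (nat_lit 511) (nat_lit 435))) (XT.nd (nat_lit 78) (nat_lit 456) (nat_lit 0) (XT.lf (nat_lit 0) (nat_lit 8532954215) (nat_lit 380) (nat_lit 2888957177) (nat_lit 76) (nat_lit 550910067) (nat_lit 146) (nat_lit 5) (nat_lit 151) (nat_lit 5) (nat_lit 147) (nat_lit 5) (nat_lit 615) (nat_lit 511) (nat_lit 434)) (XT.lf (nat_lit 0) (nat_lit 544273775) (nat_lit 456) (nat_lit 6311492437) (nat_lit 76) (nat_lit 5249877309) (nat_lit 140) (nat_lit 5) (nat_lit 146) (nat_lit 5) (nat_lit 141) (nat_lit 5) (nat_lit 616) (nat_lit 511) (nat_lit 433)))) (XT.nd (nat_lit 156) (nat_lit 684) (nat_lit 0) (XT.nd (nat_lit 78) (nat_lit 0) (nat_lit 0) (XT.lf (nat_lit 0) (nat_lit 2405912600) (nat_lit 304) (nat_lit 2159312980) (nat_lit 380) (nat_lit 7675378395)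 (nat_lit 136) (nat_lit 5) (nat_lit 140) (nat_lit 5) (nat_lit 141) (nat_lit 5) (nat_lit 617) (nat_lit 511) (nat_lit 432)) (XT.lf (nat_lit 0) (nat_lit 8694483389) (nat_lit 380) (nat_lit 1063801929) (nat_lit 76) (nat_lit 2619421027) (nat_lit 136) (nat_lit 5) (nat_lit 141) (nat_lit 5) (nat_lit 137) (nat_lit 5) (nat_lit 618) (nat_lit 511) (nat_lit 431))) (XT.nd (nat_lit 78) (nat_lit 304) (nat_lit 0) (XT.lf (nat_lit 0) (nat_lit 418427064) (nat_lit 380) (nat_lit 4598742249) (nat_lit 76) (nat_lit 7499636389) (nat_lit 131) (nat_lit 5) (nat_lit 136) (nat_lit 5) (nat_lit 132) (nat_lit 5) (nat_lit 619) (nat_lit 511) (nat_lit 430)) (XT.lf (nat_lit 0) (nat_lit 4417646019) (nat_lit 304) (nat_lit 139930858) (nat_lit 380) (nat_lit 8100527965) (nat_lit 127) (nat_lit 5) (nat_lit 131) (nat_lit 5) (nat_lit 132) (nat_lit 5) (nat_lit 620) (nat_lit 511) (nat_lit 429))))))) (XT.nd (nat_lit 1170) (nat_lit 1900) (nat_lit 0) (XT.nd (nat_lit 546) (nat_lit 1444) (nat_lit 0) (XT.nd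 (nat_lit 234) (nat_lit 912) (nat_lit 0) (XT.nd (nat_lit 78) (nat_lit 380) (nat_lit 0) (XT.lf (nat_lit 0) (nat_lit 802572800) (nat_lit 304) (nat_lit 8013622929) (nat_lit 380) (nat_lit 3985300926) (nat_lit 123) (nat_lit 5) (nat_lit 127) (nat_lit 5) (nat_lit 128) (nat_lit 5) (nat_lit 621) (nat_lit 511) (nat_lit 428)) (XT.nd (nat_lit 78) (nat_lit 304) (nat_lit 0) (XT.lf (nat_lit 0) (nat_lit 235129620) (nat_lit 380) (nat_lit 2862671353) (nat_lit 76) (nat_lit 9849414523) (nat_lit 122) (nat_lit 5) (nat_lit 127) (nat_lit 5) (nat_lit 123) (nat_lit 5) (nat_lit 622) (nat_lit 511) (nat_lit 427)) (XT.lf (nat_lit 0) (nat_lit 4511086683) (nat_lit 380) (nat_lit 6643665813) (nat_lit 76) (nat_lit 1940080127) (nat_lit 118) (nat_lit 5) (nat_lit 123) (nat_lit 5) (nat_lit 119) (nat_lit 5) (nat_lit 623) (nat_lit 511) (nat_lit 426)))) (XT.nd (nat_lit 156) (nat_lit 608) (nat_lit 0) (XT.nd (nat_lit 78) (nat_lit 0) (nat_lit 0) (XT.lf (nat_lit 0) (nat_lit 2709314114) (nat_lit 304)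 (nat_lit 6190527292) (nat_lit 380) (nat_lit 4345015498) (nat_lit 114) (nat_lit 5) (nat_lit 118) (nat_lit 5) (nat_lit 119) (nat_lit 5) (nat_lit 624) (nat_lit 511) (nat_lit 425)) (XT.lf (nat_lit 0) (nat_lit 12289098788) (nat_lit 304) (nat_lit 1101955104) (nat_lit 380) (nat_lit 6534499) (nat_lit 114) (nat_lit 5) (nat_lit 118) (nat_lit 5) (nat_lit 119) (nat_lit 5) (nat_lit 625) (nat_lit 511) (nat_lit 424))) (XT.nd (nat_lit 78) (nat_lit 304) (nat_lit 0) (XT.lf (nat_lit 0) (nat_lit 4413678321) (nat_lit 304) (nat_lit 5038541874) (nat_lit 76) (nat_lit 4099522598) (nat_lit 110) (nat_lit 5) (nat_lit 114) (nat_lit 5) (nat_lit 111) (nat_lit 5) (nat_lit 626) (nat_lit 511) (nat_lit 423)) (XT.lf (nat_lit 0) (nat_lit 4637100769) (nat_lit 304) (nat_lit 4300618979) (nat_lit 380) (nat_lit 4770949787) (nat_lit 106) (nat_lit 5) (nat_lit 110) (nat_lit 5) (nat_lit 111) (nat_lit 5) (nat_lit 627) (nat_lit 511) (nat_lit 422))))) (XT.nd (nat_lit 312) (nat_lit 608) (nat_lit 0) (XT.nd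 (nat_lit 156) (nat_lit 532) (nat_lit 0) (XT.nd (nat_lit 78) (nat_lit 76) (nat_lit 0) (XT.lf (nat_lit 0) (nat_lit 658750510) (nat_lit 228) (nat_lit 12908739127) (nat_lit 304) (nat_lit 300940567) (nat_lit 103) (nat_lit 5) (nat_lit 106) (nat_lit 5) (nat_lit 107) (nat_lit 5) (nat_lit 628) (nat_lit 511) (nat_lit 421)) (XT.lf (nat_lit 0) (nat_lit 4263177608) (nat_lit 304) (nat_lit 3430084981) (nat_lit 76) (nat_lit 6336359665) (nat_lit 102) (nat_lit 5) (nat_lit 106) (nat_lit 5) (nat_lit 103) (nat_lit 5) (nat_lit 629) (nat_lit 511) (nat_lit 420))) (XT.nd (nat_lit 78) (nat_lit 228) (nat_lit 0) (XT.lf (nat_lit 0) (nat_lit 6580365039) (nat_lit 304) (nat_lit 2348284206) (nat_lit 380) (nat_lit 5265067429) (nat_lit 98) (nat_lit 5) (nat_lit 102) (nat_lit 5) (nat_lit 103) (nat_lit 5) (nat_lit 630) (nat_lit 511) (nat_lit 419)) (XT.lf (nat_lit 0) (nat_lit 2439418025) (nat_lit 228) (nat_lit 11278657043) (nat_lit 304) (nat_lit 642405337) (nat_lit 95) (nat_lit 5) (nat_lit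 98) (nat_lit 5) (nat_lit 99) (nat_lit 5) (nat_lit 631) (nat_lit 511) (nat_lit 418)))) (XT.nd (nat_lit 156) (nat_lit 304) (nat_lit 0) (XT.nd (nat_lit 78) (nat_lit 228) (nat_lit 0) (XT.lf (nat_lit 0) (nat_lit 4057815378) (nat_lit 304) (nat_lit 1824660782) (nat_lit 76) (nat_lit 8646804310) (nat_lit 94) (nat_lit 5) (nat_lit 98) (nat_lit 5) (nat_lit 95) (nat_lit 5) (nat_lit 632) (nat_lit 511) (nat_lit 417)) (XT.lf (nat_lit 0) (nat_lit 8533077752) (nat_lit 228) (nat_lit 337869642) (nat_lit 304) (nat_lit 5829874341) (nat_lit 91) (nat_lit 5) (nat_lit 94) (nat_lit 5) (nat_lit 95) (nat_lit 5) (nat_lit 633) (nat_lit 511) (nat_lit 416))) (XT.nd (nat_lit 78) (nat_lit 76) (nat_lit 0) (XT.lf (nat_lit 0) (nat_lit 4219534968) (nat_lit 228) (nat_lit 9607256758) (nat_lit 304) (nat_lit 1048073402) (nat_lit 88) (nat_lit 5) (nat_lit 91) (nat_lit 5) (nat_lit 92) (nat_lit 5) (nat_lit 634) (nat_lit 511) (nat_lit 415)) (XT.lf (nat_lit 0) (nat_lit 3795294108) (nat_lit 304) (nat_lit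 229176246) (nat_lit 76) (nat_lit 11027098996) (nat_lit 87) (nat_lit 5) (nat_lit 91) (nat_lit 5) (nat_lit 88) (nat_lit 5) (nat_lit 635) (nat_lit 511) (nat_lit 414)))))) (XT.nd (nat_lit 624) (nat_lit 456) (nat_lit 0) (XT.nd (nat_lit 312) (nat_lit 684) (nat_lit 0) (XT.nd (nat_lit 156) (nat_lit 304) (nat_lit 0) (XT.nd (nat_lit 78) (nat_lit 228) (nat_lit 0) (XT.lf (nat_lit 0) (nat_lit 8773612730) (nat_lit 304) (nat_lit 4753394621) (nat_lit 76) (nat_lit 1703619679) (nat_lit 84) (nat_lit 5) (nat_lit 88) (nat_lit 5) (nat_lit 85) (nat_lit 5) (nat_lit 636) (nat_lit 511) (nat_lit 413)) (XT.lf (nat_lit 0) (nat_lit 5992012062) (nat_lit 228) (nat_lit 7899483290) (nat_lit 304) (nat_lit 1520970829) (nat_lit 81) (nat_lit 5) (nat_lit 84) (nat_lit 5) (nat_lit 85) (nat_lit 5) (nat_lit 637) (nat_lit 511) (nat_lit 412))) (XT.nd (nat_lit 78) (nat_lit 0) (nat_lit 0) (XT.lf (nat_lit 0) (nat_lit 1366756714) (nat_lit 228) (nat_lit 2114875491) (nat_lit 304) (nat_lit 12115575442)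 (nat_lit 77) (nat_lit 5) (nat_lit 80) (nat_lit 5) (nat_lit 81) (nat_lit 5) (nat_lit 638) (nat_lit 511) (nat_lit 411)) (XT.lf (nat_lit 0) (nat_lit 8625183500) (nat_lit 304) (nat_lit 3369730622) (nat_lit 76) (nat_lit 3789303763) (nat_lit 77) (nat_lit 5) (nat_lit 81) (nat_lit 5) (nat_lit 78) (nat_lit 5) (nat_lit 639) (nat_lit 511) (nat_lit 410)))) (XT.nd (nat_lit 156) (nat_lit 152) (nat_lit 0) (XT.nd (nat_lit 78) (nat_lit 304) (nat_lit 0) (XT.lf (nat_lit 0) (nat_lit 7749073183) (nat_lit 228) (nat_lit 6160409988) (nat_lit 304) (nat_lit 2064727864) (nat_lit 74) (nat_lit 5) (nat_lit 77) (nat_lit 5) (nat_lit 78) (nat_lit 5) (nat_lit 640) (nat_lit 511) (nat_lit 409)) (XT.lf (nat_lit 0) (nat_lit 2939652578) (nat_lit 228) (nat_lit 166193469) (nat_lit 304) (nat_lit 13061442589) (nat_lit 70) (nat_lit 5) (nat_lit 73) (nat_lit 5) (nat_lit 74) (nat_lit 5) (nat_lit 641) (nat_lit 511) (nat_lit 408))) (XT.nd (nat_lit 78) (nat_lit 152) (nat_lit 0) (XT.lf (nat_lit 0) (nat_lit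 8420075147) (nat_lit 304) (nat_lit 2023431325) (nat_lit 76) (nat_lit 5919090790) (nat_lit 70) (nat_lit 5) (nat_lit 74) (nat_lit 5) (nat_lit 71) (nat_lit 5) (nat_lit 642) (nat_lit 511) (nat_lit 407)) (XT.lf (nat_lit 0) (nat_lit 9482153128) (nat_lit 152) (nat_lit 4395302978) (nat_lit 228) (nat_lit 2683618841) (nat_lit 68) (nat_lit 5) (nat_lit 70) (nat_lit 5) (nat_lit 71) (nat_lit 5) (nat_lit 643) (nat_lit 511) (nat_lit 406))))) (XT.nd (nat_lit 72852) (nat_lit 0) (nat_lit 50008) (XT.nd (nat_lit 156) (nat_lit 152) (nat_lit 0) (XT.nd (nat_lit 78) (nat_lit 0) (nat_lit 0) (XT.lf (nat_lit 0) (nat_lit 2674071096) (nat_lit 304) (nat_lit 12297369270) (nat_lit 76) (nat_lit 1791158710) (nat_lit 64) (nat_lit 5) (nat_lit 68) (nat_lit 5) (nat_lit 65) (nat_lit 5) (nat_lit 644) (nat_lit 511) (nat_lit 405)) (XT.lf (nat_lit 0) (nat_lit 8154260036) (nat_lit 304) (nat_lit 724259133) (nat_lit 76) (nat_lit 8088254385) (nat_lit 64) (nat_lit 5) (nat_lit 68) (nat_lit 5) (nat_lit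 65) (nat_lit 5) (nat_lit 645) (nat_lit 511) (nat_lit 404))) (XT.nd (nat_lit 72618) (nat_lit 0) (nat_lit 52440) (XT.lf (nat_lit 0) (nat_lit 11181786149) (nat_lit 152) (nat_lit 2609689140) (nat_lit 228) (nat_lit 3382607997) (nat_lit 62) (nat_lit 5) (nat_lit 64) (nat_lit 5) (nat_lit 65) (nat_lit 5) (nat_lit 646) (nat_lit 511) (nat_lit 403)) (XT.lf (nat_lit 0) (nat_lit 1496992912) (nat_lit 684) (nat_lit 287905164) (nat_lit 0) (nat_lit 1496992912) (nat_lit 752) (nat_lit 5) (nat_lit 761) (nat_lit 4) (nat_lit 752) (nat_lit 4) (nat_lit 536) (nat_lit 512) (nat_lit 512)))) (XT.nd (nat_lit 156) (nat_lit 912) (nat_lit 0) (XT.nd (nat_lit 78) (nat_lit 836) (nat_lit 0) (XT.lf (nat_lit 0) (nat_lit 3492789938) (nat_lit 684) (nat_lit 2784743677) (nat_lit 684) (nat_lit 302101953) (nat_lit 743) (nat_lit 4) (nat_lit 752) (nat_lit 5) (nat_lit 752) (nat_lit 4) (nat_lit 537) (nat_lit 512) (nat_lit 511)) (XT.lf (nat_lit 0) (nat_lit 993900270) (nat_lit 760) (nat_lit 1932092040)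 (nat_lit 836) (nat_lit 3670728256) (nat_lit 732) (nat_lit 5) (nat_lit 742) (nat_lit 5) (nat_lit 743) (nat_lit 4) (nat_lit 538) (nat_lit 512) (nat_lit 510))) (XT.nd (nat_lit 78) (nat_lit 912) (nat_lit 0) (XT.lf (nat_lit 0) (nat_lit 5142164936) (nat_lit 760) (nat_lit 1018729546) (nat_lit 836) (nat_lit 454290814) (nat_lit 732) (nat_lit 5) (nat_lit 742) (nat_lit 5) (nat_lit 743) (nat_lit 4) (nat_lit 539) (nat_lit 512) (nat_lit 509)) (XT.lf (nat_lit 0) (nat_lit 2702635326) (nat_lit 836) (nat_lit 30876088) (nat_lit 912) (nat_lit 3901262409) (nat_lit 720) (nat_lit 5) (nat_lit 731) (nat_lit 5) (nat_lit 732) (nat_lit 5) (nat_lit 540) (nat_lit 512) (nat_lit 508))))))))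
noncomputable def xc52 : XT := (XT.nd (nat_lit 2418) (nat_lit 13680) (nat_lit 0) (XT.nd (nat_lit 1170) (nat_lit 12844) (nat_lit 0) (XT.nd (nat_lit 546) (nat_lit 8740) (nat_lit 0) (XT.nd (nat_lit 234) (nat_lit 2356) (nat_lit 0) (XT.nd (nat_lit 78) (nat_lit 1064) (nat_lit 0) (XT.lf (nat_lit 0) (nat_lit 266237692) (nat_lit 912) (nat_lit 5658548908) (nat_lit 988) (nat_lit 730995039) (nat_lit 708) (nat_lit 5) (nat_lit 720) (nat_lit 5) (nat_lit 721) (nat_lit 4) (nat_lit 541) (nat_lit 512) (nat_lit 507)) (XT.nd (nat_lit 78) (nat_lit 988) (nat_lit 0) (XT.lf (nat_lit 0) (nat_lit 2424980691) (nat_lit 988) (nat_lit 2147074187) (nat_lit 76) (nat_lit 2105730664) (nat_lit 707) (nat_lit 5) (nat_lit 720) (nat_lit 5) (nat_lit 708) (nat_lit 5) (nat_lit 542) (nat_lit 512) (nat_lit 506)) (XT.lf (nat_lit 0) (nat_lit 2149033388) (nat_lit 988) (nat_lit 3428981463) (nat_lit 1064) (nat_lit 1123246863) (nat_lit 694) (nat_lit 5) (nat_lit 707) (nat_lit 5) (nat_lit 708) (nat_lit 5)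 (nat_lit 543) (nat_lit 512) (nat_lit 505)))) (XT.nd (nat_lit 156) (nat_lit 1216) (nat_lit 0) (XT.nd (nat_lit 78) (nat_lit 1064) (nat_lit 0) (XT.lf (nat_lit 0) (nat_lit 1986600193) (nat_lit 1064) (nat_lit 233405810) (nat_lit 76) (nat_lit 4506039353) (nat_lit 693) (nat_lit 5) (nat_lit 707) (nat_lit 5) (nat_lit 694) (nat_lit 5) (nat_lit 544) (nat_lit 512) (nat_lit 504)) (XT.lf (nat_lit 0) (nat_lit 4164933456) (nat_lit 1064) (nat_lit 937420654) (nat_lit 1140) (nat_lit 1649650233) (nat_lit 679) (nat_lit 5) (nat_lit 693) (nat_lit 5) (nat_lit 694) (nat_lit 5) (nat_lit 545) (nat_lit 512) (nat_lit 503))) (XT.nd (nat_lit 78) (nat_lit 0) (nat_lit 0) (XT.lf (nat_lit 0) (nat_lit 1430620974) (nat_lit 1216) (nat_lit 4946350407) (nat_lit 76) (nat_lit 402351577) (nat_lit 663) (nat_lit 5) (nat_lit 679) (nat_lit 5) (nat_lit 664) (nat_lit 5) (nat_lit 546) (nat_lit 512) (nat_lit 502)) (XT.lf (nat_lit 0) (nat_lit 4507407678) (nat_lit 1216) (nat_lit 503257268) (nat_lit 76) (nat_lit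 1797167928) (nat_lit 663) (nat_lit 5) (nat_lit 679) (nat_lit 5) (nat_lit 664) (nat_lit 5) (nat_lit 547) (nat_lit 512) (nat_lit 501))))) (XT.nd (nat_lit 312) (nat_lit 4712) (nat_lit 0) (XT.nd (nat_lit 156) (nat_lit 1444) (nat_lit 0) (XT.nd (nat_lit 78) (nat_lit 1292) (nat_lit 0) (XT.lf (nat_lit 0) (nat_lit 758694658) (nat_lit 1292) (nat_lit 2815743150) (nat_lit 76) (nat_lit 3263163319) (nat_lit 646) (nat_lit 5) (nat_lit 663) (nat_lit 5) (nat_lit 647) (nat_lit 5) (nat_lit 548) (nat_lit 512) (nat_lit 500)) (XT.lf (nat_lit 0) (nat_lit 1728746992) (nat_lit 1292) (nat_lit 2069202811) (nat_lit 1368) (nat_lit 3070718532) (nat_lit 629) (nat_lit 5) (nat_lit 646) (nat_lit 5) (nat_lit 647) (nat_lit 5) (nat_lit 549) (nat_lit 512) (nat_lit 499))) (XT.nd (nat_lit 78) (nat_lit 1444) (nat_lit 0) (XT.lf (nat_lit 0) (nat_lit 6347588396) (nat_lit 1292) (nat_lit 505317201) (nat_lit 1368) (nat_lit 48355740) (nat_lit 629) (nat_lit 5) (nat_lit 646) (nat_lit 5) (nat_lit 647) (nat_lit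 5) (nat_lit 550) (nat_lit 512) (nat_lit 498)) (XT.lf (nat_lit 0) (nat_lit 2965598511) (nat_lit 1444) (nat_lit 2838337045) (nat_lit 76) (nat_lit 1130760434) (nat_lit 610) (nat_lit 5) (nat_lit 629) (nat_lit 5) (nat_lit 611) (nat_lit 5) (nat_lit 551) (nat_lit 512) (nat_lit 497)))) (XT.nd (nat_lit 156) (nat_lit 3192) (nat_lit 0) (XT.nd (nat_lit 78) (nat_lit 76) (nat_lit 0) (XT.lf (nat_lit 0) (nat_lit 1843236719) (nat_lit 1444) (nat_lit 4152798719) (nat_lit 1520) (nat_lit 973623086) (nat_lit 591) (nat_lit 5) (nat_lit 610) (nat_lit 5) (nat_lit 611) (nat_lit 5) (nat_lit 552) (nat_lit 512) (nat_lit 496)) (XT.lf (nat_lit 0) (nat_lit 2011880921) (nat_lit 1520) (nat_lit 417541831) (nat_lit 76) (nat_lit 4576481279) (nat_lit 590) (nat_lit 5) (nat_lit 610) (nat_lit 5) (nat_lit 591) (nat_lit 5) (nat_lit 553) (nat_lit 512) (nat_lit 495))) (XT.nd (nat_lit 78) (nat_lit 1672) (nat_lit 0) (XT.lf (nat_lit 0) (nat_lit 4381754511) (nat_lit 1520) (nat_lit 630225834) (nat_lit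 1596) (nat_lit 2031409400) (nat_lit 570) (nat_lit 5) (nat_lit 590) (nat_lit 5) (nat_lit 591) (nat_lit 5) (nat_lit 554) (nat_lit 512) (nat_lit 494)) (XT.lf (nat_lit 0) (nat_lit 942268608) (nat_lit 1672) (nat_lit 4922483673) (nat_lit 76) (nat_lit 1217450595) (nat_lit 548) (nat_lit 5) (nat_lit 570) (nat_lit 5) (nat_lit 549) (nat_lit 5) (nat_lit 555) (nat_lit 512) (nat_lit 493)))))) (XT.nd (nat_lit 624) (nat_lit 5320) (nat_lit 0) (XT.nd (nat_lit 312) (nat_lit 2204) (nat_lit 0) (XT.nd (nat_lit 156) (nat_lit 3648) (nat_lit 0) (XT.nd (nat_lit 78) (nat_lit 1672) (nat_lit 0) (XT.lf (nat_lit 0) (nat_lit 3911145650) (nat_lit 1672) (nat_lit 81675101) (nat_lit 76) (nat_lit 3129446757) (nat_lit 548) (nat_lit 5) (nat_lit 570) (nat_lit 5) (nat_lit 549) (nat_lit 5) (nat_lit 556) (nat_lit 512) (nat_lit 492)) (XT.lf (nat_lit 0) (nat_lit 4864776630) (nat_lit 1672) (nat_lit 2048118449) (nat_lit 1748) (nat_lit 250770722) (nat_lit 526) (nat_lit 5) (nat_lit 548) (nat_lit 5) (nat_lit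 549) (nat_lit 5) (nat_lit 557) (nat_lit 512) (nat_lit 491))) (XT.nd (nat_lit 78) (nat_lit 1824) (nat_lit 0) (XT.lf (nat_lit 0) (nat_lit 2666998586) (nat_lit 1748) (nat_lit 25655568) (nat_lit 1824) (nat_lit 4513676952) (nat_lit 502) (nat_lit 5) (nat_lit 525) (nat_lit 5) (nat_lit 526) (nat_lit 5) (nat_lit 558) (nat_lit 512) (nat_lit 490)) (XT.lf (nat_lit 0) (nat_lit 448546688) (nat_lit 1824) (nat_lit 5217813018) (nat_lit 1900) (nat_lit 1583963594) (nat_lit 478) (nat_lit 5) (nat_lit 502) (nat_lit 5) (nat_lit 503) (nat_lit 5) (nat_lit 559) (nat_lit 512) (nat_lit 489)))) (XT.nd (nat_lit 156) (nat_lit 988) (nat_lit 0) (XT.nd (nat_lit 78) (nat_lit 1140) (nat_lit 0) (XT.lf (nat_lit 0) (nat_lit 1360236714) (nat_lit 1900) (nat_lit 1762914936) (nat_lit 76) (nat_lit 4172377162) (nat_lit 477) (nat_lit 5) (nat_lit 502) (nat_lit 5) (nat_lit 478) (nat_lit 5) (nat_lit 560) (nat_lit 512) (nat_lit 488)) (XT.lf (nat_lit 0) (nat_lit 3354787112) (nat_lit 1140) (nat_lit 953712211)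 (nat_lit 1216) (nat_lit 3033603973) (nat_lit 462) (nat_lit 5) (nat_lit 477) (nat_lit 5) (nat_lit 478) (nat_lit 5) (nat_lit 561) (nat_lit 512) (nat_lit 487))) (XT.nd (nat_lit 78) (nat_lit 76) (nat_lit 0) (XT.lf (nat_lit 0) (nat_lit 1160155601) (nat_lit 912) (nat_lit 6128500121) (nat_lit 988) (nat_lit 101496949) (nat_lit 450) (nat_lit 5) (nat_lit 462) (nat_lit 5) (nat_lit 463) (nat_lit 5) (nat_lit 562) (nat_lit 512) (nat_lit 486)) (XT.lf (nat_lit 0) (nat_lit 2830272512) (nat_lit 988) (nat_lit 1055782501) (nat_lit 76) (nat_lit 3553156472) (nat_lit 449) (nat_lit 5) (nat_lit 462) (nat_lit 5) (nat_lit 450) (nat_lit 5) (nat_lit 563) (nat_lit 512) (nat_lit 485))))) (XT.nd (nat_lit 312) (nat_lit 2584) (nat_lit 0) (XT.nd (nat_lit 156) (nat_lit 912) (nat_lit 0) (XT.nd (nat_lit 78) (nat_lit 912) (nat_lit 0) (XT.lf (nat_lit 0) (nat_lit 4221185772) (nat_lit 912) (nat_lit 1572269179) (nat_lit 988) (nat_lit 1696302231) (nat_lit 437) (nat_lit 5) (nat_lit 449) (nat_lit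 5) (nat_lit 450) (nat_lit 5) (nat_lit 564) (nat_lit 512) (nat_lit 484)) (XT.lf (nat_lit 0) (nat_lit 1230596269) (nat_lit 912) (nat_lit 5507589498) (nat_lit 76) (nat_lit 803509795) (nat_lit 425) (nat_lit 5) (nat_lit 437) (nat_lit 5) (nat_lit 426) (nat_lit 5) (nat_lit 565) (nat_lit 512) (nat_lit 483))) (XT.nd (nat_lit 78) (nat_lit 912) (nat_lit 0) (XT.lf (nat_lit 0) (nat_lit 4173555523) (nat_lit 912) (nat_lit 185302360) (nat_lit 76) (nat_lit 3235987601) (nat_lit 425) (nat_lit 5) (nat_lit 437) (nat_lit 5) (nat_lit 426) (nat_lit 5) (nat_lit 566) (nat_lit 512) (nat_lit 482)) (XT.lf (nat_lit 0) (nat_lit 5257063801) (nat_lit 912) (nat_lit 1901191102) (nat_lit 988) (nat_lit 491147601) (nat_lit 413) (nat_lit 5) (nat_lit 425) (nat_lit 5) (nat_lit 426) (nat_lit 5) (nat_lit 567) (nat_lit 512) (nat_lit 481)))) (XT.nd (nat_lit 156) (nat_lit 836) (nat_lit 0) (XT.nd (nat_lit 78) (nat_lit 836) (nat_lit 0) (XT.lf (nat_lit 0) (nat_lit 2439262351) (nat_lit 912) (nat_lit 4635242807)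 (nat_lit 76) (nat_lit 630734412) (nat_lit 401) (nat_lit 5) (nat_lit 413) (nat_lit 5) (nat_lit 402) (nat_lit 5) (nat_lit 568) (nat_lit 512) (nat_lit 480)) (XT.lf (nat_lit 0) (nat_lit 851110080) (nat_lit 836) (nat_lit 4554544683) (nat_lit 912) (nat_lit 2356796287) (nat_lit 390) (nat_lit 5) (nat_lit 401) (nat_lit 5) (nat_lit 402) (nat_lit 5) (nat_lit 569) (nat_lit 512) (nat_lit 479))) (XT.nd (nat_lit 78) (nat_lit 760) (nat_lit 0) (XT.lf (nat_lit 0) (nat_lit 583832646) (nat_lit 912) (nat_lit 1370867648) (nat_lit 76) (nat_lit 5866403296) (nat_lit 389) (nat_lit 5) (nat_lit 401) (nat_lit 5) (nat_lit 390) (nat_lit 5) (nat_lit 570) (nat_lit 512) (nat_lit 478)) (XT.lf (nat_lit 0) (nat_lit 3535153506) (nat_lit 836) (nat_lit 3620496090) (nat_lit 76) (nat_lit 725300803) (nat_lit 379) (nat_lit 5) (nat_lit 390) (nat_lit 5) (nat_lit 380) (nat_lit 5) (nat_lit 571) (nat_lit 512) (nat_lit 477))))))) (XT.nd (nat_lit 1170) (nat_lit 5852) (nat_lit 0) (XT.nd (nat_lit 546) (nat_lit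 3952) (nat_lit 0) (XT.nd (nat_lit 234) (nat_lit 2280) (nat_lit 0) (XT.nd (nat_lit 78) (nat_lit 836) (nat_lit 0) (XT.lf (nat_lit 0) (nat_lit 2038920648) (nat_lit 760) (nat_lit 4493527212) (nat_lit 836) (nat_lit 1409808839) (nat_lit 369) (nat_lit 5) (nat_lit 379) (nat_lit 5) (nat_lit 380) (nat_lit 5) (nat_lit 572) (nat_lit 512) (nat_lit 476)) (XT.nd (nat_lit 78) (nat_lit 760) (nat_lit 0) (XT.lf (nat_lit 0) (nat_lit 1540343993) (nat_lit 836) (nat_lit 210415026) (nat_lit 76) (nat_lit 6254301114) (nat_lit 368) (nat_lit 5) (nat_lit 379) (nat_lit 5) (nat_lit 369) (nat_lit 5) (nat_lit 573) (nat_lit 512) (nat_lit 475)) (XT.lf (nat_lit 0) (nat_lit 4526803192) (nat_lit 836) (nat_lit 2470817095) (nat_lit 76) (nat_lit 1071390766) (nat_lit 358) (nat_lit 5) (nat_lit 369) (nat_lit 5) (nat_lit 359) (nat_lit 5) (nat_lit 574) (nat_lit 512) (nat_lit 474)))) (XT.nd (nat_lit 156) (nat_lit 760) (nat_lit 0) (XT.nd (nat_lit 78) (nat_lit 760) (nat_lit 0) (XT.lf (nat_lit 0) (nat_lit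 3368509295) (nat_lit 760) (nat_lit 4192607915) (nat_lit 836) (nat_lit 573362651) (nat_lit 348) (nat_lit 5) (nat_lit 358) (nat_lit 5) (nat_lit 359) (nat_lit 5) (nat_lit 575) (nat_lit 512) (nat_lit 473)) (XT.lf (nat_lit 0) (nat_lit 1099628562) (nat_lit 684) (nat_lit 1300354472) (nat_lit 760) (nat_lit 5801411178) (nat_lit 338) (nat_lit 5) (nat_lit 347) (nat_lit 5) (nat_lit 348) (nat_lit 5) (nat_lit 576) (nat_lit 512) (nat_lit 472))) (XT.nd (nat_lit 78) (nat_lit 760) (nat_lit 0) (XT.lf (nat_lit 0) (nat_lit 5422009212) (nat_lit 760) (nat_lit 1193007054) (nat_lit 76) (nat_lit 1654618268) (nat_lit 338) (nat_lit 5) (nat_lit 348) (nat_lit 5) (nat_lit 339) (nat_lit 5) (nat_lit 577) (nat_lit 512) (nat_lit 471)) (XT.lf (nat_lit 0) (nat_lit 157908028) (nat_lit 760) (nat_lit 3506993497) (nat_lit 76) (nat_lit 4674421154) (nat_lit 328) (nat_lit 5) (nat_lit 338) (nat_lit 5) (nat_lit 329) (nat_lit 5) (nat_lit 578) (nat_lit 512) (nat_lit 470))))) (XT.nd (nat_lit 312) (nat_lit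 1900) (nat_lit 0) (XT.nd (nat_lit 156) (nat_lit 684) (nat_lit 0) (XT.nd (nat_lit 78) (nat_lit 684) (nat_lit 0) (XT.lf (nat_lit 0) (nat_lit 2542988622) (nat_lit 684) (nat_lit 622151113) (nat_lit 760) (nat_lit 5245295275) (nat_lit 319) (nat_lit 5) (nat_lit 328) (nat_lit 5) (nat_lit 329) (nat_lit 5) (nat_lit 579) (nat_lit 512) (nat_lit 469)) (XT.lf (nat_lit 0) (nat_lit 209486373) (nat_lit 684) (nat_lit 6019754562) (nat_lit 760) (nat_lit 2253795358) (nat_lit 310) (nat_lit 5) (nat_lit 319) (nat_lit 5) (nat_lit 320) (nat_lit 5) (nat_lit 580) (nat_lit 512) (nat_lit 468))) (XT.nd (nat_lit 78) (nat_lit 608) (nat_lit 0) (XT.lf (nat_lit 0) (nat_lit 786611234) (nat_lit 760) (nat_lit 2134592655) (nat_lit 76) (nat_lit 5635792576) (nat_lit 309) (nat_lit 5) (nat_lit 319) (nat_lit 5) (nat_lit 310) (nat_lit 5) (nat_lit 581) (nat_lit 512) (nat_lit 467)) (XT.lf (nat_lit 0) (nat_lit 3842769166) (nat_lit 684) (nat_lit 4523211600) (nat_lit 76) (nat_lit 266455825) (nat_lit 301)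 (nat_lit 5) (nat_lit 310) (nat_lit 5) (nat_lit 302) (nat_lit 5) (nat_lit 582) (nat_lit 512) (nat_lit 466)))) (XT.nd (nat_lit 156) (nat_lit 1216) (nat_lit 0) (XT.nd (nat_lit 78) (nat_lit 76) (nat_lit 0) (XT.lf (nat_lit 0) (nat_lit 1745669196) (nat_lit 608) (nat_lit 5216546035) (nat_lit 684) (nat_lit 1747128099) (nat_lit 293) (nat_lit 5) (nat_lit 301) (nat_lit 5) (nat_lit 302) (nat_lit 5) (nat_lit 583) (nat_lit 512) (nat_lit 465)) (XT.lf (nat_lit 0) (nat_lit 1326296053) (nat_lit 684) (nat_lit 650690450) (nat_lit 76) (nat_lit 6810870222) (nat_lit 292) (nat_lit 5) (nat_lit 301) (nat_lit 5) (nat_lit 293) (nat_lit 5) (nat_lit 584) (nat_lit 512) (nat_lit 464))) (XT.nd (nat_lit 78) (nat_lit 608) (nat_lit 0) (XT.lf (nat_lit 0) (nat_lit 4442430095) (nat_lit 684) (nat_lit 3078277389) (nat_lit 76) (nat_lit 1346910269) (nat_lit 284) (nat_lit 5) (nat_lit 293) (nat_lit 5) (nat_lit 285) (nat_lit 5) (nat_lit 585) (nat_lit 512) (nat_lit 463)) (XT.lf (nat_lit 0) (nat_lit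 3394465961) (nat_lit 608) (nat_lit 4224438848) (nat_lit 684) (nat_lit 1330109861) (nat_lit 276) (nat_lit 5) (nat_lit 284) (nat_lit 5) (nat_lit 285) (nat_lit 5) (nat_lit 586) (nat_lit 512) (nat_lit 462)))))) (XT.nd (nat_lit 624) (nat_lit 2432) (nat_lit 0) (XT.nd (nat_lit 312) (nat_lit 1596) (nat_lit 0) (XT.nd (nat_lit 156) (nat_lit 1216) (nat_lit 0) (XT.nd (nat_lit 78) (nat_lit 0) (nat_lit 0) (XT.lf (nat_lit 0) (nat_lit 952027622) (nat_lit 532) (nat_lit 836533924) (nat_lit 608) (nat_lit 7243528705) (nat_lit 268) (nat_lit 5) (nat_lit 275) (nat_lit 5) (nat_lit 276) (nat_lit 5) (nat_lit 587) (nat_lit 512) (nat_lit 461)) (XT.lf (nat_lit 0) (nat_lit 4965378905) (nat_lit 608) (nat_lit 1533702827) (nat_lit 76) (nat_lit 2617299085) (nat_lit 268) (nat_lit 5) (nat_lit 276) (nat_lit 5) (nat_lit 269) (nat_lit 5) (nat_lit 588) (nat_lit 512) (nat_lit 460))) (XT.nd (nat_lit 78) (nat_lit 608) (nat_lit 0) (XT.lf (nat_lit 0) (nat_lit 5151102665) (nat_lit 608) (nat_lit 3053457543)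 (nat_lit 684) (nat_lit 997821381) (nat_lit 260) (nat_lit 5) (nat_lit 268) (nat_lit 5) (nat_lit 269) (nat_lit 5) (nat_lit 589) (nat_lit 512) (nat_lit 459)) (XT.lf (nat_lit 0) (nat_lit 2180191464) (nat_lit 608) (nat_lit 6626916180) (nat_lit 76) (nat_lit 482890300) (nat_lit 252) (nat_lit 5) (nat_lit 260) (nat_lit 5) (nat_lit 253) (nat_lit 5) (nat_lit 590) (nat_lit 512) (nat_lit 458)))) (XT.nd (nat_lit 156) (nat_lit 1064) (nat_lit 0) (XT.nd (nat_lit 78) (nat_lit 0) (nat_lit 0) (XT.lf (nat_lit 0) (nat_lit 107209924) (nat_lit 532) (nat_lit 5309840923) (nat_lit 608) (nat_lit 3962011819) (nat_lit 245) (nat_lit 5) (nat_lit 252) (nat_lit 5) (nat_lit 253) (nat_lit 5) (nat_lit 591) (nat_lit 512) (nat_lit 457)) (XT.lf (nat_lit 0) (nat_lit 7011200679) (nat_lit 532) (nat_lit 1712690174) (nat_lit 608) (nat_lit 745913835) (nat_lit 245) (nat_lit 5) (nat_lit 252) (nat_lit 5) (nat_lit 253) (nat_lit 5) (nat_lit 592) (nat_lit 512) (nat_lit 456))) (XT.nd (nat_lit 78) (nat_lit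 532) (nat_lit 0) (XT.lf (nat_lit 0) (nat_lit 2504537890) (nat_lit 532) (nat_lit 5096022877) (nat_lit 76) (nat_lit 1961407067) (nat_lit 238) (nat_lit 5) (nat_lit 245) (nat_lit 5) (nat_lit 239) (nat_lit 5) (nat_lit 593) (nat_lit 512) (nat_lit 455)) (XT.lf (nat_lit 0) (nat_lit 1860271967) (nat_lit 532) (nat_lit 3951373415) (nat_lit 608) (nat_lit 3844198386) (nat_lit 231) (nat_lit 5) (nat_lit 238) (nat_lit 5) (nat_lit 239) (nat_lit 5) (nat_lit 594) (nat_lit 512) (nat_lit 454))))) (XT.nd (nat_lit 312) (nat_lit 988) (nat_lit 0) (XT.nd (nat_lit 156) (nat_lit 912) (nat_lit 0) (XT.nd (nat_lit 78) (nat_lit 532) (nat_lit 0) (XT.lf (nat_lit 0) (nat_lit 8970726466) (nat_lit 532) (nat_lit 210364619) (nat_lit 608) (nat_lit 570583025) (nat_lit 231) (nat_lit 5) (nat_lit 238) (nat_lit 5) (nat_lit 239) (nat_lit 5) (nat_lit 595) (nat_lit 512) (nat_lit 453)) (XT.lf (nat_lit 0) (nat_lit 2759854707) (nat_lit 532) (nat_lit 3486414660) (nat_lit 76) (nat_lit 3602239778) (nat_lit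 224) (nat_lit 5) (nat_lit 231) (nat_lit 5) (nat_lit 225) (nat_lit 5) (nat_lit 596) (nat_lit 512) (nat_lit 452))) (XT.nd (nat_lit 78) (nat_lit 456) (nat_lit 0) (XT.lf (nat_lit 0) (nat_lit 3700968853) (nat_lit 456) (nat_lit 2441779997) (nat_lit 532) (nat_lit 3804587608) (nat_lit 218) (nat_lit 5) (nat_lit 224) (nat_lit 5) (nat_lit 225) (nat_lit 5) (nat_lit 597) (nat_lit 512) (nat_lit 451)) (XT.lf (nat_lit 0) (nat_lit 981009625) (nat_lit 456) (nat_lit 8614611187) (nat_lit 532) (nat_lit 452473855) (nat_lit 212) (nat_lit 5) (nat_lit 218) (nat_lit 5) (nat_lit 219) (nat_lit 5) (nat_lit 598) (nat_lit 512) (nat_lit 450)))) (XT.nd (nat_lit 156) (nat_lit 456) (nat_lit 0) (XT.nd (nat_lit 78) (nat_lit 456) (nat_lit 0) (XT.lf (nat_lit 0) (nat_lit 2949329517) (nat_lit 532) (nat_lit 1802315276) (nat_lit 76) (nat_lit 5398407612) (nat_lit 211) (nat_lit 5) (nat_lit 218) (nat_lit 5) (nat_lit 212) (nat_lit 5) (nat_lit 599) (nat_lit 512) (nat_lit 449)) (XT.lf (nat_lit 0) (nat_lit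 5625412911) (nat_lit 456) (nat_lit 788139919) (nat_lit 532) (nat_lit 3840428506) (nat_lit 205) (nat_lit 5) (nat_lit 211) (nat_lit 5) (nat_lit 212) (nat_lit 5) (nat_lit 600) (nat_lit 512) (nat_lit 448))) (XT.nd (nat_lit 78) (nat_lit 76) (nat_lit 0) (XT.lf (nat_lit 0) (nat_lit 2828895953) (nat_lit 380) (nat_lit 7134004772) (nat_lit 456) (nat_lit 396772010) (nat_lit 200) (nat_lit 5) (nat_lit 205) (nat_lit 5) (nat_lit 206) (nat_lit 5) (nat_lit 601) (nat_lit 512) (nat_lit 447)) (XT.lf (nat_lit 0) (nat_lit 3075669155) (nat_lit 456) (nat_lit 47758239) (nat_lit 76) (nat_lit 7343631134) (nat_lit 199) (nat_lit 5) (nat_lit 205) (nat_lit 5) (nat_lit 200) (nat_lit 5) (nat_lit 602) (nat_lit 512) (nat_lit 446))))))))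
noncomputable def xc53 : XT := (XT.nd (nat_lit 2418) (nat_lit 2204) (nat_lit 0) (XT.nd (nat_lit 1170) (nat_lit 3724) (nat_lit 0) (XT.nd (nat_lit 546) (nat_lit 1976) (nat_lit 0) (XT.nd (nat_lit 234) (nat_lit 1216) (nat_lit 0) (XT.nd (nat_lit 78) (nat_lit 836) (nat_lit 0) (XT.lf (nat_lit 0) (nat_lit 6633292941) (nat_lit 532) (nat_lit 2952850707) (nat_lit 76) (nat_lit 989975656) (nat_lit 193) (nat_lit 5) (nat_lit 200) (nat_lit 5) (nat_lit 194) (nat_lit 5) (nat_lit 603) (nat_lit 512) (nat_lit 445)) (XT.nd (nat_lit 78) (nat_lit 456) (nat_lit 0) (XT.lf (nat_lit 0) (nat_lit 4749933194) (nat_lit 380) (nat_lit 5529208370) (nat_lit 456) (nat_lit 407878922) (nat_lit 188) (nat_lit 5) (nat_lit 193) (nat_lit 5) (nat_lit 194) (nat_lit 5) (nat_lit 604) (nat_lit 512) (nat_lit 444)) (XT.lf (nat_lit 0) (nat_lit 1796930810) (nat_lit 380) (nat_lit 1355849128) (nat_lit 456) (nat_lit 7647006090) (nat_lit 182) (nat_lit 5) (nat_lit 187) (nat_lit 5) (nat_lit 188) (nat_lit 5) (nat_lit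 605) (nat_lit 512) (nat_lit 443)))) (XT.nd (nat_lit 156) (nat_lit 836) (nat_lit 0) (XT.nd (nat_lit 78) (nat_lit 380) (nat_lit 0) (XT.lf (nat_lit 0) (nat_lit 6803695348) (nat_lit 456) (nat_lit 1222723150) (nat_lit 76) (nat_lit 2887844965) (nat_lit 182) (nat_lit 5) (nat_lit 188) (nat_lit 5) (nat_lit 183) (nat_lit 5) (nat_lit 606) (nat_lit 512) (nat_lit 442)) (XT.lf (nat_lit 0) (nat_lit 6740453270) (nat_lit 380) (nat_lit 3806153589) (nat_lit 456) (nat_lit 484044623) (nat_lit 177) (nat_lit 5) (nat_lit 182) (nat_lit 5) (nat_lit 183) (nat_lit 5) (nat_lit 607) (nat_lit 512) (nat_lit 441))) (XT.nd (nat_lit 78) (nat_lit 380) (nat_lit 0) (XT.lf (nat_lit 0) (nat_lit 3174973482) (nat_lit 456) (nat_lit 7446594810) (nat_lit 76) (nat_lit 527339463) (nat_lit 171) (nat_lit 5) (nat_lit 177) (nat_lit 5) (nat_lit 172) (nat_lit 5) (nat_lit 608) (nat_lit 512) (nat_lit 440)) (XT.lf (nat_lit 0) (nat_lit 570462482) (nat_lit 380) (nat_lit 6354668902) (nat_lit 456) (nat_lit 4343845521)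 (nat_lit 166) (nat_lit 5) (nat_lit 171) (nat_lit 5) (nat_lit 172) (nat_lit 5) (nat_lit 609) (nat_lit 512) (nat_lit 439))))) (XT.nd (nat_lit 312) (nat_lit 1216) (nat_lit 0) (XT.nd (nat_lit 156) (nat_lit 304) (nat_lit 0) (XT.nd (nat_lit 78) (nat_lit 456) (nat_lit 0) (XT.lf (nat_lit 0) (nat_lit 8796853105) (nat_lit 380) (nat_lit 1970273067) (nat_lit 456) (nat_lit 623985135) (nat_lit 166) (nat_lit 5) (nat_lit 171) (nat_lit 5) (nat_lit 172) (nat_lit 5) (nat_lit 610) (nat_lit 512) (nat_lit 438)) (XT.lf (nat_lit 0) (nat_lit 3149336538) (nat_lit 456) (nat_lit 5857139424) (nat_lit 76) (nat_lit 2508388432) (nat_lit 160) (nat_lit 5) (nat_lit 166) (nat_lit 5) (nat_lit 161) (nat_lit 5) (nat_lit 611) (nat_lit 512) (nat_lit 437))) (XT.nd (nat_lit 78) (nat_lit 0) (nat_lit 0) (XT.lf (nat_lit 0) (nat_lit 2432218105) (nat_lit 304) (nat_lit 4571409227) (nat_lit 380) (nat_lit 4637106076) (nat_lit 156) (nat_lit 5) (nat_lit 160) (nat_lit 5) (nat_lit 161) (nat_lit 5) (nat_lit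 612) (nat_lit 512) (nat_lit 436)) (XT.lf (nat_lit 0) (nat_lit 10915542669) (nat_lit 304) (nat_lit 26556935) (nat_lit 380) (nat_lit 826878788) (nat_lit 156) (nat_lit 5) (nat_lit 160) (nat_lit 5) (nat_lit 161) (nat_lit 5) (nat_lit 613) (nat_lit 512) (nat_lit 435)))) (XT.nd (nat_lit 156) (nat_lit 456) (nat_lit 0) (XT.nd (nat_lit 78) (nat_lit 304) (nat_lit 0) (XT.lf (nat_lit 0) (nat_lit 3067894205) (nat_lit 456) (nat_lit 4230069984) (nat_lit 76) (nat_lit 4600457923) (nat_lit 150) (nat_lit 5) (nat_lit 156) (nat_lit 5) (nat_lit 151) (nat_lit 5) (nat_lit 614) (nat_lit 512) (nat_lit 434)) (XT.lf (nat_lit 0) (nat_lit 4342254843) (nat_lit 304) (nat_lit 2689767528) (nat_lit 380) (nat_lit 4998272863) (nat_lit 146) (nat_lit 5) (nat_lit 150) (nat_lit 5) (nat_lit 151) (nat_lit 5) (nat_lit 615) (nat_lit 512) (nat_lit 433))) (XT.nd (nat_lit 78) (nat_lit 76) (nat_lit 0) (XT.lf (nat_lit 0) (nat_lit 927067197) (nat_lit 380) (nat_lit 10164568565) (nat_lit 456) (nat_lit 1072846469)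 (nat_lit 141) (nat_lit 5) (nat_lit 146) (nat_lit 5) (nat_lit 147) (nat_lit 5) (nat_lit 616) (nat_lit 512) (nat_lit 432)) (XT.lf (nat_lit 0) (nat_lit 2931028601) (nat_lit 456) (nat_lit 2569875085) (nat_lit 76) (nat_lit 6799301478) (nat_lit 140) (nat_lit 5) (nat_lit 146) (nat_lit 5) (nat_lit 141) (nat_lit 5) (nat_lit 617) (nat_lit 512) (nat_lit 431)))))) (XT.nd (nat_lit 624) (nat_lit 1748) (nat_lit 0) (XT.nd (nat_lit 312) (nat_lit 988) (nat_lit 0) (XT.nd (nat_lit 156) (nat_lit 380) (nat_lit 0) (XT.nd (nat_lit 78) (nat_lit 304) (nat_lit 0) (XT.lf (nat_lit 0) (nat_lit 6296431689) (nat_lit 304) (nat_lit 714329494) (nat_lit 380) (nat_lit 5427537072) (nat_lit 136) (nat_lit 5) (nat_lit 140) (nat_lit 5) (nat_lit 141) (nat_lit 5) (nat_lit 618) (nat_lit 512) (nat_lit 430)) (XT.lf (nat_lit 0) (nat_lit 2754832997) (nat_lit 304) (nat_lit 8448968691) (nat_lit 380) (nat_lit 1374717685) (nat_lit 132) (nat_lit 5) (nat_lit 136) (nat_lit 5) (nat_lit 137) (nat_lit 5) (nat_lit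 619) (nat_lit 512) (nat_lit 429))) (XT.nd (nat_lit 78) (nat_lit 304) (nat_lit 0) (XT.lf (nat_lit 0) (nat_lit 2738671186) (nat_lit 380) (nat_lit 881206260) (nat_lit 76) (nat_lit 9100995594) (nat_lit 131) (nat_lit 5) (nat_lit 136) (nat_lit 5) (nat_lit 132) (nat_lit 5) (nat_lit 620) (nat_lit 512) (nat_lit 428)) (XT.lf (nat_lit 0) (nat_lit 6948613261) (nat_lit 380) (nat_lit 4583735780) (nat_lit 76) (nat_lit 1332889550) (nat_lit 127) (nat_lit 5) (nat_lit 132) (nat_lit 5) (nat_lit 128) (nat_lit 5) (nat_lit 621) (nat_lit 512) (nat_lit 427)))) (XT.nd (nat_lit 156) (nat_lit 304) (nat_lit 0) (XT.nd (nat_lit 78) (nat_lit 380) (nat_lit 0) (XT.lf (nat_lit 0) (nat_lit 4614094218) (nat_lit 304) (nat_lit 6658765723) (nat_lit 380) (nat_lit 1739029792) (nat_lit 123) (nat_lit 5) (nat_lit 127) (nat_lit 5) (nat_lit 128) (nat_lit 5) (nat_lit 622) (nat_lit 512) (nat_lit 426)) (XT.lf (nat_lit 0) (nat_lit 842104901) (nat_lit 304) (nat_lit 1653657112) (nat_lit 380) (nat_lit 10665250314)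 (nat_lit 118) (nat_lit 5) (nat_lit 122) (nat_lit 5) (nat_lit 123) (nat_lit 5) (nat_lit 623) (nat_lit 512) (nat_lit 425))) (XT.nd (nat_lit 78) (nat_lit 304) (nat_lit 0) (XT.lf (nat_lit 0) (nat_lit 6841549251) (nat_lit 380) (nat_lit 3015304025) (nat_lit 76) (nat_lit 3455042867) (nat_lit 118) (nat_lit 5) (nat_lit 123) (nat_lit 5) (nat_lit 119) (nat_lit 5) (nat_lit 624) (nat_lit 512) (nat_lit 424)) (XT.lf (nat_lit 0) (nat_lit 6499990533) (nat_lit 304) (nat_lit 4798422017) (nat_lit 380) (nat_lit 2166902245) (nat_lit 114) (nat_lit 5) (nat_lit 118) (nat_lit 5) (nat_lit 119) (nat_lit 5) (nat_lit 625) (nat_lit 512) (nat_lit 423))))) (XT.nd (nat_lit 312) (nat_lit 836) (nat_lit 0) (XT.nd (nat_lit 156) (nat_lit 608) (nat_lit 0) (XT.nd (nat_lit 78) (nat_lit 0) (nat_lit 0) (XT.lf (nat_lit 0) (nat_lit 2204312289) (nat_lit 304) (nat_lit 11028101932) (nat_lit 76) (nat_lit 388882319) (nat_lit 110) (nat_lit 5) (nat_lit 114) (nat_lit 5) (nat_lit 111) (nat_lit 5) (nat_lit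 626) (nat_lit 512) (nat_lit 422)) (XT.lf (nat_lit 0) (nat_lit 6683986780) (nat_lit 304) (nat_lit 1437467603) (nat_lit 76) (nat_lit 5657656409) (nat_lit 110) (nat_lit 5) (nat_lit 114) (nat_lit 5) (nat_lit 111) (nat_lit 5) (nat_lit 627) (nat_lit 512) (nat_lit 421))) (XT.nd (nat_lit 78) (nat_lit 304) (nat_lit 0) (XT.lf (nat_lit 0) (nat_lit 8407333648) (nat_lit 304) (nat_lit 2872267098) (nat_lit 380) (nat_lit 2659954000) (nat_lit 106) (nat_lit 5) (nat_lit 110) (nat_lit 5) (nat_lit 111) (nat_lit 5) (nat_lit 628) (nat_lit 512) (nat_lit 420)) (XT.lf (nat_lit 0) (nat_lit 1865645306) (nat_lit 304) (nat_lit 9756503719) (nat_lit 76) (nat_lit 2480293414) (nat_lit 102) (nat_lit 5) (nat_lit 106) (nat_lit 5) (nat_lit 103) (nat_lit 5) (nat_lit 629) (nat_lit 512) (nat_lit 419)))) (XT.nd (nat_lit 156) (nat_lit 532) (nat_lit 0) (XT.nd (nat_lit 78) (nat_lit 0) (nat_lit 0) (XT.lf (nat_lit 0) (nat_lit 145750932) (nat_lit 304) (nat_lit 6329694243) (nat_lit 380) (nat_lit 7792205277)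 (nat_lit 98) (nat_lit 5) (nat_lit 102) (nat_lit 5) (nat_lit 103) (nat_lit 5) (nat_lit 630) (nat_lit 512) (nat_lit 418)) (XT.lf (nat_lit 0) (nat_lit 10330534416) (nat_lit 304) (nat_lit 884552216) (nat_lit 380) (nat_lit 3220323393) (nat_lit 98) (nat_lit 5) (nat_lit 102) (nat_lit 5) (nat_lit 103) (nat_lit 5) (nat_lit 631) (nat_lit 512) (nat_lit 417))) (XT.nd (nat_lit 78) (nat_lit 228) (nat_lit 0) (XT.lf (nat_lit 0) (nat_lit 1466966729) (nat_lit 304) (nat_lit 8500202232) (nat_lit 76) (nat_lit 4638310837) (nat_lit 94) (nat_lit 5) (nat_lit 98) (nat_lit 5) (nat_lit 95) (nat_lit 5) (nat_lit 632) (nat_lit 512) (nat_lit 416)) (XT.lf (nat_lit 0) (nat_lit 1745093070) (nat_lit 228) (nat_lit 4477391668) (nat_lit 304) (nat_lit 8555688752) (nat_lit 91) (nat_lit 5) (nat_lit 94) (nat_lit 5) (nat_lit 95) (nat_lit 5) (nat_lit 633) (nat_lit 512) (nat_lit 415))))))) (XT.nd (nat_lit 73554) (nat_lit 0) (nat_lit 41648) (XT.nd (nat_lit 546) (nat_lit 912) (nat_lit 0) (XT.nd (nat_lit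 234) (nat_lit 760) (nat_lit 0) (XT.nd (nat_lit 78) (nat_lit 532) (nat_lit 0) (XT.lf (nat_lit 0) (nat_lit 11110565243) (nat_lit 304) (nat_lit 2697733263) (nat_lit 76) (nat_lit 1145273797) (nat_lit 91) (nat_lit 5) (nat_lit 95) (nat_lit 5) (nat_lit 92) (nat_lit 5) (nat_lit 634) (nat_lit 512) (nat_lit 414)) (XT.nd (nat_lit 78) (nat_lit 228) (nat_lit 0) (XT.lf (nat_lit 0) (nat_lit 1005683869) (nat_lit 304) (nat_lit 7266587036) (nat_lit 76) (nat_lit 6858995341) (nat_lit 87) (nat_lit 5) (nat_lit 91) (nat_lit 5) (nat_lit 88) (nat_lit 5) (nat_lit 635) (nat_lit 512) (nat_lit 413)) (XT.lf (nat_lit 0) (nat_lit 3334391812) (nat_lit 228) (nat_lit 2578749570) (nat_lit 304) (nat_lit 9398599899) (nat_lit 84) (nat_lit 5) (nat_lit 87) (nat_lit 5) (nat_lit 88) (nat_lit 5) (nat_lit 636) (nat_lit 512) (nat_lit 412)))) (XT.nd (nat_lit 156) (nat_lit 456) (nat_lit 0) (XT.nd (nat_lit 78) (nat_lit 304) (nat_lit 0) (XT.lf (nat_lit 0) (nat_lit 10962220906) (nat_lit 304) (nat_lit 1316865467)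 (nat_lit 76) (nat_lit 3215870257) (nat_lit 84) (nat_lit 5) (nat_lit 88) (nat_lit 5) (nat_lit 85) (nat_lit 5) (nat_lit 637) (nat_lit 512) (nat_lit 411)) (XT.lf (nat_lit 0) (nat_lit 478638833) (nat_lit 304) (nat_lit 6063700635) (nat_lit 76) (nat_lit 9138364406) (nat_lit 80) (nat_lit 5) (nat_lit 84) (nat_lit 5) (nat_lit 81) (nat_lit 5) (nat_lit 638) (nat_lit 512) (nat_lit 410))) (XT.nd (nat_lit 78) (nat_lit 228) (nat_lit 0) (XT.lf (nat_lit 0) (nat_lit 4905924591) (nat_lit 228) (nat_lit 638418188) (nat_lit 304) (nat_lit 10324928406) (nat_lit 77) (nat_lit 5) (nat_lit 80) (nat_lit 5) (nat_lit 81) (nat_lit 5) (nat_lit 639) (nat_lit 512) (nat_lit 409)) (XT.lf (nat_lit 0) (nat_lit 35748111) (nat_lit 228) (nat_lit 10725836545) (nat_lit 304) (nat_lit 5299020955) (nat_lit 74) (nat_lit 5) (nat_lit 77) (nat_lit 5) (nat_lit 78) (nat_lit 5) (nat_lit 640) (nat_lit 512) (nat_lit 408))))) (XT.nd (nat_lit 312) (nat_lit 456) (nat_lit 0) (XT.nd (nat_lit 156) (nat_lit 152) (nat_lit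 0) (XT.nd (nat_lit 78) (nat_lit 304) (nat_lit 0) (XT.lf (nat_lit 0) (nat_lit 11353614383) (nat_lit 228) (nat_lit 4781617423) (nat_lit 304) (nat_lit 119493952) (nat_lit 74) (nat_lit 5) (nat_lit 77) (nat_lit 5) (nat_lit 78) (nat_lit 5) (nat_lit 641) (nat_lit 512) (nat_lit 407)) (XT.lf (nat_lit 0) (nat_lit 5121107073) (nat_lit 304) (nat_lit 10009209117) (nat_lit 76) (nat_lit 1321237731) (nat_lit 70) (nat_lit 5) (nat_lit 74) (nat_lit 5) (nat_lit 71) (nat_lit 5) (nat_lit 642) (nat_lit 512) (nat_lit 406))) (XT.nd (nat_lit 78) (nat_lit 0) (nat_lit 0) (XT.lf (nat_lit 0) (nat_lit 1367643848) (nat_lit 152) (nat_lit 9145638652) (nat_lit 228) (nat_lit 6138053331) (nat_lit 68) (nat_lit 5) (nat_lit 70) (nat_lit 5) (nat_lit 71) (nat_lit 5) (nat_lit 643) (nat_lit 512) (nat_lit 405)) (XT.lf (nat_lit 0) (nat_lit 13062945156) (nat_lit 152) (nat_lit 2992436680) (nat_lit 228) (nat_lit 798890157) (nat_lit 68) (nat_lit 5) (nat_lit 70) (nat_lit 5) (nat_lit 71) (nat_lit 5) (nat_lit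 644) (nat_lit 512) (nat_lit 404)))) (XT.nd (nat_lit 72540) (nat_lit 0) (nat_lit 52440) (XT.nd (nat_lit 78) (nat_lit 152) (nat_lit 0) (XT.lf (nat_lit 0) (nat_lit 4634775482) (nat_lit 304) (nat_lit 9120956740) (nat_lit 76) (nat_lit 3303958112) (nat_lit 64) (nat_lit 5) (nat_lit 68) (nat_lit 5) (nat_lit 65) (nat_lit 5) (nat_lit 645) (nat_lit 512) (nat_lit 403)) (XT.lf (nat_lit 0) (nat_lit 2651282550) (nat_lit 152) (nat_lit 7553103007) (nat_lit 228) (nat_lit 7063966717) (nat_lit 62) (nat_lit 5) (nat_lit 64) (nat_lit 5) (nat_lit 65) (nat_lit 5) (nat_lit 646) (nat_lit 512) (nat_lit 402))) (XT.nd (nat_lit 78) (nat_lit 684) (nat_lit 0) (XT.lf (nat_lit 0) (nat_lit 2283631372) (nat_lit 532) (nat_lit 492016131) (nat_lit 532) (nat_lit 492016131) (nat_lit 761) (nat_lit 4) (nat_lit 768) (nat_lit 5) (nat_lit 768) (nat_lit 4) (nat_lit 534) (nat_lit 513) (nat_lit 513)) (XT.lf (nat_lit 0) (nat_lit 1975143027) (nat_lit 608) (nat_lit 281333941) (nat_lit 684) (nat_lit 4292778999)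 (nat_lit 752) (nat_lit 5) (nat_lit 760) (nat_lit 5) (nat_lit 761) (nat_lit 4) (nat_lit 535) (nat_lit 513) (nat_lit 512)))))) (XT.nd (nat_lit 624) (nat_lit 6308) (nat_lit 0) (XT.nd (nat_lit 312) (nat_lit 2888) (nat_lit 0) (XT.nd (nat_lit 156) (nat_lit 836) (nat_lit 0) (XT.nd (nat_lit 78) (nat_lit 760) (nat_lit 0) (XT.lf (nat_lit 0) (nat_lit 5488561403) (nat_lit 684) (nat_lit 602351827) (nat_lit 0) (nat_lit 473625120) (nat_lit 752) (nat_lit 5) (nat_lit 761) (nat_lit 4) (nat_lit 752) (nat_lit 4) (nat_lit 536) (nat_lit 513) (nat_lit 511)) (XT.lf (nat_lit 0) (nat_lit 2125398172) (nat_lit 760) (nat_lit 3155594448) (nat_lit 76) (nat_lit 1299868118) (nat_lit 742) (nat_lit 5) (nat_lit 752) (nat_lit 5) (nat_lit 743) (nat_lit 4) (nat_lit 537) (nat_lit 513) (nat_lit 510))) (XT.nd (nat_lit 78) (nat_lit 76) (nat_lit 0) (XT.lf (nat_lit 0) (nat_lit 895561247) (nat_lit 760) (nat_lit 4416665349) (nat_lit 836) (nat_lit 1286427865) (nat_lit 732) (nat_lit 5) (nat_lit 742)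 (nat_lit 5) (nat_lit 743) (nat_lit 4) (nat_lit 538) (nat_lit 513) (nat_lit 509)) (XT.lf (nat_lit 0) (nat_lit 1868339961) (nat_lit 836) (nat_lit 1612474894) (nat_lit 76) (nat_lit 3136782665) (nat_lit 731) (nat_lit 5) (nat_lit 742) (nat_lit 5) (nat_lit 732) (nat_lit 5) (nat_lit 539) (nat_lit 513) (nat_lit 508)))) (XT.nd (nat_lit 156) (nat_lit 1064) (nat_lit 0) (XT.nd (nat_lit 78) (nat_lit 988) (nat_lit 0) (XT.lf (nat_lit 0) (nat_lit 2531863378) (nat_lit 836) (nat_lit 2481567634) (nat_lit 912) (nat_lit 1624432874) (nat_lit 720) (nat_lit 5) (nat_lit 731) (nat_lit 5) (nat_lit 732) (nat_lit 5) (nat_lit 540) (nat_lit 513) (nat_lit 507)) (XT.lf (nat_lit 0) (nat_lit 59808214) (nat_lit 912) (nat_lit 1422459738) (nat_lit 988) (nat_lit 5177270571) (nat_lit 707) (nat_lit 5) (nat_lit 719) (nat_lit 5) (nat_lit 720) (nat_lit 5) (nat_lit 541) (nat_lit 513) (nat_lit 506))) (XT.nd (nat_lit 78) (nat_lit 1064) (nat_lit 0) (XT.lf (nat_lit 0) (nat_lit 4300657456) (nat_lit 912)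 (nat_lit 285849587) (nat_lit 988) (nat_lit 2095785119) (nat_lit 707) (nat_lit 5) (nat_lit 719) (nat_lit 5) (nat_lit 720) (nat_lit 5) (nat_lit 542) (nat_lit 513) (nat_lit 505)) (XT.lf (nat_lit 0) (nat_lit 982314614) (nat_lit 1064) (nat_lit 4826579273) (nat_lit 76) (nat_lit 897499814) (nat_lit 693) (nat_lit 5) (nat_lit 707) (nat_lit 5) (nat_lit 694) (nat_lit 5) (nat_lit 543) (nat_lit 513) (nat_lit 504))))) (XT.nd (nat_lit 312) (nat_lit 4028) (nat_lit 0) (XT.nd (nat_lit 156) (nat_lit 1140) (nat_lit 0) (XT.nd (nat_lit 78) (nat_lit 1140) (nat_lit 0) (XT.lf (nat_lit 0) (nat_lit 4043615545) (nat_lit 1064) (nat_lit 541804486) (nat_lit 76) (nat_lit 2146289315) (nat_lit 693) (nat_lit 5) (nat_lit 707) (nat_lit 5) (nat_lit 694) (nat_lit 5) (nat_lit 544) (nat_lit 513) (nat_lit 503)) (XT.lf (nat_lit 0) (nat_lit 360844082) (nat_lit 1140) (nat_lit 2934893432) (nat_lit 76) (nat_lit 3462591940) (nat_lit 678) (nat_lit 5) (nat_lit 693) (nat_lit 5) (nat_lit 679) (nat_lit 5)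 (nat_lit 545) (nat_lit 513) (nat_lit 502))) (XT.nd (nat_lit 78) (nat_lit 0) (nat_lit 0) (XT.lf (nat_lit 0) (nat_lit 1445526292) (nat_lit 1140) (nat_lit 1935884883) (nat_lit 1216) (nat_lit 3404785535) (nat_lit 663) (nat_lit 5) (nat_lit 678) (nat_lit 5) (nat_lit 679) (nat_lit 5) (nat_lit 546) (nat_lit 513) (nat_lit 501)) (XT.lf (nat_lit 0) (nat_lit 5900167370) (nat_lit 1140) (nat_lit 516439541) (nat_lit 1216) (nat_lit 398932984) (nat_lit 663) (nat_lit 5) (nat_lit 678) (nat_lit 5) (nat_lit 679) (nat_lit 5) (nat_lit 547) (nat_lit 513) (nat_lit 500)))) (XT.nd (nat_lit 156) (nat_lit 1444) (nat_lit 0) (XT.nd (nat_lit 78) (nat_lit 1292) (nat_lit 0) (XT.lf (nat_lit 0) (nat_lit 2597038988) (nat_lit 1292) (nat_lit 3277333045) (nat_lit 76) (nat_lit 971454785) (nat_lit 646) (nat_lit 5) (nat_lit 663) (nat_lit 5) (nat_lit 647) (nat_lit 5) (nat_lit 548) (nat_lit 513) (nat_lit 499)) (XT.lf (nat_lit 0) (nat_lit 1233940295) (nat_lit 1292) (nat_lit 4367644007) (nat_lit 1368)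 (nat_lit 1276005288) (nat_lit 629) (nat_lit 5) (nat_lit 646) (nat_lit 5) (nat_lit 647) (nat_lit 5) (nat_lit 549) (nat_lit 513) (nat_lit 498))) (XT.nd (nat_lit 78) (nat_lit 1368) (nat_lit 0) (XT.lf (nat_lit 0) (nat_lit 1692194730) (nat_lit 1368) (nat_lit 1095707621) (nat_lit 76) (nat_lit 4122679966) (nat_lit 628) (nat_lit 5) (nat_lit 646) (nat_lit 5) (nat_lit 629) (nat_lit 5) (nat_lit 550) (nat_lit 513) (nat_lit 497)) (XT.lf (nat_lit 0) (nat_lit 3527599987) (nat_lit 1368) (nat_lit 1136087502) (nat_lit 1444) (nat_lit 2281161036) (nat_lit 610) (nat_lit 5) (nat_lit 628) (nat_lit 5) (nat_lit 629) (nat_lit 5) (nat_lit 551) (nat_lit 513) (nat_lit 496))))))))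
noncomputable def xc54 : XT := (XT.nd (nat_lit 2418) (nat_lit 11020) (nat_lit 0) (XT.nd (nat_lit 1170) (nat_lit 9424) (nat_lit 0) (XT.nd (nat_lit 546) (nat_lit 5852) (nat_lit 0) (XT.nd (nat_lit 234) (nat_lit 5168) (nat_lit 0) (XT.nd (nat_lit 78) (nat_lit 1520) (nat_lit 0) (XT.lf (nat_lit 0) (nat_lit 663165578) (nat_lit 1520) (nat_lit 5748153414) (nat_lit 76) (nat_lit 569236137) (nat_lit 590) (nat_lit 5) (nat_lit 610) (nat_lit 5) (nat_lit 591) (nat_lit 5) (nat_lit 552) (nat_lit 513) (nat_lit 495)) (XT.nd (nat_lit 78) (nat_lit 1520) (nat_lit 0) (XT.lf (nat_lit 0) (nat_lit 3605930396) (nat_lit 1520) (nat_lit 1072714101) (nat_lit 76) (nat_lit 2338630324) (nat_lit 590) (nat_lit 5) (nat_lit 610) (nat_lit 5) (nat_lit 591) (nat_lit 5) (nat_lit 553) (nat_lit 513) (nat_lit 494)) (XT.lf (nat_lit 0) (nat_lit 3690934508) (nat_lit 1520) (nat_lit 2881227749) (nat_lit 1596) (nat_lit 483276820) (nat_lit 570) (nat_lit 5) (nat_lit 590) (nat_lit 5) (nat_lit 591) (nat_lit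 5) (nat_lit 554) (nat_lit 513) (nat_lit 493)))) (XT.nd (nat_lit 156) (nat_lit 3496) (nat_lit 0) (XT.nd (nat_lit 78) (nat_lit 0) (nat_lit 0) (XT.lf (nat_lit 0) (nat_lit 1418336186) (nat_lit 1596) (nat_lit 1009714105) (nat_lit 1672) (nat_lit 4666842969) (nat_lit 548) (nat_lit 5) (nat_lit 569) (nat_lit 5) (nat_lit 570) (nat_lit 5) (nat_lit 555) (nat_lit 513) (nat_lit 492)) (XT.lf (nat_lit 0) (nat_lit 5361613922) (nat_lit 1672) (nat_lit 856408329) (nat_lit 76) (nat_lit 917643031) (nat_lit 548) (nat_lit 5) (nat_lit 570) (nat_lit 5) (nat_lit 549) (nat_lit 5) (nat_lit 556) (nat_lit 513) (nat_lit 491))) (XT.nd (nat_lit 78) (nat_lit 1748) (nat_lit 0) (XT.lf (nat_lit 0) (nat_lit 1137052253) (nat_lit 1748) (nat_lit 3132503513) (nat_lit 76) (nat_lit 2908028622) (nat_lit 525) (nat_lit 5) (nat_lit 548) (nat_lit 5) (nat_lit 526) (nat_lit 5) (nat_lit 557) (nat_lit 513) (nat_lit 490)) (XT.lf (nat_lit 0) (nat_lit 1793419404) (nat_lit 1748) (nat_lit 2250098631) (nat_lit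 1824) (nat_lit 3177373555) (nat_lit 502) (nat_lit 5) (nat_lit 525) (nat_lit 5) (nat_lit 526) (nat_lit 5) (nat_lit 558) (nat_lit 513) (nat_lit 489))))) (XT.nd (nat_lit 312) (nat_lit 1824) (nat_lit 0) (XT.nd (nat_lit 156) (nat_lit 2128) (nat_lit 0) (XT.nd (nat_lit 78) (nat_lit 1900) (nat_lit 0) (XT.lf (nat_lit 0) (nat_lit 6806383268) (nat_lit 1748) (nat_lit 166952717) (nat_lit 1824) (nat_lit 292426587) (nat_lit 502) (nat_lit 5) (nat_lit 525) (nat_lit 5) (nat_lit 526) (nat_lit 5) (nat_lit 559) (nat_lit 513) (nat_lit 488)) (XT.lf (nat_lit 0) (nat_lit 2603276211) (nat_lit 1900) (nat_lit 2727175440) (nat_lit 76) (nat_lit 1980980895) (nat_lit 477) (nat_lit 5) (nat_lit 502) (nat_lit 5) (nat_lit 478) (nat_lit 5) (nat_lit 560) (nat_lit 513) (nat_lit 487))) (XT.nd (nat_lit 78) (nat_lit 988) (nat_lit 0) (XT.lf (nat_lit 0) (nat_lit 2350444322) (nat_lit 1140) (nat_lit 3167678976) (nat_lit 1216) (nat_lit 1840553019) (nat_lit 462) (nat_lit 5) (nat_lit 477) (nat_lit 5)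 (nat_lit 478) (nat_lit 5) (nat_lit 561) (nat_lit 513) (nat_lit 486)) (XT.lf (nat_lit 0) (nat_lit 99508322) (nat_lit 912) (nat_lit 935770416) (nat_lit 988) (nat_lit 6372145338) (nat_lit 449) (nat_lit 5) (nat_lit 461) (nat_lit 5) (nat_lit 462) (nat_lit 5) (nat_lit 562) (nat_lit 513) (nat_lit 485)))) (XT.nd (nat_lit 156) (nat_lit 912) (nat_lit 0) (XT.nd (nat_lit 78) (nat_lit 912) (nat_lit 0) (XT.lf (nat_lit 0) (nat_lit 3933269440) (nat_lit 988) (nat_lit 2155720187) (nat_lit 76) (nat_lit 1368129955) (nat_lit 449) (nat_lit 5) (nat_lit 462) (nat_lit 5) (nat_lit 450) (nat_lit 5) (nat_lit 563) (nat_lit 513) (nat_lit 484)) (XT.lf (nat_lit 0) (nat_lit 3079375332) (nat_lit 912) (nat_lit 3783808286) (nat_lit 988) (nat_lit 645147929) (nat_lit 437) (nat_lit 5) (nat_lit 449) (nat_lit 5) (nat_lit 450) (nat_lit 5) (nat_lit 564) (nat_lit 513) (nat_lit 483))) (XT.nd (nat_lit 78) (nat_lit 0) (nat_lit 0) (XT.lf (nat_lit 0) (nat_lit 829354149) (nat_lit 836) (nat_lit 1399775748)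 (nat_lit 912) (nat_lit 5331781093) (nat_lit 425) (nat_lit 5) (nat_lit 436) (nat_lit 5) (nat_lit 437) (nat_lit 5) (nat_lit 565) (nat_lit 513) (nat_lit 482)) (XT.lf (nat_lit 0) (nat_lit 5137628897) (nat_lit 912) (nat_lit 1427564627) (nat_lit 76) (nat_lit 1049557444) (nat_lit 425) (nat_lit 5) (nat_lit 437) (nat_lit 5) (nat_lit 426) (nat_lit 5) (nat_lit 566) (nat_lit 513) (nat_lit 481)))))) (XT.nd (nat_lit 624) (nat_lit 4332) (nat_lit 0) (XT.nd (nat_lit 312) (nat_lit 2356) (nat_lit 0) (XT.nd (nat_lit 156) (nat_lit 912) (nat_lit 0) (XT.nd (nat_lit 78) (nat_lit 836) (nat_lit 0) (XT.lf (nat_lit 0) (nat_lit 413634108) (nat_lit 988) (nat_lit 3701605097) (nat_lit 76) (nat_lit 3554679668) (nat_lit 412) (nat_lit 5) (nat_lit 425) (nat_lit 5) (nat_lit 413) (nat_lit 5) (nat_lit 567) (nat_lit 513) (nat_lit 480)) (XT.lf (nat_lit 0) (nat_lit 1716974419) (nat_lit 836) (nat_lit 1582943015) (nat_lit 912) (nat_lit 4426529231) (nat_lit 401) (nat_lit 5) (nat_lit 412) (nat_lit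 5) (nat_lit 413) (nat_lit 5) (nat_lit 568) (nat_lit 513) (nat_lit 479))) (XT.nd (nat_lit 78) (nat_lit 912) (nat_lit 0) (XT.lf (nat_lit 0) (nat_lit 6226077982) (nat_lit 912) (nat_lit 551299093) (nat_lit 76) (nat_lit 1007086494) (nat_lit 401) (nat_lit 5) (nat_lit 413) (nat_lit 5) (nat_lit 402) (nat_lit 5) (nat_lit 569) (nat_lit 513) (nat_lit 478)) (XT.lf (nat_lit 0) (nat_lit 1343835088) (nat_lit 912) (nat_lit 2835286867) (nat_lit 76) (nat_lit 3664449971) (nat_lit 389) (nat_lit 5) (nat_lit 401) (nat_lit 5) (nat_lit 390) (nat_lit 5) (nat_lit 570) (nat_lit 513) (nat_lit 477)))) (XT.nd (nat_lit 156) (nat_lit 836) (nat_lit 0) (XT.nd (nat_lit 78) (nat_lit 760) (nat_lit 0) (XT.lf (nat_lit 0) (nat_lit 2754182678) (nat_lit 760) (nat_lit 1502580463) (nat_lit 836) (nat_lit 3647424191) (nat_lit 379) (nat_lit 5) (nat_lit 389) (nat_lit 5) (nat_lit 390) (nat_lit 5) (nat_lit 571) (nat_lit 513) (nat_lit 476)) (XT.lf (nat_lit 0) (nat_lit 471436032) (nat_lit 760) (nat_lit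 6739151315) (nat_lit 836) (nat_lit 755776413) (nat_lit 369) (nat_lit 5) (nat_lit 379) (nat_lit 5) (nat_lit 380) (nat_lit 5) (nat_lit 572) (nat_lit 513) (nat_lit 475))) (XT.nd (nat_lit 78) (nat_lit 760) (nat_lit 0) (XT.lf (nat_lit 0) (nat_lit 2162392979) (nat_lit 836) (nat_lit 1833560044) (nat_lit 76) (nat_lit 4033598054) (nat_lit 368) (nat_lit 5) (nat_lit 379) (nat_lit 5) (nat_lit 369) (nat_lit 5) (nat_lit 573) (nat_lit 513) (nat_lit 474)) (XT.lf (nat_lit 0) (nat_lit 3933540516) (nat_lit 760) (nat_lit 1174461572) (nat_lit 836) (nat_lit 2986317596) (nat_lit 358) (nat_lit 5) (nat_lit 368) (nat_lit 5) (nat_lit 369) (nat_lit 5) (nat_lit 574) (nat_lit 513) (nat_lit 473))))) (XT.nd (nat_lit 312) (nat_lit 2052) (nat_lit 0) (XT.nd (nat_lit 156) (nat_lit 1444) (nat_lit 0) (XT.nd (nat_lit 78) (nat_lit 76) (nat_lit 0) (XT.lf (nat_lit 0) (nat_lit 1636432162) (nat_lit 760) (nat_lit 6464317787) (nat_lit 836) (nat_lit 59870536) (nat_lit 348) (nat_lit 5) (nat_lit 358)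 (nat_lit 5) (nat_lit 359) (nat_lit 5) (nat_lit 575) (nat_lit 513) (nat_lit 472)) (XT.lf (nat_lit 0) (nat_lit 2877027653) (nat_lit 836) (nat_lit 703491736) (nat_lit 76) (nat_lit 4647543670) (nat_lit 347) (nat_lit 5) (nat_lit 358) (nat_lit 5) (nat_lit 348) (nat_lit 5) (nat_lit 576) (nat_lit 513) (nat_lit 471))) (XT.nd (nat_lit 78) (nat_lit 760) (nat_lit 0) (XT.lf (nat_lit 0) (nat_lit 5248293317) (nat_lit 684) (nat_lit 612940715) (nat_lit 760) (nat_lit 2435826377) (nat_lit 338) (nat_lit 5) (nat_lit 347) (nat_lit 5) (nat_lit 348) (nat_lit 5) (nat_lit 577) (nat_lit 513) (nat_lit 470)) (XT.lf (nat_lit 0) (nat_lit 525815082) (nat_lit 760) (nat_lit 5441199292) (nat_lit 76) (nat_lit 2400451136) (nat_lit 328) (nat_lit 5) (nat_lit 338) (nat_lit 5) (nat_lit 329) (nat_lit 5) (nat_lit 578) (nat_lit 513) (nat_lit 469)))) (XT.nd (nat_lit 156) (nat_lit 1368) (nat_lit 0) (XT.nd (nat_lit 78) (nat_lit 0) (nat_lit 0) (XT.lf (nat_lit 0) (nat_lit 555758747) (nat_lit 684) (nat_lit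 2942599691) (nat_lit 760) (nat_lit 4940913764) (nat_lit 319) (nat_lit 5) (nat_lit 328) (nat_lit 5) (nat_lit 329) (nat_lit 5) (nat_lit 579) (nat_lit 513) (nat_lit 468)) (XT.lf (nat_lit 0) (nat_lit 6524466870) (nat_lit 760) (nat_lit 1821443223) (nat_lit 76) (nat_lit 166723831) (nat_lit 319) (nat_lit 5) (nat_lit 329) (nat_lit 5) (nat_lit 320) (nat_lit 5) (nat_lit 580) (nat_lit 513) (nat_lit 467))) (XT.nd (nat_lit 78) (nat_lit 608) (nat_lit 0) (XT.lf (nat_lit 0) (nat_lit 1015232294) (nat_lit 760) (nat_lit 4248498757) (nat_lit 76) (nat_lit 3323499584) (nat_lit 309) (nat_lit 5) (nat_lit 319) (nat_lit 5) (nat_lit 310) (nat_lit 5) (nat_lit 581) (nat_lit 513) (nat_lit 466)) (XT.lf (nat_lit 0) (nat_lit 1941905862) (nat_lit 608) (nat_lit 2092607942) (nat_lit 684) (nat_lit 4628895034) (nat_lit 301) (nat_lit 5) (nat_lit 309) (nat_lit 5) (nat_lit 310) (nat_lit 5) (nat_lit 582) (nat_lit 513) (nat_lit 465))))))) (XT.nd (nat_lit 1170) (nat_lit 4712) (nat_lit 0) (XT.nd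 (nat_lit 546) (nat_lit 3192) (nat_lit 0) (XT.nd (nat_lit 234) (nat_lit 1824) (nat_lit 0) (XT.nd (nat_lit 78) (nat_lit 1292) (nat_lit 0) (XT.lf (nat_lit 0) (nat_lit 7108201580) (nat_lit 684) (nat_lit 488886232) (nat_lit 76) (nat_lit 1144143471) (nat_lit 301) (nat_lit 5) (nat_lit 310) (nat_lit 5) (nat_lit 302) (nat_lit 5) (nat_lit 583) (nat_lit 513) (nat_lit 464)) (XT.nd (nat_lit 78) (nat_lit 608) (nat_lit 0) (XT.lf (nat_lit 0) (nat_lit 1414920474) (nat_lit 684) (nat_lit 2951469387) (nat_lit 76) (nat_lit 4453820070) (nat_lit 292) (nat_lit 5) (nat_lit 301) (nat_lit 5) (nat_lit 293) (nat_lit 5) (nat_lit 584) (nat_lit 513) (nat_lit 463)) (XT.lf (nat_lit 0) (nat_lit 3440147071) (nat_lit 608) (nat_lit 1046401757) (nat_lit 684) (nat_lit 4414312755) (nat_lit 284) (nat_lit 5) (nat_lit 292) (nat_lit 5) (nat_lit 293) (nat_lit 5) (nat_lit 585) (nat_lit 513) (nat_lit 462)))) (XT.nd (nat_lit 156) (nat_lit 1140) (nat_lit 0) (XT.nd (nat_lit 78) (nat_lit 76) (nat_lit 0)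 (XT.lf (nat_lit 0) (nat_lit 960184971) (nat_lit 608) (nat_lit 6660093509) (nat_lit 684) (nat_lit 1362835418) (nat_lit 276) (nat_lit 5) (nat_lit 284) (nat_lit 5) (nat_lit 285) (nat_lit 5) (nat_lit 586) (nat_lit 513) (nat_lit 461)) (XT.lf (nat_lit 0) (nat_lit 1730028143) (nat_lit 684) (nat_lit 1555429176) (nat_lit 76) (nat_lit 5781261629) (nat_lit 275) (nat_lit 5) (nat_lit 284) (nat_lit 5) (nat_lit 276) (nat_lit 5) (nat_lit 587) (nat_lit 513) (nat_lit 460))) (XT.nd (nat_lit 78) (nat_lit 608) (nat_lit 0) (XT.lf (nat_lit 0) (nat_lit 4860765038) (nat_lit 608) (nat_lit 4107675810) (nat_lit 76) (nat_lit 183490744) (nat_lit 268) (nat_lit 5) (nat_lit 276) (nat_lit 5) (nat_lit 269) (nat_lit 5) (nat_lit 588) (nat_lit 513) (nat_lit 459)) (XT.lf (nat_lit 0) (nat_lit 2516120640) (nat_lit 608) (nat_lit 5547227873) (nat_lit 684) (nat_lit 1175316268) (nat_lit 260) (nat_lit 5) (nat_lit 268) (nat_lit 5) (nat_lit 269) (nat_lit 5) (nat_lit 589) (nat_lit 513) (nat_lit 458)))))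 (XT.nd (nat_lit 312) (nat_lit 1520) (nat_lit 0) (XT.nd (nat_lit 156) (nat_lit 1064) (nat_lit 0) (XT.nd (nat_lit 78) (nat_lit 532) (nat_lit 0) (XT.lf (nat_lit 0) (nat_lit 1965129666) (nat_lit 684) (nat_lit 65294986) (nat_lit 76) (nat_lit 7296677870) (nat_lit 259) (nat_lit 5) (nat_lit 268) (nat_lit 5) (nat_lit 260) (nat_lit 5) (nat_lit 590) (nat_lit 513) (nat_lit 457)) (XT.lf (nat_lit 0) (nat_lit 5168434199) (nat_lit 608) (nat_lit 2674066494) (nat_lit 76) (nat_lit 1574338081) (nat_lit 252) (nat_lit 5) (nat_lit 260) (nat_lit 5) (nat_lit 253) (nat_lit 5) (nat_lit 591) (nat_lit 513) (nat_lit 456))) (XT.nd (nat_lit 78) (nat_lit 532) (nat_lit 0) (XT.lf (nat_lit 0) (nat_lit 4167864578) (nat_lit 532) (nat_lit 4270778714) (nat_lit 608) (nat_lit 1069670548) (nat_lit 245) (nat_lit 5) (nat_lit 252) (nat_lit 5) (nat_lit 253) (nat_lit 5) (nat_lit 592) (nat_lit 513) (nat_lit 455)) (XT.lf (nat_lit 0) (nat_lit 1534491868) (nat_lit 456) (nat_lit 599723958) (nat_lit 532)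 (nat_lit 7467319840) (nat_lit 238) (nat_lit 5) (nat_lit 244) (nat_lit 5) (nat_lit 245) (nat_lit 5) (nat_lit 593) (nat_lit 513) (nat_lit 454)))) (XT.nd (nat_lit 156) (nat_lit 988) (nat_lit 0) (XT.nd (nat_lit 78) (nat_lit 532) (nat_lit 0) (XT.lf (nat_lit 0) (nat_lit 5406712758) (nat_lit 532) (nat_lit 1157656600) (nat_lit 76) (nat_lit 3131734854) (nat_lit 238) (nat_lit 5) (nat_lit 245) (nat_lit 5) (nat_lit 239) (nat_lit 5) (nat_lit 594) (nat_lit 513) (nat_lit 453)) (XT.lf (nat_lit 0) (nat_lit 5911183308) (nat_lit 532) (nat_lit 2838915515) (nat_lit 608) (nat_lit 1042357315) (nat_lit 231) (nat_lit 5) (nat_lit 238) (nat_lit 5) (nat_lit 239) (nat_lit 5) (nat_lit 595) (nat_lit 513) (nat_lit 452))) (XT.nd (nat_lit 78) (nat_lit 456) (nat_lit 0) (XT.lf (nat_lit 0) (nat_lit 2238245342) (nat_lit 532) (nat_lit 6675486271) (nat_lit 76) (nat_lit 976741650) (nat_lit 224) (nat_lit 5) (nat_lit 231) (nat_lit 5) (nat_lit 225) (nat_lit 5) (nat_lit 596) (nat_lit 513) (nat_lit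 451)) (XT.lf (nat_lit 0) (nat_lit 443072072) (nat_lit 456) (nat_lit 5138852017) (nat_lit 532) (nat_lit 4408161164) (nat_lit 218) (nat_lit 5) (nat_lit 224) (nat_lit 5) (nat_lit 225) (nat_lit 5) (nat_lit 597) (nat_lit 513) (nat_lit 450)))))) (XT.nd (nat_lit 624) (nat_lit 2356) (nat_lit 0) (XT.nd (nat_lit 312) (nat_lit 1368) (nat_lit 0) (XT.nd (nat_lit 156) (nat_lit 456) (nat_lit 0) (XT.nd (nat_lit 78) (nat_lit 532) (nat_lit 0) (XT.lf (nat_lit 0) (nat_lit 7742119892) (nat_lit 456) (nat_lit 1259040765) (nat_lit 532) (nat_lit 1090355875) (nat_lit 218) (nat_lit 5) (nat_lit 224) (nat_lit 5) (nat_lit 225) (nat_lit 5) (nat_lit 598) (nat_lit 513) (nat_lit 449)) (XT.lf (nat_lit 0) (nat_lit 2278215099) (nat_lit 532) (nat_lit 5221552757) (nat_lit 76) (nat_lit 2694621561) (nat_lit 211) (nat_lit 5) (nat_lit 218) (nat_lit 5) (nat_lit 212) (nat_lit 5) (nat_lit 599) (nat_lit 513) (nat_lit 448))) (XT.nd (nat_lit 78) (nat_lit 0) (nat_lit 0) (XT.lf (nat_lit 0) (nat_lit 2134612151)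 (nat_lit 456) (nat_lit 3567647068) (nat_lit 532) (nat_lit 4596863055) (nat_lit 205) (nat_lit 5) (nat_lit 211) (nat_lit 5) (nat_lit 212) (nat_lit 5) (nat_lit 600) (nat_lit 513) (nat_lit 447)) (XT.lf (nat_lit 0) (nat_lit 9197802464) (nat_lit 532) (nat_lit 752005374) (nat_lit 76) (nat_lit 456082263) (nat_lit 205) (nat_lit 5) (nat_lit 212) (nat_lit 5) (nat_lit 206) (nat_lit 5) (nat_lit 601) (nat_lit 513) (nat_lit 446)))) (XT.nd (nat_lit 156) (nat_lit 456) (nat_lit 0) (XT.nd (nat_lit 78) (nat_lit 456) (nat_lit 0) (XT.lf (nat_lit 0) (nat_lit 2252682306) (nat_lit 456) (nat_lit 3705634054) (nat_lit 76) (nat_lit 4555511444) (nat_lit 199) (nat_lit 5) (nat_lit 205) (nat_lit 5) (nat_lit 200) (nat_lit 5) (nat_lit 602) (nat_lit 513) (nat_lit 445)) (XT.lf (nat_lit 0) (nat_lit 3897630837) (nat_lit 456) (nat_lit 1864938044) (nat_lit 532) (nat_lit 4861274757) (nat_lit 193) (nat_lit 5) (nat_lit 199) (nat_lit 5) (nat_lit 200) (nat_lit 5) (nat_lit 603) (nat_lit 513) (nat_lit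 444))) (XT.nd (nat_lit 78) (nat_lit 76) (nat_lit 0) (XT.lf (nat_lit 0) (nat_lit 912784622) (nat_lit 380) (nat_lit 8441733408) (nat_lit 456) (nat_lit 1381305090) (nat_lit 188) (nat_lit 5) (nat_lit 193) (nat_lit 5) (nat_lit 194) (nat_lit 5) (nat_lit 604) (nat_lit 513) (nat_lit 443)) (XT.lf (nat_lit 0) (nat_lit 2163630853) (nat_lit 456) (nat_lit 2131892975) (nat_lit 76) (nat_lit 6553761327) (nat_lit 187) (nat_lit 5) (nat_lit 193) (nat_lit 5) (nat_lit 188) (nat_lit 5) (nat_lit 605) (nat_lit 513) (nat_lit 442))))) (XT.nd (nat_lit 312) (nat_lit 1140) (nat_lit 0) (XT.nd (nat_lit 156) (nat_lit 456) (nat_lit 0) (XT.nd (nat_lit 78) (nat_lit 380) (nat_lit 0) (XT.lf (nat_lit 0) (nat_lit 5728306706) (nat_lit 380) (nat_lit 36556829) (nat_lit 456) (nat_lit 5199893002) (nat_lit 182) (nat_lit 5) (nat_lit 187) (nat_lit 5) (nat_lit 188) (nat_lit 5) (nat_lit 606) (nat_lit 513) (nat_lit 441)) (XT.lf (nat_lit 0) (nat_lit 2648062705) (nat_lit 380) (nat_lit 6816516961) (nat_lit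 456) (nat_lit 1617429082) (nat_lit 177) (nat_lit 5) (nat_lit 182) (nat_lit 5) (nat_lit 183) (nat_lit 5) (nat_lit 607) (nat_lit 513) (nat_lit 440))) (XT.nd (nat_lit 78) (nat_lit 380) (nat_lit 0) (XT.lf (nat_lit 0) (nat_lit 2012586711) (nat_lit 456) (nat_lit 504420585) (nat_lit 76) (nat_lit 8684282512) (nat_lit 176) (nat_lit 5) (nat_lit 182) (nat_lit 5) (nat_lit 177) (nat_lit 5) (nat_lit 608) (nat_lit 513) (nat_lit 439)) (XT.lf (nat_lit 0) (nat_lit 5723120771) (nat_lit 456) (nat_lit 3711920348) (nat_lit 76) (nat_lit 1887110584) (nat_lit 171) (nat_lit 5) (nat_lit 177) (nat_lit 5) (nat_lit 172) (nat_lit 5) (nat_lit 609) (nat_lit 513) (nat_lit 438)))) (XT.nd (nat_lit 156) (nat_lit 304) (nat_lit 0) (XT.nd (nat_lit 78) (nat_lit 456) (nat_lit 0) (XT.lf (nat_lit 0) (nat_lit 4439928048) (nat_lit 380) (nat_lit 5084684259) (nat_lit 456) (nat_lit 1920484127) (nat_lit 166) (nat_lit 5) (nat_lit 171) (nat_lit 5) (nat_lit 172) (nat_lit 5) (nat_lit 610) (nat_lit 513) (nat_lit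 437)) (XT.lf (nat_lit 0) (nat_lit 1188297439) (nat_lit 380) (nat_lit 620041541) (nat_lit 456) (nat_lit 9761909198) (nat_lit 160) (nat_lit 5) (nat_lit 165) (nat_lit 5) (nat_lit 166) (nat_lit 5) (nat_lit 611) (nat_lit 513) (nat_lit 436))) (XT.nd (nat_lit 78) (nat_lit 304) (nat_lit 0) (XT.lf (nat_lit 0) (nat_lit 5627032132) (nat_lit 456) (nat_lit 2145487995) (nat_lit 76) (nat_lit 3924309267) (nat_lit 160) (nat_lit 5) (nat_lit 166) (nat_lit 5) (nat_lit 161) (nat_lit 5) (nat_lit 612) (nat_lit 513) (nat_lit 435)) (XT.lf (nat_lit 0) (nat_lit 6284467249) (nat_lit 304) (nat_lit 3251289785) (nat_lit 380) (nat_lit 2289912536) (nat_lit 156) (nat_lit 5) (nat_lit 160) (nat_lit 5) (nat_lit 161) (nat_lit 5) (nat_lit 613) (nat_lit 513) (nat_lit 434))))))))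
noncomputable def xc55 : XT := (XT.nd (nat_lit 2418) (nat_lit 304) (nat_lit 0) (XT.nd (nat_lit 1170) (nat_lit 2888) (nat_lit 0) (XT.nd (nat_lit 546) (nat_lit 1900) (nat_lit 0) (XT.nd (nat_lit 234) (nat_lit 1140) (nat_lit 0) (XT.nd (nat_lit 78) (nat_lit 304) (nat_lit 0) (XT.lf (nat_lit 0) (nat_lit 1556416822) (nat_lit 456) (nat_lit 9031955114) (nat_lit 76) (nat_lit 1368284200) (nat_lit 150) (nat_lit 5) (nat_lit 156) (nat_lit 5) (nat_lit 151) (nat_lit 5) (nat_lit 614) (nat_lit 513) (nat_lit 433)) (XT.nd (nat_lit 78) (nat_lit 304) (nat_lit 0) (XT.lf (nat_lit 0) (nat_lit 5477009377) (nat_lit 456) (nat_lit 541239469) (nat_lit 76) (nat_lit 6071151354) (nat_lit 150) (nat_lit 5) (nat_lit 156) (nat_lit 5) (nat_lit 151) (nat_lit 5) (nat_lit 615) (nat_lit 513) (nat_lit 432)) (XT.lf (nat_lit 0) (nat_lit 8177706644) (nat_lit 304) (nat_lit 1321017446) (nat_lit 380) (nat_lit 2725621305) (nat_lit 146) (nat_lit 5) (nat_lit 150) (nat_lit 5) (nat_lit 151) (nat_lit 5) (nat_lit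 616) (nat_lit 513) (nat_lit 431)))) (XT.nd (nat_lit 156) (nat_lit 380) (nat_lit 0) (XT.nd (nat_lit 78) (nat_lit 304) (nat_lit 0) (XT.lf (nat_lit 0) (nat_lit 1249332264) (nat_lit 456) (nat_lit 7663051332) (nat_lit 76) (nat_lit 3448911528) (nat_lit 140) (nat_lit 5) (nat_lit 146) (nat_lit 5) (nat_lit 141) (nat_lit 5) (nat_lit 617) (nat_lit 513) (nat_lit 430)) (XT.lf (nat_lit 0) (nat_lit 1110951724) (nat_lit 304) (nat_lit 4169521932) (nat_lit 380) (nat_lit 7219886595) (nat_lit 136) (nat_lit 5) (nat_lit 140) (nat_lit 5) (nat_lit 141) (nat_lit 5) (nat_lit 618) (nat_lit 513) (nat_lit 429))) (XT.nd (nat_lit 78) (nat_lit 380) (nat_lit 0) (XT.lf (nat_lit 0) (nat_lit 9418346169) (nat_lit 380) (nat_lit 2530776343) (nat_lit 76) (nat_lit 692562426) (nat_lit 136) (nat_lit 5) (nat_lit 141) (nat_lit 5) (nat_lit 137) (nat_lit 5) (nat_lit 619) (nat_lit 513) (nat_lit 428)) (XT.lf (nat_lit 0) (nat_lit 882722911) (nat_lit 380) (nat_lit 6276241471) (nat_lit 76) (nat_lit 5625945917)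 (nat_lit 131) (nat_lit 5) (nat_lit 136) (nat_lit 5) (nat_lit 132) (nat_lit 5) (nat_lit 620) (nat_lit 513) (nat_lit 427))))) (XT.nd (nat_lit 312) (nat_lit 912) (nat_lit 0) (XT.nd (nat_lit 156) (nat_lit 684) (nat_lit 0) (XT.nd (nat_lit 78) (nat_lit 0) (nat_lit 0) (XT.lf (nat_lit 0) (nat_lit 2799468025) (nat_lit 304) (nat_lit 2234255222) (nat_lit 380) (nat_lit 7896731632) (nat_lit 127) (nat_lit 5) (nat_lit 131) (nat_lit 5) (nat_lit 132) (nat_lit 5) (nat_lit 621) (nat_lit 513) (nat_lit 426)) (XT.lf (nat_lit 0) (nat_lit 9299053750) (nat_lit 380) (nat_lit 1003163739) (nat_lit 76) (nat_lit 2776067048) (nat_lit 127) (nat_lit 5) (nat_lit 132) (nat_lit 5) (nat_lit 128) (nat_lit 5) (nat_lit 622) (nat_lit 513) (nat_lit 425))) (XT.nd (nat_lit 78) (nat_lit 304) (nat_lit 0) (XT.lf (nat_lit 0) (nat_lit 455789039) (nat_lit 380) (nat_lit 4876798079) (nat_lit 76) (nat_lit 7895615717) (nat_lit 122) (nat_lit 5) (nat_lit 127) (nat_lit 5) (nat_lit 123) (nat_lit 5) (nat_lit 623)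 (nat_lit 513) (nat_lit 424)) (XT.lf (nat_lit 0) (nat_lit 4512189930) (nat_lit 304) (nat_lit 220280704) (nat_lit 380) (nat_lit 8647998311) (nat_lit 118) (nat_lit 5) (nat_lit 122) (nat_lit 5) (nat_lit 123) (nat_lit 5) (nat_lit 624) (nat_lit 513) (nat_lit 423)))) (XT.nd (nat_lit 156) (nat_lit 608) (nat_lit 0) (XT.nd (nat_lit 78) (nat_lit 0) (nat_lit 0) (XT.lf (nat_lit 0) (nat_lit 546742279) (nat_lit 304) (nat_lit 8588437323) (nat_lit 380) (nat_lit 4399791260) (nat_lit 114) (nat_lit 5) (nat_lit 118) (nat_lit 5) (nat_lit 119) (nat_lit 5) (nat_lit 625) (nat_lit 513) (nat_lit 422)) (XT.lf (nat_lit 0) (nat_lit 10221388015) (nat_lit 304) (nat_lit 3437339495) (nat_lit 380) (nat_lit 33179964) (nat_lit 114) (nat_lit 5) (nat_lit 118) (nat_lit 5) (nat_lit 119) (nat_lit 5) (nat_lit 626) (nat_lit 513) (nat_lit 421))) (XT.nd (nat_lit 78) (nat_lit 304) (nat_lit 0) (XT.lf (nat_lit 0) (nat_lit 4387648429) (nat_lit 304) (nat_lit 7619404060) (nat_lit 76) (nat_lit 1843859337)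 (nat_lit 110) (nat_lit 5) (nat_lit 114) (nat_lit 5) (nat_lit 111) (nat_lit 5) (nat_lit 627) (nat_lit 513) (nat_lit 420)) (XT.lf (nat_lit 0) (nat_lit 2119680993) (nat_lit 304) (nat_lit 6809051715) (nat_lit 380) (nat_lit 5083713831) (nat_lit 106) (nat_lit 5) (nat_lit 110) (nat_lit 5) (nat_lit 111) (nat_lit 5) (nat_lit 628) (nat_lit 513) (nat_lit 419)))))) (XT.nd (nat_lit 624) (nat_lit 1444) (nat_lit 0) (XT.nd (nat_lit 312) (nat_lit 836) (nat_lit 0) (XT.nd (nat_lit 156) (nat_lit 304) (nat_lit 0) (XT.nd (nat_lit 78) (nat_lit 304) (nat_lit 0) (XT.lf (nat_lit 0) (nat_lit 12110169733) (nat_lit 304) (nat_lit 1474152790) (nat_lit 380) (nat_lit 592416072) (nat_lit 106) (nat_lit 5) (nat_lit 110) (nat_lit 5) (nat_lit 111) (nat_lit 5) (nat_lit 629) (nat_lit 513) (nat_lit 418)) (XT.lf (nat_lit 0) (nat_lit 3987328509) (nat_lit 304) (nat_lit 6380529810) (nat_lit 76) (nat_lit 3974921869) (nat_lit 102) (nat_lit 5) (nat_lit 106) (nat_lit 5) (nat_lit 103) (nat_lit 5) (nat_lit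 630) (nat_lit 513) (nat_lit 417))) (XT.nd (nat_lit 78) (nat_lit 0) (nat_lit 0) (XT.lf (nat_lit 0) (nat_lit 3696275829) (nat_lit 304) (nat_lit 4975211977) (nat_lit 380) (nat_lit 5840161751) (nat_lit 98) (nat_lit 5) (nat_lit 102) (nat_lit 5) (nat_lit 103) (nat_lit 5) (nat_lit 631) (nat_lit 513) (nat_lit 416)) (XT.lf (nat_lit 0) (nat_lit 13468971440) (nat_lit 380) (nat_lit 671950793) (nat_lit 76) (nat_lit 542581557) (nat_lit 98) (nat_lit 5) (nat_lit 103) (nat_lit 5) (nat_lit 99) (nat_lit 5) (nat_lit 632) (nat_lit 513) (nat_lit 415)))) (XT.nd (nat_lit 156) (nat_lit 304) (nat_lit 0) (XT.nd (nat_lit 78) (nat_lit 228) (nat_lit 0) (XT.lf (nat_lit 0) (nat_lit 3527857781) (nat_lit 304) (nat_lit 5157108375) (nat_lit 76) (nat_lit 6171970314) (nat_lit 94) (nat_lit 5) (nat_lit 98) (nat_lit 5) (nat_lit 95) (nat_lit 5) (nat_lit 633) (nat_lit 513) (nat_lit 414)) (XT.lf (nat_lit 0) (nat_lit 5269980347) (nat_lit 228) (nat_lit 3091330757) (nat_lit 304) (nat_lit 6672116863)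 (nat_lit 91) (nat_lit 5) (nat_lit 94) (nat_lit 5) (nat_lit 95) (nat_lit 5) (nat_lit 634) (nat_lit 513) (nat_lit 413))) (XT.nd (nat_lit 78) (nat_lit 76) (nat_lit 0) (XT.lf (nat_lit 0) (nat_lit 709294774) (nat_lit 228) (nat_lit 12612358849) (nat_lit 304) (nat_lit 1891191545) (nat_lit 88) (nat_lit 5) (nat_lit 91) (nat_lit 5) (nat_lit 92) (nat_lit 5) (nat_lit 635) (nat_lit 513) (nat_lit 412)) (XT.lf (nat_lit 0) (nat_lit 3006476282) (nat_lit 304) (nat_lit 3956604624) (nat_lit 76) (nat_lit 8431176868) (nat_lit 87) (nat_lit 5) (nat_lit 91) (nat_lit 5) (nat_lit 88) (nat_lit 5) (nat_lit 636) (nat_lit 513) (nat_lit 411))))) (XT.nd (nat_lit 312) (nat_lit 684) (nat_lit 0) (XT.nd (nat_lit 156) (nat_lit 304) (nat_lit 0) (XT.nd (nat_lit 78) (nat_lit 228) (nat_lit 0) (XT.lf (nat_lit 0) (nat_lit 6833661471) (nat_lit 228) (nat_lit 1161871234) (nat_lit 304) (nat_lit 7583141006) (nat_lit 84) (nat_lit 5) (nat_lit 87) (nat_lit 5) (nat_lit 88) (nat_lit 5) (nat_lit 637) (nat_lit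 513) (nat_lit 410)) (XT.lf (nat_lit 0) (nat_lit 2078518192) (nat_lit 228) (nat_lit 11051405650) (nat_lit 304) (nat_lit 2635943312) (nat_lit 81) (nat_lit 5) (nat_lit 84) (nat_lit 5) (nat_lit 85) (nat_lit 5) (nat_lit 638) (nat_lit 513) (nat_lit 409))) (XT.nd (nat_lit 78) (nat_lit 228) (nat_lit 0) (XT.lf (nat_lit 0) (nat_lit 2419855515) (nat_lit 304) (nat_lit 2787156585) (nat_lit 76) (nat_lit 10748654293) (nat_lit 80) (nat_lit 5) (nat_lit 84) (nat_lit 5) (nat_lit 81) (nat_lit 5) (nat_lit 639) (nat_lit 513) (nat_lit 408)) (XT.lf (nat_lit 0) (nat_lit 7576163844) (nat_lit 304) (nat_lit 7774067451) (nat_lit 76) (nat_lit 797988314) (nat_lit 77) (nat_lit 5) (nat_lit 81) (nat_lit 5) (nat_lit 78) (nat_lit 5) (nat_lit 640) (nat_lit 513) (nat_lit 407)))) (XT.nd (nat_lit 156) (nat_lit 380) (nat_lit 0) (XT.nd (nat_lit 78) (nat_lit 76) (nat_lit 0) (XT.lf (nat_lit 0) (nat_lit 3418384384) (nat_lit 228) (nat_lit 9467803508) (nat_lit 304) (nat_lit 3457424444) (nat_lit 74)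 (nat_lit 5) (nat_lit 77) (nat_lit 5) (nat_lit 78) (nat_lit 5) (nat_lit 641) (nat_lit 513) (nat_lit 406)) (XT.lf (nat_lit 0) (nat_lit 1764061861) (nat_lit 304) (nat_lit 1657673883) (nat_lit 76) (nat_lit 13120396154) (nat_lit 73) (nat_lit 5) (nat_lit 77) (nat_lit 5) (nat_lit 74) (nat_lit 5) (nat_lit 642) (nat_lit 513) (nat_lit 405))) (XT.nd (nat_lit 78) (nat_lit 152) (nat_lit 0) (XT.lf (nat_lit 0) (nat_lit 7101888234) (nat_lit 304) (nat_lit 6862719863) (nat_lit 76) (nat_lit 2778392802) (nat_lit 70) (nat_lit 5) (nat_lit 74) (nat_lit 5) (nat_lit 71) (nat_lit 5) (nat_lit 643) (nat_lit 513) (nat_lit 404)) (XT.lf (nat_lit 0) (nat_lit 4719652573) (nat_lit 152) (nat_lit 7867009898) (nat_lit 228) (nat_lit 4360421200) (nat_lit 68) (nat_lit 5) (nat_lit 70) (nat_lit 5) (nat_lit 71) (nat_lit 5) (nat_lit 644) (nat_lit 513) (nat_lit 403))))))) (XT.nd (nat_lit 73476) (nat_lit 0) (nat_lit 30248) (XT.nd (nat_lit 72852) (nat_lit 0) (nat_lit 46664) (XT.nd (nat_lit 72540) (nat_lit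 0) (nat_lit 51528) (XT.nd (nat_lit 72384) (nat_lit 0) (nat_lit 52972) (XT.nd (nat_lit 78) (nat_lit 228) (nat_lit 0) (XT.lf (nat_lit 0) (nat_lit 1034514472) (nat_lit 228) (nat_lit 577944955) (nat_lit 76) (nat_lit 15542213968) (nat_lit 67) (nat_lit 5) (nat_lit 70) (nat_lit 5) (nat_lit 68) (nat_lit 5) (nat_lit 645) (nat_lit 513) (nat_lit 402)) (XT.lf (nat_lit 0) (nat_lit 6560634163) (nat_lit 304) (nat_lit 6013910365) (nat_lit 76) (nat_lit 4789660716) (nat_lit 64) (nat_lit 5) (nat_lit 68) (nat_lit 5) (nat_lit 65) (nat_lit 5) (nat_lit 646) (nat_lit 513) (nat_lit 401))) (XT.nd (nat_lit 78) (nat_lit 532) (nat_lit 0) (XT.lf (nat_lit 0) (nat_lit 833189828) (nat_lit 532) (nat_lit 1588899403) (nat_lit 0) (nat_lit 833189828) (nat_lit 768) (nat_lit 5) (nat_lit 775) (nat_lit 4) (nat_lit 768) (nat_lit 4) (nat_lit 532) (nat_lit 514) (nat_lit 514)) (XT.lf (nat_lit 0) (nat_lit 647872514) (nat_lit 532) (nat_lit 4254685924) (nat_lit 532) (nat_lit 1620086665) (nat_lit 761)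 (nat_lit 4) (nat_lit 768) (nat_lit 5) (nat_lit 768) (nat_lit 4) (nat_lit 533) (nat_lit 514) (nat_lit 513)))) (XT.nd (nat_lit 156) (nat_lit 760) (nat_lit 0) (XT.nd (nat_lit 78) (nat_lit 608) (nat_lit 0) (XT.lf (nat_lit 0) (nat_lit 1590536302) (nat_lit 608) (nat_lit 2004656378) (nat_lit 76) (nat_lit 2940689954) (nat_lit 760) (nat_lit 5) (nat_lit 768) (nat_lit 5) (nat_lit 761) (nat_lit 4) (nat_lit 534) (nat_lit 514) (nat_lit 512)) (XT.lf (nat_lit 0) (nat_lit 1905885945) (nat_lit 608) (nat_lit 2874173565) (nat_lit 684) (nat_lit 1770387639) (nat_lit 752) (nat_lit 5) (nat_lit 760) (nat_lit 5) (nat_lit 761) (nat_lit 4) (nat_lit 535) (nat_lit 514) (nat_lit 511))) (XT.nd (nat_lit 78) (nat_lit 684) (nat_lit 0) (XT.lf (nat_lit 0) (nat_lit 1387004137) (nat_lit 684) (nat_lit 704753268) (nat_lit 76) (nat_lit 4474595026) (nat_lit 751) (nat_lit 5) (nat_lit 760) (nat_lit 5) (nat_lit 752) (nat_lit 5) (nat_lit 536) (nat_lit 514) (nat_lit 510)) (XT.lf (nat_lit 0) (nat_lit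 3294440103) (nat_lit 684) (nat_lit 1236934050) (nat_lit 760) (nat_lit 2052020694) (nat_lit 742) (nat_lit 5) (nat_lit 751) (nat_lit 5) (nat_lit 752) (nat_lit 5) (nat_lit 537) (nat_lit 514) (nat_lit 509))))) (XT.nd (nat_lit 312) (nat_lit 3116) (nat_lit 0) (XT.nd (nat_lit 156) (nat_lit 912) (nat_lit 0) (XT.nd (nat_lit 78) (nat_lit 0) (nat_lit 0) (XT.lf (nat_lit 0) (nat_lit 733147643) (nat_lit 760) (nat_lit 326062166) (nat_lit 836) (nat_lit 5542698604) (nat_lit 731) (nat_lit 5) (nat_lit 741) (nat_lit 5) (nat_lit 742) (nat_lit 5) (nat_lit 538) (nat_lit 514) (nat_lit 508)) (XT.lf (nat_lit 0) (nat_lit 4159344584) (nat_lit 836) (nat_lit 1810505934) (nat_lit 76) (nat_lit 651590903) (nat_lit 731) (nat_lit 5) (nat_lit 742) (nat_lit 5) (nat_lit 732) (nat_lit 5) (nat_lit 539) (nat_lit 514) (nat_lit 507))) (XT.nd (nat_lit 78) (nat_lit 0) (nat_lit 0) (XT.lf (nat_lit 0) (nat_lit 617376411) (nat_lit 912) (nat_lit 4341255189) (nat_lit 76) (nat_lit 1683725023) (nat_lit 719)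 (nat_lit 5) (nat_lit 731) (nat_lit 5) (nat_lit 720) (nat_lit 5) (nat_lit 540) (nat_lit 514) (nat_lit 506)) (XT.lf (nat_lit 0) (nat_lit 3667729118) (nat_lit 912) (nat_lit 212687281) (nat_lit 76) (nat_lit 2784106457) (nat_lit 719) (nat_lit 5) (nat_lit 731) (nat_lit 5) (nat_lit 720) (nat_lit 5) (nat_lit 541) (nat_lit 514) (nat_lit 505)))) (XT.nd (nat_lit 156) (nat_lit 1140) (nat_lit 0) (XT.nd (nat_lit 78) (nat_lit 988) (nat_lit 0) (XT.lf (nat_lit 0) (nat_lit 47802037) (nat_lit 988) (nat_lit 2688707064) (nat_lit 76) (nat_lit 3951473577) (nat_lit 706) (nat_lit 5) (nat_lit 719) (nat_lit 5) (nat_lit 707) (nat_lit 5) (nat_lit 542) (nat_lit 514) (nat_lit 504)) (XT.lf (nat_lit 0) (nat_lit 1534870794) (nat_lit 988) (nat_lit 1521664592) (nat_lit 1064) (nat_lit 3656115852) (nat_lit 693) (nat_lit 5) (nat_lit 706) (nat_lit 5) (nat_lit 707) (nat_lit 5) (nat_lit 543) (nat_lit 514) (nat_lit 503))) (XT.nd (nat_lit 78) (nat_lit 1140) (nat_lit 0) (XT.lf (nat_lit 0) (nat_lit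 5827826474) (nat_lit 988) (nat_lit 248592705) (nat_lit 1064) (nat_lit 662377587) (nat_lit 693) (nat_lit 5) (nat_lit 706) (nat_lit 5) (nat_lit 707) (nat_lit 5) (nat_lit 544) (nat_lit 514) (nat_lit 502)) (XT.lf (nat_lit 0) (nat_lit 2323045311) (nat_lit 1140) (nat_lit 3354119679) (nat_lit 76) (nat_lit 1088729267) (nat_lit 678) (nat_lit 5) (nat_lit 693) (nat_lit 5) (nat_lit 679) (nat_lit 5) (nat_lit 545) (nat_lit 514) (nat_lit 501)))))) (XT.nd (nat_lit 624) (nat_lit 9728) (nat_lit 0) (XT.nd (nat_lit 312) (nat_lit 2888) (nat_lit 0) (XT.nd (nat_lit 156) (nat_lit 2584) (nat_lit 0) (XT.nd (nat_lit 78) (nat_lit 76) (nat_lit 0) (XT.lf (nat_lit 0) (nat_lit 994406821) (nat_lit 1140) (nat_lit 4314032971) (nat_lit 1216) (nat_lit 1486026623) (nat_lit 663) (nat_lit 5) (nat_lit 678) (nat_lit 5) (nat_lit 679) (nat_lit 5) (nat_lit 546) (nat_lit 514) (nat_lit 500)) (XT.lf (nat_lit 0) (nat_lit 1467902311) (nat_lit 1216) (nat_lit 1410861767) (nat_lit 76) (nat_lit 3945489380)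 (nat_lit 662) (nat_lit 5) (nat_lit 678) (nat_lit 5) (nat_lit 663) (nat_lit 5) (nat_lit 547) (nat_lit 514) (nat_lit 499))) (XT.nd (nat_lit 78) (nat_lit 1368) (nat_lit 0) (XT.lf (nat_lit 0) (nat_lit 3044254388) (nat_lit 1216) (nat_lit 1373187078) (nat_lit 1292) (nat_lit 2437872493) (nat_lit 646) (nat_lit 5) (nat_lit 662) (nat_lit 5) (nat_lit 663) (nat_lit 5) (nat_lit 548) (nat_lit 514) (nat_lit 498)) (XT.lf (nat_lit 0) (nat_lit 484185372) (nat_lit 1368) (nat_lit 6215528447) (nat_lit 76) (nat_lit 188168952) (nat_lit 628) (nat_lit 5) (nat_lit 646) (nat_lit 5) (nat_lit 629) (nat_lit 5) (nat_lit 549) (nat_lit 514) (nat_lit 497)))) (XT.nd (nat_lit 156) (nat_lit 1520) (nat_lit 0) (XT.nd (nat_lit 78) (nat_lit 1368) (nat_lit 0) (XT.lf (nat_lit 0) (nat_lit 3405004293) (nat_lit 1368) (nat_lit 1702310871) (nat_lit 76) (nat_lit 1814008850) (nat_lit 628) (nat_lit 5) (nat_lit 646) (nat_lit 5) (nat_lit 629) (nat_lit 5) (nat_lit 550) (nat_lit 514) (nat_lit 496)) (XT.lf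 (nat_lit 0) (nat_lit 2886669815) (nat_lit 1368) (nat_lit 3455620737) (nat_lit 1444) (nat_lit 613985063) (nat_lit 610) (nat_lit 5) (nat_lit 628) (nat_lit 5) (nat_lit 629) (nat_lit 5) (nat_lit 551) (nat_lit 514) (nat_lit 495))) (XT.nd (nat_lit 78) (nat_lit 0) (nat_lit 0) (XT.lf (nat_lit 0) (nat_lit 537731099) (nat_lit 1444) (nat_lit 1732644473) (nat_lit 1520) (nat_lit 4722153387) (nat_lit 590) (nat_lit 5) (nat_lit 609) (nat_lit 5) (nat_lit 610) (nat_lit 5) (nat_lit 552) (nat_lit 514) (nat_lit 494)) (XT.lf (nat_lit 0) (nat_lit 5172508613) (nat_lit 1520) (nat_lit 1794696575) (nat_lit 76) (nat_lit 62857289) (nat_lit 590) (nat_lit 5) (nat_lit 610) (nat_lit 5) (nat_lit 591) (nat_lit 5) (nat_lit 553) (nat_lit 514) (nat_lit 493))))) (XT.nd (nat_lit 312) (nat_lit 4788) (nat_lit 0) (XT.nd (nat_lit 156) (nat_lit 1748) (nat_lit 0) (XT.nd (nat_lit 78) (nat_lit 1596) (nat_lit 0) (XT.lf (nat_lit 0) (nat_lit 1022521696) (nat_lit 1596) (nat_lit 4142684888) (nat_lit 76)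 (nat_lit 1903561326) (nat_lit 569) (nat_lit 5) (nat_lit 590) (nat_lit 5) (nat_lit 570) (nat_lit 5) (nat_lit 554) (nat_lit 514) (nat_lit 492)) (XT.lf (nat_lit 0) (nat_lit 600009739) (nat_lit 1596) (nat_lit 3293588941) (nat_lit 1672) (nat_lit 3215240016) (nat_lit 548) (nat_lit 5) (nat_lit 569) (nat_lit 5) (nat_lit 570) (nat_lit 5) (nat_lit 555) (nat_lit 514) (nat_lit 491))) (XT.nd (nat_lit 78) (nat_lit 1748) (nat_lit 0) (XT.lf (nat_lit 0) (nat_lit 5440985364) (nat_lit 1596) (nat_lit 1351932355) (nat_lit 1672) (nat_lit 357378990) (nat_lit 548) (nat_lit 5) (nat_lit 569) (nat_lit 5) (nat_lit 570) (nat_lit 5) (nat_lit 556) (nat_lit 514) (nat_lit 490)) (XT.lf (nat_lit 0) (nat_lit 2492720368) (nat_lit 1748) (nat_lit 4038747511) (nat_lit 76) (nat_lit 661413521) (nat_lit 525) (nat_lit 5) (nat_lit 548) (nat_lit 5) (nat_lit 526) (nat_lit 5) (nat_lit 557) (nat_lit 514) (nat_lit 489)))) (XT.nd (nat_lit 156) (nat_lit 2964) (nat_lit 0) (XT.nd (nat_lit 78) (nat_lit 76)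 (nat_lit 0) (XT.lf (nat_lit 0) (nat_lit 848429216) (nat_lit 1748) (nat_lit 4517172082) (nat_lit 1824) (nat_lit 1871260037) (nat_lit 502) (nat_lit 5) (nat_lit 525) (nat_lit 5) (nat_lit 526) (nat_lit 5) (nat_lit 558) (nat_lit 514) (nat_lit 488)) (XT.lf (nat_lit 0) (nat_lit 973130797) (nat_lit 1824) (nat_lit 1453463153) (nat_lit 76) (nat_lit 4855552961) (nat_lit 501) (nat_lit 5) (nat_lit 525) (nat_lit 5) (nat_lit 502) (nat_lit 5) (nat_lit 559) (nat_lit 514) (nat_lit 487))) (XT.nd (nat_lit 78) (nat_lit 1140) (nat_lit 0) (XT.lf (nat_lit 0) (nat_lit 3561964204) (nat_lit 1824) (nat_lit 256550772) (nat_lit 1900) (nat_lit 3510194581) (nat_lit 477) (nat_lit 5) (nat_lit 501) (nat_lit 5) (nat_lit 502) (nat_lit 5) (nat_lit 560) (nat_lit 514) (nat_lit 486)) (XT.lf (nat_lit 0) (nat_lit 1272013797) (nat_lit 1140) (nat_lit 5426313368) (nat_lit 1216) (nat_lit 678327819) (nat_lit 462) (nat_lit 5) (nat_lit 477) (nat_lit 5) (nat_lit 478) (nat_lit 5) (nat_lit 561) (nat_lit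 514) (nat_lit 485))))))))
noncomputable def xc56 : XT := (XT.nd (nat_lit 2418) (nat_lit 9272) (nat_lit 0) (XT.nd (nat_lit 1170) (nat_lit 7752) (nat_lit 0) (XT.nd (nat_lit 546) (nat_lit 4104) (nat_lit 0) (XT.nd (nat_lit 234) (nat_lit 2660) (nat_lit 0) (XT.nd (nat_lit 78) (nat_lit 1900) (nat_lit 0) (XT.lf (nat_lit 0) (nat_lit 2155421349) (nat_lit 1216) (nat_lit 1032309827) (nat_lit 76) (nat_lit 4238058364) (nat_lit 461) (nat_lit 5) (nat_lit 477) (nat_lit 5) (nat_lit 462) (nat_lit 5) (nat_lit 562) (nat_lit 514) (nat_lit 484)) (XT.nd (nat_lit 78) (nat_lit 988) (nat_lit 0) (XT.lf (nat_lit 0) (nat_lit 4138660035) (nat_lit 912) (nat_lit 873108230) (nat_lit 988) (nat_lit 2464550559) (nat_lit 449) (nat_lit 5) (nat_lit 461) (nat_lit 5) (nat_lit 462) (nat_lit 5) (nat_lit 563) (nat_lit 514) (nat_lit 483)) (XT.lf (nat_lit 0) (nat_lit 369532484) (nat_lit 988) (nat_lit 5669988612) (nat_lit 76) (nat_lit 1488740531) (nat_lit 436) (nat_lit 5) (nat_lit 449) (nat_lit 5) (nat_lit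 437) (nat_lit 5) (nat_lit 564) (nat_lit 514) (nat_lit 482)))) (XT.nd (nat_lit 156) (nat_lit 1824) (nat_lit 0) (XT.nd (nat_lit 78) (nat_lit 836) (nat_lit 0) (XT.lf (nat_lit 0) (nat_lit 3204776824) (nat_lit 988) (nat_lit 453276494) (nat_lit 76) (nat_lit 3923316273) (nat_lit 436) (nat_lit 5) (nat_lit 449) (nat_lit 5) (nat_lit 437) (nat_lit 5) (nat_lit 565) (nat_lit 514) (nat_lit 481)) (XT.lf (nat_lit 0) (nat_lit 4879217139) (nat_lit 836) (nat_lit 1199306820) (nat_lit 912) (nat_lit 1557381480) (nat_lit 425) (nat_lit 5) (nat_lit 436) (nat_lit 5) (nat_lit 437) (nat_lit 5) (nat_lit 566) (nat_lit 514) (nat_lit 480))) (XT.nd (nat_lit 78) (nat_lit 836) (nat_lit 0) (XT.lf (nat_lit 0) (nat_lit 1279999927) (nat_lit 988) (nat_lit 5094847455) (nat_lit 76) (nat_lit 1316933576) (nat_lit 412) (nat_lit 5) (nat_lit 425) (nat_lit 5) (nat_lit 413) (nat_lit 5) (nat_lit 567) (nat_lit 514) (nat_lit 479)) (XT.lf (nat_lit 0) (nat_lit 278395216) (nat_lit 836) (nat_lit 3854309230)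 (nat_lit 912) (nat_lit 3616276666) (nat_lit 401) (nat_lit 5) (nat_lit 412) (nat_lit 5) (nat_lit 413) (nat_lit 5) (nat_lit 568) (nat_lit 514) (nat_lit 478))))) (XT.nd (nat_lit 312) (nat_lit 2432) (nat_lit 0) (XT.nd (nat_lit 156) (nat_lit 760) (nat_lit 0) (XT.nd (nat_lit 78) (nat_lit 912) (nat_lit 0) (XT.lf (nat_lit 0) (nat_lit 5775047875) (nat_lit 836) (nat_lit 1253257490) (nat_lit 912) (nat_lit 779304612) (nat_lit 401) (nat_lit 5) (nat_lit 412) (nat_lit 5) (nat_lit 413) (nat_lit 5) (nat_lit 569) (nat_lit 514) (nat_lit 477)) (XT.lf (nat_lit 0) (nat_lit 2070941832) (nat_lit 912) (nat_lit 4383333897) (nat_lit 76) (nat_lit 1413177310) (nat_lit 389) (nat_lit 5) (nat_lit 401) (nat_lit 5) (nat_lit 390) (nat_lit 5) (nat_lit 570) (nat_lit 514) (nat_lit 476))) (XT.nd (nat_lit 78) (nat_lit 0) (nat_lit 0) (XT.lf (nat_lit 0) (nat_lit 1158839190) (nat_lit 760) (nat_lit 3791329749) (nat_lit 836) (nat_lit 2978574250) (nat_lit 379) (nat_lit 5) (nat_lit 389) (nat_lit 5)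 (nat_lit 390) (nat_lit 5) (nat_lit 571) (nat_lit 514) (nat_lit 475)) (XT.lf (nat_lit 0) (nat_lit 6818349523) (nat_lit 760) (nat_lit 1051473800) (nat_lit 836) (nat_lit 121780403) (nat_lit 379) (nat_lit 5) (nat_lit 389) (nat_lit 5) (nat_lit 390) (nat_lit 5) (nat_lit 572) (nat_lit 514) (nat_lit 474)))) (XT.nd (nat_lit 156) (nat_lit 836) (nat_lit 0) (XT.nd (nat_lit 78) (nat_lit 760) (nat_lit 0) (XT.lf (nat_lit 0) (nat_lit 2750530505) (nat_lit 836) (nat_lit 3543246390) (nat_lit 76) (nat_lit 1761683375) (nat_lit 368) (nat_lit 5) (nat_lit 379) (nat_lit 5) (nat_lit 369) (nat_lit 5) (nat_lit 573) (nat_lit 514) (nat_lit 473)) (XT.lf (nat_lit 0) (nat_lit 2174537968) (nat_lit 760) (nat_lit 3487684218) (nat_lit 836) (nat_lit 2458685709) (nat_lit 358) (nat_lit 5) (nat_lit 368) (nat_lit 5) (nat_lit 369) (nat_lit 5) (nat_lit 574) (nat_lit 514) (nat_lit 472))) (XT.nd (nat_lit 78) (nat_lit 760) (nat_lit 0) (XT.lf (nat_lit 0) (nat_lit 417395155) (nat_lit 836) (nat_lit 188795783)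 (nat_lit 76) (nat_lit 7581842290) (nat_lit 357) (nat_lit 5) (nat_lit 368) (nat_lit 5) (nat_lit 358) (nat_lit 5) (nat_lit 575) (nat_lit 514) (nat_lit 471)) (XT.lf (nat_lit 0) (nat_lit 3326191214) (nat_lit 836) (nat_lit 2581725460) (nat_lit 76) (nat_lit 2348098325) (nat_lit 347) (nat_lit 5) (nat_lit 358) (nat_lit 5) (nat_lit 348) (nat_lit 5) (nat_lit 576) (nat_lit 514) (nat_lit 470)))))) (XT.nd (nat_lit 624) (nat_lit 3572) (nat_lit 0) (XT.nd (nat_lit 312) (nat_lit 2052) (nat_lit 0) (XT.nd (nat_lit 156) (nat_lit 684) (nat_lit 0) (XT.nd (nat_lit 78) (nat_lit 760) (nat_lit 0) (XT.lf (nat_lit 0) (nat_lit 3318659455) (nat_lit 684) (nat_lit 2957512792) (nat_lit 760) (nat_lit 2049525229) (nat_lit 338) (nat_lit 5) (nat_lit 347) (nat_lit 5) (nat_lit 348) (nat_lit 5) (nat_lit 577) (nat_lit 514) (nat_lit 469)) (XT.lf (nat_lit 0) (nat_lit 857072687) (nat_lit 760) (nat_lit 7468550831) (nat_lit 76) (nat_lit 71429033) (nat_lit 328) (nat_lit 5) (nat_lit 338) (nat_lit 5)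 (nat_lit 329) (nat_lit 5) (nat_lit 578) (nat_lit 514) (nat_lit 468))) (XT.nd (nat_lit 78) (nat_lit 684) (nat_lit 0) (XT.lf (nat_lit 0) (nat_lit 3804648929) (nat_lit 760) (nat_lit 1505314219) (nat_lit 76) (nat_lit 3159396022) (nat_lit 328) (nat_lit 5) (nat_lit 338) (nat_lit 5) (nat_lit 329) (nat_lit 5) (nat_lit 579) (nat_lit 514) (nat_lit 467)) (XT.lf (nat_lit 0) (nat_lit 4584973053) (nat_lit 684) (nat_lit 2213673607) (nat_lit 760) (nat_lit 1744717018) (nat_lit 319) (nat_lit 5) (nat_lit 328) (nat_lit 5) (nat_lit 329) (nat_lit 5) (nat_lit 580) (nat_lit 514) (nat_lit 466)))) (XT.nd (nat_lit 156) (nat_lit 1292) (nat_lit 0) (XT.nd (nat_lit 78) (nat_lit 0) (nat_lit 0) (XT.lf (nat_lit 0) (nat_lit 1205924692) (nat_lit 760) (nat_lit 6458723749) (nat_lit 76) (nat_lit 954272179) (nat_lit 309) (nat_lit 5) (nat_lit 319) (nat_lit 5) (nat_lit 310) (nat_lit 5) (nat_lit 581) (nat_lit 514) (nat_lit 465)) (XT.lf (nat_lit 0) (nat_lit 4191970474) (nat_lit 760) (nat_lit 320015863)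 (nat_lit 76) (nat_lit 4183777740) (nat_lit 309) (nat_lit 5) (nat_lit 319) (nat_lit 5) (nat_lit 310) (nat_lit 5) (nat_lit 582) (nat_lit 514) (nat_lit 464))) (XT.nd (nat_lit 78) (nat_lit 684) (nat_lit 0) (XT.lf (nat_lit 0) (nat_lit 5967792553) (nat_lit 608) (nat_lit 1267840772) (nat_lit 684) (nat_lit 1538554224) (nat_lit 301) (nat_lit 5) (nat_lit 309) (nat_lit 5) (nat_lit 310) (nat_lit 5) (nat_lit 583) (nat_lit 514) (nat_lit 463)) (XT.lf (nat_lit 0) (nat_lit 1464244256) (nat_lit 684) (nat_lit 5351842788) (nat_lit 76) (nat_lit 2037945647) (nat_lit 292) (nat_lit 5) (nat_lit 301) (nat_lit 5) (nat_lit 293) (nat_lit 5) (nat_lit 584) (nat_lit 514) (nat_lit 462))))) (XT.nd (nat_lit 312) (nat_lit 1748) (nat_lit 0) (XT.nd (nat_lit 156) (nat_lit 1216) (nat_lit 0) (XT.nd (nat_lit 78) (nat_lit 0) (nat_lit 0) (XT.lf (nat_lit 0) (nat_lit 981524271) (nat_lit 608) (nat_lit 3518450786) (nat_lit 684) (nat_lit 4435427733) (nat_lit 284) (nat_lit 5) (nat_lit 292) (nat_lit 5)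 (nat_lit 293) (nat_lit 5) (nat_lit 585) (nat_lit 514) (nat_lit 461)) (XT.lf (nat_lit 0) (nat_lit 7461921572) (nat_lit 608) (nat_lit 130595573) (nat_lit 684) (nat_lit 1425962201) (nat_lit 284) (nat_lit 5) (nat_lit 292) (nat_lit 5) (nat_lit 293) (nat_lit 5) (nat_lit 586) (nat_lit 514) (nat_lit 460))) (XT.nd (nat_lit 78) (nat_lit 532) (nat_lit 0) (XT.lf (nat_lit 0) (nat_lit 1636910435) (nat_lit 684) (nat_lit 4153379916) (nat_lit 76) (nat_lit 3312419088) (nat_lit 275) (nat_lit 5) (nat_lit 284) (nat_lit 5) (nat_lit 276) (nat_lit 5) (nat_lit 587) (nat_lit 514) (nat_lit 459)) (XT.lf (nat_lit 0) (nat_lit 2386906347) (nat_lit 532) (nat_lit 2342995477) (nat_lit 608) (nat_lit 4458775629) (nat_lit 268) (nat_lit 5) (nat_lit 275) (nat_lit 5) (nat_lit 276) (nat_lit 5) (nat_lit 588) (nat_lit 514) (nat_lit 458)))) (XT.nd (nat_lit 156) (nat_lit 1064) (nat_lit 0) (XT.nd (nat_lit 78) (nat_lit 684) (nat_lit 0) (XT.lf (nat_lit 0) (nat_lit 7881829070) (nat_lit 608) (nat_lit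 221693885) (nat_lit 76) (nat_lit 1172901262) (nat_lit 268) (nat_lit 5) (nat_lit 276) (nat_lit 5) (nat_lit 269) (nat_lit 5) (nat_lit 589) (nat_lit 514) (nat_lit 457)) (XT.lf (nat_lit 0) (nat_lit 1728232666) (nat_lit 684) (nat_lit 2868425759) (nat_lit 76) (nat_lit 4768642322) (nat_lit 259) (nat_lit 5) (nat_lit 268) (nat_lit 5) (nat_lit 260) (nat_lit 5) (nat_lit 590) (nat_lit 514) (nat_lit 456))) (XT.nd (nat_lit 78) (nat_lit 532) (nat_lit 0) (XT.lf (nat_lit 0) (nat_lit 3887110356) (nat_lit 532) (nat_lit 996807137) (nat_lit 608) (nat_lit 4572072325) (nat_lit 252) (nat_lit 5) (nat_lit 259) (nat_lit 5) (nat_lit 260) (nat_lit 5) (nat_lit 591) (nat_lit 514) (nat_lit 455)) (XT.lf (nat_lit 0) (nat_lit 1215136319) (nat_lit 532) (nat_lit 6894851022) (nat_lit 608) (nat_lit 1438360745) (nat_lit 245) (nat_lit 5) (nat_lit 252) (nat_lit 5) (nat_lit 253) (nat_lit 5) (nat_lit 592) (nat_lit 514) (nat_lit 454))))))) (XT.nd (nat_lit 1170) (nat_lit 4484) (nat_lit 0) (XT.nd (nat_lit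 546) (nat_lit 2204) (nat_lit 0) (XT.nd (nat_lit 234) (nat_lit 1520) (nat_lit 0) (XT.nd (nat_lit 78) (nat_lit 988) (nat_lit 0) (XT.lf (nat_lit 0) (nat_lit 1741977453) (nat_lit 608) (nat_lit 1501740027) (nat_lit 76) (nat_lit 6398468380) (nat_lit 244) (nat_lit 5) (nat_lit 252) (nat_lit 5) (nat_lit 245) (nat_lit 5) (nat_lit 593) (nat_lit 514) (nat_lit 453)) (XT.nd (nat_lit 78) (nat_lit 532) (nat_lit 0) (XT.lf (nat_lit 0) (nat_lit 4969089353) (nat_lit 532) (nat_lit 4263347566) (nat_lit 76) (nat_lit 505225580) (nat_lit 238) (nat_lit 5) (nat_lit 245) (nat_lit 5) (nat_lit 239) (nat_lit 5) (nat_lit 594) (nat_lit 514) (nat_lit 452)) (XT.lf (nat_lit 0) (nat_lit 2738503713) (nat_lit 532) (nat_lit 5535457690) (nat_lit 608) (nat_lit 1560823688) (nat_lit 231) (nat_lit 5) (nat_lit 238) (nat_lit 5) (nat_lit 239) (nat_lit 5) (nat_lit 595) (nat_lit 514) (nat_lit 451)))) (XT.nd (nat_lit 156) (nat_lit 988) (nat_lit 0) (XT.nd (nat_lit 78) (nat_lit 456) (nat_lit 0) (XT.lf (nat_lit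 0) (nat_lit 1681391369) (nat_lit 608) (nat_lit 57800896) (nat_lit 76) (nat_lit 8194581393) (nat_lit 230) (nat_lit 5) (nat_lit 238) (nat_lit 5) (nat_lit 231) (nat_lit 5) (nat_lit 596) (nat_lit 514) (nat_lit 450)) (XT.lf (nat_lit 0) (nat_lit 4992809828) (nat_lit 532) (nat_lit 2893893980) (nat_lit 76) (nat_lit 2147327409) (nat_lit 224) (nat_lit 5) (nat_lit 231) (nat_lit 5) (nat_lit 225) (nat_lit 5) (nat_lit 597) (nat_lit 514) (nat_lit 449))) (XT.nd (nat_lit 78) (nat_lit 532) (nat_lit 0) (XT.lf (nat_lit 0) (nat_lit 4341278280) (nat_lit 456) (nat_lit 4034202752) (nat_lit 532) (nat_lit 1760713128) (nat_lit 218) (nat_lit 5) (nat_lit 224) (nat_lit 5) (nat_lit 225) (nat_lit 5) (nat_lit 598) (nat_lit 514) (nat_lit 448)) (XT.lf (nat_lit 0) (nat_lit 1478537575) (nat_lit 456) (nat_lit 80282575) (nat_lit 532) (nat_lit 8681490875) (nat_lit 211) (nat_lit 5) (nat_lit 217) (nat_lit 5) (nat_lit 218) (nat_lit 5) (nat_lit 599) (nat_lit 514) (nat_lit 447))))) (XT.nd (nat_lit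 312) (nat_lit 836) (nat_lit 0) (XT.nd (nat_lit 156) (nat_lit 912) (nat_lit 0) (XT.nd (nat_lit 78) (nat_lit 456) (nat_lit 0) (XT.lf (nat_lit 0) (nat_lit 4951312532) (nat_lit 532) (nat_lit 1458358409) (nat_lit 76) (nat_lit 3936004311) (nat_lit 211) (nat_lit 5) (nat_lit 218) (nat_lit 5) (nat_lit 212) (nat_lit 5) (nat_lit 600) (nat_lit 514) (nat_lit 446)) (XT.lf (nat_lit 0) (nat_lit 6019484894) (nat_lit 456) (nat_lit 2397778368) (nat_lit 532) (nat_lit 2035771996) (nat_lit 205) (nat_lit 5) (nat_lit 211) (nat_lit 5) (nat_lit 212) (nat_lit 5) (nat_lit 601) (nat_lit 514) (nat_lit 445))) (XT.nd (nat_lit 78) (nat_lit 456) (nat_lit 0) (XT.lf (nat_lit 0) (nat_lit 1378912349) (nat_lit 456) (nat_lit 7488087831) (nat_lit 76) (nat_lit 1695219391) (nat_lit 199) (nat_lit 5) (nat_lit 205) (nat_lit 5) (nat_lit 200) (nat_lit 5) (nat_lit 602) (nat_lit 514) (nat_lit 444)) (XT.lf (nat_lit 0) (nat_lit 39622045) (nat_lit 456) (nat_lit 4807469531) (nat_lit 532) (nat_lit 5825978286)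 (nat_lit 193) (nat_lit 5) (nat_lit 199) (nat_lit 5) (nat_lit 200) (nat_lit 5) (nat_lit 603) (nat_lit 514) (nat_lit 443)))) (XT.nd (nat_lit 156) (nat_lit 380) (nat_lit 0) (XT.nd (nat_lit 78) (nat_lit 456) (nat_lit 0) (XT.lf (nat_lit 0) (nat_lit 7769308577) (nat_lit 456) (nat_lit 632259113) (nat_lit 532) (nat_lit 2384231417) (nat_lit 193) (nat_lit 5) (nat_lit 199) (nat_lit 5) (nat_lit 200) (nat_lit 5) (nat_lit 604) (nat_lit 514) (nat_lit 442)) (XT.lf (nat_lit 0) (nat_lit 1133283429) (nat_lit 456) (nat_lit 6166003633) (nat_lit 76) (nat_lit 3600916098) (nat_lit 187) (nat_lit 5) (nat_lit 193) (nat_lit 5) (nat_lit 188) (nat_lit 5) (nat_lit 605) (nat_lit 514) (nat_lit 441))) (XT.nd (nat_lit 78) (nat_lit 0) (nat_lit 0) (XT.lf (nat_lit 0) (nat_lit 1615626952) (nat_lit 380) (nat_lit 3076017451) (nat_lit 456) (nat_lit 6324887860) (nat_lit 182) (nat_lit 5) (nat_lit 187) (nat_lit 5) (nat_lit 188) (nat_lit 5) (nat_lit 606) (nat_lit 514) (nat_lit 440)) (XT.lf (nat_lit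 0) (nat_lit 8338367170) (nat_lit 456) (nat_lit 1556122514) (nat_lit 76) (nat_lit 1240354938) (nat_lit 182) (nat_lit 5) (nat_lit 188) (nat_lit 5) (nat_lit 183) (nat_lit 5) (nat_lit 607) (nat_lit 514) (nat_lit 439)))))) (XT.nd (nat_lit 624) (nat_lit 2052) (nat_lit 0) (XT.nd (nat_lit 312) (nat_lit 1140) (nat_lit 0) (XT.nd (nat_lit 156) (nat_lit 456) (nat_lit 0) (XT.nd (nat_lit 78) (nat_lit 380) (nat_lit 0) (XT.lf (nat_lit 0) (nat_lit 822679984) (nat_lit 456) (nat_lit 4799388026) (nat_lit 76) (nat_lit 5632737481) (nat_lit 176) (nat_lit 5) (nat_lit 182) (nat_lit 5) (nat_lit 177) (nat_lit 5) (nat_lit 608) (nat_lit 514) (nat_lit 438)) (XT.lf (nat_lit 0) (nat_lit 3246228111) (nat_lit 380) (nat_lit 1230452213) (nat_lit 456) (nat_lit 6900118000) (nat_lit 171) (nat_lit 5) (nat_lit 176) (nat_lit 5) (nat_lit 177) (nat_lit 5) (nat_lit 609) (nat_lit 514) (nat_lit 437))) (XT.nd (nat_lit 78) (nat_lit 456) (nat_lit 0) (XT.lf (nat_lit 0) (nat_lit 8225749103) (nat_lit 456)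 (nat_lit 53357564) (nat_lit 76) (nat_lit 3221685102) (nat_lit 171) (nat_lit 5) (nat_lit 177) (nat_lit 5) (nat_lit 172) (nat_lit 5) (nat_lit 610) (nat_lit 514) (nat_lit 436)) (XT.lf (nat_lit 0) (nat_lit 447916308) (nat_lit 456) (nat_lit 3392628102) (nat_lit 76) (nat_lit 7786047834) (nat_lit 165) (nat_lit 5) (nat_lit 171) (nat_lit 5) (nat_lit 166) (nat_lit 5) (nat_lit 611) (nat_lit 514) (nat_lit 435)))) (XT.nd (nat_lit 156) (nat_lit 456) (nat_lit 0) (XT.nd (nat_lit 78) (nat_lit 304) (nat_lit 0) (XT.lf (nat_lit 0) (nat_lit 4207761154) (nat_lit 456) (nat_lit 6831763698) (nat_lit 76) (nat_lit 714825818) (nat_lit 160) (nat_lit 5) (nat_lit 166) (nat_lit 5) (nat_lit 161) (nat_lit 5) (nat_lit 612) (nat_lit 514) (nat_lit 434)) (XT.lf (nat_lit 0) (nat_lit 1511543886) (nat_lit 304) (nat_lit 6558785608) (nat_lit 380) (nat_lit 3813784723) (nat_lit 156) (nat_lit 5) (nat_lit 160) (nat_lit 5) (nat_lit 161) (nat_lit 5) (nat_lit 613) (nat_lit 514) (nat_lit 433))) (XT.nd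 (nat_lit 78) (nat_lit 380) (nat_lit 0) (XT.lf (nat_lit 0) (nat_lit 9354877) (nat_lit 380) (nat_lit 1950162415) (nat_lit 76) (nat_lit 10056645113) (nat_lit 155) (nat_lit 5) (nat_lit 160) (nat_lit 5) (nat_lit 156) (nat_lit 5) (nat_lit 614) (nat_lit 514) (nat_lit 432)) (XT.lf (nat_lit 0) (nat_lit 3889267989) (nat_lit 456) (nat_lit 5513151163) (nat_lit 76) (nat_lit 2747301132) (nat_lit 150) (nat_lit 5) (nat_lit 156) (nat_lit 5) (nat_lit 151) (nat_lit 5) (nat_lit 615) (nat_lit 514) (nat_lit 431))))) (XT.nd (nat_lit 312) (nat_lit 988) (nat_lit 0) (XT.nd (nat_lit 156) (nat_lit 760) (nat_lit 0) (XT.nd (nat_lit 78) (nat_lit 0) (nat_lit 0) (XT.lf (nat_lit 0) (nat_lit 3115703709) (nat_lit 304) (nat_lit 4747666080) (nat_lit 380) (nat_lit 4422248170) (nat_lit 146) (nat_lit 5) (nat_lit 150) (nat_lit 5) (nat_lit 151) (nat_lit 5) (nat_lit 616) (nat_lit 514) (nat_lit 430)) (XT.lf (nat_lit 0) (nat_lit 11924565050) (nat_lit 380) (nat_lit 479908863) (nat_lit 76) (nat_lit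 19607884) (nat_lit 146) (nat_lit 5) (nat_lit 151) (nat_lit 5) (nat_lit 147) (nat_lit 5) (nat_lit 617) (nat_lit 514) (nat_lit 429))) (XT.nd (nat_lit 78) (nat_lit 304) (nat_lit 0) (XT.lf (nat_lit 0) (nat_lit 3513153662) (nat_lit 456) (nat_lit 4171553555) (nat_lit 76) (nat_lit 4879005225) (nat_lit 140) (nat_lit 5) (nat_lit 146) (nat_lit 5) (nat_lit 141) (nat_lit 5) (nat_lit 618) (nat_lit 514) (nat_lit 428)) (XT.lf (nat_lit 0) (nat_lit 4753950886) (nat_lit 304) (nat_lit 2850576782) (nat_lit 380) (nat_lit 5101439634) (nat_lit 136) (nat_lit 5) (nat_lit 140) (nat_lit 5) (nat_lit 141) (nat_lit 5) (nat_lit 619) (nat_lit 514) (nat_lit 427)))) (XT.nd (nat_lit 156) (nat_lit 608) (nat_lit 0) (XT.nd (nat_lit 78) (nat_lit 76) (nat_lit 0) (XT.lf (nat_lit 0) (nat_lit 1016325051) (nat_lit 304) (nat_lit 10780858688) (nat_lit 380) (nat_lit 1053494833) (nat_lit 132) (nat_lit 5) (nat_lit 136) (nat_lit 5) (nat_lit 137) (nat_lit 5) (nat_lit 620) (nat_lit 514) (nat_lit 426)) (XT.lf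 (nat_lit 0) (nat_lit 3078909364) (nat_lit 380) (nat_lit 2811979158) (nat_lit 76) (nat_lit 7106119882) (nat_lit 131) (nat_lit 5) (nat_lit 136) (nat_lit 5) (nat_lit 132) (nat_lit 5) (nat_lit 621) (nat_lit 514) (nat_lit 425))) (XT.nd (nat_lit 78) (nat_lit 304) (nat_lit 0) (XT.lf (nat_lit 0) (nat_lit 6421627508) (nat_lit 304) (nat_lit 871739828) (nat_lit 380) (nat_lit 5852488366) (nat_lit 127) (nat_lit 5) (nat_lit 131) (nat_lit 5) (nat_lit 132) (nat_lit 5) (nat_lit 622) (nat_lit 514) (nat_lit 424)) (XT.lf (nat_lit 0) (nat_lit 2539730952) (nat_lit 304) (nat_lit 9087387708) (nat_lit 380) (nat_lit 1669861575) (nat_lit 123) (nat_lit 5) (nat_lit 127) (nat_lit 5) (nat_lit 128) (nat_lit 5) (nat_lit 623) (nat_lit 514) (nat_lit 423))))))))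
noncomputable def xc57 : XT := (XT.nd (nat_lit 74490) (nat_lit 0) (nat_lit 26448) (XT.nd (nat_lit 1170) (nat_lit 1520) (nat_lit 0) (XT.nd (nat_lit 546) (nat_lit 1368) (nat_lit 0) (XT.nd (nat_lit 234) (nat_lit 912) (nat_lit 0) (XT.nd (nat_lit 78) (nat_lit 608) (nat_lit 0) (XT.lf (nat_lit 0) (nat_lit 2585565707) (nat_lit 380) (nat_lit 1439696792) (nat_lit 76) (nat_lit 9425063959) (nat_lit 122) (nat_lit 5) (nat_lit 127) (nat_lit 5) (nat_lit 123) (nat_lit 5) (nat_lit 624) (nat_lit 514) (nat_lit 422)) (XT.nd (nat_lit 78) (nat_lit 304) (nat_lit 0) (XT.lf (nat_lit 0) (nat_lit 6936690208) (nat_lit 380) (nat_lit 5499889939) (nat_lit 76) (nat_lit 1169280092) (nat_lit 118) (nat_lit 5) (nat_lit 123) (nat_lit 5) (nat_lit 119) (nat_lit 5) (nat_lit 625) (nat_lit 514) (nat_lit 421)) (XT.lf (nat_lit 0) (nat_lit 4078655233) (nat_lit 304) (nat_lit 7331724734) (nat_lit 380) (nat_lit 2353414217) (nat_lit 114) (nat_lit 5) (nat_lit 118) (nat_lit 5) (nat_lit 119) (nat_lit 5)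 (nat_lit 626) (nat_lit 514) (nat_lit 420)))) (XT.nd (nat_lit 156) (nat_lit 608) (nat_lit 0) (XT.nd (nat_lit 78) (nat_lit 228) (nat_lit 0) (XT.lf (nat_lit 0) (nat_lit 2031678913) (nat_lit 380) (nat_lit 60301839) (nat_lit 76) (nat_lit 11832442549) (nat_lit 113) (nat_lit 5) (nat_lit 118) (nat_lit 5) (nat_lit 114) (nat_lit 5) (nat_lit 627) (nat_lit 514) (nat_lit 419)) (XT.lf (nat_lit 0) (nat_lit 6531581611) (nat_lit 304) (nat_lit 4283460817) (nat_lit 76) (nat_lit 3271739379) (nat_lit 110) (nat_lit 5) (nat_lit 114) (nat_lit 5) (nat_lit 111) (nat_lit 5) (nat_lit 628) (nat_lit 514) (nat_lit 418))) (XT.nd (nat_lit 78) (nat_lit 304) (nat_lit 0) (XT.lf (nat_lit 0) (nat_lit 5627456389) (nat_lit 304) (nat_lit 5518213484) (nat_lit 380) (nat_lit 3106234179) (nat_lit 106) (nat_lit 5) (nat_lit 110) (nat_lit 5) (nat_lit 111) (nat_lit 5) (nat_lit 629) (nat_lit 514) (nat_lit 417)) (XT.lf (nat_lit 0) (nat_lit 1337758128) (nat_lit 228) (nat_lit 86240530) (nat_lit 304) (nat_lit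 12995923185) (nat_lit 102) (nat_lit 5) (nat_lit 105) (nat_lit 5) (nat_lit 106) (nat_lit 5) (nat_lit 630) (nat_lit 514) (nat_lit 416))))) (XT.nd (nat_lit 312) (nat_lit 760) (nat_lit 0) (XT.nd (nat_lit 156) (nat_lit 304) (nat_lit 0) (XT.nd (nat_lit 78) (nat_lit 304) (nat_lit 0) (XT.lf (nat_lit 0) (nat_lit 6070506738) (nat_lit 304) (nat_lit 3075706742) (nat_lit 76) (nat_lit 5443330905) (nat_lit 102) (nat_lit 5) (nat_lit 106) (nat_lit 5) (nat_lit 103) (nat_lit 5) (nat_lit 631) (nat_lit 514) (nat_lit 415)) (XT.lf (nat_lit 0) (nat_lit 7180053209) (nat_lit 304) (nat_lit 3651152057) (nat_lit 380) (nat_lit 3930929200) (nat_lit 98) (nat_lit 5) (nat_lit 102) (nat_lit 5) (nat_lit 103) (nat_lit 5) (nat_lit 632) (nat_lit 514) (nat_lit 414))) (XT.nd (nat_lit 78) (nat_lit 0) (nat_lit 0) (XT.lf (nat_lit 0) (nat_lit 764602752) (nat_lit 304) (nat_lit 12219475579) (nat_lit 76) (nat_lit 1953491374) (nat_lit 94) (nat_lit 5) (nat_lit 98) (nat_lit 5) (nat_lit 95) (nat_lit 5)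 (nat_lit 633) (nat_lit 514) (nat_lit 413)) (XT.lf (nat_lit 0) (nat_lit 5551079025) (nat_lit 304) (nat_lit 1883570515) (nat_lit 76) (nat_lit 7680351339) (nat_lit 94) (nat_lit 5) (nat_lit 98) (nat_lit 5) (nat_lit 95) (nat_lit 5) (nat_lit 634) (nat_lit 514) (nat_lit 412)))) (XT.nd (nat_lit 156) (nat_lit 228) (nat_lit 0) (XT.nd (nat_lit 78) (nat_lit 304) (nat_lit 0) (XT.lf (nat_lit 0) (nat_lit 8729844982) (nat_lit 228) (nat_lit 1734848313) (nat_lit 304) (nat_lit 4830659485) (nat_lit 91) (nat_lit 5) (nat_lit 94) (nat_lit 5) (nat_lit 95) (nat_lit 5) (nat_lit 635) (nat_lit 514) (nat_lit 411)) (XT.lf (nat_lit 0) (nat_lit 38125904) (nat_lit 304) (nat_lit 11393534060) (nat_lit 76) (nat_lit 4046835932) (nat_lit 87) (nat_lit 5) (nat_lit 91) (nat_lit 5) (nat_lit 88) (nat_lit 5) (nat_lit 636) (nat_lit 514) (nat_lit 410))) (XT.nd (nat_lit 78) (nat_lit 228) (nat_lit 0) (XT.lf (nat_lit 0) (nat_lit 4970372373) (nat_lit 304) (nat_lit 714596624) (nat_lit 76) (nat_lit 9979079164)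 (nat_lit 87) (nat_lit 5) (nat_lit 91) (nat_lit 5) (nat_lit 88) (nat_lit 5) (nat_lit 637) (nat_lit 514) (nat_lit 409)) (XT.lf (nat_lit 0) (nat_lit 10044771790) (nat_lit 304) (nat_lit 5584315201) (nat_lit 76) (nat_lit 223354571) (nat_lit 84) (nat_lit 5) (nat_lit 88) (nat_lit 5) (nat_lit 85) (nat_lit 5) (nat_lit 638) (nat_lit 514) (nat_lit 408)))))) (XT.nd (nat_lit 72696) (nat_lit 0) (nat_lit 51452) (XT.nd (nat_lit 312) (nat_lit 760) (nat_lit 0) (XT.nd (nat_lit 156) (nat_lit 228) (nat_lit 0) (XT.nd (nat_lit 78) (nat_lit 304) (nat_lit 0) (XT.lf (nat_lit 0) (nat_lit 5426097232) (nat_lit 228) (nat_lit 9847716301) (nat_lit 304) (nat_lit 769726457) (nat_lit 81) (nat_lit 5) (nat_lit 84) (nat_lit 5) (nat_lit 85) (nat_lit 5) (nat_lit 639) (nat_lit 514) (nat_lit 407)) (XT.lf (nat_lit 0) (nat_lit 428598070) (nat_lit 228) (nat_lit 3899073115) (nat_lit 304) (nat_lit 11909902207) (nat_lit 77) (nat_lit 5) (nat_lit 80) (nat_lit 5) (nat_lit 81) (nat_lit 5) (nat_lit 640)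 (nat_lit 514) (nat_lit 406))) (XT.nd (nat_lit 78) (nat_lit 228) (nat_lit 0) (XT.lf (nat_lit 0) (nat_lit 9578092871) (nat_lit 304) (nat_lit 4657424482) (nat_lit 76) (nat_lit 2198640928) (nat_lit 77) (nat_lit 5) (nat_lit 81) (nat_lit 5) (nat_lit 78) (nat_lit 5) (nat_lit 641) (nat_lit 514) (nat_lit 405)) (XT.lf (nat_lit 0) (nat_lit 6737349256) (nat_lit 228) (nat_lit 8241790712) (nat_lit 304) (nat_lit 1654622789) (nat_lit 74) (nat_lit 5) (nat_lit 77) (nat_lit 5) (nat_lit 78) (nat_lit 5) (nat_lit 642) (nat_lit 514) (nat_lit 404)))) (XT.nd (nat_lit 156) (nat_lit 456) (nat_lit 0) (XT.nd (nat_lit 78) (nat_lit 0) (nat_lit 0) (XT.lf (nat_lit 0) (nat_lit 1540320362) (nat_lit 228) (nat_lit 2080199185) (nat_lit 304) (nat_lit 13216014871) (nat_lit 70) (nat_lit 5) (nat_lit 73) (nat_lit 5) (nat_lit 74) (nat_lit 5) (nat_lit 643) (nat_lit 514) (nat_lit 403)) (XT.lf (nat_lit 0) (nat_lit 9049346048) (nat_lit 304) (nat_lit 3783256232) (nat_lit 76) (nat_lit 4209133971) (nat_lit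 70) (nat_lit 5) (nat_lit 74) (nat_lit 5) (nat_lit 71) (nat_lit 5) (nat_lit 644) (nat_lit 514) (nat_lit 402))) (XT.nd (nat_lit 78) (nat_lit 304) (nat_lit 0) (XT.lf (nat_lit 0) (nat_lit 8009601034) (nat_lit 152) (nat_lit 6619562008) (nat_lit 228) (nat_lit 2621031011) (nat_lit 68) (nat_lit 5) (nat_lit 70) (nat_lit 5) (nat_lit 71) (nat_lit 5) (nat_lit 645) (nat_lit 514) (nat_lit 401)) (XT.lf (nat_lit 0) (nat_lit 2601008061) (nat_lit 228) (nat_lit 238380683) (nat_lit 304) (nat_lit 14622679113) (nat_lit 64) (nat_lit 5) (nat_lit 67) (nat_lit 5) (nat_lit 68) (nat_lit 5) (nat_lit 646) (nat_lit 514) (nat_lit 400))))) (XT.nd (nat_lit 312) (nat_lit 1444) (nat_lit 0) (XT.nd (nat_lit 156) (nat_lit 1064) (nat_lit 0) (XT.nd (nat_lit 78) (nat_lit 76) (nat_lit 0) (XT.lf (nat_lit 0) (nat_lit 1146724611) (nat_lit 380) (nat_lit 1049049888) (nat_lit 380) (nat_lit 1049049888) (nat_lit 775) (nat_lit 4) (nat_lit 780) (nat_lit 5) (nat_lit 780) (nat_lit 4) (nat_lit 530) (nat_lit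 515) (nat_lit 515)) (XT.lf (nat_lit 0) (nat_lit 1121894601) (nat_lit 456) (nat_lit 474809974) (nat_lit 76) (nat_lit 4903188789) (nat_lit 774) (nat_lit 5) (nat_lit 780) (nat_lit 5) (nat_lit 775) (nat_lit 4) (nat_lit 531) (nat_lit 515) (nat_lit 514))) (XT.nd (nat_lit 78) (nat_lit 608) (nat_lit 0) (XT.lf (nat_lit 0) (nat_lit 3301247657) (nat_lit 456) (nat_lit 1020324605) (nat_lit 532) (nat_lit 2189629945) (nat_lit 768) (nat_lit 5) (nat_lit 774) (nat_lit 5) (nat_lit 775) (nat_lit 4) (nat_lit 532) (nat_lit 515) (nat_lit 513)) (XT.lf (nat_lit 0) (nat_lit 587504200) (nat_lit 532) (nat_lit 390706437) (nat_lit 608) (nat_lit 5545799937) (nat_lit 760) (nat_lit 5) (nat_lit 767) (nat_lit 5) (nat_lit 768) (nat_lit 5) (nat_lit 533) (nat_lit 515) (nat_lit 512)))) (XT.nd (nat_lit 156) (nat_lit 760) (nat_lit 0) (XT.nd (nat_lit 78) (nat_lit 684) (nat_lit 0) (XT.lf (nat_lit 0) (nat_lit 4127418552) (nat_lit 608) (nat_lit 2099740035) (nat_lit 76) (nat_lit 310684484) (nat_lit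 760) (nat_lit 5) (nat_lit 768) (nat_lit 5) (nat_lit 761) (nat_lit 4) (nat_lit 534) (nat_lit 515) (nat_lit 511)) (XT.lf (nat_lit 0) (nat_lit 716573778) (nat_lit 684) (nat_lit 4773539826) (nat_lit 76) (nat_lit 1062955287) (nat_lit 751) (nat_lit 5) (nat_lit 760) (nat_lit 5) (nat_lit 752) (nat_lit 5) (nat_lit 535) (nat_lit 515) (nat_lit 510))) (XT.nd (nat_lit 78) (nat_lit 760) (nat_lit 0) (XT.lf (nat_lit 0) (nat_lit 3814174348) (nat_lit 684) (nat_lit 870421211) (nat_lit 76) (nat_lit 1884882046) (nat_lit 751) (nat_lit 5) (nat_lit 760) (nat_lit 5) (nat_lit 752) (nat_lit 5) (nat_lit 536) (nat_lit 515) (nat_lit 509)) (XT.lf (nat_lit 0) (nat_lit 329790037) (nat_lit 760) (nat_lit 3487892200) (nat_lit 76) (nat_lit 2769538383) (nat_lit 741) (nat_lit 5) (nat_lit 751) (nat_lit 5) (nat_lit 742) (nat_lit 5) (nat_lit 537) (nat_lit 515) (nat_lit 508))))))) (XT.nd (nat_lit 1170) (nat_lit 14972) (nat_lit 0) (XT.nd (nat_lit 546) (nat_lit 6308) (nat_lit 0) (XT.nd (nat_lit 234)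 (nat_lit 2052) (nat_lit 0) (XT.nd (nat_lit 78) (nat_lit 912) (nat_lit 0) (XT.lf (nat_lit 0) (nat_lit 492721435) (nat_lit 760) (nat_lit 2884278419) (nat_lit 836) (nat_lit 3229211799) (nat_lit 731) (nat_lit 5) (nat_lit 741) (nat_lit 5) (nat_lit 742) (nat_lit 5) (nat_lit 538) (nat_lit 515) (nat_lit 507)) (XT.nd (nat_lit 78) (nat_lit 912) (nat_lit 0) (XT.lf (nat_lit 0) (nat_lit 4550033913) (nat_lit 760) (nat_lit 1887802546) (nat_lit 836) (nat_lit 188695900) (nat_lit 731) (nat_lit 5) (nat_lit 741) (nat_lit 5) (nat_lit 742) (nat_lit 5) (nat_lit 539) (nat_lit 515) (nat_lit 506)) (XT.lf (nat_lit 0) (nat_lit 1998392192) (nat_lit 836) (nat_lit 819214495) (nat_lit 912) (nat_lit 3830414424) (nat_lit 719) (nat_lit 5) (nat_lit 730) (nat_lit 5) (nat_lit 731) (nat_lit 5) (nat_lit 540) (nat_lit 515) (nat_lit 505)))) (XT.nd (nat_lit 156) (nat_lit 1064) (nat_lit 0) (XT.nd (nat_lit 78) (nat_lit 988) (nat_lit 0) (XT.lf (nat_lit 0) (nat_lit 5828664946) (nat_lit 912) (nat_lit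 541143622) (nat_lit 76) (nat_lit 301166301) (nat_lit 719) (nat_lit 5) (nat_lit 731) (nat_lit 5) (nat_lit 720) (nat_lit 5) (nat_lit 541) (nat_lit 515) (nat_lit 504)) (XT.lf (nat_lit 0) (nat_lit 2138157728) (nat_lit 988) (nat_lit 3067681432) (nat_lit 76) (nat_lit 1489034767) (nat_lit 706) (nat_lit 5) (nat_lit 719) (nat_lit 5) (nat_lit 707) (nat_lit 5) (nat_lit 542) (nat_lit 515) (nat_lit 503))) (XT.nd (nat_lit 78) (nat_lit 76) (nat_lit 0) (XT.lf (nat_lit 0) (nat_lit 1125345270) (nat_lit 988) (nat_lit 3985851138) (nat_lit 1064) (nat_lit 1609061515) (nat_lit 693) (nat_lit 5) (nat_lit 706) (nat_lit 5) (nat_lit 707) (nat_lit 5) (nat_lit 543) (nat_lit 515) (nat_lit 502)) (XT.lf (nat_lit 0) (nat_lit 1333749000) (nat_lit 1064) (nat_lit 1362544179) (nat_lit 76) (nat_lit 4050587295) (nat_lit 692) (nat_lit 5) (nat_lit 706) (nat_lit 5) (nat_lit 693) (nat_lit 5) (nat_lit 544) (nat_lit 515) (nat_lit 501))))) (XT.nd (nat_lit 312) (nat_lit 2812) (nat_lit 0) (XT.nd (nat_lit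 156) (nat_lit 1216) (nat_lit 0) (XT.nd (nat_lit 78) (nat_lit 1216) (nat_lit 0) (XT.lf (nat_lit 0) (nat_lit 2931863717) (nat_lit 1064) (nat_lit 1336169987) (nat_lit 1140) (nat_lit 2506708720) (nat_lit 678) (nat_lit 5) (nat_lit 692) (nat_lit 5) (nat_lit 693) (nat_lit 5) (nat_lit 545) (nat_lit 515) (nat_lit 500)) (XT.lf (nat_lit 0) (nat_lit 400307340) (nat_lit 1216) (nat_lit 6324684638) (nat_lit 76) (nat_lit 79143609) (nat_lit 662) (nat_lit 5) (nat_lit 678) (nat_lit 5) (nat_lit 663) (nat_lit 5) (nat_lit 546) (nat_lit 515) (nat_lit 499))) (XT.nd (nat_lit 78) (nat_lit 1216) (nat_lit 0) (XT.lf (nat_lit 0) (nat_lit 3303383214) (nat_lit 1216) (nat_lit 1970853069) (nat_lit 76) (nat_lit 1560122020) (nat_lit 662) (nat_lit 5) (nat_lit 678) (nat_lit 5) (nat_lit 663) (nat_lit 5) (nat_lit 547) (nat_lit 515) (nat_lit 498)) (XT.lf (nat_lit 0) (nat_lit 2451272307) (nat_lit 1216) (nat_lit 3767051447) (nat_lit 1292) (nat_lit 647788363) (nat_lit 646) (nat_lit 5) (nat_lit 662)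 (nat_lit 5) (nat_lit 663) (nat_lit 5) (nat_lit 548) (nat_lit 515) (nat_lit 497)))) (XT.nd (nat_lit 156) (nat_lit 1444) (nat_lit 0) (XT.nd (nat_lit 78) (nat_lit 0) (nat_lit 0) (XT.lf (nat_lit 0) (nat_lit 24243141) (nat_lit 1292) (nat_lit 2190584655) (nat_lit 1368) (nat_lit 4684341262) (nat_lit 628) (nat_lit 5) (nat_lit 645) (nat_lit 5) (nat_lit 646) (nat_lit 5) (nat_lit 549) (nat_lit 515) (nat_lit 496)) (XT.lf (nat_lit 0) (nat_lit 4556525077) (nat_lit 1292) (nat_lit 538349075) (nat_lit 1368) (nat_lit 1838552864) (nat_lit 628) (nat_lit 5) (nat_lit 645) (nat_lit 5) (nat_lit 646) (nat_lit 5) (nat_lit 550) (nat_lit 515) (nat_lit 495))) (XT.nd (nat_lit 78) (nat_lit 0) (nat_lit 0) (XT.lf (nat_lit 0) (nat_lit 1012046667) (nat_lit 1444) (nat_lit 4794883646) (nat_lit 76) (nat_lit 1162067051) (nat_lit 609) (nat_lit 5) (nat_lit 628) (nat_lit 5) (nat_lit 610) (nat_lit 5) (nat_lit 551) (nat_lit 515) (nat_lit 494)) (XT.lf (nat_lit 0) (nat_lit 3855627564) (nat_lit 1444)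 (nat_lit 224220867) (nat_lit 76) (nat_lit 2925978284) (nat_lit 609) (nat_lit 5) (nat_lit 628) (nat_lit 5) (nat_lit 610) (nat_lit 5) (nat_lit 552) (nat_lit 515) (nat_lit 493)))))) (XT.nd (nat_lit 624) (nat_lit 4940) (nat_lit 0) (XT.nd (nat_lit 312) (nat_lit 5320) (nat_lit 0) (XT.nd (nat_lit 156) (nat_lit 1672) (nat_lit 0) (XT.nd (nat_lit 78) (nat_lit 1596) (nat_lit 0) (XT.lf (nat_lit 0) (nat_lit 4445389336) (nat_lit 1444) (nat_lit 2281654594) (nat_lit 1520) (nat_lit 316931804) (nat_lit 590) (nat_lit 5) (nat_lit 609) (nat_lit 5) (nat_lit 610) (nat_lit 5) (nat_lit 553) (nat_lit 515) (nat_lit 492)) (XT.lf (nat_lit 0) (nat_lit 2088043001) (nat_lit 1520) (nat_lit 408812969) (nat_lit 1596) (nat_lit 4586547907) (nat_lit 569) (nat_lit 5) (nat_lit 589) (nat_lit 5) (nat_lit 590) (nat_lit 5) (nat_lit 554) (nat_lit 515) (nat_lit 491))) (XT.nd (nat_lit 78) (nat_lit 1672) (nat_lit 0) (XT.lf (nat_lit 0) (nat_lit 5333345021) (nat_lit 1596) (nat_lit 283641864) (nat_lit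 76) (nat_lit 1507180638) (nat_lit 569) (nat_lit 5) (nat_lit 590) (nat_lit 5) (nat_lit 570) (nat_lit 5) (nat_lit 555) (nat_lit 515) (nat_lit 490)) (XT.lf (nat_lit 0) (nat_lit 1023327114) (nat_lit 1672) (nat_lit 2644976314) (nat_lit 76) (nat_lit 3497778946) (nat_lit 547) (nat_lit 5) (nat_lit 569) (nat_lit 5) (nat_lit 548) (nat_lit 5) (nat_lit 556) (nat_lit 515) (nat_lit 489)))) (XT.nd (nat_lit 156) (nat_lit 3648) (nat_lit 0) (XT.nd (nat_lit 78) (nat_lit 0) (nat_lit 0) (XT.lf (nat_lit 0) (nat_lit 2182330282) (nat_lit 1672) (nat_lit 1648426556) (nat_lit 1748) (nat_lit 3378624508) (nat_lit 525) (nat_lit 5) (nat_lit 547) (nat_lit 5) (nat_lit 548) (nat_lit 5) (nat_lit 557) (nat_lit 515) (nat_lit 488)) (XT.lf (nat_lit 0) (nat_lit 6660515398) (nat_lit 1748) (nat_lit 166134717) (nat_lit 76) (nat_lit 427574629) (nat_lit 525) (nat_lit 5) (nat_lit 548) (nat_lit 5) (nat_lit 526) (nat_lit 5) (nat_lit 558) (nat_lit 515) (nat_lit 487))) (XT.nd (nat_lit 78) (nat_lit 1824)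 (nat_lit 0) (XT.lf (nat_lit 0) (nat_lit 2206099042) (nat_lit 1824) (nat_lit 2521929617) (nat_lit 76) (nat_lit 2571873287) (nat_lit 501) (nat_lit 5) (nat_lit 525) (nat_lit 5) (nat_lit 502) (nat_lit 5) (nat_lit 559) (nat_lit 515) (nat_lit 486)) (XT.lf (nat_lit 0) (nat_lit 2453447631) (nat_lit 1824) (nat_lit 2564635514) (nat_lit 1900) (nat_lit 2329050405) (nat_lit 477) (nat_lit 5) (nat_lit 501) (nat_lit 5) (nat_lit 502) (nat_lit 5) (nat_lit 560) (nat_lit 515) (nat_lit 485))))) (XT.nd (nat_lit 312) (nat_lit 1824) (nat_lit 0) (XT.nd (nat_lit 156) (nat_lit 1900) (nat_lit 0) (XT.nd (nat_lit 78) (nat_lit 0) (nat_lit 0) (XT.lf (nat_lit 0) (nat_lit 113844521) (nat_lit 1140) (nat_lit 335915773) (nat_lit 1216) (nat_lit 6946183542) (nat_lit 461) (nat_lit 5) (nat_lit 476) (nat_lit 5) (nat_lit 477) (nat_lit 5) (nat_lit 561) (nat_lit 515) (nat_lit 484)) (XT.lf (nat_lit 0) (nat_lit 3246751964) (nat_lit 1216) (nat_lit 2238028328) (nat_lit 76) (nat_lit 1960768142) (nat_lit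 461) (nat_lit 5) (nat_lit 477) (nat_lit 5) (nat_lit 462) (nat_lit 5) (nat_lit 562) (nat_lit 515) (nat_lit 483))) (XT.nd (nat_lit 78) (nat_lit 988) (nat_lit 0) (XT.lf (nat_lit 0) (nat_lit 2891052260) (nat_lit 912) (nat_lit 3178769734) (nat_lit 988) (nat_lit 1426922146) (nat_lit 449) (nat_lit 5) (nat_lit 461) (nat_lit 5) (nat_lit 462) (nat_lit 5) (nat_lit 563) (nat_lit 515) (nat_lit 482)) (XT.lf (nat_lit 0) (nat_lit 550518735) (nat_lit 912) (nat_lit 799670477) (nat_lit 988) (nat_lit 6199231101) (nat_lit 436) (nat_lit 5) (nat_lit 448) (nat_lit 5) (nat_lit 449) (nat_lit 5) (nat_lit 564) (nat_lit 515) (nat_lit 481)))) (XT.nd (nat_lit 156) (nat_lit 988) (nat_lit 0) (XT.nd (nat_lit 78) (nat_lit 836) (nat_lit 0) (XT.lf (nat_lit 0) (nat_lit 4155547895) (nat_lit 988) (nat_lit 1803009617) (nat_lit 76) (nat_lit 1644569312) (nat_lit 436) (nat_lit 5) (nat_lit 449) (nat_lit 5) (nat_lit 437) (nat_lit 5) (nat_lit 565) (nat_lit 515) (nat_lit 480)) (XT.lf (nat_lit 0) (nat_lit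 3485705759) (nat_lit 836) (nat_lit 3510332195) (nat_lit 912) (nat_lit 662290677) (nat_lit 425) (nat_lit 5) (nat_lit 436) (nat_lit 5) (nat_lit 437) (nat_lit 5) (nat_lit 566) (nat_lit 515) (nat_lit 479))) (XT.nd (nat_lit 78) (nat_lit 0) (nat_lit 0) (XT.lf (nat_lit 0) (nat_lit 1139134693) (nat_lit 912) (nat_lit 981972016) (nat_lit 988) (nat_lit 5593826890) (nat_lit 412) (nat_lit 5) (nat_lit 424) (nat_lit 5) (nat_lit 425) (nat_lit 5) (nat_lit 567) (nat_lit 515) (nat_lit 478)) (XT.lf (nat_lit 0) (nat_lit 4941864759) (nat_lit 988) (nat_lit 1225782432) (nat_lit 76) (nat_lit 1605126262) (nat_lit 412) (nat_lit 5) (nat_lit 425) (nat_lit 5) (nat_lit 413) (nat_lit 5) (nat_lit 568) (nat_lit 515) (nat_lit 477))))))))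
noncomputable def xc58 : XT := (XT.nd (nat_lit 2418) (nat_lit 8436) (nat_lit 0) (XT.nd (nat_lit 1170) (nat_lit 6384) (nat_lit 0) (XT.nd (nat_lit 546) (nat_lit 4256) (nat_lit 0) (XT.nd (nat_lit 234) (nat_lit 2432) (nat_lit 0) (XT.nd (nat_lit 78) (nat_lit 912) (nat_lit 0) (XT.lf (nat_lit 0) (nat_lit 4228800344) (nat_lit 836) (nat_lit 3577136214) (nat_lit 912) (nat_lit 26097099) (nat_lit 401) (nat_lit 5) (nat_lit 412) (nat_lit 5) (nat_lit 413) (nat_lit 5) (nat_lit 569) (nat_lit 515) (nat_lit 476)) (XT.nd (nat_lit 78) (nat_lit 0) (nat_lit 0) (XT.lf (nat_lit 0) (nat_lit 1871179535) (nat_lit 836) (nat_lit 900102546) (nat_lit 912) (nat_lit 5121357331) (nat_lit 389) (nat_lit 5) (nat_lit 400) (nat_lit 5) (nat_lit 401) (nat_lit 5) (nat_lit 570) (nat_lit 515) (nat_lit 475)) (XT.lf (nat_lit 0) (nat_lit 5614255961) (nat_lit 912) (nat_lit 514497230) (nat_lit 76) (nat_lit 1825902148) (nat_lit 389) (nat_lit 5) (nat_lit 401) (nat_lit 5) (nat_lit 390) (nat_lit 5) (nat_lit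 571) (nat_lit 515) (nat_lit 474)))) (XT.nd (nat_lit 156) (nat_lit 836) (nat_lit 0) (XT.nd (nat_lit 78) (nat_lit 760) (nat_lit 0) (XT.lf (nat_lit 0) (nat_lit 483460962) (nat_lit 836) (nat_lit 2908727308) (nat_lit 76) (nat_lit 4625784451) (nat_lit 378) (nat_lit 5) (nat_lit 389) (nat_lit 5) (nat_lit 379) (nat_lit 5) (nat_lit 572) (nat_lit 515) (nat_lit 473)) (XT.lf (nat_lit 0) (nat_lit 2738879787) (nat_lit 760) (nat_lit 569806990) (nat_lit 836) (nat_lit 4774037103) (nat_lit 368) (nat_lit 5) (nat_lit 378) (nat_lit 5) (nat_lit 379) (nat_lit 5) (nat_lit 573) (nat_lit 515) (nat_lit 472))) (XT.nd (nat_lit 78) (nat_lit 76) (nat_lit 0) (XT.lf (nat_lit 0) (nat_lit 327686105) (nat_lit 760) (nat_lit 5854946098) (nat_lit 836) (nat_lit 1966294884) (nat_lit 358) (nat_lit 5) (nat_lit 368) (nat_lit 5) (nat_lit 369) (nat_lit 5) (nat_lit 574) (nat_lit 515) (nat_lit 471)) (XT.lf (nat_lit 0) (nat_lit 881394044) (nat_lit 836) (nat_lit 2092718531) (nat_lit 76) (nat_lit 5242315223)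 (nat_lit 357) (nat_lit 5) (nat_lit 368) (nat_lit 5) (nat_lit 358) (nat_lit 5) (nat_lit 575) (nat_lit 515) (nat_lit 470))))) (XT.nd (nat_lit 312) (nat_lit 2052) (nat_lit 0) (XT.nd (nat_lit 156) (nat_lit 760) (nat_lit 0) (XT.nd (nat_lit 78) (nat_lit 684) (nat_lit 0) (XT.lf (nat_lit 0) (nat_lit 3735136968) (nat_lit 760) (nat_lit 5408488) (nat_lit 836) (nat_lit 4544857624) (nat_lit 347) (nat_lit 5) (nat_lit 357) (nat_lit 5) (nat_lit 358) (nat_lit 5) (nat_lit 576) (nat_lit 515) (nat_lit 469)) (XT.lf (nat_lit 0) (nat_lit 1298072534) (nat_lit 684) (nat_lit 5358028394) (nat_lit 760) (nat_lit 1699673746) (nat_lit 338) (nat_lit 5) (nat_lit 347) (nat_lit 5) (nat_lit 348) (nat_lit 5) (nat_lit 577) (nat_lit 515) (nat_lit 468))) (XT.nd (nat_lit 78) (nat_lit 684) (nat_lit 0) (XT.lf (nat_lit 0) (nat_lit 1174675164) (nat_lit 760) (nat_lit 1161832797) (nat_lit 76) (nat_lit 6091130156) (nat_lit 337) (nat_lit 5) (nat_lit 347) (nat_lit 5) (nat_lit 338) (nat_lit 5) (nat_lit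 578) (nat_lit 515) (nat_lit 467)) (XT.lf (nat_lit 0) (nat_lit 4078447028) (nat_lit 760) (nat_lit 3652520810) (nat_lit 76) (nat_lit 769853558) (nat_lit 328) (nat_lit 5) (nat_lit 338) (nat_lit 5) (nat_lit 329) (nat_lit 5) (nat_lit 579) (nat_lit 515) (nat_lit 466)))) (XT.nd (nat_lit 156) (nat_lit 1292) (nat_lit 0) (XT.nd (nat_lit 78) (nat_lit 76) (nat_lit 0) (XT.lf (nat_lit 0) (nat_lit 2383487438) (nat_lit 684) (nat_lit 4654134442) (nat_lit 760) (nat_lit 1537901042) (nat_lit 319) (nat_lit 5) (nat_lit 328) (nat_lit 5) (nat_lit 329) (nat_lit 5) (nat_lit 580) (nat_lit 515) (nat_lit 465)) (XT.lf (nat_lit 0) (nat_lit 1369257501) (nat_lit 760) (nat_lit 122313443) (nat_lit 76) (nat_lit 7160298018) (nat_lit 318) (nat_lit 5) (nat_lit 328) (nat_lit 5) (nat_lit 319) (nat_lit 5) (nat_lit 581) (nat_lit 515) (nat_lit 464))) (XT.nd (nat_lit 78) (nat_lit 608) (nat_lit 0) (XT.lf (nat_lit 0) (nat_lit 4324585867) (nat_lit 760) (nat_lit 2653140509) (nat_lit 76) (nat_lit 1751600921)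 (nat_lit 309) (nat_lit 5) (nat_lit 319) (nat_lit 5) (nat_lit 310) (nat_lit 5) (nat_lit 582) (nat_lit 515) (nat_lit 463)) (XT.lf (nat_lit 0) (nat_lit 3578117070) (nat_lit 608) (nat_lit 3754789696) (nat_lit 684) (nat_lit 1475551361) (nat_lit 301) (nat_lit 5) (nat_lit 309) (nat_lit 5) (nat_lit 310) (nat_lit 5) (nat_lit 583) (nat_lit 515) (nat_lit 462)))))) (XT.nd (nat_lit 624) (nat_lit 2660) (nat_lit 0) (XT.nd (nat_lit 312) (nat_lit 1748) (nat_lit 0) (XT.nd (nat_lit 156) (nat_lit 1292) (nat_lit 0) (XT.nd (nat_lit 78) (nat_lit 0) (nat_lit 0) (XT.lf (nat_lit 0) (nat_lit 1033649090) (nat_lit 608) (nat_lit 443517257) (nat_lit 684) (nat_lit 7412114326) (nat_lit 292) (nat_lit 5) (nat_lit 300) (nat_lit 5) (nat_lit 301) (nat_lit 5) (nat_lit 584) (nat_lit 515) (nat_lit 461)) (XT.lf (nat_lit 0) (nat_lit 4484101168) (nat_lit 684) (nat_lit 1557752017) (nat_lit 76) (nat_lit 2929373997) (nat_lit 292) (nat_lit 5) (nat_lit 301) (nat_lit 5) (nat_lit 293) (nat_lit 5) (nat_lit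 585) (nat_lit 515) (nat_lit 460))) (XT.nd (nat_lit 78) (nat_lit 684) (nat_lit 0) (XT.lf (nat_lit 0) (nat_lit 4876617070) (nat_lit 608) (nat_lit 2670452921) (nat_lit 684) (nat_lit 1507825691) (nat_lit 284) (nat_lit 5) (nat_lit 292) (nat_lit 5) (nat_lit 293) (nat_lit 5) (nat_lit 586) (nat_lit 515) (nat_lit 459)) (XT.lf (nat_lit 0) (nat_lit 1502990711) (nat_lit 684) (nat_lit 6855329415) (nat_lit 76) (nat_lit 781879336) (nat_lit 275) (nat_lit 5) (nat_lit 284) (nat_lit 5) (nat_lit 276) (nat_lit 5) (nat_lit 587) (nat_lit 515) (nat_lit 458)))) (XT.nd (nat_lit 156) (nat_lit 1216) (nat_lit 0) (XT.nd (nat_lit 78) (nat_lit 532) (nat_lit 0) (XT.lf (nat_lit 0) (nat_lit 4561585643) (nat_lit 684) (nat_lit 371604964) (nat_lit 76) (nat_lit 4293665250) (nat_lit 275) (nat_lit 5) (nat_lit 284) (nat_lit 5) (nat_lit 276) (nat_lit 5) (nat_lit 588) (nat_lit 515) (nat_lit 457)) (XT.lf (nat_lit 0) (nat_lit 6274060429) (nat_lit 532) (nat_lit 1410599819) (nat_lit 608) (nat_lit 1630519869)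 (nat_lit 268) (nat_lit 5) (nat_lit 275) (nat_lit 5) (nat_lit 276) (nat_lit 5) (nat_lit 589) (nat_lit 515) (nat_lit 456))) (XT.nd (nat_lit 78) (nat_lit 532) (nat_lit 0) (XT.lf (nat_lit 0) (nat_lit 1448919122) (nat_lit 684) (nat_lit 5779138666) (nat_lit 76) (nat_lit 2176959579) (nat_lit 259) (nat_lit 5) (nat_lit 268) (nat_lit 5) (nat_lit 260) (nat_lit 5) (nat_lit 590) (nat_lit 515) (nat_lit 455)) (XT.lf (nat_lit 0) (nat_lit 912378688) (nat_lit 532) (nat_lit 3654624297) (nat_lit 608) (nat_lit 4929455890) (nat_lit 252) (nat_lit 5) (nat_lit 259) (nat_lit 5) (nat_lit 260) (nat_lit 5) (nat_lit 591) (nat_lit 515) (nat_lit 454))))) (XT.nd (nat_lit 312) (nat_lit 1596) (nat_lit 0) (XT.nd (nat_lit 156) (nat_lit 456) (nat_lit 0) (XT.nd (nat_lit 78) (nat_lit 608) (nat_lit 0) (XT.lf (nat_lit 0) (nat_lit 7749793480) (nat_lit 608) (nat_lit 1823903314) (nat_lit 76) (nat_lit 15986344) (nat_lit 252) (nat_lit 5) (nat_lit 260) (nat_lit 5) (nat_lit 253) (nat_lit 5) (nat_lit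 592) (nat_lit 515) (nat_lit 453)) (XT.lf (nat_lit 0) (nat_lit 1315576346) (nat_lit 608) (nat_lit 4629140327) (nat_lit 76) (nat_lit 3739459538) (nat_lit 244) (nat_lit 5) (nat_lit 252) (nat_lit 5) (nat_lit 245) (nat_lit 5) (nat_lit 593) (nat_lit 515) (nat_lit 452))) (XT.nd (nat_lit 78) (nat_lit 0) (nat_lit 0) (XT.lf (nat_lit 0) (nat_lit 2283676100) (nat_lit 456) (nat_lit 2217245159) (nat_lit 532) (nat_lit 5279567317) (nat_lit 238) (nat_lit 5) (nat_lit 244) (nat_lit 5) (nat_lit 245) (nat_lit 5) (nat_lit 594) (nat_lit 515) (nat_lit 451)) (XT.lf (nat_lit 0) (nat_lit 7756053697) (nat_lit 532) (nat_lit 541362089) (nat_lit 76) (nat_lit 1581190550) (nat_lit 238) (nat_lit 5) (nat_lit 245) (nat_lit 5) (nat_lit 239) (nat_lit 5) (nat_lit 595) (nat_lit 515) (nat_lit 450)))) (XT.nd (nat_lit 156) (nat_lit 532) (nat_lit 0) (XT.nd (nat_lit 78) (nat_lit 456) (nat_lit 0) (XT.lf (nat_lit 0) (nat_lit 1105949253) (nat_lit 608) (nat_lit 3410032815) (nat_lit 76) (nat_lit 5462107747)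 (nat_lit 230) (nat_lit 5) (nat_lit 238) (nat_lit 5) (nat_lit 231) (nat_lit 5) (nat_lit 596) (nat_lit 515) (nat_lit 449)) (XT.lf (nat_lit 0) (nat_lit 3732979837) (nat_lit 456) (nat_lit 630893519) (nat_lit 532) (nat_lit 5715544261) (nat_lit 224) (nat_lit 5) (nat_lit 230) (nat_lit 5) (nat_lit 231) (nat_lit 5) (nat_lit 597) (nat_lit 515) (nat_lit 448))) (XT.nd (nat_lit 78) (nat_lit 76) (nat_lit 0) (XT.lf (nat_lit 0) (nat_lit 822083749) (nat_lit 456) (nat_lit 6880494547) (nat_lit 532) (nat_lit 2479881937) (nat_lit 218) (nat_lit 5) (nat_lit 224) (nat_lit 5) (nat_lit 225) (nat_lit 5) (nat_lit 598) (nat_lit 515) (nat_lit 447)) (XT.lf (nat_lit 0) (nat_lit 822525814) (nat_lit 532) (nat_lit 2126300940) (nat_lit 76) (nat_lit 7338375218) (nat_lit 217) (nat_lit 5) (nat_lit 224) (nat_lit 5) (nat_lit 218) (nat_lit 5) (nat_lit 599) (nat_lit 515) (nat_lit 446))))))) (XT.nd (nat_lit 1170) (nat_lit 3800) (nat_lit 0) (XT.nd (nat_lit 546) (nat_lit 2356) (nat_lit 0) (XT.nd (nat_lit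 234) (nat_lit 1292) (nat_lit 0) (XT.nd (nat_lit 78) (nat_lit 532) (nat_lit 0) (XT.lf (nat_lit 0) (nat_lit 4165477755) (nat_lit 532) (nat_lit 5144687635) (nat_lit 76) (nat_lit 1083391946) (nat_lit 211) (nat_lit 5) (nat_lit 218) (nat_lit 5) (nat_lit 212) (nat_lit 5) (nat_lit 600) (nat_lit 515) (nat_lit 445)) (XT.nd (nat_lit 78) (nat_lit 76) (nat_lit 0) (XT.lf (nat_lit 0) (nat_lit 2259549617) (nat_lit 456) (nat_lit 5330962478) (nat_lit 532) (nat_lit 2911223897) (nat_lit 205) (nat_lit 5) (nat_lit 211) (nat_lit 5) (nat_lit 212) (nat_lit 5) (nat_lit 601) (nat_lit 515) (nat_lit 444)) (XT.lf (nat_lit 0) (nat_lit 467310254) (nat_lit 532) (nat_lit 782264291) (nat_lit 76) (nat_lit 9362412388) (nat_lit 204) (nat_lit 5) (nat_lit 211) (nat_lit 5) (nat_lit 205) (nat_lit 5) (nat_lit 602) (nat_lit 515) (nat_lit 443)))) (XT.nd (nat_lit 156) (nat_lit 456) (nat_lit 0) (XT.nd (nat_lit 78) (nat_lit 456) (nat_lit 0) (XT.lf (nat_lit 0) (nat_lit 3905606647) (nat_lit 456) (nat_lit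 3893879851) (nat_lit 76) (nat_lit 2923948686) (nat_lit 199) (nat_lit 5) (nat_lit 205) (nat_lit 5) (nat_lit 200) (nat_lit 5) (nat_lit 603) (nat_lit 515) (nat_lit 442)) (XT.lf (nat_lit 0) (nat_lit 3759752842) (nat_lit 456) (nat_lit 3658542753) (nat_lit 532) (nat_lit 3418704876) (nat_lit 193) (nat_lit 5) (nat_lit 199) (nat_lit 5) (nat_lit 200) (nat_lit 5) (nat_lit 604) (nat_lit 515) (nat_lit 441))) (XT.nd (nat_lit 78) (nat_lit 0) (nat_lit 0) (XT.lf (nat_lit 0) (nat_lit 49666741) (nat_lit 456) (nat_lit 10330550239) (nat_lit 76) (nat_lit 572576370) (nat_lit 187) (nat_lit 5) (nat_lit 193) (nat_lit 5) (nat_lit 188) (nat_lit 5) (nat_lit 605) (nat_lit 515) (nat_lit 440)) (XT.lf (nat_lit 0) (nat_lit 3581685579) (nat_lit 456) (nat_lit 2594256501) (nat_lit 76) (nat_lit 4893707495) (nat_lit 187) (nat_lit 5) (nat_lit 193) (nat_lit 5) (nat_lit 188) (nat_lit 5) (nat_lit 606) (nat_lit 515) (nat_lit 439))))) (XT.nd (nat_lit 312) (nat_lit 1140) (nat_lit 0) (XT.nd (nat_lit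 156) (nat_lit 456) (nat_lit 0) (XT.nd (nat_lit 78) (nat_lit 380) (nat_lit 0) (XT.lf (nat_lit 0) (nat_lit 5318697042) (nat_lit 380) (nat_lit 1868786263) (nat_lit 456) (nat_lit 4001297406) (nat_lit 182) (nat_lit 5) (nat_lit 187) (nat_lit 5) (nat_lit 188) (nat_lit 5) (nat_lit 607) (nat_lit 515) (nat_lit 438)) (XT.lf (nat_lit 0) (nat_lit 2077851701) (nat_lit 380) (nat_lit 8803757516) (nat_lit 456) (nat_lit 428361552) (nat_lit 177) (nat_lit 5) (nat_lit 182) (nat_lit 5) (nat_lit 183) (nat_lit 5) (nat_lit 608) (nat_lit 515) (nat_lit 437))) (XT.nd (nat_lit 78) (nat_lit 380) (nat_lit 0) (XT.lf (nat_lit 0) (nat_lit 3194785754) (nat_lit 456) (nat_lit 1250118685) (nat_lit 76) (nat_lit 6987844469) (nat_lit 176) (nat_lit 5) (nat_lit 182) (nat_lit 5) (nat_lit 177) (nat_lit 5) (nat_lit 609) (nat_lit 515) (nat_lit 436)) (XT.lf (nat_lit 0) (nat_lit 6899404374) (nat_lit 456) (nat_lit 4625423917) (nat_lit 76) (nat_lit 32803318) (nat_lit 171) (nat_lit 5) (nat_lit 177) (nat_lit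 5) (nat_lit 172) (nat_lit 5) (nat_lit 610) (nat_lit 515) (nat_lit 435)))) (XT.nd (nat_lit 156) (nat_lit 304) (nat_lit 0) (XT.nd (nat_lit 78) (nat_lit 456) (nat_lit 0) (XT.lf (nat_lit 0) (nat_lit 3580384643) (nat_lit 380) (nat_lit 7128556197) (nat_lit 456) (nat_lit 975455120) (nat_lit 166) (nat_lit 5) (nat_lit 171) (nat_lit 5) (nat_lit 172) (nat_lit 5) (nat_lit 611) (nat_lit 515) (nat_lit 434)) (XT.lf (nat_lit 0) (nat_lit 136002391) (nat_lit 380) (nat_lit 2610412387) (nat_lit 456) (nat_lit 9066881877) (nat_lit 160) (nat_lit 5) (nat_lit 165) (nat_lit 5) (nat_lit 166) (nat_lit 5) (nat_lit 612) (nat_lit 515) (nat_lit 433))) (XT.nd (nat_lit 78) (nat_lit 304) (nat_lit 0) (XT.lf (nat_lit 0) (nat_lit 6567350470) (nat_lit 456) (nat_lit 3360440666) (nat_lit 76) (nat_lit 2016101953) (nat_lit 160) (nat_lit 5) (nat_lit 166) (nat_lit 5) (nat_lit 161) (nat_lit 5) (nat_lit 613) (nat_lit 515) (nat_lit 432)) (XT.lf (nat_lit 0) (nat_lit 5125996502) (nat_lit 304) (nat_lit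 5359828466) (nat_lit 380) (nat_lit 1590854549) (nat_lit 156) (nat_lit 5) (nat_lit 160) (nat_lit 5) (nat_lit 161) (nat_lit 5) (nat_lit 614) (nat_lit 515) (nat_lit 431)))))) (XT.nd (nat_lit 624) (nat_lit 1596) (nat_lit 0) (XT.nd (nat_lit 312) (nat_lit 988) (nat_lit 0) (XT.nd (nat_lit 156) (nat_lit 760) (nat_lit 0) (XT.nd (nat_lit 78) (nat_lit 0) (nat_lit 0) (XT.lf (nat_lit 0) (nat_lit 1575031106) (nat_lit 380) (nat_lit 669297181) (nat_lit 456) (nat_lit 9967427799) (nat_lit 150) (nat_lit 5) (nat_lit 155) (nat_lit 5) (nat_lit 156) (nat_lit 5) (nat_lit 615) (nat_lit 515) (nat_lit 430)) (XT.lf (nat_lit 0) (nat_lit 6179397477) (nat_lit 456) (nat_lit 2067625016) (nat_lit 76) (nat_lit 4101412138) (nat_lit 150) (nat_lit 5) (nat_lit 156) (nat_lit 5) (nat_lit 151) (nat_lit 5) (nat_lit 616) (nat_lit 515) (nat_lit 429))) (XT.nd (nat_lit 78) (nat_lit 456) (nat_lit 0) (XT.lf (nat_lit 0) (nat_lit 6710413604) (nat_lit 304) (nat_lit 3502123069) (nat_lit 380) (nat_lit 2274923129)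 (nat_lit 146) (nat_lit 5) (nat_lit 150) (nat_lit 5) (nat_lit 151) (nat_lit 5) (nat_lit 617) (nat_lit 515) (nat_lit 428)) (XT.lf (nat_lit 0) (nat_lit 1688869457) (nat_lit 456) (nat_lit 9592017844) (nat_lit 76) (nat_lit 1347877144) (nat_lit 140) (nat_lit 5) (nat_lit 146) (nat_lit 5) (nat_lit 141) (nat_lit 5) (nat_lit 618) (nat_lit 515) (nat_lit 427)))) (XT.nd (nat_lit 156) (nat_lit 684) (nat_lit 0) (XT.nd (nat_lit 78) (nat_lit 304) (nat_lit 0) (XT.lf (nat_lit 0) (nat_lit 5735314806) (nat_lit 456) (nat_lit 751756248) (nat_lit 76) (nat_lit 6284847025) (nat_lit 140) (nat_lit 5) (nat_lit 146) (nat_lit 5) (nat_lit 141) (nat_lit 5) (nat_lit 619) (nat_lit 515) (nat_lit 426)) (XT.lf (nat_lit 0) (nat_lit 8329210726) (nat_lit 304) (nat_lit 1559707129) (nat_lit 380) (nat_lit 3028492752) (nat_lit 136) (nat_lit 5) (nat_lit 140) (nat_lit 5) (nat_lit 141) (nat_lit 5) (nat_lit 620) (nat_lit 515) (nat_lit 425))) (XT.nd (nat_lit 78) (nat_lit 304) (nat_lit 0) (XT.lf (nat_lit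 0) (nat_lit 1075344060) (nat_lit 380) (nat_lit 8544664645) (nat_lit 76) (nat_lit 3445077777) (nat_lit 131) (nat_lit 5) (nat_lit 136) (nat_lit 5) (nat_lit 132) (nat_lit 5) (nat_lit 621) (nat_lit 515) (nat_lit 424)) (XT.lf (nat_lit 0) (nat_lit 589909358) (nat_lit 304) (nat_lit 4648345218) (nat_lit 380) (nat_lit 7976710339) (nat_lit 127) (nat_lit 5) (nat_lit 131) (nat_lit 5) (nat_lit 132) (nat_lit 5) (nat_lit 622) (nat_lit 515) (nat_lit 423))))) (XT.nd (nat_lit 312) (nat_lit 912) (nat_lit 0) (XT.nd (nat_lit 156) (nat_lit 304) (nat_lit 0) (XT.nd (nat_lit 78) (nat_lit 380) (nat_lit 0) (XT.lf (nat_lit 0) (nat_lit 9517377471) (nat_lit 380) (nat_lit 3392499511) (nat_lit 76) (nat_lit 457305217) (nat_lit 127) (nat_lit 5) (nat_lit 132) (nat_lit 5) (nat_lit 128) (nat_lit 5) (nat_lit 623) (nat_lit 515) (nat_lit 422)) (XT.lf (nat_lit 0) (nat_lit 398159038) (nat_lit 380) (nat_lit 7496004948) (nat_lit 76) (nat_lit 5627368759) (nat_lit 122) (nat_lit 5) (nat_lit 127) (nat_lit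 5) (nat_lit 123) (nat_lit 5) (nat_lit 624) (nat_lit 515) (nat_lit 421))) (XT.nd (nat_lit 78) (nat_lit 0) (nat_lit 0) (XT.lf (nat_lit 0) (nat_lit 1954526210) (nat_lit 304) (nat_lit 2733753931) (nat_lit 380) (nat_lit 8990006624) (nat_lit 118) (nat_lit 5) (nat_lit 122) (nat_lit 5) (nat_lit 123) (nat_lit 5) (nat_lit 625) (nat_lit 515) (nat_lit 420)) (XT.lf (nat_lit 0) (nat_lit 9104479157) (nat_lit 380) (nat_lit 2203221220) (nat_lit 76) (nat_lit 2529670316) (nat_lit 118) (nat_lit 5) (nat_lit 123) (nat_lit 5) (nat_lit 119) (nat_lit 5) (nat_lit 626) (nat_lit 515) (nat_lit 419)))) (XT.nd (nat_lit 156) (nat_lit 304) (nat_lit 0) (XT.nd (nat_lit 78) (nat_lit 304) (nat_lit 0) (XT.lf (nat_lit 0) (nat_lit 7544482575) (nat_lit 304) (nat_lit 6105347564) (nat_lit 380) (nat_lit 348989932) (nat_lit 114) (nat_lit 5) (nat_lit 118) (nat_lit 5) (nat_lit 119) (nat_lit 5) (nat_lit 627) (nat_lit 515) (nat_lit 418)) (XT.lf (nat_lit 0) (nat_lit 3326417295) (nat_lit 228) (nat_lit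 752381597) (nat_lit 304) (nat_lit 10083958980) (nat_lit 110) (nat_lit 5) (nat_lit 113) (nat_lit 5) (nat_lit 114) (nat_lit 5) (nat_lit 628) (nat_lit 515) (nat_lit 417))) (XT.nd (nat_lit 78) (nat_lit 304) (nat_lit 0) (XT.lf (nat_lit 0) (nat_lit 8638549473) (nat_lit 304) (nat_lit 1016254866) (nat_lit 76) (nat_lit 4674162687) (nat_lit 110) (nat_lit 5) (nat_lit 114) (nat_lit 5) (nat_lit 111) (nat_lit 5) (nat_lit 629) (nat_lit 515) (nat_lit 416)) (XT.lf (nat_lit 0) (nat_lit 9070822295) (nat_lit 304) (nat_lit 4256971386) (nat_lit 380) (nat_lit 1169941014) (nat_lit 106) (nat_lit 5) (nat_lit 110) (nat_lit 5) (nat_lit 111) (nat_lit 5) (nat_lit 630) (nat_lit 515) (nat_lit 415))))))))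
noncomputable def xc59 : XT := (XT.nd (nat_lit 74334) (nat_lit 0) (nat_lit 22800) (XT.nd (nat_lit 1170) (nat_lit 152) (nat_lit 0) (XT.nd (nat_lit 546) (nat_lit 1292) (nat_lit 0) (XT.nd (nat_lit 234) (nat_lit 836) (nat_lit 0) (XT.nd (nat_lit 78) (nat_lit 304) (nat_lit 0) (XT.lf (nat_lit 0) (nat_lit 3416056187) (nat_lit 304) (nat_lit 9978104817) (nat_lit 76) (nat_lit 1274865397) (nat_lit 102) (nat_lit 5) (nat_lit 106) (nat_lit 5) (nat_lit 103) (nat_lit 5) (nat_lit 631) (nat_lit 515) (nat_lit 414)) (XT.nd (nat_lit 78) (nat_lit 0) (nat_lit 0) (XT.lf (nat_lit 0) (nat_lit 164079131) (nat_lit 304) (nat_lit 7954539016) (nat_lit 380) (nat_lit 6724161210) (nat_lit 98) (nat_lit 5) (nat_lit 102) (nat_lit 5) (nat_lit 103) (nat_lit 5) (nat_lit 632) (nat_lit 515) (nat_lit 413)) (XT.lf (nat_lit 0) (nat_lit 10601097433) (nat_lit 304) (nat_lit 2355889671) (nat_lit 380) (nat_lit 2062185437) (nat_lit 98) (nat_lit 5) (nat_lit 102) (nat_lit 5) (nat_lit 103) (nat_lit 5) (nat_lit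 633) (nat_lit 515) (nat_lit 412)))) (XT.nd (nat_lit 156) (nat_lit 304) (nat_lit 0) (XT.nd (nat_lit 78) (nat_lit 228) (nat_lit 0) (XT.lf (nat_lit 0) (nat_lit 2694271364) (nat_lit 304) (nat_lit 9153394474) (nat_lit 76) (nat_lit 3350347102) (nat_lit 94) (nat_lit 5) (nat_lit 98) (nat_lit 5) (nat_lit 95) (nat_lit 5) (nat_lit 634) (nat_lit 515) (nat_lit 411)) (XT.lf (nat_lit 0) (nat_lit 1341916984) (nat_lit 228) (nat_lit 6205735998) (nat_lit 304) (nat_lit 7831916644) (nat_lit 91) (nat_lit 5) (nat_lit 94) (nat_lit 5) (nat_lit 95) (nat_lit 5) (nat_lit 635) (nat_lit 515) (nat_lit 410))) (XT.nd (nat_lit 78) (nat_lit 304) (nat_lit 0) (XT.lf (nat_lit 0) (nat_lit 12128648944) (nat_lit 228) (nat_lit 406310890) (nat_lit 304) (nat_lit 3029060722) (nat_lit 91) (nat_lit 5) (nat_lit 94) (nat_lit 5) (nat_lit 95) (nat_lit 5) (nat_lit 636) (nat_lit 515) (nat_lit 409)) (XT.lf (nat_lit 0) (nat_lit 1905326232) (nat_lit 304) (nat_lit 8365385042) (nat_lit 76) (nat_lit 5480006728)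 (nat_lit 87) (nat_lit 5) (nat_lit 91) (nat_lit 5) (nat_lit 88) (nat_lit 5) (nat_lit 637) (nat_lit 515) (nat_lit 408))))) (XT.nd (nat_lit 312) (nat_lit 532) (nat_lit 0) (XT.nd (nat_lit 156) (nat_lit 532) (nat_lit 0) (XT.nd (nat_lit 78) (nat_lit 0) (nat_lit 0) (XT.lf (nat_lit 0) (nat_lit 2496023415) (nat_lit 228) (nat_lit 4419803235) (nat_lit 304) (nat_lit 9024562856) (nat_lit 84) (nat_lit 5) (nat_lit 87) (nat_lit 5) (nat_lit 88) (nat_lit 5) (nat_lit 638) (nat_lit 515) (nat_lit 407)) (XT.lf (nat_lit 0) (nat_lit 12069026454) (nat_lit 304) (nat_lit 2497325252) (nat_lit 76) (nat_lit 1566653186) (nat_lit 84) (nat_lit 5) (nat_lit 88) (nat_lit 5) (nat_lit 85) (nat_lit 5) (nat_lit 639) (nat_lit 515) (nat_lit 406))) (XT.nd (nat_lit 78) (nat_lit 228) (nat_lit 0) (XT.lf (nat_lit 0) (nat_lit 1045407209) (nat_lit 304) (nat_lit 7622854238) (nat_lit 76) (nat_lit 7659829065) (nat_lit 80) (nat_lit 5) (nat_lit 84) (nat_lit 5) (nat_lit 81) (nat_lit 5) (nat_lit 640) (nat_lit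 515) (nat_lit 405)) (XT.lf (nat_lit 0) (nat_lit 3617945145) (nat_lit 228) (nat_lit 2601471551) (nat_lit 304) (nat_lit 10306787062) (nat_lit 77) (nat_lit 5) (nat_lit 80) (nat_lit 5) (nat_lit 81) (nat_lit 5) (nat_lit 641) (nat_lit 515) (nat_lit 404)))) (XT.nd (nat_lit 156) (nat_lit 228) (nat_lit 0) (XT.nd (nat_lit 78) (nat_lit 304) (nat_lit 0) (XT.lf (nat_lit 0) (nat_lit 11548206969) (nat_lit 304) (nat_lit 1605509229) (nat_lit 76) (nat_lit 3573537283) (nat_lit 77) (nat_lit 5) (nat_lit 81) (nat_lit 5) (nat_lit 78) (nat_lit 5) (nat_lit 642) (nat_lit 515) (nat_lit 403)) (XT.lf (nat_lit 0) (nat_lit 110081863) (nat_lit 304) (nat_lit 6935397587) (nat_lit 76) (nat_lit 9885648205) (nat_lit 73) (nat_lit 5) (nat_lit 77) (nat_lit 5) (nat_lit 74) (nat_lit 5) (nat_lit 643) (nat_lit 515) (nat_lit 402))) (XT.nd (nat_lit 78) (nat_lit 0) (nat_lit 0) (XT.lf (nat_lit 0) (nat_lit 4698402750) (nat_lit 228) (nat_lit 755677048) (nat_lit 304) (nat_lit 11683946366) (nat_lit 70)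 (nat_lit 5) (nat_lit 73) (nat_lit 5) (nat_lit 74) (nat_lit 5) (nat_lit 644) (nat_lit 515) (nat_lit 401)) (XT.lf (nat_lit 0) (nat_lit 10965646358) (nat_lit 304) (nat_lit 767112409) (nat_lit 76) (nat_lit 5615090309) (nat_lit 70) (nat_lit 5) (nat_lit 74) (nat_lit 5) (nat_lit 71) (nat_lit 5) (nat_lit 645) (nat_lit 515) (nat_lit 400)))))) (XT.nd (nat_lit 72540) (nat_lit 0) (nat_lit 48488) (XT.nd (nat_lit 72228) (nat_lit 0) (nat_lit 52516) (XT.nd (nat_lit 72072) (nat_lit 0) (nat_lit 53656) (XT.nd (nat_lit 71994) (nat_lit 0) (nat_lit 54112) (XT.lf (nat_lit 0) (nat_lit 11241261153) (nat_lit 152) (nat_lit 5401714793) (nat_lit 228) (nat_lit 917782068) (nat_lit 68) (nat_lit 5) (nat_lit 70) (nat_lit 5) (nat_lit 71) (nat_lit 5) (nat_lit 646) (nat_lit 515) (nat_lit 399)) (XT.lf (nat_lit 0) (nat_lit 363356082) (nat_lit 380) (nat_lit 2509626631) (nat_lit 0) (nat_lit 363356082) (nat_lit 780) (nat_lit 5) (nat_lit 785) (nat_lit 4) (nat_lit 780) (nat_lit 4) (nat_lit 528)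 (nat_lit 516) (nat_lit 516))) (XT.nd (nat_lit 78) (nat_lit 456) (nat_lit 0) (XT.lf (nat_lit 0) (nat_lit 3937401802) (nat_lit 380) (nat_lit 1401885745) (nat_lit 0) (nat_lit 1141543992) (nat_lit 780) (nat_lit 5) (nat_lit 785) (nat_lit 4) (nat_lit 780) (nat_lit 4) (nat_lit 529) (nat_lit 516) (nat_lit 515)) (XT.lf (nat_lit 0) (nat_lit 649178662) (nat_lit 456) (nat_lit 4225553980) (nat_lit 76) (nat_lit 1615616246) (nat_lit 774) (nat_lit 5) (nat_lit 780) (nat_lit 5) (nat_lit 775) (nat_lit 4) (nat_lit 530) (nat_lit 516) (nat_lit 514)))) (XT.nd (nat_lit 156) (nat_lit 608) (nat_lit 0) (XT.nd (nat_lit 78) (nat_lit 532) (nat_lit 0) (XT.lf (nat_lit 0) (nat_lit 3803001035) (nat_lit 456) (nat_lit 542124031) (nat_lit 76) (nat_lit 2155971180) (nat_lit 774) (nat_lit 5) (nat_lit 780) (nat_lit 5) (nat_lit 775) (nat_lit 4) (nat_lit 531) (nat_lit 516) (nat_lit 513)) (XT.lf (nat_lit 0) (nat_lit 445089650) (nat_lit 532) (nat_lit 3307243550) (nat_lit 76) (nat_lit 2760785336)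 (nat_lit 767) (nat_lit 5) (nat_lit 774) (nat_lit 5) (nat_lit 768) (nat_lit 5) (nat_lit 532) (nat_lit 516) (nat_lit 512))) (XT.nd (nat_lit 78) (nat_lit 76) (nat_lit 0) (XT.lf (nat_lit 0) (nat_lit 449990859) (nat_lit 532) (nat_lit 3095772156) (nat_lit 608) (nat_lit 2980650547) (nat_lit 760) (nat_lit 5) (nat_lit 767) (nat_lit 5) (nat_lit 768) (nat_lit 5) (nat_lit 533) (nat_lit 516) (nat_lit 511)) (XT.lf (nat_lit 0) (nat_lit 113414601) (nat_lit 608) (nat_lit 2263145084) (nat_lit 76) (nat_lit 4164453817) (nat_lit 759) (nat_lit 5) (nat_lit 767) (nat_lit 5) (nat_lit 760) (nat_lit 5) (nat_lit 534) (nat_lit 516) (nat_lit 510))))) (XT.nd (nat_lit 312) (nat_lit 1900) (nat_lit 0) (XT.nd (nat_lit 156) (nat_lit 1520) (nat_lit 0) (XT.nd (nat_lit 78) (nat_lit 0) (nat_lit 0) (XT.lf (nat_lit 0) (nat_lit 1578762328) (nat_lit 608) (nat_lit 1587258344) (nat_lit 684) (nat_lit 3390763108) (nat_lit 751) (nat_lit 5) (nat_lit 759) (nat_lit 5) (nat_lit 760) (nat_lit 5) (nat_lit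 535) (nat_lit 516) (nat_lit 509)) (XT.lf (nat_lit 0) (nat_lit 5479903063) (nat_lit 608) (nat_lit 742377500) (nat_lit 684) (nat_lit 351740584) (nat_lit 751) (nat_lit 5) (nat_lit 759) (nat_lit 5) (nat_lit 760) (nat_lit 5) (nat_lit 536) (nat_lit 516) (nat_lit 508))) (XT.nd (nat_lit 78) (nat_lit 760) (nat_lit 0) (XT.lf (nat_lit 0) (nat_lit 2659981051) (nat_lit 760) (nat_lit 3754923074) (nat_lit 76) (nat_lit 177386666) (nat_lit 741) (nat_lit 5) (nat_lit 751) (nat_lit 5) (nat_lit 742) (nat_lit 5) (nat_lit 537) (nat_lit 516) (nat_lit 507)) (XT.lf (nat_lit 0) (nat_lit 197293976) (nat_lit 760) (nat_lit 5473128723) (nat_lit 836) (nat_lit 941596223) (nat_lit 731) (nat_lit 5) (nat_lit 741) (nat_lit 5) (nat_lit 742) (nat_lit 5) (nat_lit 538) (nat_lit 516) (nat_lit 506)))) (XT.nd (nat_lit 156) (nat_lit 988) (nat_lit 0) (XT.nd (nat_lit 78) (nat_lit 836) (nat_lit 0) (XT.lf (nat_lit 0) (nat_lit 2036838082) (nat_lit 836) (nat_lit 2416182294) (nat_lit 76) (nat_lit 2179739445)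 (nat_lit 730) (nat_lit 5) (nat_lit 741) (nat_lit 5) (nat_lit 731) (nat_lit 5) (nat_lit 539) (nat_lit 516) (nat_lit 505)) (XT.lf (nat_lit 0) (nat_lit 1628294463) (nat_lit 836) (nat_lit 3376092148) (nat_lit 912) (nat_lit 1650564678) (nat_lit 719) (nat_lit 5) (nat_lit 730) (nat_lit 5) (nat_lit 731) (nat_lit 5) (nat_lit 540) (nat_lit 516) (nat_lit 504))) (XT.nd (nat_lit 78) (nat_lit 912) (nat_lit 0) (XT.lf (nat_lit 0) (nat_lit 1284411626) (nat_lit 912) (nat_lit 949483979) (nat_lit 76) (nat_lit 4444549051) (nat_lit 718) (nat_lit 5) (nat_lit 730) (nat_lit 5) (nat_lit 719) (nat_lit 5) (nat_lit 541) (nat_lit 516) (nat_lit 503)) (XT.lf (nat_lit 0) (nat_lit 3191394479) (nat_lit 912) (nat_lit 1018808601) (nat_lit 988) (nat_lit 2492905382) (nat_lit 706) (nat_lit 5) (nat_lit 718) (nat_lit 5) (nat_lit 719) (nat_lit 5) (nat_lit 542) (nat_lit 516) (nat_lit 502))))))) (XT.nd (nat_lit 1170) (nat_lit 11932) (nat_lit 0) (XT.nd (nat_lit 546) (nat_lit 9120) (nat_lit 0) (XT.nd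 (nat_lit 234) (nat_lit 2508) (nat_lit 0) (XT.nd (nat_lit 78) (nat_lit 1064) (nat_lit 0) (XT.lf (nat_lit 0) (nat_lit 406462325) (nat_lit 1064) (nat_lit 6074908968) (nat_lit 76) (nat_lit 247910050) (nat_lit 692) (nat_lit 5) (nat_lit 706) (nat_lit 5) (nat_lit 693) (nat_lit 5) (nat_lit 543) (nat_lit 516) (nat_lit 501)) (XT.nd (nat_lit 78) (nat_lit 1064) (nat_lit 0) (XT.lf (nat_lit 0) (nat_lit 3296044743) (nat_lit 1064) (nat_lit 1877939980) (nat_lit 76) (nat_lit 1582354180) (nat_lit 692) (nat_lit 5) (nat_lit 706) (nat_lit 5) (nat_lit 693) (nat_lit 5) (nat_lit 544) (nat_lit 516) (nat_lit 500)) (XT.lf (nat_lit 0) (nat_lit 2384830346) (nat_lit 1064) (nat_lit 3810452333) (nat_lit 1140) (nat_lit 589620533) (nat_lit 678) (nat_lit 5) (nat_lit 692) (nat_lit 5) (nat_lit 693) (nat_lit 5) (nat_lit 545) (nat_lit 516) (nat_lit 499)))) (XT.nd (nat_lit 156) (nat_lit 1292) (nat_lit 0) (XT.nd (nat_lit 78) (nat_lit 1140) (nat_lit 0) (XT.lf (nat_lit 0) (nat_lit 2257373319) (nat_lit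 1140) (nat_lit 120672918) (nat_lit 76) (nat_lit 4436700150) (nat_lit 677) (nat_lit 5) (nat_lit 692) (nat_lit 5) (nat_lit 678) (nat_lit 5) (nat_lit 546) (nat_lit 516) (nat_lit 498)) (XT.lf (nat_lit 0) (nat_lit 4247159707) (nat_lit 1140) (nat_lit 871963255) (nat_lit 1216) (nat_lit 1726674006) (nat_lit 662) (nat_lit 5) (nat_lit 677) (nat_lit 5) (nat_lit 678) (nat_lit 5) (nat_lit 547) (nat_lit 516) (nat_lit 497))) (XT.nd (nat_lit 78) (nat_lit 0) (nat_lit 0) (XT.lf (nat_lit 0) (nat_lit 1101015661) (nat_lit 1292) (nat_lit 5089762914) (nat_lit 76) (nat_lit 687429904) (nat_lit 645) (nat_lit 5) (nat_lit 662) (nat_lit 5) (nat_lit 646) (nat_lit 5) (nat_lit 548) (nat_lit 516) (nat_lit 496)) (XT.lf (nat_lit 0) (nat_lit 3925066488) (nat_lit 1292) (nat_lit 680159265) (nat_lit 76) (nat_lit 2306558200) (nat_lit 645) (nat_lit 5) (nat_lit 662) (nat_lit 5) (nat_lit 646) (nat_lit 5) (nat_lit 549) (nat_lit 516) (nat_lit 495))))) (XT.nd (nat_lit 312) (nat_lit 4864) (nat_lit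 0) (XT.nd (nat_lit 156) (nat_lit 1520) (nat_lit 0) (XT.nd (nat_lit 78) (nat_lit 1444) (nat_lit 0) (XT.lf (nat_lit 0) (nat_lit 3818292414) (nat_lit 1292) (nat_lit 2952859178) (nat_lit 1368) (nat_lit 175570783) (nat_lit 628) (nat_lit 5) (nat_lit 645) (nat_lit 5) (nat_lit 646) (nat_lit 5) (nat_lit 550) (nat_lit 516) (nat_lit 494)) (XT.lf (nat_lit 0) (nat_lit 1384434414) (nat_lit 1368) (nat_lit 1226860098) (nat_lit 1444) (nat_lit 4371621937) (nat_lit 609) (nat_lit 5) (nat_lit 627) (nat_lit 5) (nat_lit 628) (nat_lit 5) (nat_lit 551) (nat_lit 516) (nat_lit 493))) (XT.nd (nat_lit 78) (nat_lit 1520) (nat_lit 0) (XT.lf (nat_lit 0) (nat_lit 5418247164) (nat_lit 1444) (nat_lit 1044986296) (nat_lit 76) (nat_lit 557246072) (nat_lit 609) (nat_lit 5) (nat_lit 628) (nat_lit 5) (nat_lit 610) (nat_lit 5) (nat_lit 552) (nat_lit 516) (nat_lit 492)) (XT.lf (nat_lit 0) (nat_lit 1181003154) (nat_lit 1520) (nat_lit 3478323621) (nat_lit 76) (nat_lit 2399820775) (nat_lit 589) (nat_lit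 5) (nat_lit 609) (nat_lit 5) (nat_lit 590) (nat_lit 5) (nat_lit 553) (nat_lit 516) (nat_lit 491)))) (XT.nd (nat_lit 156) (nat_lit 3344) (nat_lit 0) (XT.nd (nat_lit 78) (nat_lit 0) (nat_lit 0) (XT.lf (nat_lit 0) (nat_lit 1169349705) (nat_lit 1520) (nat_lit 2787426657) (nat_lit 1596) (nat_lit 3142436436) (nat_lit 569) (nat_lit 5) (nat_lit 589) (nat_lit 5) (nat_lit 590) (nat_lit 5) (nat_lit 554) (nat_lit 516) (nat_lit 490)) (XT.lf (nat_lit 0) (nat_lit 5907260307) (nat_lit 1520) (nat_lit 848582907) (nat_lit 1596) (nat_lit 384882750) (nat_lit 569) (nat_lit 5) (nat_lit 589) (nat_lit 5) (nat_lit 590) (nat_lit 5) (nat_lit 555) (nat_lit 516) (nat_lit 489))) (XT.nd (nat_lit 78) (nat_lit 1672) (nat_lit 0) (XT.lf (nat_lit 0) (nat_lit 2371735196) (nat_lit 1672) (nat_lit 3653136673) (nat_lit 76) (nat_lit 1158369268) (nat_lit 547) (nat_lit 5) (nat_lit 569) (nat_lit 5) (nat_lit 548) (nat_lit 5) (nat_lit 556) (nat_lit 516) (nat_lit 488)) (XT.lf (nat_lit 0) (nat_lit 1135486318)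 (nat_lit 1672) (nat_lit 4010124219) (nat_lit 1748) (nat_lit 2081601675) (nat_lit 525) (nat_lit 5) (nat_lit 547) (nat_lit 5) (nat_lit 548) (nat_lit 5) (nat_lit 557) (nat_lit 516) (nat_lit 487)))))) (XT.nd (nat_lit 624) (nat_lit 5168) (nat_lit 0) (XT.nd (nat_lit 312) (nat_lit 3040) (nat_lit 0) (XT.nd (nat_lit 156) (nat_lit 1900) (nat_lit 0) (XT.nd (nat_lit 78) (nat_lit 1748) (nat_lit 0) (XT.lf (nat_lit 0) (nat_lit 664688134) (nat_lit 1748) (nat_lit 1257688266) (nat_lit 76) (nat_lit 5350176886) (nat_lit 524) (nat_lit 5) (nat_lit 547) (nat_lit 5) (nat_lit 525) (nat_lit 5) (nat_lit 558) (nat_lit 516) (nat_lit 486)) (XT.lf (nat_lit 0) (nat_lit 3410796892) (nat_lit 1824) (nat_lit 3663299074) (nat_lit 76) (nat_lit 244976643) (nat_lit 501) (nat_lit 5) (nat_lit 525) (nat_lit 5) (nat_lit 502) (nat_lit 5) (nat_lit 559) (nat_lit 516) (nat_lit 485))) (XT.nd (nat_lit 78) (nat_lit 76) (nat_lit 0) (XT.lf (nat_lit 0) (nat_lit 1271566100) (nat_lit 1824) (nat_lit 4917852267)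 (nat_lit 1900) (nat_lit 1177554039) (nat_lit 477) (nat_lit 5) (nat_lit 501) (nat_lit 5) (nat_lit 502) (nat_lit 5) (nat_lit 560) (nat_lit 516) (nat_lit 484)) (XT.lf (nat_lit 0) (nat_lit 1559899972) (nat_lit 1900) (nat_lit 1122032160) (nat_lit 76) (nat_lit 4734227028) (nat_lit 476) (nat_lit 5) (nat_lit 501) (nat_lit 5) (nat_lit 477) (nat_lit 5) (nat_lit 561) (nat_lit 516) (nat_lit 483)))) (XT.nd (nat_lit 156) (nat_lit 988) (nat_lit 0) (XT.nd (nat_lit 78) (nat_lit 912) (nat_lit 0) (XT.lf (nat_lit 0) (nat_lit 3944868772) (nat_lit 1140) (nat_lit 366563684) (nat_lit 1216) (nat_lit 3155241370) (nat_lit 461) (nat_lit 5) (nat_lit 476) (nat_lit 5) (nat_lit 477) (nat_lit 5) (nat_lit 562) (nat_lit 516) (nat_lit 482)) (XT.lf (nat_lit 0) (nat_lit 1567267684) (nat_lit 912) (nat_lit 5531577010) (nat_lit 988) (nat_lit 419738860) (nat_lit 449) (nat_lit 5) (nat_lit 461) (nat_lit 5) (nat_lit 462) (nat_lit 5) (nat_lit 563) (nat_lit 516) (nat_lit 481))) (XT.nd (nat_lit 78)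 (nat_lit 912) (nat_lit 0) (XT.lf (nat_lit 0) (nat_lit 2316066241) (nat_lit 988) (nat_lit 834052939) (nat_lit 76) (nat_lit 4421572533) (nat_lit 448) (nat_lit 5) (nat_lit 461) (nat_lit 5) (nat_lit 449) (nat_lit 5) (nat_lit 564) (nat_lit 516) (nat_lit 480)) (XT.lf (nat_lit 0) (nat_lit 4390474816) (nat_lit 912) (nat_lit 690439219) (nat_lit 988) (nat_lit 2545295224) (nat_lit 436) (nat_lit 5) (nat_lit 448) (nat_lit 5) (nat_lit 449) (nat_lit 5) (nat_lit 565) (nat_lit 516) (nat_lit 479))))) (XT.nd (nat_lit 312) (nat_lit 2432) (nat_lit 0) (XT.nd (nat_lit 156) (nat_lit 1824) (nat_lit 0) (XT.nd (nat_lit 78) (nat_lit 0) (nat_lit 0) (XT.lf (nat_lit 0) (nat_lit 198816110) (nat_lit 912) (nat_lit 5670326628) (nat_lit 76) (nat_lit 1812998537) (nat_lit 424) (nat_lit 5) (nat_lit 436) (nat_lit 5) (nat_lit 425) (nat_lit 5) (nat_lit 566) (nat_lit 516) (nat_lit 478)) (XT.lf (nat_lit 0) (nat_lit 2942544819) (nat_lit 912) (nat_lit 402960848) (nat_lit 76) (nat_lit 4393774999) (nat_lit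 424) (nat_lit 5) (nat_lit 436) (nat_lit 5) (nat_lit 425) (nat_lit 5) (nat_lit 567) (nat_lit 516) (nat_lit 477))) (XT.nd (nat_lit 78) (nat_lit 912) (nat_lit 0) (XT.lf (nat_lit 0) (nat_lit 4985325256) (nat_lit 912) (nat_lit 741480166) (nat_lit 988) (nat_lit 2071045800) (nat_lit 412) (nat_lit 5) (nat_lit 424) (nat_lit 5) (nat_lit 425) (nat_lit 5) (nat_lit 568) (nat_lit 516) (nat_lit 476)) (XT.lf (nat_lit 0) (nat_lit 685662159) (nat_lit 912) (nat_lit 5261814038) (nat_lit 76) (nat_lit 1910310276) (nat_lit 400) (nat_lit 5) (nat_lit 412) (nat_lit 5) (nat_lit 401) (nat_lit 5) (nat_lit 569) (nat_lit 516) (nat_lit 475)))) (XT.nd (nat_lit 156) (nat_lit 1596) (nat_lit 0) (XT.nd (nat_lit 78) (nat_lit 0) (nat_lit 0) (XT.lf (nat_lit 0) (nat_lit 164970890) (nat_lit 836) (nat_lit 3283946667) (nat_lit 912) (nat_lit 4470147624) (nat_lit 389) (nat_lit 5) (nat_lit 400) (nat_lit 5) (nat_lit 401) (nat_lit 5) (nat_lit 570) (nat_lit 516) (nat_lit 474)) (XT.lf (nat_lit 0) (nat_lit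 5721285990) (nat_lit 836) (nat_lit 536172655) (nat_lit 912) (nat_lit 1724311816) (nat_lit 389) (nat_lit 5) (nat_lit 400) (nat_lit 5) (nat_lit 401) (nat_lit 5) (nat_lit 571) (nat_lit 516) (nat_lit 473))) (XT.nd (nat_lit 78) (nat_lit 760) (nat_lit 0) (XT.lf (nat_lit 0) (nat_lit 1054116924) (nat_lit 836) (nat_lit 4731184939) (nat_lit 76) (nat_lit 2260453680) (nat_lit 378) (nat_lit 5) (nat_lit 389) (nat_lit 5) (nat_lit 379) (nat_lit 5) (nat_lit 572) (nat_lit 516) (nat_lit 472)) (XT.lf (nat_lit 0) (nat_lit 866890790) (nat_lit 760) (nat_lit 2978427673) (nat_lit 836) (nat_lit 4265869382) (nat_lit 368) (nat_lit 5) (nat_lit 378) (nat_lit 5) (nat_lit 379) (nat_lit 5) (nat_lit 573) (nat_lit 516) (nat_lit 471))))))))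
noncomputable def xc60 : XT := (XT.nd (nat_lit 2418) (nat_lit 7980) (nat_lit 0) (XT.nd (nat_lit 1170) (nat_lit 5776) (nat_lit 0) (XT.nd (nat_lit 546) (nat_lit 3344) (nat_lit 0) (XT.nd (nat_lit 234) (nat_lit 2128) (nat_lit 0) (XT.nd (nat_lit 78) (nat_lit 1596) (nat_lit 0) (XT.lf (nat_lit 0) (nat_lit 6590933078) (nat_lit 760) (nat_lit 89522898) (nat_lit 836) (nat_lit 1497711879) (nat_lit 368) (nat_lit 5) (nat_lit 378) (nat_lit 5) (nat_lit 379) (nat_lit 5) (nat_lit 574) (nat_lit 516) (nat_lit 470)) (XT.nd (nat_lit 78) (nat_lit 760) (nat_lit 0) (XT.lf (nat_lit 0) (nat_lit 1311234707) (nat_lit 836) (nat_lit 4085922307) (nat_lit 76) (nat_lit 2849103259) (nat_lit 357) (nat_lit 5) (nat_lit 368) (nat_lit 5) (nat_lit 358) (nat_lit 5) (nat_lit 575) (nat_lit 516) (nat_lit 469)) (XT.lf (nat_lit 0) (nat_lit 1690263516) (nat_lit 760) (nat_lit 2445763516) (nat_lit 836) (nat_lit 4179896313) (nat_lit 347) (nat_lit 5) (nat_lit 357) (nat_lit 5) (nat_lit 358) (nat_lit 5) (nat_lit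 576) (nat_lit 516) (nat_lit 468)))) (XT.nd (nat_lit 156) (nat_lit 1368) (nat_lit 0) (XT.nd (nat_lit 78) (nat_lit 760) (nat_lit 0) (XT.lf (nat_lit 0) (nat_lit 7006455787) (nat_lit 836) (nat_lit 803580666) (nat_lit 76) (nat_lit 577161616) (nat_lit 347) (nat_lit 5) (nat_lit 358) (nat_lit 5) (nat_lit 348) (nat_lit 5) (nat_lit 577) (nat_lit 516) (nat_lit 467)) (XT.lf (nat_lit 0) (nat_lit 1463357791) (nat_lit 760) (nat_lit 3332920684) (nat_lit 76) (nat_lit 3663263514) (nat_lit 337) (nat_lit 5) (nat_lit 347) (nat_lit 5) (nat_lit 338) (nat_lit 5) (nat_lit 578) (nat_lit 516) (nat_lit 466))) (XT.nd (nat_lit 78) (nat_lit 684) (nat_lit 0) (XT.lf (nat_lit 0) (nat_lit 2628501245) (nat_lit 684) (nat_lit 1698780116) (nat_lit 760) (nat_lit 4206241434) (nat_lit 328) (nat_lit 5) (nat_lit 337) (nat_lit 5) (nat_lit 338) (nat_lit 5) (nat_lit 579) (nat_lit 516) (nat_lit 465)) (XT.lf (nat_lit 0) (nat_lit 86989336) (nat_lit 684) (nat_lit 7153400044) (nat_lit 760) (nat_lit 1368756828)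 (nat_lit 319) (nat_lit 5) (nat_lit 328) (nat_lit 5) (nat_lit 329) (nat_lit 5) (nat_lit 580) (nat_lit 516) (nat_lit 464))))) (XT.nd (nat_lit 312) (nat_lit 1900) (nat_lit 0) (XT.nd (nat_lit 156) (nat_lit 684) (nat_lit 0) (XT.nd (nat_lit 78) (nat_lit 684) (nat_lit 0) (XT.lf (nat_lit 0) (nat_lit 1516158238) (nat_lit 760) (nat_lit 2478543795) (nat_lit 76) (nat_lit 4691169282) (nat_lit 318) (nat_lit 5) (nat_lit 328) (nat_lit 5) (nat_lit 319) (nat_lit 5) (nat_lit 581) (nat_lit 516) (nat_lit 463)) (XT.lf (nat_lit 0) (nat_lit 3675551318) (nat_lit 684) (nat_lit 749116290) (nat_lit 760) (nat_lit 4339598940) (nat_lit 309) (nat_lit 5) (nat_lit 318) (nat_lit 5) (nat_lit 319) (nat_lit 5) (nat_lit 582) (nat_lit 516) (nat_lit 462))) (XT.nd (nat_lit 78) (nat_lit 76) (nat_lit 0) (XT.lf (nat_lit 0) (nat_lit 1090059280) (nat_lit 608) (nat_lit 6302473509) (nat_lit 684) (nat_lit 1451674211) (nat_lit 301) (nat_lit 5) (nat_lit 309) (nat_lit 5) (nat_lit 310) (nat_lit 5) (nat_lit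 583) (nat_lit 516) (nat_lit 461)) (XT.lf (nat_lit 0) (nat_lit 1474675342) (nat_lit 684) (nat_lit 1528679551) (nat_lit 76) (nat_lit 5922193141) (nat_lit 300) (nat_lit 5) (nat_lit 309) (nat_lit 5) (nat_lit 301) (nat_lit 5) (nat_lit 584) (nat_lit 516) (nat_lit 460)))) (XT.nd (nat_lit 156) (nat_lit 684) (nat_lit 0) (XT.nd (nat_lit 78) (nat_lit 608) (nat_lit 0) (XT.lf (nat_lit 0) (nat_lit 4435705834) (nat_lit 684) (nat_lit 4185172087) (nat_lit 76) (nat_lit 387535186) (nat_lit 292) (nat_lit 5) (nat_lit 301) (nat_lit 5) (nat_lit 293) (nat_lit 5) (nat_lit 585) (nat_lit 516) (nat_lit 459)) (XT.lf (nat_lit 0) (nat_lit 2189450059) (nat_lit 608) (nat_lit 5272992964) (nat_lit 684) (nat_lit 1630363686) (nat_lit 284) (nat_lit 5) (nat_lit 292) (nat_lit 5) (nat_lit 293) (nat_lit 5) (nat_lit 586) (nat_lit 516) (nat_lit 458))) (XT.nd (nat_lit 78) (nat_lit 608) (nat_lit 0) (XT.lf (nat_lit 0) (nat_lit 1343348973) (nat_lit 684) (nat_lit 488792850) (nat_lit 76) (nat_lit 7346759247)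 (nat_lit 283) (nat_lit 5) (nat_lit 292) (nat_lit 5) (nat_lit 284) (nat_lit 5) (nat_lit 587) (nat_lit 516) (nat_lit 457)) (XT.lf (nat_lit 0) (nat_lit 4368282878) (nat_lit 684) (nat_lit 3203374679) (nat_lit 76) (nat_lit 1694573570) (nat_lit 275) (nat_lit 5) (nat_lit 284) (nat_lit 5) (nat_lit 276) (nat_lit 5) (nat_lit 588) (nat_lit 516) (nat_lit 456)))))) (XT.nd (nat_lit 624) (nat_lit 2356) (nat_lit 0) (XT.nd (nat_lit 312) (nat_lit 1672) (nat_lit 0) (XT.nd (nat_lit 156) (nat_lit 532) (nat_lit 0) (XT.nd (nat_lit 78) (nat_lit 684) (nat_lit 0) (XT.lf (nat_lit 0) (nat_lit 3380059022) (nat_lit 532) (nat_lit 4074343480) (nat_lit 608) (nat_lit 1900892419) (nat_lit 268) (nat_lit 5) (nat_lit 275) (nat_lit 5) (nat_lit 276) (nat_lit 5) (nat_lit 589) (nat_lit 516) (nat_lit 455)) (XT.lf (nat_lit 0) (nat_lit 644475858) (nat_lit 608) (nat_lit 485757501) (nat_lit 684) (nat_lit 8315971521) (nat_lit 259) (nat_lit 5) (nat_lit 267) (nat_lit 5) (nat_lit 268) (nat_lit 5) (nat_lit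 590) (nat_lit 516) (nat_lit 454))) (XT.nd (nat_lit 78) (nat_lit 532) (nat_lit 0) (XT.lf (nat_lit 0) (nat_lit 4221311130) (nat_lit 684) (nat_lit 2143538152) (nat_lit 76) (nat_lit 3173337636) (nat_lit 259) (nat_lit 5) (nat_lit 268) (nat_lit 5) (nat_lit 260) (nat_lit 5) (nat_lit 591) (nat_lit 516) (nat_lit 453)) (XT.lf (nat_lit 0) (nat_lit 4657130711) (nat_lit 532) (nat_lit 2715028473) (nat_lit 608) (nat_lit 2259891247) (nat_lit 252) (nat_lit 5) (nat_lit 259) (nat_lit 5) (nat_lit 260) (nat_lit 5) (nat_lit 592) (nat_lit 516) (nat_lit 452)))) (XT.nd (nat_lit 156) (nat_lit 1064) (nat_lit 0) (XT.nd (nat_lit 78) (nat_lit 0) (nat_lit 0) (XT.lf (nat_lit 0) (nat_lit 844882351) (nat_lit 608) (nat_lit 7869060599) (nat_lit 76) (nat_lit 1013779494) (nat_lit 244) (nat_lit 5) (nat_lit 252) (nat_lit 5) (nat_lit 245) (nat_lit 5) (nat_lit 593) (nat_lit 516) (nat_lit 451)) (XT.lf (nat_lit 0) (nat_lit 3998041909) (nat_lit 608) (nat_lit 1010448520) (nat_lit 76) (nat_lit 4816188463)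 (nat_lit 244) (nat_lit 5) (nat_lit 252) (nat_lit 5) (nat_lit 245) (nat_lit 5) (nat_lit 594) (nat_lit 516) (nat_lit 450))) (XT.nd (nat_lit 78) (nat_lit 608) (nat_lit 0) (XT.lf (nat_lit 0) (nat_lit 6016207955) (nat_lit 456) (nat_lit 1202741843) (nat_lit 532) (nat_lit 2704531717) (nat_lit 238) (nat_lit 5) (nat_lit 244) (nat_lit 5) (nat_lit 245) (nat_lit 5) (nat_lit 595) (nat_lit 516) (nat_lit 449)) (XT.lf (nat_lit 0) (nat_lit 484351015) (nat_lit 608) (nat_lit 6878720009) (nat_lit 76) (nat_lit 2660914935) (nat_lit 230) (nat_lit 5) (nat_lit 238) (nat_lit 5) (nat_lit 231) (nat_lit 5) (nat_lit 596) (nat_lit 516) (nat_lit 448))))) (XT.nd (nat_lit 312) (nat_lit 912) (nat_lit 0) (XT.nd (nat_lit 156) (nat_lit 988) (nat_lit 0) (XT.nd (nat_lit 78) (nat_lit 0) (nat_lit 0) (XT.lf (nat_lit 0) (nat_lit 193895830) (nat_lit 456) (nat_lit 3508585406) (nat_lit 532) (nat_lit 6423628753) (nat_lit 224) (nat_lit 5) (nat_lit 230) (nat_lit 5) (nat_lit 231) (nat_lit 5) (nat_lit 597)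 (nat_lit 516) (nat_lit 447)) (XT.lf (nat_lit 0) (nat_lit 7000477386) (nat_lit 532) (nat_lit 2779900362) (nat_lit 76) (nat_lit 449589373) (nat_lit 224) (nat_lit 5) (nat_lit 231) (nat_lit 5) (nat_lit 225) (nat_lit 5) (nat_lit 598) (nat_lit 516) (nat_lit 446))) (XT.nd (nat_lit 78) (nat_lit 456) (nat_lit 0) (XT.lf (nat_lit 0) (nat_lit 47713919) (nat_lit 532) (nat_lit 5832285557) (nat_lit 76) (nat_lit 4455507759) (nat_lit 217) (nat_lit 5) (nat_lit 224) (nat_lit 5) (nat_lit 218) (nat_lit 5) (nat_lit 599) (nat_lit 516) (nat_lit 445)) (XT.lf (nat_lit 0) (nat_lit 1476891163) (nat_lit 456) (nat_lit 1865810316) (nat_lit 532) (nat_lit 7100120730) (nat_lit 211) (nat_lit 5) (nat_lit 217) (nat_lit 5) (nat_lit 218) (nat_lit 5) (nat_lit 600) (nat_lit 516) (nat_lit 444)))) (XT.nd (nat_lit 156) (nat_lit 456) (nat_lit 0) (XT.nd (nat_lit 78) (nat_lit 456) (nat_lit 0) (XT.lf (nat_lit 0) (nat_lit 6724770465) (nat_lit 532) (nat_lit 1603031589) (nat_lit 76) (nat_lit 2224058434)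 (nat_lit 211) (nat_lit 5) (nat_lit 218) (nat_lit 5) (nat_lit 212) (nat_lit 5) (nat_lit 601) (nat_lit 516) (nat_lit 443)) (XT.lf (nat_lit 0) (nat_lit 5925313108) (nat_lit 456) (nat_lit 4267950852) (nat_lit 532) (nat_lit 469440534) (nat_lit 205) (nat_lit 5) (nat_lit 211) (nat_lit 5) (nat_lit 212) (nat_lit 5) (nat_lit 602) (nat_lit 516) (nat_lit 442))) (XT.nd (nat_lit 78) (nat_lit 0) (nat_lit 0) (XT.lf (nat_lit 0) (nat_lit 2820858058) (nat_lit 380) (nat_lit 92956212) (nat_lit 456) (nat_lit 7861623700) (nat_lit 199) (nat_lit 5) (nat_lit 204) (nat_lit 5) (nat_lit 205) (nat_lit 5) (nat_lit 603) (nat_lit 516) (nat_lit 441)) (XT.lf (nat_lit 0) (nat_lit 6385791109) (nat_lit 456) (nat_lit 373170621) (nat_lit 76) (nat_lit 4130856060) (nat_lit 199) (nat_lit 5) (nat_lit 205) (nat_lit 5) (nat_lit 200) (nat_lit 5) (nat_lit 604) (nat_lit 516) (nat_lit 440))))))) (XT.nd (nat_lit 1170) (nat_lit 3496) (nat_lit 0) (XT.nd (nat_lit 546) (nat_lit 2356) (nat_lit 0) (XT.nd (nat_lit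 234) (nat_lit 836) (nat_lit 0) (XT.nd (nat_lit 78) (nat_lit 836) (nat_lit 0) (XT.lf (nat_lit 0) (nat_lit 7409859813) (nat_lit 456) (nat_lit 2534985265) (nat_lit 532) (nat_lit 1061287955) (nat_lit 193) (nat_lit 5) (nat_lit 199) (nat_lit 5) (nat_lit 200) (nat_lit 5) (nat_lit 605) (nat_lit 516) (nat_lit 439)) (XT.nd (nat_lit 78) (nat_lit 380) (nat_lit 0) (XT.lf (nat_lit 0) (nat_lit 2428833097) (nat_lit 456) (nat_lit 6914546337) (nat_lit 76) (nat_lit 1780864246) (nat_lit 187) (nat_lit 5) (nat_lit 193) (nat_lit 5) (nat_lit 188) (nat_lit 5) (nat_lit 606) (nat_lit 516) (nat_lit 438)) (XT.lf (nat_lit 0) (nat_lit 917474452) (nat_lit 380) (nat_lit 5073343869) (nat_lit 456) (nat_lit 5253433014) (nat_lit 182) (nat_lit 5) (nat_lit 187) (nat_lit 5) (nat_lit 188) (nat_lit 5) (nat_lit 607) (nat_lit 516) (nat_lit 437)))) (XT.nd (nat_lit 156) (nat_lit 380) (nat_lit 0) (XT.nd (nat_lit 78) (nat_lit 456) (nat_lit 0) (XT.lf (nat_lit 0) (nat_lit 8953288546) (nat_lit 380) (nat_lit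 686677619) (nat_lit 456) (nat_lit 1726375054) (nat_lit 182) (nat_lit 5) (nat_lit 187) (nat_lit 5) (nat_lit 188) (nat_lit 5) (nat_lit 608) (nat_lit 516) (nat_lit 436)) (XT.lf (nat_lit 0) (nat_lit 1878264528) (nat_lit 456) (nat_lit 5840143147) (nat_lit 76) (nat_lit 3771591116) (nat_lit 176) (nat_lit 5) (nat_lit 182) (nat_lit 5) (nat_lit 177) (nat_lit 5) (nat_lit 609) (nat_lit 516) (nat_lit 435))) (XT.nd (nat_lit 78) (nat_lit 0) (nat_lit 0) (XT.lf (nat_lit 0) (nat_lit 2258203004) (nat_lit 380) (nat_lit 3279319541) (nat_lit 456) (nat_lit 6078266408) (nat_lit 171) (nat_lit 5) (nat_lit 176) (nat_lit 5) (nat_lit 177) (nat_lit 5) (nat_lit 610) (nat_lit 516) (nat_lit 434)) (XT.lf (nat_lit 0) (nat_lit 9287814543) (nat_lit 456) (nat_lit 1200430463) (nat_lit 76) (nat_lit 1255493430) (nat_lit 171) (nat_lit 5) (nat_lit 177) (nat_lit 5) (nat_lit 172) (nat_lit 5) (nat_lit 611) (nat_lit 516) (nat_lit 433))))) (XT.nd (nat_lit 312) (nat_lit 1140) (nat_lit 0) (XT.nd (nat_lit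 156) (nat_lit 380) (nat_lit 0) (XT.nd (nat_lit 78) (nat_lit 380) (nat_lit 0) (XT.lf (nat_lit 0) (nat_lit 1261866408) (nat_lit 456) (nat_lit 4735416517) (nat_lit 76) (nat_lit 5876018611) (nat_lit 165) (nat_lit 5) (nat_lit 171) (nat_lit 5) (nat_lit 166) (nat_lit 5) (nat_lit 612) (nat_lit 516) (nat_lit 432)) (XT.lf (nat_lit 0) (nat_lit 3639751873) (nat_lit 380) (nat_lit 1384107987) (nat_lit 456) (nat_lit 6981217185) (nat_lit 160) (nat_lit 5) (nat_lit 165) (nat_lit 5) (nat_lit 166) (nat_lit 5) (nat_lit 613) (nat_lit 516) (nat_lit 431))) (XT.nd (nat_lit 78) (nat_lit 76) (nat_lit 0) (XT.lf (nat_lit 0) (nat_lit 40741742) (nat_lit 304) (nat_lit 8845296474) (nat_lit 380) (nat_lit 3252951404) (nat_lit 156) (nat_lit 5) (nat_lit 160) (nat_lit 5) (nat_lit 161) (nat_lit 5) (nat_lit 614) (nat_lit 516) (nat_lit 430)) (XT.lf (nat_lit 0) (nat_lit 579551330) (nat_lit 380) (nat_lit 3605102436) (nat_lit 76) (nat_lit 8090118046) (nat_lit 155) (nat_lit 5) (nat_lit 160) (nat_lit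 5) (nat_lit 156) (nat_lit 5) (nat_lit 615) (nat_lit 516) (nat_lit 429)))) (XT.nd (nat_lit 156) (nat_lit 456) (nat_lit 0) (XT.nd (nat_lit 78) (nat_lit 304) (nat_lit 0) (XT.lf (nat_lit 0) (nat_lit 4453747254) (nat_lit 456) (nat_lit 7358959234) (nat_lit 76) (nat_lit 599961546) (nat_lit 150) (nat_lit 5) (nat_lit 156) (nat_lit 5) (nat_lit 151) (nat_lit 5) (nat_lit 616) (nat_lit 516) (nat_lit 428)) (XT.lf (nat_lit 0) (nat_lit 1326128439) (nat_lit 304) (nat_lit 7111903201) (nat_lit 380) (nat_lit 4114638869) (nat_lit 146) (nat_lit 5) (nat_lit 150) (nat_lit 5) (nat_lit 151) (nat_lit 5) (nat_lit 617) (nat_lit 516) (nat_lit 427))) (XT.nd (nat_lit 78) (nat_lit 456) (nat_lit 0) (XT.lf (nat_lit 0) (nat_lit 10239850462) (nat_lit 304) (nat_lit 2283722304) (nat_lit 380) (nat_lit 171469262) (nat_lit 146) (nat_lit 5) (nat_lit 150) (nat_lit 5) (nat_lit 151) (nat_lit 5) (nat_lit 618) (nat_lit 516) (nat_lit 426)) (XT.lf (nat_lit 0) (nat_lit 3832350837) (nat_lit 456) (nat_lit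 6349320576) (nat_lit 76) (nat_lit 2657444192) (nat_lit 140) (nat_lit 5) (nat_lit 146) (nat_lit 5) (nat_lit 141) (nat_lit 5) (nat_lit 619) (nat_lit 516) (nat_lit 425)))))) (XT.nd (nat_lit 624) (nat_lit 1520) (nat_lit 0) (XT.nd (nat_lit 312) (nat_lit 988) (nat_lit 0) (XT.nd (nat_lit 156) (nat_lit 684) (nat_lit 0) (XT.nd (nat_lit 78) (nat_lit 0) (nat_lit 0) (XT.lf (nat_lit 0) (nat_lit 2634960354) (nat_lit 304) (nat_lit 5300505904) (nat_lit 380) (nat_lit 5050151819) (nat_lit 136) (nat_lit 5) (nat_lit 140) (nat_lit 5) (nat_lit 141) (nat_lit 5) (nat_lit 620) (nat_lit 516) (nat_lit 424)) (XT.lf (nat_lit 0) (nat_lit 11840836100) (nat_lit 304) (nat_lit 295359952) (nat_lit 380) (nat_lit 998543887) (nat_lit 136) (nat_lit 5) (nat_lit 140) (nat_lit 5) (nat_lit 141) (nat_lit 5) (nat_lit 621) (nat_lit 516) (nat_lit 423))) (XT.nd (nat_lit 78) (nat_lit 304) (nat_lit 0) (XT.lf (nat_lit 0) (nat_lit 3149730297) (nat_lit 380) (nat_lit 5332821338) (nat_lit 76) (nat_lit 4802751230)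 (nat_lit 131) (nat_lit 5) (nat_lit 136) (nat_lit 5) (nat_lit 132) (nat_lit 5) (nat_lit 622) (nat_lit 516) (nat_lit 422)) (XT.lf (nat_lit 0) (nat_lit 3962189300) (nat_lit 304) (nat_lit 3415275663) (nat_lit 380) (nat_lit 6061083128) (nat_lit 127) (nat_lit 5) (nat_lit 131) (nat_lit 5) (nat_lit 132) (nat_lit 5) (nat_lit 623) (nat_lit 516) (nat_lit 421)))) (XT.nd (nat_lit 156) (nat_lit 608) (nat_lit 0) (XT.nd (nat_lit 78) (nat_lit 380) (nat_lit 0) (XT.lf (nat_lit 0) (nat_lit 11710719926) (nat_lit 380) (nat_lit 134282473) (nat_lit 76) (nat_lit 1749436863) (nat_lit 127) (nat_lit 5) (nat_lit 132) (nat_lit 5) (nat_lit 128) (nat_lit 5) (nat_lit 624) (nat_lit 516) (nat_lit 420)) (XT.lf (nat_lit 0) (nat_lit 2404468336) (nat_lit 380) (nat_lit 4315157424) (nat_lit 76) (nat_lit 7032345071) (nat_lit 122) (nat_lit 5) (nat_lit 127) (nat_lit 5) (nat_lit 123) (nat_lit 5) (nat_lit 625) (nat_lit 516) (nat_lit 419))) (XT.nd (nat_lit 78) (nat_lit 304) (nat_lit 0) (XT.lf (nat_lit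 0) (nat_lit 5302471413) (nat_lit 304) (nat_lit 1460220470) (nat_lit 380) (nat_lit 7149522550) (nat_lit 118) (nat_lit 5) (nat_lit 122) (nat_lit 5) (nat_lit 123) (nat_lit 5) (nat_lit 626) (nat_lit 516) (nat_lit 418)) (XT.lf (nat_lit 0) (nat_lit 1040745423) (nat_lit 304) (nat_lit 10202844987) (nat_lit 380) (nat_lit 2831362612) (nat_lit 114) (nat_lit 5) (nat_lit 118) (nat_lit 5) (nat_lit 119) (nat_lit 5) (nat_lit 627) (nat_lit 516) (nat_lit 417))))) (XT.nd (nat_lit 312) (nat_lit 836) (nat_lit 0) (XT.nd (nat_lit 156) (nat_lit 380) (nat_lit 0) (XT.nd (nat_lit 78) (nat_lit 228) (nat_lit 0) (XT.lf (nat_lit 0) (nat_lit 1594668575) (nat_lit 380) (nat_lit 3302388927) (nat_lit 76) (nat_lit 9342842107) (nat_lit 113) (nat_lit 5) (nat_lit 118) (nat_lit 5) (nat_lit 114) (nat_lit 5) (nat_lit 628) (nat_lit 516) (nat_lit 416)) (XT.lf (nat_lit 0) (nat_lit 6092976749) (nat_lit 304) (nat_lit 7760952212) (nat_lit 76) (nat_lit 553408801) (nat_lit 110) (nat_lit 5) (nat_lit 114)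 (nat_lit 5) (nat_lit 111) (nat_lit 5) (nat_lit 629) (nat_lit 516) (nat_lit 415))) (XT.nd (nat_lit 78) (nat_lit 76) (nat_lit 0) (XT.lf (nat_lit 0) (nat_lit 2215151080) (nat_lit 304) (nat_lit 8510144298) (nat_lit 380) (nat_lit 3851948716) (nat_lit 106) (nat_lit 5) (nat_lit 110) (nat_lit 5) (nat_lit 111) (nat_lit 5) (nat_lit 630) (nat_lit 516) (nat_lit 414)) (XT.lf (nat_lit 0) (nat_lit 717936020) (nat_lit 380) (nat_lit 2301011844) (nat_lit 76) (nat_lit 11730962095) (nat_lit 105) (nat_lit 5) (nat_lit 110) (nat_lit 5) (nat_lit 106) (nat_lit 5) (nat_lit 631) (nat_lit 516) (nat_lit 413)))) (XT.nd (nat_lit 156) (nat_lit 304) (nat_lit 0) (XT.nd (nat_lit 78) (nat_lit 304) (nat_lit 0) (XT.lf (nat_lit 0) (nat_lit 5372255708) (nat_lit 304) (nat_lit 6943208010) (nat_lit 76) (nat_lit 2609164183) (nat_lit 102) (nat_lit 5) (nat_lit 106) (nat_lit 5) (nat_lit 103) (nat_lit 5) (nat_lit 632) (nat_lit 516) (nat_lit 412)) (XT.lf (nat_lit 0) (nat_lit 3380540282) (nat_lit 304)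 (nat_lit 6772173495) (nat_lit 380) (nat_lit 4949465663) (nat_lit 98) (nat_lit 5) (nat_lit 102) (nat_lit 5) (nat_lit 103) (nat_lit 5) (nat_lit 633) (nat_lit 516) (nat_lit 411))) (XT.nd (nat_lit 78) (nat_lit 304) (nat_lit 0) (XT.lf (nat_lit 0) (nat_lit 13963295430) (nat_lit 304) (nat_lit 1087854227) (nat_lit 380) (nat_lit 231685252) (nat_lit 98) (nat_lit 5) (nat_lit 102) (nat_lit 5) (nat_lit 103) (nat_lit 5) (nat_lit 634) (nat_lit 516) (nat_lit 410)) (XT.lf (nat_lit 0) (nat_lit 4588195774) (nat_lit 304) (nat_lit 6154541357) (nat_lit 76) (nat_lit 4722415463) (nat_lit 94) (nat_lit 5) (nat_lit 98) (nat_lit 5) (nat_lit 95) (nat_lit 5) (nat_lit 635) (nat_lit 516) (nat_lit 409))))))))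
noncomputable def xc61 : XT := (XT.nd (nat_lit 74178) (nat_lit 0) (nat_lit 21964) (XT.nd (nat_lit 72930) (nat_lit 0) (nat_lit 46284) (XT.nd (nat_lit 546) (nat_lit 684) (nat_lit 0) (XT.nd (nat_lit 234) (nat_lit 760) (nat_lit 0) (XT.nd (nat_lit 78) (nat_lit 304) (nat_lit 0) (XT.lf (nat_lit 0) (nat_lit 4529742640) (nat_lit 228) (nat_lit 4993346415) (nat_lit 304) (nat_lit 6127562867) (nat_lit 91) (nat_lit 5) (nat_lit 94) (nat_lit 5) (nat_lit 95) (nat_lit 5) (nat_lit 636) (nat_lit 516) (nat_lit 408)) (XT.nd (nat_lit 78) (nat_lit 304) (nat_lit 0) (XT.lf (nat_lit 0) (nat_lit 14580184393) (nat_lit 304) (nat_lit 375095164) (nat_lit 76) (nat_lit 884111847) (nat_lit 91) (nat_lit 5) (nat_lit 95) (nat_lit 5) (nat_lit 92) (nat_lit 5) (nat_lit 637) (nat_lit 516) (nat_lit 407)) (XT.lf (nat_lit 0) (nat_lit 3737394511) (nat_lit 304) (nat_lit 5403108257) (nat_lit 76) (nat_lit 6889332043) (nat_lit 87) (nat_lit 5) (nat_lit 91) (nat_lit 5) (nat_lit 88) (nat_lit 5) (nat_lit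 638) (nat_lit 516) (nat_lit 406)))) (XT.nd (nat_lit 156) (nat_lit 304) (nat_lit 0) (XT.nd (nat_lit 78) (nat_lit 228) (nat_lit 0) (XT.lf (nat_lit 0) (nat_lit 5654938997) (nat_lit 228) (nat_lit 3178175878) (nat_lit 304) (nat_lit 7390485029) (nat_lit 84) (nat_lit 5) (nat_lit 87) (nat_lit 5) (nat_lit 88) (nat_lit 5) (nat_lit 639) (nat_lit 516) (nat_lit 405)) (XT.lf (nat_lit 0) (nat_lit 534202155) (nat_lit 228) (nat_lit 13532229190) (nat_lit 304) (nat_lit 2354095553) (nat_lit 81) (nat_lit 5) (nat_lit 84) (nat_lit 5) (nat_lit 85) (nat_lit 5) (nat_lit 640) (nat_lit 516) (nat_lit 404))) (XT.nd (nat_lit 78) (nat_lit 228) (nat_lit 0) (XT.lf (nat_lit 0) (nat_lit 2815864751) (nat_lit 304) (nat_lit 4697802817) (nat_lit 76) (nat_lit 9105976845) (nat_lit 80) (nat_lit 5) (nat_lit 84) (nat_lit 5) (nat_lit 81) (nat_lit 5) (nat_lit 641) (nat_lit 516) (nat_lit 403)) (XT.lf (nat_lit 0) (nat_lit 6747565788) (nat_lit 228) (nat_lit 1331333521) (nat_lit 304) (nat_lit 8743110049)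 (nat_lit 77) (nat_lit 5) (nat_lit 80) (nat_lit 5) (nat_lit 81) (nat_lit 5) (nat_lit 642) (nat_lit 516) (nat_lit 402))))) (XT.nd (nat_lit 72072) (nat_lit 0) (nat_lit 54036) (XT.nd (nat_lit 156) (nat_lit 380) (nat_lit 0) (XT.nd (nat_lit 78) (nat_lit 76) (nat_lit 0) (XT.lf (nat_lit 0) (nat_lit 1403727813) (nat_lit 228) (nat_lit 12094046116) (nat_lit 304) (nat_lit 3529636300) (nat_lit 74) (nat_lit 5) (nat_lit 77) (nat_lit 5) (nat_lit 78) (nat_lit 5) (nat_lit 643) (nat_lit 516) (nat_lit 401)) (XT.lf (nat_lit 0) (nat_lit 1818994784) (nat_lit 304) (nat_lit 4048359271) (nat_lit 76) (nat_lit 11368246295) (nat_lit 73) (nat_lit 5) (nat_lit 77) (nat_lit 5) (nat_lit 74) (nat_lit 5) (nat_lit 644) (nat_lit 516) (nat_lit 400))) (XT.nd (nat_lit 78) (nat_lit 152) (nat_lit 0) (XT.lf (nat_lit 0) (nat_lit 7259444546) (nat_lit 304) (nat_lit 9652226157) (nat_lit 76) (nat_lit 535174995) (nat_lit 70) (nat_lit 5) (nat_lit 74) (nat_lit 5) (nat_lit 71) (nat_lit 5) (nat_lit 645) (nat_lit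 516) (nat_lit 399)) (XT.lf (nat_lit 0) (nat_lit 2218390165) (nat_lit 152) (nat_lit 10648901435) (nat_lit 228) (nat_lit 4793852786) (nat_lit 68) (nat_lit 5) (nat_lit 70) (nat_lit 5) (nat_lit 71) (nat_lit 5) (nat_lit 646) (nat_lit 516) (nat_lit 398)))) (XT.nd (nat_lit 156) (nat_lit 380) (nat_lit 0) (XT.nd (nat_lit 78) (nat_lit 76) (nat_lit 0) (XT.lf (nat_lit 0) (nat_lit 397299221) (nat_lit 228) (nat_lit 1416172434) (nat_lit 228) (nat_lit 1416172434) (nat_lit 785) (nat_lit 4) (nat_lit 788) (nat_lit 5) (nat_lit 788) (nat_lit 4) (nat_lit 526) (nat_lit 517) (nat_lit 517)) (XT.lf (nat_lit 0) (nat_lit 382454815) (nat_lit 304) (nat_lit 2136251738) (nat_lit 76) (nat_lit 3946947367) (nat_lit 784) (nat_lit 5) (nat_lit 788) (nat_lit 5) (nat_lit 785) (nat_lit 4) (nat_lit 527) (nat_lit 517) (nat_lit 516))) (XT.nd (nat_lit 78) (nat_lit 76) (nat_lit 0) (XT.lf (nat_lit 0) (nat_lit 1415611394) (nat_lit 304) (nat_lit 2136961291) (nat_lit 380) (nat_lit 2920625440) (nat_lit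 780) (nat_lit 5) (nat_lit 784) (nat_lit 5) (nat_lit 785) (nat_lit 4) (nat_lit 528) (nat_lit 517) (nat_lit 515)) (XT.lf (nat_lit 0) (nat_lit 236091656) (nat_lit 380) (nat_lit 1462918578) (nat_lit 76) (nat_lit 4783149812) (nat_lit 779) (nat_lit 5) (nat_lit 784) (nat_lit 5) (nat_lit 780) (nat_lit 5) (nat_lit 529) (nat_lit 517) (nat_lit 514)))))) (XT.nd (nat_lit 624) (nat_lit 4864) (nat_lit 0) (XT.nd (nat_lit 312) (nat_lit 1444) (nat_lit 0) (XT.nd (nat_lit 156) (nat_lit 1064) (nat_lit 0) (XT.nd (nat_lit 78) (nat_lit 0) (nat_lit 0) (XT.lf (nat_lit 0) (nat_lit 2165938288) (nat_lit 380) (nat_lit 1187020815) (nat_lit 456) (nat_lit 3139237802) (nat_lit 774) (nat_lit 5) (nat_lit 779) (nat_lit 5) (nat_lit 780) (nat_lit 5) (nat_lit 530) (nat_lit 517) (nat_lit 513)) (XT.lf (nat_lit 0) (nat_lit 5840740802) (nat_lit 380) (nat_lit 624491252) (nat_lit 456) (nat_lit 38545270) (nat_lit 774) (nat_lit 5) (nat_lit 779) (nat_lit 5) (nat_lit 780) (nat_lit 5) (nat_lit 531) (nat_lit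 517) (nat_lit 512))) (XT.nd (nat_lit 78) (nat_lit 532) (nat_lit 0) (XT.lf (nat_lit 0) (nat_lit 3027346759) (nat_lit 532) (nat_lit 3469871875) (nat_lit 76) (nat_lit 19085868) (nat_lit 767) (nat_lit 5) (nat_lit 774) (nat_lit 5) (nat_lit 768) (nat_lit 5) (nat_lit 532) (nat_lit 517) (nat_lit 511)) (XT.lf (nat_lit 0) (nat_lit 261156228) (nat_lit 532) (nat_lit 5828817268) (nat_lit 608) (nat_lit 440388918) (nat_lit 760) (nat_lit 5) (nat_lit 767) (nat_lit 5) (nat_lit 768) (nat_lit 5) (nat_lit 533) (nat_lit 517) (nat_lit 510)))) (XT.nd (nat_lit 156) (nat_lit 760) (nat_lit 0) (XT.nd (nat_lit 78) (nat_lit 608) (nat_lit 0) (XT.lf (nat_lit 0) (nat_lit 2583866604) (nat_lit 608) (nat_lit 2496482077) (nat_lit 76) (nat_lit 1465015561) (nat_lit 759) (nat_lit 5) (nat_lit 767) (nat_lit 5) (nat_lit 760) (nat_lit 5) (nat_lit 534) (nat_lit 517) (nat_lit 509)) (XT.lf (nat_lit 0) (nat_lit 1318422254) (nat_lit 608) (nat_lit 4280582044) (nat_lit 684) (nat_lit 962881431) (nat_lit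 751) (nat_lit 5) (nat_lit 759) (nat_lit 5) (nat_lit 760) (nat_lit 5) (nat_lit 535) (nat_lit 517) (nat_lit 508))) (XT.nd (nat_lit 78) (nat_lit 684) (nat_lit 0) (XT.lf (nat_lit 0) (nat_lit 2013448353) (nat_lit 684) (nat_lit 1396946342) (nat_lit 76) (nat_lit 3169169852) (nat_lit 750) (nat_lit 5) (nat_lit 759) (nat_lit 5) (nat_lit 751) (nat_lit 5) (nat_lit 536) (nat_lit 517) (nat_lit 507)) (XT.lf (nat_lit 0) (nat_lit 2505642038) (nat_lit 684) (nat_lit 2476817873) (nat_lit 760) (nat_lit 1616092277) (nat_lit 741) (nat_lit 5) (nat_lit 750) (nat_lit 5) (nat_lit 751) (nat_lit 5) (nat_lit 537) (nat_lit 517) (nat_lit 506))))) (XT.nd (nat_lit 312) (nat_lit 3116) (nat_lit 0) (XT.nd (nat_lit 156) (nat_lit 912) (nat_lit 0) (XT.nd (nat_lit 78) (nat_lit 760) (nat_lit 0) (XT.lf (nat_lit 0) (nat_lit 1314478034) (nat_lit 760) (nat_lit 169581328) (nat_lit 76) (nat_lit 5134886422) (nat_lit 740) (nat_lit 5) (nat_lit 750) (nat_lit 5) (nat_lit 741) (nat_lit 5) (nat_lit 538) (nat_lit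 517) (nat_lit 505)) (XT.lf (nat_lit 0) (nat_lit 3824651413) (nat_lit 760) (nat_lit 413964544) (nat_lit 836) (nat_lit 2401789033) (nat_lit 730) (nat_lit 5) (nat_lit 740) (nat_lit 5) (nat_lit 741) (nat_lit 5) (nat_lit 539) (nat_lit 517) (nat_lit 504))) (XT.nd (nat_lit 78) (nat_lit 0) (nat_lit 0) (XT.lf (nat_lit 0) (nat_lit 497513493) (nat_lit 912) (nat_lit 5464682743) (nat_lit 76) (nat_lit 701109720) (nat_lit 718) (nat_lit 5) (nat_lit 730) (nat_lit 5) (nat_lit 719) (nat_lit 5) (nat_lit 540) (nat_lit 517) (nat_lit 503)) (XT.lf (nat_lit 0) (nat_lit 3377909364) (nat_lit 912) (nat_lit 1422366390) (nat_lit 76) (nat_lit 1886969438) (nat_lit 718) (nat_lit 5) (nat_lit 730) (nat_lit 5) (nat_lit 719) (nat_lit 5) (nat_lit 541) (nat_lit 517) (nat_lit 502)))) (XT.nd (nat_lit 156) (nat_lit 1140) (nat_lit 0) (XT.nd (nat_lit 78) (nat_lit 1064) (nat_lit 0) (XT.lf (nat_lit 0) (nat_lit 2688246592) (nat_lit 912) (nat_lit 3579900219) (nat_lit 988) (nat_lit 444474777) (nat_lit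 706) (nat_lit 5) (nat_lit 718) (nat_lit 5) (nat_lit 719) (nat_lit 5) (nat_lit 542) (nat_lit 517) (nat_lit 501)) (XT.lf (nat_lit 0) (nat_lit 98829469) (nat_lit 988) (nat_lit 2291930278) (nat_lit 1064) (nat_lit 4348515529) (nat_lit 692) (nat_lit 5) (nat_lit 705) (nat_lit 5) (nat_lit 706) (nat_lit 5) (nat_lit 543) (nat_lit 517) (nat_lit 500))) (XT.nd (nat_lit 78) (nat_lit 1140) (nat_lit 0) (XT.lf (nat_lit 0) (nat_lit 4308030460) (nat_lit 988) (nat_lit 931986987) (nat_lit 1064) (nat_lit 1527123307) (nat_lit 692) (nat_lit 5) (nat_lit 705) (nat_lit 5) (nat_lit 706) (nat_lit 5) (nat_lit 544) (nat_lit 517) (nat_lit 499)) (XT.lf (nat_lit 0) (nat_lit 1284787320) (nat_lit 1140) (nat_lit 5027210517) (nat_lit 76) (nat_lit 484356971) (nat_lit 677) (nat_lit 5) (nat_lit 692) (nat_lit 5) (nat_lit 678) (nat_lit 5) (nat_lit 545) (nat_lit 517) (nat_lit 498))))))) (XT.nd (nat_lit 1170) (nat_lit 9120) (nat_lit 0) (XT.nd (nat_lit 546) (nat_lit 10032) (nat_lit 0) (XT.nd (nat_lit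 234) (nat_lit 2736) (nat_lit 0) (XT.nd (nat_lit 78) (nat_lit 2432) (nat_lit 0) (XT.lf (nat_lit 0) (nat_lit 4093418576) (nat_lit 1140) (nat_lit 775872842) (nat_lit 76) (nat_lit 1957443933) (nat_lit 677) (nat_lit 5) (nat_lit 692) (nat_lit 5) (nat_lit 678) (nat_lit 5) (nat_lit 546) (nat_lit 517) (nat_lit 497)) (XT.nd (nat_lit 78) (nat_lit 1216) (nat_lit 0) (XT.lf (nat_lit 0) (nat_lit 61379483) (nat_lit 1216) (nat_lit 3299703087) (nat_lit 76) (nat_lit 3497386517) (nat_lit 661) (nat_lit 5) (nat_lit 677) (nat_lit 5) (nat_lit 662) (nat_lit 5) (nat_lit 547) (nat_lit 517) (nat_lit 496)) (XT.lf (nat_lit 0) (nat_lit 1046997572) (nat_lit 1216) (nat_lit 1780268721) (nat_lit 1292) (nat_lit 4064174499) (nat_lit 645) (nat_lit 5) (nat_lit 661) (nat_lit 5) (nat_lit 662) (nat_lit 5) (nat_lit 548) (nat_lit 517) (nat_lit 495)))) (XT.nd (nat_lit 156) (nat_lit 1368) (nat_lit 0) (XT.nd (nat_lit 78) (nat_lit 1368) (nat_lit 0) (XT.lf (nat_lit 0) (nat_lit 5477200047) (nat_lit 1216)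 (nat_lit 134103519) (nat_lit 1292) (nat_lit 1314514211) (nat_lit 645) (nat_lit 5) (nat_lit 661) (nat_lit 5) (nat_lit 662) (nat_lit 5) (nat_lit 549) (nat_lit 517) (nat_lit 494)) (XT.lf (nat_lit 0) (nat_lit 1441943052) (nat_lit 1368) (nat_lit 3954741854) (nat_lit 76) (nat_lit 1564579357) (nat_lit 627) (nat_lit 5) (nat_lit 645) (nat_lit 5) (nat_lit 628) (nat_lit 5) (nat_lit 550) (nat_lit 517) (nat_lit 493))) (XT.nd (nat_lit 78) (nat_lit 0) (nat_lit 0) (XT.lf (nat_lit 0) (nat_lit 521455534) (nat_lit 1368) (nat_lit 3670916751) (nat_lit 1444) (nat_lit 2805747088) (nat_lit 609) (nat_lit 5) (nat_lit 627) (nat_lit 5) (nat_lit 628) (nat_lit 5) (nat_lit 551) (nat_lit 517) (nat_lit 492)) (XT.lf (nat_lit 0) (nat_lit 5092204098) (nat_lit 1368) (nat_lit 1875327630) (nat_lit 1444) (nat_lit 68787737) (nat_lit 609) (nat_lit 5) (nat_lit 627) (nat_lit 5) (nat_lit 628) (nat_lit 5) (nat_lit 552) (nat_lit 517) (nat_lit 491))))) (XT.nd (nat_lit 312) (nat_lit 5320) (nat_lit 0)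 (XT.nd (nat_lit 156) (nat_lit 1672) (nat_lit 0) (XT.nd (nat_lit 78) (nat_lit 1520) (nat_lit 0) (XT.lf (nat_lit 0) (nat_lit 2647755725) (nat_lit 1444) (nat_lit 560748) (nat_lit 1520) (nat_lit 4427393386) (nat_lit 589) (nat_lit 5) (nat_lit 608) (nat_lit 5) (nat_lit 609) (nat_lit 5) (nat_lit 553) (nat_lit 517) (nat_lit 490)) (XT.lf (nat_lit 0) (nat_lit 182416760) (nat_lit 1520) (nat_lit 5207915199) (nat_lit 1596) (nat_lit 1726119379) (nat_lit 569) (nat_lit 5) (nat_lit 589) (nat_lit 5) (nat_lit 590) (nat_lit 5) (nat_lit 554) (nat_lit 517) (nat_lit 489))) (XT.nd (nat_lit 78) (nat_lit 1596) (nat_lit 0) (XT.lf (nat_lit 0) (nat_lit 990760033) (nat_lit 1596) (nat_lit 2268897693) (nat_lit 76) (nat_lit 3898716817) (nat_lit 568) (nat_lit 5) (nat_lit 589) (nat_lit 5) (nat_lit 569) (nat_lit 5) (nat_lit 555) (nat_lit 517) (nat_lit 488)) (XT.lf (nat_lit 0) (nat_lit 2461751037) (nat_lit 1596) (nat_lit 1239356823) (nat_lit 1672) (nat_lit 3500557341) (nat_lit 547) (nat_lit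 5) (nat_lit 568) (nat_lit 5) (nat_lit 569) (nat_lit 5) (nat_lit 556) (nat_lit 517) (nat_lit 487)))) (XT.nd (nat_lit 156) (nat_lit 3572) (nat_lit 0) (XT.nd (nat_lit 78) (nat_lit 76) (nat_lit 0) (XT.lf (nat_lit 0) (nat_lit 17629903) (nat_lit 1672) (nat_lit 6415815787) (nat_lit 1748) (nat_lit 813022332) (nat_lit 525) (nat_lit 5) (nat_lit 547) (nat_lit 5) (nat_lit 548) (nat_lit 5) (nat_lit 557) (nat_lit 517) (nat_lit 486)) (XT.lf (nat_lit 0) (nat_lit 1890581156) (nat_lit 1748) (nat_lit 2427687891) (nat_lit 76) (nat_lit 2973897249) (nat_lit 524) (nat_lit 5) (nat_lit 547) (nat_lit 5) (nat_lit 525) (nat_lit 5) (nat_lit 558) (nat_lit 517) (nat_lit 485))) (XT.nd (nat_lit 78) (nat_lit 1824) (nat_lit 0) (XT.lf (nat_lit 0) (nat_lit 2447380390) (nat_lit 1748) (nat_lit 2154303555) (nat_lit 1824) (nat_lit 2737702733) (nat_lit 501) (nat_lit 5) (nat_lit 524) (nat_lit 5) (nat_lit 525) (nat_lit 5) (nat_lit 559) (nat_lit 517) (nat_lit 484)) (XT.lf (nat_lit 0) (nat_lit 15856127)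 (nat_lit 1824) (nat_lit 7317123862) (nat_lit 1900) (nat_lit 55253915) (nat_lit 477) (nat_lit 5) (nat_lit 501) (nat_lit 5) (nat_lit 502) (nat_lit 5) (nat_lit 560) (nat_lit 517) (nat_lit 483)))))) (XT.nd (nat_lit 624) (nat_lit 4180) (nat_lit 0) (XT.nd (nat_lit 312) (nat_lit 2736) (nat_lit 0) (XT.nd (nat_lit 156) (nat_lit 988) (nat_lit 0) (XT.nd (nat_lit 78) (nat_lit 1140) (nat_lit 0) (XT.lf (nat_lit 0) (nat_lit 2642465778) (nat_lit 1900) (nat_lit 2430983411) (nat_lit 76) (nat_lit 2364326921) (nat_lit 476) (nat_lit 5) (nat_lit 501) (nat_lit 5) (nat_lit 477) (nat_lit 5) (nat_lit 561) (nat_lit 517) (nat_lit 482)) (XT.lf (nat_lit 0) (nat_lit 2593991638) (nat_lit 1140) (nat_lit 2766711178) (nat_lit 1216) (nat_lit 2128254737) (nat_lit 461) (nat_lit 5) (nat_lit 476) (nat_lit 5) (nat_lit 477) (nat_lit 5) (nat_lit 562) (nat_lit 517) (nat_lit 481))) (XT.nd (nat_lit 78) (nat_lit 0) (nat_lit 0) (XT.lf (nat_lit 0) (nat_lit 160498931) (nat_lit 912) (nat_lit 392130986)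 (nat_lit 988) (nat_lit 6989092418) (nat_lit 448) (nat_lit 5) (nat_lit 460) (nat_lit 5) (nat_lit 461) (nat_lit 5) (nat_lit 563) (nat_lit 517) (nat_lit 480)) (XT.lf (nat_lit 0) (nat_lit 3256342394) (nat_lit 988) (nat_lit 2288834066) (nat_lit 76) (nat_lit 2050132101) (nat_lit 448) (nat_lit 5) (nat_lit 461) (nat_lit 5) (nat_lit 449) (nat_lit 5) (nat_lit 564) (nat_lit 517) (nat_lit 479)))) (XT.nd (nat_lit 156) (nat_lit 912) (nat_lit 0) (XT.nd (nat_lit 78) (nat_lit 912) (nat_lit 0) (XT.lf (nat_lit 0) (nat_lit 2891828533) (nat_lit 912) (nat_lit 3096061155) (nat_lit 988) (nat_lit 1662603229) (nat_lit 436) (nat_lit 5) (nat_lit 448) (nat_lit 5) (nat_lit 449) (nat_lit 5) (nat_lit 565) (nat_lit 517) (nat_lit 478)) (XT.lf (nat_lit 0) (nat_lit 450318129) (nat_lit 836) (nat_lit 574049298) (nat_lit 912) (nat_lit 6682854936) (nat_lit 424) (nat_lit 5) (nat_lit 435) (nat_lit 5) (nat_lit 436) (nat_lit 5) (nat_lit 566) (nat_lit 517) (nat_lit 477))) (XT.nd (nat_lit 78) (nat_lit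 912) (nat_lit 0) (XT.lf (nat_lit 0) (nat_lit 3741244910) (nat_lit 912) (nat_lit 2010469973) (nat_lit 76) (nat_lit 2013184650) (nat_lit 424) (nat_lit 5) (nat_lit 436) (nat_lit 5) (nat_lit 425) (nat_lit 5) (nat_lit 567) (nat_lit 517) (nat_lit 476)) (XT.lf (nat_lit 0) (nat_lit 3331956781) (nat_lit 912) (nat_lit 3160143264) (nat_lit 988) (nat_lit 1332038894) (nat_lit 412) (nat_lit 5) (nat_lit 424) (nat_lit 5) (nat_lit 425) (nat_lit 5) (nat_lit 568) (nat_lit 517) (nat_lit 475))))) (XT.nd (nat_lit 312) (nat_lit 1596) (nat_lit 0) (XT.nd (nat_lit 156) (nat_lit 1672) (nat_lit 0) (XT.nd (nat_lit 78) (nat_lit 0) (nat_lit 0) (XT.lf (nat_lit 0) (nat_lit 877312431) (nat_lit 836) (nat_lit 491323632) (nat_lit 912) (nat_lit 6516269691) (nat_lit 400) (nat_lit 5) (nat_lit 411) (nat_lit 5) (nat_lit 412) (nat_lit 5) (nat_lit 569) (nat_lit 517) (nat_lit 474)) (XT.lf (nat_lit 0) (nat_lit 4105371859) (nat_lit 912) (nat_lit 1604371477) (nat_lit 76) (nat_lit 2236972217) (nat_lit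 400) (nat_lit 5) (nat_lit 412) (nat_lit 5) (nat_lit 401) (nat_lit 5) (nat_lit 570) (nat_lit 517) (nat_lit 473))) (XT.nd (nat_lit 78) (nat_lit 836) (nat_lit 0) (XT.lf (nat_lit 0) (nat_lit 3906194684) (nat_lit 836) (nat_lit 2975182521) (nat_lit 912) (nat_lit 1128695026) (nat_lit 389) (nat_lit 5) (nat_lit 400) (nat_lit 5) (nat_lit 401) (nat_lit 5) (nat_lit 571) (nat_lit 517) (nat_lit 472)) (XT.lf (nat_lit 0) (nat_lit 1433370345) (nat_lit 760) (nat_lit 159674811) (nat_lit 836) (nat_lit 6481913010) (nat_lit 378) (nat_lit 5) (nat_lit 388) (nat_lit 5) (nat_lit 389) (nat_lit 5) (nat_lit 572) (nat_lit 517) (nat_lit 471)))) (XT.nd (nat_lit 156) (nat_lit 836) (nat_lit 0) (XT.nd (nat_lit 78) (nat_lit 760) (nat_lit 0) (XT.lf (nat_lit 0) (nat_lit 4356140294) (nat_lit 836) (nat_lit 1078334896) (nat_lit 76) (nat_lit 2706478049) (nat_lit 378) (nat_lit 5) (nat_lit 389) (nat_lit 5) (nat_lit 379) (nat_lit 5) (nat_lit 573) (nat_lit 517) (nat_lit 470)) (XT.lf (nat_lit 0) (nat_lit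 4607047915) (nat_lit 760) (nat_lit 2555956784) (nat_lit 836) (nat_lit 1045494645) (nat_lit 368) (nat_lit 5) (nat_lit 378) (nat_lit 5) (nat_lit 379) (nat_lit 5) (nat_lit 574) (nat_lit 517) (nat_lit 469))) (XT.nd (nat_lit 78) (nat_lit 0) (nat_lit 0) (XT.lf (nat_lit 0) (nat_lit 1707085709) (nat_lit 836) (nat_lit 6169188761) (nat_lit 76) (nat_lit 401267883) (nat_lit 357) (nat_lit 5) (nat_lit 368) (nat_lit 5) (nat_lit 358) (nat_lit 5) (nat_lit 575) (nat_lit 517) (nat_lit 468)) (XT.lf (nat_lit 0) (nat_lit 4500234691) (nat_lit 836) (nat_lit 439534569) (nat_lit 76) (nat_lit 3408069627) (nat_lit 357) (nat_lit 5) (nat_lit 368) (nat_lit 5) (nat_lit 358) (nat_lit 5) (nat_lit 576) (nat_lit 517) (nat_lit 467))))))))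
noncomputable def xc62 : XT := (XT.nd (nat_lit 2418) (nat_lit 7600) (nat_lit 0) (XT.nd (nat_lit 1170) (nat_lit 5472) (nat_lit 0) (XT.nd (nat_lit 546) (nat_lit 3800) (nat_lit 0) (XT.nd (nat_lit 234) (nat_lit 1444) (nat_lit 0) (XT.nd (nat_lit 78) (nat_lit 1444) (nat_lit 0) (XT.lf (nat_lit 0) (nat_lit 5427647956) (nat_lit 760) (nat_lit 1915905797) (nat_lit 836) (nat_lit 1076102635) (nat_lit 347) (nat_lit 5) (nat_lit 357) (nat_lit 5) (nat_lit 358) (nat_lit 5) (nat_lit 577) (nat_lit 517) (nat_lit 466)) (XT.nd (nat_lit 78) (nat_lit 684) (nat_lit 0) (XT.lf (nat_lit 0) (nat_lit 1716732288) (nat_lit 760) (nat_lit 5597317774) (nat_lit 76) (nat_lit 1178856645) (nat_lit 337) (nat_lit 5) (nat_lit 347) (nat_lit 5) (nat_lit 338) (nat_lit 5) (nat_lit 578) (nat_lit 517) (nat_lit 465)) (XT.lf (nat_lit 0) (nat_lit 309477234) (nat_lit 684) (nat_lit 4236183241) (nat_lit 760) (nat_lit 4021927495) (nat_lit 328) (nat_lit 5) (nat_lit 337) (nat_lit 5) (nat_lit 338) (nat_lit 5)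 (nat_lit 579) (nat_lit 517) (nat_lit 464)))) (XT.nd (nat_lit 156) (nat_lit 684) (nat_lit 0) (XT.nd (nat_lit 78) (nat_lit 760) (nat_lit 0) (XT.lf (nat_lit 0) (nat_lit 6361693770) (nat_lit 684) (nat_lit 1067232415) (nat_lit 760) (nat_lit 1214882584) (nat_lit 328) (nat_lit 5) (nat_lit 337) (nat_lit 5) (nat_lit 338) (nat_lit 5) (nat_lit 580) (nat_lit 517) (nat_lit 463)) (XT.lf (nat_lit 0) (nat_lit 1626339396) (nat_lit 760) (nat_lit 4931429880) (nat_lit 76) (nat_lit 2163578636) (nat_lit 318) (nat_lit 5) (nat_lit 328) (nat_lit 5) (nat_lit 319) (nat_lit 5) (nat_lit 581) (nat_lit 517) (nat_lit 462))) (XT.nd (nat_lit 78) (nat_lit 0) (nat_lit 0) (XT.lf (nat_lit 0) (nat_lit 1165708625) (nat_lit 684) (nat_lit 3333597056) (nat_lit 760) (nat_lit 4301148834) (nat_lit 309) (nat_lit 5) (nat_lit 318) (nat_lit 5) (nat_lit 319) (nat_lit 5) (nat_lit 582) (nat_lit 517) (nat_lit 461)) (XT.lf (nat_lit 0) (nat_lit 7403396275) (nat_lit 684) (nat_lit 20996657) (nat_lit 760) (nat_lit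 1456858091) (nat_lit 309) (nat_lit 5) (nat_lit 318) (nat_lit 5) (nat_lit 319) (nat_lit 5) (nat_lit 583) (nat_lit 517) (nat_lit 460))))) (XT.nd (nat_lit 312) (nat_lit 1824) (nat_lit 0) (XT.nd (nat_lit 156) (nat_lit 684) (nat_lit 0) (XT.nd (nat_lit 78) (nat_lit 608) (nat_lit 0) (XT.lf (nat_lit 0) (nat_lit 1440671431) (nat_lit 684) (nat_lit 4177561581) (nat_lit 76) (nat_lit 3344937958) (nat_lit 300) (nat_lit 5) (nat_lit 309) (nat_lit 5) (nat_lit 301) (nat_lit 5) (nat_lit 584) (nat_lit 517) (nat_lit 459)) (XT.lf (nat_lit 0) (nat_lit 2117593355) (nat_lit 608) (nat_lit 2245382530) (nat_lit 684) (nat_lit 4683835150) (nat_lit 292) (nat_lit 5) (nat_lit 300) (nat_lit 5) (nat_lit 301) (nat_lit 5) (nat_lit 585) (nat_lit 517) (nat_lit 458))) (XT.nd (nat_lit 78) (nat_lit 684) (nat_lit 0) (XT.lf (nat_lit 0) (nat_lit 7342502765) (nat_lit 684) (nat_lit 592755837) (nat_lit 76) (nat_lit 1196890700) (nat_lit 292) (nat_lit 5) (nat_lit 301) (nat_lit 5) (nat_lit 293) (nat_lit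 5) (nat_lit 586) (nat_lit 517) (nat_lit 457)) (XT.lf (nat_lit 0) (nat_lit 1163898287) (nat_lit 684) (nat_lit 3341346542) (nat_lit 76) (nat_lit 4713465098) (nat_lit 283) (nat_lit 5) (nat_lit 292) (nat_lit 5) (nat_lit 284) (nat_lit 5) (nat_lit 587) (nat_lit 517) (nat_lit 456)))) (XT.nd (nat_lit 156) (nat_lit 684) (nat_lit 0) (XT.nd (nat_lit 78) (nat_lit 532) (nat_lit 0) (XT.lf (nat_lit 0) (nat_lit 3159814127) (nat_lit 608) (nat_lit 980975360) (nat_lit 684) (nat_lit 5166211784) (nat_lit 275) (nat_lit 5) (nat_lit 283) (nat_lit 5) (nat_lit 284) (nat_lit 5) (nat_lit 588) (nat_lit 517) (nat_lit 455)) (XT.lf (nat_lit 0) (nat_lit 379461994) (nat_lit 532) (nat_lit 6803787085) (nat_lit 608) (nat_lit 2213689611) (nat_lit 268) (nat_lit 5) (nat_lit 275) (nat_lit 5) (nat_lit 276) (nat_lit 5) (nat_lit 589) (nat_lit 517) (nat_lit 454))) (XT.nd (nat_lit 78) (nat_lit 608) (nat_lit 0) (XT.lf (nat_lit 0) (nat_lit 799623800) (nat_lit 608) (nat_lit 2428066260) (nat_lit 76) (nat_lit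 6260637911) (nat_lit 267) (nat_lit 5) (nat_lit 275) (nat_lit 5) (nat_lit 268) (nat_lit 5) (nat_lit 590) (nat_lit 517) (nat_lit 453)) (XT.lf (nat_lit 0) (nat_lit 3839242291) (nat_lit 684) (nat_lit 5296915993) (nat_lit 76) (nat_lit 445181311) (nat_lit 259) (nat_lit 5) (nat_lit 268) (nat_lit 5) (nat_lit 260) (nat_lit 5) (nat_lit 591) (nat_lit 517) (nat_lit 452)))))) (XT.nd (nat_lit 624) (nat_lit 2356) (nat_lit 0) (XT.nd (nat_lit 312) (nat_lit 1520) (nat_lit 0) (XT.nd (nat_lit 156) (nat_lit 988) (nat_lit 0) (XT.nd (nat_lit 78) (nat_lit 76) (nat_lit 0) (XT.lf (nat_lit 0) (nat_lit 1437970595) (nat_lit 532) (nat_lit 5513986547) (nat_lit 608) (nat_lit 2724009023) (nat_lit 252) (nat_lit 5) (nat_lit 259) (nat_lit 5) (nat_lit 260) (nat_lit 5) (nat_lit 592) (nat_lit 517) (nat_lit 451)) (XT.lf (nat_lit 0) (nat_lit 350910487) (nat_lit 608) (nat_lit 1442699373) (nat_lit 76) (nat_lit 7978807784) (nat_lit 251) (nat_lit 5) (nat_lit 259) (nat_lit 5) (nat_lit 252) (nat_lit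 5) (nat_lit 593) (nat_lit 517) (nat_lit 450))) (XT.nd (nat_lit 78) (nat_lit 456) (nat_lit 0) (XT.lf (nat_lit 0) (nat_lit 3465852582) (nat_lit 608) (nat_lit 4387937288) (nat_lit 76) (nat_lit 2016348941) (nat_lit 244) (nat_lit 5) (nat_lit 252) (nat_lit 5) (nat_lit 245) (nat_lit 5) (nat_lit 594) (nat_lit 517) (nat_lit 449)) (XT.lf (nat_lit 0) (nat_lit 2570212606) (nat_lit 456) (nat_lit 4077490004) (nat_lit 532) (nat_lit 3322020344) (nat_lit 238) (nat_lit 5) (nat_lit 244) (nat_lit 5) (nat_lit 245) (nat_lit 5) (nat_lit 595) (nat_lit 517) (nat_lit 448)))) (XT.nd (nat_lit 156) (nat_lit 912) (nat_lit 0) (XT.nd (nat_lit 78) (nat_lit 608) (nat_lit 0) (XT.lf (nat_lit 0) (nat_lit 9680225244) (nat_lit 456) (nat_lit 209064828) (nat_lit 532) (nat_lit 182087416) (nat_lit 238) (nat_lit 5) (nat_lit 244) (nat_lit 5) (nat_lit 245) (nat_lit 5) (nat_lit 596) (nat_lit 517) (nat_lit 447)) (XT.lf (nat_lit 0) (nat_lit 3016738131) (nat_lit 608) (nat_lit 3418660759) (nat_lit 76)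 (nat_lit 3738560469) (nat_lit 230) (nat_lit 5) (nat_lit 238) (nat_lit 5) (nat_lit 231) (nat_lit 5) (nat_lit 597) (nat_lit 517) (nat_lit 446))) (XT.nd (nat_lit 78) (nat_lit 456) (nat_lit 0) (XT.lf (nat_lit 0) (nat_lit 3771738754) (nat_lit 456) (nat_lit 2501232045) (nat_lit 532) (nat_lit 4005681299) (nat_lit 224) (nat_lit 5) (nat_lit 230) (nat_lit 5) (nat_lit 231) (nat_lit 5) (nat_lit 598) (nat_lit 517) (nat_lit 445)) (XT.lf (nat_lit 0) (nat_lit 719972721) (nat_lit 456) (nat_lit 8879537720) (nat_lit 532) (nat_lit 785825267) (nat_lit 218) (nat_lit 5) (nat_lit 224) (nat_lit 5) (nat_lit 225) (nat_lit 5) (nat_lit 599) (nat_lit 517) (nat_lit 444))))) (XT.nd (nat_lit 312) (nat_lit 1292) (nat_lit 0) (XT.nd (nat_lit 156) (nat_lit 532) (nat_lit 0) (XT.nd (nat_lit 78) (nat_lit 456) (nat_lit 0) (XT.lf (nat_lit 0) (nat_lit 2493899758) (nat_lit 532) (nat_lit 2393687710) (nat_lit 76) (nat_lit 5605676947) (nat_lit 217) (nat_lit 5) (nat_lit 224) (nat_lit 5) (nat_lit 218)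 (nat_lit 5) (nat_lit 600) (nat_lit 517) (nat_lit 443)) (XT.lf (nat_lit 0) (nat_lit 5038282784) (nat_lit 456) (nat_lit 791489707) (nat_lit 532) (nat_lit 4773454438) (nat_lit 211) (nat_lit 5) (nat_lit 217) (nat_lit 5) (nat_lit 218) (nat_lit 5) (nat_lit 601) (nat_lit 517) (nat_lit 442))) (XT.nd (nat_lit 78) (nat_lit 76) (nat_lit 0) (XT.lf (nat_lit 0) (nat_lit 1892759144) (nat_lit 456) (nat_lit 7358633488) (nat_lit 532) (nat_lit 1463616073) (nat_lit 205) (nat_lit 5) (nat_lit 211) (nat_lit 5) (nat_lit 212) (nat_lit 5) (nat_lit 602) (nat_lit 517) (nat_lit 441)) (XT.lf (nat_lit 0) (nat_lit 1898865224) (nat_lit 532) (nat_lit 1317489577) (nat_lit 76) (nat_lit 7612193015) (nat_lit 204) (nat_lit 5) (nat_lit 211) (nat_lit 5) (nat_lit 205) (nat_lit 5) (nat_lit 603) (nat_lit 517) (nat_lit 440)))) (XT.nd (nat_lit 156) (nat_lit 456) (nat_lit 0) (XT.nd (nat_lit 78) (nat_lit 456) (nat_lit 0) (XT.lf (nat_lit 0) (nat_lit 5326447823) (nat_lit 456) (nat_lit 4585029605) (nat_lit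 76) (nat_lit 1032338380) (nat_lit 199) (nat_lit 5) (nat_lit 205) (nat_lit 5) (nat_lit 200) (nat_lit 5) (nat_lit 604) (nat_lit 517) (nat_lit 439)) (XT.lf (nat_lit 0) (nat_lit 3119123142) (nat_lit 456) (nat_lit 5723432137) (nat_lit 532) (nat_lit 2218434981) (nat_lit 193) (nat_lit 5) (nat_lit 199) (nat_lit 5) (nat_lit 200) (nat_lit 5) (nat_lit 605) (nat_lit 517) (nat_lit 438))) (XT.nd (nat_lit 78) (nat_lit 380) (nat_lit 0) (XT.lf (nat_lit 0) (nat_lit 1232698962) (nat_lit 532) (nat_lit 194456025) (nat_lit 76) (nat_lit 9753179716) (nat_lit 192) (nat_lit 5) (nat_lit 199) (nat_lit 5) (nat_lit 193) (nat_lit 5) (nat_lit 606) (nat_lit 517) (nat_lit 437)) (XT.lf (nat_lit 0) (nat_lit 4763235424) (nat_lit 456) (nat_lit 3570892910) (nat_lit 76) (nat_lit 2966843265) (nat_lit 187) (nat_lit 5) (nat_lit 193) (nat_lit 5) (nat_lit 188) (nat_lit 5) (nat_lit 607) (nat_lit 517) (nat_lit 436))))))) (XT.nd (nat_lit 1170) (nat_lit 3344) (nat_lit 0) (XT.nd (nat_lit 546) (nat_lit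 2204) (nat_lit 0) (XT.nd (nat_lit 234) (nat_lit 1216) (nat_lit 0) (XT.nd (nat_lit 78) (nat_lit 456) (nat_lit 0) (XT.lf (nat_lit 0) (nat_lit 4394860767) (nat_lit 380) (nat_lit 3979237835) (nat_lit 456) (nat_lit 3049728832) (nat_lit 182) (nat_lit 5) (nat_lit 187) (nat_lit 5) (nat_lit 188) (nat_lit 5) (nat_lit 608) (nat_lit 517) (nat_lit 435)) (XT.nd (nat_lit 78) (nat_lit 0) (nat_lit 0) (XT.lf (nat_lit 0) (nat_lit 505523698) (nat_lit 456) (nat_lit 10568220148) (nat_lit 76) (nat_lit 475248112) (nat_lit 176) (nat_lit 5) (nat_lit 182) (nat_lit 5) (nat_lit 177) (nat_lit 5) (nat_lit 609) (nat_lit 517) (nat_lit 434)) (XT.lf (nat_lit 0) (nat_lit 4135613471) (nat_lit 456) (nat_lit 2521938828) (nat_lit 76) (nat_lit 5017813432) (nat_lit 176) (nat_lit 5) (nat_lit 182) (nat_lit 5) (nat_lit 177) (nat_lit 5) (nat_lit 610) (nat_lit 517) (nat_lit 433)))) (XT.nd (nat_lit 156) (nat_lit 456) (nat_lit 0) (XT.nd (nat_lit 78) (nat_lit 380) (nat_lit 0) (XT.lf (nat_lit 0) (nat_lit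 5715775515) (nat_lit 380) (nat_lit 2130911583) (nat_lit 456) (nat_lit 3957412723) (nat_lit 171) (nat_lit 5) (nat_lit 176) (nat_lit 5) (nat_lit 177) (nat_lit 5) (nat_lit 611) (nat_lit 517) (nat_lit 432)) (XT.lf (nat_lit 0) (nat_lit 2185132375) (nat_lit 380) (nat_lit 9465661236) (nat_lit 456) (nat_lit 284239227) (nat_lit 166) (nat_lit 5) (nat_lit 171) (nat_lit 5) (nat_lit 172) (nat_lit 5) (nat_lit 612) (nat_lit 517) (nat_lit 431))) (XT.nd (nat_lit 78) (nat_lit 380) (nat_lit 0) (XT.lf (nat_lit 0) (nat_lit 3443756463) (nat_lit 456) (nat_lit 1442759354) (nat_lit 76) (nat_lit 7181084178) (nat_lit 165) (nat_lit 5) (nat_lit 171) (nat_lit 5) (nat_lit 166) (nat_lit 5) (nat_lit 613) (nat_lit 517) (nat_lit 430)) (XT.lf (nat_lit 0) (nat_lit 7077627104) (nat_lit 380) (nat_lit 182923704) (nat_lit 456) (nat_lit 4941869663) (nat_lit 160) (nat_lit 5) (nat_lit 165) (nat_lit 5) (nat_lit 166) (nat_lit 5) (nat_lit 614) (nat_lit 517) (nat_lit 429))))) (XT.nd (nat_lit 312) (nat_lit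 1140) (nat_lit 0) (XT.nd (nat_lit 156) (nat_lit 684) (nat_lit 0) (XT.nd (nat_lit 78) (nat_lit 76) (nat_lit 0) (XT.lf (nat_lit 0) (nat_lit 3419048773) (nat_lit 304) (nat_lit 7768788506) (nat_lit 380) (nat_lit 1151417390) (nat_lit 156) (nat_lit 5) (nat_lit 160) (nat_lit 5) (nat_lit 161) (nat_lit 5) (nat_lit 615) (nat_lit 517) (nat_lit 428)) (XT.lf (nat_lit 0) (nat_lit 2687395086) (nat_lit 380) (nat_lit 338047642) (nat_lit 76) (nat_lit 9452867577) (nat_lit 155) (nat_lit 5) (nat_lit 160) (nat_lit 5) (nat_lit 156) (nat_lit 5) (nat_lit 616) (nat_lit 517) (nat_lit 427))) (XT.nd (nat_lit 78) (nat_lit 304) (nat_lit 0) (XT.lf (nat_lit 0) (nat_lit 6627563482) (nat_lit 456) (nat_lit 4155438867) (nat_lit 76) (nat_lit 1836192956) (nat_lit 150) (nat_lit 5) (nat_lit 156) (nat_lit 5) (nat_lit 151) (nat_lit 5) (nat_lit 617) (nat_lit 517) (nat_lit 426)) (XT.lf (nat_lit 0) (nat_lit 4681306485) (nat_lit 304) (nat_lit 5990961631) (nat_lit 380) (nat_lit 2090115637) (nat_lit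 146) (nat_lit 5) (nat_lit 150) (nat_lit 5) (nat_lit 151) (nat_lit 5) (nat_lit 618) (nat_lit 517) (nat_lit 425)))) (XT.nd (nat_lit 156) (nat_lit 684) (nat_lit 0) (XT.nd (nat_lit 78) (nat_lit 0) (nat_lit 0) (XT.lf (nat_lit 0) (nat_lit 797810247) (nat_lit 380) (nat_lit 1073181256) (nat_lit 456) (nat_lit 11037072690) (nat_lit 140) (nat_lit 5) (nat_lit 145) (nat_lit 5) (nat_lit 146) (nat_lit 5) (nat_lit 619) (nat_lit 517) (nat_lit 424)) (XT.lf (nat_lit 0) (nat_lit 5936779468) (nat_lit 456) (nat_lit 3175136645) (nat_lit 76) (nat_lit 3943397290) (nat_lit 140) (nat_lit 5) (nat_lit 146) (nat_lit 5) (nat_lit 141) (nat_lit 5) (nat_lit 620) (nat_lit 517) (nat_lit 423))) (XT.nd (nat_lit 78) (nat_lit 380) (nat_lit 0) (XT.lf (nat_lit 0) (nat_lit 5967111679) (nat_lit 304) (nat_lit 4136377473) (nat_lit 380) (nat_lit 3101626699) (nat_lit 136) (nat_lit 5) (nat_lit 140) (nat_lit 5) (nat_lit 141) (nat_lit 5) (nat_lit 621) (nat_lit 517) (nat_lit 422)) (XT.lf (nat_lit 0) (nat_lit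 996773753) (nat_lit 380) (nat_lit 11409894685) (nat_lit 76) (nat_lit 950832730) (nat_lit 131) (nat_lit 5) (nat_lit 136) (nat_lit 5) (nat_lit 132) (nat_lit 5) (nat_lit 622) (nat_lit 517) (nat_lit 421)))))) (XT.nd (nat_lit 624) (nat_lit 1748) (nat_lit 0) (XT.nd (nat_lit 312) (nat_lit 912) (nat_lit 0) (XT.nd (nat_lit 156) (nat_lit 380) (nat_lit 0) (XT.nd (nat_lit 78) (nat_lit 304) (nat_lit 0) (XT.lf (nat_lit 0) (nat_lit 5185888451) (nat_lit 380) (nat_lit 2188096949) (nat_lit 76) (nat_lit 6137533568) (nat_lit 131) (nat_lit 5) (nat_lit 136) (nat_lit 5) (nat_lit 132) (nat_lit 5) (nat_lit 623) (nat_lit 517) (nat_lit 420)) (XT.lf (nat_lit 0) (nat_lit 7271423238) (nat_lit 304) (nat_lit 2209036329) (nat_lit 380) (nat_lit 4187724419) (nat_lit 127) (nat_lit 5) (nat_lit 131) (nat_lit 5) (nat_lit 132) (nat_lit 5) (nat_lit 624) (nat_lit 517) (nat_lit 419))) (XT.nd (nat_lit 78) (nat_lit 0) (nat_lit 0) (XT.lf (nat_lit 0) (nat_lit 62061487) (nat_lit 380) (nat_lit 10727195043)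 (nat_lit 76) (nat_lit 3038130757) (nat_lit 122) (nat_lit 5) (nat_lit 127) (nat_lit 5) (nat_lit 123) (nat_lit 5) (nat_lit 625) (nat_lit 517) (nat_lit 418)) (XT.lf (nat_lit 0) (nat_lit 4373305605) (nat_lit 380) (nat_lit 1200030715) (nat_lit 76) (nat_lit 8415234318) (nat_lit 122) (nat_lit 5) (nat_lit 127) (nat_lit 5) (nat_lit 123) (nat_lit 5) (nat_lit 626) (nat_lit 517) (nat_lit 417)))) (XT.nd (nat_lit 156) (nat_lit 304) (nat_lit 0) (XT.nd (nat_lit 78) (nat_lit 304) (nat_lit 0) (XT.lf (nat_lit 0) (nat_lit 8588888660) (nat_lit 304) (nat_lit 212792297) (nat_lit 380) (nat_lit 5350678893) (nat_lit 118) (nat_lit 5) (nat_lit 122) (nat_lit 5) (nat_lit 123) (nat_lit 5) (nat_lit 627) (nat_lit 517) (nat_lit 416)) (XT.lf (nat_lit 0) (nat_lit 4250618685) (nat_lit 304) (nat_lit 9113082330) (nat_lit 380) (nat_lit 954822597) (nat_lit 114) (nat_lit 5) (nat_lit 118) (nat_lit 5) (nat_lit 119) (nat_lit 5) (nat_lit 628) (nat_lit 517) (nat_lit 415))) (XT.nd (nat_lit 78) (nat_lit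 228) (nat_lit 0) (XT.lf (nat_lit 0) (nat_lit 3496967270) (nat_lit 380) (nat_lit 217029432) (nat_lit 76) (nat_lit 10773270019) (nat_lit 113) (nat_lit 5) (nat_lit 118) (nat_lit 5) (nat_lit 114) (nat_lit 5) (nat_lit 629) (nat_lit 517) (nat_lit 414)) (XT.lf (nat_lit 0) (nat_lit 8077182054) (nat_lit 304) (nat_lit 4756682101) (nat_lit 76) (nat_lit 1824351120) (nat_lit 110) (nat_lit 5) (nat_lit 114) (nat_lit 5) (nat_lit 111) (nat_lit 5) (nat_lit 630) (nat_lit 517) (nat_lit 413))))) (XT.nd (nat_lit 312) (nat_lit 836) (nat_lit 0) (XT.nd (nat_lit 156) (nat_lit 304) (nat_lit 0) (XT.nd (nat_lit 78) (nat_lit 304) (nat_lit 0) (XT.lf (nat_lit 0) (nat_lit 5398157144) (nat_lit 304) (nat_lit 7387851869) (nat_lit 380) (nat_lit 2045833918) (nat_lit 106) (nat_lit 5) (nat_lit 110) (nat_lit 5) (nat_lit 111) (nat_lit 5) (nat_lit 631) (nat_lit 517) (nat_lit 412)) (XT.lf (nat_lit 0) (nat_lit 764387511) (nat_lit 228) (nat_lit 1794885700) (nat_lit 304) (nat_lit 12449074338) (nat_lit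 102) (nat_lit 5) (nat_lit 105) (nat_lit 5) (nat_lit 106) (nat_lit 5) (nat_lit 632) (nat_lit 517) (nat_lit 411))) (XT.nd (nat_lit 78) (nat_lit 304) (nat_lit 0) (XT.lf (nat_lit 0) (nat_lit 7294270600) (nat_lit 304) (nat_lit 3973211248) (nat_lit 76) (nat_lit 3919326589) (nat_lit 102) (nat_lit 5) (nat_lit 106) (nat_lit 5) (nat_lit 103) (nat_lit 5) (nat_lit 633) (nat_lit 517) (nat_lit 410)) (XT.lf (nat_lit 0) (nat_lit 6536558978) (nat_lit 304) (nat_lit 5618251046) (nat_lit 380) (nat_lit 3213411943) (nat_lit 98) (nat_lit 5) (nat_lit 102) (nat_lit 5) (nat_lit 103) (nat_lit 5) (nat_lit 634) (nat_lit 517) (nat_lit 409)))) (XT.nd (nat_lit 156) (nat_lit 532) (nat_lit 0) (XT.nd (nat_lit 78) (nat_lit 0) (nat_lit 0) (XT.lf (nat_lit 0) (nat_lit 1554622416) (nat_lit 304) (nat_lit 13824157967) (nat_lit 76) (nat_lit 173965634) (nat_lit 94) (nat_lit 5) (nat_lit 98) (nat_lit 5) (nat_lit 95) (nat_lit 5) (nat_lit 635) (nat_lit 517) (nat_lit 408)) (XT.lf (nat_lit 0) (nat_lit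 6448547716) (nat_lit 304) (nat_lit 3219269047) (nat_lit 76) (nat_lit 6071248066) (nat_lit 94) (nat_lit 5) (nat_lit 98) (nat_lit 5) (nat_lit 95) (nat_lit 5) (nat_lit 636) (nat_lit 517) (nat_lit 407))) (XT.nd (nat_lit 78) (nat_lit 304) (nat_lit 0) (XT.lf (nat_lit 0) (nat_lit 7658579819) (nat_lit 228) (nat_lit 3808607131) (nat_lit 304) (nat_lit 4461386605) (nat_lit 91) (nat_lit 5) (nat_lit 94) (nat_lit 5) (nat_lit 95) (nat_lit 5) (nat_lit 637) (nat_lit 517) (nat_lit 406)) (XT.lf (nat_lit 0) (nat_lit 488706147) (nat_lit 304) (nat_lit 13467335283) (nat_lit 76) (nat_lit 2165161581) (nat_lit 87) (nat_lit 5) (nat_lit 91) (nat_lit 5) (nat_lit 88) (nat_lit 5) (nat_lit 638) (nat_lit 517) (nat_lit 405))))))))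
noncomputable def xc63 : XT := (XT.nd (nat_lit 74100) (nat_lit 0) (nat_lit 20064) (XT.nd (nat_lit 72852) (nat_lit 0) (nat_lit 44688) (XT.nd (nat_lit 72228) (nat_lit 0) (nat_lit 53200) (XT.nd (nat_lit 234) (nat_lit 608) (nat_lit 0) (XT.nd (nat_lit 78) (nat_lit 456) (nat_lit 0) (XT.lf (nat_lit 0) (nat_lit 5536442435) (nat_lit 304) (nat_lit 2503111516) (nat_lit 76) (nat_lit 8276373951) (nat_lit 87) (nat_lit 5) (nat_lit 91) (nat_lit 5) (nat_lit 88) (nat_lit 5) (nat_lit 639) (nat_lit 517) (nat_lit 404)) (XT.nd (nat_lit 78) (nat_lit 228) (nat_lit 0) (XT.lf (nat_lit 0) (nat_lit 8756306822) (nat_lit 228) (nat_lit 1963362404) (nat_lit 304) (nat_lit 5794187576) (nat_lit 84) (nat_lit 5) (nat_lit 87) (nat_lit 5) (nat_lit 88) (nat_lit 5) (nat_lit 640) (nat_lit 517) (nat_lit 403)) (XT.lf (nat_lit 0) (nat_lit 3539240114) (nat_lit 228) (nat_lit 12512463273) (nat_lit 304) (nat_lit 663138260) (nat_lit 81) (nat_lit 5) (nat_lit 84) (nat_lit 5) (nat_lit 85) (nat_lit 5) (nat_lit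 641) (nat_lit 517) (nat_lit 402)))) (XT.nd (nat_lit 156) (nat_lit 304) (nat_lit 0) (XT.nd (nat_lit 78) (nat_lit 228) (nat_lit 0) (XT.lf (nat_lit 0) (nat_lit 4553794309) (nat_lit 304) (nat_lit 1833753773) (nat_lit 76) (nat_lit 10530840710) (nat_lit 80) (nat_lit 5) (nat_lit 84) (nat_lit 5) (nat_lit 81) (nat_lit 5) (nat_lit 642) (nat_lit 517) (nat_lit 401)) (XT.lf (nat_lit 0) (nat_lit 9821061643) (nat_lit 228) (nat_lit 87134105) (nat_lit 304) (nat_lit 7216883483) (nat_lit 77) (nat_lit 5) (nat_lit 80) (nat_lit 5) (nat_lit 81) (nat_lit 5) (nat_lit 643) (nat_lit 517) (nat_lit 400))) (XT.nd (nat_lit 78) (nat_lit 76) (nat_lit 0) (XT.lf (nat_lit 0) (nat_lit 4375968390) (nat_lit 228) (nat_lit 11053983849) (nat_lit 304) (nat_lit 1904746106) (nat_lit 74) (nat_lit 5) (nat_lit 77) (nat_lit 5) (nat_lit 78) (nat_lit 5) (nat_lit 644) (nat_lit 517) (nat_lit 399)) (XT.lf (nat_lit 0) (nat_lit 3495812284) (nat_lit 304) (nat_lit 1221073603) (nat_lit 76) (nat_lit 12830602691)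 (nat_lit 73) (nat_lit 5) (nat_lit 77) (nat_lit 5) (nat_lit 74) (nat_lit 5) (nat_lit 645) (nat_lit 517) (nat_lit 398))))) (XT.nd (nat_lit 312) (nat_lit 836) (nat_lit 0) (XT.nd (nat_lit 156) (nat_lit 304) (nat_lit 0) (XT.nd (nat_lit 78) (nat_lit 0) (nat_lit 0) (XT.lf (nat_lit 0) (nat_lit 85925296) (nat_lit 228) (nat_lit 3053150895) (nat_lit 0) (nat_lit 85925296) (nat_lit 788) (nat_lit 5) (nat_lit 791) (nat_lit 4) (nat_lit 788) (nat_lit 4) (nat_lit 524) (nat_lit 518) (nat_lit 518)) (XT.lf (nat_lit 0) (nat_lit 3368801253) (nat_lit 228) (nat_lit 2683628533) (nat_lit 0) (nat_lit 401814578) (nat_lit 788) (nat_lit 5) (nat_lit 791) (nat_lit 4) (nat_lit 788) (nat_lit 4) (nat_lit 525) (nat_lit 518) (nat_lit 517))) (XT.nd (nat_lit 78) (nat_lit 0) (nat_lit 0) (XT.lf (nat_lit 0) (nat_lit 92338908) (nat_lit 304) (nat_lit 5689272545) (nat_lit 76) (nat_lit 678472270) (nat_lit 784) (nat_lit 5) (nat_lit 788) (nat_lit 5) (nat_lit 785) (nat_lit 4) (nat_lit 526) (nat_lit 518)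 (nat_lit 516)) (XT.lf (nat_lit 0) (nat_lit 3230249678) (nat_lit 304) (nat_lit 2202467757) (nat_lit 76) (nat_lit 1034161329) (nat_lit 784) (nat_lit 5) (nat_lit 788) (nat_lit 5) (nat_lit 785) (nat_lit 4) (nat_lit 527) (nat_lit 518) (nat_lit 515)))) (XT.nd (nat_lit 156) (nat_lit 456) (nat_lit 0) (XT.nd (nat_lit 78) (nat_lit 76) (nat_lit 0) (XT.lf (nat_lit 0) (nat_lit 1325424569) (nat_lit 304) (nat_lit 5035394483) (nat_lit 380) (nat_lit 114397086) (nat_lit 780) (nat_lit 5) (nat_lit 784) (nat_lit 5) (nat_lit 785) (nat_lit 4) (nat_lit 528) (nat_lit 518) (nat_lit 514)) (XT.lf (nat_lit 0) (nat_lit 2966913800) (nat_lit 380) (nat_lit 1596496495) (nat_lit 76) (nat_lit 1921177521) (nat_lit 779) (nat_lit 5) (nat_lit 784) (nat_lit 5) (nat_lit 780) (nat_lit 5) (nat_lit 529) (nat_lit 518) (nat_lit 513))) (XT.nd (nat_lit 78) (nat_lit 76) (nat_lit 0) (XT.lf (nat_lit 0) (nat_lit 2007584331) (nat_lit 380) (nat_lit 4037323659) (nat_lit 456) (nat_lit 450496223) (nat_lit 774)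 (nat_lit 5) (nat_lit 779) (nat_lit 5) (nat_lit 780) (nat_lit 5) (nat_lit 530) (nat_lit 518) (nat_lit 512)) (XT.lf (nat_lit 0) (nat_lit 2577940351) (nat_lit 456) (nat_lit 864854805) (nat_lit 76) (nat_lit 3064597295) (nat_lit 773) (nat_lit 5) (nat_lit 779) (nat_lit 5) (nat_lit 774) (nat_lit 5) (nat_lit 531) (nat_lit 518) (nat_lit 511)))))) (XT.nd (nat_lit 624) (nat_lit 5244) (nat_lit 0) (XT.nd (nat_lit 312) (nat_lit 1520) (nat_lit 0) (XT.nd (nat_lit 156) (nat_lit 1216) (nat_lit 0) (XT.nd (nat_lit 78) (nat_lit 76) (nat_lit 0) (XT.lf (nat_lit 0) (nat_lit 2818908237) (nat_lit 456) (nat_lit 2786052083) (nat_lit 532) (nat_lit 915723587) (nat_lit 767) (nat_lit 5) (nat_lit 773) (nat_lit 5) (nat_lit 774) (nat_lit 5) (nat_lit 532) (nat_lit 518) (nat_lit 510)) (XT.lf (nat_lit 0) (nat_lit 2062228033) (nat_lit 532) (nat_lit 6436478) (nat_lit 76) (nat_lit 4466655119) (nat_lit 766) (nat_lit 5) (nat_lit 773) (nat_lit 5) (nat_lit 767) (nat_lit 5) (nat_lit 533) (nat_lit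 518) (nat_lit 509))) (XT.nd (nat_lit 78) (nat_lit 684) (nat_lit 0) (XT.lf (nat_lit 0) (nat_lit 3760645254) (nat_lit 532) (nat_lit 1279115543) (nat_lit 608) (nat_lit 1511324255) (nat_lit 759) (nat_lit 5) (nat_lit 766) (nat_lit 5) (nat_lit 767) (nat_lit 5) (nat_lit 534) (nat_lit 518) (nat_lit 508)) (XT.lf (nat_lit 0) (nat_lit 993137718) (nat_lit 608) (nat_lit 431735867) (nat_lit 684) (nat_lit 5143399838) (nat_lit 750) (nat_lit 5) (nat_lit 758) (nat_lit 5) (nat_lit 759) (nat_lit 5) (nat_lit 535) (nat_lit 518) (nat_lit 507)))) (XT.nd (nat_lit 156) (nat_lit 760) (nat_lit 0) (XT.nd (nat_lit 78) (nat_lit 760) (nat_lit 0) (XT.lf (nat_lit 0) (nat_lit 4351003484) (nat_lit 684) (nat_lit 1755504915) (nat_lit 76) (nat_lit 480071973) (nat_lit 750) (nat_lit 5) (nat_lit 759) (nat_lit 5) (nat_lit 751) (nat_lit 5) (nat_lit 536) (nat_lit 518) (nat_lit 506)) (XT.lf (nat_lit 0) (nat_lit 668236102) (nat_lit 760) (nat_lit 4491663127) (nat_lit 76) (nat_lit 1446314495) (nat_lit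 740) (nat_lit 5) (nat_lit 750) (nat_lit 5) (nat_lit 741) (nat_lit 5) (nat_lit 537) (nat_lit 518) (nat_lit 505))) (XT.nd (nat_lit 78) (nat_lit 760) (nat_lit 0) (XT.lf (nat_lit 0) (nat_lit 3543820617) (nat_lit 760) (nat_lit 602104795) (nat_lit 76) (nat_lit 2481149496) (nat_lit 740) (nat_lit 5) (nat_lit 750) (nat_lit 5) (nat_lit 741) (nat_lit 5) (nat_lit 538) (nat_lit 518) (nat_lit 504)) (XT.lf (nat_lit 0) (nat_lit 3363255332) (nat_lit 760) (nat_lit 3068579622) (nat_lit 836) (nat_lit 217423235) (nat_lit 730) (nat_lit 5) (nat_lit 740) (nat_lit 5) (nat_lit 741) (nat_lit 5) (nat_lit 539) (nat_lit 518) (nat_lit 503))))) (XT.nd (nat_lit 312) (nat_lit 3344) (nat_lit 0) (XT.nd (nat_lit 156) (nat_lit 988) (nat_lit 0) (XT.nd (nat_lit 78) (nat_lit 0) (nat_lit 0) (XT.lf (nat_lit 0) (nat_lit 689042260) (nat_lit 836) (nat_lit 1923393893) (nat_lit 912) (nat_lit 4060256791) (nat_lit 718) (nat_lit 5) (nat_lit 729) (nat_lit 5) (nat_lit 730) (nat_lit 5) (nat_lit 540) (nat_lit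 518) (nat_lit 502)) (XT.lf (nat_lit 0) (nat_lit 4740298436) (nat_lit 836) (nat_lit 712383668) (nat_lit 912) (nat_lit 1244754583) (nat_lit 718) (nat_lit 5) (nat_lit 729) (nat_lit 5) (nat_lit 730) (nat_lit 5) (nat_lit 541) (nat_lit 518) (nat_lit 501))) (XT.nd (nat_lit 78) (nat_lit 0) (nat_lit 0) (XT.lf (nat_lit 0) (nat_lit 1558672773) (nat_lit 988) (nat_lit 4606323660) (nat_lit 76) (nat_lit 558411439) (nat_lit 705) (nat_lit 5) (nat_lit 718) (nat_lit 5) (nat_lit 706) (nat_lit 5) (nat_lit 542) (nat_lit 518) (nat_lit 500)) (XT.lf (nat_lit 0) (nat_lit 4356045182) (nat_lit 988) (nat_lit 510769680) (nat_lit 76) (nat_lit 1883831060) (nat_lit 705) (nat_lit 5) (nat_lit 718) (nat_lit 5) (nat_lit 706) (nat_lit 5) (nat_lit 543) (nat_lit 518) (nat_lit 499)))) (XT.nd (nat_lit 156) (nat_lit 1216) (nat_lit 0) (XT.nd (nat_lit 78) (nat_lit 1064) (nat_lit 0) (XT.lf (nat_lit 0) (nat_lit 386678320) (nat_lit 1064) (nat_lit 3113413125) (nat_lit 76) (nat_lit 3279056215) (nat_lit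 691) (nat_lit 5) (nat_lit 705) (nat_lit 5) (nat_lit 692) (nat_lit 5) (nat_lit 544) (nat_lit 518) (nat_lit 498)) (XT.lf (nat_lit 0) (nat_lit 1075776451) (nat_lit 1064) (nat_lit 2064551855) (nat_lit 1140) (nat_lit 3668601090) (nat_lit 677) (nat_lit 5) (nat_lit 691) (nat_lit 5) (nat_lit 692) (nat_lit 5) (nat_lit 545) (nat_lit 518) (nat_lit 497))) (XT.nd (nat_lit 78) (nat_lit 1216) (nat_lit 0) (XT.lf (nat_lit 0) (nat_lit 5344268981) (nat_lit 1064) (nat_lit 564924973) (nat_lit 1140) (nat_lit 930912612) (nat_lit 677) (nat_lit 5) (nat_lit 691) (nat_lit 5) (nat_lit 692) (nat_lit 5) (nat_lit 546) (nat_lit 518) (nat_lit 496)) (XT.lf (nat_lit 0) (nat_lit 1801918217) (nat_lit 1216) (nat_lit 4074704644) (nat_lit 76) (nat_lit 995749189) (nat_lit 661) (nat_lit 5) (nat_lit 677) (nat_lit 5) (nat_lit 662) (nat_lit 5) (nat_lit 547) (nat_lit 518) (nat_lit 495))))))) (XT.nd (nat_lit 1248) (nat_lit 9348) (nat_lit 0) (XT.nd (nat_lit 624) (nat_lit 8208) (nat_lit 0) (XT.nd (nat_lit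 312) (nat_lit 4484) (nat_lit 0) (XT.nd (nat_lit 156) (nat_lit 1292) (nat_lit 0) (XT.nd (nat_lit 78) (nat_lit 76) (nat_lit 0) (XT.lf (nat_lit 0) (nat_lit 237854800) (nat_lit 1216) (nat_lit 4295490137) (nat_lit 1292) (nat_lit 2372689256) (nat_lit 645) (nat_lit 5) (nat_lit 661) (nat_lit 5) (nat_lit 662) (nat_lit 5) (nat_lit 548) (nat_lit 518) (nat_lit 494)) (XT.lf (nat_lit 0) (nat_lit 343049475) (nat_lit 1292) (nat_lit 2298562101) (nat_lit 76) (nat_lit 4299331392) (nat_lit 644) (nat_lit 5) (nat_lit 661) (nat_lit 5) (nat_lit 645) (nat_lit 5) (nat_lit 549) (nat_lit 518) (nat_lit 493))) (XT.nd (nat_lit 78) (nat_lit 0) (nat_lit 0) (XT.lf (nat_lit 0) (nat_lit 2123529424) (nat_lit 1292) (nat_lit 914233469) (nat_lit 1368) (nat_lit 3939347109) (nat_lit 627) (nat_lit 5) (nat_lit 644) (nat_lit 5) (nat_lit 645) (nat_lit 5) (nat_lit 550) (nat_lit 518) (nat_lit 492)) (XT.lf (nat_lit 0) (nat_lit 5750899712) (nat_lit 1368) (nat_lit 402020620) (nat_lit 76) (nat_lit 861791774)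 (nat_lit 627) (nat_lit 5) (nat_lit 645) (nat_lit 5) (nat_lit 628) (nat_lit 5) (nat_lit 551) (nat_lit 518) (nat_lit 491)))) (XT.nd (nat_lit 156) (nat_lit 1596) (nat_lit 0) (XT.nd (nat_lit 78) (nat_lit 1444) (nat_lit 0) (XT.lf (nat_lit 0) (nat_lit 1423404649) (nat_lit 1444) (nat_lit 2923075044) (nat_lit 76) (nat_lit 2706850745) (nat_lit 608) (nat_lit 5) (nat_lit 627) (nat_lit 5) (nat_lit 609) (nat_lit 5) (nat_lit 552) (nat_lit 518) (nat_lit 490)) (XT.lf (nat_lit 0) (nat_lit 1631543074) (nat_lit 1444) (nat_lit 2474250665) (nat_lit 1520) (nat_lit 2987595498) (nat_lit 589) (nat_lit 5) (nat_lit 608) (nat_lit 5) (nat_lit 609) (nat_lit 5) (nat_lit 553) (nat_lit 518) (nat_lit 489))) (XT.nd (nat_lit 78) (nat_lit 1596) (nat_lit 0) (XT.lf (nat_lit 0) (nat_lit 6269761960) (nat_lit 1444) (nat_lit 537481690) (nat_lit 1520) (nat_lit 327699435) (nat_lit 589) (nat_lit 5) (nat_lit 608) (nat_lit 5) (nat_lit 609) (nat_lit 5) (nat_lit 554) (nat_lit 518) (nat_lit 488)) (XT.lf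 (nat_lit 0) (nat_lit 2335005549) (nat_lit 1596) (nat_lit 3376233207) (nat_lit 76) (nat_lit 1466163639) (nat_lit 568) (nat_lit 5) (nat_lit 589) (nat_lit 5) (nat_lit 569) (nat_lit 5) (nat_lit 555) (nat_lit 518) (nat_lit 487))))) (XT.nd (nat_lit 312) (nat_lit 3116) (nat_lit 0) (XT.nd (nat_lit 156) (nat_lit 3420) (nat_lit 0) (XT.nd (nat_lit 78) (nat_lit 76) (nat_lit 0) (XT.lf (nat_lit 0) (nat_lit 1315775900) (nat_lit 1596) (nat_lit 3696044363) (nat_lit 1672) (nat_lit 2209544447) (nat_lit 547) (nat_lit 5) (nat_lit 568) (nat_lit 5) (nat_lit 569) (nat_lit 5) (nat_lit 556) (nat_lit 518) (nat_lit 486)) (XT.lf (nat_lit 0) (nat_lit 440201429) (nat_lit 1672) (nat_lit 1169678227) (nat_lit 76) (nat_lit 5656857168) (nat_lit 546) (nat_lit 5) (nat_lit 568) (nat_lit 5) (nat_lit 547) (nat_lit 5) (nat_lit 557) (nat_lit 518) (nat_lit 485))) (XT.nd (nat_lit 78) (nat_lit 1748) (nat_lit 0) (XT.lf (nat_lit 0) (nat_lit 3089405446) (nat_lit 1748) (nat_lit 3669906039) (nat_lit 76)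 (nat_lit 553893709) (nat_lit 524) (nat_lit 5) (nat_lit 547) (nat_lit 5) (nat_lit 525) (nat_lit 5) (nat_lit 558) (nat_lit 518) (nat_lit 484)) (XT.lf (nat_lit 0) (nat_lit 1164645224) (nat_lit 1748) (nat_lit 4602497471) (nat_lit 1824) (nat_lit 1593951113) (nat_lit 501) (nat_lit 5) (nat_lit 524) (nat_lit 5) (nat_lit 525) (nat_lit 5) (nat_lit 559) (nat_lit 518) (nat_lit 483)))) (XT.nd (nat_lit 156) (nat_lit 1216) (nat_lit 0) (XT.nd (nat_lit 78) (nat_lit 1824) (nat_lit 0) (XT.lf (nat_lit 0) (nat_lit 1048784453) (nat_lit 1824) (nat_lit 1319259589) (nat_lit 76) (nat_lit 5042265278) (nat_lit 500) (nat_lit 5) (nat_lit 524) (nat_lit 5) (nat_lit 501) (nat_lit 5) (nat_lit 560) (nat_lit 518) (nat_lit 482)) (XT.lf (nat_lit 0) (nat_lit 3645457787) (nat_lit 1824) (nat_lit 52023075) (nat_lit 1900) (nat_lit 3763330330) (nat_lit 476) (nat_lit 5) (nat_lit 500) (nat_lit 5) (nat_lit 501) (nat_lit 5) (nat_lit 561) (nat_lit 518) (nat_lit 481))) (XT.nd (nat_lit 78) (nat_lit 76)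 (nat_lit 0) (XT.lf (nat_lit 0) (nat_lit 1167516734) (nat_lit 1140) (nat_lit 5214557995) (nat_lit 1216) (nat_lit 1130591619) (nat_lit 461) (nat_lit 5) (nat_lit 476) (nat_lit 5) (nat_lit 477) (nat_lit 5) (nat_lit 562) (nat_lit 518) (nat_lit 480)) (XT.lf (nat_lit 0) (nat_lit 1512283076) (nat_lit 1216) (nat_lit 1322163501) (nat_lit 76) (nat_lit 4731354329) (nat_lit 460) (nat_lit 5) (nat_lit 476) (nat_lit 5) (nat_lit 461) (nat_lit 5) (nat_lit 563) (nat_lit 518) (nat_lit 479)))))) (XT.nd (nat_lit 624) (nat_lit 3952) (nat_lit 0) (XT.nd (nat_lit 312) (nat_lit 2660) (nat_lit 0) (XT.nd (nat_lit 156) (nat_lit 912) (nat_lit 0) (XT.nd (nat_lit 78) (nat_lit 912) (nat_lit 0) (XT.lf (nat_lit 0) (nat_lit 3796259612) (nat_lit 912) (nat_lit 373980593) (nat_lit 988) (nat_lit 3450062835) (nat_lit 448) (nat_lit 5) (nat_lit 460) (nat_lit 5) (nat_lit 461) (nat_lit 5) (nat_lit 564) (nat_lit 518) (nat_lit 478)) (XT.lf (nat_lit 0) (nat_lit 1314626582) (nat_lit 912) (nat_lit 5551384415)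 (nat_lit 988) (nat_lit 810192715) (nat_lit 436) (nat_lit 5) (nat_lit 448) (nat_lit 5) (nat_lit 449) (nat_lit 5) (nat_lit 565) (nat_lit 518) (nat_lit 477))) (XT.nd (nat_lit 78) (nat_lit 836) (nat_lit 0) (XT.lf (nat_lit 0) (nat_lit 1839714729) (nat_lit 988) (nat_lit 1187920192) (nat_lit 76) (nat_lit 4705705977) (nat_lit 435) (nat_lit 5) (nat_lit 448) (nat_lit 5) (nat_lit 436) (nat_lit 5) (nat_lit 566) (nat_lit 518) (nat_lit 476)) (XT.lf (nat_lit 0) (nat_lit 4090185914) (nat_lit 836) (nat_lit 422682603) (nat_lit 912) (nat_lit 3279024765) (nat_lit 424) (nat_lit 5) (nat_lit 435) (nat_lit 5) (nat_lit 436) (nat_lit 5) (nat_lit 567) (nat_lit 518) (nat_lit 475)))) (XT.nd (nat_lit 156) (nat_lit 1672) (nat_lit 0) (XT.nd (nat_lit 78) (nat_lit 76) (nat_lit 0) (XT.lf (nat_lit 0) (nat_lit 1597008459) (nat_lit 912) (nat_lit 5630480243) (nat_lit 988) (nat_lit 624369412) (nat_lit 412) (nat_lit 5) (nat_lit 424) (nat_lit 5) (nat_lit 425) (nat_lit 5) (nat_lit 568) (nat_lit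 518) (nat_lit 474)) (XT.lf (nat_lit 0) (nat_lit 2039238975) (nat_lit 988) (nat_lit 925295262) (nat_lit 76) (nat_lit 4948555204) (nat_lit 411) (nat_lit 5) (nat_lit 424) (nat_lit 5) (nat_lit 412) (nat_lit 5) (nat_lit 569) (nat_lit 518) (nat_lit 473))) (XT.nd (nat_lit 78) (nat_lit 836) (nat_lit 0) (XT.lf (nat_lit 0) (nat_lit 4518768368) (nat_lit 836) (nat_lit 214592104) (nat_lit 912) (nat_lit 3242391736) (nat_lit 400) (nat_lit 5) (nat_lit 411) (nat_lit 5) (nat_lit 412) (nat_lit 5) (nat_lit 570) (nat_lit 518) (nat_lit 472)) (XT.lf (nat_lit 0) (nat_lit 2006425157) (nat_lit 836) (nat_lit 5467818645) (nat_lit 912) (nat_lit 565568196) (nat_lit 389) (nat_lit 5) (nat_lit 400) (nat_lit 5) (nat_lit 401) (nat_lit 5) (nat_lit 571) (nat_lit 518) (nat_lit 471))))) (XT.nd (nat_lit 312) (nat_lit 2280) (nat_lit 0) (XT.nd (nat_lit 156) (nat_lit 836) (nat_lit 0) (XT.nd (nat_lit 78) (nat_lit 760) (nat_lit 0) (XT.lf (nat_lit 0) (nat_lit 2118212393) (nat_lit 912) (nat_lit 542356460)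 (nat_lit 76) (nat_lit 5444668081) (nat_lit 388) (nat_lit 5) (nat_lit 400) (nat_lit 5) (nat_lit 389) (nat_lit 5) (nat_lit 572) (nat_lit 518) (nat_lit 470)) (XT.lf (nat_lit 0) (nat_lit 4840457465) (nat_lit 836) (nat_lit 3099368265) (nat_lit 76) (nat_lit 232223912) (nat_lit 378) (nat_lit 5) (nat_lit 389) (nat_lit 5) (nat_lit 379) (nat_lit 5) (nat_lit 573) (nat_lit 518) (nat_lit 469))) (XT.nd (nat_lit 78) (nat_lit 76) (nat_lit 0) (XT.lf (nat_lit 0) (nat_lit 2535304144) (nat_lit 760) (nat_lit 5077957925) (nat_lit 836) (nat_lit 627015492) (nat_lit 368) (nat_lit 5) (nat_lit 378) (nat_lit 5) (nat_lit 379) (nat_lit 5) (nat_lit 574) (nat_lit 518) (nat_lit 468)) (XT.lf (nat_lit 0) (nat_lit 2083238389) (nat_lit 836) (nat_lit 46536640) (nat_lit 76) (nat_lit 6180228556) (nat_lit 367) (nat_lit 5) (nat_lit 378) (nat_lit 5) (nat_lit 368) (nat_lit 5) (nat_lit 575) (nat_lit 518) (nat_lit 467)))) (XT.nd (nat_lit 156) (nat_lit 760) (nat_lit 0) (XT.nd (nat_lit 78) (nat_lit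 760) (nat_lit 0) (XT.lf (nat_lit 0) (nat_lit 4841987512) (nat_lit 836) (nat_lit 2637566473) (nat_lit 76) (nat_lit 901434715) (nat_lit 357) (nat_lit 5) (nat_lit 368) (nat_lit 5) (nat_lit 358) (nat_lit 5) (nat_lit 576) (nat_lit 518) (nat_lit 466)) (XT.lf (nat_lit 0) (nat_lit 3176676703) (nat_lit 760) (nat_lit 4474148645) (nat_lit 836) (nat_lit 802671050) (nat_lit 347) (nat_lit 5) (nat_lit 357) (nat_lit 5) (nat_lit 358) (nat_lit 5) (nat_lit 577) (nat_lit 518) (nat_lit 465))) (XT.nd (nat_lit 78) (nat_lit 0) (nat_lit 0) (XT.lf (nat_lit 0) (nat_lit 562686409) (nat_lit 684) (nat_lit 1381179140) (nat_lit 760) (nat_lit 6583700456) (nat_lit 337) (nat_lit 5) (nat_lit 346) (nat_lit 5) (nat_lit 347) (nat_lit 5) (nat_lit 578) (nat_lit 518) (nat_lit 464)) (XT.lf (nat_lit 0) (nat_lit 4742269088) (nat_lit 760) (nat_lit 2076913656) (nat_lit 76) (nat_lit 1783675556) (nat_lit 337) (nat_lit 5) (nat_lit 347) (nat_lit 5) (nat_lit 338) (nat_lit 5) (nat_lit 579) (nat_lit 518)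 (nat_lit 463))))))))
noncomputable def xc64 : XT := (XT.nd (nat_lit 2418) (nat_lit 6992) (nat_lit 0) (XT.nd (nat_lit 1170) (nat_lit 5168) (nat_lit 0) (XT.nd (nat_lit 546) (nat_lit 3648) (nat_lit 0) (XT.nd (nat_lit 234) (nat_lit 1976) (nat_lit 0) (XT.nd (nat_lit 78) (nat_lit 760) (nat_lit 0) (XT.lf (nat_lit 0) (nat_lit 3924120209) (nat_lit 684) (nat_lit 3668433079) (nat_lit 760) (nat_lit 1087185968) (nat_lit 328) (nat_lit 5) (nat_lit 337) (nat_lit 5) (nat_lit 338) (nat_lit 5) (nat_lit 580) (nat_lit 518) (nat_lit 462)) (XT.nd (nat_lit 78) (nat_lit 0) (nat_lit 0) (XT.lf (nat_lit 0) (nat_lit 1273537378) (nat_lit 684) (nat_lit 429092761) (nat_lit 760) (nat_lit 7055626810) (nat_lit 318) (nat_lit 5) (nat_lit 327) (nat_lit 5) (nat_lit 328) (nat_lit 5) (nat_lit 581) (nat_lit 518) (nat_lit 461)) (XT.lf (nat_lit 0) (nat_lit 4546371797) (nat_lit 760) (nat_lit 1423651794) (nat_lit 76) (nat_lit 2867924952) (nat_lit 318) (nat_lit 5) (nat_lit 328) (nat_lit 5) (nat_lit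 319) (nat_lit 5) (nat_lit 582) (nat_lit 518) (nat_lit 460)))) (XT.nd (nat_lit 156) (nat_lit 608) (nat_lit 0) (XT.nd (nat_lit 78) (nat_lit 684) (nat_lit 0) (XT.lf (nat_lit 0) (nat_lit 4771703122) (nat_lit 684) (nat_lit 2671737666) (nat_lit 760) (nat_lit 1475865117) (nat_lit 309) (nat_lit 5) (nat_lit 318) (nat_lit 5) (nat_lit 319) (nat_lit 5) (nat_lit 583) (nat_lit 518) (nat_lit 459)) (XT.lf (nat_lit 0) (nat_lit 1368430146) (nat_lit 684) (nat_lit 6927592269) (nat_lit 76) (nat_lit 706276044) (nat_lit 300) (nat_lit 5) (nat_lit 309) (nat_lit 5) (nat_lit 301) (nat_lit 5) (nat_lit 584) (nat_lit 518) (nat_lit 458))) (XT.nd (nat_lit 78) (nat_lit 608) (nat_lit 0) (XT.lf (nat_lit 0) (nat_lit 4258757620) (nat_lit 684) (nat_lit 683589401) (nat_lit 76) (nat_lit 4144231502) (nat_lit 300) (nat_lit 5) (nat_lit 309) (nat_lit 5) (nat_lit 301) (nat_lit 5) (nat_lit 585) (nat_lit 518) (nat_lit 457)) (XT.lf (nat_lit 0) (nat_lit 5713932295) (nat_lit 608) (nat_lit 1493959086)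 (nat_lit 684) (nat_lit 1964633724) (nat_lit 292) (nat_lit 5) (nat_lit 300) (nat_lit 5) (nat_lit 301) (nat_lit 5) (nat_lit 586) (nat_lit 518) (nat_lit 456))))) (XT.nd (nat_lit 312) (nat_lit 1748) (nat_lit 0) (XT.nd (nat_lit 156) (nat_lit 608) (nat_lit 0) (XT.nd (nat_lit 78) (nat_lit 608) (nat_lit 0) (XT.lf (nat_lit 0) (nat_lit 944555377) (nat_lit 684) (nat_lit 6298698147) (nat_lit 76) (nat_lit 2016788375) (nat_lit 283) (nat_lit 5) (nat_lit 292) (nat_lit 5) (nat_lit 284) (nat_lit 5) (nat_lit 587) (nat_lit 518) (nat_lit 455)) (XT.lf (nat_lit 0) (nat_lit 139679333) (nat_lit 608) (nat_lit 3744539031) (nat_lit 684) (nat_lit 5464859869) (nat_lit 275) (nat_lit 5) (nat_lit 283) (nat_lit 5) (nat_lit 284) (nat_lit 5) (nat_lit 588) (nat_lit 518) (nat_lit 454))) (XT.nd (nat_lit 78) (nat_lit 608) (nat_lit 0) (XT.lf (nat_lit 0) (nat_lit 6745702212) (nat_lit 608) (nat_lit 144044542) (nat_lit 684) (nat_lit 2550007939) (nat_lit 275) (nat_lit 5) (nat_lit 283) (nat_lit 5)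 (nat_lit 284) (nat_lit 5) (nat_lit 589) (nat_lit 518) (nat_lit 453)) (XT.lf (nat_lit 0) (nat_lit 431556968) (nat_lit 608) (nat_lit 5600729107) (nat_lit 76) (nat_lit 3499625159) (nat_lit 267) (nat_lit 5) (nat_lit 275) (nat_lit 5) (nat_lit 268) (nat_lit 5) (nat_lit 590) (nat_lit 518) (nat_lit 452)))) (XT.nd (nat_lit 156) (nat_lit 1140) (nat_lit 0) (XT.nd (nat_lit 78) (nat_lit 0) (nat_lit 0) (XT.lf (nat_lit 0) (nat_lit 1049327600) (nat_lit 608) (nat_lit 2380853347) (nat_lit 684) (nat_lit 6195562194) (nat_lit 259) (nat_lit 5) (nat_lit 267) (nat_lit 5) (nat_lit 268) (nat_lit 5) (nat_lit 591) (nat_lit 518) (nat_lit 451)) (XT.lf (nat_lit 0) (nat_lit 6501207069) (nat_lit 684) (nat_lit 1868030521) (nat_lit 76) (nat_lit 1351966282) (nat_lit 259) (nat_lit 5) (nat_lit 268) (nat_lit 5) (nat_lit 260) (nat_lit 5) (nat_lit 592) (nat_lit 518) (nat_lit 450))) (XT.nd (nat_lit 78) (nat_lit 608) (nat_lit 0) (XT.lf (nat_lit 0) (nat_lit 4978298379) (nat_lit 532) (nat_lit 4669987466)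 (nat_lit 608) (nat_lit 169996090) (nat_lit 252) (nat_lit 5) (nat_lit 259) (nat_lit 5) (nat_lit 260) (nat_lit 5) (nat_lit 593) (nat_lit 518) (nat_lit 449)) (XT.lf (nat_lit 0) (nat_lit 2031398460) (nat_lit 532) (nat_lit 863525558) (nat_lit 608) (nat_lit 7022146553) (nat_lit 244) (nat_lit 5) (nat_lit 251) (nat_lit 5) (nat_lit 252) (nat_lit 5) (nat_lit 594) (nat_lit 518) (nat_lit 448)))))) (XT.nd (nat_lit 624) (nat_lit 2660) (nat_lit 0) (XT.nd (nat_lit 312) (nat_lit 1444) (nat_lit 0) (XT.nd (nat_lit 156) (nat_lit 608) (nat_lit 0) (XT.nd (nat_lit 78) (nat_lit 456) (nat_lit 0) (XT.lf (nat_lit 0) (nat_lit 6038122906) (nat_lit 608) (nat_lit 978479076) (nat_lit 76) (nat_lit 3000826109) (nat_lit 244) (nat_lit 5) (nat_lit 252) (nat_lit 5) (nat_lit 245) (nat_lit 5) (nat_lit 595) (nat_lit 518) (nat_lit 447)) (XT.lf (nat_lit 0) (nat_lit 6095825809) (nat_lit 456) (nat_lit 3161263479) (nat_lit 532) (nat_lit 862446109) (nat_lit 238) (nat_lit 5) (nat_lit 244) (nat_lit 5)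 (nat_lit 245) (nat_lit 5) (nat_lit 596) (nat_lit 518) (nat_lit 446))) (XT.nd (nat_lit 78) (nat_lit 0) (nat_lit 0) (XT.lf (nat_lit 0) (nat_lit 2285915338) (nat_lit 608) (nat_lit 7147435390) (nat_lit 76) (nat_lit 790042966) (nat_lit 230) (nat_lit 5) (nat_lit 238) (nat_lit 5) (nat_lit 231) (nat_lit 5) (nat_lit 597) (nat_lit 518) (nat_lit 445)) (XT.lf (nat_lit 0) (nat_lit 5501813470) (nat_lit 608) (nat_lit 29100824) (nat_lit 76) (nat_lit 4797979157) (nat_lit 230) (nat_lit 5) (nat_lit 238) (nat_lit 5) (nat_lit 231) (nat_lit 5) (nat_lit 598) (nat_lit 518) (nat_lit 444)))) (XT.nd (nat_lit 156) (nat_lit 456) (nat_lit 0) (XT.nd (nat_lit 78) (nat_lit 532) (nat_lit 0) (XT.lf (nat_lit 0) (nat_lit 7282357120) (nat_lit 456) (nat_lit 1515573229) (nat_lit 532) (nat_lit 1638255489) (nat_lit 224) (nat_lit 5) (nat_lit 230) (nat_lit 5) (nat_lit 231) (nat_lit 5) (nat_lit 599) (nat_lit 518) (nat_lit 443)) (XT.lf (nat_lit 0) (nat_lit 1606256435) (nat_lit 532) (nat_lit 6367933207)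 (nat_lit 76) (nat_lit 2570963762) (nat_lit 217) (nat_lit 5) (nat_lit 224) (nat_lit 5) (nat_lit 218) (nat_lit 5) (nat_lit 600) (nat_lit 518) (nat_lit 442))) (XT.nd (nat_lit 78) (nat_lit 0) (nat_lit 0) (XT.lf (nat_lit 0) (nat_lit 988593230) (nat_lit 456) (nat_lit 3911883365) (nat_lit 532) (nat_lit 5755472676) (nat_lit 211) (nat_lit 5) (nat_lit 217) (nat_lit 5) (nat_lit 218) (nat_lit 5) (nat_lit 601) (nat_lit 518) (nat_lit 441)) (XT.lf (nat_lit 0) (nat_lit 8274300513) (nat_lit 532) (nat_lit 2236660699) (nat_lit 76) (nat_lit 257726058) (nat_lit 211) (nat_lit 5) (nat_lit 218) (nat_lit 5) (nat_lit 212) (nat_lit 5) (nat_lit 602) (nat_lit 518) (nat_lit 440))))) (XT.nd (nat_lit 312) (nat_lit 1216) (nat_lit 0) (XT.nd (nat_lit 156) (nat_lit 532) (nat_lit 0) (XT.nd (nat_lit 78) (nat_lit 380) (nat_lit 0) (XT.lf (nat_lit 0) (nat_lit 851607415) (nat_lit 532) (nat_lit 5546314712) (nat_lit 76) (nat_lit 4485038507) (nat_lit 204) (nat_lit 5) (nat_lit 211) (nat_lit 5) (nat_lit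 205) (nat_lit 5) (nat_lit 603) (nat_lit 518) (nat_lit 439)) (XT.lf (nat_lit 0) (nat_lit 2058339475) (nat_lit 380) (nat_lit 2171196875) (nat_lit 456) (nat_lit 6769685629) (nat_lit 199) (nat_lit 5) (nat_lit 204) (nat_lit 5) (nat_lit 205) (nat_lit 5) (nat_lit 604) (nat_lit 518) (nat_lit 438))) (XT.nd (nat_lit 78) (nat_lit 532) (nat_lit 0) (XT.lf (nat_lit 0) (nat_lit 7696503184) (nat_lit 456) (nat_lit 1285701456) (nat_lit 76) (nat_lit 2135174879) (nat_lit 199) (nat_lit 5) (nat_lit 205) (nat_lit 5) (nat_lit 200) (nat_lit 5) (nat_lit 605) (nat_lit 518) (nat_lit 437)) (XT.lf (nat_lit 0) (nat_lit 22770763) (nat_lit 532) (nat_lit 4687273366) (nat_lit 76) (nat_lit 6527301379) (nat_lit 192) (nat_lit 5) (nat_lit 199) (nat_lit 5) (nat_lit 193) (nat_lit 5) (nat_lit 606) (nat_lit 518) (nat_lit 436)))) (XT.nd (nat_lit 156) (nat_lit 836) (nat_lit 0) (XT.nd (nat_lit 78) (nat_lit 0) (nat_lit 0) (XT.lf (nat_lit 0) (nat_lit 3175398295) (nat_lit 380) (nat_lit 314235523) (nat_lit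 456) (nat_lit 7869622312) (nat_lit 187) (nat_lit 5) (nat_lit 192) (nat_lit 5) (nat_lit 193) (nat_lit 5) (nat_lit 607) (nat_lit 518) (nat_lit 435)) (XT.lf (nat_lit 0) (nat_lit 7055564400) (nat_lit 456) (nat_lit 295574556) (nat_lit 76) (nat_lit 4131871916) (nat_lit 187) (nat_lit 5) (nat_lit 193) (nat_lit 5) (nat_lit 188) (nat_lit 5) (nat_lit 608) (nat_lit 518) (nat_lit 434))) (XT.nd (nat_lit 78) (nat_lit 456) (nat_lit 0) (XT.lf (nat_lit 0) (nat_lit 7807476192) (nat_lit 380) (nat_lit 2909675234) (nat_lit 456) (nat_lit 891603029) (nat_lit 182) (nat_lit 5) (nat_lit 187) (nat_lit 5) (nat_lit 188) (nat_lit 5) (nat_lit 609) (nat_lit 518) (nat_lit 433)) (XT.lf (nat_lit 0) (nat_lit 2691892655) (nat_lit 456) (nat_lit 7411930451) (nat_lit 76) (nat_lit 1632586891) (nat_lit 176) (nat_lit 5) (nat_lit 182) (nat_lit 5) (nat_lit 177) (nat_lit 5) (nat_lit 610) (nat_lit 518) (nat_lit 432))))))) (XT.nd (nat_lit 1170) (nat_lit 3268) (nat_lit 0) (XT.nd (nat_lit 546) (nat_lit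 1748) (nat_lit 0) (XT.nd (nat_lit 234) (nat_lit 1140) (nat_lit 0) (XT.nd (nat_lit 78) (nat_lit 456) (nat_lit 0) (XT.lf (nat_lit 0) (nat_lit 738935331) (nat_lit 380) (nat_lit 5617774815) (nat_lit 456) (nat_lit 5509359299) (nat_lit 171) (nat_lit 5) (nat_lit 176) (nat_lit 5) (nat_lit 177) (nat_lit 5) (nat_lit 611) (nat_lit 518) (nat_lit 431)) (XT.nd (nat_lit 78) (nat_lit 456) (nat_lit 0) (XT.lf (nat_lit 0) (nat_lit 9109991497) (nat_lit 380) (nat_lit 1006676346) (nat_lit 456) (nat_lit 1881217826) (nat_lit 171) (nat_lit 5) (nat_lit 176) (nat_lit 5) (nat_lit 177) (nat_lit 5) (nat_lit 612) (nat_lit 518) (nat_lit 430)) (XT.lf (nat_lit 0) (nat_lit 1828243811) (nat_lit 456) (nat_lit 6622069532) (nat_lit 76) (nat_lit 3681136651) (nat_lit 165) (nat_lit 5) (nat_lit 171) (nat_lit 5) (nat_lit 166) (nat_lit 5) (nat_lit 613) (nat_lit 518) (nat_lit 429)))) (XT.nd (nat_lit 156) (nat_lit 760) (nat_lit 0) (XT.nd (nat_lit 78) (nat_lit 0) (nat_lit 0) (XT.lf (nat_lit 0) (nat_lit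 1807926705) (nat_lit 380) (nat_lit 3789350419) (nat_lit 456) (nat_lit 6669948784) (nat_lit 160) (nat_lit 5) (nat_lit 165) (nat_lit 5) (nat_lit 166) (nat_lit 5) (nat_lit 614) (nat_lit 518) (nat_lit 428)) (XT.lf (nat_lit 0) (nat_lit 9465481173) (nat_lit 456) (nat_lit 1958238821) (nat_lit 76) (nat_lit 981521973) (nat_lit 160) (nat_lit 5) (nat_lit 166) (nat_lit 5) (nat_lit 161) (nat_lit 5) (nat_lit 615) (nat_lit 518) (nat_lit 427))) (XT.nd (nat_lit 78) (nat_lit 380) (nat_lit 0) (XT.lf (nat_lit 0) (nat_lit 896107063) (nat_lit 380) (nat_lit 5817301555) (nat_lit 76) (nat_lit 5831649392) (nat_lit 155) (nat_lit 5) (nat_lit 160) (nat_lit 5) (nat_lit 156) (nat_lit 5) (nat_lit 616) (nat_lit 518) (nat_lit 426)) (XT.lf (nat_lit 0) (nat_lit 2902754869) (nat_lit 380) (nat_lit 1872087410) (nat_lit 456) (nat_lit 7912329595) (nat_lit 150) (nat_lit 5) (nat_lit 155) (nat_lit 5) (nat_lit 156) (nat_lit 5) (nat_lit 617) (nat_lit 518) (nat_lit 425))))) (XT.nd (nat_lit 312) (nat_lit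 988) (nat_lit 0) (XT.nd (nat_lit 156) (nat_lit 456) (nat_lit 0) (XT.nd (nat_lit 78) (nat_lit 304) (nat_lit 0) (XT.lf (nat_lit 0) (nat_lit 8763902990) (nat_lit 456) (nat_lit 1017959839) (nat_lit 76) (nat_lit 3049610568) (nat_lit 150) (nat_lit 5) (nat_lit 156) (nat_lit 5) (nat_lit 151) (nat_lit 5) (nat_lit 618) (nat_lit 518) (nat_lit 424)) (XT.lf (nat_lit 0) (nat_lit 7974332342) (nat_lit 304) (nat_lit 4896652035) (nat_lit 380) (nat_lit 106912173) (nat_lit 146) (nat_lit 5) (nat_lit 150) (nat_lit 5) (nat_lit 151) (nat_lit 5) (nat_lit 619) (nat_lit 518) (nat_lit 423))) (XT.nd (nat_lit 78) (nat_lit 0) (nat_lit 0) (XT.lf (nat_lit 0) (nat_lit 3889325363) (nat_lit 456) (nat_lit 9108910351) (nat_lit 76) (nat_lit 128343165) (nat_lit 140) (nat_lit 5) (nat_lit 146) (nat_lit 5) (nat_lit 141) (nat_lit 5) (nat_lit 620) (nat_lit 518) (nat_lit 422)) (XT.lf (nat_lit 0) (nat_lit 8004555440) (nat_lit 456) (nat_lit 65657503) (nat_lit 76) (nat_lit 5207198160) (nat_lit 140) (nat_lit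 5) (nat_lit 146) (nat_lit 5) (nat_lit 141) (nat_lit 5) (nat_lit 621) (nat_lit 518) (nat_lit 421)))) (XT.nd (nat_lit 156) (nat_lit 304) (nat_lit 0) (XT.nd (nat_lit 78) (nat_lit 380) (nat_lit 0) (XT.lf (nat_lit 0) (nat_lit 9238560907) (nat_lit 304) (nat_lit 2998287502) (nat_lit 380) (nat_lit 1193716754) (nat_lit 136) (nat_lit 5) (nat_lit 140) (nat_lit 5) (nat_lit 141) (nat_lit 5) (nat_lit 622) (nat_lit 518) (nat_lit 420)) (XT.lf (nat_lit 0) (nat_lit 2951183295) (nat_lit 380) (nat_lit 8450464328) (nat_lit 76) (nat_lit 2184287927) (nat_lit 131) (nat_lit 5) (nat_lit 136) (nat_lit 5) (nat_lit 132) (nat_lit 5) (nat_lit 623) (nat_lit 518) (nat_lit 419))) (XT.nd (nat_lit 78) (nat_lit 0) (nat_lit 0) (XT.lf (nat_lit 0) (nat_lit 905137893) (nat_lit 304) (nat_lit 6286888284) (nat_lit 380) (nat_lit 6551649124) (nat_lit 127) (nat_lit 5) (nat_lit 131) (nat_lit 5) (nat_lit 132) (nat_lit 5) (nat_lit 624) (nat_lit 518) (nat_lit 418)) (XT.lf (nat_lit 0) (nat_lit 10521417401)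 (nat_lit 304) (nat_lit 1028164338) (nat_lit 380) (nat_lit 2354350523) (nat_lit 127) (nat_lit 5) (nat_lit 131) (nat_lit 5) (nat_lit 132) (nat_lit 5) (nat_lit 625) (nat_lit 518) (nat_lit 417)))))) (XT.nd (nat_lit 624) (nat_lit 1368) (nat_lit 0) (XT.nd (nat_lit 312) (nat_lit 836) (nat_lit 0) (XT.nd (nat_lit 156) (nat_lit 380) (nat_lit 0) (XT.nd (nat_lit 78) (nat_lit 304) (nat_lit 0) (XT.lf (nat_lit 0) (nat_lit 1946388895) (nat_lit 380) (nat_lit 7803082221) (nat_lit 76) (nat_lit 4316778026) (nat_lit 122) (nat_lit 5) (nat_lit 127) (nat_lit 5) (nat_lit 123) (nat_lit 5) (nat_lit 626) (nat_lit 518) (nat_lit 416)) (XT.lf (nat_lit 0) (nat_lit 1877709603) (nat_lit 304) (nat_lit 4441416370) (nat_lit 380) (nat_lit 7912025299) (nat_lit 118) (nat_lit 5) (nat_lit 122) (nat_lit 5) (nat_lit 123) (nat_lit 5) (nat_lit 627) (nat_lit 518) (nat_lit 415))) (XT.nd (nat_lit 78) (nat_lit 380) (nat_lit 0) (XT.lf (nat_lit 0) (nat_lit 10814083115) (nat_lit 380) (nat_lit 2587808570)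 (nat_lit 76) (nat_lit 996764761) (nat_lit 118) (nat_lit 5) (nat_lit 123) (nat_lit 5) (nat_lit 119) (nat_lit 5) (nat_lit 628) (nat_lit 518) (nat_lit 414)) (XT.lf (nat_lit 0) (nat_lit 872584783) (nat_lit 380) (nat_lit 7173324724) (nat_lit 76) (nat_lit 6522414103) (nat_lit 113) (nat_lit 5) (nat_lit 118) (nat_lit 5) (nat_lit 114) (nat_lit 5) (nat_lit 629) (nat_lit 518) (nat_lit 413)))) (XT.nd (nat_lit 156) (nat_lit 608) (nat_lit 0) (XT.nd (nat_lit 78) (nat_lit 0) (nat_lit 0) (XT.lf (nat_lit 0) (nat_lit 2844976648) (nat_lit 228) (nat_lit 2538176648) (nat_lit 304) (nat_lit 9357511936) (nat_lit 110) (nat_lit 5) (nat_lit 113) (nat_lit 5) (nat_lit 114) (nat_lit 5) (nat_lit 630) (nat_lit 518) (nat_lit 412)) (XT.lf (nat_lit 0) (nat_lit 10028754309) (nat_lit 304) (nat_lit 1815013402) (nat_lit 76) (nat_lit 3071789837) (nat_lit 110) (nat_lit 5) (nat_lit 114) (nat_lit 5) (nat_lit 111) (nat_lit 5) (nat_lit 631) (nat_lit 518) (nat_lit 411))) (XT.nd (nat_lit 78) (nat_lit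 304) (nat_lit 0) (XT.lf (nat_lit 0) (nat_lit 8522943665) (nat_lit 304) (nat_lit 6293302760) (nat_lit 380) (nat_lit 276721981) (nat_lit 106) (nat_lit 5) (nat_lit 110) (nat_lit 5) (nat_lit 111) (nat_lit 5) (nat_lit 632) (nat_lit 518) (nat_lit 410)) (XT.lf (nat_lit 0) (nat_lit 3800254283) (nat_lit 228) (nat_lit 581080471) (nat_lit 304) (nat_lit 10891742003) (nat_lit 102) (nat_lit 5) (nat_lit 105) (nat_lit 5) (nat_lit 106) (nat_lit 5) (nat_lit 633) (nat_lit 518) (nat_lit 409))))) (XT.nd (nat_lit 312) (nat_lit 760) (nat_lit 0) (XT.nd (nat_lit 156) (nat_lit 304) (nat_lit 0) (XT.nd (nat_lit 78) (nat_lit 304) (nat_lit 0) (XT.lf (nat_lit 0) (nat_lit 9184263835) (nat_lit 304) (nat_lit 1064535409) (nat_lit 76) (nat_lit 5206843379) (nat_lit 102) (nat_lit 5) (nat_lit 106) (nat_lit 5) (nat_lit 103) (nat_lit 5) (nat_lit 634) (nat_lit 518) (nat_lit 408)) (XT.lf (nat_lit 0) (nat_lit 9635771405) (nat_lit 304) (nat_lit 4491317799) (nat_lit 380) (nat_lit 1513894106) (nat_lit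 98) (nat_lit 5) (nat_lit 102) (nat_lit 5) (nat_lit 103) (nat_lit 5) (nat_lit 635) (nat_lit 518) (nat_lit 407))) (XT.nd (nat_lit 78) (nat_lit 0) (nat_lit 0) (XT.lf (nat_lit 0) (nat_lit 3319624694) (nat_lit 304) (nat_lit 11102245894) (nat_lit 76) (nat_lit 1407233470) (nat_lit 94) (nat_lit 5) (nat_lit 98) (nat_lit 5) (nat_lit 95) (nat_lit 5) (nat_lit 636) (nat_lit 518) (nat_lit 406)) (XT.lf (nat_lit 0) (nat_lit 8277430268) (nat_lit 304) (nat_lit 344051260) (nat_lit 76) (nat_lit 7398348050) (nat_lit 94) (nat_lit 5) (nat_lit 98) (nat_lit 5) (nat_lit 95) (nat_lit 5) (nat_lit 637) (nat_lit 518) (nat_lit 405)))) (XT.nd (nat_lit 156) (nat_lit 228) (nat_lit 0) (XT.nd (nat_lit 78) (nat_lit 304) (nat_lit 0) (XT.lf (nat_lit 0) (nat_lit 10732015090) (nat_lit 228) (nat_lit 2650055886) (nat_lit 304) (nat_lit 2831345288) (nat_lit 91) (nat_lit 5) (nat_lit 94) (nat_lit 5) (nat_lit 95) (nat_lit 5) (nat_lit 638) (nat_lit 518) (nat_lit 404)) (XT.lf (nat_lit 0) (nat_lit 2188970499)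 (nat_lit 304) (nat_lit 10787604630) (nat_lit 76) (nat_lit 3433224879) (nat_lit 87) (nat_lit 5) (nat_lit 91) (nat_lit 5) (nat_lit 88) (nat_lit 5) (nat_lit 639) (nat_lit 518) (nat_lit 403))) (XT.nd (nat_lit 78) (nat_lit 0) (nat_lit 0) (XT.lf (nat_lit 0) (nat_lit 342571451) (nat_lit 228) (nat_lit 6964167395) (nat_lit 304) (nat_lit 9302299342) (nat_lit 84) (nat_lit 5) (nat_lit 87) (nat_lit 5) (nat_lit 88) (nat_lit 5) (nat_lit 640) (nat_lit 518) (nat_lit 402)) (XT.lf (nat_lit 0) (nat_lit 11803663874) (nat_lit 228) (nat_lit 773893598) (nat_lit 304) (nat_lit 4233689980) (nat_lit 84) (nat_lit 5) (nat_lit 87) (nat_lit 5) (nat_lit 88) (nat_lit 5) (nat_lit 641) (nat_lit 518) (nat_lit 401))))))))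
noncomputable def xc65 : XT := (XT.nd (nat_lit 73944) (nat_lit 0) (nat_lit 19988) (XT.nd (nat_lit 72696) (nat_lit 0) (nat_lit 44612) (XT.nd (nat_lit 72072) (nat_lit 0) (nat_lit 52592) (XT.nd (nat_lit 234) (nat_lit 228) (nat_lit 0) (XT.nd (nat_lit 78) (nat_lit 228) (nat_lit 0) (XT.lf (nat_lit 0) (nat_lit 981109568) (nat_lit 304) (nat_lit 10534716920) (nat_lit 76) (nat_lit 5500411090) (nat_lit 80) (nat_lit 5) (nat_lit 84) (nat_lit 5) (nat_lit 81) (nat_lit 5) (nat_lit 642) (nat_lit 518) (nat_lit 400)) (XT.nd (nat_lit 78) (nat_lit 0) (nat_lit 0) (XT.lf (nat_lit 0) (nat_lit 985640155) (nat_lit 228) (nat_lit 5281942678) (nat_lit 304) (nat_lit 10956703849) (nat_lit 77) (nat_lit 5) (nat_lit 80) (nat_lit 5) (nat_lit 81) (nat_lit 5) (nat_lit 643) (nat_lit 518) (nat_lit 399)) (XT.lf (nat_lit 0) (nat_lit 11716672178) (nat_lit 304) (nat_lit 4600939762) (nat_lit 76) (nat_lit 1117747300) (nat_lit 77) (nat_lit 5) (nat_lit 81) (nat_lit 5) (nat_lit 78) (nat_lit 5) (nat_lit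 644) (nat_lit 518) (nat_lit 398)))) (XT.nd (nat_lit 71682) (nat_lit 0) (nat_lit 54264) (XT.nd (nat_lit 71604) (nat_lit 0) (nat_lit 54492) (XT.lf (nat_lit 0) (nat_lit 7293328223) (nat_lit 228) (nat_lit 10042899753) (nat_lit 304) (nat_lit 313195777) (nat_lit 74) (nat_lit 5) (nat_lit 77) (nat_lit 5) (nat_lit 78) (nat_lit 5) (nat_lit 645) (nat_lit 518) (nat_lit 397)) (XT.lf (nat_lit 0) (nat_lit 32883998) (nat_lit 76) (nat_lit 1594591711) (nat_lit 76) (nat_lit 1594591711) (nat_lit 791) (nat_lit 4) (nat_lit 792) (nat_lit 5) (nat_lit 792) (nat_lit 4) (nat_lit 522) (nat_lit 519) (nat_lit 519))) (XT.nd (nat_lit 78) (nat_lit 152) (nat_lit 0) (XT.lf (nat_lit 0) (nat_lit 22900620) (nat_lit 152) (nat_lit 3040593682) (nat_lit 76) (nat_lit 3383175386) (nat_lit 790) (nat_lit 5) (nat_lit 792) (nat_lit 5) (nat_lit 791) (nat_lit 4) (nat_lit 523) (nat_lit 519) (nat_lit 518)) (XT.lf (nat_lit 0) (nat_lit 302169490) (nat_lit 152) (nat_lit 2873745774) (nat_lit 228) (nat_lit 3274535327)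 (nat_lit 788) (nat_lit 5) (nat_lit 790) (nat_lit 5) (nat_lit 791) (nat_lit 4) (nat_lit 524) (nat_lit 519) (nat_lit 517))))) (XT.nd (nat_lit 312) (nat_lit 988) (nat_lit 0) (XT.nd (nat_lit 156) (nat_lit 380) (nat_lit 0) (XT.nd (nat_lit 78) (nat_lit 304) (nat_lit 0) (XT.lf (nat_lit 0) (nat_lit 3708689411) (nat_lit 152) (nat_lit 2622427139) (nat_lit 228) (nat_lit 124412751) (nat_lit 788) (nat_lit 5) (nat_lit 790) (nat_lit 5) (nat_lit 791) (nat_lit 4) (nat_lit 525) (nat_lit 519) (nat_lit 516)) (XT.lf (nat_lit 0) (nat_lit 666805232) (nat_lit 228) (nat_lit 2305511140) (nat_lit 304) (nat_lit 3489514401) (nat_lit 784) (nat_lit 5) (nat_lit 787) (nat_lit 5) (nat_lit 788) (nat_lit 5) (nat_lit 526) (nat_lit 519) (nat_lit 515))) (XT.nd (nat_lit 78) (nat_lit 380) (nat_lit 0) (XT.lf (nat_lit 0) (nat_lit 4140899177) (nat_lit 228) (nat_lit 1927913408) (nat_lit 304) (nat_lit 400643720) (nat_lit 784) (nat_lit 5) (nat_lit 787) (nat_lit 5) (nat_lit 788) (nat_lit 5) (nat_lit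 527) (nat_lit 519) (nat_lit 514)) (XT.lf (nat_lit 0) (nat_lit 1160206381) (nat_lit 304) (nat_lit 1483364421) (nat_lit 380) (nat_lit 3834718051) (nat_lit 779) (nat_lit 5) (nat_lit 783) (nat_lit 5) (nat_lit 784) (nat_lit 5) (nat_lit 528) (nat_lit 519) (nat_lit 513)))) (XT.nd (nat_lit 156) (nat_lit 532) (nat_lit 0) (XT.nd (nat_lit 78) (nat_lit 456) (nat_lit 0) (XT.lf (nat_lit 0) (nat_lit 4703517178) (nat_lit 304) (nat_lit 978742717) (nat_lit 380) (nat_lit 806210283) (nat_lit 779) (nat_lit 5) (nat_lit 783) (nat_lit 5) (nat_lit 784) (nat_lit 5) (nat_lit 529) (nat_lit 519) (nat_lit 512)) (XT.lf (nat_lit 0) (nat_lit 1783155224) (nat_lit 380) (nat_lit 405692456) (nat_lit 456) (nat_lit 4310996629) (nat_lit 773) (nat_lit 5) (nat_lit 778) (nat_lit 5) (nat_lit 779) (nat_lit 5) (nat_lit 530) (nat_lit 519) (nat_lit 511))) (XT.nd (nat_lit 78) (nat_lit 532) (nat_lit 0) (XT.lf (nat_lit 0) (nat_lit 5171978994) (nat_lit 456) (nat_lit 1116613125) (nat_lit 76) (nat_lit 223971822)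 (nat_lit 773) (nat_lit 5) (nat_lit 779) (nat_lit 5) (nat_lit 774) (nat_lit 5) (nat_lit 531) (nat_lit 519) (nat_lit 510)) (XT.lf (nat_lit 0) (nat_lit 1613103354) (nat_lit 532) (nat_lit 3995872083) (nat_lit 76) (nat_lit 917426506) (nat_lit 766) (nat_lit 5) (nat_lit 773) (nat_lit 5) (nat_lit 767) (nat_lit 5) (nat_lit 532) (nat_lit 519) (nat_lit 509)))))) (XT.nd (nat_lit 624) (nat_lit 4332) (nat_lit 0) (XT.nd (nat_lit 312) (nat_lit 2356) (nat_lit 0) (XT.nd (nat_lit 156) (nat_lit 684) (nat_lit 0) (XT.nd (nat_lit 78) (nat_lit 608) (nat_lit 0) (XT.lf (nat_lit 0) (nat_lit 4543330039) (nat_lit 532) (nat_lit 328964210) (nat_lit 76) (nat_lit 1669340647) (nat_lit 766) (nat_lit 5) (nat_lit 773) (nat_lit 5) (nat_lit 767) (nat_lit 5) (nat_lit 533) (nat_lit 519) (nat_lit 508)) (XT.lf (nat_lit 0) (nat_lit 913296132) (nat_lit 608) (nat_lit 3152662891) (nat_lit 76) (nat_lit 2492068564) (nat_lit 758) (nat_lit 5) (nat_lit 766) (nat_lit 5) (nat_lit 759) (nat_lit 5) (nat_lit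 534) (nat_lit 519) (nat_lit 507))) (XT.nd (nat_lit 78) (nat_lit 76) (nat_lit 0) (XT.lf (nat_lit 0) (nat_lit 593497970) (nat_lit 608) (nat_lit 3198879574) (nat_lit 684) (nat_lit 2783389801) (nat_lit 750) (nat_lit 5) (nat_lit 758) (nat_lit 5) (nat_lit 759) (nat_lit 5) (nat_lit 535) (nat_lit 519) (nat_lit 506)) (XT.lf (nat_lit 0) (nat_lit 85229718) (nat_lit 684) (nat_lit 2182941589) (nat_lit 76) (nat_lit 4326639926) (nat_lit 749) (nat_lit 5) (nat_lit 758) (nat_lit 5) (nat_lit 750) (nat_lit 5) (nat_lit 536) (nat_lit 519) (nat_lit 505)))) (XT.nd (nat_lit 156) (nat_lit 1672) (nat_lit 0) (XT.nd (nat_lit 78) (nat_lit 0) (nat_lit 0) (XT.lf (nat_lit 0) (nat_lit 1650684556) (nat_lit 684) (nat_lit 1265909650) (nat_lit 760) (nat_lit 3698424286) (nat_lit 740) (nat_lit 5) (nat_lit 749) (nat_lit 5) (nat_lit 750) (nat_lit 5) (nat_lit 537) (nat_lit 519) (nat_lit 504)) (XT.lf (nat_lit 0) (nat_lit 5545964817) (nat_lit 684) (nat_lit 206205706) (nat_lit 760) (nat_lit 884510918)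 (nat_lit 740) (nat_lit 5) (nat_lit 749) (nat_lit 5) (nat_lit 750) (nat_lit 5) (nat_lit 538) (nat_lit 519) (nat_lit 503))) (XT.nd (nat_lit 78) (nat_lit 836) (nat_lit 0) (XT.lf (nat_lit 0) (nat_lit 1917916963) (nat_lit 836) (nat_lit 3825392026) (nat_lit 76) (nat_lit 916048349) (nat_lit 729) (nat_lit 5) (nat_lit 740) (nat_lit 5) (nat_lit 730) (nat_lit 5) (nat_lit 539) (nat_lit 519) (nat_lit 502)) (XT.lf (nat_lit 0) (nat_lit 118097321) (nat_lit 836) (nat_lit 4590921374) (nat_lit 912) (nat_lit 1974464796) (nat_lit 718) (nat_lit 5) (nat_lit 729) (nat_lit 5) (nat_lit 730) (nat_lit 5) (nat_lit 540) (nat_lit 519) (nat_lit 501))))) (XT.nd (nat_lit 312) (nat_lit 2280) (nat_lit 0) (XT.nd (nat_lit 156) (nat_lit 1064) (nat_lit 0) (XT.nd (nat_lit 78) (nat_lit 912) (nat_lit 0) (XT.lf (nat_lit 0) (nat_lit 798081636) (nat_lit 912) (nat_lit 2567267048) (nat_lit 76) (nat_lit 3343409299) (nat_lit 717) (nat_lit 5) (nat_lit 729) (nat_lit 5) (nat_lit 718) (nat_lit 5) (nat_lit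 541) (nat_lit 519) (nat_lit 500)) (XT.lf (nat_lit 0) (nat_lit 1471623321) (nat_lit 912) (nat_lit 2074372212) (nat_lit 988) (nat_lit 3189357188) (nat_lit 705) (nat_lit 5) (nat_lit 717) (nat_lit 5) (nat_lit 718) (nat_lit 5) (nat_lit 542) (nat_lit 519) (nat_lit 499))) (XT.nd (nat_lit 78) (nat_lit 1064) (nat_lit 0) (XT.lf (nat_lit 0) (nat_lit 5580974453) (nat_lit 912) (nat_lit 722842893) (nat_lit 988) (nat_lit 459565831) (nat_lit 705) (nat_lit 5) (nat_lit 717) (nat_lit 5) (nat_lit 718) (nat_lit 5) (nat_lit 543) (nat_lit 519) (nat_lit 498)) (XT.lf (nat_lit 0) (nat_lit 2256671103) (nat_lit 1064) (nat_lit 3837908550) (nat_lit 76) (nat_lit 697848609) (nat_lit 691) (nat_lit 5) (nat_lit 705) (nat_lit 5) (nat_lit 692) (nat_lit 5) (nat_lit 544) (nat_lit 519) (nat_lit 497)))) (XT.nd (nat_lit 156) (nat_lit 1140) (nat_lit 0) (XT.nd (nat_lit 78) (nat_lit 76) (nat_lit 0) (XT.lf (nat_lit 0) (nat_lit 318541986) (nat_lit 1064) (nat_lit 4656938439) (nat_lit 1140) (nat_lit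 1847427699) (nat_lit 677) (nat_lit 5) (nat_lit 691) (nat_lit 5) (nat_lit 692) (nat_lit 5) (nat_lit 545) (nat_lit 519) (nat_lit 496)) (XT.lf (nat_lit 0) (nat_lit 848903758) (nat_lit 1140) (nat_lit 2295884376) (nat_lit 76) (nat_lit 3709776443) (nat_lit 676) (nat_lit 5) (nat_lit 691) (nat_lit 5) (nat_lit 677) (nat_lit 5) (nat_lit 546) (nat_lit 519) (nat_lit 495))) (XT.nd (nat_lit 78) (nat_lit 0) (nat_lit 0) (XT.lf (nat_lit 0) (nat_lit 1964644226) (nat_lit 1140) (nat_lit 1563779264) (nat_lit 1216) (nat_lit 3359108967) (nat_lit 661) (nat_lit 5) (nat_lit 676) (nat_lit 5) (nat_lit 677) (nat_lit 5) (nat_lit 547) (nat_lit 519) (nat_lit 494)) (XT.lf (nat_lit 0) (nat_lit 6219518889) (nat_lit 1216) (nat_lit 626363009) (nat_lit 76) (nat_lit 76120544) (nat_lit 661) (nat_lit 5) (nat_lit 677) (nat_lit 5) (nat_lit 662) (nat_lit 5) (nat_lit 548) (nat_lit 519) (nat_lit 493))))))) (XT.nd (nat_lit 1170) (nat_lit 9348) (nat_lit 0) (XT.nd (nat_lit 546) (nat_lit 8208) (nat_lit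 0) (XT.nd (nat_lit 234) (nat_lit 4408) (nat_lit 0) (XT.nd (nat_lit 78) (nat_lit 1368) (nat_lit 0) (XT.lf (nat_lit 0) (nat_lit 1958792704) (nat_lit 1292) (nat_lit 3221266160) (nat_lit 76) (nat_lit 1777287786) (nat_lit 644) (nat_lit 5) (nat_lit 661) (nat_lit 5) (nat_lit 645) (nat_lit 5) (nat_lit 549) (nat_lit 519) (nat_lit 492)) (XT.nd (nat_lit 78) (nat_lit 76) (nat_lit 0) (XT.lf (nat_lit 0) (nat_lit 1165421613) (nat_lit 1292) (nat_lit 3454011557) (nat_lit 1368) (nat_lit 2374763117) (nat_lit 627) (nat_lit 5) (nat_lit 644) (nat_lit 5) (nat_lit 645) (nat_lit 5) (nat_lit 550) (nat_lit 519) (nat_lit 491)) (XT.lf (nat_lit 0) (nat_lit 263483313) (nat_lit 1368) (nat_lit 1396516414) (nat_lit 76) (nat_lit 5372427579) (nat_lit 626) (nat_lit 5) (nat_lit 644) (nat_lit 5) (nat_lit 627) (nat_lit 5) (nat_lit 551) (nat_lit 519) (nat_lit 490)))) (XT.nd (nat_lit 156) (nat_lit 1596) (nat_lit 0) (XT.nd (nat_lit 78) (nat_lit 1444) (nat_lit 0) (XT.lf (nat_lit 0) (nat_lit 2889546316)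 (nat_lit 1444) (nat_lit 3969496126) (nat_lit 76) (nat_lit 212731743) (nat_lit 608) (nat_lit 5) (nat_lit 627) (nat_lit 5) (nat_lit 609) (nat_lit 5) (nat_lit 552) (nat_lit 519) (nat_lit 489)) (XT.lf (nat_lit 0) (nat_lit 547891524) (nat_lit 1444) (nat_lit 4990326695) (nat_lit 1520) (nat_lit 1574290166) (nat_lit 589) (nat_lit 5) (nat_lit 608) (nat_lit 5) (nat_lit 609) (nat_lit 5) (nat_lit 553) (nat_lit 519) (nat_lit 488))) (XT.nd (nat_lit 78) (nat_lit 1520) (nat_lit 0) (XT.lf (nat_lit 0) (nat_lit 1044886036) (nat_lit 1520) (nat_lit 1998219993) (nat_lit 76) (nat_lit 4111345891) (nat_lit 588) (nat_lit 5) (nat_lit 608) (nat_lit 5) (nat_lit 589) (nat_lit 5) (nat_lit 554) (nat_lit 519) (nat_lit 487)) (XT.lf (nat_lit 0) (nat_lit 2637688710) (nat_lit 1520) (nat_lit 1022378004) (nat_lit 1596) (nat_lit 3537667487) (nat_lit 568) (nat_lit 5) (nat_lit 588) (nat_lit 5) (nat_lit 589) (nat_lit 5) (nat_lit 555) (nat_lit 519) (nat_lit 486))))) (XT.nd (nat_lit 312) (nat_lit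 4864) (nat_lit 0) (XT.nd (nat_lit 156) (nat_lit 1672) (nat_lit 0) (XT.nd (nat_lit 78) (nat_lit 76) (nat_lit 0) (XT.lf (nat_lit 0) (nat_lit 99502921) (nat_lit 1596) (nat_lit 6197262640) (nat_lit 1672) (nat_lit 945734249) (nat_lit 547) (nat_lit 5) (nat_lit 568) (nat_lit 5) (nat_lit 569) (nat_lit 5) (nat_lit 556) (nat_lit 519) (nat_lit 485)) (XT.lf (nat_lit 0) (nat_lit 1662039738) (nat_lit 1672) (nat_lit 2438624978) (nat_lit 76) (nat_lit 3187551973) (nat_lit 546) (nat_lit 5) (nat_lit 568) (nat_lit 5) (nat_lit 547) (nat_lit 5) (nat_lit 557) (nat_lit 519) (nat_lit 484))) (XT.nd (nat_lit 78) (nat_lit 0) (nat_lit 0) (XT.lf (nat_lit 0) (nat_lit 2338026019) (nat_lit 1672) (nat_lit 1936176053) (nat_lit 1748) (nat_lit 3061224742) (nat_lit 524) (nat_lit 5) (nat_lit 546) (nat_lit 5) (nat_lit 547) (nat_lit 5) (nat_lit 558) (nat_lit 519) (nat_lit 483)) (XT.lf (nat_lit 0) (nat_lit 6907260484) (nat_lit 1748) (nat_lit 188782256) (nat_lit 76) (nat_lit 288167165) (nat_lit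 524) (nat_lit 5) (nat_lit 547) (nat_lit 5) (nat_lit 525) (nat_lit 5) (nat_lit 559) (nat_lit 519) (nat_lit 482)))) (XT.nd (nat_lit 156) (nat_lit 1216) (nat_lit 0) (XT.nd (nat_lit 78) (nat_lit 1824) (nat_lit 0) (XT.lf (nat_lit 0) (nat_lit 2125510241) (nat_lit 1824) (nat_lit 2728982036) (nat_lit 76) (nat_lit 2579301487) (nat_lit 500) (nat_lit 5) (nat_lit 524) (nat_lit 5) (nat_lit 501) (nat_lit 5) (nat_lit 560) (nat_lit 519) (nat_lit 481)) (XT.lf (nat_lit 0) (nat_lit 2193753704) (nat_lit 1824) (nat_lit 2547129469) (nat_lit 1900) (nat_lit 2744079782) (nat_lit 476) (nat_lit 5) (nat_lit 500) (nat_lit 5) (nat_lit 501) (nat_lit 5) (nat_lit 561) (nat_lit 519) (nat_lit 480))) (XT.nd (nat_lit 78) (nat_lit 1216) (nat_lit 0) (XT.lf (nat_lit 0) (nat_lit 7205897724) (nat_lit 1824) (nat_lit 173352322) (nat_lit 1900) (nat_lit 158493438) (nat_lit 476) (nat_lit 5) (nat_lit 500) (nat_lit 5) (nat_lit 501) (nat_lit 5) (nat_lit 562) (nat_lit 519) (nat_lit 479)) (XT.lf (nat_lit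 0) (nat_lit 2444893780) (nat_lit 1216) (nat_lit 2879656098) (nat_lit 76) (nat_lit 2266737500) (nat_lit 460) (nat_lit 5) (nat_lit 476) (nat_lit 5) (nat_lit 461) (nat_lit 5) (nat_lit 563) (nat_lit 519) (nat_lit 478)))))) (XT.nd (nat_lit 624) (nat_lit 3952) (nat_lit 0) (XT.nd (nat_lit 312) (nat_lit 2660) (nat_lit 0) (XT.nd (nat_lit 156) (nat_lit 1748) (nat_lit 0) (XT.nd (nat_lit 78) (nat_lit 76) (nat_lit 0) (XT.lf (nat_lit 0) (nat_lit 2194795172) (nat_lit 912) (nat_lit 2874702025) (nat_lit 988) (nat_lit 2576960174) (nat_lit 448) (nat_lit 5) (nat_lit 460) (nat_lit 5) (nat_lit 461) (nat_lit 5) (nat_lit 564) (nat_lit 519) (nat_lit 477)) (XT.lf (nat_lit 0) (nat_lit 16673033) (nat_lit 988) (nat_lit 339691615) (nat_lit 76) (nat_lit 7346894218) (nat_lit 447) (nat_lit 5) (nat_lit 460) (nat_lit 5) (nat_lit 448) (nat_lit 5) (nat_lit 565) (nat_lit 519) (nat_lit 476))) (XT.nd (nat_lit 78) (nat_lit 836) (nat_lit 0) (XT.lf (nat_lit 0) (nat_lit 2628881550) (nat_lit 988)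 (nat_lit 2900201137) (nat_lit 76) (nat_lit 2231750361) (nat_lit 435) (nat_lit 5) (nat_lit 448) (nat_lit 5) (nat_lit 436) (nat_lit 5) (nat_lit 566) (nat_lit 519) (nat_lit 475)) (XT.lf (nat_lit 0) (nat_lit 2331886893) (nat_lit 836) (nat_lit 2936664033) (nat_lit 912) (nat_lit 2551504920) (nat_lit 424) (nat_lit 5) (nat_lit 435) (nat_lit 5) (nat_lit 436) (nat_lit 5) (nat_lit 567) (nat_lit 519) (nat_lit 474)))) (XT.nd (nat_lit 156) (nat_lit 1672) (nat_lit 0) (XT.nd (nat_lit 78) (nat_lit 912) (nat_lit 0) (XT.lf (nat_lit 0) (nat_lit 54788949) (nat_lit 912) (nat_lit 219455536) (nat_lit 76) (nat_lit 7606703668) (nat_lit 423) (nat_lit 5) (nat_lit 435) (nat_lit 5) (nat_lit 424) (nat_lit 5) (nat_lit 568) (nat_lit 519) (nat_lit 473)) (XT.lf (nat_lit 0) (nat_lit 2685318553) (nat_lit 988) (nat_lit 2799430290) (nat_lit 76) (nat_lit 2457848046) (nat_lit 411) (nat_lit 5) (nat_lit 424) (nat_lit 5) (nat_lit 412) (nat_lit 5) (nat_lit 569) (nat_lit 519) (nat_lit 472))) (XT.nd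 (nat_lit 78) (nat_lit 836) (nat_lit 0) (XT.lf (nat_lit 0) (nat_lit 2596508848) (nat_lit 836) (nat_lit 2749219107) (nat_lit 912) (nat_lit 2660206614) (nat_lit 400) (nat_lit 5) (nat_lit 411) (nat_lit 5) (nat_lit 412) (nat_lit 5) (nat_lit 570) (nat_lit 519) (nat_lit 471)) (XT.lf (nat_lit 0) (nat_lit 21232400) (nat_lit 836) (nat_lit 8015058530) (nat_lit 912) (nat_lit 34710493) (nat_lit 389) (nat_lit 5) (nat_lit 400) (nat_lit 5) (nat_lit 401) (nat_lit 5) (nat_lit 571) (nat_lit 519) (nat_lit 470))))) (XT.nd (nat_lit 312) (nat_lit 2280) (nat_lit 0) (XT.nd (nat_lit 156) (nat_lit 836) (nat_lit 0) (XT.nd (nat_lit 78) (nat_lit 760) (nat_lit 0) (XT.lf (nat_lit 0) (nat_lit 2621257124) (nat_lit 912) (nat_lit 2585481802) (nat_lit 76) (nat_lit 2930036145) (nat_lit 388) (nat_lit 5) (nat_lit 400) (nat_lit 5) (nat_lit 389) (nat_lit 5) (nat_lit 572) (nat_lit 519) (nat_lit 469)) (XT.lf (nat_lit 0) (nat_lit 2980819106) (nat_lit 760) (nat_lit 2327121583) (nat_lit 836) (nat_lit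 2896358938) (nat_lit 378) (nat_lit 5) (nat_lit 388) (nat_lit 5) (nat_lit 389) (nat_lit 5) (nat_lit 573) (nat_lit 519) (nat_lit 468))) (XT.nd (nat_lit 78) (nat_lit 76) (nat_lit 0) (XT.lf (nat_lit 0) (nat_lit 374889315) (nat_lit 760) (nat_lit 7656515341) (nat_lit 836) (nat_lit 242110311) (nat_lit 368) (nat_lit 5) (nat_lit 378) (nat_lit 5) (nat_lit 379) (nat_lit 5) (nat_lit 574) (nat_lit 519) (nat_lit 467)) (XT.lf (nat_lit 0) (nat_lit 2443005460) (nat_lit 836) (nat_lit 2265881238) (nat_lit 76) (nat_lit 3634706696) (nat_lit 367) (nat_lit 5) (nat_lit 378) (nat_lit 5) (nat_lit 368) (nat_lit 5) (nat_lit 575) (nat_lit 519) (nat_lit 466)))) (XT.nd (nat_lit 156) (nat_lit 760) (nat_lit 0) (XT.nd (nat_lit 78) (nat_lit 760) (nat_lit 0) (XT.lf (nat_lit 0) (nat_lit 3477592095) (nat_lit 760) (nat_lit 1683785361) (nat_lit 836) (nat_lit 3254009168) (nat_lit 357) (nat_lit 5) (nat_lit 367) (nat_lit 5) (nat_lit 368) (nat_lit 5) (nat_lit 576) (nat_lit 519) (nat_lit 465)) (XT.lf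 (nat_lit 0) (nat_lit 833693967) (nat_lit 760) (nat_lit 7090899985) (nat_lit 836) (nat_lit 564213357) (nat_lit 347) (nat_lit 5) (nat_lit 357) (nat_lit 5) (nat_lit 358) (nat_lit 5) (nat_lit 577) (nat_lit 519) (nat_lit 464))) (XT.nd (nat_lit 78) (nat_lit 684) (nat_lit 0) (XT.lf (nat_lit 0) (nat_lit 2156171442) (nat_lit 836) (nat_lit 1847600416) (nat_lit 76) (nat_lit 4559535120) (nat_lit 346) (nat_lit 5) (nat_lit 357) (nat_lit 5) (nat_lit 347) (nat_lit 5) (nat_lit 578) (nat_lit 519) (nat_lit 463)) (XT.lf (nat_lit 0) (nat_lit 4080160108) (nat_lit 684) (nat_lit 831384903) (nat_lit 760) (nat_lit 3727915390) (nat_lit 337) (nat_lit 5) (nat_lit 346) (nat_lit 5) (nat_lit 347) (nat_lit 5) (nat_lit 579) (nat_lit 519) (nat_lit 462))))))))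
noncomputable def xc66 : XT := (XT.nd (nat_lit 2418) (nat_lit 7372) (nat_lit 0) (XT.nd (nat_lit 1170) (nat_lit 5320) (nat_lit 0) (XT.nd (nat_lit 546) (nat_lit 3116) (nat_lit 0) (XT.nd (nat_lit 234) (nat_lit 1976) (nat_lit 0) (XT.nd (nat_lit 78) (nat_lit 760) (nat_lit 0) (XT.lf (nat_lit 0) (nat_lit 1391094401) (nat_lit 684) (nat_lit 6330102104) (nat_lit 760) (nat_lit 995958025) (nat_lit 328) (nat_lit 5) (nat_lit 337) (nat_lit 5) (nat_lit 338) (nat_lit 5) (nat_lit 580) (nat_lit 519) (nat_lit 461)) (XT.nd (nat_lit 78) (nat_lit 684) (nat_lit 0) (XT.lf (nat_lit 0) (nat_lit 1765702021) (nat_lit 760) (nat_lit 1337113457) (nat_lit 76) (nat_lit 5693384589) (nat_lit 327) (nat_lit 5) (nat_lit 337) (nat_lit 5) (nat_lit 328) (nat_lit 5) (nat_lit 581) (nat_lit 519) (nat_lit 460)) (XT.lf (nat_lit 0) (nat_lit 4564728924) (nat_lit 760) (nat_lit 4095879461) (nat_lit 76) (nat_lit 216178057) (nat_lit 318) (nat_lit 5) (nat_lit 328) (nat_lit 5) (nat_lit 319) (nat_lit 5) (nat_lit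 582) (nat_lit 519) (nat_lit 459)))) (XT.nd (nat_lit 156) (nat_lit 1216) (nat_lit 0) (XT.nd (nat_lit 78) (nat_lit 76) (nat_lit 0) (XT.lf (nat_lit 0) (nat_lit 2041008886) (nat_lit 684) (nat_lit 5384922182) (nat_lit 760) (nat_lit 1532930553) (nat_lit 309) (nat_lit 5) (nat_lit 318) (nat_lit 5) (nat_lit 319) (nat_lit 5) (nat_lit 583) (nat_lit 519) (nat_lit 458)) (XT.lf (nat_lit 0) (nat_lit 1275918403) (nat_lit 760) (nat_lit 740450360) (nat_lit 76) (nat_lit 7026217178) (nat_lit 308) (nat_lit 5) (nat_lit 318) (nat_lit 5) (nat_lit 309) (nat_lit 5) (nat_lit 584) (nat_lit 519) (nat_lit 457))) (XT.nd (nat_lit 78) (nat_lit 608) (nat_lit 0) (XT.lf (nat_lit 0) (nat_lit 4130379886) (nat_lit 684) (nat_lit 3558768221) (nat_lit 76) (nat_lit 1438435668) (nat_lit 300) (nat_lit 5) (nat_lit 309) (nat_lit 5) (nat_lit 301) (nat_lit 5) (nat_lit 585) (nat_lit 519) (nat_lit 456)) (XT.lf (nat_lit 0) (nat_lit 2777773628) (nat_lit 608) (nat_lit 4265156192) (nat_lit 684) (nat_lit 2171332655)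 (nat_lit 292) (nat_lit 5) (nat_lit 300) (nat_lit 5) (nat_lit 301) (nat_lit 5) (nat_lit 586) (nat_lit 519) (nat_lit 455))))) (XT.nd (nat_lit 312) (nat_lit 1216) (nat_lit 0) (XT.nd (nat_lit 156) (nat_lit 1216) (nat_lit 0) (XT.nd (nat_lit 78) (nat_lit 608) (nat_lit 0) (XT.lf (nat_lit 0) (nat_lit 690547235) (nat_lit 684) (nat_lit 63248509) (nat_lit 76) (nat_lit 8549011194) (nat_lit 291) (nat_lit 5) (nat_lit 300) (nat_lit 5) (nat_lit 292) (nat_lit 5) (nat_lit 587) (nat_lit 519) (nat_lit 454)) (XT.lf (nat_lit 0) (nat_lit 3606716309) (nat_lit 684) (nat_lit 2948181045) (nat_lit 76) (nat_lit 2837416212) (nat_lit 283) (nat_lit 5) (nat_lit 292) (nat_lit 5) (nat_lit 284) (nat_lit 5) (nat_lit 588) (nat_lit 519) (nat_lit 453))) (XT.nd (nat_lit 78) (nat_lit 608) (nat_lit 0) (XT.lf (nat_lit 0) (nat_lit 3596092333) (nat_lit 608) (nat_lit 2979674591) (nat_lit 684) (nat_lit 2907953067) (nat_lit 275) (nat_lit 5) (nat_lit 283) (nat_lit 5) (nat_lit 284) (nat_lit 5) (nat_lit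 589) (nat_lit 519) (nat_lit 452)) (XT.lf (nat_lit 0) (nat_lit 21704158) (nat_lit 608) (nat_lit 8883209282) (nat_lit 76) (nat_lit 672142009) (nat_lit 267) (nat_lit 5) (nat_lit 275) (nat_lit 5) (nat_lit 268) (nat_lit 5) (nat_lit 590) (nat_lit 519) (nat_lit 451)))) (XT.nd (nat_lit 156) (nat_lit 608) (nat_lit 0) (XT.nd (nat_lit 78) (nat_lit 608) (nat_lit 0) (XT.lf (nat_lit 0) (nat_lit 2996807461) (nat_lit 608) (nat_lit 2269417154) (nat_lit 76) (nat_lit 4405133539) (nat_lit 267) (nat_lit 5) (nat_lit 275) (nat_lit 5) (nat_lit 268) (nat_lit 5) (nat_lit 591) (nat_lit 519) (nat_lit 450)) (XT.lf (nat_lit 0) (nat_lit 4490987223) (nat_lit 608) (nat_lit 1536496184) (nat_lit 684) (nat_lit 3740142858) (nat_lit 259) (nat_lit 5) (nat_lit 267) (nat_lit 5) (nat_lit 268) (nat_lit 5) (nat_lit 592) (nat_lit 519) (nat_lit 449))) (XT.nd (nat_lit 78) (nat_lit 76) (nat_lit 0) (XT.lf (nat_lit 0) (nat_lit 1512001313) (nat_lit 532) (nat_lit 7613841057) (nat_lit 608) (nat_lit 739836726)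 (nat_lit 252) (nat_lit 5) (nat_lit 259) (nat_lit 5) (nat_lit 260) (nat_lit 5) (nat_lit 593) (nat_lit 519) (nat_lit 448)) (XT.lf (nat_lit 0) (nat_lit 2303197847) (nat_lit 608) (nat_lit 1527510696) (nat_lit 76) (nat_lit 6134420722) (nat_lit 251) (nat_lit 5) (nat_lit 259) (nat_lit 5) (nat_lit 252) (nat_lit 5) (nat_lit 594) (nat_lit 519) (nat_lit 447)))))) (XT.nd (nat_lit 624) (nat_lit 2280) (nat_lit 0) (XT.nd (nat_lit 312) (nat_lit 1444) (nat_lit 0) (XT.nd (nat_lit 156) (nat_lit 608) (nat_lit 0) (XT.nd (nat_lit 78) (nat_lit 456) (nat_lit 0) (XT.lf (nat_lit 0) (nat_lit 5400979543) (nat_lit 608) (nat_lit 4609022765) (nat_lit 76) (nat_lit 56393170) (nat_lit 244) (nat_lit 5) (nat_lit 252) (nat_lit 5) (nat_lit 245) (nat_lit 5) (nat_lit 595) (nat_lit 519) (nat_lit 446)) (XT.lf (nat_lit 0) (nat_lit 2394775007) (nat_lit 456) (nat_lit 6185419371) (nat_lit 532) (nat_lit 1589103778) (nat_lit 238) (nat_lit 5) (nat_lit 244) (nat_lit 5) (nat_lit 245) (nat_lit 5) (nat_lit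 596) (nat_lit 519) (nat_lit 445))) (XT.nd (nat_lit 78) (nat_lit 532) (nat_lit 0) (XT.lf (nat_lit 0) (nat_lit 1527926049) (nat_lit 532) (nat_lit 727278056) (nat_lit 76) (nat_lit 8018864272) (nat_lit 237) (nat_lit 5) (nat_lit 244) (nat_lit 5) (nat_lit 238) (nat_lit 5) (nat_lit 597) (nat_lit 519) (nat_lit 444)) (XT.lf (nat_lit 0) (nat_lit 4708830287) (nat_lit 608) (nat_lit 3900253557) (nat_lit 76) (nat_lit 1771184489) (nat_lit 230) (nat_lit 5) (nat_lit 238) (nat_lit 5) (nat_lit 231) (nat_lit 5) (nat_lit 598) (nat_lit 519) (nat_lit 443)))) (XT.nd (nat_lit 156) (nat_lit 456) (nat_lit 0) (XT.nd (nat_lit 78) (nat_lit 532) (nat_lit 0) (XT.lf (nat_lit 0) (nat_lit 3337749739) (nat_lit 456) (nat_lit 4626355829) (nat_lit 532) (nat_lit 2524272302) (nat_lit 224) (nat_lit 5) (nat_lit 230) (nat_lit 5) (nat_lit 231) (nat_lit 5) (nat_lit 599) (nat_lit 519) (nat_lit 442)) (XT.lf (nat_lit 0) (nat_lit 128318117) (nat_lit 456) (nat_lit 545055200) (nat_lit 532) (nat_lit 9925257206)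 (nat_lit 217) (nat_lit 5) (nat_lit 223) (nat_lit 5) (nat_lit 224) (nat_lit 5) (nat_lit 600) (nat_lit 519) (nat_lit 441))) (XT.nd (nat_lit 78) (nat_lit 456) (nat_lit 0) (XT.lf (nat_lit 0) (nat_lit 3942577877) (nat_lit 532) (nat_lit 3145106461) (nat_lit 76) (nat_lit 3622242662) (nat_lit 217) (nat_lit 5) (nat_lit 224) (nat_lit 5) (nat_lit 218) (nat_lit 5) (nat_lit 601) (nat_lit 519) (nat_lit 440)) (XT.lf (nat_lit 0) (nat_lit 4336509811) (nat_lit 456) (nat_lit 2942600833) (nat_lit 532) (nat_lit 3544300471) (nat_lit 211) (nat_lit 5) (nat_lit 217) (nat_lit 5) (nat_lit 218) (nat_lit 5) (nat_lit 602) (nat_lit 519) (nat_lit 439))))) (XT.nd (nat_lit 312) (nat_lit 912) (nat_lit 0) (XT.nd (nat_lit 156) (nat_lit 836) (nat_lit 0) (XT.nd (nat_lit 78) (nat_lit 76) (nat_lit 0) (XT.lf (nat_lit 0) (nat_lit 1033136903) (nat_lit 456) (nat_lit 9655931658) (nat_lit 532) (nat_lit 249963038) (nat_lit 205) (nat_lit 5) (nat_lit 211) (nat_lit 5) (nat_lit 212) (nat_lit 5) (nat_lit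 603) (nat_lit 519) (nat_lit 438)) (XT.lf (nat_lit 0) (nat_lit 3103276540) (nat_lit 532) (nat_lit 2348237720) (nat_lit 76) (nat_lit 5604370771) (nat_lit 204) (nat_lit 5) (nat_lit 211) (nat_lit 5) (nat_lit 205) (nat_lit 5) (nat_lit 604) (nat_lit 519) (nat_lit 437))) (XT.nd (nat_lit 78) (nat_lit 456) (nat_lit 0) (XT.lf (nat_lit 0) (nat_lit 5386739793) (nat_lit 380) (nat_lit 1139550750) (nat_lit 456) (nat_lit 4648631355) (nat_lit 199) (nat_lit 5) (nat_lit 204) (nat_lit 5) (nat_lit 205) (nat_lit 5) (nat_lit 605) (nat_lit 519) (nat_lit 436)) (XT.lf (nat_lit 0) (nat_lit 1973822513) (nat_lit 456) (nat_lit 8065057015) (nat_lit 532) (nat_lit 1257038213) (nat_lit 193) (nat_lit 5) (nat_lit 199) (nat_lit 5) (nat_lit 200) (nat_lit 5) (nat_lit 606) (nat_lit 519) (nat_lit 435)))) (XT.nd (nat_lit 156) (nat_lit 456) (nat_lit 0) (XT.nd (nat_lit 78) (nat_lit 380) (nat_lit 0) (XT.lf (nat_lit 0) (nat_lit 2191524301) (nat_lit 532) (nat_lit 1514256557) (nat_lit 76) (nat_lit 7712906726)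 (nat_lit 192) (nat_lit 5) (nat_lit 199) (nat_lit 5) (nat_lit 193) (nat_lit 5) (nat_lit 607) (nat_lit 519) (nat_lit 434)) (XT.lf (nat_lit 0) (nat_lit 5711330041) (nat_lit 456) (nat_lit 5064340030) (nat_lit 76) (nat_lit 767695001) (nat_lit 187) (nat_lit 5) (nat_lit 193) (nat_lit 5) (nat_lit 188) (nat_lit 5) (nat_lit 608) (nat_lit 519) (nat_lit 433))) (XT.nd (nat_lit 78) (nat_lit 76) (nat_lit 0) (XT.lf (nat_lit 0) (nat_lit 2954035018) (nat_lit 380) (nat_lit 6373569810) (nat_lit 456) (nat_lit 2342410317) (nat_lit 182) (nat_lit 5) (nat_lit 187) (nat_lit 5) (nat_lit 188) (nat_lit 5) (nat_lit 609) (nat_lit 519) (nat_lit 432)) (XT.lf (nat_lit 0) (nat_lit 1207467532) (nat_lit 456) (nat_lit 647773898) (nat_lit 76) (nat_lit 9943670791) (nat_lit 181) (nat_lit 5) (nat_lit 187) (nat_lit 5) (nat_lit 182) (nat_lit 5) (nat_lit 610) (nat_lit 519) (nat_lit 431))))))) (XT.nd (nat_lit 1170) (nat_lit 3268) (nat_lit 0) (XT.nd (nat_lit 546) (nat_lit 2128) (nat_lit 0) (XT.nd (nat_lit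 234) (nat_lit 760) (nat_lit 0) (XT.nd (nat_lit 78) (nat_lit 836) (nat_lit 0) (XT.lf (nat_lit 0) (nat_lit 4837482221) (nat_lit 456) (nat_lit 4323285074) (nat_lit 76) (nat_lit 2768500661) (nat_lit 176) (nat_lit 5) (nat_lit 182) (nat_lit 5) (nat_lit 177) (nat_lit 5) (nat_lit 611) (nat_lit 519) (nat_lit 430)) (XT.nd (nat_lit 78) (nat_lit 456) (nat_lit 0) (XT.lf (nat_lit 0) (nat_lit 3969302735) (nat_lit 380) (nat_lit 4586156322) (nat_lit 456) (nat_lit 3506464965) (nat_lit 171) (nat_lit 5) (nat_lit 176) (nat_lit 5) (nat_lit 177) (nat_lit 5) (nat_lit 612) (nat_lit 519) (nat_lit 429)) (XT.lf (nat_lit 0) (nat_lit 153056689) (nat_lit 456) (nat_lit 11947945763) (nat_lit 76) (nat_lit 96122264) (nat_lit 165) (nat_lit 5) (nat_lit 171) (nat_lit 5) (nat_lit 166) (nat_lit 5) (nat_lit 613) (nat_lit 519) (nat_lit 428)))) (XT.nd (nat_lit 156) (nat_lit 380) (nat_lit 0) (XT.nd (nat_lit 78) (nat_lit 380) (nat_lit 0) (XT.lf (nat_lit 0) (nat_lit 3897070720) (nat_lit 456) (nat_lit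 3562520763) (nat_lit 76) (nat_lit 4873809744) (nat_lit 165) (nat_lit 5) (nat_lit 171) (nat_lit 5) (nat_lit 166) (nat_lit 5) (nat_lit 614) (nat_lit 519) (nat_lit 427)) (XT.lf (nat_lit 0) (nat_lit 5015075463) (nat_lit 380) (nat_lit 2707149131) (nat_lit 456) (nat_lit 4750053903) (nat_lit 160) (nat_lit 5) (nat_lit 165) (nat_lit 5) (nat_lit 166) (nat_lit 5) (nat_lit 615) (nat_lit 519) (nat_lit 426))) (XT.nd (nat_lit 78) (nat_lit 76) (nat_lit 0) (XT.lf (nat_lit 0) (nat_lit 1158738290) (nat_lit 304) (nat_lit 10484478114) (nat_lit 380) (nat_lit 970330626) (nat_lit 156) (nat_lit 5) (nat_lit 160) (nat_lit 5) (nat_lit 161) (nat_lit 5) (nat_lit 616) (nat_lit 519) (nat_lit 425)) (XT.lf (nat_lit 0) (nat_lit 2889374971) (nat_lit 380) (nat_lit 2787085515) (nat_lit 76) (nat_lit 7079961720) (nat_lit 155) (nat_lit 5) (nat_lit 160) (nat_lit 5) (nat_lit 156) (nat_lit 5) (nat_lit 617) (nat_lit 519) (nat_lit 424))))) (XT.nd (nat_lit 312) (nat_lit 988) (nat_lit 0) (XT.nd (nat_lit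 156) (nat_lit 456) (nat_lit 0) (XT.nd (nat_lit 78) (nat_lit 304) (nat_lit 0) (XT.lf (nat_lit 0) (nat_lit 6086670972) (nat_lit 380) (nat_lit 740576812) (nat_lit 456) (nat_lit 6074499895) (nat_lit 150) (nat_lit 5) (nat_lit 155) (nat_lit 5) (nat_lit 156) (nat_lit 5) (nat_lit 618) (nat_lit 519) (nat_lit 423)) (XT.lf (nat_lit 0) (nat_lit 2084548649) (nat_lit 304) (nat_lit 8794145372) (nat_lit 380) (nat_lit 2170589701) (nat_lit 146) (nat_lit 5) (nat_lit 150) (nat_lit 5) (nat_lit 151) (nat_lit 5) (nat_lit 619) (nat_lit 519) (nat_lit 422))) (XT.nd (nat_lit 78) (nat_lit 380) (nat_lit 0) (XT.lf (nat_lit 0) (nat_lit 1813225109) (nat_lit 380) (nat_lit 2002209544) (nat_lit 76) (nat_lit 9383589320) (nat_lit 145) (nat_lit 5) (nat_lit 150) (nat_lit 5) (nat_lit 146) (nat_lit 5) (nat_lit 620) (nat_lit 519) (nat_lit 421)) (XT.lf (nat_lit 0) (nat_lit 5877935775) (nat_lit 456) (nat_lit 6180322014) (nat_lit 76) (nat_lit 1292608974) (nat_lit 140) (nat_lit 5) (nat_lit 146) (nat_lit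 5) (nat_lit 141) (nat_lit 5) (nat_lit 621) (nat_lit 519) (nat_lit 420)))) (XT.nd (nat_lit 156) (nat_lit 608) (nat_lit 0) (XT.nd (nat_lit 78) (nat_lit 76) (nat_lit 0) (XT.lf (nat_lit 0) (nat_lit 3022440317) (nat_lit 304) (nat_lit 7035186687) (nat_lit 380) (nat_lit 3447446028) (nat_lit 136) (nat_lit 5) (nat_lit 140) (nat_lit 5) (nat_lit 141) (nat_lit 5) (nat_lit 622) (nat_lit 519) (nat_lit 419)) (XT.lf (nat_lit 0) (nat_lit 666992148) (nat_lit 380) (nat_lit 1213373546) (nat_lit 76) (nat_lit 11781570946) (nat_lit 135) (nat_lit 5) (nat_lit 140) (nat_lit 5) (nat_lit 136) (nat_lit 5) (nat_lit 623) (nat_lit 519) (nat_lit 418))) (XT.nd (nat_lit 78) (nat_lit 304) (nat_lit 0) (XT.lf (nat_lit 0) (nat_lit 4869563042) (nat_lit 380) (nat_lit 5555624853) (nat_lit 76) (nat_lit 3395254100) (nat_lit 131) (nat_lit 5) (nat_lit 136) (nat_lit 5) (nat_lit 132) (nat_lit 5) (nat_lit 624) (nat_lit 519) (nat_lit 417)) (XT.lf (nat_lit 0) (nat_lit 3966932512) (nat_lit 304) (nat_lit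 5211593974) (nat_lit 380) (nat_lit 4803144474) (nat_lit 127) (nat_lit 5) (nat_lit 131) (nat_lit 5) (nat_lit 132) (nat_lit 5) (nat_lit 625) (nat_lit 519) (nat_lit 416)))))) (XT.nd (nat_lit 624) (nat_lit 1596) (nat_lit 0) (XT.nd (nat_lit 312) (nat_lit 684) (nat_lit 0) (XT.nd (nat_lit 156) (nat_lit 608) (nat_lit 0) (XT.nd (nat_lit 78) (nat_lit 380) (nat_lit 0) (XT.lf (nat_lit 0) (nat_lit 13587938538) (nat_lit 380) (nat_lit 430834741) (nat_lit 76) (nat_lit 127066159) (nat_lit 127) (nat_lit 5) (nat_lit 132) (nat_lit 5) (nat_lit 128) (nat_lit 5) (nat_lit 626) (nat_lit 519) (nat_lit 415)) (XT.lf (nat_lit 0) (nat_lit 3795280320) (nat_lit 380) (nat_lit 4942365008) (nat_lit 76) (nat_lit 5573706294) (nat_lit 122) (nat_lit 5) (nat_lit 127) (nat_lit 5) (nat_lit 123) (nat_lit 5) (nat_lit 627) (nat_lit 519) (nat_lit 414))) (XT.nd (nat_lit 78) (nat_lit 304) (nat_lit 0) (XT.lf (nat_lit 0) (nat_lit 4912195423) (nat_lit 304) (nat_lit 3327245301) (nat_lit 380) (nat_lit 6240432155)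 (nat_lit 118) (nat_lit 5) (nat_lit 122) (nat_lit 5) (nat_lit 123) (nat_lit 5) (nat_lit 628) (nat_lit 519) (nat_lit 413)) (XT.lf (nat_lit 0) (nat_lit 330477745) (nat_lit 304) (nat_lit 12468447323) (nat_lit 380) (nat_lit 1852310975) (nat_lit 114) (nat_lit 5) (nat_lit 118) (nat_lit 5) (nat_lit 119) (nat_lit 5) (nat_lit 629) (nat_lit 519) (nat_lit 412)))) (XT.nd (nat_lit 156) (nat_lit 380) (nat_lit 0) (XT.nd (nat_lit 78) (nat_lit 228) (nat_lit 0) (XT.lf (nat_lit 0) (nat_lit 2652561191) (nat_lit 380) (nat_lit 4347149758) (nat_lit 76) (nat_lit 7824707179) (nat_lit 113) (nat_lit 5) (nat_lit 118) (nat_lit 5) (nat_lit 114) (nat_lit 5) (nat_lit 630) (nat_lit 519) (nat_lit 411)) (XT.lf (nat_lit 0) (nat_lit 5851980526) (nat_lit 228) (nat_lit 1385955274) (nat_lit 304) (nat_lit 7762579309) (nat_lit 110) (nat_lit 5) (nat_lit 113) (nat_lit 5) (nat_lit 114) (nat_lit 5) (nat_lit 631) (nat_lit 519) (nat_lit 410))) (XT.nd (nat_lit 78) (nat_lit 76) (nat_lit 0) (XT.lf (nat_lit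 0) (nat_lit 1081753323) (nat_lit 304) (nat_lit 10875119153) (nat_lit 380) (nat_lit 3222424735) (nat_lit 106) (nat_lit 5) (nat_lit 110) (nat_lit 5) (nat_lit 111) (nat_lit 5) (nat_lit 632) (nat_lit 519) (nat_lit 409)) (XT.lf (nat_lit 0) (nat_lit 1438371379) (nat_lit 380) (nat_lit 3777079323) (nat_lit 76) (nat_lit 10145055379) (nat_lit 105) (nat_lit 5) (nat_lit 110) (nat_lit 5) (nat_lit 106) (nat_lit 5) (nat_lit 633) (nat_lit 519) (nat_lit 408))))) (XT.nd (nat_lit 312) (nat_lit 760) (nat_lit 0) (XT.nd (nat_lit 156) (nat_lit 304) (nat_lit 0) (XT.nd (nat_lit 78) (nat_lit 304) (nat_lit 0) (XT.lf (nat_lit 0) (nat_lit 6175022864) (nat_lit 304) (nat_lit 8768881627) (nat_lit 76) (nat_lit 600493135) (nat_lit 102) (nat_lit 5) (nat_lit 106) (nat_lit 5) (nat_lit 103) (nat_lit 5) (nat_lit 634) (nat_lit 519) (nat_lit 407)) (XT.lf (nat_lit 0) (nat_lit 1810019557) (nat_lit 304) (nat_lit 9246063392) (nat_lit 380) (nat_lit 4674890795) (nat_lit 98) (nat_lit 5) (nat_lit 102)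 (nat_lit 5) (nat_lit 103) (nat_lit 5) (nat_lit 635) (nat_lit 519) (nat_lit 406))) (XT.nd (nat_lit 78) (nat_lit 228) (nat_lit 0) (XT.lf (nat_lit 0) (nat_lit 149142103) (nat_lit 380) (nat_lit 3239826422) (nat_lit 76) (nat_lit 12531555410) (nat_lit 97) (nat_lit 5) (nat_lit 102) (nat_lit 5) (nat_lit 98) (nat_lit 5) (nat_lit 636) (nat_lit 519) (nat_lit 405)) (XT.lf (nat_lit 0) (nat_lit 5052597186) (nat_lit 304) (nat_lit 8442326921) (nat_lit 76) (nat_lit 2617412476) (nat_lit 94) (nat_lit 5) (nat_lit 98) (nat_lit 5) (nat_lit 95) (nat_lit 5) (nat_lit 637) (nat_lit 519) (nat_lit 404)))) (XT.nd (nat_lit 156) (nat_lit 532) (nat_lit 0) (XT.nd (nat_lit 78) (nat_lit 0) (nat_lit 0) (XT.lf (nat_lit 0) (nat_lit 2507407611) (nat_lit 228) (nat_lit 7585752974) (nat_lit 304) (nat_lit 6214044345) (nat_lit 91) (nat_lit 5) (nat_lit 94) (nat_lit 5) (nat_lit 95) (nat_lit 5) (nat_lit 638) (nat_lit 519) (nat_lit 403)) (XT.lf (nat_lit 0) (nat_lit 13753521668) (nat_lit 228) (nat_lit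 1516279430) (nat_lit 304) (nat_lit 1235464457) (nat_lit 91) (nat_lit 5) (nat_lit 94) (nat_lit 5) (nat_lit 95) (nat_lit 5) (nat_lit 639) (nat_lit 519) (nat_lit 402))) (XT.nd (nat_lit 78) (nat_lit 228) (nat_lit 0) (XT.lf (nat_lit 0) (nat_lit 3857596342) (nat_lit 304) (nat_lit 8168795632) (nat_lit 76) (nat_lit 4679090516) (nat_lit 87) (nat_lit 5) (nat_lit 91) (nat_lit 5) (nat_lit 88) (nat_lit 5) (nat_lit 640) (nat_lit 519) (nat_lit 401)) (XT.lf (nat_lit 0) (nat_lit 3165335543) (nat_lit 228) (nat_lit 5898807552) (nat_lit 304) (nat_lit 7844834203) (nat_lit 84) (nat_lit 5) (nat_lit 87) (nat_lit 5) (nat_lit 88) (nat_lit 5) (nat_lit 641) (nat_lit 519) (nat_lit 400))))))))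
noncomputable def xc67 : XT := (XT.nd (nat_lit 73788) (nat_lit 0) (nat_lit 21280) (XT.nd (nat_lit 72540) (nat_lit 0) (nat_lit 45524) (XT.nd (nat_lit 71916) (nat_lit 0) (nat_lit 52896) (XT.nd (nat_lit 234) (nat_lit 0) (nat_lit 0) (XT.nd (nat_lit 78) (nat_lit 532) (nat_lit 0) (XT.lf (nat_lit 0) (nat_lit 14411327434) (nat_lit 304) (nat_lit 2317969956) (nat_lit 76) (nat_lit 386514689) (nat_lit 84) (nat_lit 5) (nat_lit 88) (nat_lit 5) (nat_lit 85) (nat_lit 5) (nat_lit 642) (nat_lit 519) (nat_lit 399)) (XT.nd (nat_lit 78) (nat_lit 228) (nat_lit 0) (XT.lf (nat_lit 0) (nat_lit 2585352553) (nat_lit 304) (nat_lit 7958016987) (nat_lit 76) (nat_lit 6781485048) (nat_lit 80) (nat_lit 5) (nat_lit 84) (nat_lit 5) (nat_lit 81) (nat_lit 5) (nat_lit 643) (nat_lit 519) (nat_lit 398)) (XT.lf (nat_lit 0) (nat_lit 3774409109) (nat_lit 228) (nat_lit 4190053727) (nat_lit 304) (nat_lit 9572863988) (nat_lit 77) (nat_lit 5) (nat_lit 80) (nat_lit 5) (nat_lit 81) (nat_lit 5) (nat_lit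 644) (nat_lit 519) (nat_lit 397)))) (XT.nd (nat_lit 71526) (nat_lit 0) (nat_lit 54264) (XT.nd (nat_lit 71448) (nat_lit 0) (nat_lit 54416) (XT.lf (nat_lit 0) (nat_lit 13499342377) (nat_lit 304) (nat_lit 1954991304) (nat_lit 76) (nat_lit 2298751277) (nat_lit 77) (nat_lit 5) (nat_lit 81) (nat_lit 5) (nat_lit 78) (nat_lit 5) (nat_lit 645) (nat_lit 519) (nat_lit 396)) (XT.lf (nat_lit 0) (nat_lit 1073741823) (nat_lit 0) (nat_lit 0) (nat_lit 0) (nat_lit 0) (nat_lit 793) (nat_lit 0) (nat_lit 1) (nat_lit 0) (nat_lit 1) (nat_lit 0) (nat_lit 520) (nat_lit 520) (nat_lit 520))) (XT.nd (nat_lit 78) (nat_lit 76) (nat_lit 0) (XT.lf (nat_lit 0) (nat_lit 3190710206) (nat_lit 76) (nat_lit 3210040085) (nat_lit 0) (nat_lit 42120210) (nat_lit 792) (nat_lit 5) (nat_lit 793) (nat_lit 0) (nat_lit 792) (nat_lit 4) (nat_lit 521) (nat_lit 520) (nat_lit 519)) (XT.lf (nat_lit 0) (nat_lit 43799929) (nat_lit 76) (nat_lit 6318304530) (nat_lit 76) (nat_lit 82861597) (nat_lit 791) (nat_lit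 4) (nat_lit 792) (nat_lit 5) (nat_lit 792) (nat_lit 4) (nat_lit 522) (nat_lit 520) (nat_lit 518))))) (XT.nd (nat_lit 312) (nat_lit 836) (nat_lit 0) (XT.nd (nat_lit 156) (nat_lit 304) (nat_lit 0) (XT.nd (nat_lit 78) (nat_lit 152) (nat_lit 0) (XT.lf (nat_lit 0) (nat_lit 3047586576) (nat_lit 152) (nat_lit 3105644455) (nat_lit 76) (nat_lit 294686806) (nat_lit 790) (nat_lit 5) (nat_lit 792) (nat_lit 5) (nat_lit 791) (nat_lit 4) (nat_lit 523) (nat_lit 520) (nat_lit 517)) (XT.lf (nat_lit 0) (nat_lit 214316324) (nat_lit 152) (nat_lit 5945620477) (nat_lit 228) (nat_lit 292577562) (nat_lit 788) (nat_lit 5) (nat_lit 790) (nat_lit 5) (nat_lit 791) (nat_lit 4) (nat_lit 524) (nat_lit 520) (nat_lit 516))) (XT.nd (nat_lit 78) (nat_lit 228) (nat_lit 0) (XT.lf (nat_lit 0) (nat_lit 2780356793) (nat_lit 228) (nat_lit 2877347635) (nat_lit 76) (nat_lit 800314046) (nat_lit 787) (nat_lit 5) (nat_lit 790) (nat_lit 5) (nat_lit 788) (nat_lit 5) (nat_lit 525) (nat_lit 520) (nat_lit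 515)) (XT.lf (nat_lit 0) (nat_lit 511851858) (nat_lit 228) (nat_lit 5323663947) (nat_lit 304) (nat_lit 629588954) (nat_lit 784) (nat_lit 5) (nat_lit 787) (nat_lit 5) (nat_lit 788) (nat_lit 5) (nat_lit 526) (nat_lit 520) (nat_lit 514)))) (XT.nd (nat_lit 156) (nat_lit 456) (nat_lit 0) (XT.nd (nat_lit 78) (nat_lit 304) (nat_lit 0) (XT.lf (nat_lit 0) (nat_lit 2388463647) (nat_lit 304) (nat_lit 2524729862) (nat_lit 76) (nat_lit 1559990832) (nat_lit 783) (nat_lit 5) (nat_lit 787) (nat_lit 5) (nat_lit 784) (nat_lit 5) (nat_lit 527) (nat_lit 520) (nat_lit 513)) (XT.lf (nat_lit 0) (nat_lit 936957306) (nat_lit 304) (nat_lit 4451208870) (nat_lit 380) (nat_lit 1094585911) (nat_lit 779) (nat_lit 5) (nat_lit 783) (nat_lit 5) (nat_lit 784) (nat_lit 5) (nat_lit 528) (nat_lit 520) (nat_lit 512))) (XT.nd (nat_lit 78) (nat_lit 380) (nat_lit 0) (XT.lf (nat_lit 0) (nat_lit 1871104081) (nat_lit 380) (nat_lit 2047126735) (nat_lit 76) (nat_lit 2575202542) (nat_lit 778) (nat_lit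 5) (nat_lit 783) (nat_lit 5) (nat_lit 779) (nat_lit 5) (nat_lit 529) (nat_lit 520) (nat_lit 511)) (XT.lf (nat_lit 0) (nat_lit 1490432312) (nat_lit 380) (nat_lit 3326535938) (nat_lit 456) (nat_lit 1688508907) (nat_lit 773) (nat_lit 5) (nat_lit 778) (nat_lit 5) (nat_lit 779) (nat_lit 5) (nat_lit 530) (nat_lit 520) (nat_lit 510)))))) (XT.nd (nat_lit 624) (nat_lit 4788) (nat_lit 0) (XT.nd (nat_lit 312) (nat_lit 1444) (nat_lit 0) (XT.nd (nat_lit 156) (nat_lit 608) (nat_lit 0) (XT.nd (nat_lit 78) (nat_lit 456) (nat_lit 0) (XT.lf (nat_lit 0) (nat_lit 1227227743) (nat_lit 456) (nat_lit 1443628255) (nat_lit 76) (nat_lit 3847933462) (nat_lit 772) (nat_lit 5) (nat_lit 778) (nat_lit 5) (nat_lit 773) (nat_lit 5) (nat_lit 531) (nat_lit 520) (nat_lit 509)) (XT.lf (nat_lit 0) (nat_lit 2173326566) (nat_lit 456) (nat_lit 1947429783) (nat_lit 532) (nat_lit 2412550428) (nat_lit 766) (nat_lit 5) (nat_lit 772) (nat_lit 5) (nat_lit 773) (nat_lit 5) (nat_lit 532) (nat_lit 520)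 (nat_lit 508))) (XT.nd (nat_lit 78) (nat_lit 532) (nat_lit 0) (XT.lf (nat_lit 0) (nat_lit 455535132) (nat_lit 532) (nat_lit 713077468) (nat_lit 76) (nat_lit 5380670027) (nat_lit 765) (nat_lit 5) (nat_lit 772) (nat_lit 5) (nat_lit 766) (nat_lit 5) (nat_lit 533) (nat_lit 520) (nat_lit 507)) (XT.lf (nat_lit 0) (nat_lit 2986941386) (nat_lit 532) (nat_lit 311175349) (nat_lit 608) (nat_lit 3268157055) (nat_lit 758) (nat_lit 5) (nat_lit 765) (nat_lit 5) (nat_lit 766) (nat_lit 5) (nat_lit 534) (nat_lit 520) (nat_lit 506)))) (XT.nd (nat_lit 156) (nat_lit 760) (nat_lit 0) (XT.nd (nat_lit 78) (nat_lit 76) (nat_lit 0) (XT.lf (nat_lit 0) (nat_lit 140989784) (nat_lit 608) (nat_lit 5997230011) (nat_lit 684) (nat_lit 446575021) (nat_lit 750) (nat_lit 5) (nat_lit 758) (nat_lit 5) (nat_lit 759) (nat_lit 5) (nat_lit 535) (nat_lit 520) (nat_lit 505)) (XT.lf (nat_lit 0) (nat_lit 2357678925) (nat_lit 684) (nat_lit 2681879188) (nat_lit 76) (nat_lit 1564653138) (nat_lit 749)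 (nat_lit 5) (nat_lit 758) (nat_lit 5) (nat_lit 750) (nat_lit 5) (nat_lit 536) (nat_lit 520) (nat_lit 504))) (XT.nd (nat_lit 78) (nat_lit 76) (nat_lit 0) (XT.lf (nat_lit 0) (nat_lit 1123032797) (nat_lit 684) (nat_lit 4029528059) (nat_lit 760) (nat_lit 1472588907) (nat_lit 740) (nat_lit 5) (nat_lit 749) (nat_lit 5) (nat_lit 750) (nat_lit 5) (nat_lit 537) (nat_lit 520) (nat_lit 503)) (XT.lf (nat_lit 0) (nat_lit 1290966549) (nat_lit 760) (nat_lit 1659295940) (nat_lit 76) (nat_lit 3697032912) (nat_lit 739) (nat_lit 5) (nat_lit 749) (nat_lit 5) (nat_lit 740) (nat_lit 5) (nat_lit 538) (nat_lit 520) (nat_lit 502))))) (XT.nd (nat_lit 312) (nat_lit 2204) (nat_lit 0) (XT.nd (nat_lit 156) (nat_lit 1748) (nat_lit 0) (XT.nd (nat_lit 78) (nat_lit 76) (nat_lit 0) (XT.lf (nat_lit 0) (nat_lit 2236215688) (nat_lit 760) (nat_lit 1803506966) (nat_lit 836) (nat_lit 2630976722) (nat_lit 729) (nat_lit 5) (nat_lit 739) (nat_lit 5) (nat_lit 740) (nat_lit 5) (nat_lit 539) (nat_lit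 520) (nat_lit 501)) (XT.lf (nat_lit 0) (nat_lit 93812488) (nat_lit 836) (nat_lit 507571332) (nat_lit 76) (nat_lit 6094233555) (nat_lit 728) (nat_lit 5) (nat_lit 739) (nat_lit 5) (nat_lit 729) (nat_lit 5) (nat_lit 540) (nat_lit 520) (nat_lit 500))) (XT.nd (nat_lit 78) (nat_lit 912) (nat_lit 0) (XT.lf (nat_lit 0) (nat_lit 2801898047) (nat_lit 912) (nat_lit 3243257642) (nat_lit 76) (nat_lit 676252517) (nat_lit 717) (nat_lit 5) (nat_lit 729) (nat_lit 5) (nat_lit 718) (nat_lit 5) (nat_lit 541) (nat_lit 520) (nat_lit 499)) (XT.lf (nat_lit 0) (nat_lit 764314006) (nat_lit 912) (nat_lit 4750219902) (nat_lit 988) (nat_lit 1234175992) (nat_lit 705) (nat_lit 5) (nat_lit 717) (nat_lit 5) (nat_lit 718) (nat_lit 5) (nat_lit 542) (nat_lit 520) (nat_lit 498)))) (XT.nd (nat_lit 156) (nat_lit 1140) (nat_lit 0) (XT.nd (nat_lit 78) (nat_lit 988) (nat_lit 0) (XT.lf (nat_lit 0) (nat_lit 1445572369) (nat_lit 988) (nat_lit 1935088673) (nat_lit 76) (nat_lit 3396495000) (nat_lit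 704) (nat_lit 5) (nat_lit 717) (nat_lit 5) (nat_lit 705) (nat_lit 5) (nat_lit 543) (nat_lit 520) (nat_lit 497)) (XT.lf (nat_lit 0) (nat_lit 2171340320) (nat_lit 988) (nat_lit 1944904154) (nat_lit 1064) (nat_lit 2690689041) (nat_lit 691) (nat_lit 5) (nat_lit 704) (nat_lit 5) (nat_lit 705) (nat_lit 5) (nat_lit 544) (nat_lit 520) (nat_lit 496))) (XT.nd (nat_lit 78) (nat_lit 1140) (nat_lit 0) (XT.lf (nat_lit 0) (nat_lit 6342250573) (nat_lit 988) (nat_lit 451702738) (nat_lit 1064) (nat_lit 44283366) (nat_lit 691) (nat_lit 5) (nat_lit 704) (nat_lit 5) (nat_lit 705) (nat_lit 5) (nat_lit 545) (nat_lit 520) (nat_lit 495)) (XT.lf (nat_lit 0) (nat_lit 2593082993) (nat_lit 1140) (nat_lit 3163751924) (nat_lit 76) (nat_lit 1113531637) (nat_lit 676) (nat_lit 5) (nat_lit 691) (nat_lit 5) (nat_lit 677) (nat_lit 5) (nat_lit 546) (nat_lit 520) (nat_lit 494))))))) (XT.nd (nat_lit 1170) (nat_lit 9044) (nat_lit 0) (XT.nd (nat_lit 546) (nat_lit 10032) (nat_lit 0) (XT.nd (nat_lit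 234) (nat_lit 2736) (nat_lit 0) (XT.nd (nat_lit 78) (nat_lit 1292) (nat_lit 0) (XT.lf (nat_lit 0) (nat_lit 1062790465) (nat_lit 1140) (nat_lit 4175428291) (nat_lit 1216) (nat_lit 1665804571) (nat_lit 661) (nat_lit 5) (nat_lit 676) (nat_lit 5) (nat_lit 677) (nat_lit 5) (nat_lit 547) (nat_lit 520) (nat_lit 493)) (XT.nd (nat_lit 78) (nat_lit 1216) (nat_lit 0) (XT.lf (nat_lit 0) (nat_lit 949022519) (nat_lit 1216) (nat_lit 1573026311) (nat_lit 76) (nat_lit 4416893059) (nat_lit 660) (nat_lit 5) (nat_lit 676) (nat_lit 5) (nat_lit 661) (nat_lit 5) (nat_lit 548) (nat_lit 520) (nat_lit 492)) (XT.lf (nat_lit 0) (nat_lit 2761388245) (nat_lit 1216) (nat_lit 794358448) (nat_lit 1292) (nat_lit 3419356107) (nat_lit 644) (nat_lit 5) (nat_lit 660) (nat_lit 5) (nat_lit 661) (nat_lit 5) (nat_lit 549) (nat_lit 520) (nat_lit 491)))) (XT.nd (nat_lit 156) (nat_lit 1368) (nat_lit 0) (XT.nd (nat_lit 78) (nat_lit 76) (nat_lit 0) (XT.lf (nat_lit 0) (nat_lit 142322396) (nat_lit 1292)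 (nat_lit 6034958463) (nat_lit 1368) (nat_lit 835454824) (nat_lit 627) (nat_lit 5) (nat_lit 644) (nat_lit 5) (nat_lit 645) (nat_lit 5) (nat_lit 550) (nat_lit 520) (nat_lit 490)) (XT.lf (nat_lit 0) (nat_lit 1755508812) (nat_lit 1368) (nat_lit 2470753276) (nat_lit 76) (nat_lit 2825047699) (nat_lit 626) (nat_lit 5) (nat_lit 644) (nat_lit 5) (nat_lit 627) (nat_lit 5) (nat_lit 551) (nat_lit 520) (nat_lit 489))) (XT.nd (nat_lit 78) (nat_lit 0) (nat_lit 0) (XT.lf (nat_lit 0) (nat_lit 1992737369) (nat_lit 1368) (nat_lit 2353658525) (nat_lit 1444) (nat_lit 2744965346) (nat_lit 608) (nat_lit 5) (nat_lit 626) (nat_lit 5) (nat_lit 627) (nat_lit 5) (nat_lit 552) (nat_lit 520) (nat_lit 488)) (XT.lf (nat_lit 0) (nat_lit 6534519185) (nat_lit 1368) (nat_lit 418267256) (nat_lit 1444) (nat_lit 180155663) (nat_lit 608) (nat_lit 5) (nat_lit 626) (nat_lit 5) (nat_lit 627) (nat_lit 5) (nat_lit 553) (nat_lit 520) (nat_lit 487))))) (XT.nd (nat_lit 312) (nat_lit 5320) (nat_lit 0)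 (XT.nd (nat_lit 156) (nat_lit 1672) (nat_lit 0) (XT.nd (nat_lit 78) (nat_lit 1520) (nat_lit 0) (XT.lf (nat_lit 0) (nat_lit 2388094791) (nat_lit 1520) (nat_lit 3202073933) (nat_lit 76) (nat_lit 1585189706) (nat_lit 588) (nat_lit 5) (nat_lit 608) (nat_lit 5) (nat_lit 589) (nat_lit 5) (nat_lit 554) (nat_lit 520) (nat_lit 486)) (XT.lf (nat_lit 0) (nat_lit 1395221543) (nat_lit 1520) (nat_lit 3574533387) (nat_lit 1596) (nat_lit 2249557169) (nat_lit 568) (nat_lit 5) (nat_lit 588) (nat_lit 5) (nat_lit 589) (nat_lit 5) (nat_lit 555) (nat_lit 520) (nat_lit 485))) (XT.nd (nat_lit 78) (nat_lit 1596) (nat_lit 0) (XT.lf (nat_lit 0) (nat_lit 305051969) (nat_lit 1596) (nat_lit 1183655896) (nat_lit 76) (nat_lit 5775983000) (nat_lit 567) (nat_lit 5) (nat_lit 588) (nat_lit 5) (nat_lit 568) (nat_lit 5) (nat_lit 556) (nat_lit 520) (nat_lit 484)) (XT.lf (nat_lit 0) (nat_lit 2858019208) (nat_lit 1672) (nat_lit 3779159507) (nat_lit 76) (nat_lit 673955207) (nat_lit 546) (nat_lit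 5) (nat_lit 568) (nat_lit 5) (nat_lit 547) (nat_lit 5) (nat_lit 557) (nat_lit 520) (nat_lit 483)))) (XT.nd (nat_lit 156) (nat_lit 3572) (nat_lit 0) (XT.nd (nat_lit 78) (nat_lit 76) (nat_lit 0) (XT.lf (nat_lit 0) (nat_lit 956951325) (nat_lit 1672) (nat_lit 4479852760) (nat_lit 1748) (nat_lit 1922208412) (nat_lit 524) (nat_lit 5) (nat_lit 546) (nat_lit 5) (nat_lit 547) (nat_lit 5) (nat_lit 558) (nat_lit 520) (nat_lit 482)) (XT.lf (nat_lit 0) (nat_lit 627238451) (nat_lit 1748) (nat_lit 1618435358) (nat_lit 76) (nat_lit 5162559583) (nat_lit 523) (nat_lit 5) (nat_lit 546) (nat_lit 5) (nat_lit 524) (nat_lit 5) (nat_lit 559) (nat_lit 520) (nat_lit 481))) (XT.nd (nat_lit 78) (nat_lit 1824) (nat_lit 0) (XT.lf (nat_lit 0) (nat_lit 3175496481) (nat_lit 1824) (nat_lit 4213242329) (nat_lit 76) (nat_lit 69976283) (nat_lit 500) (nat_lit 5) (nat_lit 524) (nat_lit 5) (nat_lit 501) (nat_lit 5) (nat_lit 560) (nat_lit 520) (nat_lit 480)) (XT.lf (nat_lit 0) (nat_lit 666977034)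 (nat_lit 1824) (nat_lit 5090550072) (nat_lit 1900) (nat_lit 1753024859) (nat_lit 476) (nat_lit 5) (nat_lit 500) (nat_lit 5) (nat_lit 501) (nat_lit 5) (nat_lit 561) (nat_lit 520) (nat_lit 479)))))) (XT.nd (nat_lit 624) (nat_lit 4104) (nat_lit 0) (XT.nd (nat_lit 312) (nat_lit 2736) (nat_lit 0) (XT.nd (nat_lit 156) (nat_lit 988) (nat_lit 0) (XT.nd (nat_lit 78) (nat_lit 1140) (nat_lit 0) (XT.lf (nat_lit 0) (nat_lit 798373268) (nat_lit 1900) (nat_lit 1912271467) (nat_lit 76) (nat_lit 4853045830) (nat_lit 475) (nat_lit 5) (nat_lit 500) (nat_lit 5) (nat_lit 476) (nat_lit 5) (nat_lit 562) (nat_lit 520) (nat_lit 478)) (XT.lf (nat_lit 0) (nat_lit 3101865388) (nat_lit 1140) (nat_lit 249540487) (nat_lit 1216) (nat_lit 4266774308) (nat_lit 460) (nat_lit 5) (nat_lit 475) (nat_lit 5) (nat_lit 476) (nat_lit 5) (nat_lit 563) (nat_lit 520) (nat_lit 477))) (XT.nd (nat_lit 78) (nat_lit 76) (nat_lit 0) (XT.lf (nat_lit 0) (nat_lit 515210615) (nat_lit 912) (nat_lit 5425767692)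 (nat_lit 988) (nat_lit 1733073258) (nat_lit 448) (nat_lit 5) (nat_lit 460) (nat_lit 5) (nat_lit 461) (nat_lit 5) (nat_lit 564) (nat_lit 520) (nat_lit 476)) (XT.lf (nat_lit 0) (nat_lit 827134615) (nat_lit 988) (nat_lit 2075017145) (nat_lit 76) (nat_lit 4829039610) (nat_lit 447) (nat_lit 5) (nat_lit 460) (nat_lit 5) (nat_lit 448) (nat_lit 5) (nat_lit 565) (nat_lit 520) (nat_lit 475)))) (XT.nd (nat_lit 156) (nat_lit 988) (nat_lit 0) (XT.nd (nat_lit 78) (nat_lit 836) (nat_lit 0) (XT.lf (nat_lit 0) (nat_lit 3094702462) (nat_lit 912) (nat_lit 296476060) (nat_lit 988) (nat_lit 4398551049) (nat_lit 435) (nat_lit 5) (nat_lit 447) (nat_lit 5) (nat_lit 448) (nat_lit 5) (nat_lit 566) (nat_lit 520) (nat_lit 474)) (XT.lf (nat_lit 0) (nat_lit 492352498) (nat_lit 836) (nat_lit 5502991348) (nat_lit 912) (nat_lit 1854319315) (nat_lit 424) (nat_lit 5) (nat_lit 435) (nat_lit 5) (nat_lit 436) (nat_lit 5) (nat_lit 567) (nat_lit 520) (nat_lit 473))) (XT.nd (nat_lit 78) (nat_lit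 912) (nat_lit 0) (XT.lf (nat_lit 0) (nat_lit 721332118) (nat_lit 912) (nat_lit 2115769670) (nat_lit 76) (nat_lit 5073793806) (nat_lit 423) (nat_lit 5) (nat_lit 435) (nat_lit 5) (nat_lit 424) (nat_lit 5) (nat_lit 568) (nat_lit 520) (nat_lit 472)) (XT.lf (nat_lit 0) (nat_lit 3215648055) (nat_lit 912) (nat_lit 86344619) (nat_lit 988) (nat_lit 4671549706) (nat_lit 411) (nat_lit 5) (nat_lit 423) (nat_lit 5) (nat_lit 424) (nat_lit 5) (nat_lit 569) (nat_lit 520) (nat_lit 471))))) (XT.nd (nat_lit 312) (nat_lit 1596) (nat_lit 0) (XT.nd (nat_lit 156) (nat_lit 1596) (nat_lit 0) (XT.nd (nat_lit 78) (nat_lit 76) (nat_lit 0) (XT.lf (nat_lit 0) (nat_lit 589822947) (nat_lit 836) (nat_lit 5338174580) (nat_lit 912) (nat_lit 2109571282) (nat_lit 400) (nat_lit 5) (nat_lit 411) (nat_lit 5) (nat_lit 412) (nat_lit 5) (nat_lit 570) (nat_lit 520) (nat_lit 470)) (XT.lf (nat_lit 0) (nat_lit 487961351) (nat_lit 912) (nat_lit 2042937656) (nat_lit 76) (nat_lit 5572094234) (nat_lit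 399) (nat_lit 5) (nat_lit 411) (nat_lit 5) (nat_lit 400) (nat_lit 5) (nat_lit 571) (nat_lit 520) (nat_lit 469))) (XT.nd (nat_lit 78) (nat_lit 760) (nat_lit 0) (XT.lf (nat_lit 0) (nat_lit 3093070229) (nat_lit 912) (nat_lit 4715605816) (nat_lit 76) (nat_lit 361095027) (nat_lit 388) (nat_lit 5) (nat_lit 400) (nat_lit 5) (nat_lit 389) (nat_lit 5) (nat_lit 572) (nat_lit 520) (nat_lit 468)) (XT.lf (nat_lit 0) (nat_lit 799697440) (nat_lit 760) (nat_lit 4945854044) (nat_lit 836) (nat_lit 2492428797) (nat_lit 378) (nat_lit 5) (nat_lit 388) (nat_lit 5) (nat_lit 389) (nat_lit 5) (nat_lit 573) (nat_lit 520) (nat_lit 467)))) (XT.nd (nat_lit 156) (nat_lit 760) (nat_lit 0) (XT.nd (nat_lit 78) (nat_lit 760) (nat_lit 0) (XT.lf (nat_lit 0) (nat_lit 133253264) (nat_lit 836) (nat_lit 1864304195) (nat_lit 76) (nat_lit 6310146618) (nat_lit 377) (nat_lit 5) (nat_lit 388) (nat_lit 5) (nat_lit 378) (nat_lit 5) (nat_lit 574) (nat_lit 520) (nat_lit 466)) (XT.lf (nat_lit 0) (nat_lit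 2770181773) (nat_lit 836) (nat_lit 4575544563) (nat_lit 76) (nat_lit 1032925541) (nat_lit 367) (nat_lit 5) (nat_lit 378) (nat_lit 5) (nat_lit 368) (nat_lit 5) (nat_lit 575) (nat_lit 520) (nat_lit 465))) (XT.nd (nat_lit 78) (nat_lit 0) (nat_lit 0) (XT.lf (nat_lit 0) (nat_lit 1114645623) (nat_lit 760) (nat_lit 4339256439) (nat_lit 836) (nat_lit 2997236639) (nat_lit 357) (nat_lit 5) (nat_lit 367) (nat_lit 5) (nat_lit 368) (nat_lit 5) (nat_lit 576) (nat_lit 520) (nat_lit 464)) (XT.lf (nat_lit 0) (nat_lit 6935927371) (nat_lit 760) (nat_lit 1247542093) (nat_lit 836) (nat_lit 341763454) (nat_lit 357) (nat_lit 5) (nat_lit 367) (nat_lit 5) (nat_lit 368) (nat_lit 5) (nat_lit 577) (nat_lit 520) (nat_lit 463))))))))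
noncomputable def xc68 : XT := (XT.nd (nat_lit 2418) (nat_lit 7296) (nat_lit 0) (XT.nd (nat_lit 1170) (nat_lit 5472) (nat_lit 0) (XT.nd (nat_lit 546) (nat_lit 3724) (nat_lit 0) (XT.nd (nat_lit 234) (nat_lit 2204) (nat_lit 0) (XT.nd (nat_lit 78) (nat_lit 684) (nat_lit 0) (XT.lf (nat_lit 0) (nat_lit 2338087575) (nat_lit 836) (nat_lit 4344243832) (nat_lit 76) (nat_lit 1918125148) (nat_lit 346) (nat_lit 5) (nat_lit 357) (nat_lit 5) (nat_lit 347) (nat_lit 5) (nat_lit 578) (nat_lit 520) (nat_lit 462)) (XT.nd (nat_lit 78) (nat_lit 0) (nat_lit 0) (XT.lf (nat_lit 0) (nat_lit 1527873424) (nat_lit 684) (nat_lit 3530397733) (nat_lit 760) (nat_lit 3619043139) (nat_lit 337) (nat_lit 5) (nat_lit 346) (nat_lit 5) (nat_lit 347) (nat_lit 5) (nat_lit 579) (nat_lit 520) (nat_lit 461)) (XT.lf (nat_lit 0) (nat_lit 7531832486) (nat_lit 684) (nat_lit 293016620) (nat_lit 760) (nat_lit 931021299) (nat_lit 337) (nat_lit 5) (nat_lit 346) (nat_lit 5) (nat_lit 347) (nat_lit 5) (nat_lit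 580) (nat_lit 520) (nat_lit 460)))) (XT.nd (nat_lit 156) (nat_lit 760) (nat_lit 0) (XT.nd (nat_lit 78) (nat_lit 684) (nat_lit 0) (XT.lf (nat_lit 0) (nat_lit 1801453968) (nat_lit 760) (nat_lit 4028320814) (nat_lit 76) (nat_lit 3005699878) (nat_lit 327) (nat_lit 5) (nat_lit 337) (nat_lit 5) (nat_lit 328) (nat_lit 5) (nat_lit 581) (nat_lit 520) (nat_lit 459)) (XT.lf (nat_lit 0) (nat_lit 2033067903) (nat_lit 684) (nat_lit 2530175382) (nat_lit 760) (nat_lit 4353562982) (nat_lit 318) (nat_lit 5) (nat_lit 327) (nat_lit 5) (nat_lit 328) (nat_lit 5) (nat_lit 582) (nat_lit 520) (nat_lit 458))) (XT.nd (nat_lit 78) (nat_lit 760) (nat_lit 0) (XT.lf (nat_lit 0) (nat_lit 7376984533) (nat_lit 760) (nat_lit 779399484) (nat_lit 76) (nat_lit 843447114) (nat_lit 318) (nat_lit 5) (nat_lit 328) (nat_lit 5) (nat_lit 319) (nat_lit 5) (nat_lit 583) (nat_lit 520) (nat_lit 457)) (XT.lf (nat_lit 0) (nat_lit 1164326864) (nat_lit 760) (nat_lit 3633969170) (nat_lit 76) (nat_lit 4285728640)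 (nat_lit 308) (nat_lit 5) (nat_lit 318) (nat_lit 5) (nat_lit 309) (nat_lit 5) (nat_lit 584) (nat_lit 520) (nat_lit 456))))) (XT.nd (nat_lit 312) (nat_lit 1824) (nat_lit 0) (XT.nd (nat_lit 156) (nat_lit 1292) (nat_lit 0) (XT.nd (nat_lit 78) (nat_lit 0) (nat_lit 0) (XT.lf (nat_lit 0) (nat_lit 2624344443) (nat_lit 608) (nat_lit 1348454132) (nat_lit 684) (nat_lit 5197144171) (nat_lit 300) (nat_lit 5) (nat_lit 308) (nat_lit 5) (nat_lit 309) (nat_lit 5) (nat_lit 585) (nat_lit 520) (nat_lit 455)) (XT.lf (nat_lit 0) (nat_lit 6841381502) (nat_lit 684) (nat_lit 258763373) (nat_lit 76) (nat_lit 2157356345) (nat_lit 300) (nat_lit 5) (nat_lit 309) (nat_lit 5) (nat_lit 301) (nat_lit 5) (nat_lit 586) (nat_lit 520) (nat_lit 454))) (XT.nd (nat_lit 78) (nat_lit 608) (nat_lit 0) (XT.lf (nat_lit 0) (nat_lit 430161951) (nat_lit 684) (nat_lit 3167010175) (nat_lit 76) (nat_lit 5749281932) (nat_lit 291) (nat_lit 5) (nat_lit 300) (nat_lit 5) (nat_lit 292) (nat_lit 5) (nat_lit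 587) (nat_lit 520) (nat_lit 453)) (XT.lf (nat_lit 0) (nat_lit 3290379918) (nat_lit 684) (nat_lit 6140922986) (nat_lit 76) (nat_lit 5777214) (nat_lit 283) (nat_lit 5) (nat_lit 292) (nat_lit 5) (nat_lit 284) (nat_lit 5) (nat_lit 588) (nat_lit 520) (nat_lit 452)))) (XT.nd (nat_lit 156) (nat_lit 1216) (nat_lit 0) (XT.nd (nat_lit 78) (nat_lit 0) (nat_lit 0) (XT.lf (nat_lit 0) (nat_lit 338793350) (nat_lit 608) (nat_lit 5882885393) (nat_lit 684) (nat_lit 3307563236) (nat_lit 275) (nat_lit 5) (nat_lit 283) (nat_lit 5) (nat_lit 284) (nat_lit 5) (nat_lit 589) (nat_lit 520) (nat_lit 451)) (XT.lf (nat_lit 0) (nat_lit 6987525343) (nat_lit 608) (nat_lit 2232121580) (nat_lit 684) (nat_lit 403440079) (nat_lit 275) (nat_lit 5) (nat_lit 283) (nat_lit 5) (nat_lit 284) (nat_lit 5) (nat_lit 590) (nat_lit 520) (nat_lit 450))) (XT.nd (nat_lit 78) (nat_lit 608) (nat_lit 0) (XT.lf (nat_lit 0) (nat_lit 2528627804) (nat_lit 608) (nat_lit 5685063139) (nat_lit 76) (nat_lit 1504718062)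 (nat_lit 267) (nat_lit 5) (nat_lit 275) (nat_lit 5) (nat_lit 268) (nat_lit 5) (nat_lit 591) (nat_lit 520) (nat_lit 449)) (XT.lf (nat_lit 0) (nat_lit 1008033005) (nat_lit 608) (nat_lit 4512598132) (nat_lit 684) (nat_lit 4294819800) (nat_lit 259) (nat_lit 5) (nat_lit 267) (nat_lit 5) (nat_lit 268) (nat_lit 5) (nat_lit 592) (nat_lit 520) (nat_lit 448)))))) (XT.nd (nat_lit 624) (nat_lit 2812) (nat_lit 0) (XT.nd (nat_lit 312) (nat_lit 1520) (nat_lit 0) (XT.nd (nat_lit 156) (nat_lit 532) (nat_lit 0) (XT.nd (nat_lit 78) (nat_lit 608) (nat_lit 0) (XT.lf (nat_lit 0) (nat_lit 7868651135) (nat_lit 608) (nat_lit 709888324) (nat_lit 684) (nat_lit 1335773685) (nat_lit 259) (nat_lit 5) (nat_lit 267) (nat_lit 5) (nat_lit 268) (nat_lit 5) (nat_lit 593) (nat_lit 520) (nat_lit 447)) (XT.lf (nat_lit 0) (nat_lit 1681067359) (nat_lit 608) (nat_lit 5174531434) (nat_lit 76) (nat_lit 3158922440) (nat_lit 251) (nat_lit 5) (nat_lit 259) (nat_lit 5) (nat_lit 252) (nat_lit 5) (nat_lit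 594) (nat_lit 520) (nat_lit 446))) (XT.nd (nat_lit 78) (nat_lit 0) (nat_lit 0) (XT.lf (nat_lit 0) (nat_lit 1740571233) (nat_lit 532) (nat_lit 2998230402) (nat_lit 608) (nat_lit 5377787101) (nat_lit 244) (nat_lit 5) (nat_lit 251) (nat_lit 5) (nat_lit 252) (nat_lit 5) (nat_lit 595) (nat_lit 520) (nat_lit 445)) (XT.lf (nat_lit 0) (nat_lit 7867587905) (nat_lit 608) (nat_lit 1405697572) (nat_lit 76) (nat_lit 947214844) (nat_lit 244) (nat_lit 5) (nat_lit 252) (nat_lit 5) (nat_lit 245) (nat_lit 5) (nat_lit 596) (nat_lit 520) (nat_lit 444)))) (XT.nd (nat_lit 156) (nat_lit 456) (nat_lit 0) (XT.nd (nat_lit 78) (nat_lit 532) (nat_lit 0) (XT.lf (nat_lit 0) (nat_lit 749474044) (nat_lit 532) (nat_lit 4614397432) (nat_lit 76) (nat_lit 4961991788) (nat_lit 237) (nat_lit 5) (nat_lit 244) (nat_lit 5) (nat_lit 238) (nat_lit 5) (nat_lit 597) (nat_lit 520) (nat_lit 443)) (XT.lf (nat_lit 0) (nat_lit 2531666223) (nat_lit 532) (nat_lit 1346296475) (nat_lit 608) (nat_lit 6555149151)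 (nat_lit 230) (nat_lit 5) (nat_lit 237) (nat_lit 5) (nat_lit 238) (nat_lit 5) (nat_lit 598) (nat_lit 520) (nat_lit 442))) (XT.nd (nat_lit 78) (nat_lit 456) (nat_lit 0) (XT.lf (nat_lit 0) (nat_lit 7087894094) (nat_lit 608) (nat_lit 719770989) (nat_lit 76) (nat_lit 2734463489) (nat_lit 230) (nat_lit 5) (nat_lit 238) (nat_lit 5) (nat_lit 231) (nat_lit 5) (nat_lit 599) (nat_lit 520) (nat_lit 441)) (XT.lf (nat_lit 0) (nat_lit 6641554955) (nat_lit 456) (nat_lit 3742935293) (nat_lit 532) (nat_lit 268386673) (nat_lit 224) (nat_lit 5) (nat_lit 230) (nat_lit 5) (nat_lit 231) (nat_lit 5) (nat_lit 600) (nat_lit 520) (nat_lit 440))))) (XT.nd (nat_lit 312) (nat_lit 1292) (nat_lit 0) (XT.nd (nat_lit 156) (nat_lit 532) (nat_lit 0) (XT.nd (nat_lit 78) (nat_lit 456) (nat_lit 0) (XT.lf (nat_lit 0) (nat_lit 2942247140) (nat_lit 532) (nat_lit 7391613518) (nat_lit 76) (nat_lit 431589696) (nat_lit 217) (nat_lit 5) (nat_lit 224) (nat_lit 5) (nat_lit 218) (nat_lit 5) (nat_lit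 601) (nat_lit 520) (nat_lit 439)) (XT.lf (nat_lit 0) (nat_lit 12245639) (nat_lit 456) (nat_lit 6223984864) (nat_lit 532) (nat_lit 4643555240) (nat_lit 211) (nat_lit 5) (nat_lit 217) (nat_lit 5) (nat_lit 218) (nat_lit 5) (nat_lit 602) (nat_lit 520) (nat_lit 438))) (XT.nd (nat_lit 78) (nat_lit 532) (nat_lit 0) (XT.lf (nat_lit 0) (nat_lit 7622148807) (nat_lit 456) (nat_lit 1994609136) (nat_lit 532) (nat_lit 1379237174) (nat_lit 211) (nat_lit 5) (nat_lit 217) (nat_lit 5) (nat_lit 218) (nat_lit 5) (nat_lit 603) (nat_lit 520) (nat_lit 437)) (XT.lf (nat_lit 0) (nat_lit 1939202142) (nat_lit 532) (nat_lit 6858236337) (nat_lit 76) (nat_lit 2316549197) (nat_lit 204) (nat_lit 5) (nat_lit 211) (nat_lit 5) (nat_lit 205) (nat_lit 5) (nat_lit 604) (nat_lit 520) (nat_lit 436)))) (XT.nd (nat_lit 156) (nat_lit 912) (nat_lit 0) (XT.nd (nat_lit 78) (nat_lit 0) (nat_lit 0) (XT.lf (nat_lit 0) (nat_lit 795744513) (nat_lit 380) (nat_lit 4522627358) (nat_lit 456) (nat_lit 5915529822)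 (nat_lit 199) (nat_lit 5) (nat_lit 204) (nat_lit 5) (nat_lit 205) (nat_lit 5) (nat_lit 605) (nat_lit 520) (nat_lit 435)) (XT.lf (nat_lit 0) (nat_lit 8654060833) (nat_lit 380) (nat_lit 129017984) (nat_lit 456) (nat_lit 2572776620) (nat_lit 199) (nat_lit 5) (nat_lit 204) (nat_lit 5) (nat_lit 205) (nat_lit 5) (nat_lit 606) (nat_lit 520) (nat_lit 434))) (XT.nd (nat_lit 78) (nat_lit 380) (nat_lit 0) (XT.lf (nat_lit 0) (nat_lit 860419503) (nat_lit 532) (nat_lit 6297504263) (nat_lit 76) (nat_lit 4321525066) (nat_lit 192) (nat_lit 5) (nat_lit 199) (nat_lit 5) (nat_lit 193) (nat_lit 5) (nat_lit 607) (nat_lit 520) (nat_lit 433)) (XT.lf (nat_lit 0) (nat_lit 1616569830) (nat_lit 380) (nat_lit 2713381264) (nat_lit 456) (nat_lit 7275180953) (nat_lit 187) (nat_lit 5) (nat_lit 192) (nat_lit 5) (nat_lit 193) (nat_lit 5) (nat_lit 608) (nat_lit 520) (nat_lit 432))))))) (XT.nd (nat_lit 1170) (nat_lit 3420) (nat_lit 0) (XT.nd (nat_lit 546) (nat_lit 2204) (nat_lit 0) (XT.nd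 (nat_lit 234) (nat_lit 836) (nat_lit 0) (XT.nd (nat_lit 78) (nat_lit 836) (nat_lit 0) (XT.lf (nat_lit 0) (nat_lit 7895899372) (nat_lit 456) (nat_lit 2011922550) (nat_lit 76) (nat_lit 1824966966) (nat_lit 187) (nat_lit 5) (nat_lit 193) (nat_lit 5) (nat_lit 188) (nat_lit 5) (nat_lit 609) (nat_lit 520) (nat_lit 431)) (XT.nd (nat_lit 78) (nat_lit 456) (nat_lit 0) (XT.lf (nat_lit 0) (nat_lit 6146071944) (nat_lit 380) (nat_lit 5418173985) (nat_lit 456) (nat_lit 298131827) (nat_lit 182) (nat_lit 5) (nat_lit 187) (nat_lit 5) (nat_lit 188) (nat_lit 5) (nat_lit 610) (nat_lit 520) (nat_lit 430)) (XT.lf (nat_lit 0) (nat_lit 2470114596) (nat_lit 380) (nat_lit 800776373) (nat_lit 456) (nat_lit 8723179497) (nat_lit 176) (nat_lit 5) (nat_lit 181) (nat_lit 5) (nat_lit 182) (nat_lit 5) (nat_lit 611) (nat_lit 520) (nat_lit 429)))) (XT.nd (nat_lit 156) (nat_lit 456) (nat_lit 0) (XT.nd (nat_lit 78) (nat_lit 380) (nat_lit 0) (XT.lf (nat_lit 0) (nat_lit 6944758311) (nat_lit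 456) (nat_lit 1298558939) (nat_lit 76) (nat_lit 3884291696) (nat_lit 176) (nat_lit 5) (nat_lit 182) (nat_lit 5) (nat_lit 177) (nat_lit 5) (nat_lit 612) (nat_lit 520) (nat_lit 428)) (XT.lf (nat_lit 0) (nat_lit 7139412259) (nat_lit 380) (nat_lit 3578327364) (nat_lit 456) (nat_lit 1545566275) (nat_lit 171) (nat_lit 5) (nat_lit 176) (nat_lit 5) (nat_lit 177) (nat_lit 5) (nat_lit 613) (nat_lit 520) (nat_lit 427))) (XT.nd (nat_lit 78) (nat_lit 0) (nat_lit 0) (XT.lf (nat_lit 0) (nat_lit 2148531579) (nat_lit 456) (nat_lit 9057502561) (nat_lit 76) (nat_lit 1195152906) (nat_lit 165) (nat_lit 5) (nat_lit 171) (nat_lit 5) (nat_lit 166) (nat_lit 5) (nat_lit 614) (nat_lit 520) (nat_lit 426)) (XT.lf (nat_lit 0) (nat_lit 5928358954) (nat_lit 456) (nat_lit 565729887) (nat_lit 76) (nat_lit 6046882210) (nat_lit 165) (nat_lit 5) (nat_lit 171) (nat_lit 5) (nat_lit 166) (nat_lit 5) (nat_lit 615) (nat_lit 520) (nat_lit 425))))) (XT.nd (nat_lit 312) (nat_lit 1064) (nat_lit 0)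 (XT.nd (nat_lit 156) (nat_lit 380) (nat_lit 0) (XT.nd (nat_lit 78) (nat_lit 380) (nat_lit 0) (XT.lf (nat_lit 0) (nat_lit 8163233781) (nat_lit 380) (nat_lit 1648269915) (nat_lit 456) (nat_lit 2871493029) (nat_lit 160) (nat_lit 5) (nat_lit 165) (nat_lit 5) (nat_lit 166) (nat_lit 5) (nat_lit 616) (nat_lit 520) (nat_lit 424)) (XT.lf (nat_lit 0) (nat_lit 959856838) (nat_lit 380) (nat_lit 8592614110) (nat_lit 76) (nat_lit 3274713813) (nat_lit 155) (nat_lit 5) (nat_lit 160) (nat_lit 5) (nat_lit 156) (nat_lit 5) (nat_lit 617) (nat_lit 520) (nat_lit 423))) (XT.nd (nat_lit 78) (nat_lit 0) (nat_lit 0) (XT.lf (nat_lit 0) (nat_lit 183962709) (nat_lit 380) (nat_lit 4663034851) (nat_lit 456) (nat_lit 8126527505) (nat_lit 150) (nat_lit 5) (nat_lit 155) (nat_lit 5) (nat_lit 156) (nat_lit 5) (nat_lit 618) (nat_lit 520) (nat_lit 422)) (XT.lf (nat_lit 0) (nat_lit 8847102669) (nat_lit 456) (nat_lit 3911641940) (nat_lit 76) (nat_lit 363343508) (nat_lit 150) (nat_lit 5) (nat_lit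 156) (nat_lit 5) (nat_lit 151) (nat_lit 5) (nat_lit 619) (nat_lit 520) (nat_lit 421)))) (XT.nd (nat_lit 156) (nat_lit 304) (nat_lit 0) (XT.nd (nat_lit 78) (nat_lit 456) (nat_lit 0) (XT.lf (nat_lit 0) (nat_lit 5141105442) (nat_lit 304) (nat_lit 7825927567) (nat_lit 380) (nat_lit 305793325) (nat_lit 146) (nat_lit 5) (nat_lit 150) (nat_lit 5) (nat_lit 151) (nat_lit 5) (nat_lit 620) (nat_lit 520) (nat_lit 420)) (XT.lf (nat_lit 0) (nat_lit 950525846) (nat_lit 380) (nat_lit 2751391756) (nat_lit 456) (nat_lit 9724011609) (nat_lit 140) (nat_lit 5) (nat_lit 145) (nat_lit 5) (nat_lit 146) (nat_lit 5) (nat_lit 621) (nat_lit 520) (nat_lit 419))) (XT.nd (nat_lit 78) (nat_lit 304) (nat_lit 0) (XT.lf (nat_lit 0) (nat_lit 7832118773) (nat_lit 456) (nat_lit 3313956766) (nat_lit 76) (nat_lit 2435049913) (nat_lit 140) (nat_lit 5) (nat_lit 146) (nat_lit 5) (nat_lit 141) (nat_lit 5) (nat_lit 622) (nat_lit 520) (nat_lit 418)) (XT.lf (nat_lit 0) (nat_lit 6053189945) (nat_lit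 304) (nat_lit 6025486805) (nat_lit 380) (nat_lit 1660074152) (nat_lit 136) (nat_lit 5) (nat_lit 140) (nat_lit 5) (nat_lit 141) (nat_lit 5) (nat_lit 623) (nat_lit 520) (nat_lit 417)))))) (XT.nd (nat_lit 624) (nat_lit 1672) (nat_lit 0) (XT.nd (nat_lit 312) (nat_lit 684) (nat_lit 0) (XT.nd (nat_lit 156) (nat_lit 684) (nat_lit 0) (XT.nd (nat_lit 78) (nat_lit 0) (nat_lit 0) (XT.lf (nat_lit 0) (nat_lit 1720881542) (nat_lit 304) (nat_lit 766677294) (nat_lit 380) (nat_lit 11411447349) (nat_lit 131) (nat_lit 5) (nat_lit 135) (nat_lit 5) (nat_lit 136) (nat_lit 5) (nat_lit 624) (nat_lit 520) (nat_lit 416)) (XT.lf (nat_lit 0) (nat_lit 6754109321) (nat_lit 380) (nat_lit 2721861571) (nat_lit 76) (nat_lit 4585112675) (nat_lit 131) (nat_lit 5) (nat_lit 136) (nat_lit 5) (nat_lit 132) (nat_lit 5) (nat_lit 625) (nat_lit 520) (nat_lit 415))) (XT.nd (nat_lit 78) (nat_lit 380) (nat_lit 0) (XT.lf (nat_lit 0) (nat_lit 6971772759) (nat_lit 304) (nat_lit 4161431317) (nat_lit 380)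 (nat_lit 3092654469) (nat_lit 127) (nat_lit 5) (nat_lit 131) (nat_lit 5) (nat_lit 132) (nat_lit 5) (nat_lit 626) (nat_lit 520) (nat_lit 414)) (XT.lf (nat_lit 0) (nat_lit 1209968280) (nat_lit 380) (nat_lit 11912765379) (nat_lit 76) (nat_lit 1270642409) (nat_lit 122) (nat_lit 5) (nat_lit 127) (nat_lit 5) (nat_lit 123) (nat_lit 5) (nat_lit 627) (nat_lit 520) (nat_lit 413)))) (XT.nd (nat_lit 156) (nat_lit 380) (nat_lit 0) (XT.nd (nat_lit 78) (nat_lit 304) (nat_lit 0) (XT.lf (nat_lit 0) (nat_lit 5610866479) (nat_lit 380) (nat_lit 2141578651) (nat_lit 76) (nat_lit 6810317586) (nat_lit 122) (nat_lit 5) (nat_lit 127) (nat_lit 5) (nat_lit 123) (nat_lit 5) (nat_lit 628) (nat_lit 520) (nat_lit 412)) (XT.lf (nat_lit 0) (nat_lit 7890996452) (nat_lit 304) (nat_lit 2237504744) (nat_lit 380) (nat_lit 4606461819) (nat_lit 118) (nat_lit 5) (nat_lit 122) (nat_lit 5) (nat_lit 123) (nat_lit 5) (nat_lit 629) (nat_lit 520) (nat_lit 411))) (XT.nd (nat_lit 78) (nat_lit 76) (nat_lit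 0) (XT.lf (nat_lit 0) (nat_lit 3225515705) (nat_lit 304) (nat_lit 11545964034) (nat_lit 380) (nat_lit 138428040) (nat_lit 114) (nat_lit 5) (nat_lit 118) (nat_lit 5) (nat_lit 119) (nat_lit 5) (nat_lit 630) (nat_lit 520) (nat_lit 410)) (XT.lf (nat_lit 0) (nat_lit 4399696143) (nat_lit 380) (nat_lit 1579766091) (nat_lit 76) (nat_lit 9107541955) (nat_lit 113) (nat_lit 5) (nat_lit 118) (nat_lit 5) (nat_lit 114) (nat_lit 5) (nat_lit 631) (nat_lit 520) (nat_lit 409))))) (XT.nd (nat_lit 312) (nat_lit 836) (nat_lit 0) (XT.nd (nat_lit 156) (nat_lit 304) (nat_lit 0) (XT.nd (nat_lit 78) (nat_lit 304) (nat_lit 0) (XT.lf (nat_lit 0) (nat_lit 8804568334) (nat_lit 228) (nat_lit 257402843) (nat_lit 304) (nat_lit 6204948479) (nat_lit 110) (nat_lit 5) (nat_lit 113) (nat_lit 5) (nat_lit 114) (nat_lit 5) (nat_lit 632) (nat_lit 520) (nat_lit 408)) (XT.lf (nat_lit 0) (nat_lit 3946208438) (nat_lit 304) (nat_lit 9921968708) (nat_lit 380) (nat_lit 1581242838) (nat_lit 106) (nat_lit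 5) (nat_lit 110) (nat_lit 5) (nat_lit 111) (nat_lit 5) (nat_lit 633) (nat_lit 520) (nat_lit 407))) (XT.nd (nat_lit 78) (nat_lit 228) (nat_lit 0) (XT.lf (nat_lit 0) (nat_lit 3117394436) (nat_lit 380) (nat_lit 1043592345) (nat_lit 76) (nat_lit 11473705253) (nat_lit 105) (nat_lit 5) (nat_lit 110) (nat_lit 5) (nat_lit 106) (nat_lit 5) (nat_lit 634) (nat_lit 520) (nat_lit 406)) (XT.lf (nat_lit 0) (nat_lit 7942035076) (nat_lit 304) (nat_lit 6128468139) (nat_lit 76) (nat_lit 1751893446) (nat_lit 102) (nat_lit 5) (nat_lit 106) (nat_lit 5) (nat_lit 103) (nat_lit 5) (nat_lit 635) (nat_lit 520) (nat_lit 405)))) (XT.nd (nat_lit 156) (nat_lit 456) (nat_lit 0) (XT.nd (nat_lit 78) (nat_lit 76) (nat_lit 0) (XT.lf (nat_lit 0) (nat_lit 4643486127) (nat_lit 304) (nat_lit 8263166222) (nat_lit 380) (nat_lit 3106333598) (nat_lit 98) (nat_lit 5) (nat_lit 102) (nat_lit 5) (nat_lit 103) (nat_lit 5) (nat_lit 636) (nat_lit 520) (nat_lit 404)) (XT.lf (nat_lit 0) (nat_lit 1760219908)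 (nat_lit 380) (nat_lit 540816788) (nat_lit 76) (nat_lit 13905718214) (nat_lit 97) (nat_lit 5) (nat_lit 102) (nat_lit 5) (nat_lit 98) (nat_lit 5) (nat_lit 637) (nat_lit 520) (nat_lit 403))) (XT.nd (nat_lit 78) (nat_lit 228) (nat_lit 0) (XT.lf (nat_lit 0) (nat_lit 6755513794) (nat_lit 304) (nat_lit 5841119739) (nat_lit 76) (nat_lit 3805895227) (nat_lit 94) (nat_lit 5) (nat_lit 98) (nat_lit 5) (nat_lit 95) (nat_lit 5) (nat_lit 638) (nat_lit 520) (nat_lit 402)) (XT.lf (nat_lit 0) (nat_lit 5309385446) (nat_lit 228) (nat_lit 6573960608) (nat_lit 304) (nat_lit 4718219608) (nat_lit 91) (nat_lit 5) (nat_lit 94) (nat_lit 5) (nat_lit 95) (nat_lit 5) (nat_lit 639) (nat_lit 520) (nat_lit 401))))))))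
noncomputable def xc69 : XT := (XT.nd (nat_lit 73866) (nat_lit 0) (nat_lit 22040) (XT.nd (nat_lit 72618) (nat_lit 0) (nat_lit 46588) (XT.nd (nat_lit 71994) (nat_lit 0) (nat_lit 53200) (XT.nd (nat_lit 234) (nat_lit 532) (nat_lit 0) (XT.nd (nat_lit 78) (nat_lit 456) (nat_lit 0) (XT.lf (nat_lit 0) (nat_lit 323861155) (nat_lit 304) (nat_lit 79877030) (nat_lit 76) (nat_lit 16400429905) (nat_lit 90) (nat_lit 5) (nat_lit 94) (nat_lit 5) (nat_lit 91) (nat_lit 5) (nat_lit 640) (nat_lit 520) (nat_lit 400)) (XT.nd (nat_lit 78) (nat_lit 228) (nat_lit 0) (XT.lf (nat_lit 0) (nat_lit 5496499934) (nat_lit 304) (nat_lit 5607679916) (nat_lit 76) (nat_lit 5904161311) (nat_lit 87) (nat_lit 5) (nat_lit 91) (nat_lit 5) (nat_lit 88) (nat_lit 5) (nat_lit 641) (nat_lit 520) (nat_lit 399)) (XT.lf (nat_lit 0) (nat_lit 5935209595) (nat_lit 228) (nat_lit 4858918275) (nat_lit 304) (nat_lit 6422039302) (nat_lit 84) (nat_lit 5) (nat_lit 87) (nat_lit 5) (nat_lit 88) (nat_lit 5) (nat_lit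 642) (nat_lit 520) (nat_lit 398)))) (XT.nd (nat_lit 156) (nat_lit 228) (nat_lit 0) (XT.nd (nat_lit 78) (nat_lit 76) (nat_lit 0) (XT.lf (nat_lit 0) (nat_lit 316328548) (nat_lit 228) (nat_lit 15910984685) (nat_lit 304) (nat_lit 1200244576) (nat_lit 81) (nat_lit 5) (nat_lit 84) (nat_lit 5) (nat_lit 85) (nat_lit 5) (nat_lit 643) (nat_lit 520) (nat_lit 397)) (XT.lf (nat_lit 0) (nat_lit 4160147640) (nat_lit 304) (nat_lit 5438020972) (nat_lit 76) (nat_lit 8042706575) (nat_lit 80) (nat_lit 5) (nat_lit 84) (nat_lit 5) (nat_lit 81) (nat_lit 5) (nat_lit 644) (nat_lit 520) (nat_lit 396))) (XT.nd (nat_lit 71526) (nat_lit 0) (nat_lit 54340) (XT.lf (nat_lit 0) (nat_lit 6511427618) (nat_lit 228) (nat_lit 3122828461) (nat_lit 304) (nat_lit 8223592760) (nat_lit 77) (nat_lit 5) (nat_lit 80) (nat_lit 5) (nat_lit 81) (nat_lit 5) (nat_lit 645) (nat_lit 520) (nat_lit 395)) (XT.lf (nat_lit 0) (nat_lit 1584859345) (nat_lit 0) (nat_lit 1584859345) (nat_lit 76) (nat_lit 52347407)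 (nat_lit 792) (nat_lit 5) (nat_lit 792) (nat_lit 3) (nat_lit 793) (nat_lit 0) (nat_lit 521) (nat_lit 521) (nat_lit 518))))) (XT.nd (nat_lit 312) (nat_lit 684) (nat_lit 0) (XT.nd (nat_lit 156) (nat_lit 228) (nat_lit 0) (XT.nd (nat_lit 78) (nat_lit 0) (nat_lit 0) (XT.lf (nat_lit 0) (nat_lit 2982678932) (nat_lit 228) (nat_lit 61339502) (nat_lit 228) (nat_lit 3402648394) (nat_lit 789) (nat_lit 3) (nat_lit 792) (nat_lit 3) (nat_lit 792) (nat_lit 5) (nat_lit 522) (nat_lit 521) (nat_lit 517)) (XT.lf (nat_lit 76) (nat_lit 3216184373) (nat_lit 0) (nat_lit 2854122819) (nat_lit 228) (nat_lit 380137653) (nat_lit 790) (nat_lit 5) (nat_lit 789) (nat_lit 3) (nat_lit 792) (nat_lit 5) (nat_lit 523) (nat_lit 521) (nat_lit 516))) (XT.nd (nat_lit 78) (nat_lit 0) (nat_lit 0) (XT.lf (nat_lit 76) (nat_lit 46352921) (nat_lit 0) (nat_lit 2603298667) (nat_lit 304) (nat_lit 3805881661) (nat_lit 787) (nat_lit 5) (nat_lit 786) (nat_lit 5) (nat_lit 790) (nat_lit 5) (nat_lit 524) (nat_lit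 521) (nat_lit 515)) (XT.lf (nat_lit 76) (nat_lit 3392048328) (nat_lit 0) (nat_lit 2285706030) (nat_lit 304) (nat_lit 784067097) (nat_lit 787) (nat_lit 5) (nat_lit 786) (nat_lit 5) (nat_lit 790) (nat_lit 5) (nat_lit 525) (nat_lit 521) (nat_lit 514)))) (XT.nd (nat_lit 156) (nat_lit 380) (nat_lit 0) (XT.nd (nat_lit 78) (nat_lit 0) (nat_lit 0) (XT.lf (nat_lit 76) (nat_lit 283175300) (nat_lit 0) (nat_lit 1908852204) (nat_lit 380) (nat_lit 4277434068) (nat_lit 783) (nat_lit 5) (nat_lit 782) (nat_lit 5) (nat_lit 787) (nat_lit 5) (nat_lit 526) (nat_lit 521) (nat_lit 513)) (XT.lf (nat_lit 76) (nat_lit 3697769875) (nat_lit 0) (nat_lit 1463352582) (nat_lit 380) (nat_lit 1317153025) (nat_lit 783) (nat_lit 5) (nat_lit 782) (nat_lit 5) (nat_lit 787) (nat_lit 5) (nat_lit 527) (nat_lit 521) (nat_lit 512))) (XT.nd (nat_lit 78) (nat_lit 0) (nat_lit 0) (XT.lf (nat_lit 76) (nat_lit 648895674) (nat_lit 0) (nat_lit 959726833) (nat_lit 456) (nat_lit 4879853827) (nat_lit 778)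 (nat_lit 5) (nat_lit 777) (nat_lit 5) (nat_lit 783) (nat_lit 5) (nat_lit 528) (nat_lit 521) (nat_lit 511)) (XT.lf (nat_lit 76) (nat_lit 4134059981) (nat_lit 0) (nat_lit 385448582) (nat_lit 456) (nat_lit 1980317824) (nat_lit 778) (nat_lit 5) (nat_lit 777) (nat_lit 5) (nat_lit 783) (nat_lit 5) (nat_lit 529) (nat_lit 521) (nat_lit 510)))))) (XT.nd (nat_lit 624) (nat_lit 3724) (nat_lit 0) (XT.nd (nat_lit 312) (nat_lit 1976) (nat_lit 0) (XT.nd (nat_lit 156) (nat_lit 532) (nat_lit 0) (XT.nd (nat_lit 78) (nat_lit 0) (nat_lit 0) (XT.lf (nat_lit 0) (nat_lit 900005015) (nat_lit 456) (nat_lit 5369847991) (nat_lit 76) (nat_lit 242715086) (nat_lit 772) (nat_lit 5) (nat_lit 778) (nat_lit 5) (nat_lit 773) (nat_lit 5) (nat_lit 530) (nat_lit 521) (nat_lit 509)) (XT.lf (nat_lit 0) (nat_lit 3757930501) (nat_lit 456) (nat_lit 1830786147) (nat_lit 76) (nat_lit 937659649) (nat_lit 772) (nat_lit 5) (nat_lit 778) (nat_lit 5) (nat_lit 773) (nat_lit 5) (nat_lit 531) (nat_lit 521)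 (nat_lit 508))) (XT.nd (nat_lit 78) (nat_lit 0) (nat_lit 0) (XT.lf (nat_lit 0) (nat_lit 71212475) (nat_lit 532) (nat_lit 4782344501) (nat_lit 76) (nat_lit 1688082109) (nat_lit 765) (nat_lit 5) (nat_lit 772) (nat_lit 5) (nat_lit 766) (nat_lit 5) (nat_lit 532) (nat_lit 521) (nat_lit 507)) (XT.lf (nat_lit 0) (nat_lit 2873010954) (nat_lit 532) (nat_lit 1172402200) (nat_lit 76) (nat_lit 2512583159) (nat_lit 765) (nat_lit 5) (nat_lit 772) (nat_lit 5) (nat_lit 766) (nat_lit 5) (nat_lit 533) (nat_lit 521) (nat_lit 506)))) (XT.nd (nat_lit 156) (nat_lit 1368) (nat_lit 0) (XT.nd (nat_lit 78) (nat_lit 76) (nat_lit 0) (XT.lf (nat_lit 0) (nat_lit 2500356013) (nat_lit 532) (nat_lit 3178110593) (nat_lit 608) (nat_lit 897265089) (nat_lit 758) (nat_lit 5) (nat_lit 765) (nat_lit 5) (nat_lit 766) (nat_lit 5) (nat_lit 534) (nat_lit 521) (nat_lit 505)) (XT.lf (nat_lit 0) (nat_lit 1860614184) (nat_lit 608) (nat_lit 386695945) (nat_lit 76) (nat_lit 4347463646) (nat_lit 757) (nat_lit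 5) (nat_lit 765) (nat_lit 5) (nat_lit 758) (nat_lit 5) (nat_lit 535) (nat_lit 521) (nat_lit 504))) (XT.nd (nat_lit 78) (nat_lit 760) (nat_lit 0) (XT.lf (nat_lit 0) (nat_lit 3372074982) (nat_lit 608) (nat_lit 1244809747) (nat_lit 684) (nat_lit 1998091625) (nat_lit 749) (nat_lit 5) (nat_lit 757) (nat_lit 5) (nat_lit 758) (nat_lit 5) (nat_lit 536) (nat_lit 521) (nat_lit 503)) (XT.lf (nat_lit 0) (nat_lit 535014391) (nat_lit 684) (nat_lit 187314427) (nat_lit 760) (nat_lit 5914353791) (nat_lit 739) (nat_lit 5) (nat_lit 748) (nat_lit 5) (nat_lit 749) (nat_lit 5) (nat_lit 537) (nat_lit 521) (nat_lit 502))))) (XT.nd (nat_lit 312) (nat_lit 2052) (nat_lit 0) (XT.nd (nat_lit 156) (nat_lit 912) (nat_lit 0) (XT.nd (nat_lit 78) (nat_lit 760) (nat_lit 0) (XT.lf (nat_lit 0) (nat_lit 3433231114) (nat_lit 760) (nat_lit 2288846475) (nat_lit 76) (nat_lit 937227747) (nat_lit 739) (nat_lit 5) (nat_lit 749) (nat_lit 5) (nat_lit 740) (nat_lit 5) (nat_lit 538) (nat_lit 521) (nat_lit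 501)) (XT.lf (nat_lit 0) (nat_lit 1576786794) (nat_lit 760) (nat_lit 4569425128) (nat_lit 836) (nat_lit 537214374) (nat_lit 729) (nat_lit 5) (nat_lit 739) (nat_lit 5) (nat_lit 740) (nat_lit 5) (nat_lit 539) (nat_lit 521) (nat_lit 500))) (XT.nd (nat_lit 78) (nat_lit 836) (nat_lit 0) (XT.lf (nat_lit 0) (nat_lit 2128894696) (nat_lit 836) (nat_lit 1214827723) (nat_lit 76) (nat_lit 3364975818) (nat_lit 728) (nat_lit 5) (nat_lit 739) (nat_lit 5) (nat_lit 729) (nat_lit 5) (nat_lit 540) (nat_lit 521) (nat_lit 499)) (XT.lf (nat_lit 0) (nat_lit 2744668126) (nat_lit 836) (nat_lit 2052463469) (nat_lit 912) (nat_lit 1938155841) (nat_lit 717) (nat_lit 5) (nat_lit 728) (nat_lit 5) (nat_lit 729) (nat_lit 5) (nat_lit 541) (nat_lit 521) (nat_lit 498)))) (XT.nd (nat_lit 156) (nat_lit 1064) (nat_lit 0) (XT.nd (nat_lit 78) (nat_lit 912) (nat_lit 0) (XT.lf (nat_lit 0) (nat_lit 693315245) (nat_lit 912) (nat_lit 10517092) (nat_lit 76) (nat_lit 6059542384) (nat_lit 716) (nat_lit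 5) (nat_lit 728) (nat_lit 5) (nat_lit 717) (nat_lit 5) (nat_lit 542) (nat_lit 521) (nat_lit 497)) (XT.lf (nat_lit 0) (nat_lit 3322406664) (nat_lit 988) (nat_lit 2750034242) (nat_lit 76) (nat_lit 719910420) (nat_lit 704) (nat_lit 5) (nat_lit 717) (nat_lit 5) (nat_lit 705) (nat_lit 5) (nat_lit 543) (nat_lit 521) (nat_lit 496))) (XT.nd (nat_lit 78) (nat_lit 76) (nat_lit 0) (XT.lf (nat_lit 0) (nat_lit 1323842793) (nat_lit 988) (nat_lit 4634487277) (nat_lit 1064) (nat_lit 864494992) (nat_lit 691) (nat_lit 5) (nat_lit 704) (nat_lit 5) (nat_lit 705) (nat_lit 5) (nat_lit 544) (nat_lit 521) (nat_lit 495)) (XT.lf (nat_lit 0) (nat_lit 1729537560) (nat_lit 1064) (nat_lit 1392627041) (nat_lit 76) (nat_lit 3732313534) (nat_lit 690) (nat_lit 5) (nat_lit 704) (nat_lit 5) (nat_lit 691) (nat_lit 5) (nat_lit 545) (nat_lit 521) (nat_lit 494))))))) (XT.nd (nat_lit 1170) (nat_lit 10108) (nat_lit 0) (XT.nd (nat_lit 546) (nat_lit 8208) (nat_lit 0) (XT.nd (nat_lit 234) (nat_lit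 3952) (nat_lit 0) (XT.nd (nat_lit 78) (nat_lit 1216) (nat_lit 0) (XT.lf (nat_lit 0) (nat_lit 2783698983) (nat_lit 1064) (nat_lit 1540823233) (nat_lit 1140) (nat_lit 2562917279) (nat_lit 676) (nat_lit 5) (nat_lit 690) (nat_lit 5) (nat_lit 691) (nat_lit 5) (nat_lit 546) (nat_lit 521) (nat_lit 493)) (XT.nd (nat_lit 78) (nat_lit 0) (nat_lit 0) (XT.lf (nat_lit 0) (nat_lit 3396258) (nat_lit 1216) (nat_lit 6823570037) (nat_lit 76) (nat_lit 95015406) (nat_lit 660) (nat_lit 5) (nat_lit 676) (nat_lit 5) (nat_lit 661) (nat_lit 5) (nat_lit 547) (nat_lit 521) (nat_lit 492)) (XT.lf (nat_lit 0) (nat_lit 2568631493) (nat_lit 1216) (nat_lit 2588129692) (nat_lit 76) (nat_lit 1800478802) (nat_lit 660) (nat_lit 5) (nat_lit 676) (nat_lit 5) (nat_lit 661) (nat_lit 5) (nat_lit 548) (nat_lit 521) (nat_lit 491)))) (XT.nd (nat_lit 156) (nat_lit 2660) (nat_lit 0) (XT.nd (nat_lit 78) (nat_lit 76) (nat_lit 0) (XT.lf (nat_lit 0) (nat_lit 1710988387) (nat_lit 1216) (nat_lit 3430346868)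 (nat_lit 1292) (nat_lit 1852747172) (nat_lit 644) (nat_lit 5) (nat_lit 660) (nat_lit 5) (nat_lit 661) (nat_lit 5) (nat_lit 549) (nat_lit 521) (nat_lit 490)) (XT.lf (nat_lit 0) (nat_lit 687180906) (nat_lit 1292) (nat_lit 948933865) (nat_lit 76) (nat_lit 5396194356) (nat_lit 643) (nat_lit 5) (nat_lit 660) (nat_lit 5) (nat_lit 644) (nat_lit 5) (nat_lit 550) (nat_lit 521) (nat_lit 489))) (XT.nd (nat_lit 78) (nat_lit 1368) (nat_lit 0) (XT.lf (nat_lit 0) (nat_lit 3223717105) (nat_lit 1368) (nat_lit 3611239736) (nat_lit 76) (nat_lit 236688366) (nat_lit 626) (nat_lit 5) (nat_lit 644) (nat_lit 5) (nat_lit 627) (nat_lit 5) (nat_lit 551) (nat_lit 521) (nat_lit 488)) (XT.lf (nat_lit 0) (nat_lit 815079418) (nat_lit 1368) (nat_lit 4965836256) (nat_lit 1444) (nat_lit 1331455794) (nat_lit 608) (nat_lit 5) (nat_lit 626) (nat_lit 5) (nat_lit 627) (nat_lit 5) (nat_lit 552) (nat_lit 521) (nat_lit 487))))) (XT.nd (nat_lit 312) (nat_lit 5092) (nat_lit 0) (XT.nd (nat_lit 156)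 (nat_lit 1596) (nat_lit 0) (XT.nd (nat_lit 78) (nat_lit 1444) (nat_lit 0) (XT.lf (nat_lit 0) (nat_lit 1191335339) (nat_lit 1444) (nat_lit 1827026644) (nat_lit 76) (nat_lit 4135948046) (nat_lit 607) (nat_lit 5) (nat_lit 626) (nat_lit 5) (nat_lit 608) (nat_lit 5) (nat_lit 553) (nat_lit 521) (nat_lit 486)) (XT.lf (nat_lit 0) (nat_lit 2716021966) (nat_lit 1444) (nat_lit 997203958) (nat_lit 1520) (nat_lit 3484357956) (nat_lit 588) (nat_lit 5) (nat_lit 607) (nat_lit 5) (nat_lit 608) (nat_lit 5) (nat_lit 554) (nat_lit 521) (nat_lit 485))) (XT.nd (nat_lit 78) (nat_lit 76) (nat_lit 0) (XT.lf (nat_lit 0) (nat_lit 83119176) (nat_lit 1520) (nat_lit 6171818813) (nat_lit 1596) (nat_lit 987399479) (nat_lit 568) (nat_lit 5) (nat_lit 588) (nat_lit 5) (nat_lit 589) (nat_lit 5) (nat_lit 555) (nat_lit 521) (nat_lit 484)) (XT.lf (nat_lit 0) (nat_lit 1525886001) (nat_lit 1596) (nat_lit 2549044987) (nat_lit 76) (nat_lit 3213117674) (nat_lit 567) (nat_lit 5) (nat_lit 588) (nat_lit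 5) (nat_lit 568) (nat_lit 5) (nat_lit 556) (nat_lit 521) (nat_lit 483)))) (XT.nd (nat_lit 156) (nat_lit 3496) (nat_lit 0) (XT.nd (nat_lit 78) (nat_lit 0) (nat_lit 0) (XT.lf (nat_lit 0) (nat_lit 2131041201) (nat_lit 1596) (nat_lit 1909968431) (nat_lit 1672) (nat_lit 3294239863) (nat_lit 546) (nat_lit 5) (nat_lit 567) (nat_lit 5) (nat_lit 568) (nat_lit 5) (nat_lit 557) (nat_lit 521) (nat_lit 482)) (XT.lf (nat_lit 0) (nat_lit 6577248603) (nat_lit 1672) (nat_lit 490234643) (nat_lit 76) (nat_lit 316496627) (nat_lit 546) (nat_lit 5) (nat_lit 568) (nat_lit 5) (nat_lit 547) (nat_lit 5) (nat_lit 558) (nat_lit 521) (nat_lit 481))) (XT.nd (nat_lit 78) (nat_lit 1748) (nat_lit 0) (XT.lf (nat_lit 0) (nat_lit 1701077619) (nat_lit 1748) (nat_lit 3126548577) (nat_lit 76) (nat_lit 2605970740) (nat_lit 523) (nat_lit 5) (nat_lit 546) (nat_lit 5) (nat_lit 524) (nat_lit 5) (nat_lit 559) (nat_lit 521) (nat_lit 480)) (XT.lf (nat_lit 0) (nat_lit 1695773527) (nat_lit 1748) (nat_lit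 2519741239) (nat_lit 1824) (nat_lit 3269241122) (nat_lit 500) (nat_lit 5) (nat_lit 523) (nat_lit 5) (nat_lit 524) (nat_lit 5) (nat_lit 560) (nat_lit 521) (nat_lit 479)))))) (XT.nd (nat_lit 624) (nat_lit 4256) (nat_lit 0) (XT.nd (nat_lit 312) (nat_lit 2812) (nat_lit 0) (XT.nd (nat_lit 156) (nat_lit 1140) (nat_lit 0) (XT.nd (nat_lit 78) (nat_lit 1900) (nat_lit 0) (XT.lf (nat_lit 0) (nat_lit 6613327768) (nat_lit 1748) (nat_lit 141475828) (nat_lit 1824) (nat_lit 782644816) (nat_lit 500) (nat_lit 5) (nat_lit 523) (nat_lit 5) (nat_lit 524) (nat_lit 5) (nat_lit 561) (nat_lit 521) (nat_lit 478)) (XT.lf (nat_lit 0) (nat_lit 1726175276) (nat_lit 1900) (nat_lit 3570220077) (nat_lit 76) (nat_lit 2294663464) (nat_lit 475) (nat_lit 5) (nat_lit 500) (nat_lit 5) (nat_lit 476) (nat_lit 5) (nat_lit 562) (nat_lit 521) (nat_lit 477))) (XT.nd (nat_lit 78) (nat_lit 0) (nat_lit 0) (XT.lf (nat_lit 0) (nat_lit 1399819355) (nat_lit 1140) (nat_lit 2845972259) (nat_lit 1216) (nat_lit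 3400425916) (nat_lit 460) (nat_lit 5) (nat_lit 475) (nat_lit 5) (nat_lit 476) (nat_lit 5) (nat_lit 563) (nat_lit 521) (nat_lit 476)) (XT.lf (nat_lit 0) (nat_lit 6473959162) (nat_lit 1140) (nat_lit 321223095) (nat_lit 1216) (nat_lit 907711046) (nat_lit 460) (nat_lit 5) (nat_lit 475) (nat_lit 5) (nat_lit 476) (nat_lit 5) (nat_lit 564) (nat_lit 521) (nat_lit 475)))) (XT.nd (nat_lit 156) (nat_lit 912) (nat_lit 0) (XT.nd (nat_lit 78) (nat_lit 912) (nat_lit 0) (XT.lf (nat_lit 0) (nat_lit 1609528602) (nat_lit 988) (nat_lit 3889940133) (nat_lit 76) (nat_lit 2261100792) (nat_lit 447) (nat_lit 5) (nat_lit 460) (nat_lit 5) (nat_lit 448) (nat_lit 5) (nat_lit 565) (nat_lit 521) (nat_lit 474)) (XT.lf (nat_lit 0) (nat_lit 1233583067) (nat_lit 912) (nat_lit 2906416389) (nat_lit 988) (nat_lit 3679780444) (nat_lit 435) (nat_lit 5) (nat_lit 447) (nat_lit 5) (nat_lit 448) (nat_lit 5) (nat_lit 566) (nat_lit 521) (nat_lit 473))) (XT.nd (nat_lit 78) (nat_lit 912) (nat_lit 0)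 (XT.lf (nat_lit 0) (nat_lit 6468584707) (nat_lit 912) (nat_lit 235757196) (nat_lit 988) (nat_lit 1176168743) (nat_lit 435) (nat_lit 5) (nat_lit 447) (nat_lit 5) (nat_lit 448) (nat_lit 5) (nat_lit 567) (nat_lit 521) (nat_lit 472)) (XT.lf (nat_lit 0) (nat_lit 1358630250) (nat_lit 912) (nat_lit 4094857716) (nat_lit 76) (nat_lit 2488806890) (nat_lit 423) (nat_lit 5) (nat_lit 435) (nat_lit 5) (nat_lit 424) (nat_lit 5) (nat_lit 568) (nat_lit 521) (nat_lit 471))))) (XT.nd (nat_lit 312) (nat_lit 1596) (nat_lit 0) (XT.nd (nat_lit 156) (nat_lit 1748) (nat_lit 0) (XT.nd (nat_lit 78) (nat_lit 0) (nat_lit 0) (XT.lf (nat_lit 0) (nat_lit 1188203239) (nat_lit 912) (nat_lit 2717260150) (nat_lit 988) (nat_lit 4100155459) (nat_lit 411) (nat_lit 5) (nat_lit 423) (nat_lit 5) (nat_lit 424) (nat_lit 5) (nat_lit 569) (nat_lit 521) (nat_lit 470)) (XT.lf (nat_lit 0) (nat_lit 6490150006) (nat_lit 988) (nat_lit 1482376266) (nat_lit 76) (nat_lit 97946014) (nat_lit 411) (nat_lit 5)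 (nat_lit 424) (nat_lit 5) (nat_lit 412) (nat_lit 5) (nat_lit 570) (nat_lit 521) (nat_lit 469))) (XT.nd (nat_lit 78) (nat_lit 836) (nat_lit 0) (XT.lf (nat_lit 0) (nat_lit 980169054) (nat_lit 912) (nat_lit 4193456268) (nat_lit 76) (nat_lit 2962805292) (nat_lit 399) (nat_lit 5) (nat_lit 411) (nat_lit 5) (nat_lit 400) (nat_lit 5) (nat_lit 571) (nat_lit 521) (nat_lit 468)) (XT.lf (nat_lit 0) (nat_lit 1255487019) (nat_lit 836) (nat_lit 2293238943) (nat_lit 912) (nat_lit 4655214130) (nat_lit 388) (nat_lit 5) (nat_lit 399) (nat_lit 5) (nat_lit 400) (nat_lit 5) (nat_lit 572) (nat_lit 521) (nat_lit 467)))) (XT.nd (nat_lit 156) (nat_lit 760) (nat_lit 0) (XT.nd (nat_lit 78) (nat_lit 836) (nat_lit 0) (XT.lf (nat_lit 0) (nat_lit 6161477763) (nat_lit 912) (nat_lit 1450701556) (nat_lit 76) (nat_lit 660765165) (nat_lit 388) (nat_lit 5) (nat_lit 400) (nat_lit 5) (nat_lit 389) (nat_lit 5) (nat_lit 573) (nat_lit 521) (nat_lit 466)) (XT.lf (nat_lit 0) (nat_lit 480078177) (nat_lit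 836) (nat_lit 4193616120) (nat_lit 76) (nat_lit 3669507903) (nat_lit 377) (nat_lit 5) (nat_lit 388) (nat_lit 5) (nat_lit 378) (nat_lit 5) (nat_lit 574) (nat_lit 521) (nat_lit 465))) (XT.nd (nat_lit 78) (nat_lit 0) (nat_lit 0) (XT.lf (nat_lit 0) (nat_lit 1427848193) (nat_lit 760) (nat_lit 1647745698) (nat_lit 836) (nat_lit 5339384925) (nat_lit 367) (nat_lit 5) (nat_lit 377) (nat_lit 5) (nat_lit 378) (nat_lit 5) (nat_lit 575) (nat_lit 521) (nat_lit 464)) (XT.lf (nat_lit 0) (nat_lit 5722447639) (nat_lit 836) (nat_lit 1322716524) (nat_lit 76) (nat_lit 1443039359) (nat_lit 367) (nat_lit 5) (nat_lit 378) (nat_lit 5) (nat_lit 368) (nat_lit 5) (nat_lit 576) (nat_lit 521) (nat_lit 463))))))))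
noncomputable def xc70 : XT := (XT.nd (nat_lit 2418) (nat_lit 7524) (nat_lit 0) (XT.nd (nat_lit 1170) (nat_lit 5624) (nat_lit 0) (XT.nd (nat_lit 546) (nat_lit 3876) (nat_lit 0) (XT.nd (nat_lit 234) (nat_lit 2128) (nat_lit 0) (XT.nd (nat_lit 78) (nat_lit 836) (nat_lit 0) (XT.lf (nat_lit 0) (nat_lit 4459275236) (nat_lit 760) (nat_lit 3965336691) (nat_lit 836) (nat_lit 138234413) (nat_lit 357) (nat_lit 5) (nat_lit 367) (nat_lit 5) (nat_lit 368) (nat_lit 5) (nat_lit 577) (nat_lit 521) (nat_lit 462)) (XT.nd (nat_lit 78) (nat_lit 0) (nat_lit 0) (XT.lf (nat_lit 0) (nat_lit 1698248525) (nat_lit 760) (nat_lit 792931669) (nat_lit 836) (nat_lit 6147819214) (nat_lit 346) (nat_lit 5) (nat_lit 356) (nat_lit 5) (nat_lit 357) (nat_lit 5) (nat_lit 578) (nat_lit 521) (nat_lit 461)) (XT.lf (nat_lit 0) (nat_lit 5178041797) (nat_lit 836) (nat_lit 1105258595) (nat_lit 76) (nat_lit 2433223705) (nat_lit 346) (nat_lit 5) (nat_lit 357) (nat_lit 5) (nat_lit 347) (nat_lit 5) (nat_lit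 579) (nat_lit 521) (nat_lit 460)))) (XT.nd (nat_lit 156) (nat_lit 684) (nat_lit 0) (XT.nd (nat_lit 78) (nat_lit 760) (nat_lit 0) (XT.lf (nat_lit 0) (nat_lit 4862420281) (nat_lit 684) (nat_lit 3056891980) (nat_lit 760) (nat_lit 876274592) (nat_lit 337) (nat_lit 5) (nat_lit 346) (nat_lit 5) (nat_lit 347) (nat_lit 5) (nat_lit 580) (nat_lit 521) (nat_lit 459)) (XT.lf (nat_lit 0) (nat_lit 1801631351) (nat_lit 760) (nat_lit 6817842741) (nat_lit 76) (nat_lit 256787412) (nat_lit 327) (nat_lit 5) (nat_lit 337) (nat_lit 5) (nat_lit 328) (nat_lit 5) (nat_lit 581) (nat_lit 521) (nat_lit 458))) (XT.nd (nat_lit 78) (nat_lit 684) (nat_lit 0) (XT.lf (nat_lit 0) (nat_lit 4532607751) (nat_lit 760) (nat_lit 804711173) (nat_lit 76) (nat_lit 3620890914) (nat_lit 327) (nat_lit 5) (nat_lit 337) (nat_lit 5) (nat_lit 328) (nat_lit 5) (nat_lit 582) (nat_lit 521) (nat_lit 457)) (XT.lf (nat_lit 0) (nat_lit 5356167317) (nat_lit 684) (nat_lit 1961931720) (nat_lit 760) (nat_lit 1723701126)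 (nat_lit 318) (nat_lit 5) (nat_lit 327) (nat_lit 5) (nat_lit 328) (nat_lit 5) (nat_lit 583) (nat_lit 521) (nat_lit 456))))) (XT.nd (nat_lit 312) (nat_lit 1824) (nat_lit 0) (XT.nd (nat_lit 156) (nat_lit 1292) (nat_lit 0) (XT.nd (nat_lit 78) (nat_lit 0) (nat_lit 0) (XT.lf (nat_lit 0) (nat_lit 1015464074) (nat_lit 760) (nat_lit 6629517772) (nat_lit 76) (nat_lit 1482012018) (nat_lit 308) (nat_lit 5) (nat_lit 318) (nat_lit 5) (nat_lit 309) (nat_lit 5) (nat_lit 584) (nat_lit 521) (nat_lit 455)) (XT.lf (nat_lit 0) (nat_lit 3789890676) (nat_lit 760) (nat_lit 427055355) (nat_lit 76) (nat_lit 4996647240) (nat_lit 308) (nat_lit 5) (nat_lit 318) (nat_lit 5) (nat_lit 309) (nat_lit 5) (nat_lit 585) (nat_lit 521) (nat_lit 454))) (XT.nd (nat_lit 78) (nat_lit 684) (nat_lit 0) (XT.lf (nat_lit 0) (nat_lit 5934848259) (nat_lit 608) (nat_lit 689811725) (nat_lit 684) (nat_lit 2677168459) (nat_lit 300) (nat_lit 5) (nat_lit 308) (nat_lit 5) (nat_lit 309) (nat_lit 5) (nat_lit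 586) (nat_lit 521) (nat_lit 453)) (XT.lf (nat_lit 0) (nat_lit 130714191) (nat_lit 684) (nat_lit 6376640749) (nat_lit 76) (nat_lit 2884297103) (nat_lit 291) (nat_lit 5) (nat_lit 300) (nat_lit 5) (nat_lit 292) (nat_lit 5) (nat_lit 587) (nat_lit 521) (nat_lit 452)))) (XT.nd (nat_lit 156) (nat_lit 1216) (nat_lit 0) (XT.nd (nat_lit 78) (nat_lit 0) (nat_lit 0) (XT.lf (nat_lit 0) (nat_lit 22373621) (nat_lit 608) (nat_lit 2930833538) (nat_lit 684) (nat_lit 6529825843) (nat_lit 283) (nat_lit 5) (nat_lit 291) (nat_lit 5) (nat_lit 292) (nat_lit 5) (nat_lit 588) (nat_lit 521) (nat_lit 451)) (XT.lf (nat_lit 0) (nat_lit 5846999708) (nat_lit 684) (nat_lit 2987766269) (nat_lit 76) (nat_lit 741179404) (nat_lit 283) (nat_lit 5) (nat_lit 292) (nat_lit 5) (nat_lit 284) (nat_lit 5) (nat_lit 589) (nat_lit 521) (nat_lit 450))) (XT.nd (nat_lit 78) (nat_lit 608) (nat_lit 0) (XT.lf (nat_lit 0) (nat_lit 3599991925) (nat_lit 608) (nat_lit 5209223000) (nat_lit 684) (nat_lit 861290923)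 (nat_lit 275) (nat_lit 5) (nat_lit 283) (nat_lit 5) (nat_lit 284) (nat_lit 5) (nat_lit 590) (nat_lit 521) (nat_lit 449)) (XT.lf (nat_lit 0) (nat_lit 544512190) (nat_lit 532) (nat_lit 1483766854) (nat_lit 608) (nat_lit 7738578685) (nat_lit 267) (nat_lit 5) (nat_lit 274) (nat_lit 5) (nat_lit 275) (nat_lit 5) (nat_lit 591) (nat_lit 521) (nat_lit 448)))))) (XT.nd (nat_lit 624) (nat_lit 2812) (nat_lit 0) (XT.nd (nat_lit 312) (nat_lit 1596) (nat_lit 0) (XT.nd (nat_lit 156) (nat_lit 608) (nat_lit 0) (XT.nd (nat_lit 78) (nat_lit 608) (nat_lit 0) (XT.lf (nat_lit 0) (nat_lit 4988359879) (nat_lit 608) (nat_lit 2554040902) (nat_lit 76) (nat_lit 2322137695) (nat_lit 267) (nat_lit 5) (nat_lit 275) (nat_lit 5) (nat_lit 268) (nat_lit 5) (nat_lit 592) (nat_lit 521) (nat_lit 447)) (XT.lf (nat_lit 0) (nat_lit 4251570300) (nat_lit 608) (nat_lit 3762322856) (nat_lit 684) (nat_lit 1950155383) (nat_lit 259) (nat_lit 5) (nat_lit 267) (nat_lit 5) (nat_lit 268) (nat_lit 5) (nat_lit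 593) (nat_lit 521) (nat_lit 446))) (XT.nd (nat_lit 78) (nat_lit 0) (nat_lit 0) (XT.lf (nat_lit 0) (nat_lit 1015099393) (nat_lit 608) (nat_lit 8937736115) (nat_lit 76) (nat_lit 112694120) (nat_lit 251) (nat_lit 5) (nat_lit 259) (nat_lit 5) (nat_lit 252) (nat_lit 5) (nat_lit 594) (nat_lit 521) (nat_lit 445)) (XT.lf (nat_lit 0) (nat_lit 4046295460) (nat_lit 608) (nat_lit 2066449279) (nat_lit 76) (nat_lit 4055383492) (nat_lit 251) (nat_lit 5) (nat_lit 259) (nat_lit 5) (nat_lit 252) (nat_lit 5) (nat_lit 595) (nat_lit 521) (nat_lit 444)))) (XT.nd (nat_lit 156) (nat_lit 608) (nat_lit 0) (XT.nd (nat_lit 78) (nat_lit 456) (nat_lit 0) (XT.lf (nat_lit 0) (nat_lit 4965826673) (nat_lit 532) (nat_lit 2174354448) (nat_lit 608) (nat_lit 3132557035) (nat_lit 244) (nat_lit 5) (nat_lit 251) (nat_lit 5) (nat_lit 252) (nat_lit 5) (nat_lit 596) (nat_lit 521) (nat_lit 443)) (XT.lf (nat_lit 0) (nat_lit 1756765924) (nat_lit 456) (nat_lit 8546581723) (nat_lit 532) (nat_lit 75945222)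 (nat_lit 238) (nat_lit 5) (nat_lit 244) (nat_lit 5) (nat_lit 245) (nat_lit 5) (nat_lit 597) (nat_lit 521) (nat_lit 442))) (XT.nd (nat_lit 78) (nat_lit 532) (nat_lit 0) (XT.lf (nat_lit 0) (nat_lit 3022346733) (nat_lit 532) (nat_lit 1529933829) (nat_lit 76) (nat_lit 5934894918) (nat_lit 237) (nat_lit 5) (nat_lit 244) (nat_lit 5) (nat_lit 238) (nat_lit 5) (nat_lit 598) (nat_lit 521) (nat_lit 441)) (XT.lf (nat_lit 0) (nat_lit 5738151418) (nat_lit 532) (nat_lit 451471406) (nat_lit 608) (nat_lit 4407422789) (nat_lit 230) (nat_lit 5) (nat_lit 237) (nat_lit 5) (nat_lit 238) (nat_lit 5) (nat_lit 599) (nat_lit 521) (nat_lit 440))))) (XT.nd (nat_lit 312) (nat_lit 1368) (nat_lit 0) (XT.nd (nat_lit 156) (nat_lit 912) (nat_lit 0) (XT.nd (nat_lit 78) (nat_lit 76) (nat_lit 0) (XT.lf (nat_lit 0) (nat_lit 2429655553) (nat_lit 456) (nat_lit 7011933603) (nat_lit 532) (nat_lit 1267097699) (nat_lit 224) (nat_lit 5) (nat_lit 230) (nat_lit 5) (nat_lit 231) (nat_lit 5) (nat_lit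 600) (nat_lit 521) (nat_lit 439)) (XT.lf (nat_lit 0) (nat_lit 1917573920) (nat_lit 532) (nat_lit 949301732) (nat_lit 76) (nat_lit 7955295819) (nat_lit 223) (nat_lit 5) (nat_lit 230) (nat_lit 5) (nat_lit 224) (nat_lit 5) (nat_lit 601) (nat_lit 521) (nat_lit 438))) (XT.nd (nat_lit 78) (nat_lit 456) (nat_lit 0) (XT.lf (nat_lit 0) (nat_lit 5172387732) (nat_lit 532) (nat_lit 4382491252) (nat_lit 76) (nat_lit 1382411546) (nat_lit 217) (nat_lit 5) (nat_lit 224) (nat_lit 5) (nat_lit 218) (nat_lit 5) (nat_lit 602) (nat_lit 521) (nat_lit 437)) (XT.lf (nat_lit 0) (nat_lit 3148675650) (nat_lit 456) (nat_lit 5361362881) (nat_lit 532) (nat_lit 2544319181) (nat_lit 211) (nat_lit 5) (nat_lit 217) (nat_lit 5) (nat_lit 218) (nat_lit 5) (nat_lit 603) (nat_lit 521) (nat_lit 436)))) (XT.nd (nat_lit 156) (nat_lit 836) (nat_lit 0) (XT.nd (nat_lit 78) (nat_lit 456) (nat_lit 0) (XT.lf (nat_lit 0) (nat_lit 732567317) (nat_lit 532) (nat_lit 329271344) (nat_lit 76) (nat_lit 10111799826)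 (nat_lit 210) (nat_lit 5) (nat_lit 217) (nat_lit 5) (nat_lit 211) (nat_lit 5) (nat_lit 604) (nat_lit 521) (nat_lit 435)) (XT.lf (nat_lit 0) (nat_lit 4083734518) (nat_lit 532) (nat_lit 3877253361) (nat_lit 76) (nat_lit 3333124934) (nat_lit 204) (nat_lit 5) (nat_lit 211) (nat_lit 5) (nat_lit 205) (nat_lit 5) (nat_lit 605) (nat_lit 521) (nat_lit 434))) (XT.nd (nat_lit 78) (nat_lit 456) (nat_lit 0) (XT.lf (nat_lit 0) (nat_lit 3909292976) (nat_lit 380) (nat_lit 3600017374) (nat_lit 456) (nat_lit 3907539083) (nat_lit 199) (nat_lit 5) (nat_lit 204) (nat_lit 5) (nat_lit 205) (nat_lit 5) (nat_lit 606) (nat_lit 521) (nat_lit 433)) (XT.lf (nat_lit 0) (nat_lit 320587699) (nat_lit 456) (nat_lit 10689525341) (nat_lit 532) (nat_lit 531793942) (nat_lit 193) (nat_lit 5) (nat_lit 199) (nat_lit 5) (nat_lit 200) (nat_lit 5) (nat_lit 607) (nat_lit 521) (nat_lit 432))))))) (XT.nd (nat_lit 1170) (nat_lit 3496) (nat_lit 0) (XT.nd (nat_lit 546) (nat_lit 2280) (nat_lit 0) (XT.nd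 (nat_lit 234) (nat_lit 912) (nat_lit 0) (XT.nd (nat_lit 78) (nat_lit 760) (nat_lit 0) (XT.lf (nat_lit 0) (nat_lit 2920863642) (nat_lit 532) (nat_lit 3345111294) (nat_lit 76) (nat_lit 5402161528) (nat_lit 192) (nat_lit 5) (nat_lit 199) (nat_lit 5) (nat_lit 193) (nat_lit 5) (nat_lit 608) (nat_lit 521) (nat_lit 431)) (XT.nd (nat_lit 78) (nat_lit 380) (nat_lit 0) (XT.lf (nat_lit 0) (nat_lit 4706992025) (nat_lit 380) (nat_lit 1732585548) (nat_lit 456) (nat_lit 5357160654) (nat_lit 187) (nat_lit 5) (nat_lit 192) (nat_lit 5) (nat_lit 193) (nat_lit 5) (nat_lit 609) (nat_lit 521) (nat_lit 430)) (XT.lf (nat_lit 0) (nat_lit 992092569) (nat_lit 380) (nat_lit 9058114912) (nat_lit 456) (nat_lit 1877274175) (nat_lit 182) (nat_lit 5) (nat_lit 187) (nat_lit 5) (nat_lit 188) (nat_lit 5) (nat_lit 610) (nat_lit 521) (nat_lit 429)))) (XT.nd (nat_lit 156) (nat_lit 456) (nat_lit 0) (XT.nd (nat_lit 78) (nat_lit 380) (nat_lit 0) (XT.lf (nat_lit 0) (nat_lit 1683458951) (nat_lit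 456) (nat_lit 2790963451) (nat_lit 76) (nat_lit 7585537252) (nat_lit 181) (nat_lit 5) (nat_lit 187) (nat_lit 5) (nat_lit 182) (nat_lit 5) (nat_lit 611) (nat_lit 521) (nat_lit 428)) (XT.lf (nat_lit 0) (nat_lit 5302109992) (nat_lit 456) (nat_lit 6658943759) (nat_lit 76) (nat_lit 233548924) (nat_lit 176) (nat_lit 5) (nat_lit 182) (nat_lit 5) (nat_lit 177) (nat_lit 5) (nat_lit 612) (nat_lit 521) (nat_lit 427))) (XT.nd (nat_lit 78) (nat_lit 76) (nat_lit 0) (XT.lf (nat_lit 0) (nat_lit 1687988622) (nat_lit 380) (nat_lit 7339079649) (nat_lit 456) (nat_lit 3304192030) (nat_lit 171) (nat_lit 5) (nat_lit 176) (nat_lit 5) (nat_lit 177) (nat_lit 5) (nat_lit 613) (nat_lit 521) (nat_lit 426)) (XT.lf (nat_lit 0) (nat_lit 370755944) (nat_lit 456) (nat_lit 2219794862) (nat_lit 76) (nat_lit 9879663502) (nat_lit 170) (nat_lit 5) (nat_lit 176) (nat_lit 5) (nat_lit 171) (nat_lit 5) (nat_lit 614) (nat_lit 521) (nat_lit 425))))) (XT.nd (nat_lit 312) (nat_lit 1140) (nat_lit 0)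 (XT.nd (nat_lit 156) (nat_lit 380) (nat_lit 0) (XT.nd (nat_lit 78) (nat_lit 380) (nat_lit 0) (XT.lf (nat_lit 0) (nat_lit 4106548113) (nat_lit 456) (nat_lit 6230768993) (nat_lit 76) (nat_lit 2273562112) (nat_lit 165) (nat_lit 5) (nat_lit 171) (nat_lit 5) (nat_lit 166) (nat_lit 5) (nat_lit 615) (nat_lit 521) (nat_lit 424)) (XT.lf (nat_lit 0) (nat_lit 2403381808) (nat_lit 380) (nat_lit 5536644657) (nat_lit 456) (nat_lit 4813871952) (nat_lit 160) (nat_lit 5) (nat_lit 165) (nat_lit 5) (nat_lit 166) (nat_lit 5) (nat_lit 616) (nat_lit 521) (nat_lit 423))) (XT.nd (nat_lit 78) (nat_lit 380) (nat_lit 0) (XT.lf (nat_lit 0) (nat_lit 11256003272) (nat_lit 380) (nat_lit 611433123) (nat_lit 456) (nat_lit 1031996752) (nat_lit 160) (nat_lit 5) (nat_lit 165) (nat_lit 5) (nat_lit 166) (nat_lit 5) (nat_lit 617) (nat_lit 521) (nat_lit 422)) (XT.lf (nat_lit 0) (nat_lit 2840466409) (nat_lit 380) (nat_lit 5799390675) (nat_lit 76) (nat_lit 4406614808) (nat_lit 155) (nat_lit 5)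 (nat_lit 160) (nat_lit 5) (nat_lit 156) (nat_lit 5) (nat_lit 618) (nat_lit 521) (nat_lit 421)))) (XT.nd (nat_lit 156) (nat_lit 760) (nat_lit 0) (XT.nd (nat_lit 78) (nat_lit 0) (nat_lit 0) (XT.lf (nat_lit 0) (nat_lit 3133210603) (nat_lit 380) (nat_lit 3654765645) (nat_lit 456) (nat_lit 6408110783) (nat_lit 150) (nat_lit 5) (nat_lit 155) (nat_lit 5) (nat_lit 156) (nat_lit 5) (nat_lit 619) (nat_lit 521) (nat_lit 420)) (XT.lf (nat_lit 0) (nat_lit 10838937466) (nat_lit 456) (nat_lit 1072889178) (nat_lit 76) (nat_lit 1436378164) (nat_lit 150) (nat_lit 5) (nat_lit 156) (nat_lit 5) (nat_lit 151) (nat_lit 5) (nat_lit 620) (nat_lit 521) (nat_lit 419))) (XT.nd (nat_lit 78) (nat_lit 380) (nat_lit 0) (XT.lf (nat_lit 0) (nat_lit 1502236991) (nat_lit 380) (nat_lit 5370454439) (nat_lit 76) (nat_lit 6629404665) (nat_lit 145) (nat_lit 5) (nat_lit 150) (nat_lit 5) (nat_lit 146) (nat_lit 5) (nat_lit 621) (nat_lit 521) (nat_lit 418)) (XT.lf (nat_lit 0) (nat_lit 3872189246)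 (nat_lit 380) (nat_lit 1697176810) (nat_lit 456) (nat_lit 8089187889) (nat_lit 140) (nat_lit 5) (nat_lit 145) (nat_lit 5) (nat_lit 146) (nat_lit 5) (nat_lit 622) (nat_lit 521) (nat_lit 417)))))) (XT.nd (nat_lit 624) (nat_lit 1824) (nat_lit 0) (XT.nd (nat_lit 312) (nat_lit 684) (nat_lit 0) (XT.nd (nat_lit 156) (nat_lit 608) (nat_lit 0) (XT.nd (nat_lit 78) (nat_lit 380) (nat_lit 0) (XT.lf (nat_lit 0) (nat_lit 9754067073) (nat_lit 456) (nat_lit 506368458) (nat_lit 76) (nat_lit 3556981168) (nat_lit 140) (nat_lit 5) (nat_lit 146) (nat_lit 5) (nat_lit 141) (nat_lit 5) (nat_lit 623) (nat_lit 521) (nat_lit 416)) (XT.lf (nat_lit 0) (nat_lit 89768979) (nat_lit 380) (nat_lit 4949893122) (nat_lit 76) (nat_lit 8938842787) (nat_lit 135) (nat_lit 5) (nat_lit 140) (nat_lit 5) (nat_lit 136) (nat_lit 5) (nat_lit 624) (nat_lit 521) (nat_lit 415))) (XT.nd (nat_lit 78) (nat_lit 304) (nat_lit 0) (XT.lf (nat_lit 0) (nat_lit 4284345443) (nat_lit 380) (nat_lit 9529476687) (nat_lit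 76) (nat_lit 328199777) (nat_lit 131) (nat_lit 5) (nat_lit 136) (nat_lit 5) (nat_lit 132) (nat_lit 5) (nat_lit 625) (nat_lit 521) (nat_lit 414)) (XT.lf (nat_lit 0) (nat_lit 54944467) (nat_lit 304) (nat_lit 8552361387) (nat_lit 380) (nat_lit 5700613869) (nat_lit 127) (nat_lit 5) (nat_lit 131) (nat_lit 5) (nat_lit 132) (nat_lit 5) (nat_lit 626) (nat_lit 521) (nat_lit 413)))) (XT.nd (nat_lit 156) (nat_lit 304) (nat_lit 0) (XT.nd (nat_lit 78) (nat_lit 380) (nat_lit 0) (XT.lf (nat_lit 0) (nat_lit 9923109018) (nat_lit 304) (nat_lit 3135091953) (nat_lit 380) (nat_lit 1418105314) (nat_lit 127) (nat_lit 5) (nat_lit 131) (nat_lit 5) (nat_lit 132) (nat_lit 5) (nat_lit 627) (nat_lit 521) (nat_lit 412)) (XT.lf (nat_lit 0) (nat_lit 2939736815) (nat_lit 380) (nat_lit 9308242592) (nat_lit 76) (nat_lit 2399130910) (nat_lit 122) (nat_lit 5) (nat_lit 127) (nat_lit 5) (nat_lit 123) (nat_lit 5) (nat_lit 628) (nat_lit 521) (nat_lit 411))) (XT.nd (nat_lit 78) (nat_lit 0) (nat_lit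 0) (XT.lf (nat_lit 0) (nat_lit 610635721) (nat_lit 304) (nat_lit 6788539376) (nat_lit 380) (nat_lit 7421299587) (nat_lit 118) (nat_lit 5) (nat_lit 122) (nat_lit 5) (nat_lit 123) (nat_lit 5) (nat_lit 629) (nat_lit 521) (nat_lit 410)) (XT.lf (nat_lit 0) (nat_lit 10817517957) (nat_lit 304) (nat_lit 1170869350) (nat_lit 380) (nat_lit 3008107607) (nat_lit 118) (nat_lit 5) (nat_lit 122) (nat_lit 5) (nat_lit 123) (nat_lit 5) (nat_lit 630) (nat_lit 521) (nat_lit 409))))) (XT.nd (nat_lit 312) (nat_lit 836) (nat_lit 0) (XT.nd (nat_lit 156) (nat_lit 380) (nat_lit 0) (XT.nd (nat_lit 78) (nat_lit 228) (nat_lit 0) (XT.lf (nat_lit 0) (nat_lit 1521521618) (nat_lit 380) (nat_lit 9118803701) (nat_lit 76) (nat_lit 4534561400) (nat_lit 113) (nat_lit 5) (nat_lit 118) (nat_lit 5) (nat_lit 114) (nat_lit 5) (nat_lit 631) (nat_lit 521) (nat_lit 408)) (XT.lf (nat_lit 0) (nat_lit 1147173654) (nat_lit 228) (nat_lit 4976265017) (nat_lit 304) (nat_lit 9232570804) (nat_lit 110) (nat_lit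 5) (nat_lit 113) (nat_lit 5) (nat_lit 114) (nat_lit 5) (nat_lit 632) (nat_lit 521) (nat_lit 407))) (XT.nd (nat_lit 78) (nat_lit 380) (nat_lit 0) (XT.lf (nat_lit 0) (nat_lit 10862790012) (nat_lit 304) (nat_lit 3839368250) (nat_lit 76) (nat_lit 837688761) (nat_lit 110) (nat_lit 5) (nat_lit 114) (nat_lit 5) (nat_lit 111) (nat_lit 5) (nat_lit 633) (nat_lit 521) (nat_lit 406)) (XT.lf (nat_lit 0) (nat_lit 26183030) (nat_lit 380) (nat_lit 8968854398) (nat_lit 76) (nat_lit 6731203757) (nat_lit 105) (nat_lit 5) (nat_lit 110) (nat_lit 5) (nat_lit 106) (nat_lit 5) (nat_lit 634) (nat_lit 521) (nat_lit 405)))) (XT.nd (nat_lit 156) (nat_lit 608) (nat_lit 0) (XT.nd (nat_lit 78) (nat_lit 0) (nat_lit 0) (XT.lf (nat_lit 0) (nat_lit 1657221121) (nat_lit 228) (nat_lit 3119455173) (nat_lit 304) (nat_lit 11138752584) (nat_lit 102) (nat_lit 5) (nat_lit 105) (nat_lit 5) (nat_lit 106) (nat_lit 5) (nat_lit 635) (nat_lit 521) (nat_lit 404)) (XT.lf (nat_lit 0) (nat_lit 9680567968)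 (nat_lit 304) (nat_lit 3544586982) (nat_lit 76) (nat_lit 2882077844) (nat_lit 102) (nat_lit 5) (nat_lit 106) (nat_lit 5) (nat_lit 103) (nat_lit 5) (nat_lit 636) (nat_lit 521) (nat_lit 403))) (XT.nd (nat_lit 78) (nat_lit 304) (nat_lit 0) (XT.lf (nat_lit 0) (nat_lit 7425000774) (nat_lit 304) (nat_lit 7305958922) (nat_lit 380) (nat_lit 1570944879) (nat_lit 98) (nat_lit 5) (nat_lit 102) (nat_lit 5) (nat_lit 103) (nat_lit 5) (nat_lit 637) (nat_lit 521) (nat_lit 402)) (XT.lf (nat_lit 0) (nat_lit 2132823440) (nat_lit 228) (nat_lit 1222099246) (nat_lit 304) (nat_lit 13144760434) (nat_lit 94) (nat_lit 5) (nat_lit 97) (nat_lit 5) (nat_lit 98) (nat_lit 5) (nat_lit 638) (nat_lit 521) (nat_lit 401))))))))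
noncomputable def xc71 : XT := (XT.nd (nat_lit 73944) (nat_lit 0) (nat_lit 21812) (XT.nd (nat_lit 72696) (nat_lit 0) (nat_lit 46360) (XT.nd (nat_lit 72072) (nat_lit 0) (nat_lit 52516) (XT.nd (nat_lit 234) (nat_lit 532) (nat_lit 0) (XT.nd (nat_lit 78) (nat_lit 532) (nat_lit 0) (XT.lf (nat_lit 0) (nat_lit 8430286378) (nat_lit 304) (nat_lit 3295452976) (nat_lit 76) (nat_lit 4974030147) (nat_lit 94) (nat_lit 5) (nat_lit 98) (nat_lit 5) (nat_lit 95) (nat_lit 5) (nat_lit 639) (nat_lit 521) (nat_lit 400)) (XT.nd (nat_lit 78) (nat_lit 304) (nat_lit 0) (XT.lf (nat_lit 0) (nat_lit 8060545937) (nat_lit 228) (nat_lit 5587112807) (nat_lit 304) (nat_lit 3255389052) (nat_lit 91) (nat_lit 5) (nat_lit 94) (nat_lit 5) (nat_lit 95) (nat_lit 5) (nat_lit 640) (nat_lit 521) (nat_lit 399)) (XT.lf (nat_lit 0) (nat_lit 1858254133) (nat_lit 304) (nat_lit 14549071962) (nat_lit 76) (nat_lit 702351410) (nat_lit 87) (nat_lit 5) (nat_lit 91) (nat_lit 5) (nat_lit 88) (nat_lit 5) (nat_lit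 641) (nat_lit 521) (nat_lit 398)))) (XT.nd (nat_lit 156) (nat_lit 304) (nat_lit 0) (XT.nd (nat_lit 78) (nat_lit 228) (nat_lit 0) (XT.lf (nat_lit 0) (nat_lit 7107536878) (nat_lit 304) (nat_lit 3101137216) (nat_lit 76) (nat_lit 7109796426) (nat_lit 87) (nat_lit 5) (nat_lit 91) (nat_lit 5) (nat_lit 88) (nat_lit 5) (nat_lit 642) (nat_lit 521) (nat_lit 397)) (XT.lf (nat_lit 0) (nat_lit 8655381821) (nat_lit 228) (nat_lit 3843192539) (nat_lit 304) (nat_lit 5032129853) (nat_lit 84) (nat_lit 5) (nat_lit 87) (nat_lit 5) (nat_lit 88) (nat_lit 5) (nat_lit 643) (nat_lit 521) (nat_lit 396))) (XT.nd (nat_lit 78) (nat_lit 0) (nat_lit 0) (XT.lf (nat_lit 0) (nat_lit 285030348) (nat_lit 304) (nat_lit 14818881330) (nat_lit 76) (nat_lit 2642477346) (nat_lit 80) (nat_lit 5) (nat_lit 84) (nat_lit 5) (nat_lit 81) (nat_lit 5) (nat_lit 644) (nat_lit 521) (nat_lit 395)) (XT.lf (nat_lit 0) (nat_lit 5707295264) (nat_lit 304) (nat_lit 2971659943) (nat_lit 76) (nat_lit 9285444431) (nat_lit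 80) (nat_lit 5) (nat_lit 84) (nat_lit 5) (nat_lit 81) (nat_lit 5) (nat_lit 645) (nat_lit 521) (nat_lit 394))))) (XT.nd (nat_lit 312) (nat_lit 836) (nat_lit 0) (XT.nd (nat_lit 156) (nat_lit 304) (nat_lit 0) (XT.nd (nat_lit 78) (nat_lit 228) (nat_lit 0) (XT.lf (nat_lit 0) (nat_lit 3014296722) (nat_lit 228) (nat_lit 105349619) (nat_lit 228) (nat_lit 105349619) (nat_lit 789) (nat_lit 3) (nat_lit 792) (nat_lit 3) (nat_lit 792) (nat_lit 5) (nat_lit 522) (nat_lit 522) (nat_lit 516)) (XT.lf (nat_lit 0) (nat_lit 2586848688) (nat_lit 228) (nat_lit 3427070128) (nat_lit 304) (nat_lit 440321328) (nat_lit 786) (nat_lit 5) (nat_lit 789) (nat_lit 3) (nat_lit 790) (nat_lit 5) (nat_lit 523) (nat_lit 522) (nat_lit 515))) (XT.nd (nat_lit 78) (nat_lit 304) (nat_lit 0) (XT.lf (nat_lit 0) (nat_lit 5572434337) (nat_lit 228) (nat_lit 169964498) (nat_lit 304) (nat_lit 717666911) (nat_lit 786) (nat_lit 5) (nat_lit 789) (nat_lit 3) (nat_lit 790) (nat_lit 5) (nat_lit 524) (nat_lit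 522) (nat_lit 514)) (XT.lf (nat_lit 0) (nat_lit 2066525919) (nat_lit 304) (nat_lit 3327564897) (nat_lit 380) (nat_lit 1072781459) (nat_lit 782) (nat_lit 5) (nat_lit 786) (nat_lit 5) (nat_lit 787) (nat_lit 5) (nat_lit 525) (nat_lit 522) (nat_lit 513)))) (XT.nd (nat_lit 156) (nat_lit 456) (nat_lit 0) (XT.nd (nat_lit 78) (nat_lit 380) (nat_lit 0) (XT.lf (nat_lit 0) (nat_lit 4992713047) (nat_lit 304) (nat_lit 3824599) (nat_lit 380) (nat_lit 1478667491) (nat_lit 782) (nat_lit 5) (nat_lit 786) (nat_lit 5) (nat_lit 787) (nat_lit 5) (nat_lit 526) (nat_lit 522) (nat_lit 512)) (XT.lf (nat_lit 0) (nat_lit 1420957512) (nat_lit 380) (nat_lit 3103663686) (nat_lit 456) (nat_lit 1959956945) (nat_lit 777) (nat_lit 5) (nat_lit 782) (nat_lit 5) (nat_lit 783) (nat_lit 5) (nat_lit 527) (nat_lit 522) (nat_lit 511))) (XT.nd (nat_lit 78) (nat_lit 456) (nat_lit 0) (XT.lf (nat_lit 76) (nat_lit 292145486) (nat_lit 0) (nat_lit 3998305773) (nat_lit 456) (nat_lit 2204938793) (nat_lit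 778) (nat_lit 5) (nat_lit 777) (nat_lit 5) (nat_lit 783) (nat_lit 5) (nat_lit 528) (nat_lit 522) (nat_lit 510)) (XT.lf (nat_lit 0) (nat_lit 649143732) (nat_lit 456) (nat_lit 2754652444) (nat_lit 532) (nat_lit 3103582487) (nat_lit 771) (nat_lit 5) (nat_lit 777) (nat_lit 5) (nat_lit 778) (nat_lit 5) (nat_lit 529) (nat_lit 522) (nat_lit 509)))))) (XT.nd (nat_lit 624) (nat_lit 4408) (nat_lit 0) (XT.nd (nat_lit 312) (nat_lit 1216) (nat_lit 0) (XT.nd (nat_lit 156) (nat_lit 532) (nat_lit 0) (XT.nd (nat_lit 78) (nat_lit 0) (nat_lit 0) (XT.lf (nat_lit 76) (nat_lit 716690235) (nat_lit 0) (nat_lit 2746799571) (nat_lit 532) (nat_lit 3057175341) (nat_lit 772) (nat_lit 5) (nat_lit 771) (nat_lit 5) (nat_lit 778) (nat_lit 5) (nat_lit 530) (nat_lit 522) (nat_lit 508)) (XT.lf (nat_lit 76) (nat_lit 4254051101) (nat_lit 0) (nat_lit 2027728774) (nat_lit 532) (nat_lit 253487990) (nat_lit 772) (nat_lit 5) (nat_lit 771) (nat_lit 5) (nat_lit 778) (nat_lit 5) (nat_lit 531) (nat_lit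 522) (nat_lit 507))) (XT.nd (nat_lit 78) (nat_lit 0) (nat_lit 0) (XT.lf (nat_lit 76) (nat_lit 1270860269) (nat_lit 0) (nat_lit 1239579667) (nat_lit 608) (nat_lit 4040620800) (nat_lit 765) (nat_lit 5) (nat_lit 764) (nat_lit 5) (nat_lit 772) (nat_lit 5) (nat_lit 532) (nat_lit 522) (nat_lit 506)) (XT.lf (nat_lit 76) (nat_lit 4882587078) (nat_lit 0) (nat_lit 390169688) (nat_lit 608) (nat_lit 1295452530) (nat_lit 765) (nat_lit 5) (nat_lit 764) (nat_lit 5) (nat_lit 772) (nat_lit 5) (nat_lit 533) (nat_lit 522) (nat_lit 505)))) (XT.nd (nat_lit 156) (nat_lit 684) (nat_lit 0) (XT.nd (nat_lit 78) (nat_lit 0) (nat_lit 0) (XT.lf (nat_lit 0) (nat_lit 1433105890) (nat_lit 608) (nat_lit 4634020391) (nat_lit 76) (nat_lit 519418067) (nat_lit 757) (nat_lit 5) (nat_lit 765) (nat_lit 5) (nat_lit 758) (nat_lit 5) (nat_lit 534) (nat_lit 522) (nat_lit 504)) (XT.lf (nat_lit 0) (nat_lit 4146218899) (nat_lit 608) (nat_lit 971941354) (nat_lit 76) (nat_lit 1487971234) (nat_lit 757)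 (nat_lit 5) (nat_lit 765) (nat_lit 5) (nat_lit 758) (nat_lit 5) (nat_lit 535) (nat_lit 522) (nat_lit 503))) (XT.nd (nat_lit 78) (nat_lit 0) (nat_lit 0) (XT.lf (nat_lit 0) (nat_lit 235955627) (nat_lit 684) (nat_lit 3870201102) (nat_lit 76) (nat_lit 2520874574) (nat_lit 748) (nat_lit 5) (nat_lit 757) (nat_lit 5) (nat_lit 749) (nat_lit 5) (nat_lit 536) (nat_lit 522) (nat_lit 502)) (XT.lf (nat_lit 0) (nat_lit 2894636164) (nat_lit 684) (nat_lit 132936374) (nat_lit 76) (nat_lit 3621617764) (nat_lit 748) (nat_lit 5) (nat_lit 757) (nat_lit 5) (nat_lit 749) (nat_lit 5) (nat_lit 537) (nat_lit 522) (nat_lit 501))))) (XT.nd (nat_lit 312) (nat_lit 1976) (nat_lit 0) (XT.nd (nat_lit 156) (nat_lit 912) (nat_lit 0) (XT.nd (nat_lit 78) (nat_lit 836) (nat_lit 0) (XT.lf (nat_lit 0) (nat_lit 3686505371) (nat_lit 684) (nat_lit 1880427007) (nat_lit 760) (nat_lit 1105654252) (nat_lit 739) (nat_lit 5) (nat_lit 748) (nat_lit 5) (nat_lit 749) (nat_lit 5) (nat_lit 538) (nat_lit 522)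 (nat_lit 500)) (XT.lf (nat_lit 0) (nat_lit 846955793) (nat_lit 760) (nat_lit 671801055) (nat_lit 836) (nat_lit 5178620274) (nat_lit 728) (nat_lit 5) (nat_lit 738) (nat_lit 5) (nat_lit 739) (nat_lit 5) (nat_lit 539) (nat_lit 522) (nat_lit 499))) (XT.nd (nat_lit 78) (nat_lit 912) (nat_lit 0) (XT.lf (nat_lit 0) (nat_lit 4142850567) (nat_lit 836) (nat_lit 1978820511) (nat_lit 76) (nat_lit 601609016) (nat_lit 728) (nat_lit 5) (nat_lit 739) (nat_lit 5) (nat_lit 729) (nat_lit 5) (nat_lit 540) (nat_lit 522) (nat_lit 498)) (XT.lf (nat_lit 0) (nat_lit 25011001) (nat_lit 912) (nat_lit 4801162402) (nat_lit 76) (nat_lit 1924397367) (nat_lit 716) (nat_lit 5) (nat_lit 728) (nat_lit 5) (nat_lit 717) (nat_lit 5) (nat_lit 541) (nat_lit 522) (nat_lit 497)))) (XT.nd (nat_lit 156) (nat_lit 1064) (nat_lit 0) (XT.nd (nat_lit 78) (nat_lit 912) (nat_lit 0) (XT.lf (nat_lit 0) (nat_lit 2601313090) (nat_lit 912) (nat_lit 854576013) (nat_lit 76) (nat_lit 3323113584) (nat_lit 716)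 (nat_lit 5) (nat_lit 728) (nat_lit 5) (nat_lit 717) (nat_lit 5) (nat_lit 542) (nat_lit 522) (nat_lit 496)) (XT.lf (nat_lit 0) (nat_lit 3171077717) (nat_lit 912) (nat_lit 2019736103) (nat_lit 988) (nat_lit 1617958574) (nat_lit 704) (nat_lit 5) (nat_lit 716) (nat_lit 5) (nat_lit 717) (nat_lit 5) (nat_lit 543) (nat_lit 522) (nat_lit 495))) (XT.nd (nat_lit 78) (nat_lit 0) (nat_lit 0) (XT.lf (nat_lit 0) (nat_lit 406694892) (nat_lit 988) (nat_lit 523247292) (nat_lit 1064) (nat_lit 5910068913) (nat_lit 690) (nat_lit 5) (nat_lit 703) (nat_lit 5) (nat_lit 704) (nat_lit 5) (nat_lit 544) (nat_lit 522) (nat_lit 494)) (XT.lf (nat_lit 0) (nat_lit 3480805105) (nat_lit 1064) (nat_lit 2350433953) (nat_lit 76) (nat_lit 1040950700) (nat_lit 690) (nat_lit 5) (nat_lit 704) (nat_lit 5) (nat_lit 691) (nat_lit 5) (nat_lit 545) (nat_lit 522) (nat_lit 493))))))) (XT.nd (nat_lit 1170) (nat_lit 10108) (nat_lit 0) (XT.nd (nat_lit 546) (nat_lit 9500) (nat_lit 0) (XT.nd (nat_lit 234)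 (nat_lit 2660) (nat_lit 0) (XT.nd (nat_lit 78) (nat_lit 1216) (nat_lit 0) (XT.lf (nat_lit 0) (nat_lit 1792045802) (nat_lit 1064) (nat_lit 4249428669) (nat_lit 1140) (nat_lit 864364144) (nat_lit 676) (nat_lit 5) (nat_lit 690) (nat_lit 5) (nat_lit 691) (nat_lit 5) (nat_lit 546) (nat_lit 522) (nat_lit 492)) (XT.nd (nat_lit 78) (nat_lit 1140) (nat_lit 0) (XT.lf (nat_lit 0) (nat_lit 1650756695) (nat_lit 1140) (nat_lit 944402232) (nat_lit 76) (nat_lit 4345580792) (nat_lit 675) (nat_lit 5) (nat_lit 690) (nat_lit 5) (nat_lit 676) (nat_lit 5) (nat_lit 547) (nat_lit 522) (nat_lit 491)) (XT.lf (nat_lit 0) (nat_lit 3304256960) (nat_lit 1140) (nat_lit 867060168) (nat_lit 1216) (nat_lit 2805575495) (nat_lit 660) (nat_lit 5) (nat_lit 675) (nat_lit 5) (nat_lit 676) (nat_lit 5) (nat_lit 548) (nat_lit 522) (nat_lit 490)))) (XT.nd (nat_lit 156) (nat_lit 1368) (nat_lit 0) (XT.nd (nat_lit 78) (nat_lit 76) (nat_lit 0) (XT.lf (nat_lit 0) (nat_lit 596395533) (nat_lit 1216) (nat_lit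 6108091976) (nat_lit 1292) (nat_lit 310039322) (nat_lit 644) (nat_lit 5) (nat_lit 660) (nat_lit 5) (nat_lit 661) (nat_lit 5) (nat_lit 549) (nat_lit 522) (nat_lit 489)) (XT.lf (nat_lit 0) (nat_lit 2183200386) (nat_lit 1292) (nat_lit 2115299565) (nat_lit 76) (nat_lit 2754583421) (nat_lit 643) (nat_lit 5) (nat_lit 660) (nat_lit 5) (nat_lit 644) (nat_lit 5) (nat_lit 550) (nat_lit 522) (nat_lit 488))) (XT.nd (nat_lit 78) (nat_lit 76) (nat_lit 0) (XT.lf (nat_lit 0) (nat_lit 2258955742) (nat_lit 1292) (nat_lit 2425476017) (nat_lit 1368) (nat_lit 2408694825) (nat_lit 626) (nat_lit 5) (nat_lit 643) (nat_lit 5) (nat_lit 644) (nat_lit 5) (nat_lit 551) (nat_lit 522) (nat_lit 487)) (XT.lf (nat_lit 0) (nat_lit 62690692) (nat_lit 1368) (nat_lit 427693160) (nat_lit 76) (nat_lit 6644329460) (nat_lit 625) (nat_lit 5) (nat_lit 643) (nat_lit 5) (nat_lit 626) (nat_lit 5) (nat_lit 552) (nat_lit 522) (nat_lit 486))))) (XT.nd (nat_lit 312) (nat_lit 5092) (nat_lit 0) (XT.nd (nat_lit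 156) (nat_lit 1596) (nat_lit 0) (XT.nd (nat_lit 78) (nat_lit 1444) (nat_lit 0) (XT.lf (nat_lit 0) (nat_lit 2536667073) (nat_lit 1444) (nat_lit 3124821159) (nat_lit 76) (nat_lit 1515618774) (nat_lit 607) (nat_lit 5) (nat_lit 626) (nat_lit 5) (nat_lit 608) (nat_lit 5) (nat_lit 553) (nat_lit 522) (nat_lit 485)) (XT.lf (nat_lit 0) (nat_lit 1379624040) (nat_lit 1444) (nat_lit 3645417455) (nat_lit 1520) (nat_lit 2196010641) (nat_lit 588) (nat_lit 5) (nat_lit 607) (nat_lit 5) (nat_lit 608) (nat_lit 5) (nat_lit 554) (nat_lit 522) (nat_lit 484))) (XT.nd (nat_lit 78) (nat_lit 1520) (nat_lit 0) (XT.lf (nat_lit 0) (nat_lit 264720282) (nat_lit 1520) (nat_lit 1293967729) (nat_lit 76) (nat_lit 5707725166) (nat_lit 587) (nat_lit 5) (nat_lit 607) (nat_lit 5) (nat_lit 588) (nat_lit 5) (nat_lit 555) (nat_lit 522) (nat_lit 483)) (XT.lf (nat_lit 0) (nat_lit 2722081942) (nat_lit 1596) (nat_lit 3985442362) (nat_lit 76) (nat_lit 605332231) (nat_lit 567) (nat_lit 5) (nat_lit 588)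 (nat_lit 5) (nat_lit 568) (nat_lit 5) (nat_lit 556) (nat_lit 522) (nat_lit 482)))) (XT.nd (nat_lit 156) (nat_lit 3420) (nat_lit 0) (XT.nd (nat_lit 78) (nat_lit 76) (nat_lit 0) (XT.lf (nat_lit 0) (nat_lit 654063277) (nat_lit 1596) (nat_lit 4549744401) (nat_lit 1672) (nat_lit 2156918532) (nat_lit 546) (nat_lit 5) (nat_lit 567) (nat_lit 5) (nat_lit 568) (nat_lit 5) (nat_lit 557) (nat_lit 522) (nat_lit 481)) (XT.lf (nat_lit 0) (nat_lit 300523622) (nat_lit 1672) (nat_lit 2014124810) (nat_lit 76) (nat_lit 5095280691) (nat_lit 545) (nat_lit 5) (nat_lit 567) (nat_lit 5) (nat_lit 546) (nat_lit 5) (nat_lit 558) (nat_lit 522) (nat_lit 480))) (XT.nd (nat_lit 78) (nat_lit 1748) (nat_lit 0) (XT.lf (nat_lit 0) (nat_lit 2749336077) (nat_lit 1748) (nat_lit 4708708266) (nat_lit 76) (nat_lit 2366239) (nat_lit 523) (nat_lit 5) (nat_lit 546) (nat_lit 5) (nat_lit 524) (nat_lit 5) (nat_lit 559) (nat_lit 522) (nat_lit 479)) (XT.lf (nat_lit 0) (nat_lit 71005840) (nat_lit 1748)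 (nat_lit 5159379307) (nat_lit 1824) (nat_lit 2281852967) (nat_lit 500) (nat_lit 5) (nat_lit 523) (nat_lit 5) (nat_lit 524) (nat_lit 5) (nat_lit 560) (nat_lit 522) (nat_lit 478)))))) (XT.nd (nat_lit 624) (nat_lit 4256) (nat_lit 0) (XT.nd (nat_lit 312) (nat_lit 2812) (nat_lit 0) (XT.nd (nat_lit 156) (nat_lit 1140) (nat_lit 0) (XT.nd (nat_lit 78) (nat_lit 1824) (nat_lit 0) (XT.lf (nat_lit 0) (nat_lit 179379546) (nat_lit 1824) (nat_lit 2599160811) (nat_lit 76) (nat_lit 4786818051) (nat_lit 499) (nat_lit 5) (nat_lit 523) (nat_lit 5) (nat_lit 500) (nat_lit 5) (nat_lit 561) (nat_lit 522) (nat_lit 477)) (XT.lf (nat_lit 0) (nat_lit 2312467859) (nat_lit 1824) (nat_lit 316945059) (nat_lit 1900) (nat_lit 4990425480) (nat_lit 475) (nat_lit 5) (nat_lit 499) (nat_lit 5) (nat_lit 500) (nat_lit 5) (nat_lit 562) (nat_lit 522) (nat_lit 476))) (XT.nd (nat_lit 78) (nat_lit 1140) (nat_lit 0) (XT.lf (nat_lit 0) (nat_lit 5115955964) (nat_lit 1900) (nat_lit 374979998) (nat_lit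 76) (nat_lit 2184723369) (nat_lit 475) (nat_lit 5) (nat_lit 500) (nat_lit 5) (nat_lit 476) (nat_lit 5) (nat_lit 563) (nat_lit 522) (nat_lit 475)) (XT.lf (nat_lit 0) (nat_lit 4672969140) (nat_lit 1140) (nat_lit 2968275820) (nat_lit 1216) (nat_lit 91572917) (nat_lit 460) (nat_lit 5) (nat_lit 475) (nat_lit 5) (nat_lit 476) (nat_lit 5) (nat_lit 564) (nat_lit 522) (nat_lit 474)))) (XT.nd (nat_lit 156) (nat_lit 1824) (nat_lit 0) (XT.nd (nat_lit 78) (nat_lit 0) (nat_lit 0) (XT.lf (nat_lit 0) (nat_lit 2003830651) (nat_lit 912) (nat_lit 362685963) (nat_lit 988) (nat_lit 5424841147) (nat_lit 447) (nat_lit 5) (nat_lit 459) (nat_lit 5) (nat_lit 460) (nat_lit 5) (nat_lit 565) (nat_lit 522) (nat_lit 473)) (XT.lf (nat_lit 0) (nat_lit 4865555360) (nat_lit 988) (nat_lit 699188061) (nat_lit 76) (nat_lit 2286454052) (nat_lit 447) (nat_lit 5) (nat_lit 460) (nat_lit 5) (nat_lit 448) (nat_lit 5) (nat_lit 566) (nat_lit 522) (nat_lit 472))) (XT.nd (nat_lit 78) (nat_lit 912) (nat_lit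 0) (XT.lf (nat_lit 0) (nat_lit 4505301979) (nat_lit 912) (nat_lit 2899203162) (nat_lit 988) (nat_lit 507931615) (nat_lit 435) (nat_lit 5) (nat_lit 447) (nat_lit 5) (nat_lit 448) (nat_lit 5) (nat_lit 567) (nat_lit 522) (nat_lit 471)) (XT.lf (nat_lit 0) (nat_lit 1816660782) (nat_lit 836) (nat_lit 151254529) (nat_lit 912) (nat_lit 6007223301) (nat_lit 423) (nat_lit 5) (nat_lit 434) (nat_lit 5) (nat_lit 435) (nat_lit 5) (nat_lit 568) (nat_lit 522) (nat_lit 470))))) (XT.nd (nat_lit 312) (nat_lit 2432) (nat_lit 0) (XT.nd (nat_lit 156) (nat_lit 912) (nat_lit 0) (XT.nd (nat_lit 78) (nat_lit 912) (nat_lit 0) (XT.lf (nat_lit 0) (nat_lit 4485793077) (nat_lit 912) (nat_lit 911358003) (nat_lit 76) (nat_lit 2641891276) (nat_lit 423) (nat_lit 5) (nat_lit 435) (nat_lit 5) (nat_lit 424) (nat_lit 5) (nat_lit 569) (nat_lit 522) (nat_lit 469)) (XT.lf (nat_lit 0) (nat_lit 4455881297) (nat_lit 912) (nat_lit 2587959101) (nat_lit 988) (nat_lit 1060588812) (nat_lit 411) (nat_lit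 5) (nat_lit 423) (nat_lit 5) (nat_lit 424) (nat_lit 5) (nat_lit 570) (nat_lit 522) (nat_lit 468))) (XT.nd (nat_lit 78) (nat_lit 0) (nat_lit 0) (XT.lf (nat_lit 0) (nat_lit 1442052535) (nat_lit 912) (nat_lit 6430849396) (nat_lit 76) (nat_lit 298439398) (nat_lit 399) (nat_lit 5) (nat_lit 411) (nat_lit 5) (nat_lit 400) (nat_lit 5) (nat_lit 571) (nat_lit 522) (nat_lit 467)) (XT.lf (nat_lit 0) (nat_lit 3982962562) (nat_lit 912) (nat_lit 1019661186) (nat_lit 76) (nat_lit 3236780590) (nat_lit 399) (nat_lit 5) (nat_lit 411) (nat_lit 5) (nat_lit 400) (nat_lit 5) (nat_lit 572) (nat_lit 522) (nat_lit 466)))) (XT.nd (nat_lit 156) (nat_lit 760) (nat_lit 0) (XT.nd (nat_lit 78) (nat_lit 836) (nat_lit 0) (XT.lf (nat_lit 0) (nat_lit 4516828965) (nat_lit 836) (nat_lit 2048579485) (nat_lit 912) (nat_lit 1743606985) (nat_lit 388) (nat_lit 5) (nat_lit 399) (nat_lit 5) (nat_lit 400) (nat_lit 5) (nat_lit 573) (nat_lit 522) (nat_lit 465)) (XT.lf (nat_lit 0) (nat_lit 795155637)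 (nat_lit 836) (nat_lit 6613218624) (nat_lit 76) (nat_lit 971810835) (nat_lit 377) (nat_lit 5) (nat_lit 388) (nat_lit 5) (nat_lit 378) (nat_lit 5) (nat_lit 574) (nat_lit 522) (nat_lit 464))) (XT.nd (nat_lit 78) (nat_lit 760) (nat_lit 0) (XT.lf (nat_lit 0) (nat_lit 3362625843) (nat_lit 836) (nat_lit 1031692376) (nat_lit 76) (nat_lit 4058204954) (nat_lit 377) (nat_lit 5) (nat_lit 388) (nat_lit 5) (nat_lit 378) (nat_lit 5) (nat_lit 575) (nat_lit 522) (nat_lit 463)) (XT.lf (nat_lit 0) (nat_lit 4680847301) (nat_lit 760) (nat_lit 1293807510) (nat_lit 836) (nat_lit 2551790101) (nat_lit 367) (nat_lit 5) (nat_lit 377) (nat_lit 5) (nat_lit 378) (nat_lit 5) (nat_lit 576) (nat_lit 522) (nat_lit 462))))))))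
noncomputable def xc72 : XT := (XT.nd (nat_lit 2418) (nat_lit 7676) (nat_lit 0) (XT.nd (nat_lit 1170) (nat_lit 5700) (nat_lit 0) (XT.nd (nat_lit 546) (nat_lit 3344) (nat_lit 0) (XT.nd (nat_lit 234) (nat_lit 2128) (nat_lit 0) (XT.nd (nat_lit 78) (nat_lit 760) (nat_lit 0) (XT.lf (nat_lit 0) (nat_lit 31173773) (nat_lit 836) (nat_lit 6712066678) (nat_lit 76) (nat_lit 1858709252) (nat_lit 356) (nat_lit 5) (nat_lit 367) (nat_lit 5) (nat_lit 357) (nat_lit 5) (nat_lit 577) (nat_lit 522) (nat_lit 461)) (XT.nd (nat_lit 78) (nat_lit 760) (nat_lit 0) (XT.lf (nat_lit 0) (nat_lit 2629654859) (nat_lit 836) (nat_lit 954527051) (nat_lit 76) (nat_lit 5094485830) (nat_lit 356) (nat_lit 5) (nat_lit 367) (nat_lit 5) (nat_lit 357) (nat_lit 5) (nat_lit 578) (nat_lit 522) (nat_lit 460)) (XT.lf (nat_lit 0) (nat_lit 4941162195) (nat_lit 760) (nat_lit 335190671) (nat_lit 836) (nat_lit 3480643334) (nat_lit 346) (nat_lit 5) (nat_lit 356) (nat_lit 5) (nat_lit 357) (nat_lit 5) (nat_lit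 579) (nat_lit 522) (nat_lit 459)))) (XT.nd (nat_lit 156) (nat_lit 1368) (nat_lit 0) (XT.nd (nat_lit 78) (nat_lit 76) (nat_lit 0) (XT.lf (nat_lit 0) (nat_lit 2096859443) (nat_lit 684) (nat_lit 5883086794) (nat_lit 760) (nat_lit 856866748) (nat_lit 337) (nat_lit 5) (nat_lit 346) (nat_lit 5) (nat_lit 347) (nat_lit 5) (nat_lit 580) (nat_lit 522) (nat_lit 458)) (XT.lf (nat_lit 0) (nat_lit 1788268496) (nat_lit 760) (nat_lit 794775992) (nat_lit 76) (nat_lit 6335091421) (nat_lit 336) (nat_lit 5) (nat_lit 346) (nat_lit 5) (nat_lit 337) (nat_lit 5) (nat_lit 581) (nat_lit 522) (nat_lit 457))) (XT.nd (nat_lit 78) (nat_lit 684) (nat_lit 0) (XT.lf (nat_lit 0) (nat_lit 4479943100) (nat_lit 760) (nat_lit 3714811304) (nat_lit 76) (nat_lit 806116336) (nat_lit 327) (nat_lit 5) (nat_lit 337) (nat_lit 5) (nat_lit 328) (nat_lit 5) (nat_lit 582) (nat_lit 522) (nat_lit 456)) (XT.lf (nat_lit 0) (nat_lit 2386363057) (nat_lit 684) (nat_lit 4842860428) (nat_lit 760) (nat_lit 1855962248)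 (nat_lit 318) (nat_lit 5) (nat_lit 327) (nat_lit 5) (nat_lit 328) (nat_lit 5) (nat_lit 583) (nat_lit 522) (nat_lit 455))))) (XT.nd (nat_lit 312) (nat_lit 1976) (nat_lit 0) (XT.nd (nat_lit 156) (nat_lit 608) (nat_lit 0) (XT.nd (nat_lit 78) (nat_lit 684) (nat_lit 0) (XT.lf (nat_lit 0) (nat_lit 842065535) (nat_lit 760) (nat_lit 558637536) (nat_lit 76) (nat_lit 7770551412) (nat_lit 317) (nat_lit 5) (nat_lit 327) (nat_lit 5) (nat_lit 318) (nat_lit 5) (nat_lit 584) (nat_lit 522) (nat_lit 454)) (XT.lf (nat_lit 0) (nat_lit 3587025585) (nat_lit 760) (nat_lit 3546820678) (nat_lit 76) (nat_lit 2124597383) (nat_lit 308) (nat_lit 5) (nat_lit 318) (nat_lit 5) (nat_lit 309) (nat_lit 5) (nat_lit 585) (nat_lit 522) (nat_lit 453))) (XT.nd (nat_lit 78) (nat_lit 0) (nat_lit 0) (XT.lf (nat_lit 0) (nat_lit 2752748930) (nat_lit 608) (nat_lit 3632039906) (nat_lit 684) (nat_lit 2962630519) (nat_lit 300) (nat_lit 5) (nat_lit 308) (nat_lit 5) (nat_lit 309) (nat_lit 5) (nat_lit 586)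 (nat_lit 522) (nat_lit 452)) (XT.lf (nat_lit 0) (nat_lit 9185049382) (nat_lit 608) (nat_lit 44619599) (nat_lit 684) (nat_lit 208683190) (nat_lit 300) (nat_lit 5) (nat_lit 308) (nat_lit 5) (nat_lit 309) (nat_lit 5) (nat_lit 587) (nat_lit 522) (nat_lit 451)))) (XT.nd (nat_lit 156) (nat_lit 684) (nat_lit 0) (XT.nd (nat_lit 78) (nat_lit 608) (nat_lit 0) (XT.lf (nat_lit 0) (nat_lit 2598325245) (nat_lit 684) (nat_lit 3315516145) (nat_lit 76) (nat_lit 3616283662) (nat_lit 291) (nat_lit 5) (nat_lit 300) (nat_lit 5) (nat_lit 292) (nat_lit 5) (nat_lit 588) (nat_lit 522) (nat_lit 450)) (XT.lf (nat_lit 0) (nat_lit 3190500504) (nat_lit 608) (nat_lit 2259000976) (nat_lit 684) (nat_lit 4174388663) (nat_lit 283) (nat_lit 5) (nat_lit 291) (nat_lit 5) (nat_lit 292) (nat_lit 5) (nat_lit 589) (nat_lit 522) (nat_lit 449))) (XT.nd (nat_lit 78) (nat_lit 76) (nat_lit 0) (XT.lf (nat_lit 0) (nat_lit 102588945) (nat_lit 608) (nat_lit 8256107751) (nat_lit 684) (nat_lit 1360814690)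 (nat_lit 275) (nat_lit 5) (nat_lit 283) (nat_lit 5) (nat_lit 284) (nat_lit 5) (nat_lit 590) (nat_lit 522) (nat_lit 448)) (XT.lf (nat_lit 0) (nat_lit 1516196907) (nat_lit 684) (nat_lit 3026443897) (nat_lit 76) (nat_lit 5273669886) (nat_lit 274) (nat_lit 5) (nat_lit 283) (nat_lit 5) (nat_lit 275) (nat_lit 5) (nat_lit 591) (nat_lit 522) (nat_lit 447)))))) (XT.nd (nat_lit 624) (nat_lit 2356) (nat_lit 0) (XT.nd (nat_lit 312) (nat_lit 1596) (nat_lit 0) (XT.nd (nat_lit 156) (nat_lit 608) (nat_lit 0) (XT.nd (nat_lit 78) (nat_lit 608) (nat_lit 0) (XT.lf (nat_lit 0) (nat_lit 3694390823) (nat_lit 532) (nat_lit 731296691) (nat_lit 608) (nat_lit 5489316082) (nat_lit 267) (nat_lit 5) (nat_lit 274) (nat_lit 5) (nat_lit 275) (nat_lit 5) (nat_lit 592) (nat_lit 522) (nat_lit 446)) (XT.lf (nat_lit 0) (nat_lit 520430753) (nat_lit 608) (nat_lit 6886684222) (nat_lit 684) (nat_lit 2608281148) (nat_lit 259) (nat_lit 5) (nat_lit 267) (nat_lit 5) (nat_lit 268) (nat_lit 5) (nat_lit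 593) (nat_lit 522) (nat_lit 445))) (XT.nd (nat_lit 78) (nat_lit 532) (nat_lit 0) (XT.lf (nat_lit 0) (nat_lit 342469445) (nat_lit 684) (nat_lit 2684913176) (nat_lit 76) (nat_lit 7090043101) (nat_lit 258) (nat_lit 5) (nat_lit 267) (nat_lit 5) (nat_lit 259) (nat_lit 5) (nat_lit 594) (nat_lit 522) (nat_lit 444)) (XT.lf (nat_lit 0) (nat_lit 3321290356) (nat_lit 608) (nat_lit 5967890069) (nat_lit 76) (nat_lit 931891732) (nat_lit 251) (nat_lit 5) (nat_lit 259) (nat_lit 5) (nat_lit 252) (nat_lit 5) (nat_lit 595) (nat_lit 522) (nat_lit 443)))) (XT.nd (nat_lit 156) (nat_lit 1064) (nat_lit 0) (XT.nd (nat_lit 78) (nat_lit 0) (nat_lit 0) (XT.lf (nat_lit 0) (nat_lit 992096760) (nat_lit 532) (nat_lit 5382633581) (nat_lit 608) (nat_lit 3951760977) (nat_lit 244) (nat_lit 5) (nat_lit 251) (nat_lit 5) (nat_lit 252) (nat_lit 5) (nat_lit 596) (nat_lit 522) (nat_lit 442)) (XT.lf (nat_lit 0) (nat_lit 8131698392) (nat_lit 532) (nat_lit 1368321582) (nat_lit 608) (nat_lit 933783909)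 (nat_lit 244) (nat_lit 5) (nat_lit 251) (nat_lit 5) (nat_lit 252) (nat_lit 5) (nat_lit 597) (nat_lit 522) (nat_lit 441))) (XT.nd (nat_lit 78) (nat_lit 532) (nat_lit 0) (XT.lf (nat_lit 0) (nat_lit 2137162817) (nat_lit 532) (nat_lit 5680012230) (nat_lit 76) (nat_lit 2725395063) (nat_lit 237) (nat_lit 5) (nat_lit 244) (nat_lit 5) (nat_lit 238) (nat_lit 5) (nat_lit 598) (nat_lit 522) (nat_lit 440)) (XT.lf (nat_lit 0) (nat_lit 1512701260) (nat_lit 532) (nat_lit 3750120718) (nat_lit 608) (nat_lit 5390450901) (nat_lit 230) (nat_lit 5) (nat_lit 237) (nat_lit 5) (nat_lit 238) (nat_lit 5) (nat_lit 599) (nat_lit 522) (nat_lit 439))))) (XT.nd (nat_lit 312) (nat_lit 1368) (nat_lit 0) (XT.nd (nat_lit 156) (nat_lit 456) (nat_lit 0) (XT.nd (nat_lit 78) (nat_lit 532) (nat_lit 0) (XT.lf (nat_lit 0) (nat_lit 8463525645) (nat_lit 608) (nat_lit 1882536523) (nat_lit 76) (nat_lit 419877498) (nat_lit 230) (nat_lit 5) (nat_lit 238) (nat_lit 5) (nat_lit 231) (nat_lit 5) (nat_lit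 600) (nat_lit 522) (nat_lit 438)) (XT.lf (nat_lit 0) (nat_lit 869352090) (nat_lit 532) (nat_lit 5357329104) (nat_lit 76) (nat_lit 4653407484) (nat_lit 223) (nat_lit 5) (nat_lit 230) (nat_lit 5) (nat_lit 224) (nat_lit 5) (nat_lit 601) (nat_lit 522) (nat_lit 437))) (XT.nd (nat_lit 78) (nat_lit 0) (nat_lit 0) (XT.lf (nat_lit 0) (nat_lit 2077479782) (nat_lit 456) (nat_lit 1994719448) (nat_lit 532) (nat_lit 6924048116) (nat_lit 217) (nat_lit 5) (nat_lit 223) (nat_lit 5) (nat_lit 224) (nat_lit 5) (nat_lit 602) (nat_lit 522) (nat_lit 436)) (XT.lf (nat_lit 0) (nat_lit 7362817079) (nat_lit 532) (nat_lit 1435774933) (nat_lit 76) (nat_lit 2315663445) (nat_lit 217) (nat_lit 5) (nat_lit 224) (nat_lit 5) (nat_lit 218) (nat_lit 5) (nat_lit 603) (nat_lit 522) (nat_lit 435)))) (XT.nd (nat_lit 156) (nat_lit 380) (nat_lit 0) (XT.nd (nat_lit 78) (nat_lit 532) (nat_lit 0) (XT.lf (nat_lit 0) (nat_lit 6226052372) (nat_lit 456) (nat_lit 4519818820) (nat_lit 532) (nat_lit 488220594)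 (nat_lit 211) (nat_lit 5) (nat_lit 217) (nat_lit 5) (nat_lit 218) (nat_lit 5) (nat_lit 604) (nat_lit 522) (nat_lit 434)) (XT.lf (nat_lit 0) (nat_lit 2681742554) (nat_lit 456) (nat_lit 121467647) (nat_lit 532) (nat_lit 8552742353) (nat_lit 204) (nat_lit 5) (nat_lit 210) (nat_lit 5) (nat_lit 211) (nat_lit 5) (nat_lit 605) (nat_lit 522) (nat_lit 433))) (XT.nd (nat_lit 78) (nat_lit 380) (nat_lit 0) (XT.lf (nat_lit 0) (nat_lit 6189388767) (nat_lit 532) (nat_lit 957732202) (nat_lit 76) (nat_lit 4332356399) (nat_lit 204) (nat_lit 5) (nat_lit 211) (nat_lit 5) (nat_lit 205) (nat_lit 5) (nat_lit 606) (nat_lit 522) (nat_lit 432)) (XT.lf (nat_lit 0) (nat_lit 6964827521) (nat_lit 380) (nat_lit 2698293644) (nat_lit 456) (nat_lit 1941955402) (nat_lit 199) (nat_lit 5) (nat_lit 204) (nat_lit 5) (nat_lit 205) (nat_lit 5) (nat_lit 607) (nat_lit 522) (nat_lit 431))))))) (XT.nd (nat_lit 1170) (nat_lit 3572) (nat_lit 0) (XT.nd (nat_lit 546) (nat_lit 1976) (nat_lit 0) (XT.nd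 (nat_lit 234) (nat_lit 1216) (nat_lit 0) (XT.nd (nat_lit 78) (nat_lit 380) (nat_lit 0) (XT.lf (nat_lit 0) (nat_lit 1467856546) (nat_lit 532) (nat_lit 8424240468) (nat_lit 76) (nat_lit 1840619186) (nat_lit 192) (nat_lit 5) (nat_lit 199) (nat_lit 5) (nat_lit 193) (nat_lit 5) (nat_lit 608) (nat_lit 522) (nat_lit 430)) (XT.nd (nat_lit 78) (nat_lit 380) (nat_lit 0) (XT.lf (nat_lit 0) (nat_lit 4943175330) (nat_lit 532) (nat_lit 453206277) (nat_lit 76) (nat_lit 6465804489) (nat_lit 192) (nat_lit 5) (nat_lit 199) (nat_lit 5) (nat_lit 193) (nat_lit 5) (nat_lit 609) (nat_lit 522) (nat_lit 429)) (XT.lf (nat_lit 0) (nat_lit 7740473270) (nat_lit 380) (nat_lit 772366689) (nat_lit 456) (nat_lit 3480909097) (nat_lit 187) (nat_lit 5) (nat_lit 192) (nat_lit 5) (nat_lit 193) (nat_lit 5) (nat_lit 610) (nat_lit 522) (nat_lit 428)))) (XT.nd (nat_lit 156) (nat_lit 380) (nat_lit 0) (XT.nd (nat_lit 78) (nat_lit 380) (nat_lit 0) (XT.lf (nat_lit 0) (nat_lit 54965271) (nat_lit 456)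 (nat_lit 8163533125) (nat_lit 76) (nat_lit 3908854927) (nat_lit 181) (nat_lit 5) (nat_lit 187) (nat_lit 5) (nat_lit 182) (nat_lit 5) (nat_lit 611) (nat_lit 522) (nat_lit 427)) (XT.lf (nat_lit 0) (nat_lit 73923530) (nat_lit 380) (nat_lit 3550225468) (nat_lit 456) (nat_lit 8638836904) (nat_lit 176) (nat_lit 5) (nat_lit 181) (nat_lit 5) (nat_lit 182) (nat_lit 5) (nat_lit 612) (nat_lit 522) (nat_lit 426))) (XT.nd (nat_lit 78) (nat_lit 380) (nat_lit 0) (XT.lf (nat_lit 0) (nat_lit 7302716165) (nat_lit 456) (nat_lit 3860377079) (nat_lit 76) (nat_lit 1237478316) (nat_lit 176) (nat_lit 5) (nat_lit 182) (nat_lit 5) (nat_lit 177) (nat_lit 5) (nat_lit 613) (nat_lit 522) (nat_lit 425)) (XT.lf (nat_lit 0) (nat_lit 4634206149) (nat_lit 380) (nat_lit 6449728755) (nat_lit 456) (nat_lit 1456392835) (nat_lit 171) (nat_lit 5) (nat_lit 176) (nat_lit 5) (nat_lit 177) (nat_lit 5) (nat_lit 614) (nat_lit 522) (nat_lit 424))))) (XT.nd (nat_lit 312) (nat_lit 760) (nat_lit 0) (XT.nd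 (nat_lit 156) (nat_lit 760) (nat_lit 0) (XT.nd (nat_lit 78) (nat_lit 0) (nat_lit 0) (XT.lf (nat_lit 0) (nat_lit 623982416) (nat_lit 380) (nat_lit 1609987127) (nat_lit 456) (nat_lit 10448503032) (nat_lit 165) (nat_lit 5) (nat_lit 170) (nat_lit 5) (nat_lit 171) (nat_lit 5) (nat_lit 615) (nat_lit 522) (nat_lit 423)) (XT.lf (nat_lit 0) (nat_lit 6029361411) (nat_lit 456) (nat_lit 3464300541) (nat_lit 76) (nat_lit 3332591743) (nat_lit 165) (nat_lit 5) (nat_lit 171) (nat_lit 5) (nat_lit 166) (nat_lit 5) (nat_lit 616) (nat_lit 522) (nat_lit 422))) (XT.nd (nat_lit 78) (nat_lit 380) (nat_lit 0) (XT.lf (nat_lit 0) (nat_lit 5323512988) (nat_lit 380) (nat_lit 4598551873) (nat_lit 456) (nat_lit 3050417884) (nat_lit 160) (nat_lit 5) (nat_lit 165) (nat_lit 5) (nat_lit 166) (nat_lit 5) (nat_lit 617) (nat_lit 522) (nat_lit 421)) (XT.lf (nat_lit 0) (nat_lit 770932442) (nat_lit 380) (nat_lit 11938324321) (nat_lit 76) (nat_lit 412078702) (nat_lit 155) (nat_lit 5) (nat_lit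 160) (nat_lit 5) (nat_lit 156) (nat_lit 5) (nat_lit 618) (nat_lit 522) (nat_lit 420)))) (XT.nd (nat_lit 156) (nat_lit 380) (nat_lit 0) (XT.nd (nat_lit 78) (nat_lit 380) (nat_lit 0) (XT.lf (nat_lit 0) (nat_lit 4686407258) (nat_lit 380) (nat_lit 3065440275) (nat_lit 76) (nat_lit 5519743949) (nat_lit 155) (nat_lit 5) (nat_lit 160) (nat_lit 5) (nat_lit 156) (nat_lit 5) (nat_lit 619) (nat_lit 522) (nat_lit 419)) (XT.lf (nat_lit 0) (nat_lit 6027063434) (nat_lit 380) (nat_lit 2669104803) (nat_lit 456) (nat_lit 4728365202) (nat_lit 150) (nat_lit 5) (nat_lit 155) (nat_lit 5) (nat_lit 156) (nat_lit 5) (nat_lit 620) (nat_lit 522) (nat_lit 418))) (XT.nd (nat_lit 78) (nat_lit 76) (nat_lit 0) (XT.lf (nat_lit 0) (nat_lit 1732085140) (nat_lit 304) (nat_lit 11079295167) (nat_lit 380) (nat_lit 768649155) (nat_lit 146) (nat_lit 5) (nat_lit 150) (nat_lit 5) (nat_lit 151) (nat_lit 5) (nat_lit 621) (nat_lit 522) (nat_lit 417)) (XT.lf (nat_lit 0) (nat_lit 3272050510) (nat_lit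 380) (nat_lit 2669447774) (nat_lit 76) (nat_lit 7795819213) (nat_lit 145) (nat_lit 5) (nat_lit 150) (nat_lit 5) (nat_lit 146) (nat_lit 5) (nat_lit 622) (nat_lit 522) (nat_lit 416)))))) (XT.nd (nat_lit 624) (nat_lit 1520) (nat_lit 0) (XT.nd (nat_lit 312) (nat_lit 988) (nat_lit 0) (XT.nd (nat_lit 156) (nat_lit 380) (nat_lit 0) (XT.nd (nat_lit 78) (nat_lit 304) (nat_lit 0) (XT.lf (nat_lit 0) (nat_lit 6739572365) (nat_lit 380) (nat_lit 664950815) (nat_lit 456) (nat_lit 6492701798) (nat_lit 140) (nat_lit 5) (nat_lit 145) (nat_lit 5) (nat_lit 146) (nat_lit 5) (nat_lit 623) (nat_lit 522) (nat_lit 415)) (XT.lf (nat_lit 0) (nat_lit 2275621019) (nat_lit 304) (nat_lit 9385059179) (nat_lit 380) (nat_lit 2398830031) (nat_lit 136) (nat_lit 5) (nat_lit 140) (nat_lit 5) (nat_lit 141) (nat_lit 5) (nat_lit 624) (nat_lit 522) (nat_lit 414))) (XT.nd (nat_lit 78) (nat_lit 304) (nat_lit 0) (XT.lf (nat_lit 0) (nat_lit 1784025913) (nat_lit 380) (nat_lit 2282277004) (nat_lit 76)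 (nat_lit 10157899610) (nat_lit 135) (nat_lit 5) (nat_lit 140) (nat_lit 5) (nat_lit 136) (nat_lit 5) (nat_lit 625) (nat_lit 522) (nat_lit 413)) (XT.lf (nat_lit 0) (nat_lit 6054108441) (nat_lit 380) (nat_lit 6945044001) (nat_lit 76) (nat_lit 1392005607) (nat_lit 131) (nat_lit 5) (nat_lit 136) (nat_lit 5) (nat_lit 132) (nat_lit 5) (nat_lit 626) (nat_lit 522) (nat_lit 412)))) (XT.nd (nat_lit 156) (nat_lit 608) (nat_lit 0) (XT.nd (nat_lit 78) (nat_lit 76) (nat_lit 0) (XT.lf (nat_lit 0) (nat_lit 2812808850) (nat_lit 304) (nat_lit 7635596860) (nat_lit 380) (nat_lit 4112271005) (nat_lit 127) (nat_lit 5) (nat_lit 131) (nat_lit 5) (nat_lit 132) (nat_lit 5) (nat_lit 627) (nat_lit 522) (nat_lit 411)) (XT.lf (nat_lit 0) (nat_lit 219589972) (nat_lit 380) (nat_lit 1910248143) (nat_lit 76) (nat_lit 12603218931) (nat_lit 126) (nat_lit 5) (nat_lit 131) (nat_lit 5) (nat_lit 127) (nat_lit 5) (nat_lit 628) (nat_lit 522) (nat_lit 410))) (XT.nd (nat_lit 78) (nat_lit 304) (nat_lit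 0) (XT.lf (nat_lit 0) (nat_lit 4637871391) (nat_lit 380) (nat_lit 6762017886) (nat_lit 76) (nat_lit 3507355410) (nat_lit 122) (nat_lit 5) (nat_lit 127) (nat_lit 5) (nat_lit 123) (nat_lit 5) (nat_lit 629) (nat_lit 522) (nat_lit 409)) (XT.lf (nat_lit 0) (nat_lit 3337261746) (nat_lit 304) (nat_lit 5834716547) (nat_lit 380) (nat_lit 5912388865) (nat_lit 118) (nat_lit 5) (nat_lit 122) (nat_lit 5) (nat_lit 123) (nat_lit 5) (nat_lit 630) (nat_lit 522) (nat_lit 408))))) (XT.nd (nat_lit 312) (nat_lit 912) (nat_lit 0) (XT.nd (nat_lit 156) (nat_lit 228) (nat_lit 0) (XT.nd (nat_lit 78) (nat_lit 380) (nat_lit 0) (XT.lf (nat_lit 0) (nat_lit 13695057836) (nat_lit 304) (nat_lit 126057700) (nat_lit 380) (nat_lit 1443429844) (nat_lit 118) (nat_lit 5) (nat_lit 122) (nat_lit 5) (nat_lit 123) (nat_lit 5) (nat_lit 631) (nat_lit 522) (nat_lit 407)) (XT.lf (nat_lit 0) (nat_lit 3148324985) (nat_lit 380) (nat_lit 6611484011) (nat_lit 76) (nat_lit 5686628562) (nat_lit 113) (nat_lit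 5) (nat_lit 118) (nat_lit 5) (nat_lit 114) (nat_lit 5) (nat_lit 632) (nat_lit 522) (nat_lit 406))) (XT.nd (nat_lit 78) (nat_lit 0) (nat_lit 0) (XT.lf (nat_lit 0) (nat_lit 3842117525) (nat_lit 228) (nat_lit 3986209823) (nat_lit 304) (nat_lit 7803134863) (nat_lit 110) (nat_lit 5) (nat_lit 113) (nat_lit 5) (nat_lit 114) (nat_lit 5) (nat_lit 633) (nat_lit 522) (nat_lit 405)) (XT.lf (nat_lit 0) (nat_lit 12638373442) (nat_lit 304) (nat_lit 1272436427) (nat_lit 76) (nat_lit 1908648859) (nat_lit 110) (nat_lit 5) (nat_lit 114) (nat_lit 5) (nat_lit 111) (nat_lit 5) (nat_lit 634) (nat_lit 522) (nat_lit 404)))) (XT.nd (nat_lit 156) (nat_lit 304) (nat_lit 0) (XT.nd (nat_lit 78) (nat_lit 228) (nat_lit 0) (XT.lf (nat_lit 0) (nat_lit 1581779427) (nat_lit 380) (nat_lit 6501221132) (nat_lit 76) (nat_lit 7926646037) (nat_lit 105) (nat_lit 5) (nat_lit 110) (nat_lit 5) (nat_lit 106) (nat_lit 5) (nat_lit 635) (nat_lit 522) (nat_lit 403)) (XT.lf (nat_lit 0) (nat_lit 4319961356)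 (nat_lit 228) (nat_lit 2093902659) (nat_lit 304) (nat_lit 9789022752) (nat_lit 102) (nat_lit 5) (nat_lit 105) (nat_lit 5) (nat_lit 106) (nat_lit 5) (nat_lit 636) (nat_lit 522) (nat_lit 402))) (XT.nd (nat_lit 78) (nat_lit 304) (nat_lit 0) (XT.lf (nat_lit 0) (nat_lit 11392530145) (nat_lit 304) (nat_lit 1014122974) (nat_lit 76) (nat_lit 3992340055) (nat_lit 102) (nat_lit 5) (nat_lit 106) (nat_lit 5) (nat_lit 103) (nat_lit 5) (nat_lit 637) (nat_lit 522) (nat_lit 401)) (XT.lf (nat_lit 0) (nat_lit 10157742354) (nat_lit 304) (nat_lit 6373194378) (nat_lit 380) (nat_lit 66881856) (nat_lit 98) (nat_lit 5) (nat_lit 102) (nat_lit 5) (nat_lit 103) (nat_lit 5) (nat_lit 638) (nat_lit 522) (nat_lit 400))))))))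
noncomputable def xc73 : XT := (XT.nd (nat_lit 74022) (nat_lit 0) (nat_lit 21736) (XT.nd (nat_lit 72774) (nat_lit 0) (nat_lit 45220) (XT.nd (nat_lit 72150) (nat_lit 0) (nat_lit 52440) (XT.nd (nat_lit 234) (nat_lit 836) (nat_lit 0) (XT.nd (nat_lit 78) (nat_lit 228) (nat_lit 0) (XT.lf (nat_lit 0) (nat_lit 4762741999) (nat_lit 228) (nat_lit 161708538) (nat_lit 304) (nat_lit 11875161393) (nat_lit 94) (nat_lit 5) (nat_lit 97) (nat_lit 5) (nat_lit 98) (nat_lit 5) (nat_lit 639) (nat_lit 522) (nat_lit 399)) (XT.nd (nat_lit 78) (nat_lit 228) (nat_lit 0) (XT.lf (nat_lit 0) (nat_lit 10078767450) (nat_lit 304) (nat_lit 802260576) (nat_lit 76) (nat_lit 6123123413) (nat_lit 94) (nat_lit 5) (nat_lit 98) (nat_lit 5) (nat_lit 95) (nat_lit 5) (nat_lit 640) (nat_lit 522) (nat_lit 398)) (XT.lf (nat_lit 0) (nat_lit 10764022121) (nat_lit 228) (nat_lit 4623954050) (nat_lit 304) (nat_lit 1823769663) (nat_lit 91) (nat_lit 5) (nat_lit 94) (nat_lit 5) (nat_lit 95) (nat_lit 5) (nat_lit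 641) (nat_lit 522) (nat_lit 397)))) (XT.nd (nat_lit 156) (nat_lit 532) (nat_lit 0) (XT.nd (nat_lit 78) (nat_lit 0) (nat_lit 0) (XT.lf (nat_lit 0) (nat_lit 3367092691) (nat_lit 304) (nat_lit 12272704089) (nat_lit 76) (nat_lit 1782625780) (nat_lit 87) (nat_lit 5) (nat_lit 91) (nat_lit 5) (nat_lit 88) (nat_lit 5) (nat_lit 642) (nat_lit 522) (nat_lit 396)) (XT.lf (nat_lit 0) (nat_lit 8692504748) (nat_lit 304) (nat_lit 646150830) (nat_lit 76) (nat_lit 8297313278) (nat_lit 87) (nat_lit 5) (nat_lit 91) (nat_lit 5) (nat_lit 88) (nat_lit 5) (nat_lit 643) (nat_lit 522) (nat_lit 395))) (XT.nd (nat_lit 78) (nat_lit 304) (nat_lit 0) (XT.lf (nat_lit 0) (nat_lit 11328939316) (nat_lit 228) (nat_lit 2850367710) (nat_lit 304) (nat_lit 3673381604) (nat_lit 84) (nat_lit 5) (nat_lit 87) (nat_lit 5) (nat_lit 88) (nat_lit 5) (nat_lit 644) (nat_lit 522) (nat_lit 394)) (XT.lf (nat_lit 0) (nat_lit 1725970829) (nat_lit 304) (nat_lit 12590630086) (nat_lit 76) (nat_lit 3755997211)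 (nat_lit 80) (nat_lit 5) (nat_lit 84) (nat_lit 5) (nat_lit 81) (nat_lit 5) (nat_lit 645) (nat_lit 522) (nat_lit 393))))) (XT.nd (nat_lit 312) (nat_lit 456) (nat_lit 0) (XT.nd (nat_lit 156) (nat_lit 380) (nat_lit 0) (XT.nd (nat_lit 78) (nat_lit 380) (nat_lit 0) (XT.lf (nat_lit 0) (nat_lit 1386871494) (nat_lit 0) (nat_lit 1386871494) (nat_lit 228) (nat_lit 455895767) (nat_lit 786) (nat_lit 5) (nat_lit 786) (nat_lit 3) (nat_lit 789) (nat_lit 3) (nat_lit 523) (nat_lit 523) (nat_lit 514)) (XT.lf (nat_lit 0) (nat_lit 2000476129) (nat_lit 380) (nat_lit 459672126) (nat_lit 380) (nat_lit 4005495852) (nat_lit 781) (nat_lit 3) (nat_lit 786) (nat_lit 3) (nat_lit 786) (nat_lit 5) (nat_lit 524) (nat_lit 523) (nat_lit 513))) (XT.nd (nat_lit 78) (nat_lit 380) (nat_lit 0) (XT.lf (nat_lit 76) (nat_lit 2822768979) (nat_lit 0) (nat_lit 2078037794) (nat_lit 380) (nat_lit 1572374380) (nat_lit 782) (nat_lit 5) (nat_lit 781) (nat_lit 3) (nat_lit 786) (nat_lit 5) (nat_lit 525)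 (nat_lit 523) (nat_lit 512)) (XT.lf (nat_lit 0) (nat_lit 1287735742) (nat_lit 380) (nat_lit 352359999) (nat_lit 456) (nat_lit 4842047509) (nat_lit 776) (nat_lit 5) (nat_lit 781) (nat_lit 3) (nat_lit 782) (nat_lit 5) (nat_lit 526) (nat_lit 523) (nat_lit 511)))) (XT.nd (nat_lit 156) (nat_lit 0) (nat_lit 76) (XT.nd (nat_lit 78) (nat_lit 456) (nat_lit 0) (XT.lf (nat_lit 76) (nat_lit 3001712524) (nat_lit 0) (nat_lit 1127703873) (nat_lit 456) (nat_lit 2362755820) (nat_lit 777) (nat_lit 5) (nat_lit 776) (nat_lit 5) (nat_lit 782) (nat_lit 5) (nat_lit 527) (nat_lit 523) (nat_lit 510)) (XT.lf (nat_lit 0) (nat_lit 447645613) (nat_lit 456) (nat_lit 117757967) (nat_lit 532) (nat_lit 5938353553) (nat_lit 770) (nat_lit 5) (nat_lit 776) (nat_lit 5) (nat_lit 777) (nat_lit 5) (nat_lit 528) (nat_lit 523) (nat_lit 509))) (XT.nd (nat_lit 78) (nat_lit 0) (nat_lit 0) (XT.lf (nat_lit 0) (nat_lit 3232728053) (nat_lit 456) (nat_lit 3205449453) (nat_lit 532) (nat_lit 78085396) (nat_lit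 771) (nat_lit 5) (nat_lit 777) (nat_lit 5) (nat_lit 778) (nat_lit 5) (nat_lit 529) (nat_lit 523) (nat_lit 508)) (XT.lf (nat_lit 76) (nat_lit 239729744) (nat_lit 0) (nat_lit 5769315200) (nat_lit 532) (nat_lit 521266831) (nat_lit 772) (nat_lit 5) (nat_lit 771) (nat_lit 5) (nat_lit 778) (nat_lit 5) (nat_lit 530) (nat_lit 523) (nat_lit 507)))))) (XT.nd (nat_lit 624) (nat_lit 4788) (nat_lit 0) (XT.nd (nat_lit 312) (nat_lit 1368) (nat_lit 0) (XT.nd (nat_lit 156) (nat_lit 608) (nat_lit 0) (XT.nd (nat_lit 78) (nat_lit 0) (nat_lit 0) (XT.lf (nat_lit 0) (nat_lit 2217880868) (nat_lit 532) (nat_lit 2802881575) (nat_lit 608) (nat_lit 1524549510) (nat_lit 764) (nat_lit 5) (nat_lit 771) (nat_lit 5) (nat_lit 772) (nat_lit 5) (nat_lit 531) (nat_lit 523) (nat_lit 506)) (XT.lf (nat_lit 76) (nat_lit 720489568) (nat_lit 0) (nat_lit 4220494554) (nat_lit 608) (nat_lit 1620839489) (nat_lit 765) (nat_lit 5) (nat_lit 764) (nat_lit 5) (nat_lit 772) (nat_lit 5) (nat_lit 532) (nat_lit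 523) (nat_lit 505))) (XT.nd (nat_lit 78) (nat_lit 0) (nat_lit 0) (XT.lf (nat_lit 0) (nat_lit 1075970728) (nat_lit 608) (nat_lit 2274215337) (nat_lit 684) (nat_lit 3229313989) (nat_lit 756) (nat_lit 5) (nat_lit 764) (nat_lit 5) (nat_lit 765) (nat_lit 5) (nat_lit 533) (nat_lit 523) (nat_lit 504)) (XT.lf (nat_lit 76) (nat_lit 1331044578) (nat_lit 0) (nat_lit 2416066354) (nat_lit 684) (nat_lit 2851366118) (nat_lit 757) (nat_lit 5) (nat_lit 756) (nat_lit 5) (nat_lit 765) (nat_lit 5) (nat_lit 534) (nat_lit 523) (nat_lit 503)))) (XT.nd (nat_lit 156) (nat_lit 684) (nat_lit 0) (XT.nd (nat_lit 78) (nat_lit 684) (nat_lit 0) (XT.lf (nat_lit 76) (nat_lit 4999575919) (nat_lit 0) (nat_lit 1421841412) (nat_lit 684) (nat_lit 197424562) (nat_lit 757) (nat_lit 5) (nat_lit 756) (nat_lit 5) (nat_lit 765) (nat_lit 5) (nat_lit 535) (nat_lit 523) (nat_lit 502)) (XT.lf (nat_lit 76) (nat_lit 2073011762) (nat_lit 0) (nat_lit 352468046) (nat_lit 760) (nat_lit 4214835438) (nat_lit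 748) (nat_lit 5) (nat_lit 747) (nat_lit 5) (nat_lit 757) (nat_lit 5) (nat_lit 536) (nat_lit 523) (nat_lit 501))) (XT.nd (nat_lit 78) (nat_lit 760) (nat_lit 0) (XT.lf (nat_lit 0) (nat_lit 5050439626) (nat_lit 684) (nat_lit 848006467) (nat_lit 76) (nat_lit 764704046) (nat_lit 748) (nat_lit 5) (nat_lit 757) (nat_lit 5) (nat_lit 749) (nat_lit 5) (nat_lit 537) (nat_lit 523) (nat_lit 500)) (XT.lf (nat_lit 0) (nat_lit 986711028) (nat_lit 760) (nat_lit 3751942987) (nat_lit 76) (nat_lit 1948477092) (nat_lit 738) (nat_lit 5) (nat_lit 748) (nat_lit 5) (nat_lit 739) (nat_lit 5) (nat_lit 538) (nat_lit 523) (nat_lit 499))))) (XT.nd (nat_lit 312) (nat_lit 3116) (nat_lit 0) (XT.nd (nat_lit 156) (nat_lit 912) (nat_lit 0) (XT.nd (nat_lit 78) (nat_lit 0) (nat_lit 0) (XT.lf (nat_lit 0) (nat_lit 43238913) (nat_lit 760) (nat_lit 3517621969) (nat_lit 836) (nat_lit 3151633748) (nat_lit 728) (nat_lit 5) (nat_lit 738) (nat_lit 5) (nat_lit 739) (nat_lit 5) (nat_lit 539) (nat_lit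 523) (nat_lit 498)) (XT.lf (nat_lit 0) (nat_lit 3924776668) (nat_lit 760) (nat_lit 2226146841) (nat_lit 836) (nat_lit 588156082) (nat_lit 728) (nat_lit 5) (nat_lit 738) (nat_lit 5) (nat_lit 739) (nat_lit 5) (nat_lit 540) (nat_lit 523) (nat_lit 497))) (XT.nd (nat_lit 78) (nat_lit 0) (nat_lit 0) (XT.lf (nat_lit 0) (nat_lit 1078319824) (nat_lit 836) (nat_lit 868739678) (nat_lit 912) (nat_lit 4819935293) (nat_lit 716) (nat_lit 5) (nat_lit 727) (nat_lit 5) (nat_lit 728) (nat_lit 5) (nat_lit 541) (nat_lit 523) (nat_lit 496)) (XT.lf (nat_lit 0) (nat_lit 4488554752) (nat_lit 912) (nat_lit 1756969753) (nat_lit 76) (nat_lit 550599634) (nat_lit 716) (nat_lit 5) (nat_lit 728) (nat_lit 5) (nat_lit 717) (nat_lit 5) (nat_lit 542) (nat_lit 523) (nat_lit 495)))) (XT.nd (nat_lit 156) (nat_lit 2128) (nat_lit 0) (XT.nd (nat_lit 78) (nat_lit 0) (nat_lit 0) (XT.lf (nat_lit 0) (nat_lit 213960001) (nat_lit 988) (nat_lit 4591690970) (nat_lit 76) (nat_lit 2020909259) (nat_lit 703)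 (nat_lit 5) (nat_lit 716) (nat_lit 5) (nat_lit 704) (nat_lit 5) (nat_lit 543) (nat_lit 523) (nat_lit 494)) (XT.lf (nat_lit 0) (nat_lit 2709649066) (nat_lit 988) (nat_lit 583504981) (nat_lit 76) (nat_lit 3565055839) (nat_lit 703) (nat_lit 5) (nat_lit 716) (nat_lit 5) (nat_lit 704) (nat_lit 5) (nat_lit 544) (nat_lit 523) (nat_lit 493))) (XT.nd (nat_lit 78) (nat_lit 1140) (nat_lit 0) (XT.lf (nat_lit 0) (nat_lit 3510555918) (nat_lit 988) (nat_lit 1711342073) (nat_lit 1064) (nat_lit 1669264028) (nat_lit 690) (nat_lit 5) (nat_lit 703) (nat_lit 5) (nat_lit 704) (nat_lit 5) (nat_lit 545) (nat_lit 523) (nat_lit 492)) (XT.lf (nat_lit 0) (nat_lit 732910580) (nat_lit 1064) (nat_lit 68459583) (nat_lit 1140) (nat_lit 6124233209) (nat_lit 675) (nat_lit 5) (nat_lit 689) (nat_lit 5) (nat_lit 690) (nat_lit 5) (nat_lit 546) (nat_lit 523) (nat_lit 491))))))) (XT.nd (nat_lit 1170) (nat_lit 10108) (nat_lit 0) (XT.nd (nat_lit 546) (nat_lit 8208) (nat_lit 0) (XT.nd (nat_lit 234)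 (nat_lit 3952) (nat_lit 0) (XT.nd (nat_lit 78) (nat_lit 1216) (nat_lit 0) (XT.lf (nat_lit 0) (nat_lit 3277604665) (nat_lit 1140) (nat_lit 2049128591) (nat_lit 76) (nat_lit 1634211101) (nat_lit 675) (nat_lit 5) (nat_lit 690) (nat_lit 5) (nat_lit 676) (nat_lit 5) (nat_lit 547) (nat_lit 523) (nat_lit 490)) (XT.nd (nat_lit 78) (nat_lit 76) (nat_lit 0) (XT.lf (nat_lit 0) (nat_lit 2164326441) (nat_lit 1140) (nat_lit 3599863391) (nat_lit 1216) (nat_lit 1233588034) (nat_lit 660) (nat_lit 5) (nat_lit 675) (nat_lit 5) (nat_lit 676) (nat_lit 5) (nat_lit 548) (nat_lit 523) (nat_lit 489)) (XT.lf (nat_lit 0) (nat_lit 1209164265) (nat_lit 1216) (nat_lit 594904447) (nat_lit 76) (nat_lit 5231905215) (nat_lit 659) (nat_lit 5) (nat_lit 675) (nat_lit 5) (nat_lit 660) (nat_lit 5) (nat_lit 549) (nat_lit 523) (nat_lit 488)))) (XT.nd (nat_lit 156) (nat_lit 1444) (nat_lit 0) (XT.nd (nat_lit 78) (nat_lit 1292) (nat_lit 0) (XT.lf (nat_lit 0) (nat_lit 3656748033) (nat_lit 1292) (nat_lit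 3347199009) (nat_lit 76) (nat_lit 71375997) (nat_lit 643) (nat_lit 5) (nat_lit 660) (nat_lit 5) (nat_lit 644) (nat_lit 5) (nat_lit 550) (nat_lit 523) (nat_lit 487)) (XT.lf (nat_lit 0) (nat_lit 989928191) (nat_lit 1292) (nat_lit 5134383666) (nat_lit 1368) (nat_lit 991728762) (nat_lit 626) (nat_lit 5) (nat_lit 643) (nat_lit 5) (nat_lit 644) (nat_lit 5) (nat_lit 551) (nat_lit 523) (nat_lit 486))) (XT.nd (nat_lit 78) (nat_lit 1368) (nat_lit 0) (XT.lf (nat_lit 0) (nat_lit 1435844322) (nat_lit 1368) (nat_lit 1749520695) (nat_lit 76) (nat_lit 3972583881) (nat_lit 625) (nat_lit 5) (nat_lit 643) (nat_lit 5) (nat_lit 626) (nat_lit 5) (nat_lit 552) (nat_lit 523) (nat_lit 485)) (XT.lf (nat_lit 0) (nat_lit 2702512544) (nat_lit 1368) (nat_lit 1163773336) (nat_lit 1444) (nat_lit 3334928365) (nat_lit 607) (nat_lit 5) (nat_lit 625) (nat_lit 5) (nat_lit 626) (nat_lit 5) (nat_lit 553) (nat_lit 523) (nat_lit 484))))) (XT.nd (nat_lit 312) (nat_lit 5168) (nat_lit 0) (XT.nd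 (nat_lit 156) (nat_lit 1520) (nat_lit 0) (XT.nd (nat_lit 78) (nat_lit 1520) (nat_lit 0) (XT.lf (nat_lit 0) (nat_lit 6313794547) (nat_lit 1444) (nat_lit 25457581) (nat_lit 76) (nat_lit 906725502) (nat_lit 607) (nat_lit 5) (nat_lit 626) (nat_lit 5) (nat_lit 608) (nat_lit 5) (nat_lit 554) (nat_lit 523) (nat_lit 483)) (XT.lf (nat_lit 0) (nat_lit 1487635905) (nat_lit 1520) (nat_lit 2753370203) (nat_lit 76) (nat_lit 3050656085) (nat_lit 587) (nat_lit 5) (nat_lit 607) (nat_lit 5) (nat_lit 588) (nat_lit 5) (nat_lit 555) (nat_lit 523) (nat_lit 482))) (XT.nd (nat_lit 78) (nat_lit 0) (nat_lit 0) (XT.lf (nat_lit 0) (nat_lit 1831967080) (nat_lit 1520) (nat_lit 2075618094) (nat_lit 1596) (nat_lit 3431269509) (nat_lit 567) (nat_lit 5) (nat_lit 587) (nat_lit 5) (nat_lit 588) (nat_lit 5) (nat_lit 556) (nat_lit 523) (nat_lit 481)) (XT.lf (nat_lit 0) (nat_lit 6348246467) (nat_lit 1596) (nat_lit 883277673) (nat_lit 76) (nat_lit 156022374) (nat_lit 567) (nat_lit 5) (nat_lit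 588) (nat_lit 5) (nat_lit 568) (nat_lit 5) (nat_lit 557) (nat_lit 523) (nat_lit 480)))) (XT.nd (nat_lit 156) (nat_lit 1824) (nat_lit 0) (XT.nd (nat_lit 78) (nat_lit 1672) (nat_lit 0) (XT.lf (nat_lit 0) (nat_lit 1374463556) (nat_lit 1672) (nat_lit 3618324226) (nat_lit 76) (nat_lit 2444397769) (nat_lit 545) (nat_lit 5) (nat_lit 567) (nat_lit 5) (nat_lit 546) (nat_lit 5) (nat_lit 558) (nat_lit 523) (nat_lit 479)) (XT.lf (nat_lit 0) (nat_lit 1105371940) (nat_lit 1672) (nat_lit 2684482410) (nat_lit 1748) (nat_lit 3698481911) (nat_lit 523) (nat_lit 5) (nat_lit 545) (nat_lit 5) (nat_lit 546) (nat_lit 5) (nat_lit 559) (nat_lit 523) (nat_lit 478))) (XT.nd (nat_lit 78) (nat_lit 1824) (nat_lit 0) (XT.lf (nat_lit 0) (nat_lit 5931342010) (nat_lit 1672) (nat_lit 301235590) (nat_lit 1748) (nat_lit 1308353510) (nat_lit 523) (nat_lit 5) (nat_lit 545) (nat_lit 5) (nat_lit 546) (nat_lit 5) (nat_lit 560) (nat_lit 523) (nat_lit 477)) (XT.lf (nat_lit 0) (nat_lit 1105262161)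 (nat_lit 1824) (nat_lit 4355385904) (nat_lit 76) (nat_lit 2133974681) (nat_lit 499) (nat_lit 5) (nat_lit 523) (nat_lit 5) (nat_lit 500) (nat_lit 5) (nat_lit 561) (nat_lit 523) (nat_lit 476)))))) (XT.nd (nat_lit 624) (nat_lit 4332) (nat_lit 0) (XT.nd (nat_lit 312) (nat_lit 1824) (nat_lit 0) (XT.nd (nat_lit 156) (nat_lit 2128) (nat_lit 0) (XT.nd (nat_lit 78) (nat_lit 0) (nat_lit 0) (XT.lf (nat_lit 0) (nat_lit 512001758) (nat_lit 1824) (nat_lit 3009806043) (nat_lit 1900) (nat_lit 4127965444) (nat_lit 475) (nat_lit 5) (nat_lit 499) (nat_lit 5) (nat_lit 500) (nat_lit 5) (nat_lit 562) (nat_lit 523) (nat_lit 475)) (XT.lf (nat_lit 0) (nat_lit 5494382015) (nat_lit 1824) (nat_lit 478092104) (nat_lit 1900) (nat_lit 1733838335) (nat_lit 475) (nat_lit 5) (nat_lit 499) (nat_lit 5) (nat_lit 500) (nat_lit 5) (nat_lit 563) (nat_lit 523) (nat_lit 474))) (XT.nd (nat_lit 78) (nat_lit 912) (nat_lit 0) (XT.lf (nat_lit 0) (nat_lit 688040771) (nat_lit 1216) (nat_lit 4974765509)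 (nat_lit 76) (nat_lit 2101302501) (nat_lit 459) (nat_lit 5) (nat_lit 475) (nat_lit 5) (nat_lit 460) (nat_lit 5) (nat_lit 564) (nat_lit 523) (nat_lit 473)) (XT.lf (nat_lit 0) (nat_lit 41925835) (nat_lit 912) (nat_lit 3069332499) (nat_lit 988) (nat_lit 4712052556) (nat_lit 447) (nat_lit 5) (nat_lit 459) (nat_lit 5) (nat_lit 460) (nat_lit 5) (nat_lit 565) (nat_lit 523) (nat_lit 472)))) (XT.nd (nat_lit 156) (nat_lit 836) (nat_lit 0) (XT.nd (nat_lit 78) (nat_lit 988) (nat_lit 0) (XT.lf (nat_lit 0) (nat_lit 5184921088) (nat_lit 912) (nat_lit 389677722) (nat_lit 988) (nat_lit 2309266441) (nat_lit 447) (nat_lit 5) (nat_lit 459) (nat_lit 5) (nat_lit 460) (nat_lit 5) (nat_lit 566) (nat_lit 523) (nat_lit 471)) (XT.lf (nat_lit 0) (nat_lit 129940714) (nat_lit 988) (nat_lit 5485951016) (nat_lit 76) (nat_lit 2329917472) (nat_lit 434) (nat_lit 5) (nat_lit 447) (nat_lit 5) (nat_lit 435) (nat_lit 5) (nat_lit 567) (nat_lit 523) (nat_lit 470))) (XT.nd (nat_lit 78) (nat_lit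 836) (nat_lit 0) (XT.lf (nat_lit 0) (nat_lit 2567212721) (nat_lit 988) (nat_lit 309942892) (nat_lit 76) (nat_lit 5131928397) (nat_lit 434) (nat_lit 5) (nat_lit 447) (nat_lit 5) (nat_lit 435) (nat_lit 5) (nat_lit 568) (nat_lit 523) (nat_lit 469)) (XT.lf (nat_lit 0) (nat_lit 4994162353) (nat_lit 836) (nat_lit 51651031) (nat_lit 912) (nat_lit 3027960545) (nat_lit 423) (nat_lit 5) (nat_lit 434) (nat_lit 5) (nat_lit 435) (nat_lit 5) (nat_lit 569) (nat_lit 523) (nat_lit 468))))) (XT.nd (nat_lit 312) (nat_lit 1672) (nat_lit 0) (XT.nd (nat_lit 156) (nat_lit 1672) (nat_lit 0) (XT.nd (nat_lit 78) (nat_lit 76) (nat_lit 0) (XT.lf (nat_lit 0) (nat_lit 2238368975) (nat_lit 912) (nat_lit 5331286762) (nat_lit 988) (nat_lit 570189765) (nat_lit 411) (nat_lit 5) (nat_lit 423) (nat_lit 5) (nat_lit 424) (nat_lit 5) (nat_lit 570) (nat_lit 523) (nat_lit 467)) (XT.lf (nat_lit 0) (nat_lit 1893392617) (nat_lit 988) (nat_lit 557104960) (nat_lit 76) (nat_lit 5756849504) (nat_lit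 410) (nat_lit 5) (nat_lit 423) (nat_lit 5) (nat_lit 411) (nat_lit 5) (nat_lit 571) (nat_lit 523) (nat_lit 466))) (XT.nd (nat_lit 78) (nat_lit 836) (nat_lit 0) (XT.lf (nat_lit 0) (nat_lit 4395589788) (nat_lit 912) (nat_lit 3365677946) (nat_lit 76) (nat_lit 514917198) (nat_lit 399) (nat_lit 5) (nat_lit 411) (nat_lit 5) (nat_lit 400) (nat_lit 5) (nat_lit 572) (nat_lit 523) (nat_lit 465)) (XT.lf (nat_lit 0) (nat_lit 2118900485) (nat_lit 836) (nat_lit 4824827854) (nat_lit 912) (nat_lit 1402754408) (nat_lit 388) (nat_lit 5) (nat_lit 399) (nat_lit 5) (nat_lit 400) (nat_lit 5) (nat_lit 573) (nat_lit 523) (nat_lit 464)))) (XT.nd (nat_lit 156) (nat_lit 836) (nat_lit 0) (XT.nd (nat_lit 78) (nat_lit 760) (nat_lit 0) (XT.lf (nat_lit 0) (nat_lit 1095003672) (nat_lit 912) (nat_lit 707956524) (nat_lit 76) (nat_lit 6615379185) (nat_lit 387) (nat_lit 5) (nat_lit 399) (nat_lit 5) (nat_lit 388) (nat_lit 5) (nat_lit 574) (nat_lit 523) (nat_lit 463)) (XT.lf (nat_lit 0) (nat_lit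 3627672576) (nat_lit 836) (nat_lit 3563329991) (nat_lit 76) (nat_lit 1300371457) (nat_lit 377) (nat_lit 5) (nat_lit 388) (nat_lit 5) (nat_lit 378) (nat_lit 5) (nat_lit 575) (nat_lit 523) (nat_lit 462))) (XT.nd (nat_lit 78) (nat_lit 76) (nat_lit 0) (XT.lf (nat_lit 0) (nat_lit 2094906702) (nat_lit 760) (nat_lit 4109959285) (nat_lit 836) (nat_lit 2361127016) (nat_lit 367) (nat_lit 5) (nat_lit 377) (nat_lit 5) (nat_lit 378) (nat_lit 5) (nat_lit 576) (nat_lit 523) (nat_lit 461)) (XT.lf (nat_lit 0) (nat_lit 176814447) (nat_lit 836) (nat_lit 769813125) (nat_lit 76) (nat_lit 7695696408) (nat_lit 366) (nat_lit 5) (nat_lit 377) (nat_lit 5) (nat_lit 367) (nat_lit 5) (nat_lit 577) (nat_lit 523) (nat_lit 460))))))))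
noncomputable def xc74 : XT := (XT.nd (nat_lit 2418) (nat_lit 7752) (nat_lit 0) (XT.nd (nat_lit 1170) (nat_lit 5700) (nat_lit 0) (XT.nd (nat_lit 546) (nat_lit 3268) (nat_lit 0) (XT.nd (nat_lit 234) (nat_lit 2204) (nat_lit 0) (XT.nd (nat_lit 78) (nat_lit 760) (nat_lit 0) (XT.lf (nat_lit 0) (nat_lit 2746311693) (nat_lit 836) (nat_lit 3679445252) (nat_lit 76) (nat_lit 2293865248) (nat_lit 356) (nat_lit 5) (nat_lit 367) (nat_lit 5) (nat_lit 357) (nat_lit 5) (nat_lit 578) (nat_lit 523) (nat_lit 459)) (XT.nd (nat_lit 78) (nat_lit 0) (nat_lit 0) (XT.lf (nat_lit 0) (nat_lit 2159471678) (nat_lit 760) (nat_lit 3198085671) (nat_lit 836) (nat_lit 3441102837) (nat_lit 346) (nat_lit 5) (nat_lit 356) (nat_lit 5) (nat_lit 357) (nat_lit 5) (nat_lit 579) (nat_lit 523) (nat_lit 458)) (XT.lf (nat_lit 0) (nat_lit 8011747767) (nat_lit 836) (nat_lit 755889190) (nat_lit 76) (nat_lit 111828553) (nat_lit 346) (nat_lit 5) (nat_lit 357) (nat_lit 5) (nat_lit 347) (nat_lit 5) (nat_lit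 580) (nat_lit 523) (nat_lit 457)))) (XT.nd (nat_lit 156) (nat_lit 760) (nat_lit 0) (XT.nd (nat_lit 78) (nat_lit 684) (nat_lit 0) (XT.lf (nat_lit 0) (nat_lit 1755445138) (nat_lit 760) (nat_lit 3720792931) (nat_lit 76) (nat_lit 3484994527) (nat_lit 336) (nat_lit 5) (nat_lit 346) (nat_lit 5) (nat_lit 337) (nat_lit 5) (nat_lit 581) (nat_lit 523) (nat_lit 456)) (XT.lf (nat_lit 0) (nat_lit 2306127756) (nat_lit 684) (nat_lit 2099532453) (nat_lit 760) (nat_lit 4639136859) (nat_lit 327) (nat_lit 5) (nat_lit 336) (nat_lit 5) (nat_lit 337) (nat_lit 5) (nat_lit 582) (nat_lit 523) (nat_lit 455))) (XT.nd (nat_lit 78) (nat_lit 760) (nat_lit 0) (XT.lf (nat_lit 0) (nat_lit 7109218165) (nat_lit 760) (nat_lit 675508634) (nat_lit 76) (nat_lit 1345300153) (nat_lit 327) (nat_lit 5) (nat_lit 337) (nat_lit 5) (nat_lit 328) (nat_lit 5) (nat_lit 583) (nat_lit 523) (nat_lit 454)) (XT.lf (nat_lit 0) (nat_lit 658395533) (nat_lit 760) (nat_lit 3693750413) (nat_lit 76) (nat_lit 4864391297)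 (nat_lit 317) (nat_lit 5) (nat_lit 327) (nat_lit 5) (nat_lit 318) (nat_lit 5) (nat_lit 584) (nat_lit 523) (nat_lit 453))))) (XT.nd (nat_lit 312) (nat_lit 1292) (nat_lit 0) (XT.nd (nat_lit 156) (nat_lit 1292) (nat_lit 0) (XT.nd (nat_lit 78) (nat_lit 0) (nat_lit 0) (XT.lf (nat_lit 0) (nat_lit 2528804037) (nat_lit 684) (nat_lit 823628269) (nat_lit 760) (nat_lit 5952312984) (nat_lit 308) (nat_lit 5) (nat_lit 317) (nat_lit 5) (nat_lit 318) (nat_lit 5) (nat_lit 585) (nat_lit 523) (nat_lit 452)) (XT.lf (nat_lit 0) (nat_lit 6110950093) (nat_lit 760) (nat_lit 527323174) (nat_lit 76) (nat_lit 2756233049) (nat_lit 308) (nat_lit 5) (nat_lit 318) (nat_lit 5) (nat_lit 309) (nat_lit 5) (nat_lit 586) (nat_lit 523) (nat_lit 451))) (XT.nd (nat_lit 78) (nat_lit 684) (nat_lit 0) (XT.lf (nat_lit 0) (nat_lit 5877906025) (nat_lit 608) (nat_lit 3058613685) (nat_lit 684) (nat_lit 549306033) (nat_lit 300) (nat_lit 5) (nat_lit 308) (nat_lit 5) (nat_lit 309) (nat_lit 5) (nat_lit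 587) (nat_lit 523) (nat_lit 450)) (XT.lf (nat_lit 0) (nat_lit 2204591755) (nat_lit 684) (nat_lit 6761132161) (nat_lit 76) (nat_lit 613070882) (nat_lit 291) (nat_lit 5) (nat_lit 300) (nat_lit 5) (nat_lit 292) (nat_lit 5) (nat_lit 588) (nat_lit 523) (nat_lit 449)))) (XT.nd (nat_lit 156) (nat_lit 684) (nat_lit 0) (XT.nd (nat_lit 78) (nat_lit 608) (nat_lit 0) (XT.lf (nat_lit 0) (nat_lit 5019569692) (nat_lit 684) (nat_lit 316988503) (nat_lit 76) (nat_lit 4336726038) (nat_lit 291) (nat_lit 5) (nat_lit 300) (nat_lit 5) (nat_lit 292) (nat_lit 5) (nat_lit 589) (nat_lit 523) (nat_lit 448)) (XT.lf (nat_lit 0) (nat_lit 6298985071) (nat_lit 608) (nat_lit 1602095996) (nat_lit 684) (nat_lit 1868378457) (nat_lit 283) (nat_lit 5) (nat_lit 291) (nat_lit 5) (nat_lit 292) (nat_lit 5) (nat_lit 590) (nat_lit 523) (nat_lit 447))) (XT.nd (nat_lit 78) (nat_lit 0) (nat_lit 0) (XT.lf (nat_lit 0) (nat_lit 966635785) (nat_lit 684) (nat_lit 6702428881) (nat_lit 76) (nat_lit 2198233508)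 (nat_lit 274) (nat_lit 5) (nat_lit 283) (nat_lit 5) (nat_lit 275) (nat_lit 5) (nat_lit 591) (nat_lit 523) (nat_lit 446)) (XT.lf (nat_lit 0) (nat_lit 3837170349) (nat_lit 684) (nat_lit 49894352) (nat_lit 76) (nat_lit 6079705850) (nat_lit 274) (nat_lit 5) (nat_lit 283) (nat_lit 5) (nat_lit 275) (nat_lit 5) (nat_lit 592) (nat_lit 523) (nat_lit 445)))))) (XT.nd (nat_lit 624) (nat_lit 2356) (nat_lit 0) (XT.nd (nat_lit 312) (nat_lit 1596) (nat_lit 0) (XT.nd (nat_lit 156) (nat_lit 608) (nat_lit 0) (XT.nd (nat_lit 78) (nat_lit 608) (nat_lit 0) (XT.lf (nat_lit 0) (nat_lit 6779563062) (nat_lit 608) (nat_lit 3282606582) (nat_lit 76) (nat_lit 5774471) (nat_lit 267) (nat_lit 5) (nat_lit 275) (nat_lit 5) (nat_lit 268) (nat_lit 5) (nat_lit 593) (nat_lit 523) (nat_lit 444)) (XT.lf (nat_lit 0) (nat_lit 3568299163) (nat_lit 608) (nat_lit 6232370317) (nat_lit 684) (nat_lit 370075031) (nat_lit 259) (nat_lit 5) (nat_lit 267) (nat_lit 5) (nat_lit 268) (nat_lit 5) (nat_lit 594)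 (nat_lit 523) (nat_lit 443))) (XT.nd (nat_lit 78) (nat_lit 0) (nat_lit 0) (XT.lf (nat_lit 0) (nat_lit 272361331) (nat_lit 532) (nat_lit 2294738699) (nat_lit 608) (nat_lit 7708269282) (nat_lit 251) (nat_lit 5) (nat_lit 258) (nat_lit 5) (nat_lit 259) (nat_lit 5) (nat_lit 595) (nat_lit 523) (nat_lit 442)) (XT.lf (nat_lit 0) (nat_lit 5584841282) (nat_lit 608) (nat_lit 3060911107) (nat_lit 76) (nat_lit 1735750375) (nat_lit 251) (nat_lit 5) (nat_lit 259) (nat_lit 5) (nat_lit 252) (nat_lit 5) (nat_lit 596) (nat_lit 523) (nat_lit 441)))) (XT.nd (nat_lit 156) (nat_lit 532) (nat_lit 0) (XT.nd (nat_lit 78) (nat_lit 532) (nat_lit 0) (XT.lf (nat_lit 0) (nat_lit 4018365347) (nat_lit 532) (nat_lit 4657423551) (nat_lit 608) (nat_lit 1813713581) (nat_lit 244) (nat_lit 5) (nat_lit 251) (nat_lit 5) (nat_lit 252) (nat_lit 5) (nat_lit 597) (nat_lit 523) (nat_lit 440)) (XT.lf (nat_lit 0) (nat_lit 642492752) (nat_lit 456) (nat_lit 566813942) (nat_lit 532) (nat_lit 9390265909)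 (nat_lit 237) (nat_lit 5) (nat_lit 243) (nat_lit 5) (nat_lit 244) (nat_lit 5) (nat_lit 598) (nat_lit 523) (nat_lit 439))) (XT.nd (nat_lit 78) (nat_lit 532) (nat_lit 0) (XT.lf (nat_lit 0) (nat_lit 4307559848) (nat_lit 532) (nat_lit 2800088537) (nat_lit 76) (nat_lit 3603175399) (nat_lit 237) (nat_lit 5) (nat_lit 244) (nat_lit 5) (nat_lit 238) (nat_lit 5) (nat_lit 599) (nat_lit 523) (nat_lit 438)) (XT.lf (nat_lit 0) (nat_lit 4516784987) (nat_lit 532) (nat_lit 2956536580) (nat_lit 608) (nat_lit 3350868130) (nat_lit 230) (nat_lit 5) (nat_lit 237) (nat_lit 5) (nat_lit 238) (nat_lit 5) (nat_lit 600) (nat_lit 523) (nat_lit 437))))) (XT.nd (nat_lit 312) (nat_lit 912) (nat_lit 0) (XT.nd (nat_lit 156) (nat_lit 912) (nat_lit 0) (XT.nd (nat_lit 78) (nat_lit 76) (nat_lit 0) (XT.lf (nat_lit 0) (nat_lit 1044828508) (nat_lit 456) (nat_lit 9664244104) (nat_lit 532) (nat_lit 230617401) (nat_lit 224) (nat_lit 5) (nat_lit 230) (nat_lit 5) (nat_lit 231) (nat_lit 5) (nat_lit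 601) (nat_lit 523) (nat_lit 436)) (XT.lf (nat_lit 0) (nat_lit 2948293501) (nat_lit 532) (nat_lit 2505141344) (nat_lit 76) (nat_lit 5602983268) (nat_lit 223) (nat_lit 5) (nat_lit 230) (nat_lit 5) (nat_lit 224) (nat_lit 5) (nat_lit 602) (nat_lit 523) (nat_lit 435))) (XT.nd (nat_lit 78) (nat_lit 456) (nat_lit 0) (XT.lf (nat_lit 0) (nat_lit 5058894415) (nat_lit 456) (nat_lit 1134968088) (nat_lit 532) (nat_lit 4981464962) (nat_lit 217) (nat_lit 5) (nat_lit 223) (nat_lit 5) (nat_lit 224) (nat_lit 5) (nat_lit 603) (nat_lit 523) (nat_lit 434)) (XT.lf (nat_lit 0) (nat_lit 1471344523) (nat_lit 456) (nat_lit 8054223395) (nat_lit 532) (nat_lit 1770623108) (nat_lit 211) (nat_lit 5) (nat_lit 217) (nat_lit 5) (nat_lit 218) (nat_lit 5) (nat_lit 604) (nat_lit 523) (nat_lit 433)))) (XT.nd (nat_lit 156) (nat_lit 380) (nat_lit 0) (XT.nd (nat_lit 78) (nat_lit 456) (nat_lit 0) (XT.lf (nat_lit 0) (nat_lit 1507153887) (nat_lit 532) (nat_lit 2181018141) (nat_lit 76) (nat_lit 7730655994)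 (nat_lit 210) (nat_lit 5) (nat_lit 217) (nat_lit 5) (nat_lit 211) (nat_lit 5) (nat_lit 605) (nat_lit 523) (nat_lit 432)) (XT.lf (nat_lit 0) (nat_lit 4842763669) (nat_lit 532) (nat_lit 5908589557) (nat_lit 76) (nat_lit 792011231) (nat_lit 204) (nat_lit 5) (nat_lit 211) (nat_lit 5) (nat_lit 205) (nat_lit 5) (nat_lit 606) (nat_lit 523) (nat_lit 431))) (XT.nd (nat_lit 78) (nat_lit 0) (nat_lit 0) (XT.lf (nat_lit 0) (nat_lit 1929100140) (nat_lit 380) (nat_lit 6341987365) (nat_lit 456) (nat_lit 3398784561) (nat_lit 199) (nat_lit 5) (nat_lit 204) (nat_lit 5) (nat_lit 205) (nat_lit 5) (nat_lit 607) (nat_lit 523) (nat_lit 430)) (XT.lf (nat_lit 0) (nat_lit 9965858679) (nat_lit 380) (nat_lit 1816346332) (nat_lit 456) (nat_lit 16420748) (nat_lit 199) (nat_lit 5) (nat_lit 204) (nat_lit 5) (nat_lit 205) (nat_lit 5) (nat_lit 608) (nat_lit 523) (nat_lit 429))))))) (XT.nd (nat_lit 1170) (nat_lit 3648) (nat_lit 0) (XT.nd (nat_lit 546) (nat_lit 1900) (nat_lit 0) (XT.nd (nat_lit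 234) (nat_lit 1292) (nat_lit 0) (XT.nd (nat_lit 78) (nat_lit 380) (nat_lit 0) (XT.lf (nat_lit 0) (nat_lit 3422600358) (nat_lit 532) (nat_lit 5691933864) (nat_lit 76) (nat_lit 2814294051) (nat_lit 192) (nat_lit 5) (nat_lit 199) (nat_lit 5) (nat_lit 193) (nat_lit 5) (nat_lit 609) (nat_lit 523) (nat_lit 428)) (XT.nd (nat_lit 78) (nat_lit 0) (nat_lit 0) (XT.lf (nat_lit 0) (nat_lit 2413293526) (nat_lit 380) (nat_lit 4532048014) (nat_lit 456) (nat_lit 5115988385) (nat_lit 187) (nat_lit 5) (nat_lit 192) (nat_lit 5) (nat_lit 193) (nat_lit 5) (nat_lit 610) (nat_lit 523) (nat_lit 427)) (XT.lf (nat_lit 0) (nat_lit 10553154946) (nat_lit 456) (nat_lit 1476819160) (nat_lit 76) (nat_lit 166215591) (nat_lit 187) (nat_lit 5) (nat_lit 193) (nat_lit 5) (nat_lit 188) (nat_lit 5) (nat_lit 611) (nat_lit 523) (nat_lit 426)))) (XT.nd (nat_lit 156) (nat_lit 456) (nat_lit 0) (XT.nd (nat_lit 78) (nat_lit 380) (nat_lit 0) (XT.lf (nat_lit 0) (nat_lit 1925222330) (nat_lit 456) (nat_lit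 5464316796) (nat_lit 76) (nat_lit 4942946219) (nat_lit 181) (nat_lit 5) (nat_lit 187) (nat_lit 5) (nat_lit 182) (nat_lit 5) (nat_lit 612) (nat_lit 523) (nat_lit 425)) (XT.lf (nat_lit 0) (nat_lit 2919056840) (nat_lit 380) (nat_lit 2628545633) (nat_lit 456) (nat_lit 6923592474) (nat_lit 176) (nat_lit 5) (nat_lit 181) (nat_lit 5) (nat_lit 182) (nat_lit 5) (nat_lit 613) (nat_lit 523) (nat_lit 424))) (XT.nd (nat_lit 78) (nat_lit 456) (nat_lit 0) (XT.lf (nat_lit 0) (nat_lit 9269766234) (nat_lit 456) (nat_lit 1119682319) (nat_lit 76) (nat_lit 2222683873) (nat_lit 176) (nat_lit 5) (nat_lit 182) (nat_lit 5) (nat_lit 177) (nat_lit 5) (nat_lit 614) (nat_lit 523) (nat_lit 423)) (XT.lf (nat_lit 0) (nat_lit 349400584) (nat_lit 456) (nat_lit 5231079884) (nat_lit 76) (nat_lit 7174508497) (nat_lit 170) (nat_lit 5) (nat_lit 176) (nat_lit 5) (nat_lit 171) (nat_lit 5) (nat_lit 615) (nat_lit 523) (nat_lit 422))))) (XT.nd (nat_lit 312) (nat_lit 760) (nat_lit 0) (XT.nd (nat_lit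 156) (nat_lit 760) (nat_lit 0) (XT.nd (nat_lit 78) (nat_lit 0) (nat_lit 0) (XT.lf (nat_lit 0) (nat_lit 3441405433) (nat_lit 380) (nat_lit 635296628) (nat_lit 456) (nat_lit 8823430021) (nat_lit 165) (nat_lit 5) (nat_lit 170) (nat_lit 5) (nat_lit 171) (nat_lit 5) (nat_lit 616) (nat_lit 523) (nat_lit 421)) (XT.lf (nat_lit 0) (nat_lit 7919155037) (nat_lit 456) (nat_lit 754767028) (nat_lit 76) (nat_lit 4373444260) (nat_lit 165) (nat_lit 5) (nat_lit 171) (nat_lit 5) (nat_lit 166) (nat_lit 5) (nat_lit 617) (nat_lit 523) (nat_lit 420))) (XT.nd (nat_lit 78) (nat_lit 380) (nat_lit 0) (XT.lf (nat_lit 0) (nat_lit 8190521063) (nat_lit 380) (nat_lit 3682424413) (nat_lit 456) (nat_lit 1323910376) (nat_lit 160) (nat_lit 5) (nat_lit 165) (nat_lit 5) (nat_lit 166) (nat_lit 5) (nat_lit 618) (nat_lit 523) (nat_lit 419)) (XT.lf (nat_lit 0) (nat_lit 2540401601) (nat_lit 380) (nat_lit 9383033736) (nat_lit 76) (nat_lit 1425219144) (nat_lit 155) (nat_lit 5) (nat_lit 160) (nat_lit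 5) (nat_lit 156) (nat_lit 5) (nat_lit 619) (nat_lit 523) (nat_lit 418)))) (XT.nd (nat_lit 156) (nat_lit 380) (nat_lit 0) (XT.nd (nat_lit 78) (nat_lit 380) (nat_lit 0) (XT.lf (nat_lit 0) (nat_lit 6499792766) (nat_lit 380) (nat_lit 387477442) (nat_lit 76) (nat_lit 6615333797) (nat_lit 155) (nat_lit 5) (nat_lit 160) (nat_lit 5) (nat_lit 156) (nat_lit 5) (nat_lit 620) (nat_lit 523) (nat_lit 417)) (XT.lf (nat_lit 0) (nat_lit 8868854818) (nat_lit 380) (nat_lit 1704843536) (nat_lit 456) (nat_lit 3085227972) (nat_lit 150) (nat_lit 5) (nat_lit 155) (nat_lit 5) (nat_lit 156) (nat_lit 5) (nat_lit 621) (nat_lit 523) (nat_lit 416))) (XT.nd (nat_lit 78) (nat_lit 0) (nat_lit 0) (XT.lf (nat_lit 0) (nat_lit 931916118) (nat_lit 380) (nat_lit 9326464039) (nat_lit 76) (nat_lit 3559213937) (nat_lit 145) (nat_lit 5) (nat_lit 150) (nat_lit 5) (nat_lit 146) (nat_lit 5) (nat_lit 622) (nat_lit 523) (nat_lit 415)) (XT.lf (nat_lit 0) (nat_lit 5009702957) (nat_lit 380) (nat_lit 23475182)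 (nat_lit 76) (nat_lit 8945417311) (nat_lit 145) (nat_lit 5) (nat_lit 150) (nat_lit 5) (nat_lit 146) (nat_lit 5) (nat_lit 623) (nat_lit 523) (nat_lit 414)))))) (XT.nd (nat_lit 624) (nat_lit 1596) (nat_lit 0) (XT.nd (nat_lit 312) (nat_lit 988) (nat_lit 0) (XT.nd (nat_lit 156) (nat_lit 380) (nat_lit 0) (XT.nd (nat_lit 78) (nat_lit 304) (nat_lit 0) (XT.lf (nat_lit 0) (nat_lit 9211697196) (nat_lit 456) (nat_lit 4588292539) (nat_lit 76) (nat_lit 341974378) (nat_lit 140) (nat_lit 5) (nat_lit 146) (nat_lit 5) (nat_lit 141) (nat_lit 5) (nat_lit 624) (nat_lit 523) (nat_lit 413)) (XT.lf (nat_lit 0) (nat_lit 5011426408) (nat_lit 304) (nat_lit 8530804364) (nat_lit 380) (nat_lit 765479693) (nat_lit 136) (nat_lit 5) (nat_lit 140) (nat_lit 5) (nat_lit 141) (nat_lit 5) (nat_lit 625) (nat_lit 523) (nat_lit 412))) (XT.nd (nat_lit 78) (nat_lit 0) (nat_lit 0) (XT.lf (nat_lit 0) (nat_lit 335662720) (nat_lit 304) (nat_lit 3112964265) (nat_lit 380) (nat_lit 11027458854) (nat_lit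 131) (nat_lit 5) (nat_lit 135) (nat_lit 5) (nat_lit 136) (nat_lit 5) (nat_lit 626) (nat_lit 523) (nat_lit 411)) (XT.lf (nat_lit 0) (nat_lit 7793871972) (nat_lit 380) (nat_lit 4416680157) (nat_lit 76) (nat_lit 2436033565) (nat_lit 131) (nat_lit 5) (nat_lit 136) (nat_lit 5) (nat_lit 132) (nat_lit 5) (nat_lit 627) (nat_lit 523) (nat_lit 410)))) (XT.nd (nat_lit 156) (nat_lit 304) (nat_lit 0) (XT.nd (nat_lit 78) (nat_lit 380) (nat_lit 0) (XT.lf (nat_lit 0) (nat_lit 5518781957) (nat_lit 304) (nat_lit 6742738099) (nat_lit 380) (nat_lit 2558265808) (nat_lit 127) (nat_lit 5) (nat_lit 131) (nat_lit 5) (nat_lit 132) (nat_lit 5) (nat_lit 628) (nat_lit 523) (nat_lit 409)) (XT.lf (nat_lit 0) (nat_lit 679276999) (nat_lit 304) (nat_lit 1132243418) (nat_lit 380) (nat_lit 13184426370) (nat_lit 122) (nat_lit 5) (nat_lit 126) (nat_lit 5) (nat_lit 127) (nat_lit 5) (nat_lit 629) (nat_lit 523) (nat_lit 408))) (XT.nd (nat_lit 78) (nat_lit 304) (nat_lit 0) (XT.lf (nat_lit 0) (nat_lit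 6306311095) (nat_lit 380) (nat_lit 4270970703) (nat_lit 76) (nat_lit 4596573915) (nat_lit 122) (nat_lit 5) (nat_lit 127) (nat_lit 5) (nat_lit 123) (nat_lit 5) (nat_lit 630) (nat_lit 523) (nat_lit 407)) (XT.lf (nat_lit 0) (nat_lit 6013016314) (nat_lit 304) (nat_lit 4904127509) (nat_lit 380) (nat_lit 4437656333) (nat_lit 118) (nat_lit 5) (nat_lit 122) (nat_lit 5) (nat_lit 123) (nat_lit 5) (nat_lit 631) (nat_lit 523) (nat_lit 406))))) (XT.nd (nat_lit 312) (nat_lit 684) (nat_lit 0) (XT.nd (nat_lit 156) (nat_lit 532) (nat_lit 0) (XT.nd (nat_lit 78) (nat_lit 0) (nat_lit 0) (XT.lf (nat_lit 0) (nat_lit 100645866) (nat_lit 380) (nat_lit 14544778705) (nat_lit 76) (nat_lit 893511146) (nat_lit 113) (nat_lit 5) (nat_lit 118) (nat_lit 5) (nat_lit 114) (nat_lit 5) (nat_lit 632) (nat_lit 523) (nat_lit 405)) (XT.lf (nat_lit 0) (nat_lit 4745675312) (nat_lit 380) (nat_lit 4158462092) (nat_lit 76) (nat_lit 6820522546) (nat_lit 113) (nat_lit 5) (nat_lit 118) (nat_lit 5) (nat_lit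 114) (nat_lit 5) (nat_lit 633) (nat_lit 523) (nat_lit 404))) (XT.nd (nat_lit 78) (nat_lit 304) (nat_lit 0) (XT.lf (nat_lit 0) (nat_lit 6487203240) (nat_lit 228) (nat_lit 3018663264) (nat_lit 304) (nat_lit 6407787182) (nat_lit 110) (nat_lit 5) (nat_lit 113) (nat_lit 5) (nat_lit 114) (nat_lit 5) (nat_lit 634) (nat_lit 523) (nat_lit 403)) (XT.lf (nat_lit 0) (nat_lit 1259696338) (nat_lit 304) (nat_lit 13137439226) (nat_lit 380) (nat_lit 1708574490) (nat_lit 106) (nat_lit 5) (nat_lit 110) (nat_lit 5) (nat_lit 111) (nat_lit 5) (nat_lit 635) (nat_lit 523) (nat_lit 402)))) (XT.nd (nat_lit 156) (nat_lit 380) (nat_lit 0) (XT.nd (nat_lit 78) (nat_lit 228) (nat_lit 0) (XT.lf (nat_lit 0) (nat_lit 3108102383) (nat_lit 380) (nat_lit 4087021839) (nat_lit 76) (nat_lit 9104804299) (nat_lit 105) (nat_lit 5) (nat_lit 110) (nat_lit 5) (nat_lit 106) (nat_lit 5) (nat_lit 636) (nat_lit 523) (nat_lit 401)) (XT.lf (nat_lit 0) (nat_lit 6933845985) (nat_lit 228) (nat_lit 1090085194)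 (nat_lit 304) (nat_lit 8473360605) (nat_lit 102) (nat_lit 5) (nat_lit 105) (nat_lit 5) (nat_lit 106) (nat_lit 5) (nat_lit 637) (nat_lit 523) (nat_lit 400))) (XT.nd (nat_lit 78) (nat_lit 76) (nat_lit 0) (XT.lf (nat_lit 0) (nat_lit 1485418023) (nat_lit 304) (nat_lit 11603998447) (nat_lit 380) (nat_lit 3608159263) (nat_lit 98) (nat_lit 5) (nat_lit 102) (nat_lit 5) (nat_lit 103) (nat_lit 5) (nat_lit 638) (nat_lit 523) (nat_lit 399)) (XT.lf (nat_lit 0) (nat_lit 1389176370) (nat_lit 380) (nat_lit 4065170439) (nat_lit 76) (nat_lit 11446291042) (nat_lit 97) (nat_lit 5) (nat_lit 102) (nat_lit 5) (nat_lit 98) (nat_lit 5) (nat_lit 639) (nat_lit 523) (nat_lit 398))))))))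
noncomputable def xc75 : XT := (XT.nd (nat_lit 74100) (nat_lit 0) (nat_lit 20672) (XT.nd (nat_lit 72852) (nat_lit 0) (nat_lit 43700) (XT.nd (nat_lit 72228) (nat_lit 0) (nat_lit 50996) (XT.nd (nat_lit 234) (nat_lit 532) (nat_lit 0) (XT.nd (nat_lit 78) (nat_lit 228) (nat_lit 0) (XT.lf (nat_lit 0) (nat_lit 6472726811) (nat_lit 304) (nat_lit 9767613413) (nat_lit 76) (nat_lit 866252566) (nat_lit 94) (nat_lit 5) (nat_lit 98) (nat_lit 5) (nat_lit 95) (nat_lit 5) (nat_lit 640) (nat_lit 523) (nat_lit 397)) (XT.nd (nat_lit 78) (nat_lit 0) (nat_lit 0) (XT.lf (nat_lit 0) (nat_lit 1663236286) (nat_lit 228) (nat_lit 10050315327) (nat_lit 304) (nat_lit 5602003352) (nat_lit 91) (nat_lit 5) (nat_lit 94) (nat_lit 5) (nat_lit 95) (nat_lit 5) (nat_lit 641) (nat_lit 523) (nat_lit 396)) (XT.lf (nat_lit 0) (nat_lit 13422848571) (nat_lit 228) (nat_lit 3683271834) (nat_lit 304) (nat_lit 421637626) (nat_lit 91) (nat_lit 5) (nat_lit 94) (nat_lit 5) (nat_lit 95) (nat_lit 5) (nat_lit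 642) (nat_lit 523) (nat_lit 395)))) (XT.nd (nat_lit 156) (nat_lit 0) (nat_lit 0) (XT.nd (nat_lit 78) (nat_lit 228) (nat_lit 0) (XT.lf (nat_lit 0) (nat_lit 4848961146) (nat_lit 304) (nat_lit 10050502161) (nat_lit 76) (nat_lit 2843102730) (nat_lit 87) (nat_lit 5) (nat_lit 91) (nat_lit 5) (nat_lit 88) (nat_lit 5) (nat_lit 643) (nat_lit 523) (nat_lit 394)) (XT.lf (nat_lit 0) (nat_lit 1783588838) (nat_lit 228) (nat_lit 8481137032) (nat_lit 304) (nat_lit 7695980784) (nat_lit 84) (nat_lit 5) (nat_lit 87) (nat_lit 5) (nat_lit 88) (nat_lit 5) (nat_lit 644) (nat_lit 523) (nat_lit 393))) (XT.nd (nat_lit 71760) (nat_lit 0) (nat_lit 52972) (XT.lf (nat_lit 0) (nat_lit 13958872446) (nat_lit 228) (nat_lit 1879223700) (nat_lit 304) (nat_lit 2344128316) (nat_lit 84) (nat_lit 5) (nat_lit 87) (nat_lit 5) (nat_lit 88) (nat_lit 5) (nat_lit 645) (nat_lit 523) (nat_lit 392)) (XT.lf (nat_lit 0) (nat_lit 2431503587) (nat_lit 380) (nat_lit 402410692) (nat_lit 380) (nat_lit 402410692)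 (nat_lit 781) (nat_lit 3) (nat_lit 786) (nat_lit 3) (nat_lit 786) (nat_lit 5) (nat_lit 524) (nat_lit 524) (nat_lit 512))))) (XT.nd (nat_lit 312) (nat_lit 1140) (nat_lit 0) (XT.nd (nat_lit 156) (nat_lit 456) (nat_lit 0) (XT.nd (nat_lit 78) (nat_lit 0) (nat_lit 0) (XT.lf (nat_lit 0) (nat_lit 1226626372) (nat_lit 380) (nat_lit 4035155925) (nat_lit 456) (nat_lit 1219033976) (nat_lit 776) (nat_lit 5) (nat_lit 781) (nat_lit 3) (nat_lit 782) (nat_lit 5) (nat_lit 525) (nat_lit 524) (nat_lit 511)) (XT.lf (nat_lit 0) (nat_lit 4029438103) (nat_lit 380) (nat_lit 766567904) (nat_lit 456) (nat_lit 1694303666) (nat_lit 776) (nat_lit 5) (nat_lit 781) (nat_lit 3) (nat_lit 782) (nat_lit 5) (nat_lit 526) (nat_lit 524) (nat_lit 510))) (XT.nd (nat_lit 78) (nat_lit 0) (nat_lit 0) (XT.lf (nat_lit 0) (nat_lit 326851861) (nat_lit 456) (nat_lit 3940395592) (nat_lit 532) (nat_lit 2233826226) (nat_lit 770) (nat_lit 5) (nat_lit 776) (nat_lit 5) (nat_lit 777) (nat_lit 5) (nat_lit 527)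 (nat_lit 524) (nat_lit 509)) (XT.lf (nat_lit 0) (nat_lit 3070655222) (nat_lit 456) (nat_lit 602263031) (nat_lit 532) (nat_lit 2840147573) (nat_lit 770) (nat_lit 5) (nat_lit 776) (nat_lit 5) (nat_lit 777) (nat_lit 5) (nat_lit 528) (nat_lit 524) (nat_lit 508)))) (XT.nd (nat_lit 156) (nat_lit 608) (nat_lit 0) (XT.nd (nat_lit 78) (nat_lit 532) (nat_lit 0) (XT.lf (nat_lit 76) (nat_lit 2801291479) (nat_lit 0) (nat_lit 3015709037) (nat_lit 532) (nat_lit 709347626) (nat_lit 771) (nat_lit 5) (nat_lit 770) (nat_lit 5) (nat_lit 777) (nat_lit 5) (nat_lit 529) (nat_lit 524) (nat_lit 507)) (XT.lf (nat_lit 0) (nat_lit 1985338761) (nat_lit 532) (nat_lit 311016687) (nat_lit 608) (nat_lit 4244589867) (nat_lit 763) (nat_lit 5) (nat_lit 770) (nat_lit 5) (nat_lit 771) (nat_lit 5) (nat_lit 530) (nat_lit 524) (nat_lit 506))) (XT.nd (nat_lit 78) (nat_lit 608) (nat_lit 0) (XT.lf (nat_lit 76) (nat_lit 3170182602) (nat_lit 0) (nat_lit 1506351646) (nat_lit 608) (nat_lit 1880167571)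 (nat_lit 764) (nat_lit 5) (nat_lit 763) (nat_lit 5) (nat_lit 771) (nat_lit 5) (nat_lit 531) (nat_lit 524) (nat_lit 505)) (XT.lf (nat_lit 76) (nat_lit 109748732) (nat_lit 0) (nat_lit 662882806) (nat_lit 684) (nat_lit 5801335335) (nat_lit 756) (nat_lit 5) (nat_lit 755) (nat_lit 5) (nat_lit 764) (nat_lit 5) (nat_lit 532) (nat_lit 524) (nat_lit 504)))))) (XT.nd (nat_lit 624) (nat_lit 5168) (nat_lit 0) (XT.nd (nat_lit 312) (nat_lit 1520) (nat_lit 0) (XT.nd (nat_lit 156) (nat_lit 684) (nat_lit 0) (XT.nd (nat_lit 78) (nat_lit 0) (nat_lit 0) (XT.lf (nat_lit 0) (nat_lit 3410927069) (nat_lit 608) (nat_lit 2923083491) (nat_lit 684) (nat_lit 258169030) (nat_lit 756) (nat_lit 5) (nat_lit 764) (nat_lit 5) (nat_lit 765) (nat_lit 5) (nat_lit 533) (nat_lit 524) (nat_lit 503)) (XT.lf (nat_lit 76) (nat_lit 653918971) (nat_lit 0) (nat_lit 5391444882) (nat_lit 684) (nat_lit 566528372) (nat_lit 757) (nat_lit 5) (nat_lit 756) (nat_lit 5) (nat_lit 765) (nat_lit 5) (nat_lit 534)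 (nat_lit 524) (nat_lit 502))) (XT.nd (nat_lit 78) (nat_lit 0) (nat_lit 0) (XT.lf (nat_lit 0) (nat_lit 2028025699) (nat_lit 684) (nat_lit 2343035890) (nat_lit 760) (nat_lit 2261566143) (nat_lit 747) (nat_lit 5) (nat_lit 756) (nat_lit 5) (nat_lit 757) (nat_lit 5) (nat_lit 535) (nat_lit 524) (nat_lit 501)) (XT.lf (nat_lit 76) (nat_lit 1318777662) (nat_lit 0) (nat_lit 3293283136) (nat_lit 760) (nat_lit 2042741732) (nat_lit 748) (nat_lit 5) (nat_lit 747) (nat_lit 5) (nat_lit 757) (nat_lit 5) (nat_lit 536) (nat_lit 524) (nat_lit 500)))) (XT.nd (nat_lit 156) (nat_lit 760) (nat_lit 0) (XT.nd (nat_lit 78) (nat_lit 0) (nat_lit 0) (XT.lf (nat_lit 0) (nat_lit 515884406) (nat_lit 760) (nat_lit 1634873717) (nat_lit 836) (nat_lit 4527531332) (nat_lit 737) (nat_lit 5) (nat_lit 747) (nat_lit 5) (nat_lit 748) (nat_lit 5) (nat_lit 537) (nat_lit 524) (nat_lit 499)) (XT.lf (nat_lit 76) (nat_lit 2115748181) (nat_lit 0) (nat_lit 934758532) (nat_lit 836) (nat_lit 3652428655)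 (nat_lit 738) (nat_lit 5) (nat_lit 737) (nat_lit 5) (nat_lit 748) (nat_lit 5) (nat_lit 538) (nat_lit 524) (nat_lit 498))) (XT.nd (nat_lit 78) (nat_lit 836) (nat_lit 0) (XT.lf (nat_lit 0) (nat_lit 5588363496) (nat_lit 760) (nat_lit 806244103) (nat_lit 76) (nat_lit 334418520) (nat_lit 738) (nat_lit 5) (nat_lit 748) (nat_lit 5) (nat_lit 739) (nat_lit 5) (nat_lit 539) (nat_lit 524) (nat_lit 497)) (XT.lf (nat_lit 0) (nat_lit 1369135155) (nat_lit 836) (nat_lit 3720347483) (nat_lit 76) (nat_lit 1666645388) (nat_lit 727) (nat_lit 5) (nat_lit 738) (nat_lit 5) (nat_lit 728) (nat_lit 5) (nat_lit 540) (nat_lit 524) (nat_lit 496))))) (XT.nd (nat_lit 312) (nat_lit 3344) (nat_lit 0) (XT.nd (nat_lit 156) (nat_lit 988) (nat_lit 0) (XT.nd (nat_lit 78) (nat_lit 0) (nat_lit 0) (XT.lf (nat_lit 0) (nat_lit 136489908) (nat_lit 836) (nat_lit 3724933991) (nat_lit 912) (nat_lit 2923248508) (nat_lit 716) (nat_lit 5) (nat_lit 727) (nat_lit 5) (nat_lit 728) (nat_lit 5) (nat_lit 541)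 (nat_lit 524) (nat_lit 495)) (XT.lf (nat_lit 0) (nat_lit 4081533937) (nat_lit 836) (nat_lit 2289108799) (nat_lit 912) (nat_lit 443805806) (nat_lit 716) (nat_lit 5) (nat_lit 727) (nat_lit 5) (nat_lit 728) (nat_lit 5) (nat_lit 542) (nat_lit 524) (nat_lit 494))) (XT.nd (nat_lit 78) (nat_lit 0) (nat_lit 0) (XT.lf (nat_lit 0) (nat_lit 1223820367) (nat_lit 912) (nat_lit 784878607) (nat_lit 988) (nat_lit 4836836478) (nat_lit 703) (nat_lit 5) (nat_lit 715) (nat_lit 5) (nat_lit 716) (nat_lit 5) (nat_lit 543) (nat_lit 524) (nat_lit 493)) (XT.lf (nat_lit 0) (nat_lit 4471496652) (nat_lit 988) (nat_lit 1628398679) (nat_lit 76) (nat_lit 777948795) (nat_lit 703) (nat_lit 5) (nat_lit 716) (nat_lit 5) (nat_lit 704) (nat_lit 5) (nat_lit 544) (nat_lit 524) (nat_lit 492)))) (XT.nd (nat_lit 156) (nat_lit 2280) (nat_lit 0) (XT.nd (nat_lit 78) (nat_lit 0) (nat_lit 0) (XT.lf (nat_lit 0) (nat_lit 37511074) (nat_lit 1064) (nat_lit 4479787328) (nat_lit 76) (nat_lit 2394179158) (nat_lit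 689) (nat_lit 5) (nat_lit 703) (nat_lit 5) (nat_lit 690) (nat_lit 5) (nat_lit 545) (nat_lit 524) (nat_lit 491)) (XT.lf (nat_lit 0) (nat_lit 2454472776) (nat_lit 1064) (nat_lit 406526367) (nat_lit 76) (nat_lit 4085339727) (nat_lit 689) (nat_lit 5) (nat_lit 703) (nat_lit 5) (nat_lit 690) (nat_lit 5) (nat_lit 546) (nat_lit 524) (nat_lit 490))) (XT.nd (nat_lit 78) (nat_lit 1216) (nat_lit 0) (XT.lf (nat_lit 0) (nat_lit 3758267517) (nat_lit 1064) (nat_lit 1132394692) (nat_lit 1140) (nat_lit 2091819649) (nat_lit 675) (nat_lit 5) (nat_lit 689) (nat_lit 5) (nat_lit 690) (nat_lit 5) (nat_lit 547) (nat_lit 524) (nat_lit 489)) (XT.lf (nat_lit 0) (nat_lit 311745263) (nat_lit 1216) (nat_lit 6061237900) (nat_lit 76) (nat_lit 647116630) (nat_lit 659) (nat_lit 5) (nat_lit 675) (nat_lit 5) (nat_lit 660) (nat_lit 5) (nat_lit 548) (nat_lit 524) (nat_lit 488))))))) (XT.nd (nat_lit 1170) (nat_lit 9044) (nat_lit 0) (XT.nd (nat_lit 546) (nat_lit 8512) (nat_lit 0) (XT.nd (nat_lit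 234) (nat_lit 4180) (nat_lit 0) (XT.nd (nat_lit 78) (nat_lit 1292) (nat_lit 0) (XT.lf (nat_lit 0) (nat_lit 2712477538) (nat_lit 1216) (nat_lit 1850770644) (nat_lit 76) (nat_lit 2495405348) (nat_lit 659) (nat_lit 5) (nat_lit 675) (nat_lit 5) (nat_lit 660) (nat_lit 5) (nat_lit 549) (nat_lit 524) (nat_lit 487)) (XT.nd (nat_lit 78) (nat_lit 76) (nat_lit 0) (XT.lf (nat_lit 0) (nat_lit 2436108595) (nat_lit 1216) (nat_lit 2689756798) (nat_lit 1292) (nat_lit 1972822185) (nat_lit 643) (nat_lit 5) (nat_lit 659) (nat_lit 5) (nat_lit 660) (nat_lit 5) (nat_lit 550) (nat_lit 524) (nat_lit 486)) (XT.lf (nat_lit 0) (nat_lit 403860240) (nat_lit 1292) (nat_lit 348614240) (nat_lit 76) (nat_lit 6387756880) (nat_lit 642) (nat_lit 5) (nat_lit 659) (nat_lit 5) (nat_lit 643) (nat_lit 5) (nat_lit 551) (nat_lit 524) (nat_lit 485)))) (XT.nd (nat_lit 156) (nat_lit 1520) (nat_lit 0) (XT.nd (nat_lit 78) (nat_lit 1368) (nat_lit 0) (XT.lf (nat_lit 0) (nat_lit 2786498369) (nat_lit 1368)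 (nat_lit 3138751306) (nat_lit 76) (nat_lit 1257400709) (nat_lit 625) (nat_lit 5) (nat_lit 643) (nat_lit 5) (nat_lit 626) (nat_lit 5) (nat_lit 552) (nat_lit 524) (nat_lit 484)) (XT.lf (nat_lit 0) (nat_lit 1274672756) (nat_lit 1368) (nat_lit 3908747680) (nat_lit 1444) (nat_lit 2043166624) (nat_lit 607) (nat_lit 5) (nat_lit 625) (nat_lit 5) (nat_lit 626) (nat_lit 5) (nat_lit 553) (nat_lit 524) (nat_lit 483))) (XT.nd (nat_lit 78) (nat_lit 1444) (nat_lit 0) (XT.lf (nat_lit 0) (nat_lit 324796935) (nat_lit 1444) (nat_lit 1495072656) (nat_lit 76) (nat_lit 5452036380) (nat_lit 606) (nat_lit 5) (nat_lit 625) (nat_lit 5) (nat_lit 607) (nat_lit 5) (nat_lit 554) (nat_lit 524) (nat_lit 482)) (XT.lf (nat_lit 0) (nat_lit 2687147693) (nat_lit 1520) (nat_lit 4283250303) (nat_lit 76) (nat_lit 347977224) (nat_lit 587) (nat_lit 5) (nat_lit 607) (nat_lit 5) (nat_lit 588) (nat_lit 5) (nat_lit 555) (nat_lit 524) (nat_lit 481))))) (XT.nd (nat_lit 312) (nat_lit 5320) (nat_lit 0)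 (XT.nd (nat_lit 156) (nat_lit 1596) (nat_lit 0) (XT.nd (nat_lit 78) (nat_lit 76) (nat_lit 0) (XT.lf (nat_lit 0) (nat_lit 261449771) (nat_lit 1520) (nat_lit 4812220810) (nat_lit 1596) (nat_lit 2292566524) (nat_lit 567) (nat_lit 5) (nat_lit 587) (nat_lit 5) (nat_lit 588) (nat_lit 5) (nat_lit 556) (nat_lit 524) (nat_lit 480)) (XT.lf (nat_lit 0) (nat_lit 74010157) (nat_lit 1596) (nat_lit 2501004519) (nat_lit 76) (nat_lit 4840383967) (nat_lit 566) (nat_lit 5) (nat_lit 587) (nat_lit 5) (nat_lit 567) (nat_lit 5) (nat_lit 557) (nat_lit 524) (nat_lit 479))) (XT.nd (nat_lit 78) (nat_lit 0) (nat_lit 0) (XT.lf (nat_lit 0) (nat_lit 2168072452) (nat_lit 1596) (nat_lit 257594126) (nat_lit 1672) (nat_lit 5040206494) (nat_lit 545) (nat_lit 5) (nat_lit 566) (nat_lit 5) (nat_lit 567) (nat_lit 5) (nat_lit 558) (nat_lit 524) (nat_lit 478)) (XT.lf (nat_lit 0) (nat_lit 4809936600) (nat_lit 1672) (nat_lit 607080812) (nat_lit 76) (nat_lit 2100629585) (nat_lit 545) (nat_lit 5)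 (nat_lit 567) (nat_lit 5) (nat_lit 546) (nat_lit 5) (nat_lit 559) (nat_lit 524) (nat_lit 477)))) (XT.nd (nat_lit 156) (nat_lit 1824) (nat_lit 0) (XT.nd (nat_lit 78) (nat_lit 1824) (nat_lit 0) (XT.lf (nat_lit 0) (nat_lit 4190802369) (nat_lit 1672) (nat_lit 3035898754) (nat_lit 1748) (nat_lit 344060684) (nat_lit 523) (nat_lit 5) (nat_lit 545) (nat_lit 5) (nat_lit 546) (nat_lit 5) (nat_lit 560) (nat_lit 524) (nat_lit 476)) (XT.lf (nat_lit 0) (nat_lit 1433135203) (nat_lit 1748) (nat_lit 576236755) (nat_lit 1824) (nat_lit 5615907746) (nat_lit 499) (nat_lit 5) (nat_lit 522) (nat_lit 5) (nat_lit 523) (nat_lit 5) (nat_lit 561) (nat_lit 524) (nat_lit 475))) (XT.nd (nat_lit 78) (nat_lit 1824) (nat_lit 0) (XT.lf (nat_lit 0) (nat_lit 4397481532) (nat_lit 1824) (nat_lit 1347953631) (nat_lit 76) (nat_lit 1935564503) (nat_lit 499) (nat_lit 5) (nat_lit 523) (nat_lit 5) (nat_lit 500) (nat_lit 5) (nat_lit 562) (nat_lit 524) (nat_lit 474)) (XT.lf (nat_lit 0) (nat_lit 3596422969)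 (nat_lit 1824) (nat_lit 3221774854) (nat_lit 1900) (nat_lit 919940777) (nat_lit 475) (nat_lit 5) (nat_lit 499) (nat_lit 5) (nat_lit 500) (nat_lit 5) (nat_lit 563) (nat_lit 524) (nat_lit 473)))))) (XT.nd (nat_lit 624) (nat_lit 4104) (nat_lit 0) (XT.nd (nat_lit 312) (nat_lit 1824) (nat_lit 0) (XT.nd (nat_lit 156) (nat_lit 1900) (nat_lit 0) (XT.nd (nat_lit 78) (nat_lit 0) (nat_lit 0) (XT.lf (nat_lit 0) (nat_lit 822419733) (nat_lit 1140) (nat_lit 621351580) (nat_lit 1216) (nat_lit 6353008476) (nat_lit 459) (nat_lit 5) (nat_lit 474) (nat_lit 5) (nat_lit 475) (nat_lit 5) (nat_lit 564) (nat_lit 524) (nat_lit 472)) (XT.lf (nat_lit 0) (nat_lit 3842159905) (nat_lit 1216) (nat_lit 1974441956) (nat_lit 76) (nat_lit 2039877300) (nat_lit 459) (nat_lit 5) (nat_lit 475) (nat_lit 5) (nat_lit 460) (nat_lit 5) (nat_lit 565) (nat_lit 524) (nat_lit 471))) (XT.nd (nat_lit 78) (nat_lit 988) (nat_lit 0) (XT.lf (nat_lit 0) (nat_lit 3122189670) (nat_lit 912) (nat_lit 3150070169)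 (nat_lit 988) (nat_lit 1645439166) (nat_lit 447) (nat_lit 5) (nat_lit 459) (nat_lit 5) (nat_lit 460) (nat_lit 5) (nat_lit 566) (nat_lit 524) (nat_lit 470)) (XT.lf (nat_lit 0) (nat_lit 326436735) (nat_lit 912) (nat_lit 409357686) (nat_lit 988) (nat_lit 7244748325) (nat_lit 434) (nat_lit 5) (nat_lit 446) (nat_lit 5) (nat_lit 447) (nat_lit 5) (nat_lit 567) (nat_lit 524) (nat_lit 469)))) (XT.nd (nat_lit 156) (nat_lit 988) (nat_lit 0) (XT.nd (nat_lit 78) (nat_lit 836) (nat_lit 0) (XT.lf (nat_lit 0) (nat_lit 3150684746) (nat_lit 988) (nat_lit 2495698669) (nat_lit 76) (nat_lit 2397882406) (nat_lit 434) (nat_lit 5) (nat_lit 447) (nat_lit 5) (nat_lit 435) (nat_lit 5) (nat_lit 568) (nat_lit 524) (nat_lit 468)) (XT.lf (nat_lit 0) (nat_lit 2759233710) (nat_lit 836) (nat_lit 2836203941) (nat_lit 912) (nat_lit 2514195662) (nat_lit 423) (nat_lit 5) (nat_lit 434) (nat_lit 5) (nat_lit 435) (nat_lit 5) (nat_lit 569) (nat_lit 524) (nat_lit 467))) (XT.nd (nat_lit 78) (nat_lit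 988) (nat_lit 0) (XT.lf (nat_lit 0) (nat_lit 8067577615) (nat_lit 912) (nat_lit 63805349) (nat_lit 76) (nat_lit 45356578) (nat_lit 423) (nat_lit 5) (nat_lit 435) (nat_lit 5) (nat_lit 424) (nat_lit 5) (nat_lit 570) (nat_lit 524) (nat_lit 466)) (XT.lf (nat_lit 0) (nat_lit 2328980414) (nat_lit 988) (nat_lit 2920249433) (nat_lit 76) (nat_lit 2995339863) (nat_lit 410) (nat_lit 5) (nat_lit 423) (nat_lit 5) (nat_lit 411) (nat_lit 5) (nat_lit 571) (nat_lit 524) (nat_lit 465))))) (XT.nd (nat_lit 312) (nat_lit 1596) (nat_lit 0) (XT.nd (nat_lit 156) (nat_lit 1672) (nat_lit 0) (XT.nd (nat_lit 78) (nat_lit 0) (nat_lit 0) (XT.lf (nat_lit 0) (nat_lit 2499316766) (nat_lit 836) (nat_lit 2294196681) (nat_lit 912) (nat_lit 3520647968) (nat_lit 399) (nat_lit 5) (nat_lit 410) (nat_lit 5) (nat_lit 411) (nat_lit 5) (nat_lit 572) (nat_lit 524) (nat_lit 464)) (XT.lf (nat_lit 0) (nat_lit 7294628269) (nat_lit 912) (nat_lit 363221764) (nat_lit 76) (nat_lit 727550233) (nat_lit 399)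 (nat_lit 5) (nat_lit 411) (nat_lit 5) (nat_lit 400) (nat_lit 5) (nat_lit 573) (nat_lit 524) (nat_lit 463))) (XT.nd (nat_lit 78) (nat_lit 760) (nat_lit 0) (XT.lf (nat_lit 0) (nat_lit 1382228105) (nat_lit 912) (nat_lit 3256053350) (nat_lit 76) (nat_lit 3819348798) (nat_lit 387) (nat_lit 5) (nat_lit 399) (nat_lit 5) (nat_lit 388) (nat_lit 5) (nat_lit 574) (nat_lit 524) (nat_lit 462)) (XT.lf (nat_lit 0) (nat_lit 2334770766) (nat_lit 760) (nat_lit 1536774486) (nat_lit 836) (nat_lit 4659987207) (nat_lit 377) (nat_lit 5) (nat_lit 387) (nat_lit 5) (nat_lit 388) (nat_lit 5) (nat_lit 575) (nat_lit 524) (nat_lit 461)))) (XT.nd (nat_lit 156) (nat_lit 760) (nat_lit 0) (XT.nd (nat_lit 78) (nat_lit 836) (nat_lit 0) (XT.lf (nat_lit 0) (nat_lit 6407467306) (nat_lit 836) (nat_lit 576010464) (nat_lit 76) (nat_lit 1623499613) (nat_lit 377) (nat_lit 5) (nat_lit 388) (nat_lit 5) (nat_lit 378) (nat_lit 5) (nat_lit 576) (nat_lit 524) (nat_lit 460)) (XT.lf (nat_lit 0) (nat_lit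 314906793) (nat_lit 836) (nat_lit 3510560476) (nat_lit 76) (nat_lit 4858248701) (nat_lit 366) (nat_lit 5) (nat_lit 377) (nat_lit 5) (nat_lit 367) (nat_lit 5) (nat_lit 577) (nat_lit 524) (nat_lit 459))) (XT.nd (nat_lit 78) (nat_lit 0) (nat_lit 0) (XT.lf (nat_lit 0) (nat_lit 2258440811) (nat_lit 760) (nat_lit 575465782) (nat_lit 836) (nat_lit 5928118028) (nat_lit 356) (nat_lit 5) (nat_lit 366) (nat_lit 5) (nat_lit 367) (nat_lit 5) (nat_lit 578) (nat_lit 524) (nat_lit 458)) (XT.lf (nat_lit 0) (nat_lit 5410344467) (nat_lit 836) (nat_lit 709144537) (nat_lit 76) (nat_lit 2722270245) (nat_lit 356) (nat_lit 5) (nat_lit 367) (nat_lit 5) (nat_lit 357) (nat_lit 5) (nat_lit 579) (nat_lit 524) (nat_lit 457))))))))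
noncomputable def xc76 : XT := (XT.nd (nat_lit 2418) (nat_lit 7448) (nat_lit 0) (XT.nd (nat_lit 1170) (nat_lit 5700) (nat_lit 0) (XT.nd (nat_lit 546) (nat_lit 3116) (nat_lit 0) (XT.nd (nat_lit 234) (nat_lit 2128) (nat_lit 0) (XT.nd (nat_lit 78) (nat_lit 760) (nat_lit 0) (XT.lf (nat_lit 0) (nat_lit 5226525141) (nat_lit 760) (nat_lit 2815763874) (nat_lit 836) (nat_lit 880720945) (nat_lit 346) (nat_lit 5) (nat_lit 356) (nat_lit 5) (nat_lit 357) (nat_lit 5) (nat_lit 580) (nat_lit 524) (nat_lit 456)) (XT.nd (nat_lit 78) (nat_lit 0) (nat_lit 0) (XT.lf (nat_lit 0) (nat_lit 1688083206) (nat_lit 760) (nat_lit 6746075466) (nat_lit 76) (nat_lit 571711098) (nat_lit 336) (nat_lit 5) (nat_lit 346) (nat_lit 5) (nat_lit 337) (nat_lit 5) (nat_lit 581) (nat_lit 524) (nat_lit 455)) (XT.lf (nat_lit 0) (nat_lit 4306880936) (nat_lit 760) (nat_lit 769175468) (nat_lit 76) (nat_lit 4014006629) (nat_lit 336) (nat_lit 5) (nat_lit 346) (nat_lit 5) (nat_lit 337) (nat_lit 5) (nat_lit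 582) (nat_lit 524) (nat_lit 454)))) (XT.nd (nat_lit 156) (nat_lit 684) (nat_lit 0) (XT.nd (nat_lit 78) (nat_lit 760) (nat_lit 0) (XT.lf (nat_lit 0) (nat_lit 5358375520) (nat_lit 684) (nat_lit 1621902805) (nat_lit 760) (nat_lit 2195618237) (nat_lit 327) (nat_lit 5) (nat_lit 336) (nat_lit 5) (nat_lit 337) (nat_lit 5) (nat_lit 583) (nat_lit 524) (nat_lit 453)) (XT.lf (nat_lit 0) (nat_lit 438352119) (nat_lit 760) (nat_lit 6932032195) (nat_lit 76) (nat_lit 1892996186) (nat_lit 317) (nat_lit 5) (nat_lit 327) (nat_lit 5) (nat_lit 318) (nat_lit 5) (nat_lit 584) (nat_lit 524) (nat_lit 452))) (XT.nd (nat_lit 78) (nat_lit 684) (nat_lit 0) (XT.lf (nat_lit 0) (nat_lit 3100099509) (nat_lit 760) (nat_lit 762283653) (nat_lit 76) (nat_lit 5489851581) (nat_lit 317) (nat_lit 5) (nat_lit 327) (nat_lit 5) (nat_lit 318) (nat_lit 5) (nat_lit 585) (nat_lit 524) (nat_lit 451)) (XT.lf (nat_lit 0) (nat_lit 5564949901) (nat_lit 684) (nat_lit 254833061) (nat_lit 760) (nat_lit 3622989895)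 (nat_lit 308) (nat_lit 5) (nat_lit 317) (nat_lit 5) (nat_lit 318) (nat_lit 5) (nat_lit 586) (nat_lit 524) (nat_lit 450))))) (XT.nd (nat_lit 312) (nat_lit 1216) (nat_lit 0) (XT.nd (nat_lit 156) (nat_lit 1216) (nat_lit 0) (XT.nd (nat_lit 78) (nat_lit 76) (nat_lit 0) (XT.lf (nat_lit 0) (nat_lit 2464886393) (nat_lit 608) (nat_lit 6141249082) (nat_lit 684) (nat_lit 928741544) (nat_lit 300) (nat_lit 5) (nat_lit 308) (nat_lit 5) (nat_lit 309) (nat_lit 5) (nat_lit 587) (nat_lit 524) (nat_lit 449)) (XT.lf (nat_lit 0) (nat_lit 1792451028) (nat_lit 684) (nat_lit 694327190) (nat_lit 76) (nat_lit 7141871137) (nat_lit 299) (nat_lit 5) (nat_lit 308) (nat_lit 5) (nat_lit 300) (nat_lit 5) (nat_lit 588) (nat_lit 524) (nat_lit 448))) (XT.nd (nat_lit 78) (nat_lit 608) (nat_lit 0) (XT.lf (nat_lit 0) (nat_lit 4571505102) (nat_lit 684) (nat_lit 3891611702) (nat_lit 76) (nat_lit 1260740832) (nat_lit 291) (nat_lit 5) (nat_lit 300) (nat_lit 5) (nat_lit 292) (nat_lit 5) (nat_lit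 589) (nat_lit 524) (nat_lit 447)) (XT.lf (nat_lit 0) (nat_lit 2657349920) (nat_lit 608) (nat_lit 4757140435) (nat_lit 684) (nat_lit 2406313458) (nat_lit 283) (nat_lit 5) (nat_lit 291) (nat_lit 5) (nat_lit 292) (nat_lit 5) (nat_lit 590) (nat_lit 524) (nat_lit 446)))) (XT.nd (nat_lit 156) (nat_lit 532) (nat_lit 0) (XT.nd (nat_lit 78) (nat_lit 608) (nat_lit 0) (XT.lf (nat_lit 0) (nat_lit 385837259) (nat_lit 684) (nat_lit 570889302) (nat_lit 76) (nat_lit 8962984476) (nat_lit 282) (nat_lit 5) (nat_lit 291) (nat_lit 5) (nat_lit 283) (nat_lit 5) (nat_lit 591) (nat_lit 524) (nat_lit 445)) (XT.lf (nat_lit 0) (nat_lit 3231703309) (nat_lit 684) (nat_lit 3858949593) (nat_lit 76) (nat_lit 2929024223) (nat_lit 274) (nat_lit 5) (nat_lit 283) (nat_lit 5) (nat_lit 275) (nat_lit 5) (nat_lit 592) (nat_lit 524) (nat_lit 444))) (XT.nd (nat_lit 78) (nat_lit 0) (nat_lit 0) (XT.lf (nat_lit 0) (nat_lit 2906370296) (nat_lit 532) (nat_lit 3228114335) (nat_lit 608) (nat_lit 3987158621)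 (nat_lit 267) (nat_lit 5) (nat_lit 274) (nat_lit 5) (nat_lit 275) (nat_lit 5) (nat_lit 593) (nat_lit 524) (nat_lit 443)) (XT.lf (nat_lit 0) (nat_lit 9097204325) (nat_lit 608) (nat_lit 409412671) (nat_lit 76) (nat_lit 718994716) (nat_lit 267) (nat_lit 5) (nat_lit 275) (nat_lit 5) (nat_lit 268) (nat_lit 5) (nat_lit 594) (nat_lit 524) (nat_lit 442)))))) (XT.nd (nat_lit 624) (nat_lit 2356) (nat_lit 0) (XT.nd (nat_lit 312) (nat_lit 1520) (nat_lit 0) (XT.nd (nat_lit 156) (nat_lit 608) (nat_lit 0) (XT.nd (nat_lit 78) (nat_lit 532) (nat_lit 0) (XT.lf (nat_lit 0) (nat_lit 1800035754) (nat_lit 684) (nat_lit 3783611365) (nat_lit 76) (nat_lit 4747061734) (nat_lit 258) (nat_lit 5) (nat_lit 267) (nat_lit 5) (nat_lit 259) (nat_lit 5) (nat_lit 595) (nat_lit 524) (nat_lit 441)) (XT.lf (nat_lit 0) (nat_lit 3206843041) (nat_lit 532) (nat_lit 1560578591) (nat_lit 608) (nat_lit 5670428090) (nat_lit 251) (nat_lit 5) (nat_lit 258) (nat_lit 5) (nat_lit 259) (nat_lit 5) (nat_lit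 596) (nat_lit 524) (nat_lit 440))) (XT.nd (nat_lit 78) (nat_lit 608) (nat_lit 0) (XT.lf (nat_lit 0) (nat_lit 7808346181) (nat_lit 608) (nat_lit 213308912) (nat_lit 76) (nat_lit 2525195109) (nat_lit 251) (nat_lit 5) (nat_lit 259) (nat_lit 5) (nat_lit 252) (nat_lit 5) (nat_lit 597) (nat_lit 524) (nat_lit 439)) (XT.lf (nat_lit 0) (nat_lit 277317339) (nat_lit 608) (nat_lit 3670872109) (nat_lit 76) (nat_lit 6709237811) (nat_lit 243) (nat_lit 5) (nat_lit 251) (nat_lit 5) (nat_lit 244) (nat_lit 5) (nat_lit 598) (nat_lit 524) (nat_lit 438)))) (XT.nd (nat_lit 156) (nat_lit 532) (nat_lit 0) (XT.nd (nat_lit 78) (nat_lit 532) (nat_lit 0) (XT.lf (nat_lit 0) (nat_lit 3315674168) (nat_lit 532) (nat_lit 7217640324) (nat_lit 76) (nat_lit 236562161) (nat_lit 237) (nat_lit 5) (nat_lit 244) (nat_lit 5) (nat_lit 238) (nat_lit 5) (nat_lit 599) (nat_lit 524) (nat_lit 437)) (XT.lf (nat_lit 0) (nat_lit 21473070) (nat_lit 532) (nat_lit 6417411778) (nat_lit 608) (nat_lit 4445209017)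 (nat_lit 230) (nat_lit 5) (nat_lit 237) (nat_lit 5) (nat_lit 238) (nat_lit 5) (nat_lit 600) (nat_lit 524) (nat_lit 436))) (XT.nd (nat_lit 78) (nat_lit 532) (nat_lit 0) (XT.lf (nat_lit 0) (nat_lit 7465472957) (nat_lit 532) (nat_lit 2180809033) (nat_lit 608) (nat_lit 1353879545) (nat_lit 230) (nat_lit 5) (nat_lit 237) (nat_lit 5) (nat_lit 238) (nat_lit 5) (nat_lit 601) (nat_lit 524) (nat_lit 435)) (XT.lf (nat_lit 0) (nat_lit 1788987065) (nat_lit 532) (nat_lit 7189923289) (nat_lit 76) (nat_lit 2139140926) (nat_lit 223) (nat_lit 5) (nat_lit 230) (nat_lit 5) (nat_lit 224) (nat_lit 5) (nat_lit 602) (nat_lit 524) (nat_lit 434))))) (XT.nd (nat_lit 312) (nat_lit 912) (nat_lit 0) (XT.nd (nat_lit 156) (nat_lit 988) (nat_lit 0) (XT.nd (nat_lit 78) (nat_lit 0) (nat_lit 0) (XT.lf (nat_lit 0) (nat_lit 293018602) (nat_lit 456) (nat_lit 4697644939) (nat_lit 532) (nat_lit 6247175200) (nat_lit 217) (nat_lit 5) (nat_lit 223) (nat_lit 5) (nat_lit 224) (nat_lit 5) (nat_lit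 603) (nat_lit 524) (nat_lit 433)) (XT.lf (nat_lit 0) (nat_lit 7985778798) (nat_lit 456) (nat_lit 292956042) (nat_lit 532) (nat_lit 3080840400) (nat_lit 217) (nat_lit 5) (nat_lit 223) (nat_lit 5) (nat_lit 224) (nat_lit 5) (nat_lit 604) (nat_lit 524) (nat_lit 432))) (XT.nd (nat_lit 78) (nat_lit 456) (nat_lit 0) (XT.lf (nat_lit 0) (nat_lit 177070254) (nat_lit 532) (nat_lit 7143000970) (nat_lit 76) (nat_lit 4163052393) (nat_lit 210) (nat_lit 5) (nat_lit 217) (nat_lit 5) (nat_lit 211) (nat_lit 5) (nat_lit 605) (nat_lit 524) (nat_lit 431)) (XT.lf (nat_lit 0) (nat_lit 593554385) (nat_lit 456) (nat_lit 2868595686) (nat_lit 532) (nat_lit 8146520820) (nat_lit 204) (nat_lit 5) (nat_lit 210) (nat_lit 5) (nat_lit 211) (nat_lit 5) (nat_lit 606) (nat_lit 524) (nat_lit 430)))) (XT.nd (nat_lit 156) (nat_lit 532) (nat_lit 0) (XT.nd (nat_lit 78) (nat_lit 380) (nat_lit 0) (XT.lf (nat_lit 0) (nat_lit 6846860085) (nat_lit 532) (nat_lit 3202558905) (nat_lit 76) (nat_lit 1686632022)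 (nat_lit 204) (nat_lit 5) (nat_lit 211) (nat_lit 5) (nat_lit 205) (nat_lit 5) (nat_lit 607) (nat_lit 524) (nat_lit 429)) (XT.lf (nat_lit 0) (nat_lit 4773304307) (nat_lit 380) (nat_lit 5551265166) (nat_lit 456) (nat_lit 1540903622) (nat_lit 199) (nat_lit 5) (nat_lit 204) (nat_lit 5) (nat_lit 205) (nat_lit 5) (nat_lit 608) (nat_lit 524) (nat_lit 428))) (XT.nd (nat_lit 78) (nat_lit 0) (nat_lit 0) (XT.lf (nat_lit 0) (nat_lit 918134328) (nat_lit 456) (nat_lit 934629346) (nat_lit 532) (nat_lit 10144417070) (nat_lit 192) (nat_lit 5) (nat_lit 198) (nat_lit 5) (nat_lit 199) (nat_lit 5) (nat_lit 609) (nat_lit 524) (nat_lit 427)) (XT.lf (nat_lit 0) (nat_lit 5341673935) (nat_lit 532) (nat_lit 3017622393) (nat_lit 76) (nat_lit 3771062902) (nat_lit 192) (nat_lit 5) (nat_lit 199) (nat_lit 5) (nat_lit 193) (nat_lit 5) (nat_lit 610) (nat_lit 524) (nat_lit 426))))))) (XT.nd (nat_lit 1170) (nat_lit 3496) (nat_lit 0) (XT.nd (nat_lit 546) (nat_lit 1900) (nat_lit 0) (XT.nd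 (nat_lit 234) (nat_lit 1216) (nat_lit 0) (XT.nd (nat_lit 78) (nat_lit 456) (nat_lit 0) (XT.lf (nat_lit 0) (nat_lit 5231366451) (nat_lit 380) (nat_lit 3685200216) (nat_lit 456) (nat_lit 3349310963) (nat_lit 187) (nat_lit 5) (nat_lit 192) (nat_lit 5) (nat_lit 193) (nat_lit 5) (nat_lit 611) (nat_lit 524) (nat_lit 425)) (XT.nd (nat_lit 78) (nat_lit 0) (nat_lit 0) (XT.lf (nat_lit 0) (nat_lit 168615959) (nat_lit 456) (nat_lit 11149379463) (nat_lit 76) (nat_lit 1085853791) (nat_lit 181) (nat_lit 5) (nat_lit 187) (nat_lit 5) (nat_lit 182) (nat_lit 5) (nat_lit 612) (nat_lit 524) (nat_lit 424)) (XT.lf (nat_lit 0) (nat_lit 3760302857) (nat_lit 456) (nat_lit 2822270000) (nat_lit 76) (nat_lit 5960600024) (nat_lit 181) (nat_lit 5) (nat_lit 187) (nat_lit 5) (nat_lit 182) (nat_lit 5) (nat_lit 613) (nat_lit 524) (nat_lit 423)))) (XT.nd (nat_lit 156) (nat_lit 456) (nat_lit 0) (XT.nd (nat_lit 78) (nat_lit 380) (nat_lit 0) (XT.lf (nat_lit 0) (nat_lit 5710670234) (nat_lit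 380) (nat_lit 1726979344) (nat_lit 456) (nat_lit 5247357318) (nat_lit 176) (nat_lit 5) (nat_lit 181) (nat_lit 5) (nat_lit 182) (nat_lit 5) (nat_lit 614) (nat_lit 524) (nat_lit 422)) (XT.lf (nat_lit 0) (nat_lit 1587220436) (nat_lit 380) (nat_lit 9628530671) (nat_lit 456) (nat_lit 1613382716) (nat_lit 171) (nat_lit 5) (nat_lit 176) (nat_lit 5) (nat_lit 177) (nat_lit 5) (nat_lit 615) (nat_lit 524) (nat_lit 421))) (XT.nd (nat_lit 78) (nat_lit 380) (nat_lit 0) (XT.lf (nat_lit 0) (nat_lit 2101331314) (nat_lit 456) (nat_lit 2621823020) (nat_lit 76) (nat_lit 8252007239) (nat_lit 170) (nat_lit 5) (nat_lit 176) (nat_lit 5) (nat_lit 171) (nat_lit 5) (nat_lit 616) (nat_lit 524) (nat_lit 420)) (XT.lf (nat_lit 0) (nat_lit 5888544916) (nat_lit 456) (nat_lit 6919361054) (nat_lit 76) (nat_lit 315594816) (nat_lit 165) (nat_lit 5) (nat_lit 171) (nat_lit 5) (nat_lit 166) (nat_lit 5) (nat_lit 617) (nat_lit 524) (nat_lit 419))))) (XT.nd (nat_lit 312) (nat_lit 760) (nat_lit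 0) (XT.nd (nat_lit 156) (nat_lit 684) (nat_lit 0) (XT.nd (nat_lit 78) (nat_lit 76) (nat_lit 0) (XT.lf (nat_lit 0) (nat_lit 1926316188) (nat_lit 380) (nat_lit 7864234829) (nat_lit 456) (nat_lit 3483475161) (nat_lit 160) (nat_lit 5) (nat_lit 165) (nat_lit 5) (nat_lit 166) (nat_lit 5) (nat_lit 618) (nat_lit 524) (nat_lit 418)) (XT.lf (nat_lit 0) (nat_lit 362893203) (nat_lit 456) (nat_lit 2421791690) (nat_lit 76) (nat_lit 10642345845) (nat_lit 159) (nat_lit 5) (nat_lit 165) (nat_lit 5) (nat_lit 160) (nat_lit 5) (nat_lit 619) (nat_lit 524) (nat_lit 417))) (XT.nd (nat_lit 78) (nat_lit 380) (nat_lit 0) (XT.lf (nat_lit 0) (nat_lit 4277148224) (nat_lit 380) (nat_lit 6885133981) (nat_lit 76) (nat_lit 2419600947) (nat_lit 155) (nat_lit 5) (nat_lit 160) (nat_lit 5) (nat_lit 156) (nat_lit 5) (nat_lit 620) (nat_lit 524) (nat_lit 416)) (XT.lf (nat_lit 0) (nat_lit 2267412919) (nat_lit 380) (nat_lit 6029978222) (nat_lit 456) (nat_lit 5441887750) (nat_lit 150) (nat_lit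 5) (nat_lit 155) (nat_lit 5) (nat_lit 156) (nat_lit 5) (nat_lit 621) (nat_lit 524) (nat_lit 415)))) (XT.nd (nat_lit 156) (nat_lit 380) (nat_lit 0) (XT.nd (nat_lit 78) (nat_lit 380) (nat_lit 0) (XT.lf (nat_lit 0) (nat_lit 11661812571) (nat_lit 380) (nat_lit 760813376) (nat_lit 456) (nat_lit 1476705182) (nat_lit 150) (nat_lit 5) (nat_lit 155) (nat_lit 5) (nat_lit 156) (nat_lit 5) (nat_lit 622) (nat_lit 524) (nat_lit 414)) (XT.lf (nat_lit 0) (nat_lit 2589977418) (nat_lit 380) (nat_lit 6866560431) (nat_lit 76) (nat_lit 4604595975) (nat_lit 145) (nat_lit 5) (nat_lit 150) (nat_lit 5) (nat_lit 146) (nat_lit 5) (nat_lit 623) (nat_lit 524) (nat_lit 413))) (XT.nd (nat_lit 78) (nat_lit 0) (nat_lit 0) (XT.lf (nat_lit 0) (nat_lit 2604759247) (nat_lit 380) (nat_lit 4129327022) (nat_lit 456) (nat_lit 7491574076) (nat_lit 140) (nat_lit 5) (nat_lit 145) (nat_lit 5) (nat_lit 146) (nat_lit 5) (nat_lit 624) (nat_lit 524) (nat_lit 412)) (XT.lf (nat_lit 0) (nat_lit 10994823104)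 (nat_lit 456) (nat_lit 2077108103) (nat_lit 76) (nat_lit 1320871575) (nat_lit 140) (nat_lit 5) (nat_lit 146) (nat_lit 5) (nat_lit 141) (nat_lit 5) (nat_lit 625) (nat_lit 524) (nat_lit 411)))))) (XT.nd (nat_lit 624) (nat_lit 1444) (nat_lit 0) (XT.nd (nat_lit 312) (nat_lit 1064) (nat_lit 0) (XT.nd (nat_lit 156) (nat_lit 304) (nat_lit 0) (XT.nd (nat_lit 78) (nat_lit 304) (nat_lit 0) (XT.lf (nat_lit 0) (nat_lit 824295226) (nat_lit 380) (nat_lit 6870098192) (nat_lit 76) (nat_lit 6867653869) (nat_lit 135) (nat_lit 5) (nat_lit 140) (nat_lit 5) (nat_lit 136) (nat_lit 5) (nat_lit 626) (nat_lit 524) (nat_lit 410)) (XT.lf (nat_lit 0) (nat_lit 2932266526) (nat_lit 304) (nat_lit 2165721151) (nat_lit 380) (nat_lit 9635990655) (nat_lit 131) (nat_lit 5) (nat_lit 135) (nat_lit 5) (nat_lit 136) (nat_lit 5) (nat_lit 627) (nat_lit 524) (nat_lit 409))) (XT.nd (nat_lit 78) (nat_lit 304) (nat_lit 0) (XT.lf (nat_lit 0) (nat_lit 9505575403) (nat_lit 380) (nat_lit 1941322176) (nat_lit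 76) (nat_lit 3461482270) (nat_lit 131) (nat_lit 5) (nat_lit 136) (nat_lit 5) (nat_lit 132) (nat_lit 5) (nat_lit 628) (nat_lit 524) (nat_lit 408)) (XT.lf (nat_lit 0) (nat_lit 8175982789) (nat_lit 304) (nat_lit 5872622947) (nat_lit 380) (nat_lit 1036718114) (nat_lit 127) (nat_lit 5) (nat_lit 131) (nat_lit 5) (nat_lit 132) (nat_lit 5) (nat_lit 629) (nat_lit 524) (nat_lit 407)))) (XT.nd (nat_lit 156) (nat_lit 684) (nat_lit 0) (XT.nd (nat_lit 78) (nat_lit 0) (nat_lit 0) (XT.lf (nat_lit 0) (nat_lit 3243443105) (nat_lit 304) (nat_lit 142521307) (nat_lit 380) (nat_lit 11879117213) (nat_lit 122) (nat_lit 5) (nat_lit 126) (nat_lit 5) (nat_lit 127) (nat_lit 5) (nat_lit 630) (nat_lit 524) (nat_lit 406)) (XT.lf (nat_lit 0) (nat_lit 7946933930) (nat_lit 380) (nat_lit 1832084523) (nat_lit 76) (nat_lit 5668005006) (nat_lit 122) (nat_lit 5) (nat_lit 127) (nat_lit 5) (nat_lit 123) (nat_lit 5) (nat_lit 631) (nat_lit 524) (nat_lit 405))) (XT.nd (nat_lit 78) (nat_lit 380)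 (nat_lit 0) (XT.lf (nat_lit 0) (nat_lit 8640974961) (nat_lit 304) (nat_lit 3995593979) (nat_lit 380) (nat_lit 2995286517) (nat_lit 118) (nat_lit 5) (nat_lit 122) (nat_lit 5) (nat_lit 123) (nat_lit 5) (nat_lit 632) (nat_lit 524) (nat_lit 404)) (XT.lf (nat_lit 0) (nat_lit 1606956654) (nat_lit 380) (nat_lit 12301113887) (nat_lit 76) (nat_lit 1911539617) (nat_lit 113) (nat_lit 5) (nat_lit 118) (nat_lit 5) (nat_lit 114) (nat_lit 5) (nat_lit 633) (nat_lit 524) (nat_lit 403))))) (XT.nd (nat_lit 312) (nat_lit 836) (nat_lit 0) (XT.nd (nat_lit 156) (nat_lit 380) (nat_lit 0) (XT.nd (nat_lit 78) (nat_lit 228) (nat_lit 0) (XT.lf (nat_lit 0) (nat_lit 6315390652) (nat_lit 380) (nat_lit 1756768204) (nat_lit 76) (nat_lit 7937480299) (nat_lit 113) (nat_lit 5) (nat_lit 118) (nat_lit 5) (nat_lit 114) (nat_lit 5) (nat_lit 634) (nat_lit 524) (nat_lit 402)) (XT.lf (nat_lit 0) (nat_lit 9085462651) (nat_lit 228) (nat_lit 2072432573) (nat_lit 304) (nat_lit 5044775704) (nat_lit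 110) (nat_lit 5) (nat_lit 113) (nat_lit 5) (nat_lit 114) (nat_lit 5) (nat_lit 635) (nat_lit 524) (nat_lit 401))) (XT.nd (nat_lit 78) (nat_lit 76) (nat_lit 0) (XT.lf (nat_lit 0) (nat_lit 3759736194) (nat_lit 304) (nat_lit 12381064276) (nat_lit 380) (nat_lit 257892082) (nat_lit 106) (nat_lit 5) (nat_lit 110) (nat_lit 5) (nat_lit 111) (nat_lit 5) (nat_lit 636) (nat_lit 524) (nat_lit 400)) (XT.lf (nat_lit 0) (nat_lit 4606911266) (nat_lit 380) (nat_lit 1723333867) (nat_lit 76) (nat_lit 10266932432) (nat_lit 105) (nat_lit 5) (nat_lit 110) (nat_lit 5) (nat_lit 106) (nat_lit 5) (nat_lit 637) (nat_lit 524) (nat_lit 399)))) (XT.nd (nat_lit 156) (nat_lit 304) (nat_lit 0) (XT.nd (nat_lit 78) (nat_lit 304) (nat_lit 0) (XT.lf (nat_lit 0) (nat_lit 9501862968) (nat_lit 228) (nat_lit 106797011) (nat_lit 304) (nat_lit 7190076373) (nat_lit 102) (nat_lit 5) (nat_lit 105) (nat_lit 5) (nat_lit 106) (nat_lit 5) (nat_lit 638) (nat_lit 524) (nat_lit 398)) (XT.lf (nat_lit 0) (nat_lit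 3950314928) (nat_lit 304) (nat_lit 10819422189) (nat_lit 380) (nat_lit 2233403540) (nat_lit 98) (nat_lit 5) (nat_lit 102) (nat_lit 5) (nat_lit 103) (nat_lit 5) (nat_lit 639) (nat_lit 524) (nat_lit 397))) (XT.nd (nat_lit 78) (nat_lit 228) (nat_lit 0) (XT.lf (nat_lit 0) (nat_lit 2816903335) (nat_lit 380) (nat_lit 1740414261) (nat_lit 76) (nat_lit 12653318817) (nat_lit 97) (nat_lit 5) (nat_lit 102) (nat_lit 5) (nat_lit 98) (nat_lit 5) (nat_lit 640) (nat_lit 524) (nat_lit 396)) (XT.lf (nat_lit 0) (nat_lit 7996700937) (nat_lit 304) (nat_lit 7551467220) (nat_lit 76) (nat_lit 1872651072) (nat_lit 94) (nat_lit 5) (nat_lit 98) (nat_lit 5) (nat_lit 95) (nat_lit 5) (nat_lit 641) (nat_lit 524) (nat_lit 395))))))))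
noncomputable def xc77 : XT := (XT.nd (nat_lit 74256) (nat_lit 0) (nat_lit 18240) (XT.nd (nat_lit 73008) (nat_lit 0) (nat_lit 40888) (XT.nd (nat_lit 72384) (nat_lit 0) (nat_lit 49400) (XT.nd (nat_lit 72072) (nat_lit 0) (nat_lit 51832) (XT.nd (nat_lit 78) (nat_lit 304) (nat_lit 0) (XT.lf (nat_lit 0) (nat_lit 4092134352) (nat_lit 228) (nat_lit 9238418402) (nat_lit 304) (nat_lit 4303643978) (nat_lit 91) (nat_lit 5) (nat_lit 94) (nat_lit 5) (nat_lit 95) (nat_lit 5) (nat_lit 642) (nat_lit 524) (nat_lit 394)) (XT.nd (nat_lit 78) (nat_lit 228) (nat_lit 0) (XT.lf (nat_lit 0) (nat_lit 940179678) (nat_lit 304) (nat_lit 1817406108) (nat_lit 76) (nat_lit 15093476901) (nat_lit 90) (nat_lit 5) (nat_lit 94) (nat_lit 5) (nat_lit 91) (nat_lit 5) (nat_lit 643) (nat_lit 524) (nat_lit 393)) (XT.lf (nat_lit 0) (nat_lit 6305539178) (nat_lit 304) (nat_lit 7879678285) (nat_lit 76) (nat_lit 3884994037) (nat_lit 87) (nat_lit 5) (nat_lit 91) (nat_lit 5) (nat_lit 88) (nat_lit 5)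 (nat_lit 644) (nat_lit 524) (nat_lit 392)))) (XT.nd (nat_lit 156) (nat_lit 0) (nat_lit 0) (XT.nd (nat_lit 78) (nat_lit 532) (nat_lit 0) (XT.lf (nat_lit 0) (nat_lit 999867491) (nat_lit 0) (nat_lit 999867491) (nat_lit 380) (nat_lit 1245075934) (nat_lit 776) (nat_lit 5) (nat_lit 776) (nat_lit 3) (nat_lit 781) (nat_lit 3) (nat_lit 525) (nat_lit 525) (nat_lit 510)) (XT.lf (nat_lit 0) (nat_lit 259727723) (nat_lit 532) (nat_lit 1238641385) (nat_lit 532) (nat_lit 5001497891) (nat_lit 769) (nat_lit 3) (nat_lit 776) (nat_lit 3) (nat_lit 776) (nat_lit 5) (nat_lit 526) (nat_lit 525) (nat_lit 509))) (XT.nd (nat_lit 78) (nat_lit 0) (nat_lit 0) (XT.lf (nat_lit 76) (nat_lit 2051361710) (nat_lit 0) (nat_lit 921331743) (nat_lit 532) (nat_lit 3538469499) (nat_lit 770) (nat_lit 5) (nat_lit 769) (nat_lit 3) (nat_lit 776) (nat_lit 5) (nat_lit 527) (nat_lit 525) (nat_lit 508)) (XT.lf (nat_lit 76) (nat_lit 5387516109) (nat_lit 0) (nat_lit 289969614) (nat_lit 532) (nat_lit 846451401)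 (nat_lit 770) (nat_lit 5) (nat_lit 769) (nat_lit 3) (nat_lit 776) (nat_lit 5) (nat_lit 528) (nat_lit 525) (nat_lit 507))))) (XT.nd (nat_lit 312) (nat_lit 1368) (nat_lit 0) (XT.nd (nat_lit 156) (nat_lit 608) (nat_lit 0) (XT.nd (nat_lit 78) (nat_lit 0) (nat_lit 0) (XT.lf (nat_lit 0) (nat_lit 1821870045) (nat_lit 532) (nat_lit 4306786887) (nat_lit 608) (nat_lit 409119225) (nat_lit 763) (nat_lit 5) (nat_lit 770) (nat_lit 5) (nat_lit 771) (nat_lit 5) (nat_lit 529) (nat_lit 525) (nat_lit 506)) (XT.lf (nat_lit 0) (nat_lit 4473353078) (nat_lit 532) (nat_lit 916165007) (nat_lit 608) (nat_lit 1163442836) (nat_lit 763) (nat_lit 5) (nat_lit 770) (nat_lit 5) (nat_lit 771) (nat_lit 5) (nat_lit 530) (nat_lit 525) (nat_lit 505))) (XT.nd (nat_lit 78) (nat_lit 0) (nat_lit 0) (XT.lf (nat_lit 0) (nat_lit 550429786) (nat_lit 608) (nat_lit 4034783697) (nat_lit 684) (nat_lit 1984179944) (nat_lit 755) (nat_lit 5) (nat_lit 763) (nat_lit 5) (nat_lit 764) (nat_lit 5) (nat_lit 531)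 (nat_lit 525) (nat_lit 504)) (XT.lf (nat_lit 0) (nat_lit 3144936703) (nat_lit 608) (nat_lit 570923848) (nat_lit 684) (nat_lit 2871228057) (nat_lit 755) (nat_lit 5) (nat_lit 763) (nat_lit 5) (nat_lit 764) (nat_lit 5) (nat_lit 532) (nat_lit 525) (nat_lit 503)))) (XT.nd (nat_lit 156) (nat_lit 684) (nat_lit 0) (XT.nd (nat_lit 78) (nat_lit 684) (nat_lit 0) (XT.lf (nat_lit 76) (nat_lit 2963930689) (nat_lit 0) (nat_lit 2781450584) (nat_lit 684) (nat_lit 860678639) (nat_lit 756) (nat_lit 5) (nat_lit 755) (nat_lit 5) (nat_lit 764) (nat_lit 5) (nat_lit 533) (nat_lit 525) (nat_lit 502)) (XT.lf (nat_lit 0) (nat_lit 1688449471) (nat_lit 684) (nat_lit 97417714) (nat_lit 760) (nat_lit 4840530932) (nat_lit 746) (nat_lit 5) (nat_lit 755) (nat_lit 5) (nat_lit 756) (nat_lit 5) (nat_lit 534) (nat_lit 525) (nat_lit 501))) (XT.nd (nat_lit 78) (nat_lit 684) (nat_lit 0) (XT.lf (nat_lit 76) (nat_lit 3521643876) (nat_lit 0) (nat_lit 714948255) (nat_lit 760) (nat_lit 2411249035)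 (nat_lit 747) (nat_lit 5) (nat_lit 746) (nat_lit 5) (nat_lit 756) (nat_lit 5) (nat_lit 535) (nat_lit 525) (nat_lit 500)) (XT.lf (nat_lit 0) (nat_lit 107709445) (nat_lit 760) (nat_lit 6160790626) (nat_lit 836) (nat_lit 402316288) (nat_lit 737) (nat_lit 5) (nat_lit 747) (nat_lit 5) (nat_lit 748) (nat_lit 5) (nat_lit 536) (nat_lit 525) (nat_lit 499)))))) (XT.nd (nat_lit 624) (nat_lit 5928) (nat_lit 0) (XT.nd (nat_lit 312) (nat_lit 1748) (nat_lit 0) (XT.nd (nat_lit 156) (nat_lit 836) (nat_lit 0) (XT.nd (nat_lit 78) (nat_lit 0) (nat_lit 0) (XT.lf (nat_lit 0) (nat_lit 2609056316) (nat_lit 760) (nat_lit 2492096667) (nat_lit 836) (nat_lit 1593496207) (nat_lit 737) (nat_lit 5) (nat_lit 747) (nat_lit 5) (nat_lit 748) (nat_lit 5) (nat_lit 537) (nat_lit 525) (nat_lit 498)) (XT.lf (nat_lit 76) (nat_lit 1228065110) (nat_lit 0) (nat_lit 3879959554) (nat_lit 836) (nat_lit 1611984885) (nat_lit 738) (nat_lit 5) (nat_lit 737) (nat_lit 5) (nat_lit 748) (nat_lit 5) (nat_lit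 538) (nat_lit 525) (nat_lit 497))) (XT.nd (nat_lit 78) (nat_lit 0) (nat_lit 0) (XT.lf (nat_lit 0) (nat_lit 856143647) (nat_lit 836) (nat_lit 1733717810) (nat_lit 912) (nat_lit 4156760053) (nat_lit 726) (nat_lit 5) (nat_lit 737) (nat_lit 5) (nat_lit 738) (nat_lit 5) (nat_lit 539) (nat_lit 525) (nat_lit 496)) (XT.lf (nat_lit 76) (nat_lit 2078453199) (nat_lit 0) (nat_lit 1228448742) (nat_lit 912) (nat_lit 3467556233) (nat_lit 727) (nat_lit 5) (nat_lit 726) (nat_lit 5) (nat_lit 738) (nat_lit 5) (nat_lit 540) (nat_lit 525) (nat_lit 495)))) (XT.nd (nat_lit 156) (nat_lit 912) (nat_lit 0) (XT.nd (nat_lit 78) (nat_lit 912) (nat_lit 0) (XT.lf (nat_lit 0) (nat_lit 5761801066) (nat_lit 836) (nat_lit 852211563) (nat_lit 76) (nat_lit 189738983) (nat_lit 727) (nat_lit 5) (nat_lit 738) (nat_lit 5) (nat_lit 728) (nat_lit 5) (nat_lit 541) (nat_lit 525) (nat_lit 494)) (XT.lf (nat_lit 0) (nat_lit 1384715937) (nat_lit 912) (nat_lit 3780909195) (nat_lit 76) (nat_lit 1668395631)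 (nat_lit 715) (nat_lit 5) (nat_lit 727) (nat_lit 5) (nat_lit 716) (nat_lit 5) (nat_lit 542) (nat_lit 525) (nat_lit 493))) (XT.nd (nat_lit 78) (nat_lit 0) (nat_lit 0) (XT.lf (nat_lit 0) (nat_lit 139626551) (nat_lit 912) (nat_lit 3657009302) (nat_lit 988) (nat_lit 3069110666) (nat_lit 703) (nat_lit 5) (nat_lit 715) (nat_lit 5) (nat_lit 716) (nat_lit 5) (nat_lit 543) (nat_lit 525) (nat_lit 492)) (XT.lf (nat_lit 0) (nat_lit 4151499377) (nat_lit 912) (nat_lit 2075511547) (nat_lit 988) (nat_lit 671693889) (nat_lit 703) (nat_lit 5) (nat_lit 715) (nat_lit 5) (nat_lit 716) (nat_lit 5) (nat_lit 544) (nat_lit 525) (nat_lit 491))))) (XT.nd (nat_lit 312) (nat_lit 3724) (nat_lit 0) (XT.nd (nat_lit 156) (nat_lit 1140) (nat_lit 0) (XT.nd (nat_lit 78) (nat_lit 0) (nat_lit 0) (XT.lf (nat_lit 0) (nat_lit 1278236789) (nat_lit 988) (nat_lit 426037532) (nat_lit 1064) (nat_lit 5228742598) (nat_lit 689) (nat_lit 5) (nat_lit 702) (nat_lit 5) (nat_lit 703) (nat_lit 5) (nat_lit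 545) (nat_lit 525) (nat_lit 490)) (XT.lf (nat_lit 0) (nat_lit 4091978485) (nat_lit 1064) (nat_lit 1598170205) (nat_lit 76) (nat_lit 1278315790) (nat_lit 689) (nat_lit 5) (nat_lit 703) (nat_lit 5) (nat_lit 690) (nat_lit 5) (nat_lit 546) (nat_lit 525) (nat_lit 489))) (XT.nd (nat_lit 78) (nat_lit 76) (nat_lit 0) (XT.lf (nat_lit 0) (nat_lit 2531497950) (nat_lit 1064) (nat_lit 3962732985) (nat_lit 1140) (nat_lit 511056351) (nat_lit 675) (nat_lit 5) (nat_lit 689) (nat_lit 5) (nat_lit 690) (nat_lit 5) (nat_lit 547) (nat_lit 525) (nat_lit 488)) (XT.lf (nat_lit 0) (nat_lit 1835509464) (nat_lit 1140) (nat_lit 328521075) (nat_lit 76) (nat_lit 4879395793) (nat_lit 674) (nat_lit 5) (nat_lit 689) (nat_lit 5) (nat_lit 675) (nat_lit 5) (nat_lit 548) (nat_lit 525) (nat_lit 487)))) (XT.nd (nat_lit 156) (nat_lit 1368) (nat_lit 0) (XT.nd (nat_lit 78) (nat_lit 1216) (nat_lit 0) (XT.lf (nat_lit 0) (nat_lit 3909409204) (nat_lit 1140) (nat_lit 287136252) (nat_lit 1216) (nat_lit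 2886229555) (nat_lit 659) (nat_lit 5) (nat_lit 674) (nat_lit 5) (nat_lit 675) (nat_lit 5) (nat_lit 549) (nat_lit 525) (nat_lit 486)) (XT.lf (nat_lit 0) (nat_lit 1078278433) (nat_lit 1216) (nat_lit 5496136819) (nat_lit 1292) (nat_lit 549105163) (nat_lit 643) (nat_lit 5) (nat_lit 659) (nat_lit 5) (nat_lit 660) (nat_lit 5) (nat_lit 550) (nat_lit 525) (nat_lit 485))) (XT.nd (nat_lit 78) (nat_lit 1292) (nat_lit 0) (XT.lf (nat_lit 0) (nat_lit 1784266649) (nat_lit 1292) (nat_lit 1760013518) (nat_lit 76) (nat_lit 3621092881) (nat_lit 642) (nat_lit 5) (nat_lit 659) (nat_lit 5) (nat_lit 643) (nat_lit 5) (nat_lit 551) (nat_lit 525) (nat_lit 484)) (XT.lf (nat_lit 0) (nat_lit 2602816545) (nat_lit 1292) (nat_lit 1522249408) (nat_lit 1368) (nat_lit 3083563833) (nat_lit 625) (nat_lit 5) (nat_lit 642) (nat_lit 5) (nat_lit 643) (nat_lit 5) (nat_lit 552) (nat_lit 525) (nat_lit 483))))))) (XT.nd (nat_lit 1170) (nat_lit 9044) (nat_lit 0) (XT.nd (nat_lit 546) (nat_lit 7524)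 (nat_lit 0) (XT.nd (nat_lit 234) (nat_lit 3192) (nat_lit 0) (XT.nd (nat_lit 78) (nat_lit 2888) (nat_lit 0) (XT.lf (nat_lit 0) (nat_lit 6480055010) (nat_lit 1368) (nat_lit 218716230) (nat_lit 76) (nat_lit 554634802) (nat_lit 625) (nat_lit 5) (nat_lit 643) (nat_lit 5) (nat_lit 626) (nat_lit 5) (nat_lit 553) (nat_lit 525) (nat_lit 482)) (XT.nd (nat_lit 78) (nat_lit 1444) (nat_lit 0) (XT.lf (nat_lit 0) (nat_lit 1552921019) (nat_lit 1444) (nat_lit 3046130056) (nat_lit 76) (nat_lit 2700010626) (nat_lit 606) (nat_lit 5) (nat_lit 625) (nat_lit 5) (nat_lit 607) (nat_lit 5) (nat_lit 554) (nat_lit 525) (nat_lit 481)) (XT.lf (nat_lit 0) (nat_lit 1446240287) (nat_lit 1444) (nat_lit 2433284251) (nat_lit 1520) (nat_lit 3466722225) (nat_lit 587) (nat_lit 5) (nat_lit 606) (nat_lit 5) (nat_lit 607) (nat_lit 5) (nat_lit 555) (nat_lit 525) (nat_lit 480)))) (XT.nd (nat_lit 156) (nat_lit 1596) (nat_lit 0) (XT.nd (nat_lit 78) (nat_lit 1596) (nat_lit 0) (XT.lf (nat_lit 0) (nat_lit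 6031033249) (nat_lit 1444) (nat_lit 196016787) (nat_lit 1520) (nat_lit 1167839409) (nat_lit 587) (nat_lit 5) (nat_lit 606) (nat_lit 5) (nat_lit 607) (nat_lit 5) (nat_lit 556) (nat_lit 525) (nat_lit 479)) (XT.lf (nat_lit 0) (nat_lit 1151077686) (nat_lit 1596) (nat_lit 4199056210) (nat_lit 76) (nat_lit 2094430028) (nat_lit 566) (nat_lit 5) (nat_lit 587) (nat_lit 5) (nat_lit 567) (nat_lit 5) (nat_lit 557) (nat_lit 525) (nat_lit 478))) (XT.nd (nat_lit 78) (nat_lit 0) (nat_lit 0) (XT.lf (nat_lit 0) (nat_lit 427766320) (nat_lit 1596) (nat_lit 3041508020) (nat_lit 1672) (nat_lit 4026434008) (nat_lit 545) (nat_lit 5) (nat_lit 566) (nat_lit 5) (nat_lit 567) (nat_lit 5) (nat_lit 558) (nat_lit 525) (nat_lit 477)) (XT.lf (nat_lit 0) (nat_lit 5165054199) (nat_lit 1596) (nat_lit 652818883) (nat_lit 1672) (nat_lit 1730323402) (nat_lit 545) (nat_lit 5) (nat_lit 566) (nat_lit 5) (nat_lit 567) (nat_lit 5) (nat_lit 559) (nat_lit 525) (nat_lit 476))))) (XT.nd (nat_lit 312)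 (nat_lit 2204) (nat_lit 0) (XT.nd (nat_lit 156) (nat_lit 3572) (nat_lit 0) (XT.nd (nat_lit 78) (nat_lit 0) (nat_lit 0) (XT.lf (nat_lit 0) (nat_lit 587342131) (nat_lit 1748) (nat_lit 5230118481) (nat_lit 76) (nat_lit 1784522757) (nat_lit 522) (nat_lit 5) (nat_lit 545) (nat_lit 5) (nat_lit 523) (nat_lit 5) (nat_lit 560) (nat_lit 525) (nat_lit 475)) (XT.lf (nat_lit 0) (nat_lit 2905705079) (nat_lit 1748) (nat_lit 457578444) (nat_lit 76) (nat_lit 4293784952) (nat_lit 522) (nat_lit 5) (nat_lit 545) (nat_lit 5) (nat_lit 523) (nat_lit 5) (nat_lit 561) (nat_lit 525) (nat_lit 474))) (XT.nd (nat_lit 78) (nat_lit 1824) (nat_lit 0) (XT.lf (nat_lit 0) (nat_lit 4429843611) (nat_lit 1748) (nat_lit 827265045) (nat_lit 1824) (nat_lit 2456414626) (nat_lit 499) (nat_lit 5) (nat_lit 522) (nat_lit 5) (nat_lit 523) (nat_lit 5) (nat_lit 562) (nat_lit 525) (nat_lit 473)) (XT.lf (nat_lit 0) (nat_lit 1620718543) (nat_lit 1824) (nat_lit 6018367009) (nat_lit 1900) (nat_lit 132352164)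 (nat_lit 475) (nat_lit 5) (nat_lit 499) (nat_lit 5) (nat_lit 500) (nat_lit 5) (nat_lit 563) (nat_lit 525) (nat_lit 472)))) (XT.nd (nat_lit 156) (nat_lit 988) (nat_lit 0) (XT.nd (nat_lit 78) (nat_lit 1140) (nat_lit 0) (XT.lf (nat_lit 0) (nat_lit 2195292710) (nat_lit 1900) (nat_lit 1222065242) (nat_lit 76) (nat_lit 4413134122) (nat_lit 474) (nat_lit 5) (nat_lit 499) (nat_lit 5) (nat_lit 475) (nat_lit 5) (nat_lit 564) (nat_lit 525) (nat_lit 471)) (XT.lf (nat_lit 0) (nat_lit 3815547399) (nat_lit 1140) (nat_lit 736549261) (nat_lit 1216) (nat_lit 3338927150) (nat_lit 459) (nat_lit 5) (nat_lit 474) (nat_lit 5) (nat_lit 475) (nat_lit 5) (nat_lit 565) (nat_lit 525) (nat_lit 470))) (XT.nd (nat_lit 78) (nat_lit 76) (nat_lit 0) (XT.lf (nat_lit 0) (nat_lit 978349553) (nat_lit 912) (nat_lit 5965420022) (nat_lit 988) (nat_lit 1009243275) (nat_lit 447) (nat_lit 5) (nat_lit 459) (nat_lit 5) (nat_lit 460) (nat_lit 5) (nat_lit 566) (nat_lit 525) (nat_lit 469)) (XT.lf (nat_lit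 0) (nat_lit 1341933076) (nat_lit 988) (nat_lit 1880733014) (nat_lit 76) (nat_lit 4793542790) (nat_lit 446) (nat_lit 5) (nat_lit 459) (nat_lit 5) (nat_lit 447) (nat_lit 5) (nat_lit 567) (nat_lit 525) (nat_lit 468)))))) (XT.nd (nat_lit 624) (nat_lit 4560) (nat_lit 0) (XT.nd (nat_lit 312) (nat_lit 1748) (nat_lit 0) (XT.nd (nat_lit 156) (nat_lit 988) (nat_lit 0) (XT.nd (nat_lit 78) (nat_lit 836) (nat_lit 0) (XT.lf (nat_lit 0) (nat_lit 3313019572) (nat_lit 912) (nat_lit 396318825) (nat_lit 988) (nat_lit 4371543878) (nat_lit 434) (nat_lit 5) (nat_lit 446) (nat_lit 5) (nat_lit 447) (nat_lit 5) (nat_lit 568) (nat_lit 525) (nat_lit 467)) (XT.lf (nat_lit 0) (nat_lit 439750464) (nat_lit 836) (nat_lit 5677750089) (nat_lit 912) (nat_lit 2029481635) (nat_lit 423) (nat_lit 5) (nat_lit 434) (nat_lit 5) (nat_lit 435) (nat_lit 5) (nat_lit 569) (nat_lit 525) (nat_lit 466))) (XT.nd (nat_lit 78) (nat_lit 912) (nat_lit 0) (XT.lf (nat_lit 0) (nat_lit 351489956) (nat_lit 912)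 (nat_lit 2442370169) (nat_lit 76) (nat_lit 5420562843) (nat_lit 422) (nat_lit 5) (nat_lit 434) (nat_lit 5) (nat_lit 423) (nat_lit 5) (nat_lit 570) (nat_lit 525) (nat_lit 465)) (XT.lf (nat_lit 0) (nat_lit 2735709898) (nat_lit 988) (nat_lit 5370718652) (nat_lit 76) (nat_lit 176860798) (nat_lit 410) (nat_lit 5) (nat_lit 423) (nat_lit 5) (nat_lit 411) (nat_lit 5) (nat_lit 571) (nat_lit 525) (nat_lit 464)))) (XT.nd (nat_lit 156) (nat_lit 912) (nat_lit 0) (XT.nd (nat_lit 78) (nat_lit 836) (nat_lit 0) (XT.lf (nat_lit 0) (nat_lit 5165781353) (nat_lit 988) (nat_lit 3375169) (nat_lit 76) (nat_lit 3184414325) (nat_lit 410) (nat_lit 5) (nat_lit 423) (nat_lit 5) (nat_lit 411) (nat_lit 5) (nat_lit 572) (nat_lit 525) (nat_lit 463)) (XT.lf (nat_lit 0) (nat_lit 5505008148) (nat_lit 836) (nat_lit 2139077073) (nat_lit 912) (nat_lit 781181244) (nat_lit 399) (nat_lit 5) (nat_lit 410) (nat_lit 5) (nat_lit 411) (nat_lit 5) (nat_lit 573) (nat_lit 525) (nat_lit 462))) (XT.nd (nat_lit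 78) (nat_lit 0) (nat_lit 0) (XT.lf (nat_lit 0) (nat_lit 1639033421) (nat_lit 912) (nat_lit 5895061506) (nat_lit 76) (nat_lit 964336355) (nat_lit 387) (nat_lit 5) (nat_lit 399) (nat_lit 5) (nat_lit 388) (nat_lit 5) (nat_lit 574) (nat_lit 525) (nat_lit 461)) (XT.lf (nat_lit 0) (nat_lit 4095639948) (nat_lit 912) (nat_lit 354247472) (nat_lit 76) (nat_lit 4123100798) (nat_lit 387) (nat_lit 5) (nat_lit 399) (nat_lit 5) (nat_lit 388) (nat_lit 5) (nat_lit 575) (nat_lit 525) (nat_lit 460))))) (XT.nd (nat_lit 312) (nat_lit 2204) (nat_lit 0) (XT.nd (nat_lit 156) (nat_lit 760) (nat_lit 0) (XT.nd (nat_lit 78) (nat_lit 836) (nat_lit 0) (XT.lf (nat_lit 0) (nat_lit 5328873870) (nat_lit 760) (nat_lit 1272343990) (nat_lit 836) (nat_lit 2047822674) (nat_lit 377) (nat_lit 5) (nat_lit 387) (nat_lit 5) (nat_lit 388) (nat_lit 5) (nat_lit 576) (nat_lit 525) (nat_lit 459)) (XT.lf (nat_lit 0) (nat_lit 420925259) (nat_lit 836) (nat_lit 6345910655) (nat_lit 76) (nat_lit 1959797589)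 (nat_lit 366) (nat_lit 5) (nat_lit 377) (nat_lit 5) (nat_lit 367) (nat_lit 5) (nat_lit 577) (nat_lit 525) (nat_lit 458))) (XT.nd (nat_lit 78) (nat_lit 760) (nat_lit 0) (XT.lf (nat_lit 0) (nat_lit 2908354499) (nat_lit 836) (nat_lit 625839979) (nat_lit 76) (nat_lit 5271379565) (nat_lit 366) (nat_lit 5) (nat_lit 377) (nat_lit 5) (nat_lit 367) (nat_lit 5) (nat_lit 578) (nat_lit 525) (nat_lit 457)) (XT.lf (nat_lit 0) (nat_lit 5239100994) (nat_lit 760) (nat_lit 206964035) (nat_lit 836) (nat_lit 3440018659) (nat_lit 356) (nat_lit 5) (nat_lit 366) (nat_lit 5) (nat_lit 367) (nat_lit 5) (nat_lit 579) (nat_lit 525) (nat_lit 456)))) (XT.nd (nat_lit 156) (nat_lit 1368) (nat_lit 0) (XT.nd (nat_lit 78) (nat_lit 76) (nat_lit 0) (XT.lf (nat_lit 0) (nat_lit 2231632508) (nat_lit 760) (nat_lit 5809199839) (nat_lit 836) (nat_lit 927246056) (nat_lit 346) (nat_lit 5) (nat_lit 356) (nat_lit 5) (nat_lit 357) (nat_lit 5) (nat_lit 580) (nat_lit 525) (nat_lit 455)) (XT.lf (nat_lit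 0) (nat_lit 1607411735) (nat_lit 836) (nat_lit 824927059) (nat_lit 76) (nat_lit 6619301034) (nat_lit 345) (nat_lit 5) (nat_lit 356) (nat_lit 5) (nat_lit 346) (nat_lit 5) (nat_lit 581) (nat_lit 525) (nat_lit 454))) (XT.nd (nat_lit 78) (nat_lit 684) (nat_lit 0) (XT.lf (nat_lit 0) (nat_lit 4188832023) (nat_lit 760) (nat_lit 3914297640) (nat_lit 76) (nat_lit 1033451410) (nat_lit 336) (nat_lit 5) (nat_lit 346) (nat_lit 5) (nat_lit 337) (nat_lit 5) (nat_lit 582) (nat_lit 525) (nat_lit 453)) (XT.lf (nat_lit 0) (nat_lit 2152196222) (nat_lit 684) (nat_lit 4673410673) (nat_lit 760) (nat_lit 2397540582) (nat_lit 327) (nat_lit 5) (nat_lit 336) (nat_lit 5) (nat_lit 337) (nat_lit 5) (nat_lit 583) (nat_lit 525) (nat_lit 452))))))))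
noncomputable def xc78 : XT := (XT.nd (nat_lit 2418) (nat_lit 7144) (nat_lit 0) (XT.nd (nat_lit 1170) (nat_lit 4788) (nat_lit 0) (XT.nd (nat_lit 546) (nat_lit 3572) (nat_lit 0) (XT.nd (nat_lit 234) (nat_lit 1292) (nat_lit 0) (XT.nd (nat_lit 78) (nat_lit 1368) (nat_lit 0) (XT.lf (nat_lit 0) (nat_lit 195682566) (nat_lit 760) (nat_lit 957902355) (nat_lit 76) (nat_lit 8157941033) (nat_lit 326) (nat_lit 5) (nat_lit 336) (nat_lit 5) (nat_lit 327) (nat_lit 5) (nat_lit 584) (nat_lit 525) (nat_lit 451)) (XT.nd (nat_lit 78) (nat_lit 684) (nat_lit 0) (XT.lf (nat_lit 0) (nat_lit 2828036873) (nat_lit 760) (nat_lit 4124259340) (nat_lit 76) (nat_lit 2448672246) (nat_lit 317) (nat_lit 5) (nat_lit 327) (nat_lit 5) (nat_lit 318) (nat_lit 5) (nat_lit 585) (nat_lit 525) (nat_lit 450)) (XT.lf (nat_lit 0) (nat_lit 2139166917) (nat_lit 684) (nat_lit 3371056522) (nat_lit 760) (nat_lit 3982033464) (nat_lit 308) (nat_lit 5) (nat_lit 317) (nat_lit 5) (nat_lit 318) (nat_lit 5) (nat_lit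 586) (nat_lit 525) (nat_lit 449)))) (XT.nd (nat_lit 156) (nat_lit 608) (nat_lit 0) (XT.nd (nat_lit 78) (nat_lit 684) (nat_lit 0) (XT.lf (nat_lit 0) (nat_lit 8245238734) (nat_lit 760) (nat_lit 1041506875) (nat_lit 76) (nat_lit 298642586) (nat_lit 308) (nat_lit 5) (nat_lit 318) (nat_lit 5) (nat_lit 309) (nat_lit 5) (nat_lit 587) (nat_lit 525) (nat_lit 448)) (XT.lf (nat_lit 0) (nat_lit 1364514565) (nat_lit 684) (nat_lit 4281599505) (nat_lit 76) (nat_lit 4033538738) (nat_lit 299) (nat_lit 5) (nat_lit 308) (nat_lit 5) (nat_lit 300) (nat_lit 5) (nat_lit 588) (nat_lit 525) (nat_lit 447))) (XT.nd (nat_lit 78) (nat_lit 0) (nat_lit 0) (XT.lf (nat_lit 0) (nat_lit 2186780329) (nat_lit 608) (nat_lit 1910038057) (nat_lit 684) (nat_lit 5678978070) (nat_lit 291) (nat_lit 5) (nat_lit 299) (nat_lit 5) (nat_lit 300) (nat_lit 5) (nat_lit 589) (nat_lit 525) (nat_lit 446)) (XT.lf (nat_lit 0) (nat_lit 6895558725) (nat_lit 684) (nat_lit 1081378669) (nat_lit 76) (nat_lit 1896690493)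 (nat_lit 291) (nat_lit 5) (nat_lit 300) (nat_lit 5) (nat_lit 292) (nat_lit 5) (nat_lit 590) (nat_lit 525) (nat_lit 445))))) (XT.nd (nat_lit 312) (nat_lit 1748) (nat_lit 0) (XT.nd (nat_lit 156) (nat_lit 532) (nat_lit 0) (XT.nd (nat_lit 78) (nat_lit 684) (nat_lit 0) (XT.lf (nat_lit 0) (nat_lit 5579561756) (nat_lit 608) (nat_lit 4190692868) (nat_lit 684) (nat_lit 202762413) (nat_lit 283) (nat_lit 5) (nat_lit 291) (nat_lit 5) (nat_lit 292) (nat_lit 5) (nat_lit 591) (nat_lit 525) (nat_lit 444)) (XT.lf (nat_lit 0) (nat_lit 2289532608) (nat_lit 608) (nat_lit 297461227) (nat_lit 684) (nat_lit 7487191335) (nat_lit 274) (nat_lit 5) (nat_lit 282) (nat_lit 5) (nat_lit 283) (nat_lit 5) (nat_lit 592) (nat_lit 525) (nat_lit 443))) (XT.nd (nat_lit 78) (nat_lit 532) (nat_lit 0) (XT.lf (nat_lit 0) (nat_lit 5454867563) (nat_lit 684) (nat_lit 1074221755) (nat_lit 76) (nat_lit 3647760461) (nat_lit 274) (nat_lit 5) (nat_lit 283) (nat_lit 5) (nat_lit 275) (nat_lit 5) (nat_lit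 593) (nat_lit 525) (nat_lit 442)) (XT.lf (nat_lit 0) (nat_lit 5807576198) (nat_lit 532) (nat_lit 2584263345) (nat_lit 608) (nat_lit 1889493972) (nat_lit 267) (nat_lit 5) (nat_lit 274) (nat_lit 5) (nat_lit 275) (nat_lit 5) (nat_lit 594) (nat_lit 525) (nat_lit 441)))) (XT.nd (nat_lit 156) (nat_lit 1064) (nat_lit 0) (XT.nd (nat_lit 78) (nat_lit 0) (nat_lit 0) (XT.lf (nat_lit 0) (nat_lit 991316512) (nat_lit 684) (nat_lit 7955218756) (nat_lit 76) (nat_lit 1441146815) (nat_lit 258) (nat_lit 5) (nat_lit 267) (nat_lit 5) (nat_lit 259) (nat_lit 5) (nat_lit 595) (nat_lit 525) (nat_lit 440)) (XT.lf (nat_lit 0) (nat_lit 3924234867) (nat_lit 684) (nat_lit 1025342740) (nat_lit 76) (nat_lit 5545934999) (nat_lit 258) (nat_lit 5) (nat_lit 267) (nat_lit 5) (nat_lit 259) (nat_lit 5) (nat_lit 596) (nat_lit 525) (nat_lit 439))) (XT.nd (nat_lit 78) (nat_lit 532) (nat_lit 0) (XT.lf (nat_lit 0) (nat_lit 6086276406) (nat_lit 532) (nat_lit 842025763) (nat_lit 608) (nat_lit 3676948360)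 (nat_lit 251) (nat_lit 5) (nat_lit 258) (nat_lit 5) (nat_lit 259) (nat_lit 5) (nat_lit 597) (nat_lit 525) (nat_lit 438)) (XT.lf (nat_lit 0) (nat_lit 2612556433) (nat_lit 532) (nat_lit 7398723113) (nat_lit 608) (nat_lit 705527680) (nat_lit 244) (nat_lit 5) (nat_lit 251) (nat_lit 5) (nat_lit 252) (nat_lit 5) (nat_lit 598) (nat_lit 525) (nat_lit 437)))))) (XT.nd (nat_lit 624) (nat_lit 2204) (nat_lit 0) (XT.nd (nat_lit 312) (nat_lit 1444) (nat_lit 0) (XT.nd (nat_lit 156) (nat_lit 608) (nat_lit 0) (XT.nd (nat_lit 78) (nat_lit 456) (nat_lit 0) (XT.lf (nat_lit 0) (nat_lit 2304242262) (nat_lit 608) (nat_lit 939910064) (nat_lit 76) (nat_lit 7585952989) (nat_lit 243) (nat_lit 5) (nat_lit 251) (nat_lit 5) (nat_lit 244) (nat_lit 5) (nat_lit 599) (nat_lit 525) (nat_lit 436)) (XT.lf (nat_lit 0) (nat_lit 5386923324) (nat_lit 532) (nat_lit 4541128664) (nat_lit 76) (nat_lit 1017081407) (nat_lit 237) (nat_lit 5) (nat_lit 244) (nat_lit 5) (nat_lit 238) (nat_lit 5) (nat_lit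 600) (nat_lit 525) (nat_lit 435))) (XT.nd (nat_lit 78) (nat_lit 76) (nat_lit 0) (XT.lf (nat_lit 0) (nat_lit 2824208679) (nat_lit 532) (nat_lit 5727271505) (nat_lit 608) (nat_lit 2510577954) (nat_lit 230) (nat_lit 5) (nat_lit 237) (nat_lit 5) (nat_lit 238) (nat_lit 5) (nat_lit 601) (nat_lit 525) (nat_lit 434)) (XT.lf (nat_lit 0) (nat_lit 594993791) (nat_lit 608) (nat_lit 822998986) (nat_lit 76) (nat_lit 9763154872) (nat_lit 229) (nat_lit 5) (nat_lit 237) (nat_lit 5) (nat_lit 230) (nat_lit 5) (nat_lit 602) (nat_lit 525) (nat_lit 433)))) (XT.nd (nat_lit 156) (nat_lit 532) (nat_lit 0) (XT.nd (nat_lit 78) (nat_lit 456) (nat_lit 0) (XT.lf (nat_lit 0) (nat_lit 3767415532) (nat_lit 532) (nat_lit 4545074909) (nat_lit 76) (nat_lit 2989030018) (nat_lit 223) (nat_lit 5) (nat_lit 230) (nat_lit 5) (nat_lit 224) (nat_lit 5) (nat_lit 603) (nat_lit 525) (nat_lit 432)) (XT.lf (nat_lit 0) (nat_lit 3069179459) (nat_lit 456) (nat_lit 3943841556) (nat_lit 532) (nat_lit 4411085508)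 (nat_lit 217) (nat_lit 5) (nat_lit 223) (nat_lit 5) (nat_lit 224) (nat_lit 5) (nat_lit 604) (nat_lit 525) (nat_lit 431))) (XT.nd (nat_lit 78) (nat_lit 532) (nat_lit 0) (XT.lf (nat_lit 0) (nat_lit 10332612959) (nat_lit 532) (nat_lit 691013361) (nat_lit 76) (nat_lit 525336994) (nat_lit 217) (nat_lit 5) (nat_lit 224) (nat_lit 5) (nat_lit 218) (nat_lit 5) (nat_lit 605) (nat_lit 525) (nat_lit 430)) (XT.lf (nat_lit 0) (nat_lit 2063944362) (nat_lit 532) (nat_lit 4530558718) (nat_lit 76) (nat_lit 5080580444) (nat_lit 210) (nat_lit 5) (nat_lit 217) (nat_lit 5) (nat_lit 211) (nat_lit 5) (nat_lit 606) (nat_lit 525) (nat_lit 429))))) (XT.nd (nat_lit 312) (nat_lit 836) (nat_lit 0) (XT.nd (nat_lit 156) (nat_lit 912) (nat_lit 0) (XT.nd (nat_lit 78) (nat_lit 0) (nat_lit 0) (XT.lf (nat_lit 0) (nat_lit 3342600755) (nat_lit 456) (nat_lit 2052968485) (nat_lit 532) (nat_lit 6407956337) (nat_lit 204) (nat_lit 5) (nat_lit 210) (nat_lit 5) (nat_lit 211) (nat_lit 5) (nat_lit 607)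 (nat_lit 525) (nat_lit 428)) (XT.lf (nat_lit 0) (nat_lit 8816977932) (nat_lit 532) (nat_lit 552074862) (nat_lit 76) (nat_lit 2565021107) (nat_lit 204) (nat_lit 5) (nat_lit 211) (nat_lit 5) (nat_lit 205) (nat_lit 5) (nat_lit 608) (nat_lit 525) (nat_lit 427))) (XT.nd (nat_lit 78) (nat_lit 456) (nat_lit 0) (XT.lf (nat_lit 0) (nat_lit 275687828) (nat_lit 456) (nat_lit 4502820733) (nat_lit 76) (nat_lit 7287908991) (nat_lit 198) (nat_lit 5) (nat_lit 204) (nat_lit 5) (nat_lit 199) (nat_lit 5) (nat_lit 609) (nat_lit 525) (nat_lit 426)) (XT.lf (nat_lit 0) (nat_lit 3639582558) (nat_lit 456) (nat_lit 58763193) (nat_lit 532) (nat_lit 8502575545) (nat_lit 192) (nat_lit 5) (nat_lit 198) (nat_lit 5) (nat_lit 199) (nat_lit 5) (nat_lit 610) (nat_lit 525) (nat_lit 425)))) (XT.nd (nat_lit 156) (nat_lit 456) (nat_lit 0) (XT.nd (nat_lit 78) (nat_lit 380) (nat_lit 0) (XT.lf (nat_lit 0) (nat_lit 7227267093) (nat_lit 532) (nat_lit 398091961) (nat_lit 76) (nat_lit 4712000278)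 (nat_lit 192) (nat_lit 5) (nat_lit 199) (nat_lit 5) (nat_lit 193) (nat_lit 5) (nat_lit 611) (nat_lit 525) (nat_lit 424)) (XT.lf (nat_lit 0) (nat_lit 7998245851) (nat_lit 380) (nat_lit 2857819294) (nat_lit 456) (nat_lit 1619875431) (nat_lit 187) (nat_lit 5) (nat_lit 192) (nat_lit 5) (nat_lit 193) (nat_lit 5) (nat_lit 612) (nat_lit 525) (nat_lit 423))) (XT.nd (nat_lit 78) (nat_lit 0) (nat_lit 0) (XT.lf (nat_lit 0) (nat_lit 1933337376) (nat_lit 456) (nat_lit 8674981629) (nat_lit 76) (nat_lit 2008350162) (nat_lit 181) (nat_lit 5) (nat_lit 187) (nat_lit 5) (nat_lit 182) (nat_lit 5) (nat_lit 613) (nat_lit 525) (nat_lit 422)) (XT.lf (nat_lit 0) (nat_lit 5562321755) (nat_lit 456) (nat_lit 234219887) (nat_lit 76) (nat_lit 6962928979) (nat_lit 181) (nat_lit 5) (nat_lit 187) (nat_lit 5) (nat_lit 182) (nat_lit 5) (nat_lit 614) (nat_lit 525) (nat_lit 421))))))) (XT.nd (nat_lit 1170) (nat_lit 3040) (nat_lit 0) (XT.nd (nat_lit 546) (nat_lit 2128) (nat_lit 0) (XT.nd (nat_lit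 234) (nat_lit 1140) (nat_lit 0) (XT.nd (nat_lit 78) (nat_lit 456) (nat_lit 0) (XT.lf (nat_lit 0) (nat_lit 8451981155) (nat_lit 380) (nat_lit 844432040) (nat_lit 456) (nat_lit 3608064744) (nat_lit 176) (nat_lit 5) (nat_lit 181) (nat_lit 5) (nat_lit 182) (nat_lit 5) (nat_lit 615) (nat_lit 525) (nat_lit 420)) (XT.nd (nat_lit 78) (nat_lit 0) (nat_lit 0) (XT.lf (nat_lit 0) (nat_lit 86660785) (nat_lit 456) (nat_lit 8795401843) (nat_lit 76) (nat_lit 4169625241) (nat_lit 170) (nat_lit 5) (nat_lit 176) (nat_lit 5) (nat_lit 171) (nat_lit 5) (nat_lit 616) (nat_lit 525) (nat_lit 419)) (XT.lf (nat_lit 0) (nat_lit 3820542407) (nat_lit 456) (nat_lit 65764226) (nat_lit 76) (nat_lit 9314787265) (nat_lit 170) (nat_lit 5) (nat_lit 176) (nat_lit 5) (nat_lit 171) (nat_lit 5) (nat_lit 617) (nat_lit 525) (nat_lit 418)))) (XT.nd (nat_lit 156) (nat_lit 380) (nat_lit 0) (XT.nd (nat_lit 78) (nat_lit 380) (nat_lit 0) (XT.lf (nat_lit 0) (nat_lit 7673478517) (nat_lit 456) (nat_lit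 4439204574) (nat_lit 76) (nat_lit 1239917773) (nat_lit 165) (nat_lit 5) (nat_lit 171) (nat_lit 5) (nat_lit 166) (nat_lit 5) (nat_lit 618) (nat_lit 525) (nat_lit 417)) (XT.lf (nat_lit 0) (nat_lit 4566158951) (nat_lit 380) (nat_lit 7071565796) (nat_lit 456) (nat_lit 1868728540) (nat_lit 160) (nat_lit 5) (nat_lit 165) (nat_lit 5) (nat_lit 166) (nat_lit 5) (nat_lit 619) (nat_lit 525) (nat_lit 416))) (XT.nd (nat_lit 78) (nat_lit 0) (nat_lit 0) (XT.lf (nat_lit 0) (nat_lit 103118527) (nat_lit 304) (nat_lit 1897432154) (nat_lit 380) (nat_lit 11662387535) (nat_lit 155) (nat_lit 5) (nat_lit 159) (nat_lit 5) (nat_lit 160) (nat_lit 5) (nat_lit 620) (nat_lit 525) (nat_lit 415)) (XT.lf (nat_lit 0) (nat_lit 5983162730) (nat_lit 380) (nat_lit 4441559815) (nat_lit 76) (nat_lit 3396364189) (nat_lit 155) (nat_lit 5) (nat_lit 160) (nat_lit 5) (nat_lit 156) (nat_lit 5) (nat_lit 621) (nat_lit 525) (nat_lit 414))))) (XT.nd (nat_lit 312) (nat_lit 988) (nat_lit 0) (XT.nd (nat_lit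 156) (nat_lit 380) (nat_lit 0) (XT.nd (nat_lit 78) (nat_lit 380) (nat_lit 0) (XT.lf (nat_lit 0) (nat_lit 4877055938) (nat_lit 380) (nat_lit 5191629717) (nat_lit 456) (nat_lit 3913247711) (nat_lit 150) (nat_lit 5) (nat_lit 155) (nat_lit 5) (nat_lit 156) (nat_lit 5) (nat_lit 622) (nat_lit 525) (nat_lit 413)) (XT.lf (nat_lit 0) (nat_lit 100639878) (nat_lit 380) (nat_lit 13880757645) (nat_lit 76) (nat_lit 164350098) (nat_lit 145) (nat_lit 5) (nat_lit 150) (nat_lit 5) (nat_lit 146) (nat_lit 5) (nat_lit 623) (nat_lit 525) (nat_lit 412))) (XT.nd (nat_lit 78) (nat_lit 380) (nat_lit 0) (XT.lf (nat_lit 0) (nat_lit 4217539152) (nat_lit 380) (nat_lit 4460222965) (nat_lit 76) (nat_lit 5633056366) (nat_lit 145) (nat_lit 5) (nat_lit 150) (nat_lit 5) (nat_lit 146) (nat_lit 5) (nat_lit 624) (nat_lit 525) (nat_lit 411)) (XT.lf (nat_lit 0) (nat_lit 5183788445) (nat_lit 380) (nat_lit 3246250969) (nat_lit 456) (nat_lit 6048886382) (nat_lit 140) (nat_lit 5) (nat_lit 145) (nat_lit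 5) (nat_lit 146) (nat_lit 5) (nat_lit 625) (nat_lit 525) (nat_lit 410)))) (XT.nd (nat_lit 156) (nat_lit 608) (nat_lit 0) (XT.nd (nat_lit 78) (nat_lit 76) (nat_lit 0) (XT.lf (nat_lit 0) (nat_lit 388317138) (nat_lit 304) (nat_lit 12365728680) (nat_lit 380) (nat_lit 1895804604) (nat_lit 136) (nat_lit 5) (nat_lit 140) (nat_lit 5) (nat_lit 141) (nat_lit 5) (nat_lit 626) (nat_lit 525) (nat_lit 409)) (XT.lf (nat_lit 0) (nat_lit 2373695705) (nat_lit 380) (nat_lit 4501692634) (nat_lit 76) (nat_lit 7947220562) (nat_lit 135) (nat_lit 5) (nat_lit 140) (nat_lit 5) (nat_lit 136) (nat_lit 5) (nat_lit 627) (nat_lit 525) (nat_lit 408))) (XT.nd (nat_lit 78) (nat_lit 304) (nat_lit 0) (XT.lf (nat_lit 0) (nat_lit 5480233802) (nat_lit 304) (nat_lit 1238733383) (nat_lit 380) (nat_lit 8279289692) (nat_lit 131) (nat_lit 5) (nat_lit 135) (nat_lit 5) (nat_lit 136) (nat_lit 5) (nat_lit 628) (nat_lit 525) (nat_lit 407)) (XT.lf (nat_lit 0) (nat_lit 490423691) (nat_lit 304) (nat_lit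 10703858749) (nat_lit 380) (nat_lit 3982272873) (nat_lit 127) (nat_lit 5) (nat_lit 131) (nat_lit 5) (nat_lit 132) (nat_lit 5) (nat_lit 629) (nat_lit 525) (nat_lit 406)))))) (XT.nd (nat_lit 624) (nat_lit 1368) (nat_lit 0) (XT.nd (nat_lit 312) (nat_lit 988) (nat_lit 0) (XT.nd (nat_lit 156) (nat_lit 304) (nat_lit 0) (XT.nd (nat_lit 78) (nat_lit 304) (nat_lit 0) (XT.lf (nat_lit 0) (nat_lit 448233385) (nat_lit 380) (nat_lit 4572888431) (nat_lit 76) (nat_lit 10336190043) (nat_lit 126) (nat_lit 5) (nat_lit 131) (nat_lit 5) (nat_lit 127) (nat_lit 5) (nat_lit 630) (nat_lit 525) (nat_lit 405)) (XT.lf (nat_lit 0) (nat_lit 4937540452) (nat_lit 380) (nat_lit 9786318034) (nat_lit 76) (nat_lit 816828580) (nat_lit 122) (nat_lit 5) (nat_lit 127) (nat_lit 5) (nat_lit 123) (nat_lit 5) (nat_lit 631) (nat_lit 525) (nat_lit 404))) (XT.nd (nat_lit 78) (nat_lit 0) (nat_lit 0) (XT.lf (nat_lit 0) (nat_lit 564967164) (nat_lit 304) (nat_lit 9000260450) (nat_lit 380) (nat_lit 6161530532)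 (nat_lit 118) (nat_lit 5) (nat_lit 122) (nat_lit 5) (nat_lit 123) (nat_lit 5) (nat_lit 632) (nat_lit 525) (nat_lit 403)) (XT.lf (nat_lit 0) (nat_lit 11224115799) (nat_lit 304) (nat_lit 3107977909) (nat_lit 380) (nat_lit 1583524675) (nat_lit 118) (nat_lit 5) (nat_lit 122) (nat_lit 5) (nat_lit 123) (nat_lit 5) (nat_lit 633) (nat_lit 525) (nat_lit 402)))) (XT.nd (nat_lit 156) (nat_lit 380) (nat_lit 0) (XT.nd (nat_lit 78) (nat_lit 228) (nat_lit 0) (XT.lf (nat_lit 0) (nat_lit 3084979937) (nat_lit 380) (nat_lit 10110995842) (nat_lit 76) (nat_lit 2911091294) (nat_lit 113) (nat_lit 5) (nat_lit 118) (nat_lit 5) (nat_lit 114) (nat_lit 5) (nat_lit 634) (nat_lit 525) (nat_lit 401)) (XT.lf (nat_lit 0) (nat_lit 604396059) (nat_lit 228) (nat_lit 7258760027) (nat_lit 304) (nat_lit 8438229441) (nat_lit 110) (nat_lit 5) (nat_lit 113) (nat_lit 5) (nat_lit 114) (nat_lit 5) (nat_lit 635) (nat_lit 525) (nat_lit 400))) (XT.nd (nat_lit 78) (nat_lit 380) (nat_lit 0) (XT.lf (nat_lit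 0) (nat_lit 11639831790) (nat_lit 228) (nat_lit 1146364927) (nat_lit 304) (nat_lit 3712407836) (nat_lit 110) (nat_lit 5) (nat_lit 113) (nat_lit 5) (nat_lit 114) (nat_lit 5) (nat_lit 636) (nat_lit 525) (nat_lit 399)) (XT.lf (nat_lit 0) (nat_lit 1148877312) (nat_lit 380) (nat_lit 10492548759) (nat_lit 76) (nat_lit 5057088679) (nat_lit 105) (nat_lit 5) (nat_lit 110) (nat_lit 5) (nat_lit 106) (nat_lit 5) (nat_lit 637) (nat_lit 525) (nat_lit 398))))) (XT.nd (nat_lit 312) (nat_lit 532) (nat_lit 0) (XT.nd (nat_lit 156) (nat_lit 608) (nat_lit 0) (XT.nd (nat_lit 78) (nat_lit 0) (nat_lit 0) (XT.lf (nat_lit 0) (nat_lit 600545155) (nat_lit 228) (nat_lit 5483263561) (nat_lit 304) (nat_lit 10817601271) (nat_lit 102) (nat_lit 5) (nat_lit 105) (nat_lit 5) (nat_lit 106) (nat_lit 5) (nat_lit 638) (nat_lit 525) (nat_lit 397)) (XT.lf (nat_lit 0) (nat_lit 11175343030) (nat_lit 304) (nat_lit 5085975539) (nat_lit 76) (nat_lit 845886680) (nat_lit 102) (nat_lit 5) (nat_lit 106)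 (nat_lit 5) (nat_lit 103) (nat_lit 5) (nat_lit 639) (nat_lit 525) (nat_lit 396))) (XT.nd (nat_lit 78) (nat_lit 304) (nat_lit 0) (XT.lf (nat_lit 0) (nat_lit 6369948432) (nat_lit 304) (nat_lit 10058632405) (nat_lit 380) (nat_lit 887338327) (nat_lit 98) (nat_lit 5) (nat_lit 102) (nat_lit 5) (nat_lit 103) (nat_lit 5) (nat_lit 640) (nat_lit 525) (nat_lit 395)) (XT.lf (nat_lit 0) (nat_lit 544548668) (nat_lit 228) (nat_lit 3677810233) (nat_lit 304) (nat_lit 13305493159) (nat_lit 94) (nat_lit 5) (nat_lit 97) (nat_lit 5) (nat_lit 98) (nat_lit 5) (nat_lit 641) (nat_lit 525) (nat_lit 394)))) (XT.nd (nat_lit 156) (nat_lit 304) (nat_lit 0) (XT.nd (nat_lit 78) (nat_lit 228) (nat_lit 0) (XT.lf (nat_lit 0) (nat_lit 9497003649) (nat_lit 304) (nat_lit 5384639527) (nat_lit 76) (nat_lit 2860770621) (nat_lit 94) (nat_lit 5) (nat_lit 98) (nat_lit 5) (nat_lit 95) (nat_lit 5) (nat_lit 642) (nat_lit 525) (nat_lit 393)) (XT.lf (nat_lit 0) (nat_lit 6476585016) (nat_lit 228) (nat_lit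 8449615805) (nat_lit 304) (nat_lit 3034084945) (nat_lit 91) (nat_lit 5) (nat_lit 94) (nat_lit 5) (nat_lit 95) (nat_lit 5) (nat_lit 643) (nat_lit 525) (nat_lit 392))) (XT.nd (nat_lit 71994) (nat_lit 0) (nat_lit 51832) (XT.lf (nat_lit 0) (nat_lit 426745769) (nat_lit 228) (nat_lit 1846628372) (nat_lit 304) (nat_lit 15908408373) (nat_lit 87) (nat_lit 5) (nat_lit 90) (nat_lit 5) (nat_lit 91) (nat_lit 5) (nat_lit 644) (nat_lit 525) (nat_lit 391)) (XT.lf (nat_lit 0) (nat_lit 1470672706) (nat_lit 532) (nat_lit 892289324) (nat_lit 532) (nat_lit 892289324) (nat_lit 769) (nat_lit 3) (nat_lit 776) (nat_lit 3) (nat_lit 776) (nat_lit 5) (nat_lit 526) (nat_lit 526) (nat_lit 508))))))))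
noncomputable def xc79 : XT := (XT.nd (nat_lit 2418) (nat_lit 20292) (nat_lit 0) (XT.nd (nat_lit 1170) (nat_lit 11248) (nat_lit 0) (XT.nd (nat_lit 546) (nat_lit 2432) (nat_lit 0) (XT.nd (nat_lit 234) (nat_lit 1216) (nat_lit 0) (XT.nd (nat_lit 78) (nat_lit 532) (nat_lit 0) (XT.lf (nat_lit 76) (nat_lit 1480130183) (nat_lit 0) (nat_lit 4135567132) (nat_lit 532) (nat_lit 906875429) (nat_lit 770) (nat_lit 5) (nat_lit 769) (nat_lit 3) (nat_lit 776) (nat_lit 5) (nat_lit 527) (nat_lit 526) (nat_lit 507)) (XT.nd (nat_lit 78) (nat_lit 0) (nat_lit 0) (XT.lf (nat_lit 0) (nat_lit 1727165642) (nat_lit 532) (nat_lit 1748799082) (nat_lit 608) (nat_lit 3059843412) (nat_lit 762) (nat_lit 5) (nat_lit 769) (nat_lit 3) (nat_lit 770) (nat_lit 5) (nat_lit 528) (nat_lit 526) (nat_lit 506)) (XT.lf (nat_lit 76) (nat_lit 1589622636) (nat_lit 0) (nat_lit 2754002692) (nat_lit 608) (nat_lit 2206728834) (nat_lit 763) (nat_lit 5) (nat_lit 762) (nat_lit 5) (nat_lit 770) (nat_lit 5) (nat_lit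 529) (nat_lit 526) (nat_lit 505)))) (XT.nd (nat_lit 156) (nat_lit 608) (nat_lit 0) (XT.nd (nat_lit 78) (nat_lit 0) (nat_lit 0) (XT.lf (nat_lit 0) (nat_lit 385380488) (nat_lit 608) (nat_lit 1586024360) (nat_lit 684) (nat_lit 4594851034) (nat_lit 754) (nat_lit 5) (nat_lit 762) (nat_lit 5) (nat_lit 763) (nat_lit 5) (nat_lit 530) (nat_lit 526) (nat_lit 504)) (XT.lf (nat_lit 76) (nat_lit 1829672283) (nat_lit 0) (nat_lit 1115557626) (nat_lit 684) (nat_lit 3638048313) (nat_lit 755) (nat_lit 5) (nat_lit 754) (nat_lit 5) (nat_lit 763) (nat_lit 5) (nat_lit 531) (nat_lit 526) (nat_lit 503))) (XT.nd (nat_lit 78) (nat_lit 608) (nat_lit 0) (XT.lf (nat_lit 76) (nat_lit 5299530886) (nat_lit 0) (nat_lit 201999122) (nat_lit 684) (nat_lit 1100209101) (nat_lit 755) (nat_lit 5) (nat_lit 754) (nat_lit 5) (nat_lit 763) (nat_lit 5) (nat_lit 532) (nat_lit 526) (nat_lit 502)) (XT.lf (nat_lit 0) (nat_lit 1423709628) (nat_lit 684) (nat_lit 4424851647) (nat_lit 760) (nat_lit 772720851)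 (nat_lit 746) (nat_lit 5) (nat_lit 755) (nat_lit 5) (nat_lit 756) (nat_lit 5) (nat_lit 533) (nat_lit 526) (nat_lit 501))))) (XT.nd (nat_lit 312) (nat_lit 1672) (nat_lit 0) (XT.nd (nat_lit 156) (nat_lit 760) (nat_lit 0) (XT.nd (nat_lit 78) (nat_lit 0) (nat_lit 0) (XT.lf (nat_lit 0) (nat_lit 3930203672) (nat_lit 684) (nat_lit 904060552) (nat_lit 760) (nat_lit 1807872748) (nat_lit 746) (nat_lit 5) (nat_lit 755) (nat_lit 5) (nat_lit 756) (nat_lit 5) (nat_lit 534) (nat_lit 526) (nat_lit 500)) (XT.lf (nat_lit 76) (nat_lit 2686069467) (nat_lit 0) (nat_lit 3756120278) (nat_lit 760) (nat_lit 222114858) (nat_lit 747) (nat_lit 5) (nat_lit 746) (nat_lit 5) (nat_lit 756) (nat_lit 5) (nat_lit 535) (nat_lit 526) (nat_lit 499))) (XT.nd (nat_lit 78) (nat_lit 0) (nat_lit 0) (XT.lf (nat_lit 0) (nat_lit 2231710432) (nat_lit 760) (nat_lit 378510786) (nat_lit 836) (nat_lit 4077504153) (nat_lit 736) (nat_lit 5) (nat_lit 746) (nat_lit 5) (nat_lit 747) (nat_lit 5) (nat_lit 536)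 (nat_lit 526) (nat_lit 498)) (XT.lf (nat_lit 76) (nat_lit 3298838741) (nat_lit 0) (nat_lit 1393924330) (nat_lit 836) (nat_lit 2019602382) (nat_lit 737) (nat_lit 5) (nat_lit 736) (nat_lit 5) (nat_lit 747) (nat_lit 5) (nat_lit 537) (nat_lit 526) (nat_lit 497)))) (XT.nd (nat_lit 156) (nat_lit 836) (nat_lit 0) (XT.nd (nat_lit 78) (nat_lit 0) (nat_lit 76) (XT.lf (nat_lit 76) (nat_lit 281347146) (nat_lit 0) (nat_lit 122726434) (nat_lit 912) (nat_lit 6334474145) (nat_lit 726) (nat_lit 5) (nat_lit 725) (nat_lit 5) (nat_lit 737) (nat_lit 5) (nat_lit 538) (nat_lit 526) (nat_lit 496)) (XT.lf (nat_lit 0) (nat_lit 2821222631) (nat_lit 836) (nat_lit 2727358077) (nat_lit 912) (nat_lit 1216967706) (nat_lit 726) (nat_lit 5) (nat_lit 737) (nat_lit 5) (nat_lit 738) (nat_lit 5) (nat_lit 539) (nat_lit 526) (nat_lit 495))) (XT.nd (nat_lit 78) (nat_lit 912) (nat_lit 0) (XT.lf (nat_lit 76) (nat_lit 1053016228) (nat_lit 0) (nat_lit 4183835126) (nat_lit 912) (nat_lit 1557237580)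 (nat_lit 727) (nat_lit 5) (nat_lit 726) (nat_lit 5) (nat_lit 738) (nat_lit 5) (nat_lit 540) (nat_lit 526) (nat_lit 494)) (XT.lf (nat_lit 0) (nat_lit 827504060) (nat_lit 912) (nat_lit 1920264196) (nat_lit 988) (nat_lit 4076092074) (nat_lit 714) (nat_lit 5) (nat_lit 726) (nat_lit 5) (nat_lit 727) (nat_lit 5) (nat_lit 541) (nat_lit 526) (nat_lit 493)))))) (XT.nd (nat_lit 624) (nat_lit 7068) (nat_lit 0) (XT.nd (nat_lit 312) (nat_lit 2280) (nat_lit 0) (XT.nd (nat_lit 156) (nat_lit 1900) (nat_lit 0) (XT.nd (nat_lit 78) (nat_lit 0) (nat_lit 76) (XT.lf (nat_lit 76) (nat_lit 1955451665) (nat_lit 0) (nat_lit 1240468962) (nat_lit 988) (nat_lit 3658966434) (nat_lit 715) (nat_lit 5) (nat_lit 714) (nat_lit 5) (nat_lit 727) (nat_lit 5) (nat_lit 542) (nat_lit 526) (nat_lit 492)) (XT.lf (nat_lit 0) (nat_lit 5571698710) (nat_lit 912) (nat_lit 991400800) (nat_lit 76) (nat_lit 324237311) (nat_lit 715) (nat_lit 5) (nat_lit 727) (nat_lit 5) (nat_lit 716) (nat_lit 5) (nat_lit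 543) (nat_lit 526) (nat_lit 491))) (XT.nd (nat_lit 78) (nat_lit 988) (nat_lit 0) (XT.lf (nat_lit 0) (nat_lit 1034077827) (nat_lit 988) (nat_lit 3939069089) (nat_lit 76) (nat_lit 1947679110) (nat_lit 702) (nat_lit 5) (nat_lit 715) (nat_lit 5) (nat_lit 703) (nat_lit 5) (nat_lit 544) (nat_lit 526) (nat_lit 490)) (XT.lf (nat_lit 0) (nat_lit 47279666) (nat_lit 988) (nat_lit 3319545631) (nat_lit 1064) (nat_lit 3588914941) (nat_lit 689) (nat_lit 5) (nat_lit 702) (nat_lit 5) (nat_lit 703) (nat_lit 5) (nat_lit 545) (nat_lit 526) (nat_lit 489)))) (XT.nd (nat_lit 156) (nat_lit 1140) (nat_lit 0) (XT.nd (nat_lit 78) (nat_lit 1140) (nat_lit 0) (XT.lf (nat_lit 0) (nat_lit 4129449451) (nat_lit 988) (nat_lit 1590649004) (nat_lit 1064) (nat_lit 1271779042) (nat_lit 689) (nat_lit 5) (nat_lit 702) (nat_lit 5) (nat_lit 703) (nat_lit 5) (nat_lit 546) (nat_lit 526) (nat_lit 488)) (XT.lf (nat_lit 0) (nat_lit 1034851065) (nat_lit 1140) (nat_lit 5794400446) (nat_lit 76) (nat_lit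 200196936) (nat_lit 674) (nat_lit 5) (nat_lit 689) (nat_lit 5) (nat_lit 675) (nat_lit 5) (nat_lit 547) (nat_lit 526) (nat_lit 487))) (XT.nd (nat_lit 78) (nat_lit 1140) (nat_lit 0) (XT.lf (nat_lit 0) (nat_lit 3349463311) (nat_lit 1140) (nat_lit 1671327268) (nat_lit 76) (nat_lit 2047236588) (nat_lit 674) (nat_lit 5) (nat_lit 689) (nat_lit 5) (nat_lit 675) (nat_lit 5) (nat_lit 548) (nat_lit 526) (nat_lit 486)) (XT.lf (nat_lit 0) (nat_lit 2530005048) (nat_lit 1140) (nat_lit 3146782391) (nat_lit 1216) (nat_lit 1431263640) (nat_lit 659) (nat_lit 5) (nat_lit 674) (nat_lit 5) (nat_lit 675) (nat_lit 5) (nat_lit 549) (nat_lit 526) (nat_lit 485))))) (XT.nd (nat_lit 312) (nat_lit 4408) (nat_lit 0) (XT.nd (nat_lit 156) (nat_lit 1368) (nat_lit 0) (XT.nd (nat_lit 78) (nat_lit 1216) (nat_lit 0) (XT.lf (nat_lit 0) (nat_lit 851649648) (nat_lit 1216) (nat_lit 354359998) (nat_lit 76) (nat_lit 5943516777) (nat_lit 658) (nat_lit 5) (nat_lit 674) (nat_lit 5) (nat_lit 659) (nat_lit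 5) (nat_lit 550) (nat_lit 526) (nat_lit 484)) (XT.lf (nat_lit 0) (nat_lit 3143487674) (nat_lit 1292) (nat_lit 3238243700) (nat_lit 76) (nat_lit 810263960) (nat_lit 642) (nat_lit 5) (nat_lit 659) (nat_lit 5) (nat_lit 643) (nat_lit 5) (nat_lit 551) (nat_lit 526) (nat_lit 483))) (XT.nd (nat_lit 78) (nat_lit 76) (nat_lit 0) (XT.lf (nat_lit 0) (nat_lit 1085956832) (nat_lit 1292) (nat_lit 4364800114) (nat_lit 1368) (nat_lit 1785166648) (nat_lit 625) (nat_lit 5) (nat_lit 642) (nat_lit 5) (nat_lit 643) (nat_lit 5) (nat_lit 552) (nat_lit 526) (nat_lit 482)) (XT.lf (nat_lit 0) (nat_lit 490993480) (nat_lit 1368) (nat_lit 1781531105) (nat_lit 76) (nat_lit 5008651304) (nat_lit 624) (nat_lit 5) (nat_lit 642) (nat_lit 5) (nat_lit 625) (nat_lit 5) (nat_lit 553) (nat_lit 526) (nat_lit 481)))) (XT.nd (nat_lit 156) (nat_lit 3040) (nat_lit 0) (XT.nd (nat_lit 78) (nat_lit 0) (nat_lit 0) (XT.lf (nat_lit 0) (nat_lit 2659855576) (nat_lit 1368) (nat_lit 99683363) (nat_lit 1444)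 (nat_lit 4568144731) (nat_lit 606) (nat_lit 5) (nat_lit 624) (nat_lit 5) (nat_lit 625) (nat_lit 5) (nat_lit 554) (nat_lit 526) (nat_lit 480)) (XT.lf (nat_lit 0) (nat_lit 5053432100) (nat_lit 1444) (nat_lit 212693152) (nat_lit 76) (nat_lit 2109398538) (nat_lit 606) (nat_lit 5) (nat_lit 625) (nat_lit 5) (nat_lit 607) (nat_lit 5) (nat_lit 555) (nat_lit 526) (nat_lit 479))) (XT.nd (nat_lit 78) (nat_lit 1596) (nat_lit 0) (XT.lf (nat_lit 0) (nat_lit 4350482759) (nat_lit 1444) (nat_lit 3026724916) (nat_lit 1520) (nat_lit 47434629) (nat_lit 587) (nat_lit 5) (nat_lit 606) (nat_lit 5) (nat_lit 607) (nat_lit 5) (nat_lit 556) (nat_lit 526) (nat_lit 478)) (XT.lf (nat_lit 0) (nat_lit 1500194279) (nat_lit 1520) (nat_lit 709333447) (nat_lit 1596) (nat_lit 5265589577) (nat_lit 566) (nat_lit 5) (nat_lit 586) (nat_lit 5) (nat_lit 587) (nat_lit 5) (nat_lit 557) (nat_lit 526) (nat_lit 477))))))) (XT.nd (nat_lit 1248) (nat_lit 7600) (nat_lit 0) (XT.nd (nat_lit 624) (nat_lit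 4560) (nat_lit 0) (XT.nd (nat_lit 312) (nat_lit 4788) (nat_lit 0) (XT.nd (nat_lit 156) (nat_lit 1748) (nat_lit 0) (XT.nd (nat_lit 78) (nat_lit 1596) (nat_lit 0) (XT.lf (nat_lit 0) (nat_lit 4498615551) (nat_lit 1596) (nat_lit 1368154297) (nat_lit 76) (nat_lit 1660074843) (nat_lit 566) (nat_lit 5) (nat_lit 587) (nat_lit 5) (nat_lit 567) (nat_lit 5) (nat_lit 558) (nat_lit 526) (nat_lit 476)) (XT.lf (nat_lit 0) (nat_lit 3332027821) (nat_lit 1596) (nat_lit 3484762568) (nat_lit 1672) (nat_lit 763151687) (nat_lit 545) (nat_lit 5) (nat_lit 566) (nat_lit 5) (nat_lit 567) (nat_lit 5) (nat_lit 559) (nat_lit 526) (nat_lit 475))) (XT.nd (nat_lit 78) (nat_lit 0) (nat_lit 0) (XT.lf (nat_lit 0) (nat_lit 468838526) (nat_lit 1672) (nat_lit 1027674278) (nat_lit 1748) (nat_lit 6137997634) (nat_lit 522) (nat_lit 5) (nat_lit 544) (nat_lit 5) (nat_lit 545) (nat_lit 5) (nat_lit 560) (nat_lit 526) (nat_lit 474)) (XT.lf (nat_lit 0) (nat_lit 3787367711) (nat_lit 1748) (nat_lit 2405601601)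 (nat_lit 76) (nat_lit 1497177119) (nat_lit 522) (nat_lit 5) (nat_lit 545) (nat_lit 5) (nat_lit 523) (nat_lit 5) (nat_lit 561) (nat_lit 526) (nat_lit 473)))) (XT.nd (nat_lit 156) (nat_lit 2964) (nat_lit 0) (XT.nd (nat_lit 78) (nat_lit 76) (nat_lit 0) (XT.lf (nat_lit 0) (nat_lit 2436916118) (nat_lit 1748) (nat_lit 3668488606) (nat_lit 1824) (nat_lit 1641864555) (nat_lit 499) (nat_lit 5) (nat_lit 522) (nat_lit 5) (nat_lit 523) (nat_lit 5) (nat_lit 562) (nat_lit 526) (nat_lit 472)) (XT.lf (nat_lit 0) (nat_lit 630836453) (nat_lit 1824) (nat_lit 438943989) (nat_lit 76) (nat_lit 6736163656) (nat_lit 498) (nat_lit 5) (nat_lit 522) (nat_lit 5) (nat_lit 499) (nat_lit 5) (nat_lit 563) (nat_lit 526) (nat_lit 471))) (XT.nd (nat_lit 78) (nat_lit 1140) (nat_lit 0) (XT.lf (nat_lit 0) (nat_lit 2926894676) (nat_lit 1900) (nat_lit 3335217466) (nat_lit 76) (nat_lit 1603466816) (nat_lit 474) (nat_lit 5) (nat_lit 499) (nat_lit 5) (nat_lit 475) (nat_lit 5) (nat_lit 564) (nat_lit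 526) (nat_lit 470)) (XT.lf (nat_lit 0) (nat_lit 1655241047) (nat_lit 1140) (nat_lit 3594825366) (nat_lit 1216) (nat_lit 2676717581) (nat_lit 459) (nat_lit 5) (nat_lit 474) (nat_lit 5) (nat_lit 475) (nat_lit 5) (nat_lit 565) (nat_lit 526) (nat_lit 469))))) (XT.nd (nat_lit 312) (nat_lit 2660) (nat_lit 0) (XT.nd (nat_lit 156) (nat_lit 912) (nat_lit 0) (XT.nd (nat_lit 78) (nat_lit 988) (nat_lit 0) (XT.lf (nat_lit 0) (nat_lit 6752949534) (nat_lit 1140) (nat_lit 850060187) (nat_lit 1216) (nat_lit 386538550) (nat_lit 459) (nat_lit 5) (nat_lit 474) (nat_lit 5) (nat_lit 475) (nat_lit 5) (nat_lit 566) (nat_lit 526) (nat_lit 468)) (XT.lf (nat_lit 0) (nat_lit 1923552593) (nat_lit 988) (nat_lit 4166502677) (nat_lit 76) (nat_lit 1963267156) (nat_lit 446) (nat_lit 5) (nat_lit 459) (nat_lit 5) (nat_lit 447) (nat_lit 5) (nat_lit 567) (nat_lit 526) (nat_lit 467))) (XT.nd (nat_lit 78) (nat_lit 0) (nat_lit 0) (XT.lf (nat_lit 0) (nat_lit 977780162) (nat_lit 912) (nat_lit 3279182716)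 (nat_lit 988) (nat_lit 3861713449) (nat_lit 434) (nat_lit 5) (nat_lit 446) (nat_lit 5) (nat_lit 447) (nat_lit 5) (nat_lit 568) (nat_lit 526) (nat_lit 466)) (XT.lf (nat_lit 0) (nat_lit 6243614932) (nat_lit 912) (nat_lit 383843418) (nat_lit 988) (nat_lit 1558071821) (nat_lit 434) (nat_lit 5) (nat_lit 446) (nat_lit 5) (nat_lit 447) (nat_lit 5) (nat_lit 569) (nat_lit 526) (nat_lit 465)))) (XT.nd (nat_lit 156) (nat_lit 836) (nat_lit 0) (XT.nd (nat_lit 78) (nat_lit 912) (nat_lit 0) (XT.lf (nat_lit 0) (nat_lit 782897620) (nat_lit 912) (nat_lit 4908340864) (nat_lit 76) (nat_lit 2562348216) (nat_lit 422) (nat_lit 5) (nat_lit 434) (nat_lit 5) (nat_lit 423) (nat_lit 5) (nat_lit 570) (nat_lit 526) (nat_lit 464)) (XT.lf (nat_lit 0) (nat_lit 395931234) (nat_lit 912) (nat_lit 2735570474) (nat_lit 988) (nat_lit 5191664249) (nat_lit 410) (nat_lit 5) (nat_lit 422) (nat_lit 5) (nat_lit 423) (nat_lit 5) (nat_lit 571) (nat_lit 526) (nat_lit 463))) (XT.nd (nat_lit 78) (nat_lit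 836) (nat_lit 0) (XT.lf (nat_lit 0) (nat_lit 5525935204) (nat_lit 988) (nat_lit 2561192581) (nat_lit 76) (nat_lit 307032979) (nat_lit 410) (nat_lit 5) (nat_lit 423) (nat_lit 5) (nat_lit 411) (nat_lit 5) (nat_lit 572) (nat_lit 526) (nat_lit 462)) (XT.lf (nat_lit 0) (nat_lit 2894261621) (nat_lit 836) (nat_lit 5075500459) (nat_lit 912) (nat_lit 496784382) (nat_lit 399) (nat_lit 5) (nat_lit 410) (nat_lit 5) (nat_lit 411) (nat_lit 5) (nat_lit 573) (nat_lit 526) (nat_lit 461)))))) (XT.nd (nat_lit 624) (nat_lit 3496) (nat_lit 0) (XT.nd (nat_lit 312) (nat_lit 2356) (nat_lit 0) (XT.nd (nat_lit 156) (nat_lit 836) (nat_lit 0) (XT.nd (nat_lit 78) (nat_lit 836) (nat_lit 0) (XT.lf (nat_lit 0) (nat_lit 1878992935) (nat_lit 912) (nat_lit 97058319) (nat_lit 76) (nat_lit 6564437762) (nat_lit 398) (nat_lit 5) (nat_lit 410) (nat_lit 5) (nat_lit 399) (nat_lit 5) (nat_lit 574) (nat_lit 526) (nat_lit 460)) (XT.lf (nat_lit 0) (nat_lit 4304919267) (nat_lit 912) (nat_lit 3104210829)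 (nat_lit 76) (nat_lit 1206529968) (nat_lit 387) (nat_lit 5) (nat_lit 399) (nat_lit 5) (nat_lit 388) (nat_lit 5) (nat_lit 575) (nat_lit 526) (nat_lit 459))) (XT.nd (nat_lit 78) (nat_lit 76) (nat_lit 0) (XT.lf (nat_lit 0) (nat_lit 2523481041) (nat_lit 760) (nat_lit 4251931482) (nat_lit 836) (nat_lit 1917002048) (nat_lit 377) (nat_lit 5) (nat_lit 387) (nat_lit 5) (nat_lit 388) (nat_lit 5) (nat_lit 576) (nat_lit 526) (nat_lit 458)) (XT.lf (nat_lit 0) (nat_lit 504823715) (nat_lit 836) (nat_lit 505875190) (nat_lit 76) (nat_lit 7760196255) (nat_lit 376) (nat_lit 5) (nat_lit 387) (nat_lit 5) (nat_lit 377) (nat_lit 5) (nat_lit 577) (nat_lit 526) (nat_lit 457)))) (XT.nd (nat_lit 156) (nat_lit 836) (nat_lit 0) (XT.nd (nat_lit 78) (nat_lit 760) (nat_lit 0) (XT.lf (nat_lit 0) (nat_lit 2965764911) (nat_lit 836) (nat_lit 3575836998) (nat_lit 76) (nat_lit 2308764021) (nat_lit 366) (nat_lit 5) (nat_lit 377) (nat_lit 5) (nat_lit 367) (nat_lit 5) (nat_lit 578) (nat_lit 526)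 (nat_lit 456)) (XT.lf (nat_lit 0) (nat_lit 2231092508) (nat_lit 760) (nat_lit 3236602212) (nat_lit 836) (nat_lit 3463896929) (nat_lit 356) (nat_lit 5) (nat_lit 366) (nat_lit 5) (nat_lit 367) (nat_lit 5) (nat_lit 579) (nat_lit 526) (nat_lit 455))) (XT.nd (nat_lit 78) (nat_lit 836) (nat_lit 0) (XT.lf (nat_lit 0) (nat_lit 8012235073) (nat_lit 836) (nat_lit 850226553) (nat_lit 76) (nat_lit 152129730) (nat_lit 356) (nat_lit 5) (nat_lit 367) (nat_lit 5) (nat_lit 357) (nat_lit 5) (nat_lit 580) (nat_lit 526) (nat_lit 454)) (XT.lf (nat_lit 0) (nat_lit 1511677231) (nat_lit 836) (nat_lit 3983019535) (nat_lit 76) (nat_lit 3603898389) (nat_lit 345) (nat_lit 5) (nat_lit 356) (nat_lit 5) (nat_lit 346) (nat_lit 5) (nat_lit 581) (nat_lit 526) (nat_lit 453))))) (XT.nd (nat_lit 312) (nat_lit 1368) (nat_lit 0) (XT.nd (nat_lit 156) (nat_lit 1444) (nat_lit 0) (XT.nd (nat_lit 78) (nat_lit 0) (nat_lit 0) (XT.lf (nat_lit 0) (nat_lit 2010446249) (nat_lit 684) (nat_lit 2039288430)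 (nat_lit 760) (nat_lit 5134669403) (nat_lit 336) (nat_lit 5) (nat_lit 345) (nat_lit 5) (nat_lit 346) (nat_lit 5) (nat_lit 582) (nat_lit 526) (nat_lit 452)) (XT.lf (nat_lit 0) (nat_lit 6643799698) (nat_lit 760) (nat_lit 1141084808) (nat_lit 76) (nat_lit 1486940593) (nat_lit 336) (nat_lit 5) (nat_lit 346) (nat_lit 5) (nat_lit 337) (nat_lit 5) (nat_lit 583) (nat_lit 526) (nat_lit 451))) (XT.nd (nat_lit 78) (nat_lit 760) (nat_lit 0) (XT.lf (nat_lit 0) (nat_lit 5027979071) (nat_lit 684) (nat_lit 4277229075) (nat_lit 760) (nat_lit 55477976) (nat_lit 327) (nat_lit 5) (nat_lit 336) (nat_lit 5) (nat_lit 337) (nat_lit 5) (nat_lit 584) (nat_lit 526) (nat_lit 450)) (XT.lf (nat_lit 0) (nat_lit 1855257593) (nat_lit 684) (nat_lit 668803758) (nat_lit 760) (nat_lit 6927145724) (nat_lit 317) (nat_lit 5) (nat_lit 326) (nat_lit 5) (nat_lit 327) (nat_lit 5) (nat_lit 585) (nat_lit 526) (nat_lit 449)))) (XT.nd (nat_lit 156) (nat_lit 684) (nat_lit 0) (XT.nd (nat_lit 78) (nat_lit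 684) (nat_lit 0) (XT.lf (nat_lit 0) (nat_lit 5173061385) (nat_lit 760) (nat_lit 1374743855) (nat_lit 76) (nat_lit 2995354395) (nat_lit 317) (nat_lit 5) (nat_lit 327) (nat_lit 5) (nat_lit 318) (nat_lit 5) (nat_lit 586) (nat_lit 526) (nat_lit 448)) (XT.lf (nat_lit 0) (nat_lit 4995319344) (nat_lit 684) (nat_lit 2886966758) (nat_lit 760) (nat_lit 1754521013) (nat_lit 308) (nat_lit 5) (nat_lit 317) (nat_lit 5) (nat_lit 318) (nat_lit 5) (nat_lit 587) (nat_lit 526) (nat_lit 447))) (XT.nd (nat_lit 78) (nat_lit 0) (nat_lit 0) (XT.lf (nat_lit 0) (nat_lit 898260341) (nat_lit 684) (nat_lit 7978455159) (nat_lit 76) (nat_lit 855556743) (nat_lit 299) (nat_lit 5) (nat_lit 308) (nat_lit 5) (nat_lit 300) (nat_lit 5) (nat_lit 588) (nat_lit 526) (nat_lit 446)) (XT.lf (nat_lit 0) (nat_lit 3601922808) (nat_lit 684) (nat_lit 1557119685) (nat_lit 76) (nat_lit 4669946583) (nat_lit 299) (nat_lit 5) (nat_lit 308) (nat_lit 5) (nat_lit 300) (nat_lit 5) (nat_lit 589) (nat_lit 526)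 (nat_lit 445))))))))
noncomputable def xc80 : XT := (XT.nd (nat_lit 2418) (nat_lit 5244) (nat_lit 0) (XT.nd (nat_lit 1170) (nat_lit 4788) (nat_lit 0) (XT.nd (nat_lit 546) (nat_lit 2660) (nat_lit 0) (XT.nd (nat_lit 234) (nat_lit 1824) (nat_lit 0) (XT.nd (nat_lit 78) (nat_lit 684) (nat_lit 0) (XT.lf (nat_lit 0) (nat_lit 5022140169) (nat_lit 608) (nat_lit 1341521967) (nat_lit 684) (nat_lit 3563898739) (nat_lit 291) (nat_lit 5) (nat_lit 299) (nat_lit 5) (nat_lit 300) (nat_lit 5) (nat_lit 590) (nat_lit 526) (nat_lit 444)) (XT.nd (nat_lit 78) (nat_lit 76) (nat_lit 0) (XT.lf (nat_lit 0) (nat_lit 1695144048) (nat_lit 608) (nat_lit 7495259880) (nat_lit 684) (nat_lit 837505520) (nat_lit 283) (nat_lit 5) (nat_lit 291) (nat_lit 5) (nat_lit 292) (nat_lit 5) (nat_lit 591) (nat_lit 526) (nat_lit 443)) (XT.lf (nat_lit 0) (nat_lit 1931752306) (nat_lit 684) (nat_lit 1693891329) (nat_lit 76) (nat_lit 6504093162) (nat_lit 282) (nat_lit 5) (nat_lit 291) (nat_lit 5) (nat_lit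 283) (nat_lit 5) (nat_lit 592) (nat_lit 526) (nat_lit 442)))) (XT.nd (nat_lit 156) (nat_lit 684) (nat_lit 0) (XT.nd (nat_lit 78) (nat_lit 532) (nat_lit 0) (XT.lf (nat_lit 0) (nat_lit 4752969838) (nat_lit 684) (nat_lit 5132584662) (nat_lit 76) (nat_lit 347780352) (nat_lit 274) (nat_lit 5) (nat_lit 283) (nat_lit 5) (nat_lit 275) (nat_lit 5) (nat_lit 593) (nat_lit 526) (nat_lit 441)) (XT.lf (nat_lit 0) (nat_lit 1677064309) (nat_lit 532) (nat_lit 5972501049) (nat_lit 608) (nat_lit 2689061074) (nat_lit 267) (nat_lit 5) (nat_lit 274) (nat_lit 5) (nat_lit 275) (nat_lit 5) (nat_lit 594) (nat_lit 526) (nat_lit 440))) (XT.nd (nat_lit 78) (nat_lit 608) (nat_lit 0) (XT.lf (nat_lit 0) (nat_lit 163401056) (nat_lit 608) (nat_lit 1790546321) (nat_lit 76) (nat_lit 8491908450) (nat_lit 266) (nat_lit 5) (nat_lit 274) (nat_lit 5) (nat_lit 267) (nat_lit 5) (nat_lit 595) (nat_lit 526) (nat_lit 439)) (XT.lf (nat_lit 0) (nat_lit 3058396174) (nat_lit 684) (nat_lit 5335949746)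 (nat_lit 76) (nat_lit 2160099192) (nat_lit 258) (nat_lit 5) (nat_lit 267) (nat_lit 5) (nat_lit 259) (nat_lit 5) (nat_lit 596) (nat_lit 526) (nat_lit 438))))) (XT.nd (nat_lit 312) (nat_lit 1064) (nat_lit 0) (XT.nd (nat_lit 156) (nat_lit 1064) (nat_lit 0) (XT.nd (nat_lit 78) (nat_lit 0) (nat_lit 0) (XT.lf (nat_lit 0) (nat_lit 1700346225) (nat_lit 532) (nat_lit 4320524224) (nat_lit 608) (nat_lit 4644144739) (nat_lit 251) (nat_lit 5) (nat_lit 258) (nat_lit 5) (nat_lit 259) (nat_lit 5) (nat_lit 597) (nat_lit 526) (nat_lit 437)) (XT.lf (nat_lit 0) (nat_lit 8913977044) (nat_lit 532) (nat_lit 138216143) (nat_lit 608) (nat_lit 1725412077) (nat_lit 251) (nat_lit 5) (nat_lit 258) (nat_lit 5) (nat_lit 259) (nat_lit 5) (nat_lit 598) (nat_lit 526) (nat_lit 436))) (XT.nd (nat_lit 78) (nat_lit 456) (nat_lit 0) (XT.lf (nat_lit 0) (nat_lit 1271543652) (nat_lit 608) (nat_lit 5512271786) (nat_lit 76) (nat_lit 4107744428) (nat_lit 243) (nat_lit 5) (nat_lit 251) (nat_lit 5)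 (nat_lit 244) (nat_lit 5) (nat_lit 599) (nat_lit 526) (nat_lit 435)) (XT.lf (nat_lit 0) (nat_lit 1759854557) (nat_lit 456) (nat_lit 2544784675) (nat_lit 532) (nat_lit 6702940696) (nat_lit 237) (nat_lit 5) (nat_lit 243) (nat_lit 5) (nat_lit 244) (nat_lit 5) (nat_lit 600) (nat_lit 526) (nat_lit 434)))) (XT.nd (nat_lit 156) (nat_lit 532) (nat_lit 0) (XT.nd (nat_lit 78) (nat_lit 532) (nat_lit 0) (XT.lf (nat_lit 0) (nat_lit 7421743368) (nat_lit 532) (nat_lit 1920624376) (nat_lit 76) (nat_lit 1783086245) (nat_lit 237) (nat_lit 5) (nat_lit 244) (nat_lit 5) (nat_lit 238) (nat_lit 5) (nat_lit 601) (nat_lit 526) (nat_lit 433)) (XT.lf (nat_lit 0) (nat_lit 5574182037) (nat_lit 532) (nat_lit 5055111333) (nat_lit 608) (nat_lit 615830610) (nat_lit 230) (nat_lit 5) (nat_lit 237) (nat_lit 5) (nat_lit 238) (nat_lit 5) (nat_lit 602) (nat_lit 526) (nat_lit 432))) (XT.nd (nat_lit 78) (nat_lit 0) (nat_lit 0) (XT.lf (nat_lit 0) (nat_lit 1850533209) (nat_lit 456) (nat_lit 650189481)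 (nat_lit 532) (nat_lit 8866133221) (nat_lit 223) (nat_lit 5) (nat_lit 229) (nat_lit 5) (nat_lit 230) (nat_lit 5) (nat_lit 603) (nat_lit 526) (nat_lit 431)) (XT.lf (nat_lit 0) (nat_lit 5709977151) (nat_lit 532) (nat_lit 1955616117) (nat_lit 76) (nat_lit 3824575972) (nat_lit 223) (nat_lit 5) (nat_lit 230) (nat_lit 5) (nat_lit 224) (nat_lit 5) (nat_lit 604) (nat_lit 526) (nat_lit 430)))))) (XT.nd (nat_lit 624) (nat_lit 2052) (nat_lit 0) (XT.nd (nat_lit 312) (nat_lit 1292) (nat_lit 0) (XT.nd (nat_lit 156) (nat_lit 456) (nat_lit 0) (XT.nd (nat_lit 78) (nat_lit 532) (nat_lit 0) (XT.lf (nat_lit 0) (nat_lit 5793289389) (nat_lit 456) (nat_lit 3207881514) (nat_lit 532) (nat_lit 2614423331) (nat_lit 217) (nat_lit 5) (nat_lit 223) (nat_lit 5) (nat_lit 224) (nat_lit 5) (nat_lit 605) (nat_lit 526) (nat_lit 429)) (XT.lf (nat_lit 0) (nat_lit 617331182) (nat_lit 532) (nat_lit 9784873073) (nat_lit 76) (nat_lit 1341029487) (nat_lit 210) (nat_lit 5) (nat_lit 217) (nat_lit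 5) (nat_lit 211) (nat_lit 5) (nat_lit 606) (nat_lit 526) (nat_lit 428))) (XT.nd (nat_lit 78) (nat_lit 456) (nat_lit 0) (XT.lf (nat_lit 0) (nat_lit 3915423849) (nat_lit 532) (nat_lit 1972859366) (nat_lit 76) (nat_lit 5984063451) (nat_lit 210) (nat_lit 5) (nat_lit 217) (nat_lit 5) (nat_lit 211) (nat_lit 5) (nat_lit 607) (nat_lit 526) (nat_lit 427)) (XT.lf (nat_lit 0) (nat_lit 6040340201) (nat_lit 456) (nat_lit 1254928359) (nat_lit 532) (nat_lit 4708457929) (nat_lit 204) (nat_lit 5) (nat_lit 210) (nat_lit 5) (nat_lit 211) (nat_lit 5) (nat_lit 608) (nat_lit 526) (nat_lit 426)))) (XT.nd (nat_lit 156) (nat_lit 836) (nat_lit 0) (XT.nd (nat_lit 78) (nat_lit 76) (nat_lit 0) (XT.lf (nat_lit 0) (nat_lit 2073200547) (nat_lit 380) (nat_lit 8695573542) (nat_lit 456) (nat_lit 1368438981) (nat_lit 199) (nat_lit 5) (nat_lit 204) (nat_lit 5) (nat_lit 205) (nat_lit 5) (nat_lit 609) (nat_lit 526) (nat_lit 425)) (XT.lf (nat_lit 0) (nat_lit 2037060976) (nat_lit 456) (nat_lit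 1977549608) (nat_lit 76) (nat_lit 8257986242) (nat_lit 198) (nat_lit 5) (nat_lit 204) (nat_lit 5) (nat_lit 199) (nat_lit 5) (nat_lit 610) (nat_lit 526) (nat_lit 424))) (XT.nd (nat_lit 78) (nat_lit 380) (nat_lit 0) (XT.lf (nat_lit 0) (nat_lit 5515805545) (nat_lit 532) (nat_lit 6104840197) (nat_lit 76) (nat_lit 789392860) (nat_lit 192) (nat_lit 5) (nat_lit 199) (nat_lit 5) (nat_lit 193) (nat_lit 5) (nat_lit 611) (nat_lit 526) (nat_lit 423)) (XT.lf (nat_lit 0) (nat_lit 2198601007) (nat_lit 380) (nat_lit 6897174475) (nat_lit 456) (nat_lit 3453821125) (nat_lit 187) (nat_lit 5) (nat_lit 192) (nat_lit 5) (nat_lit 193) (nat_lit 5) (nat_lit 612) (nat_lit 526) (nat_lit 422))))) (XT.nd (nat_lit 312) (nat_lit 1216) (nat_lit 0) (XT.nd (nat_lit 156) (nat_lit 380) (nat_lit 0) (XT.nd (nat_lit 78) (nat_lit 380) (nat_lit 0) (XT.lf (nat_lit 0) (nat_lit 73415905) (nat_lit 456) (nat_lit 1974972414) (nat_lit 76) (nat_lit 10643175782) (nat_lit 186) (nat_lit 5) (nat_lit 192)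 (nat_lit 5) (nat_lit 187) (nat_lit 5) (nat_lit 613) (nat_lit 526) (nat_lit 421)) (XT.lf (nat_lit 0) (nat_lit 3664957890) (nat_lit 456) (nat_lit 6255838601) (nat_lit 76) (nat_lit 2914318101) (nat_lit 181) (nat_lit 5) (nat_lit 187) (nat_lit 5) (nat_lit 182) (nat_lit 5) (nat_lit 614) (nat_lit 526) (nat_lit 420))) (XT.nd (nat_lit 78) (nat_lit 0) (nat_lit 0) (XT.lf (nat_lit 0) (nat_lit 2333506603) (nat_lit 380) (nat_lit 5014970854) (nat_lit 456) (nat_lit 5632656076) (nat_lit 176) (nat_lit 5) (nat_lit 181) (nat_lit 5) (nat_lit 182) (nat_lit 5) (nat_lit 615) (nat_lit 526) (nat_lit 419)) (XT.lf (nat_lit 0) (nat_lit 11126081145) (nat_lit 456) (nat_lit 1983693521) (nat_lit 76) (nat_lit 19890276) (nat_lit 176) (nat_lit 5) (nat_lit 182) (nat_lit 5) (nat_lit 177) (nat_lit 5) (nat_lit 616) (nat_lit 526) (nat_lit 418)))) (XT.nd (nat_lit 156) (nat_lit 380) (nat_lit 0) (XT.nd (nat_lit 78) (nat_lit 380) (nat_lit 0) (XT.lf (nat_lit 0) (nat_lit 1732692497) (nat_lit 456) (nat_lit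 6413961592) (nat_lit 76) (nat_lit 5133154884) (nat_lit 170) (nat_lit 5) (nat_lit 176) (nat_lit 5) (nat_lit 171) (nat_lit 5) (nat_lit 617) (nat_lit 526) (nat_lit 417)) (XT.lf (nat_lit 0) (nat_lit 2472552665) (nat_lit 380) (nat_lit 3052511391) (nat_lit 456) (nat_lit 7907463345) (nat_lit 165) (nat_lit 5) (nat_lit 170) (nat_lit 5) (nat_lit 171) (nat_lit 5) (nat_lit 618) (nat_lit 526) (nat_lit 416))) (XT.nd (nat_lit 78) (nat_lit 380) (nat_lit 0) (XT.lf (nat_lit 0) (nat_lit 9429372830) (nat_lit 456) (nat_lit 2011126209) (nat_lit 76) (nat_lit 2147079701) (nat_lit 165) (nat_lit 5) (nat_lit 171) (nat_lit 5) (nat_lit 166) (nat_lit 5) (nat_lit 619) (nat_lit 526) (nat_lit 415)) (XT.lf (nat_lit 0) (nat_lit 7157786282) (nat_lit 380) (nat_lit 6299931243) (nat_lit 456) (nat_lit 287094918) (nat_lit 160) (nat_lit 5) (nat_lit 165) (nat_lit 5) (nat_lit 166) (nat_lit 5) (nat_lit 620) (nat_lit 526) (nat_lit 414))))))) (XT.nd (nat_lit 1170) (nat_lit 1672) (nat_lit 0) (XT.nd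 (nat_lit 546) (nat_lit 1748) (nat_lit 0) (XT.nd (nat_lit 234) (nat_lit 1064) (nat_lit 0) (XT.nd (nat_lit 78) (nat_lit 380) (nat_lit 0) (XT.lf (nat_lit 0) (nat_lit 2610154058) (nat_lit 304) (nat_lit 1013117280) (nat_lit 380) (nat_lit 10281247282) (nat_lit 155) (nat_lit 5) (nat_lit 159) (nat_lit 5) (nat_lit 160) (nat_lit 5) (nat_lit 621) (nat_lit 526) (nat_lit 413)) (XT.nd (nat_lit 78) (nat_lit 380) (nat_lit 0) (XT.lf (nat_lit 0) (nat_lit 7660372640) (nat_lit 380) (nat_lit 2049348291) (nat_lit 76) (nat_lit 4356612910) (nat_lit 155) (nat_lit 5) (nat_lit 160) (nat_lit 5) (nat_lit 156) (nat_lit 5) (nat_lit 622) (nat_lit 526) (nat_lit 412)) (XT.lf (nat_lit 0) (nat_lit 7439317127) (nat_lit 380) (nat_lit 4373751364) (nat_lit 456) (nat_lit 2417620131) (nat_lit 150) (nat_lit 5) (nat_lit 155) (nat_lit 5) (nat_lit 156) (nat_lit 5) (nat_lit 623) (nat_lit 526) (nat_lit 411)))) (XT.nd (nat_lit 156) (nat_lit 684) (nat_lit 0) (XT.nd (nat_lit 78) (nat_lit 0) (nat_lit 0)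 (XT.lf (nat_lit 0) (nat_lit 1647517563) (nat_lit 380) (nat_lit 11664579980) (nat_lit 76) (nat_lit 1085645405) (nat_lit 145) (nat_lit 5) (nat_lit 150) (nat_lit 5) (nat_lit 146) (nat_lit 5) (nat_lit 624) (nat_lit 526) (nat_lit 410)) (XT.lf (nat_lit 0) (nat_lit 5816463354) (nat_lit 380) (nat_lit 2104532504) (nat_lit 76) (nat_lit 6645725637) (nat_lit 145) (nat_lit 5) (nat_lit 150) (nat_lit 5) (nat_lit 146) (nat_lit 5) (nat_lit 625) (nat_lit 526) (nat_lit 409))) (XT.nd (nat_lit 78) (nat_lit 304) (nat_lit 0) (XT.lf (nat_lit 0) (nat_lit 7716274299) (nat_lit 380) (nat_lit 2383011251) (nat_lit 456) (nat_lit 4639184396) (nat_lit 140) (nat_lit 5) (nat_lit 145) (nat_lit 5) (nat_lit 146) (nat_lit 5) (nat_lit 626) (nat_lit 526) (nat_lit 408)) (XT.lf (nat_lit 0) (nat_lit 2832764710) (nat_lit 304) (nat_lit 11669311603) (nat_lit 380) (nat_lit 410891087) (nat_lit 136) (nat_lit 5) (nat_lit 140) (nat_lit 5) (nat_lit 141) (nat_lit 5) (nat_lit 627) (nat_lit 526) (nat_lit 407)))))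 (XT.nd (nat_lit 312) (nat_lit 988) (nat_lit 0) (XT.nd (nat_lit 156) (nat_lit 380) (nat_lit 0) (XT.nd (nat_lit 78) (nat_lit 304) (nat_lit 0) (XT.lf (nat_lit 0) (nat_lit 3894559252) (nat_lit 380) (nat_lit 2183222526) (nat_lit 76) (nat_lit 9011791287) (nat_lit 135) (nat_lit 5) (nat_lit 140) (nat_lit 5) (nat_lit 136) (nat_lit 5) (nat_lit 628) (nat_lit 526) (nat_lit 406)) (XT.lf (nat_lit 0) (nat_lit 7982497019) (nat_lit 304) (nat_lit 330883876) (nat_lit 380) (nat_lit 6955620606) (nat_lit 131) (nat_lit 5) (nat_lit 135) (nat_lit 5) (nat_lit 136) (nat_lit 5) (nat_lit 629) (nat_lit 526) (nat_lit 405))) (XT.nd (nat_lit 78) (nat_lit 76) (nat_lit 0) (XT.lf (nat_lit 0) (nat_lit 2900162425) (nat_lit 304) (nat_lit 9970930328) (nat_lit 380) (nat_lit 2579915735) (nat_lit 127) (nat_lit 5) (nat_lit 131) (nat_lit 5) (nat_lit 132) (nat_lit 5) (nat_lit 630) (nat_lit 526) (nat_lit 404)) (XT.lf (nat_lit 0) (nat_lit 1891086156) (nat_lit 380) (nat_lit 2292399094) (nat_lit 76) (nat_lit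 11452276402) (nat_lit 126) (nat_lit 5) (nat_lit 131) (nat_lit 5) (nat_lit 127) (nat_lit 5) (nat_lit 631) (nat_lit 526) (nat_lit 403)))) (XT.nd (nat_lit 156) (nat_lit 380) (nat_lit 0) (XT.nd (nat_lit 78) (nat_lit 304) (nat_lit 0) (XT.lf (nat_lit 0) (nat_lit 6463435245) (nat_lit 380) (nat_lit 7603334854) (nat_lit 76) (nat_lit 1756169513) (nat_lit 122) (nat_lit 5) (nat_lit 127) (nat_lit 5) (nat_lit 123) (nat_lit 5) (nat_lit 632) (nat_lit 526) (nat_lit 402)) (XT.lf (nat_lit 0) (nat_lit 2939326643) (nat_lit 304) (nat_lit 8231708845) (nat_lit 380) (nat_lit 4841949797) (nat_lit 118) (nat_lit 5) (nat_lit 122) (nat_lit 5) (nat_lit 123) (nat_lit 5) (nat_lit 633) (nat_lit 526) (nat_lit 401))) (XT.nd (nat_lit 78) (nat_lit 380) (nat_lit 0) (XT.lf (nat_lit 0) (nat_lit 13765323739) (nat_lit 304) (nat_lit 2240179806) (nat_lit 380) (nat_lit 200674242) (nat_lit 118) (nat_lit 5) (nat_lit 122) (nat_lit 5) (nat_lit 123) (nat_lit 5) (nat_lit 634) (nat_lit 526) (nat_lit 400))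 (XT.lf (nat_lit 0) (nat_lit 4536418243) (nat_lit 380) (nat_lit 7971673734) (nat_lit 76) (nat_lit 3893304742) (nat_lit 113) (nat_lit 5) (nat_lit 118) (nat_lit 5) (nat_lit 114) (nat_lit 5) (nat_lit 635) (nat_lit 526) (nat_lit 399)))))) (XT.nd (nat_lit 624) (nat_lit 228) (nat_lit 0) (XT.nd (nat_lit 312) (nat_lit 608) (nat_lit 0) (XT.nd (nat_lit 156) (nat_lit 608) (nat_lit 0) (XT.nd (nat_lit 78) (nat_lit 0) (nat_lit 0) (XT.lf (nat_lit 0) (nat_lit 2942621123) (nat_lit 228) (nat_lit 6455389838) (nat_lit 304) (nat_lit 7201833852) (nat_lit 110) (nat_lit 5) (nat_lit 113) (nat_lit 5) (nat_lit 114) (nat_lit 5) (nat_lit 636) (nat_lit 526) (nat_lit 398)) (XT.lf (nat_lit 0) (nat_lit 14153155036) (nat_lit 228) (nat_lit 239345766) (nat_lit 304) (nat_lit 2409047975) (nat_lit 110) (nat_lit 5) (nat_lit 113) (nat_lit 5) (nat_lit 114) (nat_lit 5) (nat_lit 637) (nat_lit 526) (nat_lit 397))) (XT.nd (nat_lit 78) (nat_lit 228) (nat_lit 0) (XT.lf (nat_lit 0) (nat_lit 2525639258)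 (nat_lit 380) (nat_lit 8398017927) (nat_lit 76) (nat_lit 6081736539) (nat_lit 105) (nat_lit 5) (nat_lit 110) (nat_lit 5) (nat_lit 106) (nat_lit 5) (nat_lit 638) (nat_lit 526) (nat_lit 396)) (XT.lf (nat_lit 0) (nat_lit 2901777458) (nat_lit 228) (nat_lit 4645810184) (nat_lit 304) (nat_lit 9664993164) (nat_lit 102) (nat_lit 5) (nat_lit 105) (nat_lit 5) (nat_lit 106) (nat_lit 5) (nat_lit 639) (nat_lit 526) (nat_lit 395)))) (XT.nd (nat_lit 156) (nat_lit 228) (nat_lit 0) (XT.nd (nat_lit 78) (nat_lit 380) (nat_lit 0) (XT.lf (nat_lit 0) (nat_lit 12720665649) (nat_lit 304) (nat_lit 2923058326) (nat_lit 76) (nat_lit 1779174039) (nat_lit 102) (nat_lit 5) (nat_lit 106) (nat_lit 5) (nat_lit 103) (nat_lit 5) (nat_lit 640) (nat_lit 526) (nat_lit 394)) (XT.lf (nat_lit 0) (nat_lit 425983228) (nat_lit 380) (nat_lit 8891730047) (nat_lit 76) (nat_lit 8318243399) (nat_lit 97) (nat_lit 5) (nat_lit 102) (nat_lit 5) (nat_lit 98) (nat_lit 5) (nat_lit 641) (nat_lit 526) (nat_lit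 393))) (XT.nd (nat_lit 78) (nat_lit 0) (nat_lit 0) (XT.lf (nat_lit 0) (nat_lit 2807806988) (nat_lit 228) (nat_lit 2806954295) (nat_lit 304) (nat_lit 12237474555) (nat_lit 94) (nat_lit 5) (nat_lit 97) (nat_lit 5) (nat_lit 98) (nat_lit 5) (nat_lit 642) (nat_lit 526) (nat_lit 392)) (XT.lf (nat_lit 0) (nat_lit 10975264266) (nat_lit 304) (nat_lit 3264480494) (nat_lit 76) (nat_lit 3831737021) (nat_lit 94) (nat_lit 5) (nat_lit 98) (nat_lit 5) (nat_lit 95) (nat_lit 5) (nat_lit 643) (nat_lit 526) (nat_lit 391))))) (XT.nd (nat_lit 72306) (nat_lit 0) (nat_lit 49704) (XT.nd (nat_lit 72150) (nat_lit 0) (nat_lit 50388) (XT.nd (nat_lit 72072) (nat_lit 0) (nat_lit 50996) (XT.lf (nat_lit 0) (nat_lit 8819311621) (nat_lit 228) (nat_lit 7682842103) (nat_lit 304) (nat_lit 1791775571) (nat_lit 91) (nat_lit 5) (nat_lit 94) (nat_lit 5) (nat_lit 95) (nat_lit 5) (nat_lit 644) (nat_lit 526) (nat_lit 390)) (XT.lf (nat_lit 0) (nat_lit 422426296) (nat_lit 0) (nat_lit 422426296) (nat_lit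 532) (nat_lit 2422782479) (nat_lit 762) (nat_lit 5) (nat_lit 762) (nat_lit 3) (nat_lit 769) (nat_lit 3) (nat_lit 527) (nat_lit 527) (nat_lit 506))) (XT.nd (nat_lit 78) (nat_lit 608) (nat_lit 0) (XT.lf (nat_lit 0) (nat_lit 4133281679) (nat_lit 0) (nat_lit 140108253) (nat_lit 532) (nat_lit 2275768791) (nat_lit 762) (nat_lit 5) (nat_lit 762) (nat_lit 3) (nat_lit 769) (nat_lit 3) (nat_lit 528) (nat_lit 527) (nat_lit 505)) (XT.lf (nat_lit 0) (nat_lit 282980465) (nat_lit 608) (nat_lit 5669412958) (nat_lit 684) (nat_lit 612048349) (nat_lit 754) (nat_lit 5) (nat_lit 762) (nat_lit 5) (nat_lit 763) (nat_lit 5) (nat_lit 529) (nat_lit 527) (nat_lit 504)))) (XT.nd (nat_lit 156) (nat_lit 684) (nat_lit 0) (XT.nd (nat_lit 78) (nat_lit 0) (nat_lit 0) (XT.lf (nat_lit 0) (nat_lit 2813246630) (nat_lit 608) (nat_lit 2326799204) (nat_lit 684) (nat_lit 1440670739) (nat_lit 754) (nat_lit 5) (nat_lit 762) (nat_lit 5) (nat_lit 763) (nat_lit 5) (nat_lit 530) (nat_lit 527) (nat_lit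 503)) (XT.lf (nat_lit 76) (nat_lit 1061403945) (nat_lit 0) (nat_lit 4274447612) (nat_lit 684) (nat_lit 1262633817) (nat_lit 755) (nat_lit 5) (nat_lit 754) (nat_lit 5) (nat_lit 763) (nat_lit 5) (nat_lit 531) (nat_lit 527) (nat_lit 502))) (XT.nd (nat_lit 78) (nat_lit 0) (nat_lit 0) (XT.lf (nat_lit 0) (nat_lit 1226532903) (nat_lit 684) (nat_lit 2111692200) (nat_lit 760) (nat_lit 3279196036) (nat_lit 745) (nat_lit 5) (nat_lit 754) (nat_lit 5) (nat_lit 755) (nat_lit 5) (nat_lit 532) (nat_lit 527) (nat_lit 501)) (XT.lf (nat_lit 76) (nat_lit 1356523662) (nat_lit 0) (nat_lit 2337606428) (nat_lit 760) (nat_lit 2943530523) (nat_lit 746) (nat_lit 5) (nat_lit 745) (nat_lit 5) (nat_lit 755) (nat_lit 5) (nat_lit 533) (nat_lit 527) (nat_lit 500))))))))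
noncomputable def xc81 : XT := (XT.nd (nat_lit 2418) (nat_lit 15732) (nat_lit 0) (XT.nd (nat_lit 1170) (nat_lit 15200) (nat_lit 0) (XT.nd (nat_lit 546) (nat_lit 2964) (nat_lit 0) (XT.nd (nat_lit 234) (nat_lit 1672) (nat_lit 0) (XT.nd (nat_lit 78) (nat_lit 760) (nat_lit 0) (XT.lf (nat_lit 76) (nat_lit 4887848987) (nat_lit 0) (nat_lit 1275145463) (nat_lit 760) (nat_lit 496275054) (nat_lit 746) (nat_lit 5) (nat_lit 745) (nat_lit 5) (nat_lit 755) (nat_lit 5) (nat_lit 534) (nat_lit 527) (nat_lit 499)) (XT.nd (nat_lit 78) (nat_lit 0) (nat_lit 76) (XT.lf (nat_lit 76) (nat_lit 1783886560) (nat_lit 0) (nat_lit 139950069) (nat_lit 836) (nat_lit 4758214254) (nat_lit 736) (nat_lit 5) (nat_lit 735) (nat_lit 5) (nat_lit 746) (nat_lit 5) (nat_lit 535) (nat_lit 527) (nat_lit 498)) (XT.lf (nat_lit 0) (nat_lit 4343990657) (nat_lit 760) (nat_lit 1316876023) (nat_lit 836) (nat_lit 1045192661) (nat_lit 736) (nat_lit 5) (nat_lit 746) (nat_lit 5) (nat_lit 747) (nat_lit 5) (nat_lit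 536) (nat_lit 527) (nat_lit 497)))) (XT.nd (nat_lit 156) (nat_lit 912) (nat_lit 0) (XT.nd (nat_lit 78) (nat_lit 0) (nat_lit 0) (XT.lf (nat_lit 0) (nat_lit 37578884) (nat_lit 836) (nat_lit 4401440733) (nat_lit 912) (nat_lit 2292387266) (nat_lit 725) (nat_lit 5) (nat_lit 736) (nat_lit 5) (nat_lit 737) (nat_lit 5) (nat_lit 537) (nat_lit 527) (nat_lit 496)) (XT.lf (nat_lit 0) (nat_lit 2403945006) (nat_lit 836) (nat_lit 741192094) (nat_lit 912) (nat_lit 3612807539) (nat_lit 725) (nat_lit 5) (nat_lit 736) (nat_lit 5) (nat_lit 737) (nat_lit 5) (nat_lit 538) (nat_lit 527) (nat_lit 495))) (XT.nd (nat_lit 78) (nat_lit 912) (nat_lit 0) (XT.lf (nat_lit 76) (nat_lit 2996262087) (nat_lit 0) (nat_lit 1783407225) (nat_lit 912) (nat_lit 2006105774) (nat_lit 726) (nat_lit 5) (nat_lit 725) (nat_lit 5) (nat_lit 737) (nat_lit 5) (nat_lit 539) (nat_lit 527) (nat_lit 494)) (XT.lf (nat_lit 0) (nat_lit 331752834) (nat_lit 912) (nat_lit 33929571) (nat_lit 988) (nat_lit 6449469601)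 (nat_lit 713) (nat_lit 5) (nat_lit 725) (nat_lit 5) (nat_lit 726) (nat_lit 5) (nat_lit 540) (nat_lit 527) (nat_lit 493))))) (XT.nd (nat_lit 312) (nat_lit 2052) (nat_lit 0) (XT.nd (nat_lit 156) (nat_lit 988) (nat_lit 0) (XT.nd (nat_lit 78) (nat_lit 0) (nat_lit 0) (XT.lf (nat_lit 0) (nat_lit 2665806688) (nat_lit 912) (nat_lit 3054701985) (nat_lit 988) (nat_lit 1124818994) (nat_lit 714) (nat_lit 5) (nat_lit 726) (nat_lit 5) (nat_lit 727) (nat_lit 5) (nat_lit 541) (nat_lit 527) (nat_lit 492)) (XT.lf (nat_lit 76) (nat_lit 787819129) (nat_lit 0) (nat_lit 4211700156) (nat_lit 988) (nat_lit 1877530361) (nat_lit 715) (nat_lit 5) (nat_lit 714) (nat_lit 5) (nat_lit 727) (nat_lit 5) (nat_lit 542) (nat_lit 527) (nat_lit 491))) (XT.nd (nat_lit 78) (nat_lit 0) (nat_lit 0) (XT.lf (nat_lit 0) (nat_lit 430657241) (nat_lit 988) (nat_lit 2200194723) (nat_lit 1064) (nat_lit 4279168712) (nat_lit 701) (nat_lit 5) (nat_lit 714) (nat_lit 5) (nat_lit 715) (nat_lit 5) (nat_lit 543)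 (nat_lit 527) (nat_lit 490)) (XT.lf (nat_lit 76) (nat_lit 1741134837) (nat_lit 0) (nat_lit 976820018) (nat_lit 1064) (nat_lit 4226288555) (nat_lit 702) (nat_lit 5) (nat_lit 701) (nat_lit 5) (nat_lit 715) (nat_lit 5) (nat_lit 544) (nat_lit 527) (nat_lit 489)))) (XT.nd (nat_lit 156) (nat_lit 1064) (nat_lit 0) (XT.nd (nat_lit 78) (nat_lit 1064) (nat_lit 0) (XT.lf (nat_lit 0) (nat_lit 5018152050) (nat_lit 988) (nat_lit 1229261426) (nat_lit 76) (nat_lit 732396230) (nat_lit 702) (nat_lit 5) (nat_lit 715) (nat_lit 5) (nat_lit 703) (nat_lit 5) (nat_lit 545) (nat_lit 527) (nat_lit 488)) (XT.lf (nat_lit 0) (nat_lit 316994469) (nat_lit 1064) (nat_lit 4200237150) (nat_lit 76) (nat_lit 2499346654) (nat_lit 688) (nat_lit 5) (nat_lit 702) (nat_lit 5) (nat_lit 689) (nat_lit 5) (nat_lit 546) (nat_lit 527) (nat_lit 487))) (XT.nd (nat_lit 78) (nat_lit 1064) (nat_lit 0) (XT.lf (nat_lit 0) (nat_lit 2572423147) (nat_lit 1064) (nat_lit 143974832) (nat_lit 76) (nat_lit 4338277552)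 (nat_lit 688) (nat_lit 5) (nat_lit 702) (nat_lit 5) (nat_lit 689) (nat_lit 5) (nat_lit 547) (nat_lit 527) (nat_lit 486)) (XT.lf (nat_lit 0) (nat_lit 4010192870) (nat_lit 1064) (nat_lit 838943510) (nat_lit 1140) (nat_lit 2244876848) (nat_lit 674) (nat_lit 5) (nat_lit 688) (nat_lit 5) (nat_lit 689) (nat_lit 5) (nat_lit 548) (nat_lit 527) (nat_lit 485)))))) (XT.nd (nat_lit 624) (nat_lit 8512) (nat_lit 0) (XT.nd (nat_lit 312) (nat_lit 4256) (nat_lit 0) (XT.nd (nat_lit 156) (nat_lit 1216) (nat_lit 0) (XT.nd (nat_lit 78) (nat_lit 0) (nat_lit 0) (XT.lf (nat_lit 0) (nat_lit 2513438) (nat_lit 1216) (nat_lit 6048961567) (nat_lit 76) (nat_lit 1083344654) (nat_lit 658) (nat_lit 5) (nat_lit 674) (nat_lit 5) (nat_lit 659) (nat_lit 5) (nat_lit 549) (nat_lit 527) (nat_lit 484)) (XT.lf (nat_lit 0) (nat_lit 2242584562) (nat_lit 1216) (nat_lit 1852913657) (nat_lit 76) (nat_lit 3081093285) (nat_lit 658) (nat_lit 5) (nat_lit 674) (nat_lit 5) (nat_lit 659) (nat_lit 5) (nat_lit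 550) (nat_lit 527) (nat_lit 483))) (XT.nd (nat_lit 78) (nat_lit 0) (nat_lit 0) (XT.lf (nat_lit 0) (nat_lit 2422495567) (nat_lit 1216) (nat_lit 2073020198) (nat_lit 1292) (nat_lit 2724323708) (nat_lit 642) (nat_lit 5) (nat_lit 658) (nat_lit 5) (nat_lit 659) (nat_lit 5) (nat_lit 551) (nat_lit 527) (nat_lit 482)) (XT.lf (nat_lit 0) (nat_lit 6759057636) (nat_lit 1292) (nat_lit 492294749) (nat_lit 76) (nat_lit 13290798) (nat_lit 642) (nat_lit 5) (nat_lit 659) (nat_lit 5) (nat_lit 643) (nat_lit 5) (nat_lit 552) (nat_lit 527) (nat_lit 481)))) (XT.nd (nat_lit 156) (nat_lit 1520) (nat_lit 0) (XT.nd (nat_lit 78) (nat_lit 1368) (nat_lit 0) (XT.lf (nat_lit 0) (nat_lit 1727499552) (nat_lit 1368) (nat_lit 3421950224) (nat_lit 76) (nat_lit 2160806272) (nat_lit 624) (nat_lit 5) (nat_lit 642) (nat_lit 5) (nat_lit 625) (nat_lit 5) (nat_lit 553) (nat_lit 527) (nat_lit 480)) (XT.lf (nat_lit 0) (nat_lit 979203822) (nat_lit 1368) (nat_lit 2983348046) (nat_lit 1444) (nat_lit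 3394882675) (nat_lit 606) (nat_lit 5) (nat_lit 624) (nat_lit 5) (nat_lit 625) (nat_lit 5) (nat_lit 554) (nat_lit 527) (nat_lit 479))) (XT.nd (nat_lit 78) (nat_lit 1520) (nat_lit 0) (XT.lf (nat_lit 0) (nat_lit 5478263150) (nat_lit 1368) (nat_lit 742048461) (nat_lit 1444) (nat_lit 1185686554) (nat_lit 606) (nat_lit 5) (nat_lit 624) (nat_lit 5) (nat_lit 625) (nat_lit 5) (nat_lit 555) (nat_lit 527) (nat_lit 478)) (XT.lf (nat_lit 0) (nat_lit 1036454400) (nat_lit 1520) (nat_lit 4863587149) (nat_lit 76) (nat_lit 1555699207) (nat_lit 586) (nat_lit 5) (nat_lit 606) (nat_lit 5) (nat_lit 587) (nat_lit 5) (nat_lit 556) (nat_lit 527) (nat_lit 477))))) (XT.nd (nat_lit 312) (nat_lit 5320) (nat_lit 0) (XT.nd (nat_lit 156) (nat_lit 1672) (nat_lit 0) (XT.nd (nat_lit 78) (nat_lit 1520) (nat_lit 0) (XT.lf (nat_lit 0) (nat_lit 3261428603) (nat_lit 1520) (nat_lit 327565612) (nat_lit 76) (nat_lit 3917843486) (nat_lit 586) (nat_lit 5) (nat_lit 606) (nat_lit 5) (nat_lit 587) (nat_lit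 5) (nat_lit 557) (nat_lit 527) (nat_lit 476)) (XT.lf (nat_lit 0) (nat_lit 4319489027) (nat_lit 1520) (nat_lit 1196630719) (nat_lit 1596) (nat_lit 2043134046) (nat_lit 566) (nat_lit 5) (nat_lit 586) (nat_lit 5) (nat_lit 587) (nat_lit 5) (nat_lit 558) (nat_lit 527) (nat_lit 475))) (XT.nd (nat_lit 78) (nat_lit 0) (nat_lit 0) (XT.lf (nat_lit 0) (nat_lit 177725817) (nat_lit 1672) (nat_lit 6189477319) (nat_lit 76) (nat_lit 1245946096) (nat_lit 544) (nat_lit 5) (nat_lit 566) (nat_lit 5) (nat_lit 545) (nat_lit 5) (nat_lit 559) (nat_lit 527) (nat_lit 474)) (XT.lf (nat_lit 0) (nat_lit 2403609321) (nat_lit 1672) (nat_lit 1502293397) (nat_lit 76) (nat_lit 3762191948) (nat_lit 544) (nat_lit 5) (nat_lit 566) (nat_lit 5) (nat_lit 545) (nat_lit 5) (nat_lit 560) (nat_lit 527) (nat_lit 473)))) (XT.nd (nat_lit 156) (nat_lit 1900) (nat_lit 0) (XT.nd (nat_lit 78) (nat_lit 1748) (nat_lit 0) (XT.lf (nat_lit 0) (nat_lit 3285151474) (nat_lit 1672) (nat_lit 1369138620) (nat_lit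 1748) (nat_lit 3070244757) (nat_lit 522) (nat_lit 5) (nat_lit 544) (nat_lit 5) (nat_lit 545) (nat_lit 5) (nat_lit 561) (nat_lit 527) (nat_lit 472)) (XT.lf (nat_lit 0) (nat_lit 366470675) (nat_lit 1748) (nat_lit 6563497748) (nat_lit 1824) (nat_lit 852537148) (nat_lit 499) (nat_lit 5) (nat_lit 522) (nat_lit 5) (nat_lit 523) (nat_lit 5) (nat_lit 562) (nat_lit 527) (nat_lit 471))) (XT.nd (nat_lit 78) (nat_lit 1824) (nat_lit 0) (XT.lf (nat_lit 0) (nat_lit 1389927586) (nat_lit 1824) (nat_lit 2568293195) (nat_lit 76) (nat_lit 3883255465) (nat_lit 498) (nat_lit 5) (nat_lit 522) (nat_lit 5) (nat_lit 499) (nat_lit 5) (nat_lit 563) (nat_lit 527) (nat_lit 470)) (XT.lf (nat_lit 0) (nat_lit 2365053820) (nat_lit 1824) (nat_lit 1276760171) (nat_lit 1900) (nat_lit 4260181208) (nat_lit 474) (nat_lit 5) (nat_lit 498) (nat_lit 5) (nat_lit 499) (nat_lit 5) (nat_lit 564) (nat_lit 527) (nat_lit 469))))))) (XT.nd (nat_lit 1170) (nat_lit 7524) (nat_lit 0) (XT.nd (nat_lit 546)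 (nat_lit 4256) (nat_lit 0) (XT.nd (nat_lit 234) (nat_lit 1824) (nat_lit 0) (XT.nd (nat_lit 78) (nat_lit 2128) (nat_lit 0) (XT.lf (nat_lit 0) (nat_lit 5926727595) (nat_lit 1900) (nat_lit 578354353) (nat_lit 76) (nat_lit 1458884095) (nat_lit 474) (nat_lit 5) (nat_lit 499) (nat_lit 5) (nat_lit 475) (nat_lit 5) (nat_lit 565) (nat_lit 527) (nat_lit 468)) (XT.nd (nat_lit 78) (nat_lit 912) (nat_lit 0) (XT.lf (nat_lit 0) (nat_lit 226703089) (nat_lit 1216) (nat_lit 3535340566) (nat_lit 76) (nat_lit 4265112841) (nat_lit 458) (nat_lit 5) (nat_lit 474) (nat_lit 5) (nat_lit 459) (nat_lit 5) (nat_lit 566) (nat_lit 527) (nat_lit 467)) (XT.lf (nat_lit 0) (nat_lit 1549697466) (nat_lit 912) (nat_lit 935135669) (nat_lit 988) (nat_lit 5606985761) (nat_lit 446) (nat_lit 5) (nat_lit 458) (nat_lit 5) (nat_lit 459) (nat_lit 5) (nat_lit 567) (nat_lit 527) (nat_lit 466)))) (XT.nd (nat_lit 156) (nat_lit 912) (nat_lit 0) (XT.nd (nat_lit 78) (nat_lit 912) (nat_lit 0) (XT.lf (nat_lit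 0) (nat_lit 4787359668) (nat_lit 988) (nat_lit 1423064030) (nat_lit 76) (nat_lit 1947367371) (nat_lit 446) (nat_lit 5) (nat_lit 459) (nat_lit 5) (nat_lit 447) (nat_lit 5) (nat_lit 568) (nat_lit 527) (nat_lit 465)) (XT.lf (nat_lit 0) (nat_lit 3805507304) (nat_lit 912) (nat_lit 3324764622) (nat_lit 988) (nat_lit 1094925233) (nat_lit 434) (nat_lit 5) (nat_lit 446) (nat_lit 5) (nat_lit 447) (nat_lit 5) (nat_lit 569) (nat_lit 527) (nat_lit 464))) (XT.nd (nat_lit 78) (nat_lit 0) (nat_lit 0) (XT.lf (nat_lit 0) (nat_lit 830216935) (nat_lit 836) (nat_lit 358472047) (nat_lit 912) (nat_lit 7105530745) (nat_lit 422) (nat_lit 5) (nat_lit 433) (nat_lit 5) (nat_lit 434) (nat_lit 5) (nat_lit 570) (nat_lit 527) (nat_lit 463)) (XT.lf (nat_lit 0) (nat_lit 3514645087) (nat_lit 912) (nat_lit 2181060526) (nat_lit 76) (nat_lit 2668546881) (nat_lit 422) (nat_lit 5) (nat_lit 434) (nat_lit 5) (nat_lit 423) (nat_lit 5) (nat_lit 571) (nat_lit 527) (nat_lit 462))))) (XT.nd (nat_lit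 312) (nat_lit 1596) (nat_lit 0) (XT.nd (nat_lit 156) (nat_lit 912) (nat_lit 0) (XT.nd (nat_lit 78) (nat_lit 836) (nat_lit 0) (XT.lf (nat_lit 0) (nat_lit 3210708545) (nat_lit 912) (nat_lit 2664480043) (nat_lit 988) (nat_lit 2560737052) (nat_lit 410) (nat_lit 5) (nat_lit 422) (nat_lit 5) (nat_lit 423) (nat_lit 5) (nat_lit 572) (nat_lit 527) (nat_lit 461)) (XT.lf (nat_lit 0) (nat_lit 193797344) (nat_lit 836) (nat_lit 8073202702) (nat_lit 912) (nat_lit 242352130) (nat_lit 399) (nat_lit 5) (nat_lit 410) (nat_lit 5) (nat_lit 411) (nat_lit 5) (nat_lit 573) (nat_lit 527) (nat_lit 460))) (XT.nd (nat_lit 78) (nat_lit 836) (nat_lit 0) (XT.lf (nat_lit 0) (nat_lit 2113011502) (nat_lit 912) (nat_lit 2860409420) (nat_lit 76) (nat_lit 3610182812) (nat_lit 398) (nat_lit 5) (nat_lit 410) (nat_lit 5) (nat_lit 399) (nat_lit 5) (nat_lit 574) (nat_lit 527) (nat_lit 459)) (XT.lf (nat_lit 0) (nat_lit 2701163181) (nat_lit 836) (nat_lit 1794796225) (nat_lit 912) (nat_lit 4163675442)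 (nat_lit 387) (nat_lit 5) (nat_lit 398) (nat_lit 5) (nat_lit 399) (nat_lit 5) (nat_lit 575) (nat_lit 527) (nat_lit 458)))) (XT.nd (nat_lit 156) (nat_lit 760) (nat_lit 0) (XT.nd (nat_lit 78) (nat_lit 836) (nat_lit 0) (XT.lf (nat_lit 0) (nat_lit 6921876146) (nat_lit 912) (nat_lit 370493521) (nat_lit 76) (nat_lit 1444911707) (nat_lit 387) (nat_lit 5) (nat_lit 399) (nat_lit 5) (nat_lit 388) (nat_lit 5) (nat_lit 576) (nat_lit 527) (nat_lit 457)) (XT.lf (nat_lit 0) (nat_lit 586192896) (nat_lit 836) (nat_lit 3468702051) (nat_lit 76) (nat_lit 4761232196) (nat_lit 376) (nat_lit 5) (nat_lit 387) (nat_lit 5) (nat_lit 377) (nat_lit 5) (nat_lit 577) (nat_lit 527) (nat_lit 456))) (XT.nd (nat_lit 78) (nat_lit 0) (nat_lit 0) (XT.lf (nat_lit 0) (nat_lit 2269571946) (nat_lit 760) (nat_lit 726642950) (nat_lit 836) (nat_lit 5900401862) (nat_lit 366) (nat_lit 5) (nat_lit 376) (nat_lit 5) (nat_lit 377) (nat_lit 5) (nat_lit 578) (nat_lit 527) (nat_lit 455)) (XT.lf (nat_lit 0)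 (nat_lit 5463009032) (nat_lit 836) (nat_lit 862855593) (nat_lit 76) (nat_lit 2652681016) (nat_lit 366) (nat_lit 5) (nat_lit 377) (nat_lit 5) (nat_lit 367) (nat_lit 5) (nat_lit 579) (nat_lit 527) (nat_lit 454)))))) (XT.nd (nat_lit 624) (nat_lit 3116) (nat_lit 0) (XT.nd (nat_lit 312) (nat_lit 2128) (nat_lit 0) (XT.nd (nat_lit 156) (nat_lit 684) (nat_lit 0) (XT.nd (nat_lit 78) (nat_lit 836) (nat_lit 0) (XT.lf (nat_lit 0) (nat_lit 5041893436) (nat_lit 760) (nat_lit 2943241345) (nat_lit 836) (nat_lit 1076859301) (nat_lit 356) (nat_lit 5) (nat_lit 366) (nat_lit 5) (nat_lit 367) (nat_lit 5) (nat_lit 580) (nat_lit 527) (nat_lit 453)) (XT.lf (nat_lit 0) (nat_lit 1382383901) (nat_lit 836) (nat_lit 7241573030) (nat_lit 76) (nat_lit 523166398) (nat_lit 345) (nat_lit 5) (nat_lit 356) (nat_lit 5) (nat_lit 346) (nat_lit 5) (nat_lit 581) (nat_lit 527) (nat_lit 452))) (XT.nd (nat_lit 78) (nat_lit 684) (nat_lit 0) (XT.lf (nat_lit 0) (nat_lit 3892029950) (nat_lit 836) (nat_lit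 1292577488) (nat_lit 76) (nat_lit 4048893462) (nat_lit 345) (nat_lit 5) (nat_lit 356) (nat_lit 5) (nat_lit 346) (nat_lit 5) (nat_lit 582) (nat_lit 527) (nat_lit 451)) (XT.lf (nat_lit 0) (nat_lit 4802533253) (nat_lit 684) (nat_lit 1650101544) (nat_lit 760) (nat_lit 2868956734) (nat_lit 336) (nat_lit 5) (nat_lit 345) (nat_lit 5) (nat_lit 346) (nat_lit 5) (nat_lit 583) (nat_lit 527) (nat_lit 450)))) (XT.nd (nat_lit 156) (nat_lit 1368) (nat_lit 0) (XT.nd (nat_lit 78) (nat_lit 76) (nat_lit 0) (XT.lf (nat_lit 0) (nat_lit 1597820813) (nat_lit 684) (nat_lit 7468343787) (nat_lit 760) (nat_lit 345245925) (nat_lit 327) (nat_lit 5) (nat_lit 336) (nat_lit 5) (nat_lit 337) (nat_lit 5) (nat_lit 584) (nat_lit 527) (nat_lit 449)) (XT.lf (nat_lit 0) (nat_lit 2211232630) (nat_lit 760) (nat_lit 1666066378) (nat_lit 76) (nat_lit 5625207706) (nat_lit 326) (nat_lit 5) (nat_lit 336) (nat_lit 5) (nat_lit 327) (nat_lit 5) (nat_lit 585) (nat_lit 527) (nat_lit 448))) (XT.nd (nat_lit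 78) (nat_lit 684) (nat_lit 0) (XT.lf (nat_lit 0) (nat_lit 4627178790) (nat_lit 684) (nat_lit 187745528) (nat_lit 760) (nat_lit 4780441501) (nat_lit 317) (nat_lit 5) (nat_lit 326) (nat_lit 5) (nat_lit 327) (nat_lit 5) (nat_lit 586) (nat_lit 527) (nat_lit 447)) (XT.lf (nat_lit 0) (nat_lit 1337331241) (nat_lit 684) (nat_lit 6147474150) (nat_lit 760) (nat_lit 2204995151) (nat_lit 308) (nat_lit 5) (nat_lit 317) (nat_lit 5) (nat_lit 318) (nat_lit 5) (nat_lit 587) (nat_lit 527) (nat_lit 446))))) (XT.nd (nat_lit 312) (nat_lit 1824) (nat_lit 0) (XT.nd (nat_lit 156) (nat_lit 608) (nat_lit 0) (XT.nd (nat_lit 78) (nat_lit 608) (nat_lit 0) (XT.lf (nat_lit 0) (nat_lit 422339450) (nat_lit 760) (nat_lit 1989437469) (nat_lit 76) (nat_lit 7374174699) (nat_lit 307) (nat_lit 5) (nat_lit 317) (nat_lit 5) (nat_lit 308) (nat_lit 5) (nat_lit 588) (nat_lit 527) (nat_lit 445)) (XT.lf (nat_lit 0) (nat_lit 3083007853) (nat_lit 684) (nat_lit 5383012683) (nat_lit 76) (nat_lit 1417508143)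 (nat_lit 299) (nat_lit 5) (nat_lit 308) (nat_lit 5) (nat_lit 300) (nat_lit 5) (nat_lit 589) (nat_lit 527) (nat_lit 444))) (XT.nd (nat_lit 78) (nat_lit 0) (nat_lit 0) (XT.lf (nat_lit 0) (nat_lit 1127517257) (nat_lit 608) (nat_lit 4678060974) (nat_lit 684) (nat_lit 4177305969) (nat_lit 291) (nat_lit 5) (nat_lit 299) (nat_lit 5) (nat_lit 300) (nat_lit 5) (nat_lit 590) (nat_lit 527) (nat_lit 443)) (XT.lf (nat_lit 0) (nat_lit 7805805034) (nat_lit 608) (nat_lit 785195109) (nat_lit 684) (nat_lit 1493059363) (nat_lit 291) (nat_lit 5) (nat_lit 299) (nat_lit 5) (nat_lit 300) (nat_lit 5) (nat_lit 591) (nat_lit 527) (nat_lit 442)))) (XT.nd (nat_lit 156) (nat_lit 532) (nat_lit 0) (XT.nd (nat_lit 78) (nat_lit 608) (nat_lit 0) (XT.lf (nat_lit 0) (nat_lit 1250926043) (nat_lit 684) (nat_lit 5762413275) (nat_lit 76) (nat_lit 3173310388) (nat_lit 282) (nat_lit 5) (nat_lit 291) (nat_lit 5) (nat_lit 283) (nat_lit 5) (nat_lit 592) (nat_lit 527) (nat_lit 441)) (XT.lf (nat_lit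 0) (nat_lit 962760602) (nat_lit 608) (nat_lit 3066797197) (nat_lit 684) (nat_lit 6261541993) (nat_lit 274) (nat_lit 5) (nat_lit 282) (nat_lit 5) (nat_lit 283) (nat_lit 5) (nat_lit 593) (nat_lit 527) (nat_lit 440))) (XT.nd (nat_lit 78) (nat_lit 532) (nat_lit 0) (XT.lf (nat_lit 0) (nat_lit 6882060441) (nat_lit 684) (nat_lit 2538397630) (nat_lit 76) (nat_lit 976815469) (nat_lit 274) (nat_lit 5) (nat_lit 283) (nat_lit 5) (nat_lit 275) (nat_lit 5) (nat_lit 594) (nat_lit 527) (nat_lit 439)) (XT.lf (nat_lit 0) (nat_lit 4389701961) (nat_lit 532) (nat_lit 5424397417) (nat_lit 608) (nat_lit 691022273) (nat_lit 267) (nat_lit 5) (nat_lit 274) (nat_lit 5) (nat_lit 275) (nat_lit 5) (nat_lit 595) (nat_lit 527) (nat_lit 438))))))))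
noncomputable def xc82 : XT := (XT.nd (nat_lit 2418) (nat_lit 3496) (nat_lit 0) (XT.nd (nat_lit 1170) (nat_lit 4408) (nat_lit 0) (XT.nd (nat_lit 546) (nat_lit 2432) (nat_lit 0) (XT.nd (nat_lit 234) (nat_lit 1596) (nat_lit 0) (XT.nd (nat_lit 78) (nat_lit 532) (nat_lit 0) (XT.lf (nat_lit 0) (nat_lit 837620351) (nat_lit 608) (nat_lit 1319693029) (nat_lit 684) (nat_lit 8457602027) (nat_lit 258) (nat_lit 5) (nat_lit 266) (nat_lit 5) (nat_lit 267) (nat_lit 5) (nat_lit 596) (nat_lit 527) (nat_lit 437)) (XT.nd (nat_lit 78) (nat_lit 532) (nat_lit 0) (XT.lf (nat_lit 0) (nat_lit 5087320088) (nat_lit 684) (nat_lit 2772182982) (nat_lit 76) (nat_lit 2866632050) (nat_lit 258) (nat_lit 5) (nat_lit 267) (nat_lit 5) (nat_lit 259) (nat_lit 5) (nat_lit 597) (nat_lit 527) (nat_lit 436)) (XT.lf (nat_lit 0) (nat_lit 4387269924) (nat_lit 532) (nat_lit 3700414969) (nat_lit 608) (nat_lit 2751659741) (nat_lit 251) (nat_lit 5) (nat_lit 258) (nat_lit 5) (nat_lit 259) (nat_lit 5) (nat_lit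 598) (nat_lit 527) (nat_lit 435)))) (XT.nd (nat_lit 156) (nat_lit 988) (nat_lit 0) (XT.nd (nat_lit 78) (nat_lit 0) (nat_lit 0) (XT.lf (nat_lit 0) (nat_lit 192543249) (nat_lit 608) (nat_lit 10211663502) (nat_lit 76) (nat_lit 550550261) (nat_lit 243) (nat_lit 5) (nat_lit 251) (nat_lit 5) (nat_lit 244) (nat_lit 5) (nat_lit 599) (nat_lit 527) (nat_lit 434)) (XT.lf (nat_lit 0) (nat_lit 3201764703) (nat_lit 608) (nat_lit 2979887797) (nat_lit 76) (nat_lit 4889602318) (nat_lit 243) (nat_lit 5) (nat_lit 251) (nat_lit 5) (nat_lit 244) (nat_lit 5) (nat_lit 600) (nat_lit 527) (nat_lit 433))) (XT.nd (nat_lit 78) (nat_lit 532) (nat_lit 0) (XT.lf (nat_lit 0) (nat_lit 4420295353) (nat_lit 456) (nat_lit 1854922837) (nat_lit 532) (nat_lit 4914783962) (nat_lit 237) (nat_lit 5) (nat_lit 243) (nat_lit 5) (nat_lit 244) (nat_lit 5) (nat_lit 601) (nat_lit 527) (nat_lit 432)) (XT.lf (nat_lit 0) (nat_lit 655604238) (nat_lit 532) (nat_lit 8771081266) (nat_lit 608) (nat_lit 1884108548)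 (nat_lit 230) (nat_lit 5) (nat_lit 237) (nat_lit 5) (nat_lit 238) (nat_lit 5) (nat_lit 602) (nat_lit 527) (nat_lit 431))))) (XT.nd (nat_lit 312) (nat_lit 1444) (nat_lit 0) (XT.nd (nat_lit 156) (nat_lit 456) (nat_lit 0) (XT.nd (nat_lit 78) (nat_lit 456) (nat_lit 0) (XT.lf (nat_lit 0) (nat_lit 1225006859) (nat_lit 608) (nat_lit 3166829395) (nat_lit 76) (nat_lit 7041336094) (nat_lit 229) (nat_lit 5) (nat_lit 237) (nat_lit 5) (nat_lit 230) (nat_lit 5) (nat_lit 603) (nat_lit 527) (nat_lit 430)) (XT.lf (nat_lit 0) (nat_lit 4377032536) (nat_lit 532) (nat_lit 7074539060) (nat_lit 76) (nat_lit 106058895) (nat_lit 223) (nat_lit 5) (nat_lit 230) (nat_lit 5) (nat_lit 224) (nat_lit 5) (nat_lit 604) (nat_lit 527) (nat_lit 429))) (XT.nd (nat_lit 78) (nat_lit 0) (nat_lit 0) (XT.lf (nat_lit 0) (nat_lit 589278689) (nat_lit 456) (nat_lit 7033431132) (nat_lit 532) (nat_lit 4061256229) (nat_lit 217) (nat_lit 5) (nat_lit 223) (nat_lit 5) (nat_lit 224) (nat_lit 5) (nat_lit 605)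 (nat_lit 527) (nat_lit 428)) (XT.lf (nat_lit 0) (nat_lit 8468484609) (nat_lit 456) (nat_lit 2488843380) (nat_lit 532) (nat_lit 855020248) (nat_lit 217) (nat_lit 5) (nat_lit 223) (nat_lit 5) (nat_lit 224) (nat_lit 5) (nat_lit 606) (nat_lit 527) (nat_lit 427)))) (XT.nd (nat_lit 156) (nat_lit 456) (nat_lit 0) (XT.nd (nat_lit 78) (nat_lit 456) (nat_lit 0) (XT.lf (nat_lit 0) (nat_lit 2404384275) (nat_lit 532) (nat_lit 7384187665) (nat_lit 76) (nat_lit 2153998506) (nat_lit 210) (nat_lit 5) (nat_lit 217) (nat_lit 5) (nat_lit 211) (nat_lit 5) (nat_lit 607) (nat_lit 527) (nat_lit 426)) (XT.lf (nat_lit 0) (nat_lit 540242221) (nat_lit 456) (nat_lit 5196906019) (nat_lit 532) (nat_lit 6337743864) (nat_lit 204) (nat_lit 5) (nat_lit 210) (nat_lit 5) (nat_lit 211) (nat_lit 5) (nat_lit 608) (nat_lit 527) (nat_lit 425))) (XT.nd (nat_lit 78) (nat_lit 456) (nat_lit 0) (XT.lf (nat_lit 0) (nat_lit 8689873871) (nat_lit 456) (nat_lit 473510688) (nat_lit 532) (nat_lit 3045939722)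 (nat_lit 204) (nat_lit 5) (nat_lit 210) (nat_lit 5) (nat_lit 211) (nat_lit 5) (nat_lit 609) (nat_lit 527) (nat_lit 424)) (XT.lf (nat_lit 0) (nat_lit 343929284) (nat_lit 456) (nat_lit 7692183657) (nat_lit 76) (nat_lit 4309565762) (nat_lit 198) (nat_lit 5) (nat_lit 204) (nat_lit 5) (nat_lit 199) (nat_lit 5) (nat_lit 610) (nat_lit 527) (nat_lit 423)))))) (XT.nd (nat_lit 624) (nat_lit 2280) (nat_lit 0) (XT.nd (nat_lit 312) (nat_lit 836) (nat_lit 0) (XT.nd (nat_lit 156) (nat_lit 836) (nat_lit 0) (XT.nd (nat_lit 78) (nat_lit 0) (nat_lit 0) (XT.lf (nat_lit 0) (nat_lit 503271073) (nat_lit 456) (nat_lit 3265475923) (nat_lit 532) (nat_lit 8715452220) (nat_lit 192) (nat_lit 5) (nat_lit 198) (nat_lit 5) (nat_lit 199) (nat_lit 5) (nat_lit 611) (nat_lit 527) (nat_lit 422)) (XT.lf (nat_lit 0) (nat_lit 7302286629) (nat_lit 532) (nat_lit 3701623510) (nat_lit 76) (nat_lit 1620775886) (nat_lit 192) (nat_lit 5) (nat_lit 199) (nat_lit 5) (nat_lit 193) (nat_lit 5) (nat_lit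 612) (nat_lit 527) (nat_lit 421))) (XT.nd (nat_lit 78) (nat_lit 456) (nat_lit 0) (XT.lf (nat_lit 0) (nat_lit 4751272614) (nat_lit 380) (nat_lit 6186005513) (nat_lit 456) (nat_lit 1830089210) (nat_lit 187) (nat_lit 5) (nat_lit 192) (nat_lit 5) (nat_lit 193) (nat_lit 5) (nat_lit 613) (nat_lit 527) (nat_lit 420)) (XT.lf (nat_lit 0) (nat_lit 473035966) (nat_lit 380) (nat_lit 1242769374) (nat_lit 456) (nat_lit 11196743303) (nat_lit 181) (nat_lit 5) (nat_lit 186) (nat_lit 5) (nat_lit 187) (nat_lit 5) (nat_lit 614) (nat_lit 527) (nat_lit 419)))) (XT.nd (nat_lit 156) (nat_lit 456) (nat_lit 0) (XT.nd (nat_lit 78) (nat_lit 380) (nat_lit 0) (XT.lf (nat_lit 0) (nat_lit 5365471355) (nat_lit 456) (nat_lit 3888988187) (nat_lit 76) (nat_lit 3804785294) (nat_lit 181) (nat_lit 5) (nat_lit 187) (nat_lit 5) (nat_lit 182) (nat_lit 5) (nat_lit 615) (nat_lit 527) (nat_lit 418)) (XT.lf (nat_lit 0) (nat_lit 4855749400) (nat_lit 380) (nat_lit 4251078810) (nat_lit 456) (nat_lit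 4101673152) (nat_lit 176) (nat_lit 5) (nat_lit 181) (nat_lit 5) (nat_lit 182) (nat_lit 5) (nat_lit 616) (nat_lit 527) (nat_lit 417))) (XT.nd (nat_lit 78) (nat_lit 76) (nat_lit 0) (XT.lf (nat_lit 0) (nat_lit 435497770) (nat_lit 380) (nat_lit 12501218920) (nat_lit 456) (nat_lit 423752591) (nat_lit 171) (nat_lit 5) (nat_lit 176) (nat_lit 5) (nat_lit 177) (nat_lit 5) (nat_lit 617) (nat_lit 527) (nat_lit 416)) (XT.lf (nat_lit 0) (nat_lit 3347794729) (nat_lit 456) (nat_lit 4084197486) (nat_lit 76) (nat_lit 6081778323) (nat_lit 170) (nat_lit 5) (nat_lit 176) (nat_lit 5) (nat_lit 171) (nat_lit 5) (nat_lit 618) (nat_lit 527) (nat_lit 415))))) (XT.nd (nat_lit 312) (nat_lit 1140) (nat_lit 0) (XT.nd (nat_lit 156) (nat_lit 380) (nat_lit 0) (XT.nd (nat_lit 78) (nat_lit 380) (nat_lit 0) (XT.lf (nat_lit 0) (nat_lit 4963875718) (nat_lit 380) (nat_lit 2237003070) (nat_lit 456) (nat_lit 6468967748) (nat_lit 165) (nat_lit 5) (nat_lit 170) (nat_lit 5) (nat_lit 171) (nat_lit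 5) (nat_lit 619) (nat_lit 527) (nat_lit 414)) (XT.lf (nat_lit 0) (nat_lit 372668501) (nat_lit 380) (nat_lit 10787912034) (nat_lit 456) (nat_lit 2667872724) (nat_lit 160) (nat_lit 5) (nat_lit 165) (nat_lit 5) (nat_lit 166) (nat_lit 5) (nat_lit 620) (nat_lit 527) (nat_lit 413))) (XT.nd (nat_lit 78) (nat_lit 304) (nat_lit 0) (XT.lf (nat_lit 0) (nat_lit 1246734864) (nat_lit 456) (nat_lit 4293218348) (nat_lit 76) (nat_lit 8449055190) (nat_lit 159) (nat_lit 5) (nat_lit 165) (nat_lit 5) (nat_lit 160) (nat_lit 5) (nat_lit 621) (nat_lit 527) (nat_lit 412)) (XT.lf (nat_lit 0) (nat_lit 5070059139) (nat_lit 304) (nat_lit 146928724) (nat_lit 380) (nat_lit 8935172878) (nat_lit 155) (nat_lit 5) (nat_lit 159) (nat_lit 5) (nat_lit 160) (nat_lit 5) (nat_lit 622) (nat_lit 527) (nat_lit 411)))) (XT.nd (nat_lit 156) (nat_lit 760) (nat_lit 0) (XT.nd (nat_lit 78) (nat_lit 0) (nat_lit 0) (XT.lf (nat_lit 0) (nat_lit 298277512) (nat_lit 380) (nat_lit 9014304416) (nat_lit 456) (nat_lit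 5005075778) (nat_lit 150) (nat_lit 5) (nat_lit 155) (nat_lit 5) (nat_lit 156) (nat_lit 5) (nat_lit 623) (nat_lit 527) (nat_lit 410)) (XT.lf (nat_lit 0) (nat_lit 9957115456) (nat_lit 380) (nat_lit 3575306604) (nat_lit 456) (nat_lit 953196164) (nat_lit 150) (nat_lit 5) (nat_lit 155) (nat_lit 5) (nat_lit 156) (nat_lit 5) (nat_lit 624) (nat_lit 527) (nat_lit 409))) (XT.nd (nat_lit 78) (nat_lit 380) (nat_lit 0) (XT.lf (nat_lit 0) (nat_lit 3165343815) (nat_lit 380) (nat_lit 9500915775) (nat_lit 76) (nat_lit 1989719238) (nat_lit 145) (nat_lit 5) (nat_lit 150) (nat_lit 5) (nat_lit 146) (nat_lit 5) (nat_lit 625) (nat_lit 527) (nat_lit 408)) (XT.lf (nat_lit 0) (nat_lit 206035711) (nat_lit 380) (nat_lit 7183855317) (nat_lit 456) (nat_lit 7439001888) (nat_lit 140) (nat_lit 5) (nat_lit 145) (nat_lit 5) (nat_lit 146) (nat_lit 5) (nat_lit 626) (nat_lit 527) (nat_lit 407))))))) (XT.nd (nat_lit 1170) (nat_lit 608) (nat_lit 0) (XT.nd (nat_lit 546) (nat_lit 1520) (nat_lit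 0) (XT.nd (nat_lit 234) (nat_lit 684) (nat_lit 0) (XT.nd (nat_lit 78) (nat_lit 684) (nat_lit 0) (XT.lf (nat_lit 0) (nat_lit 10205096214) (nat_lit 380) (nat_lit 1538548506) (nat_lit 456) (nat_lit 3260726528) (nat_lit 140) (nat_lit 5) (nat_lit 145) (nat_lit 5) (nat_lit 146) (nat_lit 5) (nat_lit 627) (nat_lit 527) (nat_lit 406)) (XT.nd (nat_lit 78) (nat_lit 304) (nat_lit 0) (XT.lf (nat_lit 0) (nat_lit 1030887419) (nat_lit 380) (nat_lit 9957807218) (nat_lit 76) (nat_lit 4193676716) (nat_lit 135) (nat_lit 5) (nat_lit 140) (nat_lit 5) (nat_lit 136) (nat_lit 5) (nat_lit 628) (nat_lit 527) (nat_lit 405)) (XT.lf (nat_lit 0) (nat_lit 89262534) (nat_lit 304) (nat_lit 5299943571) (nat_lit 380) (nat_lit 9973803870) (nat_lit 131) (nat_lit 5) (nat_lit 135) (nat_lit 5) (nat_lit 136) (nat_lit 5) (nat_lit 629) (nat_lit 527) (nat_lit 404)))) (XT.nd (nat_lit 156) (nat_lit 380) (nat_lit 0) (XT.nd (nat_lit 78) (nat_lit 304) (nat_lit 0) (XT.lf (nat_lit 0) (nat_lit 9886616765)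 (nat_lit 380) (nat_lit 5108028834) (nat_lit 76) (nat_lit 551577511) (nat_lit 131) (nat_lit 5) (nat_lit 136) (nat_lit 5) (nat_lit 132) (nat_lit 5) (nat_lit 630) (nat_lit 527) (nat_lit 403)) (XT.lf (nat_lit 0) (nat_lit 5264903718) (nat_lit 304) (nat_lit 9260116720) (nat_lit 380) (nat_lit 1207059420) (nat_lit 127) (nat_lit 5) (nat_lit 131) (nat_lit 5) (nat_lit 132) (nat_lit 5) (nat_lit 631) (nat_lit 527) (nat_lit 402))) (XT.nd (nat_lit 78) (nat_lit 304) (nat_lit 0) (XT.lf (nat_lit 0) (nat_lit 3307116360) (nat_lit 380) (nat_lit 58405568) (nat_lit 76) (nat_lit 12555372831) (nat_lit 126) (nat_lit 5) (nat_lit 131) (nat_lit 5) (nat_lit 127) (nat_lit 5) (nat_lit 632) (nat_lit 527) (nat_lit 401)) (XT.lf (nat_lit 0) (nat_lit 7964430193) (nat_lit 380) (nat_lit 5469060201) (nat_lit 76) (nat_lit 2678455881) (nat_lit 122) (nat_lit 5) (nat_lit 127) (nat_lit 5) (nat_lit 123) (nat_lit 5) (nat_lit 633) (nat_lit 527) (nat_lit 400))))) (XT.nd (nat_lit 312) (nat_lit 608) (nat_lit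 0) (XT.nd (nat_lit 156) (nat_lit 532) (nat_lit 0) (XT.nd (nat_lit 78) (nat_lit 76) (nat_lit 0) (XT.lf (nat_lit 0) (nat_lit 5269412807) (nat_lit 304) (nat_lit 7484619825) (nat_lit 380) (nat_lit 3552003570) (nat_lit 118) (nat_lit 5) (nat_lit 122) (nat_lit 5) (nat_lit 123) (nat_lit 5) (nat_lit 634) (nat_lit 527) (nat_lit 399)) (XT.lf (nat_lit 0) (nat_lit 1139758833) (nat_lit 380) (nat_lit 243729916) (nat_lit 76) (nat_lit 15119987342) (nat_lit 117) (nat_lit 5) (nat_lit 122) (nat_lit 5) (nat_lit 118) (nat_lit 5) (nat_lit 635) (nat_lit 527) (nat_lit 398))) (XT.nd (nat_lit 78) (nat_lit 228) (nat_lit 0) (XT.lf (nat_lit 0) (nat_lit 5962920067) (nat_lit 380) (nat_lit 5880490115) (nat_lit 76) (nat_lit 4859282739) (nat_lit 113) (nat_lit 5) (nat_lit 118) (nat_lit 5) (nat_lit 114) (nat_lit 5) (nat_lit 636) (nat_lit 527) (nat_lit 397)) (XT.lf (nat_lit 0) (nat_lit 5237283949) (nat_lit 228) (nat_lit 5672785418) (nat_lit 304) (nat_lit 5995274433) (nat_lit 110) (nat_lit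 5) (nat_lit 113) (nat_lit 5) (nat_lit 114) (nat_lit 5) (nat_lit 637) (nat_lit 527) (nat_lit 396)))) (XT.nd (nat_lit 156) (nat_lit 228) (nat_lit 0) (XT.nd (nat_lit 78) (nat_lit 380) (nat_lit 0) (XT.lf (nat_lit 0) (nat_lit 15982704597) (nat_lit 304) (nat_lit 487630592) (nat_lit 76) (nat_lit 641181855) (nat_lit 110) (nat_lit 5) (nat_lit 114) (nat_lit 5) (nat_lit 111) (nat_lit 5) (nat_lit 638) (nat_lit 527) (nat_lit 395)) (XT.lf (nat_lit 0) (nat_lit 3877367345) (nat_lit 380) (nat_lit 6351078433) (nat_lit 76) (nat_lit 7091016489) (nat_lit 105) (nat_lit 5) (nat_lit 110) (nat_lit 5) (nat_lit 106) (nat_lit 5) (nat_lit 639) (nat_lit 527) (nat_lit 394))) (XT.nd (nat_lit 78) (nat_lit 0) (nat_lit 0) (XT.lf (nat_lit 0) (nat_lit 5160141151) (nat_lit 228) (nat_lit 3828385510) (nat_lit 304) (nat_lit 8542491285) (nat_lit 102) (nat_lit 5) (nat_lit 105) (nat_lit 5) (nat_lit 106) (nat_lit 5) (nat_lit 640) (nat_lit 527) (nat_lit 393)) (XT.lf (nat_lit 0) (nat_lit 14245567004)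 (nat_lit 304) (nat_lit 804821372) (nat_lit 76) (nat_lit 2695543395) (nat_lit 102) (nat_lit 5) (nat_lit 106) (nat_lit 5) (nat_lit 103) (nat_lit 5) (nat_lit 641) (nat_lit 527) (nat_lit 392)))))) (XT.nd (nat_lit 72696) (nat_lit 0) (nat_lit 47044) (XT.nd (nat_lit 72384) (nat_lit 0) (nat_lit 49400) (XT.nd (nat_lit 156) (nat_lit 0) (nat_lit 0) (XT.nd (nat_lit 78) (nat_lit 228) (nat_lit 0) (XT.lf (nat_lit 0) (nat_lit 1702474797) (nat_lit 380) (nat_lit 6890322350) (nat_lit 76) (nat_lit 9370505342) (nat_lit 97) (nat_lit 5) (nat_lit 102) (nat_lit 5) (nat_lit 98) (nat_lit 5) (nat_lit 642) (nat_lit 527) (nat_lit 391)) (XT.lf (nat_lit 0) (nat_lit 5028868306) (nat_lit 228) (nat_lit 1955353913) (nat_lit 304) (nat_lit 11199901413) (nat_lit 94) (nat_lit 5) (nat_lit 97) (nat_lit 5) (nat_lit 98) (nat_lit 5) (nat_lit 643) (nat_lit 527) (nat_lit 390))) (XT.nd (nat_lit 72150) (nat_lit 0) (nat_lit 50084) (XT.lf (nat_lit 0) (nat_lit 12433063038) (nat_lit 304) (nat_lit 1188428482)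 (nat_lit 76) (nat_lit 4786640685) (nat_lit 94) (nat_lit 5) (nat_lit 98) (nat_lit 5) (nat_lit 95) (nat_lit 5) (nat_lit 644) (nat_lit 527) (nat_lit 389)) (XT.lf (nat_lit 0) (nat_lit 128309100) (nat_lit 684) (nat_lit 1576765904) (nat_lit 684) (nat_lit 1576765904) (nat_lit 753) (nat_lit 3) (nat_lit 762) (nat_lit 3) (nat_lit 762) (nat_lit 5) (nat_lit 528) (nat_lit 528) (nat_lit 504)))) (XT.nd (nat_lit 156) (nat_lit 684) (nat_lit 0) (XT.nd (nat_lit 78) (nat_lit 0) (nat_lit 0) (XT.lf (nat_lit 76) (nat_lit 119705772) (nat_lit 0) (nat_lit 2623832303) (nat_lit 684) (nat_lit 3835972521) (nat_lit 754) (nat_lit 5) (nat_lit 753) (nat_lit 3) (nat_lit 762) (nat_lit 5) (nat_lit 529) (nat_lit 528) (nat_lit 503)) (XT.lf (nat_lit 76) (nat_lit 3467487918) (nat_lit 0) (nat_lit 1768506595) (nat_lit 684) (nat_lit 1360548650) (nat_lit 754) (nat_lit 5) (nat_lit 753) (nat_lit 3) (nat_lit 762) (nat_lit 5) (nat_lit 530) (nat_lit 528) (nat_lit 502))) (XT.nd (nat_lit 78) (nat_lit 0)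 (nat_lit 76) (XT.lf (nat_lit 76) (nat_lit 229897168) (nat_lit 0) (nat_lit 856198565) (nat_lit 760) (nat_lit 5528932836) (nat_lit 745) (nat_lit 5) (nat_lit 744) (nat_lit 5) (nat_lit 754) (nat_lit 5) (nat_lit 531) (nat_lit 528) (nat_lit 501)) (XT.lf (nat_lit 0) (nat_lit 3521822263) (nat_lit 684) (nat_lit 2979762399) (nat_lit 760) (nat_lit 132954805) (nat_lit 745) (nat_lit 5) (nat_lit 754) (nat_lit 5) (nat_lit 755) (nat_lit 5) (nat_lit 532) (nat_lit 528) (nat_lit 500))))) (XT.nd (nat_lit 312) (nat_lit 1672) (nat_lit 0) (XT.nd (nat_lit 156) (nat_lit 0) (nat_lit 0) (XT.nd (nat_lit 78) (nat_lit 760) (nat_lit 0) (XT.lf (nat_lit 76) (nat_lit 459650238) (nat_lit 0) (nat_lit 5493238750) (nat_lit 760) (nat_lit 702622014) (nat_lit 746) (nat_lit 5) (nat_lit 745) (nat_lit 5) (nat_lit 755) (nat_lit 5) (nat_lit 533) (nat_lit 528) (nat_lit 499)) (XT.lf (nat_lit 0) (nat_lit 1691335597) (nat_lit 760) (nat_lit 2714805724) (nat_lit 836) (nat_lit 2271361754) (nat_lit 735) (nat_lit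 5) (nat_lit 745) (nat_lit 5) (nat_lit 746) (nat_lit 5) (nat_lit 534) (nat_lit 528) (nat_lit 498))) (XT.nd (nat_lit 78) (nat_lit 0) (nat_lit 0) (XT.lf (nat_lit 76) (nat_lit 807479257) (nat_lit 0) (nat_lit 3261299534) (nat_lit 836) (nat_lit 2632165782) (nat_lit 736) (nat_lit 5) (nat_lit 735) (nat_lit 5) (nat_lit 746) (nat_lit 5) (nat_lit 535) (nat_lit 528) (nat_lit 497)) (XT.lf (nat_lit 76) (nat_lit 4402907419) (nat_lit 0) (nat_lit 2049803961) (nat_lit 836) (nat_lit 272967419) (nat_lit 736) (nat_lit 5) (nat_lit 735) (nat_lit 5) (nat_lit 746) (nat_lit 5) (nat_lit 536) (nat_lit 528) (nat_lit 496)))) (XT.nd (nat_lit 156) (nat_lit 836) (nat_lit 0) (XT.nd (nat_lit 78) (nat_lit 0) (nat_lit 76) (XT.lf (nat_lit 76) (nat_lit 1288165592) (nat_lit 0) (nat_lit 767130389) (nat_lit 912) (nat_lit 4696340077) (nat_lit 725) (nat_lit 5) (nat_lit 724) (nat_lit 5) (nat_lit 736) (nat_lit 5) (nat_lit 537) (nat_lit 528) (nat_lit 495)) (XT.lf (nat_lit 0) (nat_lit 4388254227) (nat_lit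 836) (nat_lit 1815714349) (nat_lit 912) (nat_lit 574874660) (nat_lit 725) (nat_lit 5) (nat_lit 736) (nat_lit 5) (nat_lit 737) (nat_lit 5) (nat_lit 538) (nat_lit 528) (nat_lit 494))) (XT.nd (nat_lit 78) (nat_lit 912) (nat_lit 0) (XT.lf (nat_lit 76) (nat_lit 1890101713) (nat_lit 0) (nat_lit 4838825129) (nat_lit 912) (nat_lit 78449112) (nat_lit 726) (nat_lit 5) (nat_lit 725) (nat_lit 5) (nat_lit 737) (nat_lit 5) (nat_lit 539) (nat_lit 528) (nat_lit 493)) (XT.lf (nat_lit 0) (nat_lit 2206511264) (nat_lit 912) (nat_lit 1191592567) (nat_lit 988) (nat_lit 3438952255) (nat_lit 713) (nat_lit 5) (nat_lit 725) (nat_lit 5) (nat_lit 726) (nat_lit 5) (nat_lit 540) (nat_lit 528) (nat_lit 492))))))))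
noncomputable def xc83 : XT := (XT.nd (nat_lit 2418) (nat_lit 14060) (nat_lit 0) (XT.nd (nat_lit 1170) (nat_lit 13984) (nat_lit 0) (XT.nd (nat_lit 546) (nat_lit 6156) (nat_lit 0) (XT.nd (nat_lit 234) (nat_lit 1064) (nat_lit 0) (XT.nd (nat_lit 78) (nat_lit 912) (nat_lit 0) (XT.lf (nat_lit 76) (nat_lit 2607854337) (nat_lit 0) (nat_lit 1890507147) (nat_lit 988) (nat_lit 2369715502) (nat_lit 714) (nat_lit 5) (nat_lit 713) (nat_lit 5) (nat_lit 726) (nat_lit 5) (nat_lit 541) (nat_lit 528) (nat_lit 491)) (XT.nd (nat_lit 78) (nat_lit 912) (nat_lit 0) (XT.lf (nat_lit 76) (nat_lit 6465237704) (nat_lit 0) (nat_lit 324965696) (nat_lit 988) (nat_lit 110434123) (nat_lit 714) (nat_lit 5) (nat_lit 713) (nat_lit 5) (nat_lit 726) (nat_lit 5) (nat_lit 542) (nat_lit 528) (nat_lit 490)) (XT.lf (nat_lit 0) (nat_lit 2143227076) (nat_lit 988) (nat_lit 3479955842) (nat_lit 1064) (nat_lit 1310824284) (nat_lit 701) (nat_lit 5) (nat_lit 714) (nat_lit 5) (nat_lit 715) (nat_lit 5)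 (nat_lit 543) (nat_lit 528) (nat_lit 489)))) (XT.nd (nat_lit 156) (nat_lit 1064) (nat_lit 0) (XT.nd (nat_lit 78) (nat_lit 0) (nat_lit 0) (XT.lf (nat_lit 76) (nat_lit 426716781) (nat_lit 0) (nat_lit 3969433362) (nat_lit 1064) (nat_lit 2572768363) (nat_lit 702) (nat_lit 5) (nat_lit 701) (nat_lit 5) (nat_lit 715) (nat_lit 5) (nat_lit 544) (nat_lit 528) (nat_lit 488)) (XT.lf (nat_lit 76) (nat_lit 4423741473) (nat_lit 0) (nat_lit 2242341325) (nat_lit 1064) (nat_lit 339008351) (nat_lit 702) (nat_lit 5) (nat_lit 701) (nat_lit 5) (nat_lit 715) (nat_lit 5) (nat_lit 545) (nat_lit 528) (nat_lit 487))) (XT.nd (nat_lit 78) (nat_lit 0) (nat_lit 76) (XT.lf (nat_lit 76) (nat_lit 1429937289) (nat_lit 0) (nat_lit 442608601) (nat_lit 1140) (nat_lit 5170020468) (nat_lit 688) (nat_lit 5) (nat_lit 687) (nat_lit 5) (nat_lit 702) (nat_lit 5) (nat_lit 546) (nat_lit 528) (nat_lit 486)) (XT.lf (nat_lit 0) (nat_lit 4100417269) (nat_lit 1064) (nat_lit 1571222876) (nat_lit 76) (nat_lit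 1409575613) (nat_lit 688) (nat_lit 5) (nat_lit 702) (nat_lit 5) (nat_lit 689) (nat_lit 5) (nat_lit 547) (nat_lit 528) (nat_lit 485))))) (XT.nd (nat_lit 312) (nat_lit 2736) (nat_lit 0) (XT.nd (nat_lit 156) (nat_lit 2356) (nat_lit 0) (XT.nd (nat_lit 78) (nat_lit 76) (nat_lit 0) (XT.lf (nat_lit 0) (nat_lit 2546364262) (nat_lit 1064) (nat_lit 3797062495) (nat_lit 1140) (nat_lit 777801748) (nat_lit 674) (nat_lit 5) (nat_lit 688) (nat_lit 5) (nat_lit 689) (nat_lit 5) (nat_lit 548) (nat_lit 528) (nat_lit 484)) (XT.lf (nat_lit 0) (nat_lit 1412126988) (nat_lit 1140) (nat_lit 439365439) (nat_lit 76) (nat_lit 5311117356) (nat_lit 673) (nat_lit 5) (nat_lit 688) (nat_lit 5) (nat_lit 674) (nat_lit 5) (nat_lit 549) (nat_lit 528) (nat_lit 483))) (XT.nd (nat_lit 78) (nat_lit 1216) (nat_lit 0) (XT.lf (nat_lit 0) (nat_lit 3613668384) (nat_lit 1216) (nat_lit 3417769497) (nat_lit 76) (nat_lit 173715263) (nat_lit 658) (nat_lit 5) (nat_lit 674) (nat_lit 5) (nat_lit 659) (nat_lit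 5) (nat_lit 550) (nat_lit 528) (nat_lit 482)) (XT.lf (nat_lit 0) (nat_lit 818976248) (nat_lit 1216) (nat_lit 5014076046) (nat_lit 1292) (nat_lit 1416020667) (nat_lit 642) (nat_lit 5) (nat_lit 658) (nat_lit 5) (nat_lit 659) (nat_lit 5) (nat_lit 551) (nat_lit 528) (nat_lit 481)))) (XT.nd (nat_lit 156) (nat_lit 1368) (nat_lit 0) (XT.nd (nat_lit 78) (nat_lit 1292) (nat_lit 0) (XT.lf (nat_lit 0) (nat_lit 769153584) (nat_lit 1292) (nat_lit 2147994175) (nat_lit 76) (nat_lit 4377086264) (nat_lit 641) (nat_lit 5) (nat_lit 658) (nat_lit 5) (nat_lit 642) (nat_lit 5) (nat_lit 552) (nat_lit 528) (nat_lit 480)) (XT.lf (nat_lit 0) (nat_lit 2203982153) (nat_lit 1292) (nat_lit 743969839) (nat_lit 1368) (nat_lit 4392783212) (nat_lit 624) (nat_lit 5) (nat_lit 641) (nat_lit 5) (nat_lit 642) (nat_lit 5) (nat_lit 553) (nat_lit 528) (nat_lit 479))) (XT.nd (nat_lit 78) (nat_lit 1368) (nat_lit 0) (XT.lf (nat_lit 0) (nat_lit 5149677856) (nat_lit 1368) (nat_lit 761444998) (nat_lit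 76) (nat_lit 1477458208) (nat_lit 624) (nat_lit 5) (nat_lit 642) (nat_lit 5) (nat_lit 625) (nat_lit 5) (nat_lit 554) (nat_lit 528) (nat_lit 478)) (XT.lf (nat_lit 0) (nat_lit 3709778549) (nat_lit 1368) (nat_lit 3670830135) (nat_lit 1444) (nat_lit 57073395) (nat_lit 606) (nat_lit 5) (nat_lit 624) (nat_lit 5) (nat_lit 625) (nat_lit 5) (nat_lit 555) (nat_lit 528) (nat_lit 477)))))) (XT.nd (nat_lit 624) (nat_lit 5776) (nat_lit 0) (XT.nd (nat_lit 312) (nat_lit 5092) (nat_lit 0) (XT.nd (nat_lit 156) (nat_lit 1596) (nat_lit 0) (XT.nd (nat_lit 78) (nat_lit 0) (nat_lit 0) (XT.lf (nat_lit 0) (nat_lit 753185477) (nat_lit 1444) (nat_lit 1353303638) (nat_lit 1520) (nat_lit 5381665314) (nat_lit 586) (nat_lit 5) (nat_lit 605) (nat_lit 5) (nat_lit 606) (nat_lit 5) (nat_lit 556) (nat_lit 528) (nat_lit 476)) (XT.lf (nat_lit 0) (nat_lit 4301475026) (nat_lit 1520) (nat_lit 2208150081) (nat_lit 76) (nat_lit 1030226804) (nat_lit 586) (nat_lit 5) (nat_lit 606) (nat_lit 5) (nat_lit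 587) (nat_lit 5) (nat_lit 557) (nat_lit 528) (nat_lit 475))) (XT.nd (nat_lit 78) (nat_lit 76) (nat_lit 0) (XT.lf (nat_lit 0) (nat_lit 2396041721) (nat_lit 1520) (nat_lit 4126850124) (nat_lit 1596) (nat_lit 1070042398) (nat_lit 566) (nat_lit 5) (nat_lit 586) (nat_lit 5) (nat_lit 587) (nat_lit 5) (nat_lit 558) (nat_lit 528) (nat_lit 474)) (XT.lf (nat_lit 0) (nat_lit 1099931819) (nat_lit 1596) (nat_lit 567989534) (nat_lit 76) (nat_lit 5979545166) (nat_lit 565) (nat_lit 5) (nat_lit 586) (nat_lit 5) (nat_lit 566) (nat_lit 5) (nat_lit 559) (nat_lit 528) (nat_lit 473)))) (XT.nd (nat_lit 156) (nat_lit 1824) (nat_lit 0) (XT.nd (nat_lit 78) (nat_lit 1672) (nat_lit 0) (XT.lf (nat_lit 0) (nat_lit 3290902876) (nat_lit 1672) (nat_lit 3543144161) (nat_lit 76) (nat_lit 869063874) (nat_lit 544) (nat_lit 5) (nat_lit 566) (nat_lit 5) (nat_lit 545) (nat_lit 5) (nat_lit 560) (nat_lit 528) (nat_lit 472)) (XT.lf (nat_lit 0) (nat_lit 1199194965) (nat_lit 1672) (nat_lit 4308922061)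 (nat_lit 1748) (nat_lit 2252104100) (nat_lit 522) (nat_lit 5) (nat_lit 544) (nat_lit 5) (nat_lit 545) (nat_lit 5) (nat_lit 561) (nat_lit 528) (nat_lit 471))) (XT.nd (nat_lit 78) (nat_lit 1824) (nat_lit 0) (XT.lf (nat_lit 0) (nat_lit 6048793929) (nat_lit 1672) (nat_lit 1704970889) (nat_lit 1748) (nat_lit 65028324) (nat_lit 522) (nat_lit 5) (nat_lit 544) (nat_lit 5) (nat_lit 545) (nat_lit 5) (nat_lit 562) (nat_lit 528) (nat_lit 470)) (XT.lf (nat_lit 0) (nat_lit 2124822221) (nat_lit 1824) (nat_lit 4776951070) (nat_lit 76) (nat_lit 976734639) (nat_lit 498) (nat_lit 5) (nat_lit 522) (nat_lit 5) (nat_lit 499) (nat_lit 5) (nat_lit 563) (nat_lit 528) (nat_lit 469))))) (XT.nd (nat_lit 312) (nat_lit 2736) (nat_lit 0) (XT.nd (nat_lit 156) (nat_lit 1216) (nat_lit 0) (XT.nd (nat_lit 78) (nat_lit 0) (nat_lit 0) (XT.lf (nat_lit 0) (nat_lit 108984590) (nat_lit 1824) (nat_lit 4233964159) (nat_lit 1900) (nat_lit 3596753976) (nat_lit 474) (nat_lit 5) (nat_lit 498) (nat_lit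 5) (nat_lit 499) (nat_lit 5) (nat_lit 564) (nat_lit 528) (nat_lit 468)) (XT.lf (nat_lit 0) (nat_lit 5121626994) (nat_lit 1824) (nat_lit 1477785248) (nat_lit 1900) (nat_lit 1402830961) (nat_lit 474) (nat_lit 5) (nat_lit 498) (nat_lit 5) (nat_lit 499) (nat_lit 5) (nat_lit 565) (nat_lit 528) (nat_lit 467))) (XT.nd (nat_lit 78) (nat_lit 0) (nat_lit 0) (XT.lf (nat_lit 0) (nat_lit 809233021) (nat_lit 1216) (nat_lit 5919423064) (nat_lit 76) (nat_lit 1337566942) (nat_lit 458) (nat_lit 5) (nat_lit 474) (nat_lit 5) (nat_lit 459) (nat_lit 5) (nat_lit 566) (nat_lit 528) (nat_lit 466)) (XT.lf (nat_lit 0) (nat_lit 3038952720) (nat_lit 1216) (nat_lit 872573103) (nat_lit 76) (nat_lit 4219928407) (nat_lit 458) (nat_lit 5) (nat_lit 474) (nat_lit 5) (nat_lit 459) (nat_lit 5) (nat_lit 567) (nat_lit 528) (nat_lit 465)))) (XT.nd (nat_lit 156) (nat_lit 912) (nat_lit 0) (XT.nd (nat_lit 78) (nat_lit 912) (nat_lit 0) (XT.lf (nat_lit 0) (nat_lit 4296182306) (nat_lit 912) (nat_lit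 1008640582) (nat_lit 988) (nat_lit 2893337225) (nat_lit 446) (nat_lit 5) (nat_lit 458) (nat_lit 5) (nat_lit 459) (nat_lit 5) (nat_lit 568) (nat_lit 528) (nat_lit 464)) (XT.lf (nat_lit 0) (nat_lit 1282294033) (nat_lit 912) (nat_lit 6324763114) (nat_lit 988) (nat_lit 659323189) (nat_lit 434) (nat_lit 5) (nat_lit 446) (nat_lit 5) (nat_lit 447) (nat_lit 5) (nat_lit 569) (nat_lit 528) (nat_lit 463))) (XT.nd (nat_lit 78) (nat_lit 836) (nat_lit 0) (XT.lf (nat_lit 0) (nat_lit 1595557764) (nat_lit 988) (nat_lit 1765770062) (nat_lit 76) (nat_lit 4974479468) (nat_lit 433) (nat_lit 5) (nat_lit 446) (nat_lit 5) (nat_lit 434) (nat_lit 5) (nat_lit 570) (nat_lit 528) (nat_lit 462)) (XT.lf (nat_lit 0) (nat_lit 3563889873) (nat_lit 836) (nat_lit 311051312) (nat_lit 912) (nat_lit 4531830870) (nat_lit 422) (nat_lit 5) (nat_lit 433) (nat_lit 5) (nat_lit 434) (nat_lit 5) (nat_lit 571) (nat_lit 528) (nat_lit 461))))))) (XT.nd (nat_lit 1170) (nat_lit 6080) (nat_lit 0) (XT.nd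 (nat_lit 546) (nat_lit 4484) (nat_lit 0) (XT.nd (nat_lit 234) (nat_lit 1672) (nat_lit 0) (XT.nd (nat_lit 78) (nat_lit 912) (nat_lit 0) (XT.lf (nat_lit 0) (nat_lit 497575655) (nat_lit 912) (nat_lit 5701213373) (nat_lit 988) (nat_lit 2280390615) (nat_lit 410) (nat_lit 5) (nat_lit 422) (nat_lit 5) (nat_lit 423) (nat_lit 5) (nat_lit 572) (nat_lit 528) (nat_lit 460)) (XT.nd (nat_lit 78) (nat_lit 836) (nat_lit 0) (XT.lf (nat_lit 0) (nat_lit 16396701) (nat_lit 988) (nat_lit 2580346110) (nat_lit 76) (nat_lit 5956280927) (nat_lit 409) (nat_lit 5) (nat_lit 422) (nat_lit 5) (nat_lit 410) (nat_lit 5) (nat_lit 573) (nat_lit 528) (nat_lit 459)) (XT.lf (nat_lit 0) (nat_lit 2317891759) (nat_lit 912) (nat_lit 5715524520) (nat_lit 76) (nat_lit 594841847) (nat_lit 398) (nat_lit 5) (nat_lit 410) (nat_lit 5) (nat_lit 399) (nat_lit 5) (nat_lit 574) (nat_lit 528) (nat_lit 458)))) (XT.nd (nat_lit 156) (nat_lit 836) (nat_lit 0) (XT.nd (nat_lit 78) (nat_lit 836) (nat_lit 0) (XT.lf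 (nat_lit 0) (nat_lit 4666888272) (nat_lit 912) (nat_lit 207091699) (nat_lit 76) (nat_lit 3830988785) (nat_lit 398) (nat_lit 5) (nat_lit 410) (nat_lit 5) (nat_lit 399) (nat_lit 5) (nat_lit 575) (nat_lit 528) (nat_lit 457)) (XT.lf (nat_lit 0) (nat_lit 5447879947) (nat_lit 836) (nat_lit 1617850557) (nat_lit 912) (nat_lit 1717426748) (nat_lit 387) (nat_lit 5) (nat_lit 398) (nat_lit 5) (nat_lit 399) (nat_lit 5) (nat_lit 576) (nat_lit 528) (nat_lit 456))) (XT.nd (nat_lit 78) (nat_lit 0) (nat_lit 0) (XT.lf (nat_lit 0) (nat_lit 636628688) (nat_lit 836) (nat_lit 6527164443) (nat_lit 76) (nat_lit 1699122780) (nat_lit 376) (nat_lit 5) (nat_lit 387) (nat_lit 5) (nat_lit 377) (nat_lit 5) (nat_lit 577) (nat_lit 528) (nat_lit 455)) (XT.lf (nat_lit 0) (nat_lit 3016111990) (nat_lit 836) (nat_lit 836312567) (nat_lit 76) (nat_lit 5091592194) (nat_lit 376) (nat_lit 5) (nat_lit 387) (nat_lit 5) (nat_lit 377) (nat_lit 5) (nat_lit 578) (nat_lit 528) (nat_lit 454))))) (XT.nd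 (nat_lit 312) (nat_lit 2128) (nat_lit 0) (XT.nd (nat_lit 156) (nat_lit 836) (nat_lit 0) (XT.nd (nat_lit 78) (nat_lit 760) (nat_lit 0) (XT.lf (nat_lit 0) (nat_lit 4998952150) (nat_lit 760) (nat_lit 445392922) (nat_lit 836) (nat_lit 3582372226) (nat_lit 366) (nat_lit 5) (nat_lit 376) (nat_lit 5) (nat_lit 377) (nat_lit 5) (nat_lit 579) (nat_lit 528) (nat_lit 453)) (XT.lf (nat_lit 0) (nat_lit 1820131332) (nat_lit 760) (nat_lit 6107216456) (nat_lit 836) (nat_lit 1183600845) (nat_lit 356) (nat_lit 5) (nat_lit 366) (nat_lit 5) (nat_lit 367) (nat_lit 5) (nat_lit 580) (nat_lit 528) (nat_lit 452))) (XT.nd (nat_lit 78) (nat_lit 760) (nat_lit 0) (XT.lf (nat_lit 0) (nat_lit 1245978947) (nat_lit 836) (nat_lit 1403578322) (nat_lit 76) (nat_lit 6547156156) (nat_lit 355) (nat_lit 5) (nat_lit 366) (nat_lit 5) (nat_lit 356) (nat_lit 5) (nat_lit 581) (nat_lit 528) (nat_lit 451)) (XT.lf (nat_lit 0) (nat_lit 3714069986) (nat_lit 836) (nat_lit 4670617788) (nat_lit 76) (nat_lit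 899234730) (nat_lit 345) (nat_lit 5) (nat_lit 356) (nat_lit 5) (nat_lit 346) (nat_lit 5) (nat_lit 582) (nat_lit 528) (nat_lit 450)))) (XT.nd (nat_lit 156) (nat_lit 1444) (nat_lit 0) (XT.nd (nat_lit 78) (nat_lit 0) (nat_lit 0) (XT.lf (nat_lit 0) (nat_lit 1361969418) (nat_lit 684) (nat_lit 4875605123) (nat_lit 760) (nat_lit 3135181000) (nat_lit 336) (nat_lit 5) (nat_lit 345) (nat_lit 5) (nat_lit 346) (nat_lit 5) (nat_lit 583) (nat_lit 528) (nat_lit 449)) (XT.lf (nat_lit 0) (nat_lit 7543603217) (nat_lit 684) (nat_lit 1269827283) (nat_lit 760) (nat_lit 649897906) (nat_lit 336) (nat_lit 5) (nat_lit 345) (nat_lit 5) (nat_lit 346) (nat_lit 5) (nat_lit 584) (nat_lit 528) (nat_lit 448))) (XT.nd (nat_lit 78) (nat_lit 684) (nat_lit 0) (XT.lf (nat_lit 0) (nat_lit 1875093178) (nat_lit 760) (nat_lit 5268626669) (nat_lit 76) (nat_lit 2411454345) (nat_lit 326) (nat_lit 5) (nat_lit 336) (nat_lit 5) (nat_lit 327) (nat_lit 5) (nat_lit 585) (nat_lit 528) (nat_lit 447)) (XT.lf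 (nat_lit 0) (nat_lit 959220527) (nat_lit 684) (nat_lit 3481509260) (nat_lit 760) (nat_lit 5208064982) (nat_lit 317) (nat_lit 5) (nat_lit 326) (nat_lit 5) (nat_lit 327) (nat_lit 5) (nat_lit 586) (nat_lit 528) (nat_lit 446)))))) (XT.nd (nat_lit 624) (nat_lit 2812) (nat_lit 0) (XT.nd (nat_lit 312) (nat_lit 1900) (nat_lit 0) (XT.nd (nat_lit 156) (nat_lit 684) (nat_lit 0) (XT.nd (nat_lit 78) (nat_lit 684) (nat_lit 0) (XT.lf (nat_lit 0) (nat_lit 7066449984) (nat_lit 760) (nat_lit 2397649938) (nat_lit 76) (nat_lit 280013151) (nat_lit 317) (nat_lit 5) (nat_lit 327) (nat_lit 5) (nat_lit 318) (nat_lit 5) (nat_lit 587) (nat_lit 528) (nat_lit 445)) (XT.lf (nat_lit 0) (nat_lit 4015178393) (nat_lit 684) (nat_lit 5750722600) (nat_lit 760) (nat_lit 75013140) (nat_lit 308) (nat_lit 5) (nat_lit 317) (nat_lit 5) (nat_lit 318) (nat_lit 5) (nat_lit 588) (nat_lit 528) (nat_lit 444))) (XT.nd (nat_lit 78) (nat_lit 0) (nat_lit 0) (XT.lf (nat_lit 0) (nat_lit 605844407) (nat_lit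 608) (nat_lit 1932373844) (nat_lit 684) (nat_lit 7401251442) (nat_lit 299) (nat_lit 5) (nat_lit 307) (nat_lit 5) (nat_lit 308) (nat_lit 5) (nat_lit 589) (nat_lit 528) (nat_lit 443)) (XT.lf (nat_lit 0) (nat_lit 5227311517) (nat_lit 684) (nat_lit 2842641815) (nat_lit 76) (nat_lit 1969541759) (nat_lit 299) (nat_lit 5) (nat_lit 308) (nat_lit 5) (nat_lit 300) (nat_lit 5) (nat_lit 590) (nat_lit 528) (nat_lit 442)))) (XT.nd (nat_lit 156) (nat_lit 608) (nat_lit 0) (XT.nd (nat_lit 78) (nat_lit 684) (nat_lit 0) (XT.lf (nat_lit 0) (nat_lit 3780677466) (nat_lit 608) (nat_lit 4199899353) (nat_lit 684) (nat_lit 2160737039) (nat_lit 291) (nat_lit 5) (nat_lit 299) (nat_lit 5) (nat_lit 300) (nat_lit 5) (nat_lit 591) (nat_lit 528) (nat_lit 441)) (XT.lf (nat_lit 0) (nat_lit 296031688) (nat_lit 608) (nat_lit 234876175) (nat_lit 684) (nat_lit 9714305156) (nat_lit 282) (nat_lit 5) (nat_lit 290) (nat_lit 5) (nat_lit 291) (nat_lit 5) (nat_lit 592) (nat_lit 528) (nat_lit 440)))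 (XT.nd (nat_lit 78) (nat_lit 608) (nat_lit 0) (XT.lf (nat_lit 0) (nat_lit 3288610806) (nat_lit 684) (nat_lit 3252266462) (nat_lit 76) (nat_lit 3809204723) (nat_lit 282) (nat_lit 5) (nat_lit 291) (nat_lit 5) (nat_lit 283) (nat_lit 5) (nat_lit 593) (nat_lit 528) (nat_lit 439)) (XT.lf (nat_lit 0) (nat_lit 3590138556) (nat_lit 608) (nat_lit 2510146259) (nat_lit 684) (nat_lit 4356787799) (nat_lit 274) (nat_lit 5) (nat_lit 282) (nat_lit 5) (nat_lit 283) (nat_lit 5) (nat_lit 594) (nat_lit 528) (nat_lit 438))))) (XT.nd (nat_lit 312) (nat_lit 1596) (nat_lit 0) (XT.nd (nat_lit 156) (nat_lit 608) (nat_lit 0) (XT.nd (nat_lit 78) (nat_lit 76) (nat_lit 0) (XT.lf (nat_lit 0) (nat_lit 2990833) (nat_lit 532) (nat_lit 8971777530) (nat_lit 608) (nat_lit 1591303768) (nat_lit 267) (nat_lit 5) (nat_lit 274) (nat_lit 5) (nat_lit 275) (nat_lit 5) (nat_lit 595) (nat_lit 528) (nat_lit 437)) (XT.lf (nat_lit 0) (nat_lit 1250681728) (nat_lit 608) (nat_lit 3632179173) (nat_lit 76)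 (nat_lit 5793485327) (nat_lit 266) (nat_lit 5) (nat_lit 274) (nat_lit 5) (nat_lit 267) (nat_lit 5) (nat_lit 596) (nat_lit 528) (nat_lit 436))) (XT.nd (nat_lit 78) (nat_lit 0) (nat_lit 0) (XT.lf (nat_lit 0) (nat_lit 3438233701) (nat_lit 608) (nat_lit 687120035) (nat_lit 684) (nat_lit 6663319179) (nat_lit 258) (nat_lit 5) (nat_lit 266) (nat_lit 5) (nat_lit 267) (nat_lit 5) (nat_lit 597) (nat_lit 528) (nat_lit 435)) (XT.lf (nat_lit 0) (nat_lit 7080412116) (nat_lit 684) (nat_lit 260839099) (nat_lit 76) (nat_lit 3561537618) (nat_lit 258) (nat_lit 5) (nat_lit 267) (nat_lit 5) (nat_lit 259) (nat_lit 5) (nat_lit 598) (nat_lit 528) (nat_lit 434)))) (XT.nd (nat_lit 156) (nat_lit 456) (nat_lit 0) (XT.nd (nat_lit 78) (nat_lit 608) (nat_lit 0) (XT.lf (nat_lit 0) (nat_lit 7024916105) (nat_lit 532) (nat_lit 3095338551) (nat_lit 608) (nat_lit 898419297) (nat_lit 251) (nat_lit 5) (nat_lit 258) (nat_lit 5) (nat_lit 259) (nat_lit 5) (nat_lit 599) (nat_lit 528) (nat_lit 433))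 (XT.lf (nat_lit 0) (nat_lit 2063835465) (nat_lit 608) (nat_lit 7825083610) (nat_lit 76) (nat_lit 1247544600) (nat_lit 243) (nat_lit 5) (nat_lit 251) (nat_lit 5) (nat_lit 244) (nat_lit 5) (nat_lit 600) (nat_lit 528) (nat_lit 432))) (XT.nd (nat_lit 78) (nat_lit 456) (nat_lit 0) (XT.lf (nat_lit 0) (nat_lit 5096624852) (nat_lit 608) (nat_lit 499472649) (nat_lit 76) (nat_lit 5659927045) (nat_lit 243) (nat_lit 5) (nat_lit 251) (nat_lit 5) (nat_lit 244) (nat_lit 5) (nat_lit 601) (nat_lit 528) (nat_lit 431)) (XT.lf (nat_lit 0) (nat_lit 7032003553) (nat_lit 456) (nat_lit 1180028281) (nat_lit 532) (nat_lit 3165506066) (nat_lit 237) (nat_lit 5) (nat_lit 243) (nat_lit 5) (nat_lit 244) (nat_lit 5) (nat_lit 602) (nat_lit 528) (nat_lit 430))))))))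
noncomputable def xc84 : XT := (XT.nd (nat_lit 2418) (nat_lit 2128) (nat_lit 0) (XT.nd (nat_lit 1170) (nat_lit 4104) (nat_lit 0) (XT.nd (nat_lit 546) (nat_lit 2128) (nat_lit 0) (XT.nd (nat_lit 234) (nat_lit 1444) (nat_lit 0) (XT.nd (nat_lit 78) (nat_lit 532) (nat_lit 0) (XT.lf (nat_lit 0) (nat_lit 3206851339) (nat_lit 532) (nat_lit 8205172632) (nat_lit 608) (nat_lit 89012505) (nat_lit 230) (nat_lit 5) (nat_lit 237) (nat_lit 5) (nat_lit 238) (nat_lit 5) (nat_lit 603) (nat_lit 528) (nat_lit 429)) (XT.nd (nat_lit 78) (nat_lit 456) (nat_lit 0) (XT.lf (nat_lit 0) (nat_lit 3022782485) (nat_lit 608) (nat_lit 718196510) (nat_lit 76) (nat_lit 7885355378) (nat_lit 229) (nat_lit 5) (nat_lit 237) (nat_lit 5) (nat_lit 230) (nat_lit 5) (nat_lit 604) (nat_lit 528) (nat_lit 428)) (XT.lf (nat_lit 0) (nat_lit 6224089990) (nat_lit 532) (nat_lit 4690266475) (nat_lit 76) (nat_lit 839201092) (nat_lit 223) (nat_lit 5) (nat_lit 230) (nat_lit 5) (nat_lit 224) (nat_lit 5) (nat_lit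 605) (nat_lit 528) (nat_lit 427)))) (XT.nd (nat_lit 156) (nat_lit 912) (nat_lit 0) (XT.nd (nat_lit 78) (nat_lit 76) (nat_lit 0) (XT.lf (nat_lit 0) (nat_lit 3110210764) (nat_lit 456) (nat_lit 6406260771) (nat_lit 532) (nat_lit 2366313168) (nat_lit 217) (nat_lit 5) (nat_lit 223) (nat_lit 5) (nat_lit 224) (nat_lit 5) (nat_lit 606) (nat_lit 528) (nat_lit 426)) (XT.lf (nat_lit 0) (nat_lit 857820718) (nat_lit 532) (nat_lit 922259783) (nat_lit 76) (nat_lit 10234224705) (nat_lit 216) (nat_lit 5) (nat_lit 223) (nat_lit 5) (nat_lit 217) (nat_lit 5) (nat_lit 607) (nat_lit 528) (nat_lit 425))) (XT.nd (nat_lit 78) (nat_lit 456) (nat_lit 0) (XT.lf (nat_lit 0) (nat_lit 4158264415) (nat_lit 532) (nat_lit 5036309261) (nat_lit 76) (nat_lit 2952699804) (nat_lit 210) (nat_lit 5) (nat_lit 217) (nat_lit 5) (nat_lit 211) (nat_lit 5) (nat_lit 608) (nat_lit 528) (nat_lit 424)) (XT.lf (nat_lit 0) (nat_lit 3030191051) (nat_lit 456) (nat_lit 4510141944) (nat_lit 532) (nat_lit 4742256226)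 (nat_lit 204) (nat_lit 5) (nat_lit 210) (nat_lit 5) (nat_lit 211) (nat_lit 5) (nat_lit 609) (nat_lit 528) (nat_lit 423))))) (XT.nd (nat_lit 312) (nat_lit 1216) (nat_lit 0) (XT.nd (nat_lit 156) (nat_lit 456) (nat_lit 0) (XT.nd (nat_lit 78) (nat_lit 456) (nat_lit 0) (XT.lf (nat_lit 0) (nat_lit 11003884608) (nat_lit 532) (nat_lit 1128065402) (nat_lit 76) (nat_lit 288384845) (nat_lit 204) (nat_lit 5) (nat_lit 211) (nat_lit 5) (nat_lit 205) (nat_lit 5) (nat_lit 610) (nat_lit 528) (nat_lit 422)) (XT.lf (nat_lit 0) (nat_lit 2005393391) (nat_lit 456) (nat_lit 5381545778) (nat_lit 76) (nat_lit 5172531349) (nat_lit 198) (nat_lit 5) (nat_lit 204) (nat_lit 5) (nat_lit 199) (nat_lit 5) (nat_lit 611) (nat_lit 528) (nat_lit 421))) (XT.nd (nat_lit 78) (nat_lit 0) (nat_lit 0) (XT.lf (nat_lit 0) (nat_lit 2961604353) (nat_lit 456) (nat_lit 2520556030) (nat_lit 532) (nat_lit 7218932589) (nat_lit 192) (nat_lit 5) (nat_lit 198) (nat_lit 5) (nat_lit 199) (nat_lit 5) (nat_lit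 612) (nat_lit 528) (nat_lit 420)) (XT.lf (nat_lit 0) (nat_lit 9059409806) (nat_lit 532) (nat_lit 1348403489) (nat_lit 76) (nat_lit 2437116019) (nat_lit 192) (nat_lit 5) (nat_lit 199) (nat_lit 5) (nat_lit 193) (nat_lit 5) (nat_lit 613) (nat_lit 528) (nat_lit 419)))) (XT.nd (nat_lit 156) (nat_lit 380) (nat_lit 0) (XT.nd (nat_lit 78) (nat_lit 456) (nat_lit 0) (XT.lf (nat_lit 0) (nat_lit 7257581791) (nat_lit 380) (nat_lit 5493585243) (nat_lit 456) (nat_lit 239616467) (nat_lit 187) (nat_lit 5) (nat_lit 192) (nat_lit 5) (nat_lit 193) (nat_lit 5) (nat_lit 614) (nat_lit 528) (nat_lit 418)) (XT.lf (nat_lit 0) (nat_lit 2899143264) (nat_lit 380) (nat_lit 440918805) (nat_lit 456) (nat_lit 9798911519) (nat_lit 181) (nat_lit 5) (nat_lit 186) (nat_lit 5) (nat_lit 187) (nat_lit 5) (nat_lit 615) (nat_lit 528) (nat_lit 417))) (XT.nd (nat_lit 78) (nat_lit 380) (nat_lit 0) (XT.lf (nat_lit 0) (nat_lit 7036808376) (nat_lit 456) (nat_lit 1571566888) (nat_lit 76) (nat_lit 4680747235)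 (nat_lit 181) (nat_lit 5) (nat_lit 187) (nat_lit 5) (nat_lit 182) (nat_lit 5) (nat_lit 616) (nat_lit 528) (nat_lit 416)) (XT.lf (nat_lit 0) (nat_lit 7332307550) (nat_lit 380) (nat_lit 3505466534) (nat_lit 456) (nat_lit 2603894960) (nat_lit 176) (nat_lit 5) (nat_lit 181) (nat_lit 5) (nat_lit 182) (nat_lit 5) (nat_lit 617) (nat_lit 528) (nat_lit 415)))))) (XT.nd (nat_lit 624) (nat_lit 2052) (nat_lit 0) (XT.nd (nat_lit 312) (nat_lit 836) (nat_lit 0) (XT.nd (nat_lit 156) (nat_lit 760) (nat_lit 0) (XT.nd (nat_lit 78) (nat_lit 0) (nat_lit 0) (XT.lf (nat_lit 0) (nat_lit 1122900297) (nat_lit 456) (nat_lit 10770818224) (nat_lit 76) (nat_lit 1703001943) (nat_lit 170) (nat_lit 5) (nat_lit 176) (nat_lit 5) (nat_lit 171) (nat_lit 5) (nat_lit 618) (nat_lit 528) (nat_lit 414)) (XT.lf (nat_lit 0) (nat_lit 4933828269) (nat_lit 456) (nat_lit 1803286917) (nat_lit 76) (nat_lit 7016524559) (nat_lit 170) (nat_lit 5) (nat_lit 176) (nat_lit 5) (nat_lit 171) (nat_lit 5) (nat_lit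 619) (nat_lit 528) (nat_lit 413))) (XT.nd (nat_lit 78) (nat_lit 380) (nat_lit 0) (XT.lf (nat_lit 0) (nat_lit 7410204366) (nat_lit 380) (nat_lit 1439222420) (nat_lit 456) (nat_lit 5063701905) (nat_lit 165) (nat_lit 5) (nat_lit 170) (nat_lit 5) (nat_lit 171) (nat_lit 5) (nat_lit 620) (nat_lit 528) (nat_lit 412)) (XT.lf (nat_lit 0) (nat_lit 2736214317) (nat_lit 380) (nat_lit 10143267914) (nat_lit 456) (nat_lit 1195602598) (nat_lit 160) (nat_lit 5) (nat_lit 165) (nat_lit 5) (nat_lit 166) (nat_lit 5) (nat_lit 621) (nat_lit 528) (nat_lit 411)))) (XT.nd (nat_lit 156) (nat_lit 456) (nat_lit 0) (XT.nd (nat_lit 78) (nat_lit 304) (nat_lit 0) (XT.lf (nat_lit 0) (nat_lit 2747766326) (nat_lit 456) (nat_lit 2049548838) (nat_lit 76) (nat_lit 9441928697) (nat_lit 159) (nat_lit 5) (nat_lit 165) (nat_lit 5) (nat_lit 160) (nat_lit 5) (nat_lit 622) (nat_lit 528) (nat_lit 410)) (XT.lf (nat_lit 0) (nat_lit 6788065584) (nat_lit 380) (nat_lit 6924828629) (nat_lit 76) (nat_lit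 692952656) (nat_lit 155) (nat_lit 5) (nat_lit 160) (nat_lit 5) (nat_lit 156) (nat_lit 5) (nat_lit 623) (nat_lit 528) (nat_lit 409))) (XT.nd (nat_lit 78) (nat_lit 76) (nat_lit 0) (XT.lf (nat_lit 0) (nat_lit 2626803833) (nat_lit 380) (nat_lit 8326041693) (nat_lit 456) (nat_lit 3622063206) (nat_lit 150) (nat_lit 5) (nat_lit 155) (nat_lit 5) (nat_lit 156) (nat_lit 5) (nat_lit 624) (nat_lit 528) (nat_lit 408)) (XT.lf (nat_lit 0) (nat_lit 475454787) (nat_lit 456) (nat_lit 2316648954) (nat_lit 76) (nat_lit 11954632789) (nat_lit 149) (nat_lit 5) (nat_lit 155) (nat_lit 5) (nat_lit 150) (nat_lit 5) (nat_lit 625) (nat_lit 528) (nat_lit 407))))) (XT.nd (nat_lit 312) (nat_lit 988) (nat_lit 0) (XT.nd (nat_lit 156) (nat_lit 380) (nat_lit 0) (XT.nd (nat_lit 78) (nat_lit 380) (nat_lit 0) (XT.lf (nat_lit 0) (nat_lit 4655867052) (nat_lit 380) (nat_lit 7387055002) (nat_lit 76) (nat_lit 2877611398) (nat_lit 145) (nat_lit 5) (nat_lit 150) (nat_lit 5) (nat_lit 146) (nat_lit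 5) (nat_lit 626) (nat_lit 528) (nat_lit 406)) (XT.lf (nat_lit 0) (nat_lit 2498878415) (nat_lit 380) (nat_lit 6452902061) (nat_lit 456) (nat_lit 6145388244) (nat_lit 140) (nat_lit 5) (nat_lit 145) (nat_lit 5) (nat_lit 146) (nat_lit 5) (nat_lit 627) (nat_lit 528) (nat_lit 405))) (XT.nd (nat_lit 78) (nat_lit 380) (nat_lit 0) (XT.lf (nat_lit 0) (nat_lit 12653043226) (nat_lit 380) (nat_lit 711838729) (nat_lit 456) (nat_lit 1911829606) (nat_lit 140) (nat_lit 5) (nat_lit 145) (nat_lit 5) (nat_lit 146) (nat_lit 5) (nat_lit 628) (nat_lit 528) (nat_lit 404)) (XT.lf (nat_lit 0) (nat_lit 2439913125) (nat_lit 380) (nat_lit 7887376287) (nat_lit 76) (nat_lit 5130942152) (nat_lit 135) (nat_lit 5) (nat_lit 140) (nat_lit 5) (nat_lit 136) (nat_lit 5) (nat_lit 629) (nat_lit 528) (nat_lit 403)))) (XT.nd (nat_lit 156) (nat_lit 684) (nat_lit 0) (XT.nd (nat_lit 78) (nat_lit 0) (nat_lit 0) (XT.lf (nat_lit 0) (nat_lit 2345703366) (nat_lit 304) (nat_lit 4527109854) (nat_lit 380)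 (nat_lit 8769921813) (nat_lit 131) (nat_lit 5) (nat_lit 135) (nat_lit 5) (nat_lit 136) (nat_lit 5) (nat_lit 630) (nat_lit 528) (nat_lit 402)) (XT.lf (nat_lit 0) (nat_lit 11438789254) (nat_lit 380) (nat_lit 2978341607) (nat_lit 76) (nat_lit 1412909592) (nat_lit 131) (nat_lit 5) (nat_lit 136) (nat_lit 5) (nat_lit 132) (nat_lit 5) (nat_lit 631) (nat_lit 528) (nat_lit 401))) (XT.nd (nat_lit 78) (nat_lit 304) (nat_lit 0) (XT.lf (nat_lit 0) (nat_lit 136131592) (nat_lit 380) (nat_lit 8433387159) (nat_lit 76) (nat_lit 7450321279) (nat_lit 126) (nat_lit 5) (nat_lit 131) (nat_lit 5) (nat_lit 127) (nat_lit 5) (nat_lit 632) (nat_lit 528) (nat_lit 400)) (XT.lf (nat_lit 0) (nat_lit 2160068491) (nat_lit 304) (nat_lit 2551905759) (nat_lit 380) (nat_lit 11500546833) (nat_lit 122) (nat_lit 5) (nat_lit 126) (nat_lit 5) (nat_lit 127) (nat_lit 5) (nat_lit 633) (nat_lit 528) (nat_lit 399))))))) (XT.nd (nat_lit 73320) (nat_lit 0) (nat_lit 44004) (XT.nd (nat_lit 546) (nat_lit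 836) (nat_lit 0) (XT.nd (nat_lit 234) (nat_lit 608) (nat_lit 0) (XT.nd (nat_lit 78) (nat_lit 684) (nat_lit 0) (XT.lf (nat_lit 0) (nat_lit 9442179239) (nat_lit 380) (nat_lit 3380881475) (nat_lit 76) (nat_lit 3584738356) (nat_lit 122) (nat_lit 5) (nat_lit 127) (nat_lit 5) (nat_lit 123) (nat_lit 5) (nat_lit 634) (nat_lit 528) (nat_lit 398)) (XT.nd (nat_lit 78) (nat_lit 380) (nat_lit 0) (XT.lf (nat_lit 0) (nat_lit 7557903361) (nat_lit 304) (nat_lit 6757992347) (nat_lit 380) (nat_lit 2290108979) (nat_lit 118) (nat_lit 5) (nat_lit 122) (nat_lit 5) (nat_lit 123) (nat_lit 5) (nat_lit 635) (nat_lit 528) (nat_lit 397)) (XT.lf (nat_lit 0) (nat_lit 1934214269) (nat_lit 304) (nat_lit 530557731) (nat_lit 380) (nat_lit 14342713308) (nat_lit 113) (nat_lit 5) (nat_lit 117) (nat_lit 5) (nat_lit 118) (nat_lit 5) (nat_lit 636) (nat_lit 528) (nat_lit 396)))) (XT.nd (nat_lit 156) (nat_lit 380) (nat_lit 0) (XT.nd (nat_lit 78) (nat_lit 228) (nat_lit 0) (XT.lf (nat_lit 0) (nat_lit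 7366082216) (nat_lit 380) (nat_lit 3834877028) (nat_lit 76) (nat_lit 5810093828) (nat_lit 113) (nat_lit 5) (nat_lit 118) (nat_lit 5) (nat_lit 114) (nat_lit 5) (nat_lit 637) (nat_lit 528) (nat_lit 395)) (XT.lf (nat_lit 0) (nat_lit 7491020787) (nat_lit 228) (nat_lit 4909931807) (nat_lit 304) (nat_lit 4817029118) (nat_lit 110) (nat_lit 5) (nat_lit 113) (nat_lit 5) (nat_lit 114) (nat_lit 5) (nat_lit 638) (nat_lit 528) (nat_lit 394))) (XT.nd (nat_lit 78) (nat_lit 0) (nat_lit 0) (XT.lf (nat_lit 0) (nat_lit 136119320) (nat_lit 380) (nat_lit 15778838304) (nat_lit 76) (nat_lit 1513476395) (nat_lit 105) (nat_lit 5) (nat_lit 110) (nat_lit 5) (nat_lit 106) (nat_lit 5) (nat_lit 639) (nat_lit 528) (nat_lit 393)) (XT.lf (nat_lit 0) (nat_lit 5205602217) (nat_lit 380) (nat_lit 4349207410) (nat_lit 76) (nat_lit 8086013693) (nat_lit 105) (nat_lit 5) (nat_lit 110) (nat_lit 5) (nat_lit 106) (nat_lit 5) (nat_lit 640) (nat_lit 528) (nat_lit 392))))) (XT.nd (nat_lit 72462) (nat_lit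 0) (nat_lit 49400) (XT.nd (nat_lit 156) (nat_lit 304) (nat_lit 0) (XT.nd (nat_lit 78) (nat_lit 304) (nat_lit 0) (XT.lf (nat_lit 0) (nat_lit 7378230693) (nat_lit 228) (nat_lit 3029961989) (nat_lit 304) (nat_lit 7448633554) (nat_lit 102) (nat_lit 5) (nat_lit 105) (nat_lit 5) (nat_lit 106) (nat_lit 5) (nat_lit 641) (nat_lit 528) (nat_lit 391)) (XT.lf (nat_lit 0) (nat_lit 1288150808) (nat_lit 304) (nat_lit 14471844508) (nat_lit 380) (nat_lit 2316250870) (nat_lit 98) (nat_lit 5) (nat_lit 102) (nat_lit 5) (nat_lit 103) (nat_lit 5) (nat_lit 642) (nat_lit 528) (nat_lit 390))) (XT.nd (nat_lit 78) (nat_lit 228) (nat_lit 0) (XT.lf (nat_lit 0) (nat_lit 2955259302) (nat_lit 380) (nat_lit 4933509133) (nat_lit 76) (nat_lit 10409412061) (nat_lit 97) (nat_lit 5) (nat_lit 102) (nat_lit 5) (nat_lit 98) (nat_lit 5) (nat_lit 643) (nat_lit 528) (nat_lit 389)) (XT.lf (nat_lit 0) (nat_lit 7210284944) (nat_lit 228) (nat_lit 1121970153) (nat_lit 304) (nat_lit 10191370958) (nat_lit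 94) (nat_lit 5) (nat_lit 97) (nat_lit 5) (nat_lit 98) (nat_lit 5) (nat_lit 644) (nat_lit 528) (nat_lit 388)))) (XT.nd (nat_lit 156) (nat_lit 0) (nat_lit 0) (XT.nd (nat_lit 78) (nat_lit 684) (nat_lit 0) (XT.lf (nat_lit 0) (nat_lit 2598326740) (nat_lit 684) (nat_lit 349840889) (nat_lit 684) (nat_lit 349840889) (nat_lit 753) (nat_lit 3) (nat_lit 762) (nat_lit 3) (nat_lit 762) (nat_lit 5) (nat_lit 529) (nat_lit 529) (nat_lit 502)) (XT.lf (nat_lit 0) (nat_lit 1025378534) (nat_lit 684) (nat_lit 3998061731) (nat_lit 760) (nat_lit 1590202500) (nat_lit 744) (nat_lit 5) (nat_lit 753) (nat_lit 3) (nat_lit 754) (nat_lit 5) (nat_lit 530) (nat_lit 529) (nat_lit 501))) (XT.nd (nat_lit 78) (nat_lit 0) (nat_lit 0) (XT.lf (nat_lit 0) (nat_lit 3421377218) (nat_lit 684) (nat_lit 667395311) (nat_lit 760) (nat_lit 2543836487) (nat_lit 744) (nat_lit 5) (nat_lit 753) (nat_lit 3) (nat_lit 754) (nat_lit 5) (nat_lit 531) (nat_lit 529) (nat_lit 500)) (XT.lf (nat_lit 76) (nat_lit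 2733178324) (nat_lit 0) (nat_lit 3087858633) (nat_lit 760) (nat_lit 831805744) (nat_lit 745) (nat_lit 5) (nat_lit 744) (nat_lit 5) (nat_lit 754) (nat_lit 5) (nat_lit 532) (nat_lit 529) (nat_lit 499)))))) (XT.nd (nat_lit 624) (nat_lit 2964) (nat_lit 0) (XT.nd (nat_lit 312) (nat_lit 912) (nat_lit 0) (XT.nd (nat_lit 156) (nat_lit 760) (nat_lit 0) (XT.nd (nat_lit 78) (nat_lit 0) (nat_lit 0) (XT.lf (nat_lit 0) (nat_lit 1517390102) (nat_lit 760) (nat_lit 506125093) (nat_lit 836) (nat_lit 4650899486) (nat_lit 734) (nat_lit 5) (nat_lit 744) (nat_lit 5) (nat_lit 745) (nat_lit 5) (nat_lit 533) (nat_lit 529) (nat_lit 498)) (XT.lf (nat_lit 76) (nat_lit 2976709605) (nat_lit 0) (nat_lit 884858085) (nat_lit 836) (nat_lit 2835560493) (nat_lit 735) (nat_lit 5) (nat_lit 734) (nat_lit 5) (nat_lit 745) (nat_lit 5) (nat_lit 534) (nat_lit 529) (nat_lit 497))) (XT.nd (nat_lit 78) (nat_lit 836) (nat_lit 0) (XT.lf (nat_lit 0) (nat_lit 6198787550) (nat_lit 760) (nat_lit 219639720)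 (nat_lit 836) (nat_lit 302948220) (nat_lit 735) (nat_lit 5) (nat_lit 745) (nat_lit 5) (nat_lit 746) (nat_lit 5) (nat_lit 535) (nat_lit 529) (nat_lit 496)) (XT.lf (nat_lit 0) (nat_lit 1782106777) (nat_lit 836) (nat_lit 3402121529) (nat_lit 912) (nat_lit 1562252531) (nat_lit 724) (nat_lit 5) (nat_lit 735) (nat_lit 5) (nat_lit 736) (nat_lit 5) (nat_lit 536) (nat_lit 529) (nat_lit 495)))) (XT.nd (nat_lit 156) (nat_lit 912) (nat_lit 0) (XT.nd (nat_lit 78) (nat_lit 0) (nat_lit 0) (XT.lf (nat_lit 76) (nat_lit 175849506) (nat_lit 0) (nat_lit 3895325036) (nat_lit 912) (nat_lit 2701941684) (nat_lit 725) (nat_lit 5) (nat_lit 724) (nat_lit 5) (nat_lit 736) (nat_lit 5) (nat_lit 537) (nat_lit 529) (nat_lit 494)) (XT.lf (nat_lit 76) (nat_lit 3838174333) (nat_lit 0) (nat_lit 2534232293) (nat_lit 912) (nat_lit 428552539) (nat_lit 725) (nat_lit 5) (nat_lit 724) (nat_lit 5) (nat_lit 736) (nat_lit 5) (nat_lit 538) (nat_lit 529) (nat_lit 493))) (XT.nd (nat_lit 78) (nat_lit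 0) (nat_lit 76) (XT.lf (nat_lit 76) (nat_lit 707987307) (nat_lit 0) (nat_lit 1106412951) (nat_lit 988) (nat_lit 5015737897) (nat_lit 713) (nat_lit 5) (nat_lit 712) (nat_lit 5) (nat_lit 725) (nat_lit 5) (nat_lit 539) (nat_lit 529) (nat_lit 492)) (XT.lf (nat_lit 0) (nat_lit 4064073031) (nat_lit 912) (nat_lit 2406840174) (nat_lit 988) (nat_lit 389581238) (nat_lit 713) (nat_lit 5) (nat_lit 725) (nat_lit 5) (nat_lit 726) (nat_lit 5) (nat_lit 540) (nat_lit 529) (nat_lit 491))))) (XT.nd (nat_lit 312) (nat_lit 2052) (nat_lit 0) (XT.nd (nat_lit 156) (nat_lit 0) (nat_lit 0) (XT.nd (nat_lit 78) (nat_lit 988) (nat_lit 0) (XT.lf (nat_lit 76) (nat_lit 1359523647) (nat_lit 0) (nat_lit 4961750335) (nat_lit 988) (nat_lit 570935491) (nat_lit 714) (nat_lit 5) (nat_lit 713) (nat_lit 5) (nat_lit 726) (nat_lit 5) (nat_lit 541) (nat_lit 529) (nat_lit 490)) (XT.lf (nat_lit 0) (nat_lit 1639897175) (nat_lit 988) (nat_lit 1735776609) (nat_lit 1064) (nat_lit 3549404202) (nat_lit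 700) (nat_lit 5) (nat_lit 713) (nat_lit 5) (nat_lit 714) (nat_lit 5) (nat_lit 542) (nat_lit 529) (nat_lit 489))) (XT.nd (nat_lit 78) (nat_lit 0) (nat_lit 0) (XT.lf (nat_lit 76) (nat_lit 2127622803) (nat_lit 0) (nat_lit 1721404246) (nat_lit 1064) (nat_lit 3110269013) (nat_lit 701) (nat_lit 5) (nat_lit 700) (nat_lit 5) (nat_lit 714) (nat_lit 5) (nat_lit 543) (nat_lit 529) (nat_lit 488)) (XT.lf (nat_lit 76) (nat_lit 6058468859) (nat_lit 0) (nat_lit 4227884) (nat_lit 1064) (nat_lit 932296748) (nat_lit 701) (nat_lit 5) (nat_lit 700) (nat_lit 5) (nat_lit 714) (nat_lit 5) (nat_lit 544) (nat_lit 529) (nat_lit 487)))) (XT.nd (nat_lit 156) (nat_lit 1064) (nat_lit 0) (XT.nd (nat_lit 78) (nat_lit 0) (nat_lit 0) (XT.lf (nat_lit 0) (nat_lit 1253051303) (nat_lit 1064) (nat_lit 4008915923) (nat_lit 1140) (nat_lit 1769657786) (nat_lit 687) (nat_lit 5) (nat_lit 701) (nat_lit 5) (nat_lit 702) (nat_lit 5) (nat_lit 545) (nat_lit 529) (nat_lit 486)) (XT.lf (nat_lit 0) (nat_lit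 3426254273) (nat_lit 1064) (nat_lit 35543703) (nat_lit 1140) (nat_lit 3607937321) (nat_lit 687) (nat_lit 5) (nat_lit 701) (nat_lit 5) (nat_lit 702) (nat_lit 5) (nat_lit 546) (nat_lit 529) (nat_lit 485))) (XT.nd (nat_lit 78) (nat_lit 1064) (nat_lit 0) (XT.lf (nat_lit 76) (nat_lit 4036650309) (nat_lit 0) (nat_lit 1583720339) (nat_lit 1140) (nat_lit 1488690125) (nat_lit 688) (nat_lit 5) (nat_lit 687) (nat_lit 5) (nat_lit 702) (nat_lit 5) (nat_lit 547) (nat_lit 529) (nat_lit 484)) (XT.lf (nat_lit 0) (nat_lit 660718135) (nat_lit 1140) (nat_lit 6135921816) (nat_lit 76) (nat_lit 353226157) (nat_lit 673) (nat_lit 5) (nat_lit 688) (nat_lit 5) (nat_lit 674) (nat_lit 5) (nat_lit 548) (nat_lit 529) (nat_lit 483))))))))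
noncomputable def xc85 : XT := (XT.nd (nat_lit 2418) (nat_lit 12312) (nat_lit 0) (XT.nd (nat_lit 1170) (nat_lit 10032) (nat_lit 0) (XT.nd (nat_lit 546) (nat_lit 8132) (nat_lit 0) (XT.nd (nat_lit 234) (nat_lit 4028) (nat_lit 0) (XT.nd (nat_lit 78) (nat_lit 1140) (nat_lit 0) (XT.lf (nat_lit 0) (nat_lit 2816920355) (nat_lit 1140) (nat_lit 2022715825) (nat_lit 76) (nat_lit 2351981637) (nat_lit 673) (nat_lit 5) (nat_lit 688) (nat_lit 5) (nat_lit 674) (nat_lit 5) (nat_lit 549) (nat_lit 529) (nat_lit 482)) (XT.nd (nat_lit 78) (nat_lit 0) (nat_lit 0) (XT.lf (nat_lit 0) (nat_lit 2167027718) (nat_lit 1140) (nat_lit 2816698952) (nat_lit 1216) (nat_lit 2251130111) (nat_lit 658) (nat_lit 5) (nat_lit 673) (nat_lit 5) (nat_lit 674) (nat_lit 5) (nat_lit 550) (nat_lit 529) (nat_lit 481)) (XT.lf (nat_lit 0) (nat_lit 6434061709) (nat_lit 1140) (nat_lit 727484435) (nat_lit 1216) (nat_lit 118062627) (nat_lit 658) (nat_lit 5) (nat_lit 673) (nat_lit 5) (nat_lit 674) (nat_lit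 5) (nat_lit 551) (nat_lit 529) (nat_lit 480)))) (XT.nd (nat_lit 156) (nat_lit 1444) (nat_lit 0) (XT.nd (nat_lit 78) (nat_lit 1292) (nat_lit 0) (XT.lf (nat_lit 0) (nat_lit 2017267567) (nat_lit 1292) (nat_lit 3875541879) (nat_lit 76) (nat_lit 1432449117) (nat_lit 641) (nat_lit 5) (nat_lit 658) (nat_lit 5) (nat_lit 642) (nat_lit 5) (nat_lit 552) (nat_lit 529) (nat_lit 479)) (XT.lf (nat_lit 0) (nat_lit 436117809) (nat_lit 1292) (nat_lit 3726413015) (nat_lit 1368) (nat_lit 3209900456) (nat_lit 624) (nat_lit 5) (nat_lit 641) (nat_lit 5) (nat_lit 642) (nat_lit 5) (nat_lit 553) (nat_lit 529) (nat_lit 478))) (XT.nd (nat_lit 78) (nat_lit 1444) (nat_lit 0) (XT.lf (nat_lit 0) (nat_lit 4852168164) (nat_lit 1292) (nat_lit 1480633398) (nat_lit 1368) (nat_lit 1088105495) (nat_lit 624) (nat_lit 5) (nat_lit 641) (nat_lit 5) (nat_lit 642) (nat_lit 5) (nat_lit 554) (nat_lit 529) (nat_lit 477)) (XT.lf (nat_lit 0) (nat_lit 1036263803) (nat_lit 1444) (nat_lit 5606844550) (nat_lit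 76) (nat_lit 827620805) (nat_lit 605) (nat_lit 5) (nat_lit 624) (nat_lit 5) (nat_lit 606) (nat_lit 5) (nat_lit 555) (nat_lit 529) (nat_lit 476))))) (XT.nd (nat_lit 312) (nat_lit 5092) (nat_lit 0) (XT.nd (nat_lit 156) (nat_lit 1596) (nat_lit 0) (XT.nd (nat_lit 78) (nat_lit 1444) (nat_lit 0) (XT.lf (nat_lit 0) (nat_lit 3173075811) (nat_lit 1444) (nat_lit 1153314218) (nat_lit 76) (nat_lit 3195324879) (nat_lit 605) (nat_lit 5) (nat_lit 624) (nat_lit 5) (nat_lit 606) (nat_lit 5) (nat_lit 556) (nat_lit 529) (nat_lit 475)) (XT.lf (nat_lit 0) (nat_lit 3399592486) (nat_lit 1444) (nat_lit 1933294345) (nat_lit 1520) (nat_lit 2241229812) (nat_lit 586) (nat_lit 5) (nat_lit 605) (nat_lit 5) (nat_lit 606) (nat_lit 5) (nat_lit 557) (nat_lit 529) (nat_lit 474))) (XT.nd (nat_lit 78) (nat_lit 76) (nat_lit 0) (XT.lf (nat_lit 0) (nat_lit 398734160) (nat_lit 1520) (nat_lit 7109670957) (nat_lit 1596) (nat_lit 119712568) (nat_lit 566) (nat_lit 5) (nat_lit 586) (nat_lit 5) (nat_lit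 587) (nat_lit 5) (nat_lit 558) (nat_lit 529) (nat_lit 473)) (XT.lf (nat_lit 0) (nat_lit 2017573732) (nat_lit 1596) (nat_lit 2624097100) (nat_lit 76) (nat_lit 3041260919) (nat_lit 565) (nat_lit 5) (nat_lit 586) (nat_lit 5) (nat_lit 566) (nat_lit 5) (nat_lit 559) (nat_lit 529) (nat_lit 472)))) (XT.nd (nat_lit 156) (nat_lit 3496) (nat_lit 0) (XT.nd (nat_lit 78) (nat_lit 0) (nat_lit 0) (XT.lf (nat_lit 0) (nat_lit 2065034860) (nat_lit 1596) (nat_lit 2104325234) (nat_lit 1672) (nat_lit 3570000442) (nat_lit 544) (nat_lit 5) (nat_lit 565) (nat_lit 5) (nat_lit 566) (nat_lit 5) (nat_lit 560) (nat_lit 529) (nat_lit 471)) (XT.lf (nat_lit 0) (nat_lit 6345593043) (nat_lit 1672) (nat_lit 951451580) (nat_lit 76) (nat_lit 500246437) (nat_lit 544) (nat_lit 5) (nat_lit 566) (nat_lit 5) (nat_lit 545) (nat_lit 5) (nat_lit 561) (nat_lit 529) (nat_lit 470))) (XT.nd (nat_lit 78) (nat_lit 1748) (nat_lit 0) (XT.lf (nat_lit 0) (nat_lit 700042123) (nat_lit 1748) (nat_lit 3992762195)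 (nat_lit 76) (nat_lit 3163477742) (nat_lit 521) (nat_lit 5) (nat_lit 544) (nat_lit 5) (nat_lit 522) (nat_lit 5) (nat_lit 562) (nat_lit 529) (nat_lit 469)) (XT.lf (nat_lit 0) (nat_lit 837952620) (nat_lit 1748) (nat_lit 2010912106) (nat_lit 1824) (nat_lit 5067927825) (nat_lit 498) (nat_lit 5) (nat_lit 521) (nat_lit 5) (nat_lit 522) (nat_lit 5) (nat_lit 563) (nat_lit 529) (nat_lit 468)))))) (XT.nd (nat_lit 624) (nat_lit 4256) (nat_lit 0) (XT.nd (nat_lit 312) (nat_lit 2736) (nat_lit 0) (XT.nd (nat_lit 156) (nat_lit 1216) (nat_lit 0) (XT.nd (nat_lit 78) (nat_lit 1824) (nat_lit 0) (XT.lf (nat_lit 0) (nat_lit 5034490245) (nat_lit 1824) (nat_lit 2198750585) (nat_lit 76) (nat_lit 745397168) (nat_lit 498) (nat_lit 5) (nat_lit 522) (nat_lit 5) (nat_lit 499) (nat_lit 5) (nat_lit 564) (nat_lit 529) (nat_lit 467)) (XT.lf (nat_lit 0) (nat_lit 2767313397) (nat_lit 1824) (nat_lit 4490692337) (nat_lit 1900) (nat_lit 783832320) (nat_lit 474) (nat_lit 5) (nat_lit 498) (nat_lit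 5) (nat_lit 499) (nat_lit 5) (nat_lit 565) (nat_lit 529) (nat_lit 466))) (XT.nd (nat_lit 78) (nat_lit 1140) (nat_lit 0) (XT.lf (nat_lit 0) (nat_lit 1379076140) (nat_lit 1900) (nat_lit 287685873) (nat_lit 76) (nat_lit 6439796827) (nat_lit 473) (nat_lit 5) (nat_lit 498) (nat_lit 5) (nat_lit 474) (nat_lit 5) (nat_lit 566) (nat_lit 529) (nat_lit 465)) (XT.lf (nat_lit 0) (nat_lit 3578080004) (nat_lit 1216) (nat_lit 3357934786) (nat_lit 76) (nat_lit 1236390152) (nat_lit 458) (nat_lit 5) (nat_lit 474) (nat_lit 5) (nat_lit 459) (nat_lit 5) (nat_lit 567) (nat_lit 529) (nat_lit 464)))) (XT.nd (nat_lit 156) (nat_lit 1824) (nat_lit 0) (XT.nd (nat_lit 78) (nat_lit 0) (nat_lit 0) (XT.lf (nat_lit 0) (nat_lit 1760393447) (nat_lit 912) (nat_lit 4049456520) (nat_lit 988) (nat_lit 2429943435) (nat_lit 446) (nat_lit 5) (nat_lit 458) (nat_lit 5) (nat_lit 459) (nat_lit 5) (nat_lit 568) (nat_lit 529) (nat_lit 463)) (XT.lf (nat_lit 0) (nat_lit 6992151022) (nat_lit 912) (nat_lit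 1081487557) (nat_lit 988) (nat_lit 235144520) (nat_lit 446) (nat_lit 5) (nat_lit 458) (nat_lit 5) (nat_lit 459) (nat_lit 5) (nat_lit 569) (nat_lit 529) (nat_lit 462))) (XT.nd (nat_lit 78) (nat_lit 836) (nat_lit 0) (XT.lf (nat_lit 0) (nat_lit 1981147841) (nat_lit 988) (nat_lit 4437967896) (nat_lit 76) (nat_lit 1959700287) (nat_lit 433) (nat_lit 5) (nat_lit 446) (nat_lit 5) (nat_lit 434) (nat_lit 5) (nat_lit 570) (nat_lit 529) (nat_lit 461)) (XT.lf (nat_lit 0) (nat_lit 838771802) (nat_lit 836) (nat_lit 3387120833) (nat_lit 912) (nat_lit 4224581450) (nat_lit 422) (nat_lit 5) (nat_lit 433) (nat_lit 5) (nat_lit 434) (nat_lit 5) (nat_lit 571) (nat_lit 529) (nat_lit 460))))) (XT.nd (nat_lit 312) (nat_lit 2432) (nat_lit 0) (XT.nd (nat_lit 156) (nat_lit 836) (nat_lit 0) (XT.nd (nat_lit 78) (nat_lit 988) (nat_lit 0) (XT.lf (nat_lit 0) (nat_lit 6246729184) (nat_lit 836) (nat_lit 264801964) (nat_lit 912) (nat_lit 2012115230) (nat_lit 422) (nat_lit 5) (nat_lit 433)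 (nat_lit 5) (nat_lit 434) (nat_lit 5) (nat_lit 572) (nat_lit 529) (nat_lit 459)) (XT.lf (nat_lit 0) (nat_lit 247735183) (nat_lit 988) (nat_lit 5447294140) (nat_lit 76) (nat_lit 2903095181) (nat_lit 409) (nat_lit 5) (nat_lit 422) (nat_lit 5) (nat_lit 410) (nat_lit 5) (nat_lit 573) (nat_lit 529) (nat_lit 458))) (XT.nd (nat_lit 78) (nat_lit 836) (nat_lit 0) (XT.lf (nat_lit 0) (nat_lit 2510085148) (nat_lit 988) (nat_lit 5639303) (nat_lit 76) (nat_lit 6158417830) (nat_lit 409) (nat_lit 5) (nat_lit 422) (nat_lit 5) (nat_lit 410) (nat_lit 5) (nat_lit 574) (nat_lit 529) (nat_lit 457)) (XT.lf (nat_lit 0) (nat_lit 4826618750) (nat_lit 912) (nat_lit 3172456669) (nat_lit 76) (nat_lit 752427230) (nat_lit 398) (nat_lit 5) (nat_lit 410) (nat_lit 5) (nat_lit 399) (nat_lit 5) (nat_lit 575) (nat_lit 529) (nat_lit 456)))) (XT.nd (nat_lit 156) (nat_lit 1520) (nat_lit 0) (XT.nd (nat_lit 78) (nat_lit 76) (nat_lit 0) (XT.lf (nat_lit 0) (nat_lit 2425854873) (nat_lit 836) (nat_lit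 4764208831) (nat_lit 912) (nat_lit 1640335854) (nat_lit 387) (nat_lit 5) (nat_lit 398) (nat_lit 5) (nat_lit 399) (nat_lit 5) (nat_lit 576) (nat_lit 529) (nat_lit 455)) (XT.lf (nat_lit 0) (nat_lit 670610430) (nat_lit 912) (nat_lit 770520294) (nat_lit 76) (nat_lit 7469859898) (nat_lit 386) (nat_lit 5) (nat_lit 398) (nat_lit 5) (nat_lit 387) (nat_lit 5) (nat_lit 577) (nat_lit 529) (nat_lit 454))) (XT.nd (nat_lit 78) (nat_lit 760) (nat_lit 0) (XT.lf (nat_lit 0) (nat_lit 3020140905) (nat_lit 836) (nat_lit 4008919962) (nat_lit 76) (nat_lit 1963630093) (nat_lit 376) (nat_lit 5) (nat_lit 387) (nat_lit 5) (nat_lit 377) (nat_lit 5) (nat_lit 578) (nat_lit 529) (nat_lit 453)) (XT.lf (nat_lit 0) (nat_lit 1766986279) (nat_lit 760) (nat_lit 3645214165) (nat_lit 836) (nat_lit 3663914967) (nat_lit 366) (nat_lit 5) (nat_lit 376) (nat_lit 5) (nat_lit 377) (nat_lit 5) (nat_lit 579) (nat_lit 529) (nat_lit 452))))))) (XT.nd (nat_lit 1170) (nat_lit 5928) (nat_lit 0) (XT.nd (nat_lit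 546) (nat_lit 3344) (nat_lit 0) (XT.nd (nat_lit 234) (nat_lit 1444) (nat_lit 0) (XT.nd (nat_lit 78) (nat_lit 1596) (nat_lit 0) (XT.lf (nat_lit 0) (nat_lit 7678697404) (nat_lit 760) (nat_lit 170003502) (nat_lit 836) (nat_lit 1312576309) (nat_lit 366) (nat_lit 5) (nat_lit 376) (nat_lit 5) (nat_lit 377) (nat_lit 5) (nat_lit 580) (nat_lit 529) (nat_lit 451)) (XT.nd (nat_lit 78) (nat_lit 760) (nat_lit 0) (XT.lf (nat_lit 0) (nat_lit 1092844824) (nat_lit 836) (nat_lit 4791743447) (nat_lit 76) (nat_lit 3362987897) (nat_lit 355) (nat_lit 5) (nat_lit 366) (nat_lit 5) (nat_lit 356) (nat_lit 5) (nat_lit 581) (nat_lit 529) (nat_lit 450)) (XT.lf (nat_lit 0) (nat_lit 1169026996) (nat_lit 760) (nat_lit 2348955830) (nat_lit 836) (nat_lit 5817661883) (nat_lit 345) (nat_lit 5) (nat_lit 355) (nat_lit 5) (nat_lit 356) (nat_lit 5) (nat_lit 582) (nat_lit 529) (nat_lit 449)))) (XT.nd (nat_lit 156) (nat_lit 760) (nat_lit 0) (XT.nd (nat_lit 78) (nat_lit 684) (nat_lit 0) (XT.lf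 (nat_lit 0) (nat_lit 6002921174) (nat_lit 836) (nat_lit 2153700748) (nat_lit 76) (nat_lit 1268627542) (nat_lit 345) (nat_lit 5) (nat_lit 356) (nat_lit 5) (nat_lit 346) (nat_lit 5) (nat_lit 583) (nat_lit 529) (nat_lit 448)) (XT.lf (nat_lit 0) (nat_lit 3982364983) (nat_lit 684) (nat_lit 4567944390) (nat_lit 760) (nat_lit 966082695) (nat_lit 336) (nat_lit 5) (nat_lit 345) (nat_lit 5) (nat_lit 346) (nat_lit 5) (nat_lit 584) (nat_lit 529) (nat_lit 447))) (XT.nd (nat_lit 78) (nat_lit 0) (nat_lit 0) (XT.lf (nat_lit 0) (nat_lit 625450318) (nat_lit 684) (nat_lit 883753204) (nat_lit 760) (nat_lit 8100152794) (nat_lit 326) (nat_lit 5) (nat_lit 335) (nat_lit 5) (nat_lit 336) (nat_lit 5) (nat_lit 585) (nat_lit 529) (nat_lit 446)) (XT.lf (nat_lit 0) (nat_lit 4048913285) (nat_lit 760) (nat_lit 2779854219) (nat_lit 76) (nat_lit 2874728288) (nat_lit 326) (nat_lit 5) (nat_lit 336) (nat_lit 5) (nat_lit 327) (nat_lit 5) (nat_lit 586) (nat_lit 529) (nat_lit 445))))) (XT.nd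 (nat_lit 312) (nat_lit 1292) (nat_lit 0) (XT.nd (nat_lit 156) (nat_lit 684) (nat_lit 0) (XT.nd (nat_lit 78) (nat_lit 684) (nat_lit 0) (XT.lf (nat_lit 0) (nat_lit 3555483178) (nat_lit 684) (nat_lit 3085222957) (nat_lit 760) (nat_lit 3158786864) (nat_lit 317) (nat_lit 5) (nat_lit 326) (nat_lit 5) (nat_lit 327) (nat_lit 5) (nat_lit 587) (nat_lit 529) (nat_lit 444)) (XT.lf (nat_lit 0) (nat_lit 121014451) (nat_lit 684) (nat_lit 9160282386) (nat_lit 760) (nat_lit 616174777) (nat_lit 308) (nat_lit 5) (nat_lit 317) (nat_lit 5) (nat_lit 318) (nat_lit 5) (nat_lit 588) (nat_lit 529) (nat_lit 443))) (XT.nd (nat_lit 78) (nat_lit 608) (nat_lit 0) (XT.lf (nat_lit 0) (nat_lit 1986743485) (nat_lit 760) (nat_lit 3366141063) (nat_lit 76) (nat_lit 4643561444) (nat_lit 307) (nat_lit 5) (nat_lit 317) (nat_lit 5) (nat_lit 308) (nat_lit 5) (nat_lit 589) (nat_lit 529) (nat_lit 442)) (XT.lf (nat_lit 0) (nat_lit 3176629091) (nat_lit 608) (nat_lit 1450783154) (nat_lit 684) (nat_lit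 5470027964) (nat_lit 299) (nat_lit 5) (nat_lit 307) (nat_lit 5) (nat_lit 308) (nat_lit 5) (nat_lit 590) (nat_lit 529) (nat_lit 441)))) (XT.nd (nat_lit 156) (nat_lit 684) (nat_lit 0) (XT.nd (nat_lit 78) (nat_lit 608) (nat_lit 0) (XT.lf (nat_lit 0) (nat_lit 7333629670) (nat_lit 684) (nat_lit 354289805) (nat_lit 76) (nat_lit 2512280780) (nat_lit 299) (nat_lit 5) (nat_lit 308) (nat_lit 5) (nat_lit 300) (nat_lit 5) (nat_lit 591) (nat_lit 529) (nat_lit 440)) (XT.lf (nat_lit 0) (nat_lit 6384751093) (nat_lit 608) (nat_lit 3734375195) (nat_lit 684) (nat_lit 185386756) (nat_lit 291) (nat_lit 5) (nat_lit 299) (nat_lit 5) (nat_lit 300) (nat_lit 5) (nat_lit 592) (nat_lit 529) (nat_lit 439))) (XT.nd (nat_lit 78) (nat_lit 0) (nat_lit 0) (XT.lf (nat_lit 0) (nat_lit 2513172747) (nat_lit 684) (nat_lit 7572692743) (nat_lit 76) (nat_lit 324772399) (nat_lit 282) (nat_lit 5) (nat_lit 291) (nat_lit 5) (nat_lit 283) (nat_lit 5) (nat_lit 593) (nat_lit 529) (nat_lit 438)) (XT.lf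 (nat_lit 0) (nat_lit 5288894981) (nat_lit 684) (nat_lit 793864003) (nat_lit 76) (nat_lit 4435588862) (nat_lit 282) (nat_lit 5) (nat_lit 291) (nat_lit 5) (nat_lit 283) (nat_lit 5) (nat_lit 594) (nat_lit 529) (nat_lit 437)))))) (XT.nd (nat_lit 624) (nat_lit 2508) (nat_lit 0) (XT.nd (nat_lit 312) (nat_lit 1596) (nat_lit 0) (XT.nd (nat_lit 156) (nat_lit 608) (nat_lit 0) (XT.nd (nat_lit 78) (nat_lit 608) (nat_lit 0) (XT.lf (nat_lit 0) (nat_lit 6168787485) (nat_lit 608) (nat_lit 1966359487) (nat_lit 684) (nat_lit 2492765314) (nat_lit 274) (nat_lit 5) (nat_lit 282) (nat_lit 5) (nat_lit 283) (nat_lit 5) (nat_lit 595) (nat_lit 529) (nat_lit 436)) (XT.lf (nat_lit 0) (nat_lit 306275745) (nat_lit 608) (nat_lit 8213831347) (nat_lit 76) (nat_lit 2219291973) (nat_lit 266) (nat_lit 5) (nat_lit 274) (nat_lit 5) (nat_lit 267) (nat_lit 5) (nat_lit 596) (nat_lit 529) (nat_lit 435))) (XT.nd (nat_lit 78) (nat_lit 608) (nat_lit 0) (XT.lf (nat_lit 0) (nat_lit 3146399235) (nat_lit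 608) (nat_lit 1204849087) (nat_lit 76) (nat_lit 6501168676) (nat_lit 266) (nat_lit 5) (nat_lit 274) (nat_lit 5) (nat_lit 267) (nat_lit 5) (nat_lit 597) (nat_lit 529) (nat_lit 434)) (XT.lf (nat_lit 0) (nat_lit 5990524850) (nat_lit 608) (nat_lit 67484067) (nat_lit 684) (nat_lit 4909393243) (nat_lit 258) (nat_lit 5) (nat_lit 266) (nat_lit 5) (nat_lit 267) (nat_lit 5) (nat_lit 598) (nat_lit 529) (nat_lit 433)))) (XT.nd (nat_lit 156) (nat_lit 988) (nat_lit 0) (XT.nd (nat_lit 78) (nat_lit 76) (nat_lit 0) (XT.lf (nat_lit 0) (nat_lit 2230311104) (nat_lit 532) (nat_lit 6824092284) (nat_lit 608) (nat_lit 2029753118) (nat_lit 251) (nat_lit 5) (nat_lit 258) (nat_lit 5) (nat_lit 259) (nat_lit 5) (nat_lit 599) (nat_lit 529) (nat_lit 432)) (XT.lf (nat_lit 0) (nat_lit 905748443) (nat_lit 608) (nat_lit 1592703800) (nat_lit 76) (nat_lit 8704472963) (nat_lit 250) (nat_lit 5) (nat_lit 258) (nat_lit 5) (nat_lit 251) (nat_lit 5) (nat_lit 600) (nat_lit 529) (nat_lit 431))) (XT.nd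 (nat_lit 78) (nat_lit 456) (nat_lit 0) (XT.lf (nat_lit 0) (nat_lit 3900038502) (nat_lit 608) (nat_lit 5491376553) (nat_lit 76) (nat_lit 1931841257) (nat_lit 243) (nat_lit 5) (nat_lit 251) (nat_lit 5) (nat_lit 244) (nat_lit 5) (nat_lit 601) (nat_lit 529) (nat_lit 430)) (XT.lf (nat_lit 0) (nat_lit 1957593191) (nat_lit 456) (nat_lit 5013405844) (nat_lit 532) (nat_lit 4474659804) (nat_lit 237) (nat_lit 5) (nat_lit 243) (nat_lit 5) (nat_lit 244) (nat_lit 5) (nat_lit 602) (nat_lit 529) (nat_lit 429))))) (XT.nd (nat_lit 312) (nat_lit 1444) (nat_lit 0) (XT.nd (nat_lit 156) (nat_lit 456) (nat_lit 0) (XT.nd (nat_lit 78) (nat_lit 608) (nat_lit 0) (XT.lf (nat_lit 0) (nat_lit 9597963013) (nat_lit 456) (nat_lit 519283390) (nat_lit 532) (nat_lit 1452986146) (nat_lit 237) (nat_lit 5) (nat_lit 243) (nat_lit 5) (nat_lit 244) (nat_lit 5) (nat_lit 603) (nat_lit 529) (nat_lit 428)) (XT.lf (nat_lit 0) (nat_lit 1648903389) (nat_lit 608) (nat_lit 5996764183) (nat_lit 76) (nat_lit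 4050596107) (nat_lit 229) (nat_lit 5) (nat_lit 237) (nat_lit 5) (nat_lit 230) (nat_lit 5) (nat_lit 604) (nat_lit 529) (nat_lit 427))) (XT.nd (nat_lit 78) (nat_lit 0) (nat_lit 0) (XT.lf (nat_lit 0) (nat_lit 1704217312) (nat_lit 456) (nat_lit 3094502772) (nat_lit 532) (nat_lit 7025796820) (nat_lit 223) (nat_lit 5) (nat_lit 229) (nat_lit 5) (nat_lit 230) (nat_lit 5) (nat_lit 605) (nat_lit 529) (nat_lit 426)) (XT.lf (nat_lit 0) (nat_lit 8039764412) (nat_lit 532) (nat_lit 2356386909) (nat_lit 76) (nat_lit 1558619695) (nat_lit 223) (nat_lit 5) (nat_lit 230) (nat_lit 5) (nat_lit 224) (nat_lit 5) (nat_lit 606) (nat_lit 529) (nat_lit 425)))) (XT.nd (nat_lit 156) (nat_lit 456) (nat_lit 0) (XT.nd (nat_lit 78) (nat_lit 532) (nat_lit 0) (XT.lf (nat_lit 0) (nat_lit 5584128264) (nat_lit 456) (nat_lit 5796363125) (nat_lit 532) (nat_lit 706442022) (nat_lit 217) (nat_lit 5) (nat_lit 223) (nat_lit 5) (nat_lit 224) (nat_lit 5) (nat_lit 607) (nat_lit 529) (nat_lit 424)) (XT.lf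 (nat_lit 0) (nat_lit 1464915506) (nat_lit 456) (nat_lit 1071344602) (nat_lit 532) (nat_lit 9685073653) (nat_lit 210) (nat_lit 5) (nat_lit 216) (nat_lit 5) (nat_lit 217) (nat_lit 5) (nat_lit 608) (nat_lit 529) (nat_lit 423))) (XT.nd (nat_lit 78) (nat_lit 456) (nat_lit 0) (XT.lf (nat_lit 0) (nat_lit 5880984158) (nat_lit 532) (nat_lit 2738379008) (nat_lit 76) (nat_lit 3738033431) (nat_lit 210) (nat_lit 5) (nat_lit 217) (nat_lit 5) (nat_lit 211) (nat_lit 5) (nat_lit 609) (nat_lit 529) (nat_lit 422)) (XT.lf (nat_lit 0) (nat_lit 5473670676) (nat_lit 456) (nat_lit 3840346518) (nat_lit 532) (nat_lit 3181735611) (nat_lit 204) (nat_lit 5) (nat_lit 210) (nat_lit 5) (nat_lit 211) (nat_lit 5) (nat_lit 610) (nat_lit 529) (nat_lit 421))))))))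
noncomputable def xc86 : XT := (XT.nd (nat_lit 2418) (nat_lit 608) (nat_lit 0) (XT.nd (nat_lit 1170) (nat_lit 3420) (nat_lit 0) (XT.nd (nat_lit 546) (nat_lit 1976) (nat_lit 0) (XT.nd (nat_lit 234) (nat_lit 1216) (nat_lit 0) (XT.nd (nat_lit 78) (nat_lit 456) (nat_lit 0) (XT.lf (nat_lit 0) (nat_lit 188691909) (nat_lit 456) (nat_lit 11409221904) (nat_lit 76) (nat_lit 1038695436) (nat_lit 198) (nat_lit 5) (nat_lit 204) (nat_lit 5) (nat_lit 199) (nat_lit 5) (nat_lit 611) (nat_lit 529) (nat_lit 420)) (XT.nd (nat_lit 78) (nat_lit 456) (nat_lit 0) (XT.lf (nat_lit 0) (nat_lit 3635837207) (nat_lit 456) (nat_lit 3120393963) (nat_lit 76) (nat_lit 6022593156) (nat_lit 198) (nat_lit 5) (nat_lit 204) (nat_lit 5) (nat_lit 199) (nat_lit 5) (nat_lit 612) (nat_lit 529) (nat_lit 419)) (XT.lf (nat_lit 0) (nat_lit 5374035073) (nat_lit 456) (nat_lit 1792199934) (nat_lit 532) (nat_lit 5757362879) (nat_lit 192) (nat_lit 5) (nat_lit 198) (nat_lit 5) (nat_lit 199) (nat_lit 5) (nat_lit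 613) (nat_lit 529) (nat_lit 418)))) (XT.nd (nat_lit 156) (nat_lit 760) (nat_lit 0) (XT.nd (nat_lit 78) (nat_lit 76) (nat_lit 0) (XT.lf (nat_lit 0) (nat_lit 970354127) (nat_lit 380) (nat_lit 9825061400) (nat_lit 456) (nat_lit 2275288261) (nat_lit 187) (nat_lit 5) (nat_lit 192) (nat_lit 5) (nat_lit 193) (nat_lit 5) (nat_lit 614) (nat_lit 529) (nat_lit 417)) (XT.lf (nat_lit 0) (nat_lit 1302179167) (nat_lit 456) (nat_lit 3508090817) (nat_lit 76) (nat_lit 8409466590) (nat_lit 186) (nat_lit 5) (nat_lit 192) (nat_lit 5) (nat_lit 187) (nat_lit 5) (nat_lit 615) (nat_lit 529) (nat_lit 416))) (XT.nd (nat_lit 78) (nat_lit 380) (nat_lit 0) (XT.lf (nat_lit 0) (nat_lit 4937303704) (nat_lit 456) (nat_lit 8093470602) (nat_lit 76) (nat_lit 340343785) (nat_lit 181) (nat_lit 5) (nat_lit 187) (nat_lit 5) (nat_lit 182) (nat_lit 5) (nat_lit 616) (nat_lit 529) (nat_lit 415)) (XT.lf (nat_lit 0) (nat_lit 708486184) (nat_lit 380) (nat_lit 7976952817) (nat_lit 456) (nat_lit 4839282412)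 (nat_lit 176) (nat_lit 5) (nat_lit 181) (nat_lit 5) (nat_lit 182) (nat_lit 5) (nat_lit 617) (nat_lit 529) (nat_lit 414))))) (XT.nd (nat_lit 312) (nat_lit 1140) (nat_lit 0) (XT.nd (nat_lit 156) (nat_lit 380) (nat_lit 0) (XT.nd (nat_lit 78) (nat_lit 456) (nat_lit 0) (XT.lf (nat_lit 0) (nat_lit 9766000184) (nat_lit 380) (nat_lit 2777196537) (nat_lit 456) (nat_lit 1137507216) (nat_lit 176) (nat_lit 5) (nat_lit 181) (nat_lit 5) (nat_lit 182) (nat_lit 5) (nat_lit 618) (nat_lit 529) (nat_lit 413)) (XT.lf (nat_lit 0) (nat_lit 2634650112) (nat_lit 456) (nat_lit 8669965452) (nat_lit 76) (nat_lit 2534229305) (nat_lit 170) (nat_lit 5) (nat_lit 176) (nat_lit 5) (nat_lit 171) (nat_lit 5) (nat_lit 619) (nat_lit 529) (nat_lit 412))) (XT.nd (nat_lit 78) (nat_lit 0) (nat_lit 0) (XT.lf (nat_lit 0) (nat_lit 437233838) (nat_lit 380) (nat_lit 6058199817) (nat_lit 456) (nat_lit 7503996615) (nat_lit 165) (nat_lit 5) (nat_lit 170) (nat_lit 5) (nat_lit 171) (nat_lit 5) (nat_lit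 620) (nat_lit 529) (nat_lit 411)) (XT.lf (nat_lit 0) (nat_lit 9814320731) (nat_lit 380) (nat_lit 658202262) (nat_lit 456) (nat_lit 3689922889) (nat_lit 165) (nat_lit 5) (nat_lit 170) (nat_lit 5) (nat_lit 171) (nat_lit 5) (nat_lit 621) (nat_lit 529) (nat_lit 410)))) (XT.nd (nat_lit 156) (nat_lit 380) (nat_lit 0) (XT.nd (nat_lit 78) (nat_lit 304) (nat_lit 0) (XT.lf (nat_lit 0) (nat_lit 243633193) (nat_lit 456) (nat_lit 9273873282) (nat_lit 76) (nat_lit 4810273006) (nat_lit 159) (nat_lit 5) (nat_lit 165) (nat_lit 5) (nat_lit 160) (nat_lit 5) (nat_lit 622) (nat_lit 529) (nat_lit 409)) (XT.lf (nat_lit 0) (nat_lit 150509379) (nat_lit 304) (nat_lit 4071967608) (nat_lit 380) (nat_lit 10273134756) (nat_lit 155) (nat_lit 5) (nat_lit 159) (nat_lit 5) (nat_lit 160) (nat_lit 5) (nat_lit 623) (nat_lit 529) (nat_lit 408))) (XT.nd (nat_lit 78) (nat_lit 380) (nat_lit 0) (XT.lf (nat_lit 0) (nat_lit 8334544889) (nat_lit 380) (nat_lit 4816168370) (nat_lit 76) (nat_lit 1515014727)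 (nat_lit 155) (nat_lit 5) (nat_lit 160) (nat_lit 5) (nat_lit 156) (nat_lit 5) (nat_lit 624) (nat_lit 529) (nat_lit 407)) (XT.lf (nat_lit 0) (nat_lit 4911712815) (nat_lit 380) (nat_lit 7657740524) (nat_lit 456) (nat_lit 2268981510) (nat_lit 150) (nat_lit 5) (nat_lit 155) (nat_lit 5) (nat_lit 156) (nat_lit 5) (nat_lit 625) (nat_lit 529) (nat_lit 406)))))) (XT.nd (nat_lit 624) (nat_lit 1596) (nat_lit 0) (XT.nd (nat_lit 312) (nat_lit 1064) (nat_lit 0) (XT.nd (nat_lit 156) (nat_lit 380) (nat_lit 0) (XT.nd (nat_lit 78) (nat_lit 304) (nat_lit 0) (XT.lf (nat_lit 0) (nat_lit 1864206010) (nat_lit 456) (nat_lit 156031421) (nat_lit 76) (nat_lit 12993828764) (nat_lit 149) (nat_lit 5) (nat_lit 155) (nat_lit 5) (nat_lit 150) (nat_lit 5) (nat_lit 626) (nat_lit 529) (nat_lit 405)) (XT.lf (nat_lit 0) (nat_lit 6120780202) (nat_lit 380) (nat_lit 5320379446) (nat_lit 76) (nat_lit 3750328730) (nat_lit 145) (nat_lit 5) (nat_lit 150) (nat_lit 5) (nat_lit 146) (nat_lit 5) (nat_lit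 627) (nat_lit 529) (nat_lit 404))) (XT.nd (nat_lit 78) (nat_lit 0) (nat_lit 0) (XT.lf (nat_lit 0) (nat_lit 4748704108) (nat_lit 380) (nat_lit 5741292703) (nat_lit 456) (nat_lit 4881912232) (nat_lit 140) (nat_lit 5) (nat_lit 145) (nat_lit 5) (nat_lit 146) (nat_lit 5) (nat_lit 628) (nat_lit 529) (nat_lit 403)) (XT.lf (nat_lit 0) (nat_lit 14965346701) (nat_lit 456) (nat_lit 493395179) (nat_lit 76) (nat_lit 96821514) (nat_lit 140) (nat_lit 5) (nat_lit 146) (nat_lit 5) (nat_lit 141) (nat_lit 5) (nat_lit 629) (nat_lit 529) (nat_lit 402)))) (XT.nd (nat_lit 156) (nat_lit 380) (nat_lit 0) (XT.nd (nat_lit 78) (nat_lit 304) (nat_lit 0) (XT.lf (nat_lit 0) (nat_lit 3823205773) (nat_lit 380) (nat_lit 5863667569) (nat_lit 76) (nat_lit 6053814649) (nat_lit 135) (nat_lit 5) (nat_lit 140) (nat_lit 5) (nat_lit 136) (nat_lit 5) (nat_lit 630) (nat_lit 529) (nat_lit 401)) (XT.lf (nat_lit 0) (nat_lit 4559721991) (nat_lit 304) (nat_lit 3772945602) (nat_lit 380) (nat_lit 7596456221)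 (nat_lit 131) (nat_lit 5) (nat_lit 135) (nat_lit 5) (nat_lit 136) (nat_lit 5) (nat_lit 631) (nat_lit 529) (nat_lit 400))) (XT.nd (nat_lit 78) (nat_lit 380) (nat_lit 0) (XT.lf (nat_lit 0) (nat_lit 12969410630) (nat_lit 380) (nat_lit 892726006) (nat_lit 76) (nat_lit 2258450109) (nat_lit 131) (nat_lit 5) (nat_lit 136) (nat_lit 5) (nat_lit 132) (nat_lit 5) (nat_lit 632) (nat_lit 529) (nat_lit 399)) (XT.lf (nat_lit 0) (nat_lit 1437570857) (nat_lit 380) (nat_lit 6453709330) (nat_lit 76) (nat_lit 8422965390) (nat_lit 126) (nat_lit 5) (nat_lit 131) (nat_lit 5) (nat_lit 127) (nat_lit 5) (nat_lit 633) (nat_lit 529) (nat_lit 398))))) (XT.nd (nat_lit 312) (nat_lit 608) (nat_lit 0) (XT.nd (nat_lit 156) (nat_lit 684) (nat_lit 0) (XT.nd (nat_lit 78) (nat_lit 0) (nat_lit 0) (XT.lf (nat_lit 0) (nat_lit 4337481581) (nat_lit 304) (nat_lit 1755840473) (nat_lit 380) (nat_lit 10417690695) (nat_lit 122) (nat_lit 5) (nat_lit 126) (nat_lit 5) (nat_lit 127) (nat_lit 5) (nat_lit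 634) (nat_lit 529) (nat_lit 397)) (XT.lf (nat_lit 0) (nat_lit 10898285840) (nat_lit 380) (nat_lit 1336273106) (nat_lit 76) (nat_lit 4476034582) (nat_lit 122) (nat_lit 5) (nat_lit 127) (nat_lit 5) (nat_lit 123) (nat_lit 5) (nat_lit 635) (nat_lit 529) (nat_lit 396))) (XT.nd (nat_lit 78) (nat_lit 380) (nat_lit 0) (XT.lf (nat_lit 0) (nat_lit 9807391204) (nat_lit 304) (nat_lit 6050860889) (nat_lit 380) (nat_lit 1054735974) (nat_lit 118) (nat_lit 5) (nat_lit 122) (nat_lit 5) (nat_lit 123) (nat_lit 5) (nat_lit 636) (nat_lit 529) (nat_lit 395)) (XT.lf (nat_lit 0) (nat_lit 3769282977) (nat_lit 380) (nat_lit 13046416079) (nat_lit 76) (nat_lit 302816321) (nat_lit 113) (nat_lit 5) (nat_lit 118) (nat_lit 5) (nat_lit 114) (nat_lit 5) (nat_lit 637) (nat_lit 529) (nat_lit 394)))) (XT.nd (nat_lit 156) (nat_lit 380) (nat_lit 0) (XT.nd (nat_lit 78) (nat_lit 228) (nat_lit 0) (XT.lf (nat_lit 0) (nat_lit 8747452061) (nat_lit 380) (nat_lit 1832352260) (nat_lit 76) (nat_lit 6746773823)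 (nat_lit 113) (nat_lit 5) (nat_lit 118) (nat_lit 5) (nat_lit 114) (nat_lit 5) (nat_lit 638) (nat_lit 529) (nat_lit 393)) (XT.lf (nat_lit 0) (nat_lit 9706384417) (nat_lit 228) (nat_lit 4165849283) (nat_lit 304) (nat_lit 3665627675) (nat_lit 110) (nat_lit 5) (nat_lit 113) (nat_lit 5) (nat_lit 114) (nat_lit 5) (nat_lit 639) (nat_lit 529) (nat_lit 392))) (XT.nd (nat_lit 78) (nat_lit 0) (nat_lit 0) (XT.lf (nat_lit 0) (nat_lit 1365005947) (nat_lit 380) (nat_lit 14007265470) (nat_lit 76) (nat_lit 2380193839) (nat_lit 105) (nat_lit 5) (nat_lit 110) (nat_lit 5) (nat_lit 106) (nat_lit 5) (nat_lit 640) (nat_lit 529) (nat_lit 391)) (XT.lf (nat_lit 0) (nat_lit 6511836066) (nat_lit 380) (nat_lit 2389966460) (nat_lit 76) (nat_lit 9067780942) (nat_lit 105) (nat_lit 5) (nat_lit 110) (nat_lit 5) (nat_lit 106) (nat_lit 5) (nat_lit 641) (nat_lit 529) (nat_lit 390))))))) (XT.nd (nat_lit 73398) (nat_lit 0) (nat_lit 37164) (XT.nd (nat_lit 72774) (nat_lit 0) (nat_lit 45752) (XT.nd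 (nat_lit 72462) (nat_lit 0) (nat_lit 48412) (XT.nd (nat_lit 78) (nat_lit 380) (nat_lit 0) (XT.lf (nat_lit 0) (nat_lit 9558558398) (nat_lit 228) (nat_lit 2249546973) (nat_lit 304) (nat_lit 6382008804) (nat_lit 102) (nat_lit 5) (nat_lit 105) (nat_lit 5) (nat_lit 106) (nat_lit 5) (nat_lit 642) (nat_lit 529) (nat_lit 389)) (XT.nd (nat_lit 78) (nat_lit 76) (nat_lit 0) (XT.lf (nat_lit 0) (nat_lit 3351570662) (nat_lit 304) (nat_lit 13910588946) (nat_lit 380) (nat_lit 1151858872) (nat_lit 98) (nat_lit 5) (nat_lit 102) (nat_lit 5) (nat_lit 103) (nat_lit 5) (nat_lit 643) (nat_lit 529) (nat_lit 388)) (XT.lf (nat_lit 0) (nat_lit 4185774532) (nat_lit 380) (nat_lit 3018896286) (nat_lit 76) (nat_lit 11436032263) (nat_lit 97) (nat_lit 5) (nat_lit 102) (nat_lit 5) (nat_lit 98) (nat_lit 5) (nat_lit 644) (nat_lit 529) (nat_lit 387)))) (XT.nd (nat_lit 156) (nat_lit 760) (nat_lit 0) (XT.nd (nat_lit 78) (nat_lit 0) (nat_lit 0) (XT.lf (nat_lit 0) (nat_lit 847144846) (nat_lit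 0) (nat_lit 847144846) (nat_lit 684) (nat_lit 1621686321) (nat_lit 744) (nat_lit 5) (nat_lit 744) (nat_lit 3) (nat_lit 753) (nat_lit 3) (nat_lit 530) (nat_lit 530) (nat_lit 500)) (XT.lf (nat_lit 0) (nat_lit 5034924108) (nat_lit 0) (nat_lit 712584771) (nat_lit 684) (nat_lit 904152234) (nat_lit 744) (nat_lit 5) (nat_lit 744) (nat_lit 3) (nat_lit 753) (nat_lit 3) (nat_lit 531) (nat_lit 530) (nat_lit 499))) (XT.nd (nat_lit 78) (nat_lit 0) (nat_lit 0) (XT.lf (nat_lit 0) (nat_lit 1414612966) (nat_lit 760) (nat_lit 4922124182) (nat_lit 836) (nat_lit 335793723) (nat_lit 734) (nat_lit 5) (nat_lit 744) (nat_lit 5) (nat_lit 745) (nat_lit 5) (nat_lit 532) (nat_lit 530) (nat_lit 498)) (XT.lf (nat_lit 0) (nat_lit 3723096818) (nat_lit 760) (nat_lit 1530078010) (nat_lit 836) (nat_lit 1441417432) (nat_lit 734) (nat_lit 5) (nat_lit 744) (nat_lit 5) (nat_lit 745) (nat_lit 5) (nat_lit 533) (nat_lit 530) (nat_lit 497))))) (XT.nd (nat_lit 312) (nat_lit 1824) (nat_lit 0) (XT.nd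 (nat_lit 156) (nat_lit 0) (nat_lit 0) (XT.nd (nat_lit 78) (nat_lit 836) (nat_lit 0) (XT.lf (nat_lit 76) (nat_lit 1923162286) (nat_lit 0) (nat_lit 4108053446) (nat_lit 836) (nat_lit 686812545) (nat_lit 735) (nat_lit 5) (nat_lit 734) (nat_lit 5) (nat_lit 745) (nat_lit 5) (nat_lit 534) (nat_lit 530) (nat_lit 496)) (XT.lf (nat_lit 0) (nat_lit 1573887472) (nat_lit 836) (nat_lit 1318697977) (nat_lit 912) (nat_lit 3850099163) (nat_lit 723) (nat_lit 5) (nat_lit 734) (nat_lit 5) (nat_lit 735) (nat_lit 5) (nat_lit 535) (nat_lit 530) (nat_lit 495))) (XT.nd (nat_lit 78) (nat_lit 0) (nat_lit 0) (XT.lf (nat_lit 76) (nat_lit 2219754299) (nat_lit 0) (nat_lit 1607961166) (nat_lit 912) (nat_lit 2940888157) (nat_lit 724) (nat_lit 5) (nat_lit 723) (nat_lit 5) (nat_lit 735) (nat_lit 5) (nat_lit 536) (nat_lit 530) (nat_lit 494)) (XT.lf (nat_lit 76) (nat_lit 5815257004) (nat_lit 0) (nat_lit 263820455) (nat_lit 912) (nat_lit 716916905) (nat_lit 724) (nat_lit 5) (nat_lit 723)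 (nat_lit 5) (nat_lit 735) (nat_lit 5) (nat_lit 537) (nat_lit 530) (nat_lit 493)))) (XT.nd (nat_lit 156) (nat_lit 988) (nat_lit 0) (XT.nd (nat_lit 78) (nat_lit 0) (nat_lit 0) (XT.lf (nat_lit 0) (nat_lit 1500272182) (nat_lit 912) (nat_lit 4180302813) (nat_lit 988) (nat_lit 1143777119) (nat_lit 712) (nat_lit 5) (nat_lit 724) (nat_lit 5) (nat_lit 725) (nat_lit 5) (nat_lit 538) (nat_lit 530) (nat_lit 492)) (XT.lf (nat_lit 0) (nat_lit 3705969677) (nat_lit 912) (nat_lit 537814601) (nat_lit 988) (nat_lit 2610325038) (nat_lit 712) (nat_lit 5) (nat_lit 724) (nat_lit 5) (nat_lit 725) (nat_lit 5) (nat_lit 539) (nat_lit 530) (nat_lit 491))) (XT.nd (nat_lit 78) (nat_lit 988) (nat_lit 0) (XT.lf (nat_lit 76) (nat_lit 3187209965) (nat_lit 0) (nat_lit 2735718724) (nat_lit 988) (nat_lit 962192335) (nat_lit 713) (nat_lit 5) (nat_lit 712) (nat_lit 5) (nat_lit 725) (nat_lit 5) (nat_lit 540) (nat_lit 530) (nat_lit 490)) (XT.lf (nat_lit 76) (nat_lit 36965840) (nat_lit 0) (nat_lit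 1164703459) (nat_lit 1064) (nat_lit 5715904930) (nat_lit 700) (nat_lit 5) (nat_lit 699) (nat_lit 5) (nat_lit 713) (nat_lit 5) (nat_lit 541) (nat_lit 530) (nat_lit 489)))))) (XT.nd (nat_lit 624) (nat_lit 6536) (nat_lit 0) (XT.nd (nat_lit 312) (nat_lit 1064) (nat_lit 0) (XT.nd (nat_lit 156) (nat_lit 1064) (nat_lit 0) (XT.nd (nat_lit 78) (nat_lit 0) (nat_lit 0) (XT.lf (nat_lit 0) (nat_lit 3371662065) (nat_lit 988) (nat_lit 3096463401) (nat_lit 1064) (nat_lit 482911257) (nat_lit 700) (nat_lit 5) (nat_lit 713) (nat_lit 5) (nat_lit 714) (nat_lit 5) (nat_lit 542) (nat_lit 530) (nat_lit 488)) (XT.lf (nat_lit 76) (nat_lit 732343173) (nat_lit 0) (nat_lit 4814105418) (nat_lit 1064) (nat_lit 1439494133) (nat_lit 701) (nat_lit 5) (nat_lit 700) (nat_lit 5) (nat_lit 714) (nat_lit 5) (nat_lit 543) (nat_lit 530) (nat_lit 487))) (XT.nd (nat_lit 78) (nat_lit 0) (nat_lit 0) (XT.lf (nat_lit 0) (nat_lit 703733387) (nat_lit 1064) (nat_lit 2379765957) (nat_lit 1140) (nat_lit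 3938547119) (nat_lit 686) (nat_lit 5) (nat_lit 700) (nat_lit 5) (nat_lit 701) (nat_lit 5) (nat_lit 544) (nat_lit 530) (nat_lit 486)) (XT.lf (nat_lit 76) (nat_lit 1549617994) (nat_lit 0) (nat_lit 1281384224) (nat_lit 1140) (nat_lit 4228472740) (nat_lit 687) (nat_lit 5) (nat_lit 686) (nat_lit 5) (nat_lit 701) (nat_lit 5) (nat_lit 545) (nat_lit 530) (nat_lit 485)))) (XT.nd (nat_lit 156) (nat_lit 1140) (nat_lit 0) (XT.nd (nat_lit 78) (nat_lit 0) (nat_lit 0) (XT.lf (nat_lit 0) (nat_lit 4971747342) (nat_lit 1064) (nat_lit 1544792399) (nat_lit 1140) (nat_lit 581695636) (nat_lit 687) (nat_lit 5) (nat_lit 701) (nat_lit 5) (nat_lit 702) (nat_lit 5) (nat_lit 546) (nat_lit 530) (nat_lit 484)) (XT.lf (nat_lit 76) (nat_lit 2490826632) (nat_lit 0) (nat_lit 4641335622) (nat_lit 1140) (nat_lit 6073586) (nat_lit 688) (nat_lit 5) (nat_lit 687) (nat_lit 5) (nat_lit 702) (nat_lit 5) (nat_lit 547) (nat_lit 530) (nat_lit 483))) (XT.nd (nat_lit 78) (nat_lit 0) (nat_lit 0) (XT.lf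 (nat_lit 0) (nat_lit 2091506101) (nat_lit 1140) (nat_lit 598146086) (nat_lit 1216) (nat_lit 4489845062) (nat_lit 672) (nat_lit 5) (nat_lit 687) (nat_lit 5) (nat_lit 688) (nat_lit 5) (nat_lit 548) (nat_lit 530) (nat_lit 482)) (XT.lf (nat_lit 76) (nat_lit 3545877174) (nat_lit 0) (nat_lit 661638481) (nat_lit 1216) (nat_lit 3014538058) (nat_lit 673) (nat_lit 5) (nat_lit 672) (nat_lit 5) (nat_lit 688) (nat_lit 5) (nat_lit 549) (nat_lit 530) (nat_lit 481))))) (XT.nd (nat_lit 312) (nat_lit 4180) (nat_lit 0) (XT.nd (nat_lit 156) (nat_lit 1216) (nat_lit 0) (XT.nd (nat_lit 78) (nat_lit 76) (nat_lit 0) (XT.lf (nat_lit 0) (nat_lit 479152766) (nat_lit 1140) (nat_lit 5857302622) (nat_lit 1216) (nat_lit 929595506) (nat_lit 658) (nat_lit 5) (nat_lit 673) (nat_lit 5) (nat_lit 674) (nat_lit 5) (nat_lit 550) (nat_lit 530) (nat_lit 480)) (XT.lf (nat_lit 0) (nat_lit 1165264343) (nat_lit 1216) (nat_lit 2589192933) (nat_lit 76) (nat_lit 3556638660) (nat_lit 657) (nat_lit 5)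 (nat_lit 673) (nat_lit 5) (nat_lit 658) (nat_lit 5) (nat_lit 551) (nat_lit 530) (nat_lit 479))) (XT.nd (nat_lit 78) (nat_lit 0) (nat_lit 0) (XT.lf (nat_lit 0) (nat_lit 1675081654) (nat_lit 1216) (nat_lit 1580971746) (nat_lit 1292) (nat_lit 4101537685) (nat_lit 641) (nat_lit 5) (nat_lit 657) (nat_lit 5) (nat_lit 658) (nat_lit 5) (nat_lit 552) (nat_lit 530) (nat_lit 478)) (XT.lf (nat_lit 0) (nat_lit 5366595862) (nat_lit 1292) (nat_lit 1383099672) (nat_lit 76) (nat_lit 655763501) (nat_lit 641) (nat_lit 5) (nat_lit 658) (nat_lit 5) (nat_lit 642) (nat_lit 5) (nat_lit 553) (nat_lit 530) (nat_lit 477)))) (XT.nd (nat_lit 156) (nat_lit 2812) (nat_lit 0) (XT.nd (nat_lit 78) (nat_lit 0) (nat_lit 0) (XT.lf (nat_lit 0) (nat_lit 51233782) (nat_lit 1368) (nat_lit 4456995218) (nat_lit 76) (nat_lit 2946308036) (nat_lit 623) (nat_lit 5) (nat_lit 641) (nat_lit 5) (nat_lit 624) (nat_lit 5) (nat_lit 554) (nat_lit 530) (nat_lit 476)) (XT.lf (nat_lit 0) (nat_lit 2122719740)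 (nat_lit 1368) (nat_lit 67038161) (nat_lit 76) (nat_lit 5315232964) (nat_lit 623) (nat_lit 5) (nat_lit 641) (nat_lit 5) (nat_lit 624) (nat_lit 5) (nat_lit 555) (nat_lit 530) (nat_lit 475))) (XT.nd (nat_lit 78) (nat_lit 1444) (nat_lit 0) (XT.lf (nat_lit 0) (nat_lit 4224172586) (nat_lit 1444) (nat_lit 3122148683) (nat_lit 76) (nat_lit 210363285) (nat_lit 605) (nat_lit 5) (nat_lit 624) (nat_lit 5) (nat_lit 606) (nat_lit 5) (nat_lit 556) (nat_lit 530) (nat_lit 474)) (XT.lf (nat_lit 0) (nat_lit 1387734351) (nat_lit 1444) (nat_lit 4962894937) (nat_lit 1520) (nat_lit 1259124827) (nat_lit 586) (nat_lit 5) (nat_lit 605) (nat_lit 5) (nat_lit 606) (nat_lit 5) (nat_lit 557) (nat_lit 530) (nat_lit 473))))))))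
noncomputable def xc87 : XT := (XT.nd (nat_lit 2418) (nat_lit 10792) (nat_lit 0) (XT.nd (nat_lit 1170) (nat_lit 7980) (nat_lit 0) (XT.nd (nat_lit 546) (nat_lit 5776) (nat_lit 0) (XT.nd (nat_lit 234) (nat_lit 5092) (nat_lit 0) (XT.nd (nat_lit 78) (nat_lit 1520) (nat_lit 0) (XT.lf (nat_lit 0) (nat_lit 824925109) (nat_lit 1520) (nat_lit 1672953337) (nat_lit 76) (nat_lit 5166288576) (nat_lit 585) (nat_lit 5) (nat_lit 605) (nat_lit 5) (nat_lit 586) (nat_lit 5) (nat_lit 558) (nat_lit 530) (nat_lit 472)) (XT.nd (nat_lit 78) (nat_lit 0) (nat_lit 0) (XT.lf (nat_lit 0) (nat_lit 2913516695) (nat_lit 1596) (nat_lit 4755877516) (nat_lit 76) (nat_lit 50514522) (nat_lit 565) (nat_lit 5) (nat_lit 586) (nat_lit 5) (nat_lit 566) (nat_lit 5) (nat_lit 559) (nat_lit 530) (nat_lit 471)) (XT.lf (nat_lit 0) (nat_lit 5032456641) (nat_lit 1596) (nat_lit 110597786) (nat_lit 76) (nat_lit 2633940703) (nat_lit 565) (nat_lit 5) (nat_lit 586) (nat_lit 5) (nat_lit 566) (nat_lit 5) (nat_lit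 560) (nat_lit 530) (nat_lit 470)))) (XT.nd (nat_lit 156) (nat_lit 1748) (nat_lit 0) (XT.nd (nat_lit 78) (nat_lit 1748) (nat_lit 0) (XT.lf (nat_lit 0) (nat_lit 4655435359) (nat_lit 1596) (nat_lit 2530069673) (nat_lit 1672) (nat_lit 649884984) (nat_lit 544) (nat_lit 5) (nat_lit 565) (nat_lit 5) (nat_lit 566) (nat_lit 5) (nat_lit 561) (nat_lit 530) (nat_lit 469)) (XT.lf (nat_lit 0) (nat_lit 1441144222) (nat_lit 1748) (nat_lit 6295154920) (nat_lit 76) (nat_lit 158982301) (nat_lit 521) (nat_lit 5) (nat_lit 544) (nat_lit 5) (nat_lit 522) (nat_lit 5) (nat_lit 562) (nat_lit 530) (nat_lit 468))) (XT.nd (nat_lit 78) (nat_lit 1748) (nat_lit 0) (XT.lf (nat_lit 0) (nat_lit 3565889199) (nat_lit 1748) (nat_lit 1492292666) (nat_lit 76) (nat_lit 2898092252) (nat_lit 521) (nat_lit 5) (nat_lit 544) (nat_lit 5) (nat_lit 522) (nat_lit 5) (nat_lit 563) (nat_lit 530) (nat_lit 467)) (XT.lf (nat_lit 0) (nat_lit 3418060624) (nat_lit 1748) (nat_lit 2300352037) (nat_lit 1824) (nat_lit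 2300369563) (nat_lit 498) (nat_lit 5) (nat_lit 521) (nat_lit 5) (nat_lit 522) (nat_lit 5) (nat_lit 564) (nat_lit 530) (nat_lit 466))))) (XT.nd (nat_lit 312) (nat_lit 2736) (nat_lit 0) (XT.nd (nat_lit 156) (nat_lit 1140) (nat_lit 0) (XT.nd (nat_lit 78) (nat_lit 76) (nat_lit 0) (XT.lf (nat_lit 0) (nat_lit 331537520) (nat_lit 1824) (nat_lit 7561630903) (nat_lit 1900) (nat_lit 189789660) (nat_lit 474) (nat_lit 5) (nat_lit 498) (nat_lit 5) (nat_lit 499) (nat_lit 5) (nat_lit 565) (nat_lit 530) (nat_lit 465)) (XT.lf (nat_lit 0) (nat_lit 1947444749) (nat_lit 1900) (nat_lit 2785361082) (nat_lit 76) (nat_lit 3415154144) (nat_lit 473) (nat_lit 5) (nat_lit 498) (nat_lit 5) (nat_lit 474) (nat_lit 5) (nat_lit 566) (nat_lit 530) (nat_lit 464))) (XT.nd (nat_lit 78) (nat_lit 0) (nat_lit 0) (XT.lf (nat_lit 0) (nat_lit 2275087936) (nat_lit 1140) (nat_lit 1829152884) (nat_lit 1216) (nat_lit 4110409986) (nat_lit 458) (nat_lit 5) (nat_lit 473) (nat_lit 5) (nat_lit 474) (nat_lit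 5) (nat_lit 567) (nat_lit 530) (nat_lit 463)) (XT.lf (nat_lit 0) (nat_lit 6295414693) (nat_lit 1216) (nat_lit 849279623) (nat_lit 76) (nat_lit 1138157432) (nat_lit 458) (nat_lit 5) (nat_lit 474) (nat_lit 5) (nat_lit 459) (nat_lit 5) (nat_lit 568) (nat_lit 530) (nat_lit 462)))) (XT.nd (nat_lit 156) (nat_lit 836) (nat_lit 0) (XT.nd (nat_lit 78) (nat_lit 912) (nat_lit 0) (XT.lf (nat_lit 0) (nat_lit 181844459) (nat_lit 988) (nat_lit 3999022255) (nat_lit 76) (nat_lit 4171404300) (nat_lit 445) (nat_lit 5) (nat_lit 458) (nat_lit 5) (nat_lit 446) (nat_lit 5) (nat_lit 569) (nat_lit 530) (nat_lit 461)) (XT.lf (nat_lit 0) (nat_lit 1217574332) (nat_lit 912) (nat_lit 1129982371) (nat_lit 988) (nat_lit 6075667153) (nat_lit 433) (nat_lit 5) (nat_lit 445) (nat_lit 5) (nat_lit 446) (nat_lit 5) (nat_lit 570) (nat_lit 530) (nat_lit 460))) (XT.nd (nat_lit 78) (nat_lit 836) (nat_lit 0) (XT.lf (nat_lit 0) (nat_lit 4562905949) (nat_lit 988) (nat_lit 1949416839) (nat_lit 76)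 (nat_lit 1983147559) (nat_lit 433) (nat_lit 5) (nat_lit 446) (nat_lit 5) (nat_lit 434) (nat_lit 5) (nat_lit 571) (nat_lit 530) (nat_lit 459)) (XT.lf (nat_lit 0) (nat_lit 3415901663) (nat_lit 836) (nat_lit 3403421707) (nat_lit 912) (nat_lit 1749904199) (nat_lit 422) (nat_lit 5) (nat_lit 433) (nat_lit 5) (nat_lit 434) (nat_lit 5) (nat_lit 572) (nat_lit 530) (nat_lit 458)))))) (XT.nd (nat_lit 624) (nat_lit 3724) (nat_lit 0) (XT.nd (nat_lit 312) (nat_lit 2432) (nat_lit 0) (XT.nd (nat_lit 156) (nat_lit 836) (nat_lit 0) (XT.nd (nat_lit 78) (nat_lit 0) (nat_lit 0) (XT.lf (nat_lit 0) (nat_lit 237111448) (nat_lit 912) (nat_lit 215070794) (nat_lit 988) (nat_lit 8192576393) (nat_lit 409) (nat_lit 5) (nat_lit 421) (nat_lit 5) (nat_lit 422) (nat_lit 5) (nat_lit 573) (nat_lit 530) (nat_lit 457)) (XT.lf (nat_lit 0) (nat_lit 2697160978) (nat_lit 988) (nat_lit 2981422641) (nat_lit 76) (nat_lit 3042540697) (nat_lit 409) (nat_lit 5) (nat_lit 422) (nat_lit 5) (nat_lit 410)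 (nat_lit 5) (nat_lit 574) (nat_lit 530) (nat_lit 456))) (XT.nd (nat_lit 78) (nat_lit 0) (nat_lit 0) (XT.lf (nat_lit 0) (nat_lit 2552049261) (nat_lit 836) (nat_lit 2421347472) (nat_lit 912) (nat_lit 3825894377) (nat_lit 398) (nat_lit 5) (nat_lit 409) (nat_lit 5) (nat_lit 410) (nat_lit 5) (nat_lit 575) (nat_lit 530) (nat_lit 455)) (XT.lf (nat_lit 0) (nat_lit 7289903487) (nat_lit 912) (nat_lit 681716700) (nat_lit 76) (nat_lit 907507057) (nat_lit 398) (nat_lit 5) (nat_lit 410) (nat_lit 5) (nat_lit 399) (nat_lit 5) (nat_lit 576) (nat_lit 530) (nat_lit 454)))) (XT.nd (nat_lit 156) (nat_lit 760) (nat_lit 0) (XT.nd (nat_lit 78) (nat_lit 760) (nat_lit 0) (XT.lf (nat_lit 0) (nat_lit 701164587) (nat_lit 912) (nat_lit 3953057850) (nat_lit 76) (nat_lit 4305887426) (nat_lit 386) (nat_lit 5) (nat_lit 398) (nat_lit 5) (nat_lit 387) (nat_lit 5) (nat_lit 577) (nat_lit 530) (nat_lit 453)) (XT.lf (nat_lit 0) (nat_lit 1755439834) (nat_lit 760) (nat_lit 1246219101) (nat_lit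 836) (nat_lit 6041132422) (nat_lit 376) (nat_lit 5) (nat_lit 386) (nat_lit 5) (nat_lit 387) (nat_lit 5) (nat_lit 578) (nat_lit 530) (nat_lit 452))) (XT.nd (nat_lit 78) (nat_lit 760) (nat_lit 0) (XT.lf (nat_lit 0) (nat_lit 5359263103) (nat_lit 836) (nat_lit 1543166248) (nat_lit 76) (nat_lit 2224475991) (nat_lit 376) (nat_lit 5) (nat_lit 387) (nat_lit 5) (nat_lit 377) (nat_lit 5) (nat_lit 579) (nat_lit 530) (nat_lit 451)) (XT.lf (nat_lit 0) (nat_lit 4331508564) (nat_lit 760) (nat_lit 3439395627) (nat_lit 836) (nat_lit 1441660560) (nat_lit 366) (nat_lit 5) (nat_lit 376) (nat_lit 5) (nat_lit 377) (nat_lit 5) (nat_lit 580) (nat_lit 530) (nat_lit 450))))) (XT.nd (nat_lit 312) (nat_lit 1444) (nat_lit 0) (XT.nd (nat_lit 156) (nat_lit 1444) (nat_lit 0) (XT.nd (nat_lit 78) (nat_lit 0) (nat_lit 0) (XT.lf (nat_lit 0) (nat_lit 907084705) (nat_lit 836) (nat_lit 8281800726) (nat_lit 76) (nat_lit 111162812) (nat_lit 355) (nat_lit 5) (nat_lit 366) (nat_lit 5) (nat_lit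 356) (nat_lit 5) (nat_lit 581) (nat_lit 530) (nat_lit 449)) (XT.lf (nat_lit 0) (nat_lit 3310284272) (nat_lit 836) (nat_lit 2352926468) (nat_lit 76) (nat_lit 3725345206) (nat_lit 355) (nat_lit 5) (nat_lit 366) (nat_lit 5) (nat_lit 356) (nat_lit 5) (nat_lit 582) (nat_lit 530) (nat_lit 448))) (XT.nd (nat_lit 78) (nat_lit 684) (nat_lit 0) (XT.lf (nat_lit 0) (nat_lit 3710384043) (nat_lit 760) (nat_lit 2046838726) (nat_lit 836) (nat_lit 3721698311) (nat_lit 345) (nat_lit 5) (nat_lit 355) (nat_lit 5) (nat_lit 356) (nat_lit 5) (nat_lit 583) (nat_lit 530) (nat_lit 447)) (XT.lf (nat_lit 0) (nat_lit 316341232) (nat_lit 684) (nat_lit 7937267605) (nat_lit 760) (nat_lit 1317475268) (nat_lit 336) (nat_lit 5) (nat_lit 345) (nat_lit 5) (nat_lit 346) (nat_lit 5) (nat_lit 584) (nat_lit 530) (nat_lit 446)))) (XT.nd (nat_lit 156) (nat_lit 684) (nat_lit 0) (XT.nd (nat_lit 78) (nat_lit 684) (nat_lit 0) (XT.lf (nat_lit 0) (nat_lit 1144523866) (nat_lit 760) (nat_lit 3117659573)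 (nat_lit 76) (nat_lit 5402268820) (nat_lit 335) (nat_lit 5) (nat_lit 345) (nat_lit 5) (nat_lit 336) (nat_lit 5) (nat_lit 585) (nat_lit 530) (nat_lit 445)) (XT.lf (nat_lit 0) (nat_lit 3142026255) (nat_lit 684) (nat_lit 489113970) (nat_lit 760) (nat_lit 6128513734) (nat_lit 326) (nat_lit 5) (nat_lit 335) (nat_lit 5) (nat_lit 336) (nat_lit 5) (nat_lit 586) (nat_lit 530) (nat_lit 444))) (XT.nd (nat_lit 78) (nat_lit 684) (nat_lit 0) (XT.lf (nat_lit 0) (nat_lit 6183253953) (nat_lit 760) (nat_lit 342040131) (nat_lit 76) (nat_lit 3331151013) (nat_lit 326) (nat_lit 5) (nat_lit 336) (nat_lit 5) (nat_lit 327) (nat_lit 5) (nat_lit 587) (nat_lit 530) (nat_lit 443)) (XT.lf (nat_lit 0) (nat_lit 6103599993) (nat_lit 684) (nat_lit 2699103033) (nat_lit 760) (nat_lit 1152143860) (nat_lit 317) (nat_lit 5) (nat_lit 326) (nat_lit 5) (nat_lit 327) (nat_lit 5) (nat_lit 588) (nat_lit 530) (nat_lit 442))))))) (XT.nd (nat_lit 1170) (nat_lit 4712) (nat_lit 0) (XT.nd (nat_lit 546)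 (nat_lit 2812) (nat_lit 0) (XT.nd (nat_lit 234) (nat_lit 1900) (nat_lit 0) (XT.nd (nat_lit 78) (nat_lit 608) (nat_lit 0) (XT.lf (nat_lit 0) (nat_lit 1401561655) (nat_lit 760) (nat_lit 7442795271) (nat_lit 76) (nat_lit 1210659106) (nat_lit 307) (nat_lit 5) (nat_lit 317) (nat_lit 5) (nat_lit 308) (nat_lit 5) (nat_lit 589) (nat_lit 530) (nat_lit 441)) (XT.nd (nat_lit 78) (nat_lit 608) (nat_lit 0) (XT.lf (nat_lit 0) (nat_lit 4008651943) (nat_lit 760) (nat_lit 957865445) (nat_lit 76) (nat_lit 5190164753) (nat_lit 307) (nat_lit 5) (nat_lit 317) (nat_lit 5) (nat_lit 308) (nat_lit 5) (nat_lit 590) (nat_lit 530) (nat_lit 440)) (XT.lf (nat_lit 0) (nat_lit 5699473281) (nat_lit 608) (nat_lit 979762132) (nat_lit 684) (nat_lit 3580919770) (nat_lit 299) (nat_lit 5) (nat_lit 307) (nat_lit 5) (nat_lit 308) (nat_lit 5) (nat_lit 591) (nat_lit 530) (nat_lit 439)))) (XT.nd (nat_lit 156) (nat_lit 1216) (nat_lit 0) (XT.nd (nat_lit 78) (nat_lit 76) (nat_lit 0) (XT.lf (nat_lit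 0) (nat_lit 2112704335) (nat_lit 608) (nat_lit 7305355684) (nat_lit 684) (nat_lit 947341702) (nat_lit 291) (nat_lit 5) (nat_lit 299) (nat_lit 5) (nat_lit 300) (nat_lit 5) (nat_lit 592) (nat_lit 530) (nat_lit 438)) (XT.lf (nat_lit 0) (nat_lit 1728121367) (nat_lit 684) (nat_lit 1541161196) (nat_lit 76) (nat_lit 7203005034) (nat_lit 290) (nat_lit 5) (nat_lit 299) (nat_lit 5) (nat_lit 291) (nat_lit 5) (nat_lit 593) (nat_lit 530) (nat_lit 437))) (XT.nd (nat_lit 78) (nat_lit 608) (nat_lit 0) (XT.lf (nat_lit 0) (nat_lit 4460016554) (nat_lit 684) (nat_lit 5250178178) (nat_lit 76) (nat_lit 870679655) (nat_lit 282) (nat_lit 5) (nat_lit 291) (nat_lit 5) (nat_lit 283) (nat_lit 5) (nat_lit 594) (nat_lit 530) (nat_lit 436)) (XT.lf (nat_lit 0) (nat_lit 1637189991) (nat_lit 608) (nat_lit 5627505113) (nat_lit 684) (nat_lit 3426575477) (nat_lit 274) (nat_lit 5) (nat_lit 282) (nat_lit 5) (nat_lit 283) (nat_lit 5) (nat_lit 595) (nat_lit 530) (nat_lit 435))))) (XT.nd (nat_lit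 312) (nat_lit 1596) (nat_lit 0) (XT.nd (nat_lit 156) (nat_lit 608) (nat_lit 0) (XT.nd (nat_lit 78) (nat_lit 608) (nat_lit 0) (XT.lf (nat_lit 0) (nat_lit 8701665500) (nat_lit 608) (nat_lit 1434762323) (nat_lit 684) (nat_lit 667228232) (nat_lit 274) (nat_lit 5) (nat_lit 282) (nat_lit 5) (nat_lit 283) (nat_lit 5) (nat_lit 596) (nat_lit 530) (nat_lit 434)) (XT.lf (nat_lit 0) (nat_lit 2146424665) (nat_lit 608) (nat_lit 5927153396) (nat_lit 76) (nat_lit 2843887266) (nat_lit 266) (nat_lit 5) (nat_lit 274) (nat_lit 5) (nat_lit 267) (nat_lit 5) (nat_lit 597) (nat_lit 530) (nat_lit 433))) (XT.nd (nat_lit 78) (nat_lit 0) (nat_lit 0) (XT.lf (nat_lit 0) (nat_lit 1189551761) (nat_lit 608) (nat_lit 3825560979) (nat_lit 684) (nat_lit 6018196445) (nat_lit 258) (nat_lit 5) (nat_lit 266) (nat_lit 5) (nat_lit 267) (nat_lit 5) (nat_lit 598) (nat_lit 530) (nat_lit 432)) (XT.lf (nat_lit 0) (nat_lit 7960979407) (nat_lit 684) (nat_lit 2657226713) (nat_lit 76) (nat_lit 532868227)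 (nat_lit 258) (nat_lit 5) (nat_lit 267) (nat_lit 5) (nat_lit 259) (nat_lit 5) (nat_lit 599) (nat_lit 530) (nat_lit 431)))) (XT.nd (nat_lit 156) (nat_lit 456) (nat_lit 0) (XT.nd (nat_lit 78) (nat_lit 608) (nat_lit 0) (XT.lf (nat_lit 0) (nat_lit 4677745784) (nat_lit 532) (nat_lit 6320657434) (nat_lit 608) (nat_lit 272139311) (nat_lit 251) (nat_lit 5) (nat_lit 258) (nat_lit 5) (nat_lit 259) (nat_lit 5) (nat_lit 600) (nat_lit 530) (nat_lit 430)) (XT.lf (nat_lit 0) (nat_lit 764339516) (nat_lit 532) (nat_lit 1904314962) (nat_lit 608) (nat_lit 8723396048) (nat_lit 243) (nat_lit 5) (nat_lit 250) (nat_lit 5) (nat_lit 251) (nat_lit 5) (nat_lit 601) (nat_lit 530) (nat_lit 429))) (XT.nd (nat_lit 78) (nat_lit 456) (nat_lit 0) (XT.lf (nat_lit 0) (nat_lit 5703266422) (nat_lit 608) (nat_lit 3207693194) (nat_lit 76) (nat_lit 2604220648) (nat_lit 243) (nat_lit 5) (nat_lit 251) (nat_lit 5) (nat_lit 244) (nat_lit 5) (nat_lit 602) (nat_lit 530) (nat_lit 428)) (XT.lf (nat_lit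 0) (nat_lit 4374509162) (nat_lit 456) (nat_lit 4442747043) (nat_lit 532) (nat_lit 2823143156) (nat_lit 237) (nat_lit 5) (nat_lit 243) (nat_lit 5) (nat_lit 244) (nat_lit 5) (nat_lit 603) (nat_lit 530) (nat_lit 427)))))) (XT.nd (nat_lit 624) (nat_lit 2204) (nat_lit 0) (XT.nd (nat_lit 312) (nat_lit 1444) (nat_lit 0) (XT.nd (nat_lit 156) (nat_lit 456) (nat_lit 0) (XT.nd (nat_lit 78) (nat_lit 0) (nat_lit 0) (XT.lf (nat_lit 0) (nat_lit 225046891) (nat_lit 608) (nat_lit 11412775787) (nat_lit 76) (nat_lit 130219344) (nat_lit 229) (nat_lit 5) (nat_lit 237) (nat_lit 5) (nat_lit 230) (nat_lit 5) (nat_lit 604) (nat_lit 530) (nat_lit 426)) (XT.lf (nat_lit 0) (nat_lit 3352878555) (nat_lit 608) (nat_lit 3749614529) (nat_lit 76) (nat_lit 4794242086) (nat_lit 229) (nat_lit 5) (nat_lit 237) (nat_lit 5) (nat_lit 230) (nat_lit 5) (nat_lit 605) (nat_lit 530) (nat_lit 425))) (XT.nd (nat_lit 78) (nat_lit 0) (nat_lit 0) (XT.lf (nat_lit 0) (nat_lit 4089813669) (nat_lit 456) (nat_lit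 2458380842) (nat_lit 532) (nat_lit 5479709554) (nat_lit 223) (nat_lit 5) (nat_lit 229) (nat_lit 5) (nat_lit 230) (nat_lit 5) (nat_lit 606) (nat_lit 530) (nat_lit 424)) (XT.lf (nat_lit 0) (nat_lit 9826081251) (nat_lit 532) (nat_lit 70099714) (nat_lit 76) (nat_lit 2265142513) (nat_lit 223) (nat_lit 5) (nat_lit 230) (nat_lit 5) (nat_lit 224) (nat_lit 5) (nat_lit 607) (nat_lit 530) (nat_lit 423)))) (XT.nd (nat_lit 156) (nat_lit 456) (nat_lit 0) (XT.nd (nat_lit 78) (nat_lit 456) (nat_lit 0) (XT.lf (nat_lit 0) (nat_lit 908263644) (nat_lit 532) (nat_lit 4288567282) (nat_lit 76) (nat_lit 7099515776) (nat_lit 216) (nat_lit 5) (nat_lit 223) (nat_lit 5) (nat_lit 217) (nat_lit 5) (nat_lit 608) (nat_lit 530) (nat_lit 422)) (XT.lf (nat_lit 0) (nat_lit 3818437153) (nat_lit 456) (nat_lit 371270019) (nat_lit 532) (nat_lit 8243968177) (nat_lit 210) (nat_lit 5) (nat_lit 216) (nat_lit 5) (nat_lit 217) (nat_lit 5) (nat_lit 609) (nat_lit 530) (nat_lit 421))) (XT.nd (nat_lit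 78) (nat_lit 456) (nat_lit 0) (XT.lf (nat_lit 0) (nat_lit 7574492398) (nat_lit 532) (nat_lit 487632903) (nat_lit 76) (nat_lit 4510871407) (nat_lit 210) (nat_lit 5) (nat_lit 217) (nat_lit 5) (nat_lit 211) (nat_lit 5) (nat_lit 610) (nat_lit 530) (nat_lit 420)) (XT.lf (nat_lit 0) (nat_lit 7873489921) (nat_lit 456) (nat_lit 3186666842) (nat_lit 532) (nat_lit 1654284453) (nat_lit 204) (nat_lit 5) (nat_lit 210) (nat_lit 5) (nat_lit 211) (nat_lit 5) (nat_lit 611) (nat_lit 530) (nat_lit 419))))) (XT.nd (nat_lit 312) (nat_lit 912) (nat_lit 0) (XT.nd (nat_lit 156) (nat_lit 836) (nat_lit 0) (XT.nd (nat_lit 78) (nat_lit 0) (nat_lit 0) (XT.lf (nat_lit 0) (nat_lit 1751618638) (nat_lit 456) (nat_lit 9315070332) (nat_lit 76) (nat_lit 1791441090) (nat_lit 198) (nat_lit 5) (nat_lit 204) (nat_lit 5) (nat_lit 199) (nat_lit 5) (nat_lit 612) (nat_lit 530) (nat_lit 418)) (XT.lf (nat_lit 0) (nat_lit 5237135217) (nat_lit 456) (nat_lit 906001832) (nat_lit 76) (nat_lit 6860664377)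 (nat_lit 198) (nat_lit 5) (nat_lit 204) (nat_lit 5) (nat_lit 199) (nat_lit 5) (nat_lit 613) (nat_lit 530) (nat_lit 417))) (XT.nd (nat_lit 78) (nat_lit 380) (nat_lit 0) (XT.lf (nat_lit 0) (nat_lit 7743336837) (nat_lit 456) (nat_lit 1079517197) (nat_lit 532) (nat_lit 4328922706) (nat_lit 192) (nat_lit 5) (nat_lit 198) (nat_lit 5) (nat_lit 199) (nat_lit 5) (nat_lit 614) (nat_lit 530) (nat_lit 416)) (XT.lf (nat_lit 0) (nat_lit 3261967718) (nat_lit 380) (nat_lit 9252495319) (nat_lit 456) (nat_lit 787565359) (nat_lit 187) (nat_lit 5) (nat_lit 192) (nat_lit 5) (nat_lit 193) (nat_lit 5) (nat_lit 615) (nat_lit 530) (nat_lit 415)))) (XT.nd (nat_lit 156) (nat_lit 456) (nat_lit 0) (XT.nd (nat_lit 78) (nat_lit 380) (nat_lit 0) (XT.lf (nat_lit 0) (nat_lit 2811673826) (nat_lit 456) (nat_lit 1330859263) (nat_lit 76) (nat_lit 9311903549) (nat_lit 186) (nat_lit 5) (nat_lit 192) (nat_lit 5) (nat_lit 187) (nat_lit 5) (nat_lit 616) (nat_lit 530) (nat_lit 414)) (XT.lf (nat_lit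 0) (nat_lit 6509867911) (nat_lit 456) (nat_lit 5998288557) (nat_lit 76) (nat_lit 1100882479) (nat_lit 181) (nat_lit 5) (nat_lit 187) (nat_lit 5) (nat_lit 182) (nat_lit 5) (nat_lit 617) (nat_lit 530) (nat_lit 413))) (XT.nd (nat_lit 78) (nat_lit 76) (nat_lit 0) (XT.lf (nat_lit 0) (nat_lit 2964858342) (nat_lit 380) (nat_lit 7353767042) (nat_lit 456) (nat_lit 3447376254) (nat_lit 176) (nat_lit 5) (nat_lit 181) (nat_lit 5) (nat_lit 182) (nat_lit 5) (nat_lit 618) (nat_lit 530) (nat_lit 412)) (XT.lf (nat_lit 0) (nat_lit 295319765) (nat_lit 456) (nat_lit 1768061665) (nat_lit 76) (nat_lit 11862256352) (nat_lit 175) (nat_lit 5) (nat_lit 181) (nat_lit 5) (nat_lit 176) (nat_lit 5) (nat_lit 619) (nat_lit 530) (nat_lit 411))))))))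
noncomputable def xc88 : XT := (XT.nd (nat_lit 74802) (nat_lit 0) (nat_lit 27056) (XT.nd (nat_lit 1170) (nat_lit 1824) (nat_lit 0) (XT.nd (nat_lit 546) (nat_lit 1824) (nat_lit 0) (XT.nd (nat_lit 234) (nat_lit 1140) (nat_lit 0) (XT.nd (nat_lit 78) (nat_lit 380) (nat_lit 0) (XT.lf (nat_lit 0) (nat_lit 4118803907) (nat_lit 456) (nat_lit 6617039179) (nat_lit 76) (nat_lit 3351126236) (nat_lit 170) (nat_lit 5) (nat_lit 176) (nat_lit 5) (nat_lit 171) (nat_lit 5) (nat_lit 620) (nat_lit 530) (nat_lit 410)) (XT.nd (nat_lit 78) (nat_lit 0) (nat_lit 0) (XT.lf (nat_lit 0) (nat_lit 2657657218) (nat_lit 380) (nat_lit 5385437729) (nat_lit 456) (nat_lit 6207946102) (nat_lit 165) (nat_lit 5) (nat_lit 170) (nat_lit 5) (nat_lit 171) (nat_lit 5) (nat_lit 621) (nat_lit 530) (nat_lit 409)) (XT.lf (nat_lit 0) (nat_lit 12072621668) (nat_lit 456) (nat_lit 2239648469) (nat_lit 76) (nat_lit 105589371) (nat_lit 165) (nat_lit 5) (nat_lit 171) (nat_lit 5) (nat_lit 166) (nat_lit 5) (nat_lit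 622) (nat_lit 530) (nat_lit 408)))) (XT.nd (nat_lit 156) (nat_lit 380) (nat_lit 0) (XT.nd (nat_lit 78) (nat_lit 304) (nat_lit 0) (XT.lf (nat_lit 0) (nat_lit 1639464807) (nat_lit 456) (nat_lit 7264178947) (nat_lit 76) (nat_lit 5682850679) (nat_lit 159) (nat_lit 5) (nat_lit 165) (nat_lit 5) (nat_lit 160) (nat_lit 5) (nat_lit 623) (nat_lit 530) (nat_lit 407)) (XT.lf (nat_lit 0) (nat_lit 2334249448) (nat_lit 304) (nat_lit 3350521068) (nat_lit 380) (nat_lit 9073175543) (nat_lit 155) (nat_lit 5) (nat_lit 159) (nat_lit 5) (nat_lit 160) (nat_lit 5) (nat_lit 624) (nat_lit 530) (nat_lit 406))) (XT.nd (nat_lit 78) (nat_lit 380) (nat_lit 0) (XT.lf (nat_lit 0) (nat_lit 9857173882) (nat_lit 380) (nat_lit 2752594744) (nat_lit 76) (nat_lit 2322134531) (nat_lit 155) (nat_lit 5) (nat_lit 160) (nat_lit 5) (nat_lit 156) (nat_lit 5) (nat_lit 625) (nat_lit 530) (nat_lit 405)) (XT.lf (nat_lit 0) (nat_lit 7155634216) (nat_lit 380) (nat_lit 7008490488) (nat_lit 456) (nat_lit 944192975)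 (nat_lit 150) (nat_lit 5) (nat_lit 155) (nat_lit 5) (nat_lit 156) (nat_lit 5) (nat_lit 626) (nat_lit 530) (nat_lit 404))))) (XT.nd (nat_lit 312) (nat_lit 684) (nat_lit 0) (XT.nd (nat_lit 156) (nat_lit 760) (nat_lit 0) (XT.nd (nat_lit 78) (nat_lit 0) (nat_lit 0) (XT.lf (nat_lit 0) (nat_lit 1988175158) (nat_lit 304) (nat_lit 1251907998) (nat_lit 380) (nat_lit 12047473065) (nat_lit 145) (nat_lit 5) (nat_lit 149) (nat_lit 5) (nat_lit 150) (nat_lit 5) (nat_lit 627) (nat_lit 530) (nat_lit 403)) (XT.lf (nat_lit 0) (nat_lit 7561723113) (nat_lit 380) (nat_lit 3298358877) (nat_lit 76) (nat_lit 4608846554) (nat_lit 145) (nat_lit 5) (nat_lit 150) (nat_lit 5) (nat_lit 146) (nat_lit 5) (nat_lit 628) (nat_lit 530) (nat_lit 402))) (XT.nd (nat_lit 78) (nat_lit 380) (nat_lit 0) (XT.lf (nat_lit 0) (nat_lit 6958103532) (nat_lit 380) (nat_lit 5048095297) (nat_lit 456) (nat_lit 3647001671) (nat_lit 140) (nat_lit 5) (nat_lit 145) (nat_lit 5) (nat_lit 146) (nat_lit 5) (nat_lit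 629) (nat_lit 530) (nat_lit 401)) (XT.lf (nat_lit 0) (nat_lit 710869546) (nat_lit 380) (nat_lit 14234078827) (nat_lit 76) (nat_lit 895686606) (nat_lit 135) (nat_lit 5) (nat_lit 140) (nat_lit 5) (nat_lit 136) (nat_lit 5) (nat_lit 630) (nat_lit 530) (nat_lit 400)))) (XT.nd (nat_lit 156) (nat_lit 380) (nat_lit 0) (XT.nd (nat_lit 78) (nat_lit 304) (nat_lit 0) (XT.lf (nat_lit 0) (nat_lit 5182344230) (nat_lit 380) (nat_lit 3884193282) (nat_lit 76) (nat_lit 6963293147) (nat_lit 135) (nat_lit 5) (nat_lit 140) (nat_lit 5) (nat_lit 136) (nat_lit 5) (nat_lit 631) (nat_lit 530) (nat_lit 399)) (XT.lf (nat_lit 0) (nat_lit 6733869677) (nat_lit 304) (nat_lit 3036499047) (nat_lit 380) (nat_lit 6451899352) (nat_lit 131) (nat_lit 5) (nat_lit 135) (nat_lit 5) (nat_lit 136) (nat_lit 5) (nat_lit 632) (nat_lit 530) (nat_lit 398))) (XT.nd (nat_lit 78) (nat_lit 76) (nat_lit 0) (XT.lf (nat_lit 0) (nat_lit 1166602053) (nat_lit 304) (nat_lit 13321064484) (nat_lit 380) (nat_lit 1930137668)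 (nat_lit 127) (nat_lit 5) (nat_lit 131) (nat_lit 5) (nat_lit 132) (nat_lit 5) (nat_lit 633) (nat_lit 530) (nat_lit 397)) (XT.lf (nat_lit 0) (nat_lit 2714608158) (nat_lit 380) (nat_lit 4517860821) (nat_lit 76) (nat_lit 9383079529) (nat_lit 126) (nat_lit 5) (nat_lit 131) (nat_lit 5) (nat_lit 127) (nat_lit 5) (nat_lit 634) (nat_lit 530) (nat_lit 396)))))) (XT.nd (nat_lit 624) (nat_lit 228) (nat_lit 0) (XT.nd (nat_lit 312) (nat_lit 608) (nat_lit 0) (XT.nd (nat_lit 156) (nat_lit 380) (nat_lit 0) (XT.nd (nat_lit 78) (nat_lit 304) (nat_lit 0) (XT.lf (nat_lit 0) (nat_lit 6475568891) (nat_lit 304) (nat_lit 976747938) (nat_lit 380) (nat_lit 9364157663) (nat_lit 122) (nat_lit 5) (nat_lit 126) (nat_lit 5) (nat_lit 127) (nat_lit 5) (nat_lit 635) (nat_lit 530) (nat_lit 395)) (XT.lf (nat_lit 0) (nat_lit 676073952) (nat_lit 304) (nat_lit 11662620773) (nat_lit 380) (nat_lit 4681646177) (nat_lit 118) (nat_lit 5) (nat_lit 122) (nat_lit 5) (nat_lit 123) (nat_lit 5) (nat_lit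 636) (nat_lit 530) (nat_lit 394))) (XT.nd (nat_lit 78) (nat_lit 304) (nat_lit 0) (XT.lf (nat_lit 0) (nat_lit 153554241) (nat_lit 380) (nat_lit 5207709328) (nat_lit 76) (nat_lit 11865803429) (nat_lit 117) (nat_lit 5) (nat_lit 122) (nat_lit 5) (nat_lit 118) (nat_lit 5) (nat_lit 637) (nat_lit 530) (nat_lit 393)) (XT.lf (nat_lit 0) (nat_lit 5054519814) (nat_lit 380) (nat_lit 11268891157) (nat_lit 76) (nat_lit 1113262959) (nat_lit 113) (nat_lit 5) (nat_lit 118) (nat_lit 5) (nat_lit 114) (nat_lit 5) (nat_lit 638) (nat_lit 530) (nat_lit 392)))) (XT.nd (nat_lit 156) (nat_lit 380) (nat_lit 0) (XT.nd (nat_lit 78) (nat_lit 0) (nat_lit 0) (XT.lf (nat_lit 0) (nat_lit 131205043) (nat_lit 228) (nat_lit 9978176533) (nat_lit 304) (nat_lit 7539974078) (nat_lit 110) (nat_lit 5) (nat_lit 113) (nat_lit 5) (nat_lit 114) (nat_lit 5) (nat_lit 639) (nat_lit 530) (nat_lit 391)) (XT.lf (nat_lit 0) (nat_lit 11885847759) (nat_lit 228) (nat_lit 3439591912) (nat_lit 304) (nat_lit 2539649547)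 (nat_lit 110) (nat_lit 5) (nat_lit 113) (nat_lit 5) (nat_lit 114) (nat_lit 5) (nat_lit 640) (nat_lit 530) (nat_lit 390))) (XT.nd (nat_lit 78) (nat_lit 0) (nat_lit 0) (XT.lf (nat_lit 0) (nat_lit 2570856855) (nat_lit 380) (nat_lit 12281307742) (nat_lit 76) (nat_lit 3231765339) (nat_lit 105) (nat_lit 5) (nat_lit 110) (nat_lit 5) (nat_lit 106) (nat_lit 5) (nat_lit 641) (nat_lit 530) (nat_lit 389)) (XT.lf (nat_lit 0) (nat_lit 7797514738) (nat_lit 380) (nat_lit 470998106) (nat_lit 76) (nat_lit 10037340114) (nat_lit 105) (nat_lit 5) (nat_lit 110) (nat_lit 5) (nat_lit 106) (nat_lit 5) (nat_lit 642) (nat_lit 530) (nat_lit 388))))) (XT.nd (nat_lit 72696) (nat_lit 0) (nat_lit 46284) (XT.nd (nat_lit 72540) (nat_lit 0) (nat_lit 47956) (XT.nd (nat_lit 72462) (nat_lit 0) (nat_lit 47956) (XT.lf (nat_lit 0) (nat_lit 11703557988) (nat_lit 228) (nat_lit 1486181266) (nat_lit 304) (nat_lit 5341254688) (nat_lit 102) (nat_lit 5) (nat_lit 105) (nat_lit 5) (nat_lit 106) (nat_lit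 5) (nat_lit 643) (nat_lit 530) (nat_lit 387)) (XT.lf (nat_lit 0) (nat_lit 692927099) (nat_lit 836) (nat_lit 1321484725) (nat_lit 836) (nat_lit 1321484725) (nat_lit 733) (nat_lit 3) (nat_lit 744) (nat_lit 3) (nat_lit 744) (nat_lit 5) (nat_lit 531) (nat_lit 531) (nat_lit 498))) (XT.nd (nat_lit 78) (nat_lit 0) (nat_lit 0) (XT.lf (nat_lit 76) (nat_lit 691442092) (nat_lit 0) (nat_lit 2962423025) (nat_lit 836) (nat_lit 3039459626) (nat_lit 734) (nat_lit 5) (nat_lit 733) (nat_lit 3) (nat_lit 744) (nat_lit 5) (nat_lit 532) (nat_lit 531) (nat_lit 497)) (XT.lf (nat_lit 76) (nat_lit 4097871867) (nat_lit 0) (nat_lit 1827892632) (nat_lit 836) (nat_lit 790354663) (nat_lit 734) (nat_lit 5) (nat_lit 733) (nat_lit 3) (nat_lit 744) (nat_lit 5) (nat_lit 533) (nat_lit 531) (nat_lit 496)))) (XT.nd (nat_lit 156) (nat_lit 836) (nat_lit 0) (XT.nd (nat_lit 78) (nat_lit 0) (nat_lit 76) (XT.lf (nat_lit 76) (nat_lit 803153707) (nat_lit 0) (nat_lit 627638000) (nat_lit 912) (nat_lit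 5309449480) (nat_lit 723) (nat_lit 5) (nat_lit 722) (nat_lit 5) (nat_lit 734) (nat_lit 5) (nat_lit 534) (nat_lit 531) (nat_lit 495)) (XT.lf (nat_lit 0) (nat_lit 3650037568) (nat_lit 836) (nat_lit 2477047798) (nat_lit 912) (nat_lit 638373163) (nat_lit 723) (nat_lit 5) (nat_lit 734) (nat_lit 5) (nat_lit 735) (nat_lit 5) (nat_lit 535) (nat_lit 531) (nat_lit 494))) (XT.nd (nat_lit 78) (nat_lit 912) (nat_lit 0) (XT.lf (nat_lit 76) (nat_lit 1030370066) (nat_lit 0) (nat_lit 4837958082) (nat_lit 912) (nat_lit 923761379) (nat_lit 724) (nat_lit 5) (nat_lit 723) (nat_lit 5) (nat_lit 735) (nat_lit 5) (nat_lit 536) (nat_lit 531) (nat_lit 493)) (XT.lf (nat_lit 0) (nat_lit 1255605628) (nat_lit 912) (nat_lit 2217750537) (nat_lit 988) (nat_lit 3346507493) (nat_lit 711) (nat_lit 5) (nat_lit 723) (nat_lit 5) (nat_lit 724) (nat_lit 5) (nat_lit 537) (nat_lit 531) (nat_lit 492))))))) (XT.nd (nat_lit 1170) (nat_lit 15048) (nat_lit 0) (XT.nd (nat_lit 546) (nat_lit 2204) (nat_lit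 0) (XT.nd (nat_lit 234) (nat_lit 1064) (nat_lit 0) (XT.nd (nat_lit 78) (nat_lit 912) (nat_lit 0) (XT.lf (nat_lit 76) (nat_lit 1377957743) (nat_lit 0) (nat_lit 2042627963) (nat_lit 988) (nat_lit 3428399906) (nat_lit 712) (nat_lit 5) (nat_lit 711) (nat_lit 5) (nat_lit 724) (nat_lit 5) (nat_lit 538) (nat_lit 531) (nat_lit 491)) (XT.nd (nat_lit 78) (nat_lit 912) (nat_lit 0) (XT.lf (nat_lit 76) (nat_lit 5044752391) (nat_lit 0) (nat_lit 545301294) (nat_lit 988) (nat_lit 1289414864) (nat_lit 712) (nat_lit 5) (nat_lit 711) (nat_lit 5) (nat_lit 724) (nat_lit 5) (nat_lit 539) (nat_lit 531) (nat_lit 490)) (XT.lf (nat_lit 0) (nat_lit 846380495) (nat_lit 988) (nat_lit 5055945240) (nat_lit 1064) (nat_lit 1008807078) (nat_lit 699) (nat_lit 5) (nat_lit 712) (nat_lit 5) (nat_lit 713) (nat_lit 5) (nat_lit 540) (nat_lit 531) (nat_lit 489)))) (XT.nd (nat_lit 156) (nat_lit 1064) (nat_lit 0) (XT.nd (nat_lit 78) (nat_lit 0) (nat_lit 0) (XT.lf (nat_lit 0) (nat_lit 2971633238)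 (nat_lit 988) (nat_lit 1343627489) (nat_lit 1064) (nat_lit 2628721218) (nat_lit 699) (nat_lit 5) (nat_lit 712) (nat_lit 5) (nat_lit 713) (nat_lit 5) (nat_lit 541) (nat_lit 531) (nat_lit 488)) (XT.lf (nat_lit 76) (nat_lit 2443641460) (nat_lit 0) (nat_lit 2660621089) (nat_lit 1064) (nat_lit 1873930215) (nat_lit 700) (nat_lit 5) (nat_lit 699) (nat_lit 5) (nat_lit 713) (nat_lit 5) (nat_lit 542) (nat_lit 531) (nat_lit 487))) (XT.nd (nat_lit 78) (nat_lit 0) (nat_lit 76) (XT.lf (nat_lit 0) (nat_lit 221507178) (nat_lit 1064) (nat_lit 721639508) (nat_lit 1140) (nat_lit 6070737663) (nat_lit 685) (nat_lit 5) (nat_lit 699) (nat_lit 5) (nat_lit 700) (nat_lit 5) (nat_lit 543) (nat_lit 531) (nat_lit 486)) (XT.lf (nat_lit 0) (nat_lit 2310384763) (nat_lit 1064) (nat_lit 3890763017) (nat_lit 1140) (nat_lit 849363797) (nat_lit 686) (nat_lit 5) (nat_lit 700) (nat_lit 5) (nat_lit 701) (nat_lit 5) (nat_lit 544) (nat_lit 531) (nat_lit 485))))) (XT.nd (nat_lit 312) (nat_lit 1140)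 (nat_lit 0) (XT.nd (nat_lit 156) (nat_lit 1140) (nat_lit 0) (XT.nd (nat_lit 78) (nat_lit 0) (nat_lit 0) (XT.lf (nat_lit 76) (nat_lit 2450718) (nat_lit 0) (nat_lit 4401071258) (nat_lit 1140) (nat_lit 2685101704) (nat_lit 687) (nat_lit 5) (nat_lit 686) (nat_lit 5) (nat_lit 701) (nat_lit 5) (nat_lit 545) (nat_lit 531) (nat_lit 484)) (XT.lf (nat_lit 76) (nat_lit 3994404814) (nat_lit 0) (nat_lit 2522318824) (nat_lit 1140) (nat_lit 611212287) (nat_lit 687) (nat_lit 5) (nat_lit 686) (nat_lit 5) (nat_lit 701) (nat_lit 5) (nat_lit 546) (nat_lit 531) (nat_lit 483))) (XT.nd (nat_lit 78) (nat_lit 0) (nat_lit 76) (XT.lf (nat_lit 76) (nat_lit 867910768) (nat_lit 0) (nat_lit 574871017) (nat_lit 1216) (nat_lit 5725892087) (nat_lit 672) (nat_lit 5) (nat_lit 671) (nat_lit 5) (nat_lit 687) (nat_lit 5) (nat_lit 547) (nat_lit 531) (nat_lit 482)) (XT.lf (nat_lit 0) (nat_lit 3513548055) (nat_lit 1140) (nat_lit 2263990001) (nat_lit 1216) (nat_lit 1432932014) (nat_lit 672) (nat_lit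 5) (nat_lit 687) (nat_lit 5) (nat_lit 688) (nat_lit 5) (nat_lit 548) (nat_lit 531) (nat_lit 481)))) (XT.nd (nat_lit 156) (nat_lit 0) (nat_lit 76) (XT.nd (nat_lit 78) (nat_lit 1216) (nat_lit 0) (XT.lf (nat_lit 76) (nat_lit 1841818508) (nat_lit 0) (nat_lit 3754124909) (nat_lit 1216) (nat_lit 1657756286) (nat_lit 673) (nat_lit 5) (nat_lit 672) (nat_lit 5) (nat_lit 688) (nat_lit 5) (nat_lit 549) (nat_lit 531) (nat_lit 480)) (XT.lf (nat_lit 0) (nat_lit 386784777) (nat_lit 1216) (nat_lit 1272339499) (nat_lit 1292) (nat_lit 5639213964) (nat_lit 656) (nat_lit 5) (nat_lit 672) (nat_lit 5) (nat_lit 673) (nat_lit 5) (nat_lit 550) (nat_lit 531) (nat_lit 479))) (XT.nd (nat_lit 78) (nat_lit 0) (nat_lit 0) (XT.lf (nat_lit 0) (nat_lit 2428270391) (nat_lit 1216) (nat_lit 4401691039) (nat_lit 76) (nat_lit 514125623) (nat_lit 657) (nat_lit 5) (nat_lit 673) (nat_lit 5) (nat_lit 658) (nat_lit 5) (nat_lit 551) (nat_lit 531) (nat_lit 478)) (XT.lf (nat_lit 0) (nat_lit 4486630570)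 (nat_lit 1216) (nat_lit 175497586) (nat_lit 76) (nat_lit 2729103440) (nat_lit 657) (nat_lit 5) (nat_lit 673) (nat_lit 5) (nat_lit 658) (nat_lit 5) (nat_lit 552) (nat_lit 531) (nat_lit 477)))))) (XT.nd (nat_lit 624) (nat_lit 8132) (nat_lit 0) (XT.nd (nat_lit 312) (nat_lit 3040) (nat_lit 0) (XT.nd (nat_lit 156) (nat_lit 1368) (nat_lit 0) (XT.nd (nat_lit 78) (nat_lit 1368) (nat_lit 0) (XT.lf (nat_lit 0) (nat_lit 4157842235) (nat_lit 1216) (nat_lit 2412627525) (nat_lit 1292) (nat_lit 869164653) (nat_lit 641) (nat_lit 5) (nat_lit 657) (nat_lit 5) (nat_lit 658) (nat_lit 5) (nat_lit 553) (nat_lit 531) (nat_lit 476)) (XT.lf (nat_lit 0) (nat_lit 1065108245) (nat_lit 1292) (nat_lit 91810712) (nat_lit 1368) (nat_lit 6332615789) (nat_lit 623) (nat_lit 5) (nat_lit 640) (nat_lit 5) (nat_lit 641) (nat_lit 5) (nat_lit 554) (nat_lit 531) (nat_lit 475))) (XT.nd (nat_lit 78) (nat_lit 1368) (nat_lit 0) (XT.lf (nat_lit 0) (nat_lit 3207191040) (nat_lit 1368) (nat_lit 2050184618)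 (nat_lit 76) (nat_lit 2283037949) (nat_lit 623) (nat_lit 5) (nat_lit 641) (nat_lit 5) (nat_lit 624) (nat_lit 5) (nat_lit 555) (nat_lit 531) (nat_lit 474)) (XT.lf (nat_lit 0) (nat_lit 2410242131) (nat_lit 1368) (nat_lit 2863652052) (nat_lit 1444) (nat_lit 2318908846) (nat_lit 605) (nat_lit 5) (nat_lit 623) (nat_lit 5) (nat_lit 624) (nat_lit 5) (nat_lit 556) (nat_lit 531) (nat_lit 473)))) (XT.nd (nat_lit 156) (nat_lit 1520) (nat_lit 0) (XT.nd (nat_lit 78) (nat_lit 1520) (nat_lit 0) (XT.lf (nat_lit 0) (nat_lit 6955578016) (nat_lit 1368) (nat_lit 399872167) (nat_lit 1444) (nat_lit 291321147) (nat_lit 605) (nat_lit 5) (nat_lit 623) (nat_lit 5) (nat_lit 624) (nat_lit 5) (nat_lit 557) (nat_lit 531) (nat_lit 472)) (XT.lf (nat_lit 0) (nat_lit 1753122384) (nat_lit 1520) (nat_lit 3818299308) (nat_lit 76) (nat_lit 2130175839) (nat_lit 585) (nat_lit 5) (nat_lit 605) (nat_lit 5) (nat_lit 586) (nat_lit 5) (nat_lit 558) (nat_lit 531) (nat_lit 471))) (XT.nd (nat_lit 78)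 (nat_lit 0) (nat_lit 0) (XT.lf (nat_lit 0) (nat_lit 774154770) (nat_lit 1520) (nat_lit 3033653781) (nat_lit 1596) (nat_lit 3950209484) (nat_lit 565) (nat_lit 5) (nat_lit 585) (nat_lit 5) (nat_lit 586) (nat_lit 5) (nat_lit 559) (nat_lit 531) (nat_lit 470)) (XT.lf (nat_lit 0) (nat_lit 5477818873) (nat_lit 1520) (nat_lit 412855979) (nat_lit 1596) (nat_lit 1925151723) (nat_lit 565) (nat_lit 5) (nat_lit 585) (nat_lit 5) (nat_lit 586) (nat_lit 5) (nat_lit 560) (nat_lit 531) (nat_lit 469))))) (XT.nd (nat_lit 312) (nat_lit 3040) (nat_lit 0) (XT.nd (nat_lit 156) (nat_lit 3420) (nat_lit 0) (XT.nd (nat_lit 78) (nat_lit 0) (nat_lit 0) (XT.lf (nat_lit 0) (nat_lit 130932010) (nat_lit 1672) (nat_lit 5490997124) (nat_lit 76) (nat_lit 2252997894) (nat_lit 543) (nat_lit 5) (nat_lit 565) (nat_lit 5) (nat_lit 544) (nat_lit 5) (nat_lit 561) (nat_lit 531) (nat_lit 468)) (XT.lf (nat_lit 0) (nat_lit 2183451667) (nat_lit 1672) (nat_lit 751327318) (nat_lit 76) (nat_lit 5000555438)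 (nat_lit 543) (nat_lit 5) (nat_lit 565) (nat_lit 5) (nat_lit 544) (nat_lit 5) (nat_lit 562) (nat_lit 531) (nat_lit 467))) (XT.nd (nat_lit 78) (nat_lit 1748) (nat_lit 0) (XT.lf (nat_lit 0) (nat_lit 4104771893) (nat_lit 1672) (nat_lit 162175846) (nat_lit 1748) (nat_lit 3730204955) (nat_lit 521) (nat_lit 5) (nat_lit 543) (nat_lit 5) (nat_lit 544) (nat_lit 5) (nat_lit 563) (nat_lit 531) (nat_lit 466)) (XT.lf (nat_lit 0) (nat_lit 970720267) (nat_lit 1748) (nat_lit 5413894843) (nat_lit 1824) (nat_lit 1675743419) (nat_lit 498) (nat_lit 5) (nat_lit 521) (nat_lit 5) (nat_lit 522) (nat_lit 5) (nat_lit 564) (nat_lit 531) (nat_lit 465)))) (XT.nd (nat_lit 156) (nat_lit 1140) (nat_lit 0) (XT.nd (nat_lit 78) (nat_lit 1824) (nat_lit 0) (XT.lf (nat_lit 0) (nat_lit 405744201) (nat_lit 1824) (nat_lit 2177436227) (nat_lit 76) (nat_lit 5541765866) (nat_lit 497) (nat_lit 5) (nat_lit 521) (nat_lit 5) (nat_lit 498) (nat_lit 5) (nat_lit 565) (nat_lit 531) (nat_lit 464)) (XT.lf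 (nat_lit 0) (nat_lit 2491765232) (nat_lit 1900) (nat_lit 5366502750) (nat_lit 76) (nat_lit 332630618) (nat_lit 473) (nat_lit 5) (nat_lit 498) (nat_lit 5) (nat_lit 474) (nat_lit 5) (nat_lit 566) (nat_lit 531) (nat_lit 463))) (XT.nd (nat_lit 78) (nat_lit 1140) (nat_lit 0) (XT.lf (nat_lit 0) (nat_lit 4616601269) (nat_lit 1900) (nat_lit 352157186) (nat_lit 76) (nat_lit 3289470736) (nat_lit 473) (nat_lit 5) (nat_lit 498) (nat_lit 5) (nat_lit 474) (nat_lit 5) (nat_lit 567) (nat_lit 531) (nat_lit 462)) (XT.lf (nat_lit 0) (nat_lit 4793126397) (nat_lit 1140) (nat_lit 1987887514) (nat_lit 1216) (nat_lit 1545951997) (nat_lit 458) (nat_lit 5) (nat_lit 473) (nat_lit 5) (nat_lit 474) (nat_lit 5) (nat_lit 568) (nat_lit 531) (nat_lit 461))))))))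
noncomputable def xc89 : XT := (XT.nd (nat_lit 2418) (nat_lit 8968) (nat_lit 0) (XT.nd (nat_lit 1170) (nat_lit 6612) (nat_lit 0) (XT.nd (nat_lit 546) (nat_lit 4864) (nat_lit 0) (XT.nd (nat_lit 234) (nat_lit 1824) (nat_lit 0) (XT.nd (nat_lit 78) (nat_lit 912) (nat_lit 0) (XT.lf (nat_lit 0) (nat_lit 570017426) (nat_lit 988) (nat_lit 6770187516) (nat_lit 76) (nat_lit 1057073870) (nat_lit 445) (nat_lit 5) (nat_lit 458) (nat_lit 5) (nat_lit 446) (nat_lit 5) (nat_lit 569) (nat_lit 531) (nat_lit 460)) (XT.nd (nat_lit 78) (nat_lit 912) (nat_lit 0) (XT.lf (nat_lit 0) (nat_lit 2711317793) (nat_lit 988) (nat_lit 1585852604) (nat_lit 76) (nat_lit 4171550013) (nat_lit 445) (nat_lit 5) (nat_lit 458) (nat_lit 5) (nat_lit 446) (nat_lit 5) (nat_lit 570) (nat_lit 531) (nat_lit 459)) (XT.lf (nat_lit 0) (nat_lit 3718673610) (nat_lit 912) (nat_lit 1168225155) (nat_lit 988) (nat_lit 3654864009) (nat_lit 433) (nat_lit 5) (nat_lit 445) (nat_lit 5) (nat_lit 446) (nat_lit 5) (nat_lit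 571) (nat_lit 531) (nat_lit 458)))) (XT.nd (nat_lit 156) (nat_lit 912) (nat_lit 0) (XT.nd (nat_lit 78) (nat_lit 76) (nat_lit 0) (XT.lf (nat_lit 0) (nat_lit 495321362) (nat_lit 836) (nat_lit 6605479604) (nat_lit 912) (nat_lit 1515569833) (nat_lit 422) (nat_lit 5) (nat_lit 433) (nat_lit 5) (nat_lit 434) (nat_lit 5) (nat_lit 572) (nat_lit 531) (nat_lit 457)) (XT.lf (nat_lit 0) (nat_lit 666039633) (nat_lit 912) (nat_lit 2751537026) (nat_lit 76) (nat_lit 5274643328) (nat_lit 421) (nat_lit 5) (nat_lit 433) (nat_lit 5) (nat_lit 422) (nat_lit 5) (nat_lit 573) (nat_lit 531) (nat_lit 456))) (XT.nd (nat_lit 78) (nat_lit 0) (nat_lit 0) (XT.lf (nat_lit 0) (nat_lit 2718717236) (nat_lit 912) (nat_lit 138524016) (nat_lit 988) (nat_lit 5912420429) (nat_lit 409) (nat_lit 5) (nat_lit 421) (nat_lit 5) (nat_lit 422) (nat_lit 5) (nat_lit 574) (nat_lit 531) (nat_lit 455)) (XT.lf (nat_lit 0) (nat_lit 5100653497) (nat_lit 988) (nat_lit 566217009) (nat_lit 76) (nat_lit 3181614899)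 (nat_lit 409) (nat_lit 5) (nat_lit 422) (nat_lit 5) (nat_lit 410) (nat_lit 5) (nat_lit 575) (nat_lit 531) (nat_lit 454))))) (XT.nd (nat_lit 312) (nat_lit 2356) (nat_lit 0) (XT.nd (nat_lit 156) (nat_lit 760) (nat_lit 0) (XT.nd (nat_lit 78) (nat_lit 912) (nat_lit 0) (XT.lf (nat_lit 0) (nat_lit 5061642528) (nat_lit 836) (nat_lit 2330664397) (nat_lit 912) (nat_lit 1536512131) (nat_lit 398) (nat_lit 5) (nat_lit 409) (nat_lit 5) (nat_lit 410) (nat_lit 5) (nat_lit 576) (nat_lit 531) (nat_lit 453)) (XT.lf (nat_lit 0) (nat_lit 701885425) (nat_lit 912) (nat_lit 7232490584) (nat_lit 76) (nat_lit 1076445245) (nat_lit 386) (nat_lit 5) (nat_lit 398) (nat_lit 5) (nat_lit 387) (nat_lit 5) (nat_lit 577) (nat_lit 531) (nat_lit 452))) (XT.nd (nat_lit 78) (nat_lit 760) (nat_lit 0) (XT.lf (nat_lit 0) (nat_lit 2976206327) (nat_lit 912) (nat_lit 1563150746) (nat_lit 76) (nat_lit 4554669569) (nat_lit 386) (nat_lit 5) (nat_lit 398) (nat_lit 5) (nat_lit 387) (nat_lit 5) (nat_lit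 578) (nat_lit 531) (nat_lit 451)) (XT.lf (nat_lit 0) (nat_lit 4243273679) (nat_lit 760) (nat_lit 1051027906) (nat_lit 836) (nat_lit 3884629636) (nat_lit 376) (nat_lit 5) (nat_lit 386) (nat_lit 5) (nat_lit 387) (nat_lit 5) (nat_lit 579) (nat_lit 531) (nat_lit 450)))) (XT.nd (nat_lit 156) (nat_lit 1520) (nat_lit 0) (XT.nd (nat_lit 78) (nat_lit 76) (nat_lit 0) (XT.lf (nat_lit 0) (nat_lit 884643146) (nat_lit 760) (nat_lit 6777782838) (nat_lit 836) (nat_lit 1603035389) (nat_lit 366) (nat_lit 5) (nat_lit 376) (nat_lit 5) (nat_lit 377) (nat_lit 5) (nat_lit 580) (nat_lit 531) (nat_lit 449)) (XT.lf (nat_lit 0) (nat_lit 726249134) (nat_lit 836) (nat_lit 2509161217) (nat_lit 76) (nat_lit 6117987405) (nat_lit 365) (nat_lit 5) (nat_lit 376) (nat_lit 5) (nat_lit 366) (nat_lit 5) (nat_lit 581) (nat_lit 531) (nat_lit 448))) (XT.nd (nat_lit 78) (nat_lit 760) (nat_lit 0) (XT.lf (nat_lit 0) (nat_lit 3077758312) (nat_lit 836) (nat_lit 5962483948) (nat_lit 76) (nat_lit 402697392)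 (nat_lit 355) (nat_lit 5) (nat_lit 366) (nat_lit 5) (nat_lit 356) (nat_lit 5) (nat_lit 582) (nat_lit 531) (nat_lit 447)) (XT.lf (nat_lit 0) (nat_lit 36724884) (nat_lit 760) (nat_lit 5450328920) (nat_lit 836) (nat_lit 4047004221) (nat_lit 345) (nat_lit 5) (nat_lit 355) (nat_lit 5) (nat_lit 356) (nat_lit 5) (nat_lit 583) (nat_lit 531) (nat_lit 446)))))) (XT.nd (nat_lit 624) (nat_lit 3116) (nat_lit 0) (XT.nd (nat_lit 312) (nat_lit 2052) (nat_lit 0) (XT.nd (nat_lit 156) (nat_lit 684) (nat_lit 0) (XT.nd (nat_lit 78) (nat_lit 760) (nat_lit 0) (XT.lf (nat_lit 0) (nat_lit 6204792135) (nat_lit 760) (nat_lit 1752235111) (nat_lit 836) (nat_lit 1669722426) (nat_lit 345) (nat_lit 5) (nat_lit 355) (nat_lit 5) (nat_lit 356) (nat_lit 5) (nat_lit 584) (nat_lit 531) (nat_lit 445)) (XT.lf (nat_lit 0) (nat_lit 749294299) (nat_lit 760) (nat_lit 6959887087) (nat_lit 76) (nat_lit 2011934580) (nat_lit 335) (nat_lit 5) (nat_lit 345) (nat_lit 5) (nat_lit 336) (nat_lit 5) (nat_lit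 585) (nat_lit 531) (nat_lit 444))) (XT.nd (nat_lit 78) (nat_lit 684) (nat_lit 0) (XT.lf (nat_lit 0) (nat_lit 3202212941) (nat_lit 760) (nat_lit 757242527) (nat_lit 76) (nat_lit 5857536501) (nat_lit 335) (nat_lit 5) (nat_lit 345) (nat_lit 5) (nat_lit 336) (nat_lit 5) (nat_lit 586) (nat_lit 531) (nat_lit 443)) (XT.lf (nat_lit 0) (nat_lit 5611697740) (nat_lit 684) (nat_lit 102592618) (nat_lit 760) (nat_lit 4200293816) (nat_lit 326) (nat_lit 5) (nat_lit 335) (nat_lit 5) (nat_lit 336) (nat_lit 5) (nat_lit 587) (nat_lit 531) (nat_lit 442)))) (XT.nd (nat_lit 156) (nat_lit 1292) (nat_lit 0) (XT.nd (nat_lit 78) (nat_lit 76) (nat_lit 0) (XT.lf (nat_lit 0) (nat_lit 2074921006) (nat_lit 684) (nat_lit 6219097628) (nat_lit 760) (nat_lit 1719762082) (nat_lit 317) (nat_lit 5) (nat_lit 326) (nat_lit 5) (nat_lit 327) (nat_lit 5) (nat_lit 588) (nat_lit 531) (nat_lit 441)) (XT.lf (nat_lit 0) (nat_lit 803579272) (nat_lit 760) (nat_lit 1513678565) (nat_lit 76) (nat_lit 7797522226)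 (nat_lit 316) (nat_lit 5) (nat_lit 326) (nat_lit 5) (nat_lit 317) (nat_lit 5) (nat_lit 589) (nat_lit 531) (nat_lit 440))) (XT.nd (nat_lit 78) (nat_lit 608) (nat_lit 0) (XT.lf (nat_lit 0) (nat_lit 3372900328) (nat_lit 760) (nat_lit 5164593883) (nat_lit 76) (nat_lit 1679707660) (nat_lit 307) (nat_lit 5) (nat_lit 317) (nat_lit 5) (nat_lit 308) (nat_lit 5) (nat_lit 590) (nat_lit 531) (nat_lit 439)) (XT.lf (nat_lit 0) (nat_lit 1421082938) (nat_lit 608) (nat_lit 4582172029) (nat_lit 684) (nat_lit 4318224832) (nat_lit 299) (nat_lit 5) (nat_lit 307) (nat_lit 5) (nat_lit 308) (nat_lit 5) (nat_lit 591) (nat_lit 531) (nat_lit 438))))) (XT.nd (nat_lit 312) (nat_lit 1824) (nat_lit 0) (XT.nd (nat_lit 156) (nat_lit 608) (nat_lit 0) (XT.nd (nat_lit 78) (nat_lit 684) (nat_lit 0) (XT.lf (nat_lit 0) (nat_lit 8177276287) (nat_lit 608) (nat_lit 518737723) (nat_lit 684) (nat_lit 1731633942) (nat_lit 299) (nat_lit 5) (nat_lit 307) (nat_lit 5) (nat_lit 308) (nat_lit 5) (nat_lit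 592) (nat_lit 531) (nat_lit 437)) (XT.lf (nat_lit 0) (nat_lit 923576522) (nat_lit 684) (nat_lit 6003861599) (nat_lit 76) (nat_lit 3607808617) (nat_lit 290) (nat_lit 5) (nat_lit 299) (nat_lit 5) (nat_lit 291) (nat_lit 5) (nat_lit 593) (nat_lit 531) (nat_lit 436))) (XT.nd (nat_lit 78) (nat_lit 0) (nat_lit 0) (XT.lf (nat_lit 0) (nat_lit 798901104) (nat_lit 608) (nat_lit 2809354011) (nat_lit 684) (nat_lit 7036523032) (nat_lit 282) (nat_lit 5) (nat_lit 290) (nat_lit 5) (nat_lit 291) (nat_lit 5) (nat_lit 594) (nat_lit 531) (nat_lit 435)) (XT.lf (nat_lit 0) (nat_lit 6372150710) (nat_lit 684) (nat_lit 2977280531) (nat_lit 76) (nat_lit 1406559039) (nat_lit 282) (nat_lit 5) (nat_lit 291) (nat_lit 5) (nat_lit 283) (nat_lit 5) (nat_lit 595) (nat_lit 531) (nat_lit 434)))) (XT.nd (nat_lit 156) (nat_lit 608) (nat_lit 0) (XT.nd (nat_lit 78) (nat_lit 608) (nat_lit 0) (XT.lf (nat_lit 0) (nat_lit 4032190915) (nat_lit 608) (nat_lit 5180325457) (nat_lit 684) (nat_lit 1656486998)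 (nat_lit 274) (nat_lit 5) (nat_lit 282) (nat_lit 5) (nat_lit 283) (nat_lit 5) (nat_lit 596) (nat_lit 531) (nat_lit 433)) (XT.lf (nat_lit 0) (nat_lit 202666177) (nat_lit 532) (nat_lit 905930308) (nat_lit 608) (nat_lit 9875575755) (nat_lit 266) (nat_lit 5) (nat_lit 273) (nat_lit 5) (nat_lit 274) (nat_lit 5) (nat_lit 597) (nat_lit 531) (nat_lit 432))) (XT.nd (nat_lit 78) (nat_lit 608) (nat_lit 0) (XT.lf (nat_lit 0) (nat_lit 3952159199) (nat_lit 608) (nat_lit 3689915439) (nat_lit 76) (nat_lit 3458444225) (nat_lit 266) (nat_lit 5) (nat_lit 274) (nat_lit 5) (nat_lit 267) (nat_lit 5) (nat_lit 598) (nat_lit 531) (nat_lit 431)) (XT.lf (nat_lit 0) (nat_lit 3553625261) (nat_lit 608) (nat_lit 3305225616) (nat_lit 684) (nat_lit 4360216902) (nat_lit 258) (nat_lit 5) (nat_lit 266) (nat_lit 5) (nat_lit 267) (nat_lit 5) (nat_lit 599) (nat_lit 531) (nat_lit 430))))))) (XT.nd (nat_lit 1170) (nat_lit 3952) (nat_lit 0) (XT.nd (nat_lit 546) (nat_lit 2812) (nat_lit 0) (XT.nd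 (nat_lit 234) (nat_lit 1064) (nat_lit 0) (XT.nd (nat_lit 78) (nat_lit 1140) (nat_lit 0) (XT.lf (nat_lit 0) (nat_lit 9833249002) (nat_lit 684) (nat_lit 385552687) (nat_lit 76) (nat_lit 1120995035) (nat_lit 258) (nat_lit 5) (nat_lit 267) (nat_lit 5) (nat_lit 259) (nat_lit 5) (nat_lit 600) (nat_lit 531) (nat_lit 429)) (XT.nd (nat_lit 78) (nat_lit 532) (nat_lit 0) (XT.lf (nat_lit 0) (nat_lit 1431772625) (nat_lit 608) (nat_lit 4390622058) (nat_lit 76) (nat_lit 5639443828) (nat_lit 250) (nat_lit 5) (nat_lit 258) (nat_lit 5) (nat_lit 251) (nat_lit 5) (nat_lit 601) (nat_lit 531) (nat_lit 428)) (XT.lf (nat_lit 0) (nat_lit 3096511073) (nat_lit 532) (nat_lit 1312828055) (nat_lit 608) (nat_lit 7176770265) (nat_lit 243) (nat_lit 5) (nat_lit 250) (nat_lit 5) (nat_lit 251) (nat_lit 5) (nat_lit 602) (nat_lit 531) (nat_lit 427)))) (XT.nd (nat_lit 156) (nat_lit 608) (nat_lit 0) (XT.nd (nat_lit 78) (nat_lit 456) (nat_lit 0) (XT.lf (nat_lit 0) (nat_lit 7475566229) (nat_lit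 608) (nat_lit 971279114) (nat_lit 76) (nat_lit 3265438630) (nat_lit 243) (nat_lit 5) (nat_lit 251) (nat_lit 5) (nat_lit 244) (nat_lit 5) (nat_lit 603) (nat_lit 531) (nat_lit 426)) (XT.lf (nat_lit 0) (nat_lit 6747431974) (nat_lit 456) (nat_lit 3886727976) (nat_lit 532) (nat_lit 1206201708) (nat_lit 237) (nat_lit 5) (nat_lit 243) (nat_lit 5) (nat_lit 244) (nat_lit 5) (nat_lit 604) (nat_lit 531) (nat_lit 425))) (XT.nd (nat_lit 78) (nat_lit 0) (nat_lit 0) (XT.lf (nat_lit 0) (nat_lit 1867780278) (nat_lit 608) (nat_lit 9320359795) (nat_lit 76) (nat_lit 782464963) (nat_lit 229) (nat_lit 5) (nat_lit 237) (nat_lit 5) (nat_lit 230) (nat_lit 5) (nat_lit 605) (nat_lit 531) (nat_lit 424)) (XT.lf (nat_lit 0) (nat_lit 5026046371) (nat_lit 608) (nat_lit 1549438675) (nat_lit 76) (nat_lit 5527030096) (nat_lit 229) (nat_lit 5) (nat_lit 237) (nat_lit 5) (nat_lit 230) (nat_lit 5) (nat_lit 606) (nat_lit 531) (nat_lit 423))))) (XT.nd (nat_lit 312) (nat_lit 1368) (nat_lit 0)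 (XT.nd (nat_lit 156) (nat_lit 532) (nat_lit 0) (XT.nd (nat_lit 78) (nat_lit 456) (nat_lit 0) (XT.lf (nat_lit 0) (nat_lit 6431809876) (nat_lit 456) (nat_lit 1836641129) (nat_lit 532) (nat_lit 3968193400) (nat_lit 223) (nat_lit 5) (nat_lit 229) (nat_lit 5) (nat_lit 230) (nat_lit 5) (nat_lit 607) (nat_lit 531) (nat_lit 422)) (XT.lf (nat_lit 0) (nat_lit 2200159363) (nat_lit 456) (nat_lit 9399128974) (nat_lit 532) (nat_lit 773696638) (nat_lit 217) (nat_lit 5) (nat_lit 223) (nat_lit 5) (nat_lit 224) (nat_lit 5) (nat_lit 608) (nat_lit 531) (nat_lit 421))) (XT.nd (nat_lit 78) (nat_lit 456) (nat_lit 0) (XT.lf (nat_lit 0) (nat_lit 2482930351) (nat_lit 532) (nat_lit 2125573206) (nat_lit 76) (nat_lit 7902610002) (nat_lit 216) (nat_lit 5) (nat_lit 223) (nat_lit 5) (nat_lit 217) (nat_lit 5) (nat_lit 609) (nat_lit 531) (nat_lit 420)) (XT.lf (nat_lit 0) (nat_lit 5816031356) (nat_lit 532) (nat_lit 6524776684) (nat_lit 76) (nat_lit 310660755) (nat_lit 210) (nat_lit 5) (nat_lit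 217) (nat_lit 5) (nat_lit 211) (nat_lit 5) (nat_lit 610) (nat_lit 531) (nat_lit 419)))) (XT.nd (nat_lit 156) (nat_lit 912) (nat_lit 0) (XT.nd (nat_lit 78) (nat_lit 0) (nat_lit 0) (XT.lf (nat_lit 0) (nat_lit 1741441535) (nat_lit 456) (nat_lit 7510542187) (nat_lit 532) (nat_lit 3541924008) (nat_lit 204) (nat_lit 5) (nat_lit 210) (nat_lit 5) (nat_lit 211) (nat_lit 5) (nat_lit 611) (nat_lit 531) (nat_lit 418)) (XT.lf (nat_lit 0) (nat_lit 10232368631) (nat_lit 456) (nat_lit 2548279258) (nat_lit 532) (nat_lit 158068075) (nat_lit 204) (nat_lit 5) (nat_lit 210) (nat_lit 5) (nat_lit 211) (nat_lit 5) (nat_lit 612) (nat_lit 531) (nat_lit 417))) (XT.nd (nat_lit 78) (nat_lit 456) (nat_lit 0) (XT.lf (nat_lit 0) (nat_lit 3285260095) (nat_lit 456) (nat_lit 7269214866) (nat_lit 76) (nat_lit 2530818302) (nat_lit 198) (nat_lit 5) (nat_lit 204) (nat_lit 5) (nat_lit 199) (nat_lit 5) (nat_lit 613) (nat_lit 531) (nat_lit 416)) (XT.lf (nat_lit 0) (nat_lit 1281068667) (nat_lit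 456) (nat_lit 5538351394) (nat_lit 532) (nat_lit 6414879868) (nat_lit 192) (nat_lit 5) (nat_lit 198) (nat_lit 5) (nat_lit 199) (nat_lit 5) (nat_lit 614) (nat_lit 531) (nat_lit 415)))))) (XT.nd (nat_lit 624) (nat_lit 1900) (nat_lit 0) (XT.nd (nat_lit 312) (nat_lit 1216) (nat_lit 0) (XT.nd (nat_lit 156) (nat_lit 380) (nat_lit 0) (XT.nd (nat_lit 78) (nat_lit 456) (nat_lit 0) (XT.lf (nat_lit 0) (nat_lit 10072195368) (nat_lit 456) (nat_lit 381647010) (nat_lit 532) (nat_lit 2931853112) (nat_lit 192) (nat_lit 5) (nat_lit 198) (nat_lit 5) (nat_lit 199) (nat_lit 5) (nat_lit 615) (nat_lit 531) (nat_lit 414)) (XT.lf (nat_lit 0) (nat_lit 661582775) (nat_lit 456) (nat_lit 8032319394) (nat_lit 76) (nat_lit 4845158690) (nat_lit 186) (nat_lit 5) (nat_lit 192) (nat_lit 5) (nat_lit 187) (nat_lit 5) (nat_lit 616) (nat_lit 531) (nat_lit 413))) (XT.nd (nat_lit 78) (nat_lit 0) (nat_lit 0) (XT.lf (nat_lit 0) (nat_lit 813314666) (nat_lit 380) (nat_lit 3485720077) (nat_lit 456)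 (nat_lit 9395843428) (nat_lit 181) (nat_lit 5) (nat_lit 186) (nat_lit 5) (nat_lit 187) (nat_lit 5) (nat_lit 617) (nat_lit 531) (nat_lit 412)) (XT.lf (nat_lit 0) (nat_lit 8056653248) (nat_lit 456) (nat_lit 3948846930) (nat_lit 76) (nat_lit 1847363621) (nat_lit 181) (nat_lit 5) (nat_lit 187) (nat_lit 5) (nat_lit 182) (nat_lit 5) (nat_lit 618) (nat_lit 531) (nat_lit 411)))) (XT.nd (nat_lit 156) (nat_lit 380) (nat_lit 0) (XT.nd (nat_lit 78) (nat_lit 456) (nat_lit 0) (XT.lf (nat_lit 0) (nat_lit 5179290490) (nat_lit 380) (nat_lit 6748511711) (nat_lit 456) (nat_lit 2085439690) (nat_lit 176) (nat_lit 5) (nat_lit 181) (nat_lit 5) (nat_lit 182) (nat_lit 5) (nat_lit 619) (nat_lit 531) (nat_lit 410)) (XT.lf (nat_lit 0) (nat_lit 332232937) (nat_lit 380) (nat_lit 1355579503) (nat_lit 456) (nat_lit 12488583599) (nat_lit 170) (nat_lit 5) (nat_lit 175) (nat_lit 5) (nat_lit 176) (nat_lit 5) (nat_lit 620) (nat_lit 531) (nat_lit 409))) (XT.nd (nat_lit 78) (nat_lit 380) (nat_lit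 0) (XT.lf (nat_lit 0) (nat_lit 5577055411) (nat_lit 456) (nat_lit 4609505316) (nat_lit 76) (nat_lit 4154608146) (nat_lit 170) (nat_lit 5) (nat_lit 176) (nat_lit 5) (nat_lit 171) (nat_lit 5) (nat_lit 621) (nat_lit 531) (nat_lit 408)) (XT.lf (nat_lit 0) (nat_lit 4836606886) (nat_lit 380) (nat_lit 4730049517) (nat_lit 456) (nat_lit 4942129586) (nat_lit 165) (nat_lit 5) (nat_lit 170) (nat_lit 5) (nat_lit 171) (nat_lit 5) (nat_lit 622) (nat_lit 531) (nat_lit 407))))) (XT.nd (nat_lit 312) (nat_lit 1140) (nat_lit 0) (XT.nd (nat_lit 156) (nat_lit 304) (nat_lit 0) (XT.nd (nat_lit 78) (nat_lit 456) (nat_lit 0) (XT.lf (nat_lit 0) (nat_lit 13654911444) (nat_lit 456) (nat_lit 178443523) (nat_lit 76) (nat_lit 846023524) (nat_lit 165) (nat_lit 5) (nat_lit 171) (nat_lit 5) (nat_lit 166) (nat_lit 5) (nat_lit 623) (nat_lit 531) (nat_lit 406)) (XT.lf (nat_lit 0) (nat_lit 3009200421) (nat_lit 456) (nat_lit 5299531921) (nat_lit 76) (nat_lit 6542732427) (nat_lit 159) (nat_lit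 5) (nat_lit 165) (nat_lit 5) (nat_lit 160) (nat_lit 5) (nat_lit 624) (nat_lit 531) (nat_lit 405))) (XT.nd (nat_lit 78) (nat_lit 0) (nat_lit 0) (XT.lf (nat_lit 0) (nat_lit 4476983920) (nat_lit 304) (nat_lit 2645822634) (nat_lit 380) (nat_lit 7903791391) (nat_lit 155) (nat_lit 5) (nat_lit 159) (nat_lit 5) (nat_lit 160) (nat_lit 5) (nat_lit 625) (nat_lit 531) (nat_lit 404)) (XT.lf (nat_lit 0) (nat_lit 11357602726) (nat_lit 380) (nat_lit 731621079) (nat_lit 76) (nat_lit 3115231883) (nat_lit 155) (nat_lit 5) (nat_lit 160) (nat_lit 5) (nat_lit 156) (nat_lit 5) (nat_lit 626) (nat_lit 531) (nat_lit 403)))) (XT.nd (nat_lit 156) (nat_lit 380) (nat_lit 0) (XT.nd (nat_lit 78) (nat_lit 304) (nat_lit 0) (XT.lf (nat_lit 0) (nat_lit 349244752) (nat_lit 456) (nat_lit 6025825440) (nat_lit 76) (nat_lit 9009526029) (nat_lit 149) (nat_lit 5) (nat_lit 155) (nat_lit 5) (nat_lit 150) (nat_lit 5) (nat_lit 627) (nat_lit 531) (nat_lit 402)) (XT.lf (nat_lit 0) (nat_lit 4093915454)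 (nat_lit 304) (nat_lit 498589588) (nat_lit 380) (nat_lit 10975031217) (nat_lit 145) (nat_lit 5) (nat_lit 149) (nat_lit 5) (nat_lit 150) (nat_lit 5) (nat_lit 628) (nat_lit 531) (nat_lit 401))) (XT.nd (nat_lit 78) (nat_lit 380) (nat_lit 0) (XT.lf (nat_lit 0) (nat_lit 8980284859) (nat_lit 380) (nat_lit 1318547356) (nat_lit 76) (nat_lit 5454110038) (nat_lit 145) (nat_lit 5) (nat_lit 150) (nat_lit 5) (nat_lit 146) (nat_lit 5) (nat_lit 629) (nat_lit 531) (nat_lit 400)) (XT.lf (nat_lit 0) (nat_lit 9129585231) (nat_lit 380) (nat_lit 4372410471) (nat_lit 456) (nat_lit 2439137393) (nat_lit 140) (nat_lit 5) (nat_lit 145) (nat_lit 5) (nat_lit 146) (nat_lit 5) (nat_lit 630) (nat_lit 531) (nat_lit 399))))))))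
noncomputable def xc90 : XT := (XT.nd (nat_lit 74880) (nat_lit 0) (nat_lit 20824) (XT.nd (nat_lit 73632) (nat_lit 0) (nat_lit 43244) (XT.nd (nat_lit 546) (nat_lit 1216) (nat_lit 0) (XT.nd (nat_lit 234) (nat_lit 988) (nat_lit 0) (XT.nd (nat_lit 78) (nat_lit 304) (nat_lit 0) (XT.lf (nat_lit 0) (nat_lit 1982610802) (nat_lit 380) (nat_lit 12463125464) (nat_lit 76) (nat_lit 1686543676) (nat_lit 135) (nat_lit 5) (nat_lit 140) (nat_lit 5) (nat_lit 136) (nat_lit 5) (nat_lit 631) (nat_lit 531) (nat_lit 398)) (XT.nd (nat_lit 78) (nat_lit 304) (nat_lit 0) (XT.lf (nat_lit 0) (nat_lit 6518857649) (nat_lit 380) (nat_lit 1946548775) (nat_lit 76) (nat_lit 7860346597) (nat_lit 135) (nat_lit 5) (nat_lit 140) (nat_lit 5) (nat_lit 136) (nat_lit 5) (nat_lit 632) (nat_lit 531) (nat_lit 397)) (XT.lf (nat_lit 0) (nat_lit 8870616703) (nat_lit 304) (nat_lit 2316850839) (nat_lit 380) (nat_lit 5334795476) (nat_lit 131) (nat_lit 5) (nat_lit 135) (nat_lit 5) (nat_lit 136) (nat_lit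 5) (nat_lit 633) (nat_lit 531) (nat_lit 396)))) (XT.nd (nat_lit 156) (nat_lit 608) (nat_lit 0) (XT.nd (nat_lit 78) (nat_lit 76) (nat_lit 0) (XT.lf (nat_lit 0) (nat_lit 3198088378) (nat_lit 304) (nat_lit 12795073855) (nat_lit 380) (nat_lit 728666945) (nat_lit 127) (nat_lit 5) (nat_lit 131) (nat_lit 5) (nat_lit 132) (nat_lit 5) (nat_lit 634) (nat_lit 531) (nat_lit 395)) (XT.lf (nat_lit 0) (nat_lit 3968713742) (nat_lit 380) (nat_lit 2623478806) (nat_lit 76) (nat_lit 10331655028) (nat_lit 126) (nat_lit 5) (nat_lit 131) (nat_lit 5) (nat_lit 127) (nat_lit 5) (nat_lit 635) (nat_lit 531) (nat_lit 394))) (XT.nd (nat_lit 78) (nat_lit 304) (nat_lit 0) (XT.lf (nat_lit 0) (nat_lit 8576762005) (nat_lit 304) (nat_lit 213690294) (nat_lit 380) (nat_lit 8338554574) (nat_lit 122) (nat_lit 5) (nat_lit 126) (nat_lit 5) (nat_lit 127) (nat_lit 5) (nat_lit 636) (nat_lit 531) (nat_lit 393)) (XT.lf (nat_lit 0) (nat_lit 2666898443) (nat_lit 304) (nat_lit 11102163280) (nat_lit 380)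 (nat_lit 3567999109) (nat_lit 118) (nat_lit 5) (nat_lit 122) (nat_lit 5) (nat_lit 123) (nat_lit 5) (nat_lit 637) (nat_lit 531) (nat_lit 392))))) (XT.nd (nat_lit 312) (nat_lit 608) (nat_lit 0) (XT.nd (nat_lit 156) (nat_lit 228) (nat_lit 0) (XT.nd (nat_lit 78) (nat_lit 304) (nat_lit 0) (XT.lf (nat_lit 0) (nat_lit 1324709931) (nat_lit 380) (nat_lit 3357793478) (nat_lit 76) (nat_lit 12865728795) (nat_lit 117) (nat_lit 5) (nat_lit 122) (nat_lit 5) (nat_lit 118) (nat_lit 5) (nat_lit 638) (nat_lit 531) (nat_lit 391)) (XT.lf (nat_lit 0) (nat_lit 6318481391) (nat_lit 380) (nat_lit 9534971361) (nat_lit 76) (nat_lit 1908683074) (nat_lit 113) (nat_lit 5) (nat_lit 118) (nat_lit 5) (nat_lit 114) (nat_lit 5) (nat_lit 639) (nat_lit 531) (nat_lit 390))) (XT.nd (nat_lit 78) (nat_lit 0) (nat_lit 0) (XT.lf (nat_lit 0) (nat_lit 2080236648) (nat_lit 228) (nat_lit 9384039714) (nat_lit 304) (nat_lit 6514998381) (nat_lit 110) (nat_lit 5) (nat_lit 113) (nat_lit 5) (nat_lit 114)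 (nat_lit 5) (nat_lit 640) (nat_lit 531) (nat_lit 389)) (XT.lf (nat_lit 0) (nat_lit 14031807365) (nat_lit 228) (nat_lit 2730246152) (nat_lit 304) (nat_lit 1437721775) (nat_lit 110) (nat_lit 5) (nat_lit 113) (nat_lit 5) (nat_lit 114) (nat_lit 5) (nat_lit 641) (nat_lit 531) (nat_lit 388)))) (XT.nd (nat_lit 72618) (nat_lit 0) (nat_lit 47120) (XT.nd (nat_lit 78) (nat_lit 228) (nat_lit 0) (XT.lf (nat_lit 0) (nat_lit 3755060217) (nat_lit 380) (nat_lit 10598730285) (nat_lit 76) (nat_lit 4069149227) (nat_lit 105) (nat_lit 5) (nat_lit 110) (nat_lit 5) (nat_lit 106) (nat_lit 5) (nat_lit 642) (nat_lit 531) (nat_lit 387)) (XT.lf (nat_lit 0) (nat_lit 1428715489) (nat_lit 228) (nat_lit 7644600442) (nat_lit 304) (nat_lit 9576244243) (nat_lit 102) (nat_lit 5) (nat_lit 105) (nat_lit 5) (nat_lit 106) (nat_lit 5) (nat_lit 643) (nat_lit 531) (nat_lit 386))) (XT.nd (nat_lit 78) (nat_lit 836) (nat_lit 0) (XT.lf (nat_lit 0) (nat_lit 2941842413) (nat_lit 836) (nat_lit 207984181)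 (nat_lit 836) (nat_lit 207984181) (nat_lit 733) (nat_lit 3) (nat_lit 744) (nat_lit 3) (nat_lit 744) (nat_lit 5) (nat_lit 532) (nat_lit 532) (nat_lit 496)) (XT.lf (nat_lit 0) (nat_lit 1366899551) (nat_lit 836) (nat_lit 3777907165) (nat_lit 912) (nat_lit 1594060164) (nat_lit 722) (nat_lit 5) (nat_lit 733) (nat_lit 3) (nat_lit 734) (nat_lit 5) (nat_lit 533) (nat_lit 532) (nat_lit 495)))))) (XT.nd (nat_lit 624) (nat_lit 2052) (nat_lit 0) (XT.nd (nat_lit 312) (nat_lit 912) (nat_lit 0) (XT.nd (nat_lit 156) (nat_lit 912) (nat_lit 0) (XT.nd (nat_lit 78) (nat_lit 0) (nat_lit 0) (XT.lf (nat_lit 0) (nat_lit 3544105365) (nat_lit 836) (nat_lit 387060194) (nat_lit 912) (nat_lit 2832393476) (nat_lit 722) (nat_lit 5) (nat_lit 733) (nat_lit 3) (nat_lit 734) (nat_lit 5) (nat_lit 534) (nat_lit 532) (nat_lit 494)) (XT.lf (nat_lit 76) (nat_lit 3082545758) (nat_lit 0) (nat_lit 2646158940) (nat_lit 912) (nat_lit 1060765851) (nat_lit 723) (nat_lit 5) (nat_lit 722) (nat_lit 5)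 (nat_lit 734) (nat_lit 5) (nat_lit 535) (nat_lit 532) (nat_lit 493))) (XT.nd (nat_lit 78) (nat_lit 0) (nat_lit 76) (XT.lf (nat_lit 0) (nat_lit 1073122843) (nat_lit 912) (nat_lit 226517464) (nat_lit 988) (nat_lit 5517174358) (nat_lit 710) (nat_lit 5) (nat_lit 722) (nat_lit 5) (nat_lit 723) (nat_lit 5) (nat_lit 536) (nat_lit 532) (nat_lit 492)) (XT.lf (nat_lit 0) (nat_lit 3203424785) (nat_lit 912) (nat_lit 3515346332) (nat_lit 988) (nat_lit 126437889) (nat_lit 711) (nat_lit 5) (nat_lit 723) (nat_lit 5) (nat_lit 724) (nat_lit 5) (nat_lit 537) (nat_lit 532) (nat_lit 491)))) (XT.nd (nat_lit 156) (nat_lit 0) (nat_lit 0) (XT.nd (nat_lit 78) (nat_lit 988) (nat_lit 0) (XT.lf (nat_lit 76) (nat_lit 47825509) (nat_lit 0) (nat_lit 5285461364) (nat_lit 988) (nat_lit 1541747590) (nat_lit 712) (nat_lit 5) (nat_lit 711) (nat_lit 5) (nat_lit 724) (nat_lit 5) (nat_lit 538) (nat_lit 532) (nat_lit 490)) (XT.lf (nat_lit 0) (nat_lit 563170909) (nat_lit 988) (nat_lit 3210116867)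 (nat_lit 1064) (nat_lit 3132677844) (nat_lit 698) (nat_lit 5) (nat_lit 711) (nat_lit 5) (nat_lit 712) (nat_lit 5) (nat_lit 539) (nat_lit 532) (nat_lit 489))) (XT.nd (nat_lit 78) (nat_lit 0) (nat_lit 0) (XT.lf (nat_lit 76) (nat_lit 444554120) (nat_lit 0) (nat_lit 2195942351) (nat_lit 1064) (nat_lit 4297798234) (nat_lit 699) (nat_lit 5) (nat_lit 698) (nat_lit 5) (nat_lit 712) (nat_lit 5) (nat_lit 540) (nat_lit 532) (nat_lit 488)) (XT.lf (nat_lit 76) (nat_lit 4185649296) (nat_lit 0) (nat_lit 544130594) (nat_lit 1064) (nat_lit 2242084391) (nat_lit 699) (nat_lit 5) (nat_lit 698) (nat_lit 5) (nat_lit 712) (nat_lit 5) (nat_lit 541) (nat_lit 532) (nat_lit 487))))) (XT.nd (nat_lit 312) (nat_lit 1064) (nat_lit 0) (XT.nd (nat_lit 156) (nat_lit 0) (nat_lit 0) (XT.nd (nat_lit 78) (nat_lit 1064) (nat_lit 0) (XT.lf (nat_lit 76) (nat_lit 970047818) (nat_lit 0) (nat_lit 5854511307) (nat_lit 1064) (nat_lit 182274014) (nat_lit 700) (nat_lit 5) (nat_lit 699) (nat_lit 5) (nat_lit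 713) (nat_lit 5) (nat_lit 542) (nat_lit 532) (nat_lit 486)) (XT.lf (nat_lit 0) (nat_lit 1866452155) (nat_lit 1064) (nat_lit 2250296272) (nat_lit 1140) (nat_lit 2926048122) (nat_lit 685) (nat_lit 5) (nat_lit 699) (nat_lit 5) (nat_lit 700) (nat_lit 5) (nat_lit 543) (nat_lit 532) (nat_lit 485))) (XT.nd (nat_lit 78) (nat_lit 0) (nat_lit 0) (XT.lf (nat_lit 76) (nat_lit 1601138612) (nat_lit 0) (nat_lit 2314402701) (nat_lit 1140) (nat_lit 3164679209) (nat_lit 686) (nat_lit 5) (nat_lit 685) (nat_lit 5) (nat_lit 700) (nat_lit 5) (nat_lit 544) (nat_lit 532) (nat_lit 484)) (XT.lf (nat_lit 76) (nat_lit 5529730659) (nat_lit 0) (nat_lit 443168564) (nat_lit 1140) (nat_lit 1146149946) (nat_lit 686) (nat_lit 5) (nat_lit 685) (nat_lit 5) (nat_lit 700) (nat_lit 5) (nat_lit 545) (nat_lit 532) (nat_lit 483)))) (XT.nd (nat_lit 156) (nat_lit 0) (nat_lit 0) (XT.nd (nat_lit 78) (nat_lit 0) (nat_lit 0) (XT.lf (nat_lit 0) (nat_lit 878762971) (nat_lit 1140) (nat_lit 4795910118) (nat_lit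 1216) (nat_lit 1484304956) (nat_lit 671) (nat_lit 5) (nat_lit 686) (nat_lit 5) (nat_lit 687) (nat_lit 5) (nat_lit 546) (nat_lit 532) (nat_lit 482)) (XT.lf (nat_lit 0) (nat_lit 2896158386) (nat_lit 1140) (nat_lit 825287134) (nat_lit 1216) (nat_lit 3478763656) (nat_lit 671) (nat_lit 5) (nat_lit 686) (nat_lit 5) (nat_lit 687) (nat_lit 5) (nat_lit 547) (nat_lit 532) (nat_lit 481))) (XT.nd (nat_lit 78) (nat_lit 0) (nat_lit 76) (XT.lf (nat_lit 76) (nat_lit 3236564328) (nat_lit 0) (nat_lit 1692906358) (nat_lit 1216) (nat_lit 2313284651) (nat_lit 672) (nat_lit 5) (nat_lit 671) (nat_lit 5) (nat_lit 687) (nat_lit 5) (nat_lit 548) (nat_lit 532) (nat_lit 480)) (XT.lf (nat_lit 76) (nat_lit 71840771) (nat_lit 0) (nat_lit 6895433788) (nat_lit 1216) (nat_lit 319603108) (nat_lit 673) (nat_lit 5) (nat_lit 672) (nat_lit 5) (nat_lit 688) (nat_lit 5) (nat_lit 549) (nat_lit 532) (nat_lit 479))))))) (XT.nd (nat_lit 1170) (nat_lit 11020) (nat_lit 0) (XT.nd (nat_lit 546) (nat_lit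 6384) (nat_lit 0) (XT.nd (nat_lit 234) (nat_lit 3876) (nat_lit 0) (XT.nd (nat_lit 78) (nat_lit 0) (nat_lit 0) (XT.lf (nat_lit 0) (nat_lit 1685467807) (nat_lit 1216) (nat_lit 3099927807) (nat_lit 1292) (nat_lit 2546386060) (nat_lit 656) (nat_lit 5) (nat_lit 672) (nat_lit 5) (nat_lit 673) (nat_lit 5) (nat_lit 550) (nat_lit 532) (nat_lit 478)) (XT.nd (nat_lit 78) (nat_lit 0) (nat_lit 0) (XT.lf (nat_lit 76) (nat_lit 1078329225) (nat_lit 0) (nat_lit 2611626408) (nat_lit 1292) (nat_lit 3688315627) (nat_lit 657) (nat_lit 5) (nat_lit 656) (nat_lit 5) (nat_lit 673) (nat_lit 5) (nat_lit 551) (nat_lit 532) (nat_lit 477)) (XT.lf (nat_lit 76) (nat_lit 5351196726) (nat_lit 0) (nat_lit 361378459) (nat_lit 1292) (nat_lit 1713556233) (nat_lit 657) (nat_lit 5) (nat_lit 656) (nat_lit 5) (nat_lit 673) (nat_lit 5) (nat_lit 552) (nat_lit 532) (nat_lit 476)))) (XT.nd (nat_lit 156) (nat_lit 2660) (nat_lit 0) (XT.nd (nat_lit 78) (nat_lit 0) (nat_lit 0) (XT.lf (nat_lit 0) (nat_lit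 281776532) (nat_lit 1292) (nat_lit 5257253910) (nat_lit 76) (nat_lit 1936180407) (nat_lit 640) (nat_lit 5) (nat_lit 657) (nat_lit 5) (nat_lit 641) (nat_lit 5) (nat_lit 553) (nat_lit 532) (nat_lit 475)) (XT.lf (nat_lit 0) (nat_lit 2268999689) (nat_lit 1292) (nat_lit 945624162) (nat_lit 76) (nat_lit 4310924445) (nat_lit 640) (nat_lit 5) (nat_lit 657) (nat_lit 5) (nat_lit 641) (nat_lit 5) (nat_lit 554) (nat_lit 532) (nat_lit 474))) (XT.nd (nat_lit 78) (nat_lit 1368) (nat_lit 0) (XT.lf (nat_lit 0) (nat_lit 3466694740) (nat_lit 1292) (nat_lit 811091883) (nat_lit 1368) (nat_lit 3299470979) (nat_lit 623) (nat_lit 5) (nat_lit 640) (nat_lit 5) (nat_lit 641) (nat_lit 5) (nat_lit 555) (nat_lit 532) (nat_lit 473)) (XT.lf (nat_lit 0) (nat_lit 311932442) (nat_lit 1368) (nat_lit 5993850395) (nat_lit 1444) (nat_lit 1324639051) (nat_lit 605) (nat_lit 5) (nat_lit 623) (nat_lit 5) (nat_lit 624) (nat_lit 5) (nat_lit 556) (nat_lit 532) (nat_lit 472))))) (XT.nd (nat_lit 312)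 (nat_lit 3344) (nat_lit 0) (XT.nd (nat_lit 156) (nat_lit 1520) (nat_lit 0) (XT.nd (nat_lit 78) (nat_lit 1444) (nat_lit 0) (XT.lf (nat_lit 0) (nat_lit 674069595) (nat_lit 1444) (nat_lit 2847522576) (nat_lit 76) (nat_lit 4163100629) (nat_lit 604) (nat_lit 5) (nat_lit 623) (nat_lit 5) (nat_lit 605) (nat_lit 5) (nat_lit 557) (nat_lit 532) (nat_lit 471)) (XT.lf (nat_lit 0) (nat_lit 1694957981) (nat_lit 1444) (nat_lit 972144868) (nat_lit 1520) (nat_lit 5073330800) (nat_lit 585) (nat_lit 5) (nat_lit 604) (nat_lit 5) (nat_lit 605) (nat_lit 5) (nat_lit 558) (nat_lit 532) (nat_lit 470))) (XT.nd (nat_lit 78) (nat_lit 1520) (nat_lit 0) (XT.lf (nat_lit 0) (nat_lit 4691477592) (nat_lit 1520) (nat_lit 1472690788) (nat_lit 76) (nat_lit 1633292671) (nat_lit 585) (nat_lit 5) (nat_lit 605) (nat_lit 5) (nat_lit 586) (nat_lit 5) (nat_lit 559) (nat_lit 532) (nat_lit 469)) (XT.lf (nat_lit 0) (nat_lit 3195678329) (nat_lit 1520) (nat_lit 3550273455) (nat_lit 1596) (nat_lit 1109886306)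 (nat_lit 565) (nat_lit 5) (nat_lit 585) (nat_lit 5) (nat_lit 586) (nat_lit 5) (nat_lit 560) (nat_lit 532) (nat_lit 468)))) (XT.nd (nat_lit 156) (nat_lit 1672) (nat_lit 0) (XT.nd (nat_lit 78) (nat_lit 0) (nat_lit 0) (XT.lf (nat_lit 0) (nat_lit 24803420) (nat_lit 1596) (nat_lit 862005433) (nat_lit 1672) (nat_lit 7028998382) (nat_lit 543) (nat_lit 5) (nat_lit 564) (nat_lit 5) (nat_lit 565) (nat_lit 5) (nat_lit 561) (nat_lit 532) (nat_lit 467)) (XT.lf (nat_lit 0) (nat_lit 2915551166) (nat_lit 1672) (nat_lit 3161677304) (nat_lit 76) (nat_lit 1899462325) (nat_lit 543) (nat_lit 5) (nat_lit 565) (nat_lit 5) (nat_lit 544) (nat_lit 5) (nat_lit 562) (nat_lit 532) (nat_lit 466))) (XT.nd (nat_lit 78) (nat_lit 0) (nat_lit 0) (XT.lf (nat_lit 0) (nat_lit 1646554486) (nat_lit 1672) (nat_lit 3318708223) (nat_lit 1748) (nat_lit 3073922654) (nat_lit 521) (nat_lit 5) (nat_lit 543) (nat_lit 5) (nat_lit 544) (nat_lit 5) (nat_lit 563) (nat_lit 532) (nat_lit 465)) (XT.lf (nat_lit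 0) (nat_lit 6562448498) (nat_lit 1672) (nat_lit 479234089) (nat_lit 1748) (nat_lit 1061534158) (nat_lit 521) (nat_lit 5) (nat_lit 543) (nat_lit 5) (nat_lit 544) (nat_lit 5) (nat_lit 564) (nat_lit 532) (nat_lit 464)))))) (XT.nd (nat_lit 624) (nat_lit 4332) (nat_lit 0) (XT.nd (nat_lit 312) (nat_lit 1900) (nat_lit 0) (XT.nd (nat_lit 156) (nat_lit 1140) (nat_lit 0) (XT.nd (nat_lit 78) (nat_lit 1824) (nat_lit 0) (XT.lf (nat_lit 0) (nat_lit 981147176) (nat_lit 1824) (nat_lit 4769288714) (nat_lit 76) (nat_lit 2417904451) (nat_lit 497) (nat_lit 5) (nat_lit 521) (nat_lit 5) (nat_lit 498) (nat_lit 5) (nat_lit 565) (nat_lit 532) (nat_lit 463)) (XT.lf (nat_lit 0) (nat_lit 184418708) (nat_lit 1824) (nat_lit 2846312485) (nat_lit 1900) (nat_lit 5204290753) (nat_lit 473) (nat_lit 5) (nat_lit 497) (nat_lit 5) (nat_lit 498) (nat_lit 5) (nat_lit 566) (nat_lit 532) (nat_lit 462))) (XT.nd (nat_lit 78) (nat_lit 1140) (nat_lit 0) (XT.lf (nat_lit 0) (nat_lit 5120235463) (nat_lit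 1900) (nat_lit 3033723866) (nat_lit 76) (nat_lit 149100395) (nat_lit 473) (nat_lit 5) (nat_lit 498) (nat_lit 5) (nat_lit 474) (nat_lit 5) (nat_lit 567) (nat_lit 532) (nat_lit 461)) (XT.lf (nat_lit 0) (nat_lit 2060081677) (nat_lit 1140) (nat_lit 5190300492) (nat_lit 1216) (nat_lit 1122100130) (nat_lit 458) (nat_lit 5) (nat_lit 473) (nat_lit 5) (nat_lit 474) (nat_lit 5) (nat_lit 568) (nat_lit 532) (nat_lit 460)))) (XT.nd (nat_lit 156) (nat_lit 912) (nat_lit 0) (XT.nd (nat_lit 78) (nat_lit 912) (nat_lit 0) (XT.lf (nat_lit 0) (nat_lit 954339211) (nat_lit 1216) (nat_lit 1184310212) (nat_lit 76) (nat_lit 6304770684) (nat_lit 457) (nat_lit 5) (nat_lit 473) (nat_lit 5) (nat_lit 458) (nat_lit 5) (nat_lit 569) (nat_lit 532) (nat_lit 459)) (XT.lf (nat_lit 0) (nat_lit 3057728014) (nat_lit 988) (nat_lit 4461326467) (nat_lit 76) (nat_lit 996565963) (nat_lit 445) (nat_lit 5) (nat_lit 458) (nat_lit 5) (nat_lit 446) (nat_lit 5) (nat_lit 570) (nat_lit 532) (nat_lit 458)))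 (XT.nd (nat_lit 78) (nat_lit 0) (nat_lit 0) (XT.lf (nat_lit 0) (nat_lit 789117803) (nat_lit 912) (nat_lit 4409304958) (nat_lit 988) (nat_lit 3390938270) (nat_lit 433) (nat_lit 5) (nat_lit 445) (nat_lit 5) (nat_lit 446) (nat_lit 5) (nat_lit 571) (nat_lit 532) (nat_lit 457)) (XT.lf (nat_lit 0) (nat_lit 6173619739) (nat_lit 912) (nat_lit 1206625353) (nat_lit 988) (nat_lit 1284366049) (nat_lit 433) (nat_lit 5) (nat_lit 445) (nat_lit 5) (nat_lit 446) (nat_lit 5) (nat_lit 572) (nat_lit 532) (nat_lit 456))))) (XT.nd (nat_lit 312) (nat_lit 1672) (nat_lit 0) (XT.nd (nat_lit 156) (nat_lit 1748) (nat_lit 0) (XT.nd (nat_lit 78) (nat_lit 0) (nat_lit 0) (XT.lf (nat_lit 0) (nat_lit 854327204) (nat_lit 912) (nat_lit 5829054492) (nat_lit 76) (nat_lit 2057846759) (nat_lit 421) (nat_lit 5) (nat_lit 433) (nat_lit 5) (nat_lit 422) (nat_lit 5) (nat_lit 573) (nat_lit 532) (nat_lit 455)) (XT.lf (nat_lit 0) (nat_lit 3012628979) (nat_lit 912) (nat_lit 410117719) (nat_lit 76) (nat_lit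 5396581906) (nat_lit 421) (nat_lit 5) (nat_lit 433) (nat_lit 5) (nat_lit 422) (nat_lit 5) (nat_lit 574) (nat_lit 532) (nat_lit 454))) (XT.nd (nat_lit 78) (nat_lit 836) (nat_lit 0) (XT.lf (nat_lit 0) (nat_lit 5153775510) (nat_lit 912) (nat_lit 63585736) (nat_lit 988) (nat_lit 3681565134) (nat_lit 409) (nat_lit 5) (nat_lit 421) (nat_lit 5) (nat_lit 422) (nat_lit 5) (nat_lit 575) (nat_lit 532) (nat_lit 453)) (XT.lf (nat_lit 0) (nat_lit 1825128803) (nat_lit 836) (nat_lit 5647701147) (nat_lit 912) (nat_lit 1507154218) (nat_lit 398) (nat_lit 5) (nat_lit 409) (nat_lit 5) (nat_lit 410) (nat_lit 5) (nat_lit 576) (nat_lit 532) (nat_lit 452)))) (XT.nd (nat_lit 156) (nat_lit 760) (nat_lit 0) (XT.nd (nat_lit 78) (nat_lit 836) (nat_lit 0) (XT.lf (nat_lit 0) (nat_lit 697517335) (nat_lit 912) (nat_lit 1541371428) (nat_lit 76) (nat_lit 6823761034) (nat_lit 397) (nat_lit 5) (nat_lit 409) (nat_lit 5) (nat_lit 398) (nat_lit 5) (nat_lit 577) (nat_lit 532) (nat_lit 451)) (XT.lf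 (nat_lit 0) (nat_lit 2932607887) (nat_lit 912) (nat_lit 4956583277) (nat_lit 76) (nat_lit 1257449046) (nat_lit 386) (nat_lit 5) (nat_lit 398) (nat_lit 5) (nat_lit 387) (nat_lit 5) (nat_lit 578) (nat_lit 532) (nat_lit 450))) (XT.nd (nat_lit 78) (nat_lit 0) (nat_lit 0) (XT.lf (nat_lit 0) (nat_lit 789029718) (nat_lit 760) (nat_lit 4425043986) (nat_lit 836) (nat_lit 4018204083) (nat_lit 376) (nat_lit 5) (nat_lit 386) (nat_lit 5) (nat_lit 387) (nat_lit 5) (nat_lit 579) (nat_lit 532) (nat_lit 449)) (XT.lf (nat_lit 0) (nat_lit 6685621898) (nat_lit 760) (nat_lit 860480243) (nat_lit 836) (nat_lit 1773428116) (nat_lit 376) (nat_lit 5) (nat_lit 386) (nat_lit 5) (nat_lit 387) (nat_lit 5) (nat_lit 580) (nat_lit 532) (nat_lit 448))))))))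
noncomputable def xc91 : XT := (XT.nd (nat_lit 2418) (nat_lit 7600) (nat_lit 0) (XT.nd (nat_lit 1170) (nat_lit 5472) (nat_lit 0) (XT.nd (nat_lit 546) (nat_lit 3344) (nat_lit 0) (XT.nd (nat_lit 234) (nat_lit 2204) (nat_lit 0) (XT.nd (nat_lit 78) (nat_lit 760) (nat_lit 0) (XT.lf (nat_lit 0) (nat_lit 521110359) (nat_lit 836) (nat_lit 6126084470) (nat_lit 76) (nat_lit 2761033938) (nat_lit 365) (nat_lit 5) (nat_lit 376) (nat_lit 5) (nat_lit 366) (nat_lit 5) (nat_lit 581) (nat_lit 532) (nat_lit 447)) (XT.nd (nat_lit 78) (nat_lit 760) (nat_lit 0) (XT.lf (nat_lit 0) (nat_lit 2833677918) (nat_lit 836) (nat_lit 194899350) (nat_lit 76) (nat_lit 6469972605) (nat_lit 365) (nat_lit 5) (nat_lit 376) (nat_lit 5) (nat_lit 366) (nat_lit 5) (nat_lit 582) (nat_lit 532) (nat_lit 446)) (XT.lf (nat_lit 0) (nat_lit 5208259953) (nat_lit 836) (nat_lit 3693274579) (nat_lit 76) (nat_lit 688828353) (nat_lit 355) (nat_lit 5) (nat_lit 366) (nat_lit 5) (nat_lit 356) (nat_lit 5) (nat_lit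 583) (nat_lit 532) (nat_lit 445)))) (XT.nd (nat_lit 156) (nat_lit 1368) (nat_lit 0) (XT.nd (nat_lit 78) (nat_lit 76) (nat_lit 0) (XT.lf (nat_lit 0) (nat_lit 2410204882) (nat_lit 760) (nat_lit 5230374332) (nat_lit 836) (nat_lit 2043228765) (nat_lit 345) (nat_lit 5) (nat_lit 355) (nat_lit 5) (nat_lit 356) (nat_lit 5) (nat_lit 584) (nat_lit 532) (nat_lit 444)) (XT.lf (nat_lit 0) (nat_lit 336253261) (nat_lit 836) (nat_lit 1126259168) (nat_lit 76) (nat_lit 8316599360) (nat_lit 344) (nat_lit 5) (nat_lit 355) (nat_lit 5) (nat_lit 345) (nat_lit 5) (nat_lit 585) (nat_lit 532) (nat_lit 443))) (XT.nd (nat_lit 78) (nat_lit 684) (nat_lit 0) (XT.lf (nat_lit 0) (nat_lit 2759180770) (nat_lit 760) (nat_lit 4723819890) (nat_lit 76) (nat_lit 2392587296) (nat_lit 335) (nat_lit 5) (nat_lit 345) (nat_lit 5) (nat_lit 336) (nat_lit 5) (nat_lit 586) (nat_lit 532) (nat_lit 442)) (XT.lf (nat_lit 0) (nat_lit 1576986196) (nat_lit 684) (nat_lit 3655294732) (nat_lit 760) (nat_lit 4741679115)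 (nat_lit 326) (nat_lit 5) (nat_lit 335) (nat_lit 5) (nat_lit 336) (nat_lit 5) (nat_lit 587) (nat_lit 532) (nat_lit 441))))) (XT.nd (nat_lit 312) (nat_lit 1900) (nat_lit 0) (XT.nd (nat_lit 156) (nat_lit 684) (nat_lit 0) (XT.nd (nat_lit 78) (nat_lit 760) (nat_lit 0) (XT.lf (nat_lit 0) (nat_lit 7762825998) (nat_lit 760) (nat_lit 2038667706) (nat_lit 76) (nat_lit 272646873) (nat_lit 326) (nat_lit 5) (nat_lit 336) (nat_lit 5) (nat_lit 327) (nat_lit 5) (nat_lit 588) (nat_lit 532) (nat_lit 440)) (XT.lf (nat_lit 0) (nat_lit 193704867) (nat_lit 760) (nat_lit 5726479933) (nat_lit 76) (nat_lit 4255553858) (nat_lit 316) (nat_lit 5) (nat_lit 326) (nat_lit 5) (nat_lit 317) (nat_lit 5) (nat_lit 589) (nat_lit 532) (nat_lit 439))) (XT.nd (nat_lit 78) (nat_lit 0) (nat_lit 0) (XT.lf (nat_lit 0) (nat_lit 779772583) (nat_lit 684) (nat_lit 1932054902) (nat_lit 760) (nat_lit 7567357262) (nat_lit 307) (nat_lit 5) (nat_lit 316) (nat_lit 5) (nat_lit 317) (nat_lit 5) (nat_lit 590)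 (nat_lit 532) (nat_lit 438)) (XT.lf (nat_lit 0) (nat_lit 5308204778) (nat_lit 760) (nat_lit 2935074060) (nat_lit 76) (nat_lit 2140863686) (nat_lit 307) (nat_lit 5) (nat_lit 317) (nat_lit 5) (nat_lit 308) (nat_lit 5) (nat_lit 591) (nat_lit 532) (nat_lit 437)))) (XT.nd (nat_lit 156) (nat_lit 608) (nat_lit 0) (XT.nd (nat_lit 78) (nat_lit 684) (nat_lit 0) (XT.lf (nat_lit 0) (nat_lit 3766968852) (nat_lit 608) (nat_lit 4202619733) (nat_lit 684) (nat_lit 2521349894) (nat_lit 299) (nat_lit 5) (nat_lit 307) (nat_lit 5) (nat_lit 308) (nat_lit 5) (nat_lit 592) (nat_lit 532) (nat_lit 436)) (XT.lf (nat_lit 0) (nat_lit 12535363) (nat_lit 608) (nat_lit 66542748) (nat_lit 684) (nat_lit 10520864783) (nat_lit 290) (nat_lit 5) (nat_lit 298) (nat_lit 5) (nat_lit 299) (nat_lit 5) (nat_lit 593) (nat_lit 532) (nat_lit 435))) (XT.nd (nat_lit 78) (nat_lit 608) (nat_lit 0) (XT.lf (nat_lit 0) (nat_lit 2746346410) (nat_lit 684) (nat_lit 3809813544) (nat_lit 76) (nat_lit 4153662834)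 (nat_lit 290) (nat_lit 5) (nat_lit 299) (nat_lit 5) (nat_lit 291) (nat_lit 5) (nat_lit 594) (nat_lit 532) (nat_lit 434)) (XT.lf (nat_lit 0) (nat_lit 3113779904) (nat_lit 608) (nat_lit 2350486260) (nat_lit 684) (nat_lit 5357688550) (nat_lit 282) (nat_lit 5) (nat_lit 290) (nat_lit 5) (nat_lit 291) (nat_lit 5) (nat_lit 595) (nat_lit 532) (nat_lit 433)))))) (XT.nd (nat_lit 624) (nat_lit 2508) (nat_lit 0) (XT.nd (nat_lit 312) (nat_lit 1748) (nat_lit 0) (XT.nd (nat_lit 156) (nat_lit 532) (nat_lit 0) (XT.nd (nat_lit 78) (nat_lit 684) (nat_lit 0) (XT.lf (nat_lit 0) (nat_lit 8251740808) (nat_lit 684) (nat_lit 751261733) (nat_lit 76) (nat_lit 1933023352) (nat_lit 282) (nat_lit 5) (nat_lit 291) (nat_lit 5) (nat_lit 283) (nat_lit 5) (nat_lit 596) (nat_lit 532) (nat_lit 432)) (XT.lf (nat_lit 0) (nat_lit 76589559) (nat_lit 684) (nat_lit 4668833680) (nat_lit 76) (nat_lit 6306259017) (nat_lit 273) (nat_lit 5) (nat_lit 282) (nat_lit 5) (nat_lit 274) (nat_lit 5) (nat_lit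 597) (nat_lit 532) (nat_lit 431))) (XT.nd (nat_lit 78) (nat_lit 0) (nat_lit 0) (XT.lf (nat_lit 0) (nat_lit 2485373986) (nat_lit 532) (nat_lit 370038643) (nat_lit 608) (nat_lit 8313911299) (nat_lit 266) (nat_lit 5) (nat_lit 273) (nat_lit 5) (nat_lit 274) (nat_lit 5) (nat_lit 598) (nat_lit 532) (nat_lit 430)) (XT.lf (nat_lit 0) (nat_lit 5725556516) (nat_lit 608) (nat_lit 1499410572) (nat_lit 76) (nat_lit 4063636960) (nat_lit 266) (nat_lit 5) (nat_lit 274) (nat_lit 5) (nat_lit 267) (nat_lit 5) (nat_lit 599) (nat_lit 532) (nat_lit 429)))) (XT.nd (nat_lit 156) (nat_lit 532) (nat_lit 0) (XT.nd (nat_lit 78) (nat_lit 608) (nat_lit 0) (XT.lf (nat_lit 0) (nat_lit 5874104211) (nat_lit 608) (nat_lit 2797659826) (nat_lit 684) (nat_lit 2738133012) (nat_lit 258) (nat_lit 5) (nat_lit 266) (nat_lit 5) (nat_lit 267) (nat_lit 5) (nat_lit 600) (nat_lit 532) (nat_lit 428)) (XT.lf (nat_lit 0) (nat_lit 153139551) (nat_lit 608) (nat_lit 9668641736) (nat_lit 76) (nat_lit 1711581714)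 (nat_lit 250) (nat_lit 5) (nat_lit 258) (nat_lit 5) (nat_lit 251) (nat_lit 5) (nat_lit 601) (nat_lit 532) (nat_lit 427))) (XT.nd (nat_lit 78) (nat_lit 532) (nat_lit 0) (XT.lf (nat_lit 0) (nat_lit 3099887301) (nat_lit 608) (nat_lit 2236769394) (nat_lit 76) (nat_lit 6321593793) (nat_lit 250) (nat_lit 5) (nat_lit 258) (nat_lit 5) (nat_lit 251) (nat_lit 5) (nat_lit 602) (nat_lit 532) (nat_lit 426)) (XT.lf (nat_lit 0) (nat_lit 5385358602) (nat_lit 532) (nat_lit 733958504) (nat_lit 608) (nat_lit 5666044133) (nat_lit 243) (nat_lit 5) (nat_lit 250) (nat_lit 5) (nat_lit 251) (nat_lit 5) (nat_lit 603) (nat_lit 532) (nat_lit 425))))) (XT.nd (nat_lit 312) (nat_lit 988) (nat_lit 0) (XT.nd (nat_lit 156) (nat_lit 988) (nat_lit 0) (XT.nd (nat_lit 78) (nat_lit 76) (nat_lit 0) (XT.lf (nat_lit 0) (nat_lit 1236749584) (nat_lit 456) (nat_lit 7990200980) (nat_lit 532) (nat_lit 2687507788) (nat_lit 237) (nat_lit 5) (nat_lit 243) (nat_lit 5) (nat_lit 244) (nat_lit 5) (nat_lit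 604) (nat_lit 532) (nat_lit 424)) (XT.lf (nat_lit 0) (nat_lit 373139412) (nat_lit 532) (nat_lit 2968986396) (nat_lit 76) (nat_lit 8703423734) (nat_lit 236) (nat_lit 5) (nat_lit 243) (nat_lit 5) (nat_lit 237) (nat_lit 5) (nat_lit 605) (nat_lit 532) (nat_lit 423))) (XT.nd (nat_lit 78) (nat_lit 456) (nat_lit 0) (XT.lf (nat_lit 0) (nat_lit 3479753771) (nat_lit 608) (nat_lit 7276209986) (nat_lit 76) (nat_lit 1422529134) (nat_lit 229) (nat_lit 5) (nat_lit 237) (nat_lit 5) (nat_lit 230) (nat_lit 5) (nat_lit 606) (nat_lit 532) (nat_lit 422)) (XT.lf (nat_lit 0) (nat_lit 614451790) (nat_lit 456) (nat_lit 6059847963) (nat_lit 532) (nat_lit 5639279779) (nat_lit 223) (nat_lit 5) (nat_lit 229) (nat_lit 5) (nat_lit 230) (nat_lit 5) (nat_lit 607) (nat_lit 532) (nat_lit 421)))) (XT.nd (nat_lit 156) (nat_lit 456) (nat_lit 0) (XT.nd (nat_lit 78) (nat_lit 532) (nat_lit 0) (XT.lf (nat_lit 0) (nat_lit 8732879689) (nat_lit 456) (nat_lit 1228518772) (nat_lit 532) (nat_lit 2489396614)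 (nat_lit 223) (nat_lit 5) (nat_lit 229) (nat_lit 5) (nat_lit 230) (nat_lit 5) (nat_lit 608) (nat_lit 532) (nat_lit 420)) (XT.lf (nat_lit 0) (nat_lit 747161340) (nat_lit 532) (nat_lit 8166486324) (nat_lit 76) (nat_lit 3676350391) (nat_lit 216) (nat_lit 5) (nat_lit 223) (nat_lit 5) (nat_lit 217) (nat_lit 5) (nat_lit 609) (nat_lit 532) (nat_lit 419))) (XT.nd (nat_lit 78) (nat_lit 456) (nat_lit 0) (XT.lf (nat_lit 0) (nat_lit 4028649544) (nat_lit 532) (nat_lit 6641551) (nat_lit 76) (nat_lit 8696094641) (nat_lit 216) (nat_lit 5) (nat_lit 223) (nat_lit 5) (nat_lit 217) (nat_lit 5) (nat_lit 610) (nat_lit 532) (nat_lit 418)) (XT.lf (nat_lit 0) (nat_lit 7417346966) (nat_lit 532) (nat_lit 4482735180) (nat_lit 76) (nat_lit 974687809) (nat_lit 210) (nat_lit 5) (nat_lit 217) (nat_lit 5) (nat_lit 211) (nat_lit 5) (nat_lit 611) (nat_lit 532) (nat_lit 417))))))) (XT.nd (nat_lit 1170) (nat_lit 3420) (nat_lit 0) (XT.nd (nat_lit 546) (nat_lit 1976) (nat_lit 0) (XT.nd (nat_lit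 234) (nat_lit 1292) (nat_lit 0) (XT.nd (nat_lit 78) (nat_lit 456) (nat_lit 0) (XT.lf (nat_lit 0) (nat_lit 3934514397) (nat_lit 456) (nat_lit 6972399187) (nat_lit 532) (nat_lit 2113446737) (nat_lit 204) (nat_lit 5) (nat_lit 210) (nat_lit 5) (nat_lit 211) (nat_lit 5) (nat_lit 612) (nat_lit 532) (nat_lit 416)) (XT.nd (nat_lit 78) (nat_lit 380) (nat_lit 0) (XT.lf (nat_lit 0) (nat_lit 1291524288) (nat_lit 532) (nat_lit 624197036) (nat_lit 76) (nat_lit 11252750428) (nat_lit 203) (nat_lit 5) (nat_lit 210) (nat_lit 5) (nat_lit 204) (nat_lit 5) (nat_lit 613) (nat_lit 532) (nat_lit 415)) (XT.lf (nat_lit 0) (nat_lit 4791381563) (nat_lit 456) (nat_lit 5269119663) (nat_lit 76) (nat_lit 3257663417) (nat_lit 198) (nat_lit 5) (nat_lit 204) (nat_lit 5) (nat_lit 199) (nat_lit 5) (nat_lit 614) (nat_lit 532) (nat_lit 414)))) (XT.nd (nat_lit 156) (nat_lit 836) (nat_lit 0) (XT.nd (nat_lit 78) (nat_lit 0) (nat_lit 0) (XT.lf (nat_lit 0) (nat_lit 3438054544) (nat_lit 456) (nat_lit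 4943764960) (nat_lit 532) (nat_lit 5088620555) (nat_lit 192) (nat_lit 5) (nat_lit 198) (nat_lit 5) (nat_lit 199) (nat_lit 5) (nat_lit 615) (nat_lit 532) (nat_lit 413)) (XT.lf (nat_lit 0) (nat_lit 12062931630) (nat_lit 532) (nat_lit 1264173300) (nat_lit 76) (nat_lit 298279078) (nat_lit 192) (nat_lit 5) (nat_lit 199) (nat_lit 5) (nat_lit 193) (nat_lit 5) (nat_lit 616) (nat_lit 532) (nat_lit 412))) (XT.nd (nat_lit 78) (nat_lit 380) (nat_lit 0) (XT.lf (nat_lit 0) (nat_lit 2072703511) (nat_lit 456) (nat_lit 6075196814) (nat_lit 76) (nat_lit 5633959801) (nat_lit 186) (nat_lit 5) (nat_lit 192) (nat_lit 5) (nat_lit 187) (nat_lit 5) (nat_lit 617) (nat_lit 532) (nat_lit 411)) (XT.lf (nat_lit 0) (nat_lit 2933417236) (nat_lit 380) (nat_lit 2835737193) (nat_lit 456) (nat_lit 8171914832) (nat_lit 181) (nat_lit 5) (nat_lit 186) (nat_lit 5) (nat_lit 187) (nat_lit 5) (nat_lit 618) (nat_lit 532) (nat_lit 410))))) (XT.nd (nat_lit 312) (nat_lit 1140) (nat_lit 0) (XT.nd (nat_lit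 156) (nat_lit 456) (nat_lit 0) (XT.nd (nat_lit 78) (nat_lit 380) (nat_lit 0) (XT.lf (nat_lit 0) (nat_lit 9579366454) (nat_lit 456) (nat_lit 1942657203) (nat_lit 76) (nat_lit 2580642586) (nat_lit 181) (nat_lit 5) (nat_lit 187) (nat_lit 5) (nat_lit 182) (nat_lit 5) (nat_lit 619) (nat_lit 532) (nat_lit 409)) (XT.lf (nat_lit 0) (nat_lit 7354324764) (nat_lit 380) (nat_lit 6160365190) (nat_lit 456) (nat_lit 751827367) (nat_lit 176) (nat_lit 5) (nat_lit 181) (nat_lit 5) (nat_lit 182) (nat_lit 5) (nat_lit 620) (nat_lit 532) (nat_lit 408))) (XT.nd (nat_lit 78) (nat_lit 0) (nat_lit 0) (XT.lf (nat_lit 0) (nat_lit 2414639205) (nat_lit 380) (nat_lit 651076835) (nat_lit 456) (nat_lit 11367303083) (nat_lit 170) (nat_lit 5) (nat_lit 175) (nat_lit 5) (nat_lit 176) (nat_lit 5) (nat_lit 621) (nat_lit 532) (nat_lit 407)) (XT.lf (nat_lit 0) (nat_lit 7011045025) (nat_lit 456) (nat_lit 2644914716) (nat_lit 76) (nat_lit 4945562079) (nat_lit 170) (nat_lit 5) (nat_lit 176) (nat_lit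 5) (nat_lit 171) (nat_lit 5) (nat_lit 622) (nat_lit 532) (nat_lit 406)))) (XT.nd (nat_lit 156) (nat_lit 304) (nat_lit 0) (XT.nd (nat_lit 78) (nat_lit 456) (nat_lit 0) (XT.lf (nat_lit 0) (nat_lit 6976588278) (nat_lit 380) (nat_lit 4091185525) (nat_lit 456) (nat_lit 3704971181) (nat_lit 165) (nat_lit 5) (nat_lit 170) (nat_lit 5) (nat_lit 171) (nat_lit 5) (nat_lit 623) (nat_lit 532) (nat_lit 405)) (XT.lf (nat_lit 0) (nat_lit 278274706) (nat_lit 456) (nat_lit 13082069357) (nat_lit 76) (nat_lit 1586546940) (nat_lit 159) (nat_lit 5) (nat_lit 165) (nat_lit 5) (nat_lit 160) (nat_lit 5) (nat_lit 624) (nat_lit 532) (nat_lit 404))) (XT.nd (nat_lit 78) (nat_lit 304) (nat_lit 0) (XT.lf (nat_lit 0) (nat_lit 4354415492) (nat_lit 456) (nat_lit 3377523131) (nat_lit 76) (nat_lit 7390834993) (nat_lit 159) (nat_lit 5) (nat_lit 165) (nat_lit 5) (nat_lit 160) (nat_lit 5) (nat_lit 625) (nat_lit 532) (nat_lit 403)) (XT.lf (nat_lit 0) (nat_lit 6581180925) (nat_lit 304) (nat_lit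 1956996627) (nat_lit 380) (nat_lit 6763474617) (nat_lit 155) (nat_lit 5) (nat_lit 159) (nat_lit 5) (nat_lit 160) (nat_lit 5) (nat_lit 626) (nat_lit 532) (nat_lit 402)))))) (XT.nd (nat_lit 624) (nat_lit 1596) (nat_lit 0) (XT.nd (nat_lit 312) (nat_lit 684) (nat_lit 0) (XT.nd (nat_lit 156) (nat_lit 684) (nat_lit 0) (XT.nd (nat_lit 78) (nat_lit 76) (nat_lit 0) (XT.lf (nat_lit 0) (nat_lit 1265758102) (nat_lit 380) (nat_lit 11579892027) (nat_lit 456) (nat_lit 2637657710) (nat_lit 150) (nat_lit 5) (nat_lit 155) (nat_lit 5) (nat_lit 156) (nat_lit 5) (nat_lit 627) (nat_lit 532) (nat_lit 401)) (XT.lf (nat_lit 0) (nat_lit 1605451736) (nat_lit 456) (nat_lit 4147438874) (nat_lit 76) (nat_lit 9914394777) (nat_lit 149) (nat_lit 5) (nat_lit 155) (nat_lit 5) (nat_lit 150) (nat_lit 5) (nat_lit 628) (nat_lit 532) (nat_lit 400))) (XT.nd (nat_lit 78) (nat_lit 380) (nat_lit 0) (XT.lf (nat_lit 0) (nat_lit 5923530955) (nat_lit 380) (nat_lit 9694125913) (nat_lit 76) (nat_lit 236428644)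 (nat_lit 145) (nat_lit 5) (nat_lit 150) (nat_lit 5) (nat_lit 146) (nat_lit 5) (nat_lit 629) (nat_lit 532) (nat_lit 399)) (XT.lf (nat_lit 0) (nat_lit 629678664) (nat_lit 380) (nat_lit 9752415604) (nat_lit 456) (nat_lit 5661445151) (nat_lit 140) (nat_lit 5) (nat_lit 145) (nat_lit 5) (nat_lit 146) (nat_lit 5) (nat_lit 630) (nat_lit 532) (nat_lit 398)))) (XT.nd (nat_lit 156) (nat_lit 304) (nat_lit 0) (XT.nd (nat_lit 78) (nat_lit 380) (nat_lit 0) (XT.lf (nat_lit 0) (nat_lit 11265579116) (nat_lit 380) (nat_lit 3713370087) (nat_lit 456) (nat_lit 1256851022) (nat_lit 140) (nat_lit 5) (nat_lit 145) (nat_lit 5) (nat_lit 146) (nat_lit 5) (nat_lit 631) (nat_lit 532) (nat_lit 397)) (XT.lf (nat_lit 0) (nat_lit 3230955698) (nat_lit 380) (nat_lit 10736575844) (nat_lit 76) (nat_lit 2463203556) (nat_lit 135) (nat_lit 5) (nat_lit 140) (nat_lit 5) (nat_lit 136) (nat_lit 5) (nat_lit 632) (nat_lit 532) (nat_lit 396))) (XT.nd (nat_lit 78) (nat_lit 304) (nat_lit 0) (XT.lf (nat_lit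 0) (nat_lit 7834227626) (nat_lit 380) (nat_lit 48409035) (nat_lit 76) (nat_lit 8745915300) (nat_lit 135) (nat_lit 5) (nat_lit 140) (nat_lit 5) (nat_lit 136) (nat_lit 5) (nat_lit 633) (nat_lit 532) (nat_lit 395)) (XT.lf (nat_lit 0) (nat_lit 10972355867) (nat_lit 304) (nat_lit 1613112703) (nat_lit 380) (nat_lit 4243738731) (nat_lit 131) (nat_lit 5) (nat_lit 135) (nat_lit 5) (nat_lit 136) (nat_lit 5) (nat_lit 634) (nat_lit 532) (nat_lit 394))))) (XT.nd (nat_lit 312) (nat_lit 608) (nat_lit 0) (XT.nd (nat_lit 156) (nat_lit 608) (nat_lit 0) (XT.nd (nat_lit 78) (nat_lit 0) (nat_lit 0) (XT.lf (nat_lit 0) (nat_lit 442795112) (nat_lit 380) (nat_lit 11843567232) (nat_lit 76) (nat_lit 4746458850) (nat_lit 126) (nat_lit 5) (nat_lit 131) (nat_lit 5) (nat_lit 127) (nat_lit 5) (nat_lit 635) (nat_lit 532) (nat_lit 393)) (XT.lf (nat_lit 0) (nat_lit 5201311221) (nat_lit 380) (nat_lit 768278995) (nat_lit 76) (nat_lit 11269654823) (nat_lit 126) (nat_lit 5) (nat_lit 131) (nat_lit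 5) (nat_lit 127) (nat_lit 5) (nat_lit 636) (nat_lit 532) (nat_lit 392))) (XT.nd (nat_lit 78) (nat_lit 304) (nat_lit 0) (XT.lf (nat_lit 0) (nat_lit 10112645336) (nat_lit 380) (nat_lit 6808766434) (nat_lit 76) (nat_lit 527232830) (nat_lit 122) (nat_lit 5) (nat_lit 127) (nat_lit 5) (nat_lit 123) (nat_lit 5) (nat_lit 637) (nat_lit 532) (nat_lit 391)) (XT.lf (nat_lit 0) (nat_lit 4620758339) (nat_lit 304) (nat_lit 10561317359) (nat_lit 380) (nat_lit 2478959253) (nat_lit 118) (nat_lit 5) (nat_lit 122) (nat_lit 5) (nat_lit 123) (nat_lit 5) (nat_lit 638) (nat_lit 532) (nat_lit 390)))) (XT.nd (nat_lit 156) (nat_lit 228) (nat_lit 0) (XT.nd (nat_lit 78) (nat_lit 304) (nat_lit 0) (XT.lf (nat_lit 0) (nat_lit 2473930586) (nat_lit 380) (nat_lit 1546758231) (nat_lit 76) (nat_lit 13856039621) (nat_lit 117) (nat_lit 5) (nat_lit 122) (nat_lit 5) (nat_lit 118) (nat_lit 5) (nat_lit 639) (nat_lit 532) (nat_lit 389)) (XT.lf (nat_lit 0) (nat_lit 7562566495) (nat_lit 380) (nat_lit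 7842455083) (nat_lit 76) (nat_lit 2689989046) (nat_lit 113) (nat_lit 5) (nat_lit 118) (nat_lit 5) (nat_lit 114) (nat_lit 5) (nat_lit 640) (nat_lit 532) (nat_lit 388))) (XT.nd (nat_lit 78) (nat_lit 0) (nat_lit 0) (XT.lf (nat_lit 0) (nat_lit 3992667509) (nat_lit 228) (nat_lit 8808840510) (nat_lit 304) (nat_lit 5515179954) (nat_lit 110) (nat_lit 5) (nat_lit 113) (nat_lit 5) (nat_lit 114) (nat_lit 5) (nat_lit 641) (nat_lit 532) (nat_lit 387)) (XT.lf (nat_lit 0) (nat_lit 16146586775) (nat_lit 228) (nat_lit 2036929509) (nat_lit 304) (nat_lit 358516999) (nat_lit 110) (nat_lit 5) (nat_lit 113) (nat_lit 5) (nat_lit 114) (nat_lit 5) (nat_lit 642) (nat_lit 532) (nat_lit 386))))))))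
noncomputable def xc92 : XT := (XT.nd (nat_lit 74958) (nat_lit 0) (nat_lit 14744) (XT.nd (nat_lit 73710) (nat_lit 0) (nat_lit 33288) (XT.nd (nat_lit 73086) (nat_lit 0) (nat_lit 42940) (XT.nd (nat_lit 72774) (nat_lit 0) (nat_lit 44992) (XT.nd (nat_lit 72618) (nat_lit 0) (nat_lit 46892) (XT.lf (nat_lit 0) (nat_lit 4918960177) (nat_lit 380) (nat_lit 8957375776) (nat_lit 76) (nat_lit 4893274023) (nat_lit 105) (nat_lit 5) (nat_lit 110) (nat_lit 5) (nat_lit 106) (nat_lit 5) (nat_lit 643) (nat_lit 532) (nat_lit 385)) (XT.nd (nat_lit 78) (nat_lit 0) (nat_lit 0) (XT.lf (nat_lit 0) (nat_lit 877708852) (nat_lit 0) (nat_lit 877708852) (nat_lit 836) (nat_lit 1626024910) (nat_lit 722) (nat_lit 5) (nat_lit 722) (nat_lit 3) (nat_lit 733) (nat_lit 3) (nat_lit 533) (nat_lit 533) (nat_lit 494)) (XT.lf (nat_lit 0) (nat_lit 5165319310) (nat_lit 0) (nat_lit 486680205) (nat_lit 836) (nat_lit 1136299943) (nat_lit 722) (nat_lit 5) (nat_lit 722) (nat_lit 3) (nat_lit 733) (nat_lit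 3) (nat_lit 534) (nat_lit 533) (nat_lit 493)))) (XT.nd (nat_lit 156) (nat_lit 988) (nat_lit 0) (XT.nd (nat_lit 78) (nat_lit 0) (nat_lit 0) (XT.lf (nat_lit 0) (nat_lit 970098787) (nat_lit 912) (nat_lit 5002465006) (nat_lit 988) (nat_lit 842293215) (nat_lit 710) (nat_lit 5) (nat_lit 722) (nat_lit 5) (nat_lit 723) (nat_lit 5) (nat_lit 535) (nat_lit 533) (nat_lit 492)) (XT.lf (nat_lit 0) (nat_lit 3063079721) (nat_lit 912) (nat_lit 1543521510) (nat_lit 988) (nat_lit 2236003228) (nat_lit 710) (nat_lit 5) (nat_lit 722) (nat_lit 5) (nat_lit 723) (nat_lit 5) (nat_lit 536) (nat_lit 533) (nat_lit 491))) (XT.nd (nat_lit 78) (nat_lit 988) (nat_lit 0) (XT.lf (nat_lit 76) (nat_lit 1981724066) (nat_lit 0) (nat_lit 3175600952) (nat_lit 988) (nat_lit 1714396060) (nat_lit 711) (nat_lit 5) (nat_lit 710) (nat_lit 5) (nat_lit 723) (nat_lit 5) (nat_lit 537) (nat_lit 533) (nat_lit 490)) (XT.lf (nat_lit 0) (nat_lit 344369592) (nat_lit 988) (nat_lit 1334812867) (nat_lit 1064) (nat_lit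 5223039363) (nat_lit 697) (nat_lit 5) (nat_lit 710) (nat_lit 5) (nat_lit 711) (nat_lit 5) (nat_lit 538) (nat_lit 533) (nat_lit 489))))) (XT.nd (nat_lit 312) (nat_lit 1064) (nat_lit 0) (XT.nd (nat_lit 156) (nat_lit 988) (nat_lit 0) (XT.nd (nat_lit 78) (nat_lit 0) (nat_lit 76) (XT.lf (nat_lit 76) (nat_lit 2281232825) (nat_lit 0) (nat_lit 103042523) (nat_lit 1064) (nat_lit 4549574357) (nat_lit 698) (nat_lit 5) (nat_lit 697) (nat_lit 5) (nat_lit 711) (nat_lit 5) (nat_lit 539) (nat_lit 533) (nat_lit 488)) (XT.lf (nat_lit 0) (nat_lit 4432830571) (nat_lit 988) (nat_lit 1017853494) (nat_lit 1064) (nat_lit 1516071190) (nat_lit 698) (nat_lit 5) (nat_lit 711) (nat_lit 5) (nat_lit 712) (nat_lit 5) (nat_lit 540) (nat_lit 533) (nat_lit 487))) (XT.nd (nat_lit 78) (nat_lit 1064) (nat_lit 0) (XT.lf (nat_lit 76) (nat_lit 2695065744) (nat_lit 0) (nat_lit 3795536160) (nat_lit 1064) (nat_lit 510354205) (nat_lit 699) (nat_lit 5) (nat_lit 698) (nat_lit 5) (nat_lit 712) (nat_lit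 5) (nat_lit 541) (nat_lit 533) (nat_lit 486)) (XT.lf (nat_lit 0) (nat_lit 1490714089) (nat_lit 1064) (nat_lit 579467172) (nat_lit 1140) (nat_lit 4966311913) (nat_lit 684) (nat_lit 5) (nat_lit 698) (nat_lit 5) (nat_lit 699) (nat_lit 5) (nat_lit 542) (nat_lit 533) (nat_lit 485)))) (XT.nd (nat_lit 156) (nat_lit 1064) (nat_lit 0) (XT.nd (nat_lit 78) (nat_lit 0) (nat_lit 76) (XT.lf (nat_lit 76) (nat_lit 3231396142) (nat_lit 0) (nat_lit 266058497) (nat_lit 1140) (nat_lit 3575771155) (nat_lit 685) (nat_lit 5) (nat_lit 684) (nat_lit 5) (nat_lit 699) (nat_lit 5) (nat_lit 543) (nat_lit 533) (nat_lit 484)) (XT.lf (nat_lit 0) (nat_lit 5510848196) (nat_lit 1064) (nat_lit 24506422) (nat_lit 1140) (nat_lit 1576010018) (nat_lit 685) (nat_lit 5) (nat_lit 699) (nat_lit 5) (nat_lit 700) (nat_lit 5) (nat_lit 544) (nat_lit 533) (nat_lit 483))) (XT.nd (nat_lit 78) (nat_lit 0) (nat_lit 0) (XT.lf (nat_lit 0) (nat_lit 389007576) (nat_lit 1140) (nat_lit 3264203113) (nat_lit 1216)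 (nat_lit 3497399693) (nat_lit 670) (nat_lit 5) (nat_lit 685) (nat_lit 5) (nat_lit 686) (nat_lit 5) (nat_lit 545) (nat_lit 533) (nat_lit 482)) (XT.lf (nat_lit 76) (nat_lit 653390432) (nat_lit 0) (nat_lit 1701665317) (nat_lit 1216) (nat_lit 4836212235) (nat_lit 671) (nat_lit 5) (nat_lit 670) (nat_lit 5) (nat_lit 686) (nat_lit 5) (nat_lit 546) (nat_lit 533) (nat_lit 481)))))) (XT.nd (nat_lit 624) (nat_lit 7296) (nat_lit 0) (XT.nd (nat_lit 312) (nat_lit 1216) (nat_lit 0) (XT.nd (nat_lit 156) (nat_lit 1216) (nat_lit 0) (XT.nd (nat_lit 78) (nat_lit 0) (nat_lit 0) (XT.lf (nat_lit 0) (nat_lit 4338905327) (nat_lit 1140) (nat_lit 2571370637) (nat_lit 1216) (nat_lit 322894953) (nat_lit 671) (nat_lit 5) (nat_lit 686) (nat_lit 5) (nat_lit 687) (nat_lit 5) (nat_lit 547) (nat_lit 533) (nat_lit 480)) (XT.lf (nat_lit 76) (nat_lit 1452211652) (nat_lit 0) (nat_lit 4886364403) (nat_lit 1216) (nat_lit 937814721) (nat_lit 672) (nat_lit 5) (nat_lit 671) (nat_lit 5) (nat_lit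 687) (nat_lit 5) (nat_lit 548) (nat_lit 533) (nat_lit 479))) (XT.nd (nat_lit 78) (nat_lit 0) (nat_lit 0) (XT.lf (nat_lit 0) (nat_lit 1017095693) (nat_lit 1216) (nat_lit 1766413249) (nat_lit 1292) (nat_lit 4537366354) (nat_lit 655) (nat_lit 5) (nat_lit 671) (nat_lit 5) (nat_lit 672) (nat_lit 5) (nat_lit 549) (nat_lit 533) (nat_lit 478)) (XT.lf (nat_lit 76) (nat_lit 2367521714) (nat_lit 0) (nat_lit 603108311) (nat_lit 1292) (nat_lit 4396055492) (nat_lit 656) (nat_lit 5) (nat_lit 655) (nat_lit 5) (nat_lit 672) (nat_lit 5) (nat_lit 550) (nat_lit 533) (nat_lit 477)))) (XT.nd (nat_lit 156) (nat_lit 1292) (nat_lit 0) (XT.nd (nat_lit 78) (nat_lit 0) (nat_lit 0) (XT.lf (nat_lit 0) (nat_lit 4943131999) (nat_lit 1216) (nat_lit 846266527) (nat_lit 1292) (nat_lit 1624417096) (nat_lit 656) (nat_lit 5) (nat_lit 672) (nat_lit 5) (nat_lit 673) (nat_lit 5) (nat_lit 551) (nat_lit 533) (nat_lit 476)) (XT.lf (nat_lit 76) (nat_lit 3400321042) (nat_lit 0) (nat_lit 3539109626)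 (nat_lit 1292) (nat_lit 522772314) (nat_lit 657) (nat_lit 5) (nat_lit 656) (nat_lit 5) (nat_lit 673) (nat_lit 5) (nat_lit 552) (nat_lit 533) (nat_lit 475))) (XT.nd (nat_lit 78) (nat_lit 0) (nat_lit 76) (XT.lf (nat_lit 76) (nat_lit 194551727) (nat_lit 0) (nat_lit 1215949787) (nat_lit 1368) (nat_lit 6101555859) (nat_lit 640) (nat_lit 5) (nat_lit 639) (nat_lit 5) (nat_lit 657) (nat_lit 5) (nat_lit 553) (nat_lit 533) (nat_lit 474)) (XT.lf (nat_lit 0) (nat_lit 3369686965) (nat_lit 1292) (nat_lit 3013332515) (nat_lit 76) (nat_lit 1179936835) (nat_lit 640) (nat_lit 5) (nat_lit 657) (nat_lit 5) (nat_lit 641) (nat_lit 5) (nat_lit 554) (nat_lit 533) (nat_lit 473))))) (XT.nd (nat_lit 312) (nat_lit 4636) (nat_lit 0) (XT.nd (nat_lit 156) (nat_lit 1444) (nat_lit 0) (XT.nd (nat_lit 78) (nat_lit 0) (nat_lit 0) (XT.lf (nat_lit 0) (nat_lit 1356257258) (nat_lit 1292) (nat_lit 3988766285) (nat_lit 1368) (nat_lit 2270311809) (nat_lit 623) (nat_lit 5) (nat_lit 640) (nat_lit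 5) (nat_lit 641) (nat_lit 5) (nat_lit 555) (nat_lit 533) (nat_lit 472)) (XT.lf (nat_lit 0) (nat_lit 5823883624) (nat_lit 1292) (nat_lit 1516899415) (nat_lit 1368) (nat_lit 328362047) (nat_lit 623) (nat_lit 5) (nat_lit 640) (nat_lit 5) (nat_lit 641) (nat_lit 5) (nat_lit 556) (nat_lit 533) (nat_lit 471))) (XT.nd (nat_lit 78) (nat_lit 0) (nat_lit 0) (XT.lf (nat_lit 0) (nat_lit 1615936988) (nat_lit 1444) (nat_lit 5080270587) (nat_lit 76) (nat_lit 1027906602) (nat_lit 604) (nat_lit 5) (nat_lit 623) (nat_lit 5) (nat_lit 605) (nat_lit 5) (nat_lit 557) (nat_lit 533) (nat_lit 470)) (XT.lf (nat_lit 0) (nat_lit 3579069110) (nat_lit 1444) (nat_lit 575241454) (nat_lit 76) (nat_lit 3626143154) (nat_lit 604) (nat_lit 5) (nat_lit 623) (nat_lit 5) (nat_lit 605) (nat_lit 5) (nat_lit 558) (nat_lit 533) (nat_lit 469)))) (XT.nd (nat_lit 156) (nat_lit 1672) (nat_lit 0) (XT.nd (nat_lit 78) (nat_lit 1520) (nat_lit 0) (XT.lf (nat_lit 0) (nat_lit 4042764822) (nat_lit 1444) (nat_lit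 1527525196) (nat_lit 1520) (nat_lit 2267854836) (nat_lit 585) (nat_lit 5) (nat_lit 604) (nat_lit 5) (nat_lit 605) (nat_lit 5) (nat_lit 559) (nat_lit 533) (nat_lit 468)) (XT.lf (nat_lit 0) (nat_lit 836755883) (nat_lit 1520) (nat_lit 6744538398) (nat_lit 1596) (nat_lit 316097655) (nat_lit 565) (nat_lit 5) (nat_lit 585) (nat_lit 5) (nat_lit 586) (nat_lit 5) (nat_lit 560) (nat_lit 533) (nat_lit 467))) (XT.nd (nat_lit 78) (nat_lit 1596) (nat_lit 0) (XT.lf (nat_lit 0) (nat_lit 1651929028) (nat_lit 1596) (nat_lit 2396506219) (nat_lit 76) (nat_lit 3909188534) (nat_lit 564) (nat_lit 5) (nat_lit 585) (nat_lit 5) (nat_lit 565) (nat_lit 5) (nat_lit 561) (nat_lit 533) (nat_lit 466)) (XT.lf (nat_lit 0) (nat_lit 2359348707) (nat_lit 1596) (nat_lit 1275218730) (nat_lit 1672) (nat_lit 4384862588) (nat_lit 543) (nat_lit 5) (nat_lit 564) (nat_lit 5) (nat_lit 565) (nat_lit 5) (nat_lit 562) (nat_lit 533) (nat_lit 465))))))) (XT.nd (nat_lit 1170) (nat_lit 7448) (nat_lit 0)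 (XT.nd (nat_lit 546) (nat_lit 4560) (nat_lit 0) (XT.nd (nat_lit 234) (nat_lit 3040) (nat_lit 0) (XT.nd (nat_lit 78) (nat_lit 3496) (nat_lit 0) (XT.lf (nat_lit 0) (nat_lit 5647834235) (nat_lit 1672) (nat_lit 880485856) (nat_lit 76) (nat_lit 1554333994) (nat_lit 543) (nat_lit 5) (nat_lit 565) (nat_lit 5) (nat_lit 544) (nat_lit 5) (nat_lit 563) (nat_lit 533) (nat_lit 464)) (XT.nd (nat_lit 78) (nat_lit 1824) (nat_lit 0) (XT.lf (nat_lit 0) (nat_lit 4008486721) (nat_lit 1672) (nat_lit 3692743884) (nat_lit 1748) (nat_lit 445915915) (nat_lit 521) (nat_lit 5) (nat_lit 543) (nat_lit 5) (nat_lit 544) (nat_lit 5) (nat_lit 564) (nat_lit 533) (nat_lit 463)) (XT.lf (nat_lit 0) (nat_lit 763461084) (nat_lit 1748) (nat_lit 775100361) (nat_lit 1824) (nat_lit 6674631892) (nat_lit 497) (nat_lit 5) (nat_lit 520) (nat_lit 5) (nat_lit 521) (nat_lit 5) (nat_lit 565) (nat_lit 533) (nat_lit 462)))) (XT.nd (nat_lit 156) (nat_lit 1216) (nat_lit 0) (XT.nd (nat_lit 78) (nat_lit 1824)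 (nat_lit 0) (XT.lf (nat_lit 0) (nat_lit 3565157120) (nat_lit 1824) (nat_lit 2508806864) (nat_lit 76) (nat_lit 2206371275) (nat_lit 497) (nat_lit 5) (nat_lit 521) (nat_lit 5) (nat_lit 498) (nat_lit 5) (nat_lit 566) (nat_lit 533) (nat_lit 461)) (XT.lf (nat_lit 0) (nat_lit 2528475578) (nat_lit 1824) (nat_lit 3092170366) (nat_lit 1900) (nat_lit 2728407941) (nat_lit 473) (nat_lit 5) (nat_lit 497) (nat_lit 5) (nat_lit 498) (nat_lit 5) (nat_lit 567) (nat_lit 533) (nat_lit 460))) (XT.nd (nat_lit 78) (nat_lit 1216) (nat_lit 0) (XT.lf (nat_lit 0) (nat_lit 7670222045) (nat_lit 1824) (nat_lit 31123591) (nat_lit 1900) (nat_lit 718120292) (nat_lit 473) (nat_lit 5) (nat_lit 497) (nat_lit 5) (nat_lit 498) (nat_lit 5) (nat_lit 568) (nat_lit 533) (nat_lit 459)) (XT.lf (nat_lit 0) (nat_lit 1331771979) (nat_lit 1216) (nat_lit 4068503786) (nat_lit 76) (nat_lit 3090500998) (nat_lit 457) (nat_lit 5) (nat_lit 473) (nat_lit 5) (nat_lit 458) (nat_lit 5) (nat_lit 569) (nat_lit 533)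 (nat_lit 458))))) (XT.nd (nat_lit 312) (nat_lit 2660) (nat_lit 0) (XT.nd (nat_lit 156) (nat_lit 988) (nat_lit 0) (XT.nd (nat_lit 78) (nat_lit 0) (nat_lit 0) (XT.lf (nat_lit 0) (nat_lit 1123119499) (nat_lit 912) (nat_lit 2270640922) (nat_lit 988) (nat_lit 5170045184) (nat_lit 445) (nat_lit 5) (nat_lit 457) (nat_lit 5) (nat_lit 458) (nat_lit 5) (nat_lit 570) (nat_lit 533) (nat_lit 457)) (XT.lf (nat_lit 0) (nat_lit 5499034669) (nat_lit 988) (nat_lit 2201201979) (nat_lit 76) (nat_lit 938018442) (nat_lit 445) (nat_lit 5) (nat_lit 458) (nat_lit 5) (nat_lit 446) (nat_lit 5) (nat_lit 571) (nat_lit 533) (nat_lit 456))) (XT.nd (nat_lit 78) (nat_lit 76) (nat_lit 0) (XT.lf (nat_lit 0) (nat_lit 3138794921) (nat_lit 912) (nat_lit 4512231934) (nat_lit 988) (nat_lit 1063075428) (nat_lit 433) (nat_lit 5) (nat_lit 445) (nat_lit 5) (nat_lit 446) (nat_lit 5) (nat_lit 572) (nat_lit 533) (nat_lit 455)) (XT.lf (nat_lit 0) (nat_lit 1025031952) (nat_lit 988) (nat_lit 213299244)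 (nat_lit 76) (nat_lit 7553313797) (nat_lit 432) (nat_lit 5) (nat_lit 445) (nat_lit 5) (nat_lit 433) (nat_lit 5) (nat_lit 573) (nat_lit 533) (nat_lit 454)))) (XT.nd (nat_lit 156) (nat_lit 912) (nat_lit 0) (XT.nd (nat_lit 78) (nat_lit 912) (nat_lit 0) (XT.lf (nat_lit 0) (nat_lit 3158931937) (nat_lit 912) (nat_lit 3596174751) (nat_lit 76) (nat_lit 2115126941) (nat_lit 421) (nat_lit 5) (nat_lit 433) (nat_lit 5) (nat_lit 422) (nat_lit 5) (nat_lit 574) (nat_lit 533) (nat_lit 453)) (XT.lf (nat_lit 0) (nat_lit 1910124523) (nat_lit 912) (nat_lit 3417823722) (nat_lit 988) (nat_lit 3622597920) (nat_lit 409) (nat_lit 5) (nat_lit 421) (nat_lit 5) (nat_lit 422) (nat_lit 5) (nat_lit 575) (nat_lit 533) (nat_lit 452))) (XT.nd (nat_lit 78) (nat_lit 912) (nat_lit 0) (XT.lf (nat_lit 0) (nat_lit 7535320155) (nat_lit 988) (nat_lit 1487541358) (nat_lit 76) (nat_lit 9704811) (nat_lit 409) (nat_lit 5) (nat_lit 422) (nat_lit 5) (nat_lit 410) (nat_lit 5) (nat_lit 576) (nat_lit 533)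 (nat_lit 451)) (XT.lf (nat_lit 0) (nat_lit 683065651) (nat_lit 912) (nat_lit 4941919305) (nat_lit 76) (nat_lit 3490730723) (nat_lit 397) (nat_lit 5) (nat_lit 409) (nat_lit 5) (nat_lit 398) (nat_lit 5) (nat_lit 577) (nat_lit 533) (nat_lit 450)))))) (XT.nd (nat_lit 624) (nat_lit 3496) (nat_lit 0) (XT.nd (nat_lit 312) (nat_lit 2280) (nat_lit 0) (XT.nd (nat_lit 156) (nat_lit 836) (nat_lit 0) (XT.nd (nat_lit 78) (nat_lit 0) (nat_lit 0) (XT.lf (nat_lit 0) (nat_lit 737524907) (nat_lit 836) (nat_lit 2135791103) (nat_lit 912) (nat_lit 6327287294) (nat_lit 386) (nat_lit 5) (nat_lit 397) (nat_lit 5) (nat_lit 398) (nat_lit 5) (nat_lit 578) (nat_lit 533) (nat_lit 449)) (XT.lf (nat_lit 0) (nat_lit 5121868227) (nat_lit 912) (nat_lit 2729151008) (nat_lit 76) (nat_lit 1435880318) (nat_lit 386) (nat_lit 5) (nat_lit 398) (nat_lit 5) (nat_lit 387) (nat_lit 5) (nat_lit 579) (nat_lit 533) (nat_lit 448))) (XT.nd (nat_lit 78) (nat_lit 76) (nat_lit 0) (XT.lf (nat_lit 0) (nat_lit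 3116067906) (nat_lit 760) (nat_lit 4306125041) (nat_lit 836) (nat_lit 1952593544) (nat_lit 376) (nat_lit 5) (nat_lit 386) (nat_lit 5) (nat_lit 387) (nat_lit 5) (nat_lit 580) (nat_lit 533) (nat_lit 447)) (XT.lf (nat_lit 0) (nat_lit 291131029) (nat_lit 836) (nat_lit 381252408) (nat_lit 76) (nat_lit 8792188482) (nat_lit 375) (nat_lit 5) (nat_lit 386) (nat_lit 5) (nat_lit 376) (nat_lit 5) (nat_lit 581) (nat_lit 533) (nat_lit 446)))) (XT.nd (nat_lit 156) (nat_lit 760) (nat_lit 0) (XT.nd (nat_lit 78) (nat_lit 760) (nat_lit 0) (XT.lf (nat_lit 0) (nat_lit 2583399039) (nat_lit 836) (nat_lit 3930522737) (nat_lit 76) (nat_lit 3041377608) (nat_lit 365) (nat_lit 5) (nat_lit 376) (nat_lit 5) (nat_lit 366) (nat_lit 5) (nat_lit 582) (nat_lit 533) (nat_lit 445)) (XT.lf (nat_lit 0) (nat_lit 2101393624) (nat_lit 760) (nat_lit 2814235290) (nat_lit 836) (nat_lit 4732330889) (nat_lit 355) (nat_lit 5) (nat_lit 365) (nat_lit 5) (nat_lit 366) (nat_lit 5) (nat_lit 583) (nat_lit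 533) (nat_lit 444))) (XT.nd (nat_lit 78) (nat_lit 760) (nat_lit 0) (XT.lf (nat_lit 0) (nat_lit 7301031914) (nat_lit 836) (nat_lit 1471427799) (nat_lit 76) (nat_lit 969883864) (nat_lit 355) (nat_lit 5) (nat_lit 366) (nat_lit 5) (nat_lit 356) (nat_lit 5) (nat_lit 584) (nat_lit 533) (nat_lit 443)) (XT.lf (nat_lit 0) (nat_lit 4739017881) (nat_lit 760) (nat_lit 5018794616) (nat_lit 836) (nat_lit 80329845) (nat_lit 345) (nat_lit 5) (nat_lit 355) (nat_lit 5) (nat_lit 356) (nat_lit 5) (nat_lit 585) (nat_lit 533) (nat_lit 442))))) (XT.nd (nat_lit 312) (nat_lit 1368) (nat_lit 0) (XT.nd (nat_lit 156) (nat_lit 1368) (nat_lit 0) (XT.nd (nat_lit 78) (nat_lit 0) (nat_lit 0) (XT.lf (nat_lit 0) (nat_lit 1127712602) (nat_lit 684) (nat_lit 1161297167) (nat_lit 760) (nat_lit 7646712336) (nat_lit 335) (nat_lit 5) (nat_lit 344) (nat_lit 5) (nat_lit 345) (nat_lit 5) (nat_lit 586) (nat_lit 533) (nat_lit 441)) (XT.lf (nat_lit 0) (nat_lit 4731800551) (nat_lit 760) (nat_lit 2535265781)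 (nat_lit 76) (nat_lit 2767634376) (nat_lit 335) (nat_lit 5) (nat_lit 345) (nat_lit 5) (nat_lit 336) (nat_lit 5) (nat_lit 587) (nat_lit 533) (nat_lit 440))) (XT.nd (nat_lit 78) (nat_lit 684) (nat_lit 0) (XT.lf (nat_lit 0) (nat_lit 3876536489) (nat_lit 684) (nat_lit 3354954863) (nat_lit 760) (nat_lit 2904007296) (nat_lit 326) (nat_lit 5) (nat_lit 335) (nat_lit 5) (nat_lit 336) (nat_lit 5) (nat_lit 588) (nat_lit 533) (nat_lit 439)) (XT.lf (nat_lit 0) (nat_lit 181295989) (nat_lit 684) (nat_lit 9597757213) (nat_lit 760) (nat_lit 459302439) (nat_lit 317) (nat_lit 5) (nat_lit 326) (nat_lit 5) (nat_lit 327) (nat_lit 5) (nat_lit 589) (nat_lit 533) (nat_lit 438)))) (XT.nd (nat_lit 156) (nat_lit 608) (nat_lit 0) (XT.nd (nat_lit 78) (nat_lit 684) (nat_lit 0) (XT.lf (nat_lit 0) (nat_lit 2047690559) (nat_lit 760) (nat_lit 3572874373) (nat_lit 76) (nat_lit 4721639812) (nat_lit 316) (nat_lit 5) (nat_lit 326) (nat_lit 5) (nat_lit 317) (nat_lit 5) (nat_lit 590) (nat_lit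 533) (nat_lit 437)) (XT.lf (nat_lit 0) (nat_lit 3048581251) (nat_lit 684) (nat_lit 1545947034) (nat_lit 760) (nat_lit 5853625325) (nat_lit 307) (nat_lit 5) (nat_lit 316) (nat_lit 5) (nat_lit 317) (nat_lit 5) (nat_lit 591) (nat_lit 533) (nat_lit 436))) (XT.nd (nat_lit 78) (nat_lit 608) (nat_lit 0) (XT.lf (nat_lit 0) (nat_lit 7209684564) (nat_lit 760) (nat_lit 751549762) (nat_lit 76) (nat_lit 2594640083) (nat_lit 307) (nat_lit 5) (nat_lit 317) (nat_lit 5) (nat_lit 308) (nat_lit 5) (nat_lit 592) (nat_lit 533) (nat_lit 435)) (XT.lf (nat_lit 0) (nat_lit 6069782523) (nat_lit 608) (nat_lit 3833773496) (nat_lit 684) (nat_lit 761665941) (nat_lit 299) (nat_lit 5) (nat_lit 307) (nat_lit 5) (nat_lit 308) (nat_lit 5) (nat_lit 593) (nat_lit 533) (nat_lit 434))))))))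
noncomputable def xc93 : XT := (XT.nd (nat_lit 2418) (nat_lit 4256) (nat_lit 0) (XT.nd (nat_lit 1170) (nat_lit 4408) (nat_lit 0) (XT.nd (nat_lit 546) (nat_lit 2660) (nat_lit 0) (XT.nd (nat_lit 234) (nat_lit 1824) (nat_lit 0) (XT.nd (nat_lit 78) (nat_lit 608) (nat_lit 0) (XT.lf (nat_lit 0) (nat_lit 1849138951) (nat_lit 684) (nat_lit 8529964720) (nat_lit 76) (nat_lit 397426418) (nat_lit 290) (nat_lit 5) (nat_lit 299) (nat_lit 5) (nat_lit 291) (nat_lit 5) (nat_lit 594) (nat_lit 533) (nat_lit 433)) (XT.nd (nat_lit 78) (nat_lit 608) (nat_lit 0) (XT.lf (nat_lit 0) (nat_lit 4535508592) (nat_lit 684) (nat_lit 1661744833) (nat_lit 76) (nat_lit 4692039862) (nat_lit 290) (nat_lit 5) (nat_lit 299) (nat_lit 5) (nat_lit 291) (nat_lit 5) (nat_lit 595) (nat_lit 533) (nat_lit 432)) (XT.lf (nat_lit 0) (nat_lit 5385687162) (nat_lit 608) (nat_lit 1902441360) (nat_lit 684) (nat_lit 3715933302) (nat_lit 282) (nat_lit 5) (nat_lit 290) (nat_lit 5) (nat_lit 291) (nat_lit 5) (nat_lit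 596) (nat_lit 533) (nat_lit 431)))) (XT.nd (nat_lit 156) (nat_lit 1140) (nat_lit 0) (XT.nd (nat_lit 78) (nat_lit 76) (nat_lit 0) (XT.lf (nat_lit 0) (nat_lit 1449537128) (nat_lit 608) (nat_lit 8660758928) (nat_lit 684) (nat_lit 1010540297) (nat_lit 274) (nat_lit 5) (nat_lit 282) (nat_lit 5) (nat_lit 283) (nat_lit 5) (nat_lit 597) (nat_lit 533) (nat_lit 430)) (XT.lf (nat_lit 0) (nat_lit 1754444564) (nat_lit 684) (nat_lit 2557534352) (nat_lit 76) (nat_lit 6927172412) (nat_lit 273) (nat_lit 5) (nat_lit 282) (nat_lit 5) (nat_lit 274) (nat_lit 5) (nat_lit 598) (nat_lit 533) (nat_lit 429))) (XT.nd (nat_lit 78) (nat_lit 608) (nat_lit 0) (XT.lf (nat_lit 0) (nat_lit 4571201798) (nat_lit 608) (nat_lit 6635273280) (nat_lit 76) (nat_lit 153024348) (nat_lit 266) (nat_lit 5) (nat_lit 274) (nat_lit 5) (nat_lit 267) (nat_lit 5) (nat_lit 599) (nat_lit 533) (nat_lit 428)) (XT.lf (nat_lit 0) (nat_lit 655576747) (nat_lit 608) (nat_lit 6817307636) (nat_lit 684) (nat_lit 4008798781)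 (nat_lit 258) (nat_lit 5) (nat_lit 266) (nat_lit 5) (nat_lit 267) (nat_lit 5) (nat_lit 600) (nat_lit 533) (nat_lit 427))))) (XT.nd (nat_lit 312) (nat_lit 1520) (nat_lit 0) (XT.nd (nat_lit 156) (nat_lit 532) (nat_lit 0) (XT.nd (nat_lit 78) (nat_lit 608) (nat_lit 0) (XT.lf (nat_lit 0) (nat_lit 8153645546) (nat_lit 608) (nat_lit 2302219037) (nat_lit 684) (nat_lit 1149981190) (nat_lit 258) (nat_lit 5) (nat_lit 266) (nat_lit 5) (nat_lit 267) (nat_lit 5) (nat_lit 601) (nat_lit 533) (nat_lit 426)) (XT.lf (nat_lit 0) (nat_lit 1763534914) (nat_lit 608) (nat_lit 7664303684) (nat_lit 76) (nat_lit 2304010494) (nat_lit 250) (nat_lit 5) (nat_lit 258) (nat_lit 5) (nat_lit 251) (nat_lit 5) (nat_lit 602) (nat_lit 533) (nat_lit 425))) (XT.nd (nat_lit 78) (nat_lit 532) (nat_lit 0) (XT.lf (nat_lit 0) (nat_lit 4737701294) (nat_lit 608) (nat_lit 126886266) (nat_lit 76) (nat_lit 6995277773) (nat_lit 250) (nat_lit 5) (nat_lit 258) (nat_lit 5) (nat_lit 251) (nat_lit 5) (nat_lit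 603) (nat_lit 533) (nat_lit 424)) (XT.lf (nat_lit 0) (nat_lit 7633509169) (nat_lit 532) (nat_lit 167009347) (nat_lit 608) (nat_lit 4189340470) (nat_lit 243) (nat_lit 5) (nat_lit 250) (nat_lit 5) (nat_lit 251) (nat_lit 5) (nat_lit 604) (nat_lit 533) (nat_lit 423)))) (XT.nd (nat_lit 156) (nat_lit 988) (nat_lit 0) (XT.nd (nat_lit 78) (nat_lit 76) (nat_lit 0) (XT.lf (nat_lit 0) (nat_lit 3415098786) (nat_lit 456) (nat_lit 7542325819) (nat_lit 532) (nat_lit 1164371687) (nat_lit 237) (nat_lit 5) (nat_lit 243) (nat_lit 5) (nat_lit 244) (nat_lit 5) (nat_lit 605) (nat_lit 533) (nat_lit 422)) (XT.lf (nat_lit 0) (nat_lit 1906293484) (nat_lit 532) (nat_lit 896672746) (nat_lit 76) (nat_lit 9452949214) (nat_lit 236) (nat_lit 5) (nat_lit 243) (nat_lit 5) (nat_lit 237) (nat_lit 5) (nat_lit 606) (nat_lit 533) (nat_lit 421))) (XT.nd (nat_lit 78) (nat_lit 456) (nat_lit 0) (XT.lf (nat_lit 0) (nat_lit 5062822401) (nat_lit 608) (nat_lit 5277792428) (nat_lit 76) (nat_lit 2051147797)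 (nat_lit 229) (nat_lit 5) (nat_lit 237) (nat_lit 5) (nat_lit 230) (nat_lit 5) (nat_lit 607) (nat_lit 533) (nat_lit 420)) (XT.lf (nat_lit 0) (nat_lit 2756577703) (nat_lit 456) (nat_lit 5548833961) (nat_lit 532) (nat_lit 4224456890) (nat_lit 223) (nat_lit 5) (nat_lit 229) (nat_lit 5) (nat_lit 230) (nat_lit 5) (nat_lit 608) (nat_lit 533) (nat_lit 419)))))) (XT.nd (nat_lit 624) (nat_lit 2052) (nat_lit 0) (XT.nd (nat_lit 312) (nat_lit 1368) (nat_lit 0) (XT.nd (nat_lit 156) (nat_lit 456) (nat_lit 0) (XT.nd (nat_lit 78) (nat_lit 532) (nat_lit 0) (XT.lf (nat_lit 0) (nat_lit 10995612653) (nat_lit 456) (nat_lit 633274479) (nat_lit 532) (nat_lit 1041529169) (nat_lit 223) (nat_lit 5) (nat_lit 229) (nat_lit 5) (nat_lit 230) (nat_lit 5) (nat_lit 609) (nat_lit 533) (nat_lit 418)) (XT.lf (nat_lit 0) (nat_lit 2228830631) (nat_lit 532) (nat_lit 6210754169) (nat_lit 76) (nat_lit 4372850379) (nat_lit 216) (nat_lit 5) (nat_lit 223) (nat_lit 5) (nat_lit 217) (nat_lit 5) (nat_lit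 610) (nat_lit 533) (nat_lit 417))) (XT.nd (nat_lit 78) (nat_lit 0) (nat_lit 0) (XT.lf (nat_lit 0) (nat_lit 2098256274) (nat_lit 456) (nat_lit 3462556261) (nat_lit 532) (nat_lit 7396141354) (nat_lit 210) (nat_lit 5) (nat_lit 216) (nat_lit 5) (nat_lit 217) (nat_lit 5) (nat_lit 611) (nat_lit 533) (nat_lit 416)) (XT.lf (nat_lit 0) (nat_lit 8993024725) (nat_lit 532) (nat_lit 2484215107) (nat_lit 76) (nat_lit 1626451690) (nat_lit 210) (nat_lit 5) (nat_lit 217) (nat_lit 5) (nat_lit 211) (nat_lit 5) (nat_lit 612) (nat_lit 533) (nat_lit 415)))) (XT.nd (nat_lit 156) (nat_lit 456) (nat_lit 0) (XT.nd (nat_lit 78) (nat_lit 456) (nat_lit 0) (XT.lf (nat_lit 0) (nat_lit 6087641470) (nat_lit 456) (nat_lit 6450222945) (nat_lit 532) (nat_lit 714620178) (nat_lit 204) (nat_lit 5) (nat_lit 210) (nat_lit 5) (nat_lit 211) (nat_lit 5) (nat_lit 613) (nat_lit 533) (nat_lit 414)) (XT.lf (nat_lit 0) (nat_lit 1434448912) (nat_lit 380) (nat_lit 1286528341) (nat_lit 456) (nat_lit 10682765838)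 (nat_lit 198) (nat_lit 5) (nat_lit 203) (nat_lit 5) (nat_lit 204) (nat_lit 5) (nat_lit 614) (nat_lit 533) (nat_lit 413))) (XT.nd (nat_lit 78) (nat_lit 456) (nat_lit 0) (XT.lf (nat_lit 0) (nat_lit 6271692342) (nat_lit 456) (nat_lit 3312334140) (nat_lit 76) (nat_lit 3972786647) (nat_lit 198) (nat_lit 5) (nat_lit 204) (nat_lit 5) (nat_lit 199) (nat_lit 5) (nat_lit 615) (nat_lit 533) (nat_lit 412)) (XT.lf (nat_lit 0) (nat_lit 5555416657) (nat_lit 456) (nat_lit 4364676533) (nat_lit 532) (nat_lit 3792318274) (nat_lit 192) (nat_lit 5) (nat_lit 198) (nat_lit 5) (nat_lit 199) (nat_lit 5) (nat_lit 616) (nat_lit 533) (nat_lit 411))))) (XT.nd (nat_lit 312) (nat_lit 836) (nat_lit 0) (XT.nd (nat_lit 156) (nat_lit 760) (nat_lit 0) (XT.nd (nat_lit 78) (nat_lit 76) (nat_lit 0) (XT.lf (nat_lit 0) (nat_lit 751414473) (nat_lit 380) (nat_lit 12905732006) (nat_lit 456) (nat_lit 213661917) (nat_lit 187) (nat_lit 5) (nat_lit 192) (nat_lit 5) (nat_lit 193) (nat_lit 5) (nat_lit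 617) (nat_lit 533) (nat_lit 410)) (XT.lf (nat_lit 0) (nat_lit 3457764925) (nat_lit 456) (nat_lit 4161167333) (nat_lit 76) (nat_lit 6411669694) (nat_lit 186) (nat_lit 5) (nat_lit 192) (nat_lit 5) (nat_lit 187) (nat_lit 5) (nat_lit 618) (nat_lit 533) (nat_lit 409))) (XT.nd (nat_lit 78) (nat_lit 380) (nat_lit 0) (XT.lf (nat_lit 0) (nat_lit 5014227331) (nat_lit 380) (nat_lit 2200701374) (nat_lit 456) (nat_lit 6978331343) (nat_lit 181) (nat_lit 5) (nat_lit 186) (nat_lit 5) (nat_lit 187) (nat_lit 5) (nat_lit 619) (nat_lit 533) (nat_lit 408)) (XT.lf (nat_lit 0) (nat_lit 22988249) (nat_lit 380) (nat_lit 11056823112) (nat_lit 456) (nat_lit 3278708727) (nat_lit 176) (nat_lit 5) (nat_lit 181) (nat_lit 5) (nat_lit 182) (nat_lit 5) (nat_lit 620) (nat_lit 533) (nat_lit 407)))) (XT.nd (nat_lit 156) (nat_lit 380) (nat_lit 0) (XT.nd (nat_lit 78) (nat_lit 380) (nat_lit 0) (XT.lf (nat_lit 0) (nat_lit 547772201) (nat_lit 456) (nat_lit 5037087202) (nat_lit 76) (nat_lit 8940974812)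 (nat_lit 175) (nat_lit 5) (nat_lit 181) (nat_lit 5) (nat_lit 176) (nat_lit 5) (nat_lit 621) (nat_lit 533) (nat_lit 406)) (XT.lf (nat_lit 0) (nat_lit 4419236737) (nat_lit 456) (nat_lit 10237984077) (nat_lit 76) (nat_lit 38593524) (nat_lit 170) (nat_lit 5) (nat_lit 176) (nat_lit 5) (nat_lit 171) (nat_lit 5) (nat_lit 622) (nat_lit 533) (nat_lit 405))) (XT.nd (nat_lit 78) (nat_lit 380) (nat_lit 0) (XT.lf (nat_lit 0) (nat_lit 8422362145) (nat_lit 456) (nat_lit 720899606) (nat_lit 76) (nat_lit 5724847955) (nat_lit 170) (nat_lit 5) (nat_lit 176) (nat_lit 5) (nat_lit 171) (nat_lit 5) (nat_lit 623) (nat_lit 533) (nat_lit 404)) (XT.lf (nat_lit 0) (nat_lit 9080027439) (nat_lit 380) (nat_lit 3468025593) (nat_lit 456) (nat_lit 2494948154) (nat_lit 165) (nat_lit 5) (nat_lit 170) (nat_lit 5) (nat_lit 171) (nat_lit 5) (nat_lit 624) (nat_lit 533) (nat_lit 403))))))) (XT.nd (nat_lit 1170) (nat_lit 684) (nat_lit 0) (XT.nd (nat_lit 546) (nat_lit 1672) (nat_lit 0) (XT.nd (nat_lit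 234) (nat_lit 1140) (nat_lit 0) (XT.nd (nat_lit 78) (nat_lit 304) (nat_lit 0) (XT.lf (nat_lit 0) (nat_lit 1543674575) (nat_lit 456) (nat_lit 11355476011) (nat_lit 76) (nat_lit 2321462112) (nat_lit 159) (nat_lit 5) (nat_lit 165) (nat_lit 5) (nat_lit 160) (nat_lit 5) (nat_lit 625) (nat_lit 533) (nat_lit 402)) (XT.nd (nat_lit 78) (nat_lit 304) (nat_lit 0) (XT.lf (nat_lit 0) (nat_lit 5676635543) (nat_lit 456) (nat_lit 1495823855) (nat_lit 76) (nat_lit 8228048000) (nat_lit 159) (nat_lit 5) (nat_lit 165) (nat_lit 5) (nat_lit 160) (nat_lit 5) (nat_lit 626) (nat_lit 533) (nat_lit 401)) (XT.lf (nat_lit 0) (nat_lit 8649230270) (nat_lit 304) (nat_lit 1283196864) (nat_lit 380) (nat_lit 5650769674) (nat_lit 155) (nat_lit 5) (nat_lit 159) (nat_lit 5) (nat_lit 160) (nat_lit 5) (nat_lit 627) (nat_lit 533) (nat_lit 400)))) (XT.nd (nat_lit 156) (nat_lit 684) (nat_lit 0) (XT.nd (nat_lit 78) (nat_lit 76) (nat_lit 0) (XT.lf (nat_lit 0) (nat_lit 3234488219) (nat_lit 380) (nat_lit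 11084727075) (nat_lit 456) (nat_lit 1449407342) (nat_lit 150) (nat_lit 5) (nat_lit 155) (nat_lit 5) (nat_lit 156) (nat_lit 5) (nat_lit 628) (nat_lit 533) (nat_lit 399)) (XT.lf (nat_lit 0) (nat_lit 2838274044) (nat_lit 456) (nat_lit 2309104420) (nat_lit 76) (nat_lit 10809220762) (nat_lit 149) (nat_lit 5) (nat_lit 155) (nat_lit 5) (nat_lit 150) (nat_lit 5) (nat_lit 629) (nat_lit 533) (nat_lit 398))) (XT.nd (nat_lit 78) (nat_lit 380) (nat_lit 0) (XT.lf (nat_lit 0) (nat_lit 7236232379) (nat_lit 380) (nat_lit 7960225472) (nat_lit 76) (nat_lit 950807495) (nat_lit 145) (nat_lit 5) (nat_lit 150) (nat_lit 5) (nat_lit 146) (nat_lit 5) (nat_lit 630) (nat_lit 533) (nat_lit 397)) (XT.lf (nat_lit 0) (nat_lit 2557372414) (nat_lit 380) (nat_lit 9215612355) (nat_lit 456) (nat_lit 4567743545) (nat_lit 140) (nat_lit 5) (nat_lit 145) (nat_lit 5) (nat_lit 146) (nat_lit 5) (nat_lit 631) (nat_lit 533) (nat_lit 396))))) (XT.nd (nat_lit 312) (nat_lit 988) (nat_lit 0) (XT.nd (nat_lit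 156) (nat_lit 304) (nat_lit 0) (XT.nd (nat_lit 78) (nat_lit 380) (nat_lit 0) (XT.lf (nat_lit 0) (nat_lit 13368439891) (nat_lit 380) (nat_lit 3070135958) (nat_lit 456) (nat_lit 98722838) (nat_lit 140) (nat_lit 5) (nat_lit 145) (nat_lit 5) (nat_lit 146) (nat_lit 5) (nat_lit 632) (nat_lit 533) (nat_lit 395)) (XT.lf (nat_lit 0) (nat_lit 4457332482) (nat_lit 380) (nat_lit 9052218424) (nat_lit 76) (nat_lit 3226547795) (nat_lit 135) (nat_lit 5) (nat_lit 140) (nat_lit 5) (nat_lit 136) (nat_lit 5) (nat_lit 633) (nat_lit 533) (nat_lit 394))) (XT.nd (nat_lit 78) (nat_lit 0) (nat_lit 0) (XT.lf (nat_lit 0) (nat_lit 1836561516) (nat_lit 304) (nat_lit 7305252945) (nat_lit 380) (nat_lit 7796274861) (nat_lit 131) (nat_lit 5) (nat_lit 135) (nat_lit 5) (nat_lit 136) (nat_lit 5) (nat_lit 634) (nat_lit 533) (nat_lit 393)) (XT.lf (nat_lit 0) (nat_lit 13041405857) (nat_lit 304) (nat_lit 924426136) (nat_lit 380) (nat_lit 3177371045) (nat_lit 131) (nat_lit 5) (nat_lit 135) (nat_lit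 5) (nat_lit 136) (nat_lit 5) (nat_lit 635) (nat_lit 533) (nat_lit 392)))) (XT.nd (nat_lit 156) (nat_lit 304) (nat_lit 0) (XT.nd (nat_lit 78) (nat_lit 304) (nat_lit 0) (XT.lf (nat_lit 0) (nat_lit 1582261999) (nat_lit 380) (nat_lit 10210174472) (nat_lit 76) (nat_lit 5558414198) (nat_lit 126) (nat_lit 5) (nat_lit 131) (nat_lit 5) (nat_lit 127) (nat_lit 5) (nat_lit 636) (nat_lit 533) (nat_lit 391)) (XT.lf (nat_lit 0) (nat_lit 1063900937) (nat_lit 304) (nat_lit 5356786199) (nat_lit 380) (nat_lit 11141021367) (nat_lit 122) (nat_lit 5) (nat_lit 126) (nat_lit 5) (nat_lit 127) (nat_lit 5) (nat_lit 637) (nat_lit 533) (nat_lit 390))) (XT.nd (nat_lit 78) (nat_lit 304) (nat_lit 0) (XT.lf (nat_lit 0) (nat_lit 11418126960) (nat_lit 380) (nat_lit 5106121920) (nat_lit 76) (nat_lit 1251289879) (nat_lit 122) (nat_lit 5) (nat_lit 127) (nat_lit 5) (nat_lit 123) (nat_lit 5) (nat_lit 638) (nat_lit 533) (nat_lit 389)) (XT.lf (nat_lit 0) (nat_lit 6539895850) (nat_lit 304) (nat_lit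 10039278438) (nat_lit 380) (nat_lit 1413198341) (nat_lit 118) (nat_lit 5) (nat_lit 122) (nat_lit 5) (nat_lit 123) (nat_lit 5) (nat_lit 639) (nat_lit 533) (nat_lit 388)))))) (XT.nd (nat_lit 73242) (nat_lit 0) (nat_lit 42636) (XT.nd (nat_lit 72930) (nat_lit 0) (nat_lit 44688) (XT.nd (nat_lit 156) (nat_lit 304) (nat_lit 0) (XT.nd (nat_lit 78) (nat_lit 0) (nat_lit 0) (XT.lf (nat_lit 0) (nat_lit 230589491) (nat_lit 304) (nat_lit 3373446465) (nat_lit 380) (nat_lit 14608601173) (nat_lit 113) (nat_lit 5) (nat_lit 117) (nat_lit 5) (nat_lit 118) (nat_lit 5) (nat_lit 640) (nat_lit 533) (nat_lit 387)) (XT.lf (nat_lit 0) (nat_lit 8788131047) (nat_lit 380) (nat_lit 6189216041) (nat_lit 76) (nat_lit 3458064405) (nat_lit 113) (nat_lit 5) (nat_lit 118) (nat_lit 5) (nat_lit 114) (nat_lit 5) (nat_lit 641) (nat_lit 533) (nat_lit 386))) (XT.nd (nat_lit 78) (nat_lit 76) (nat_lit 0) (XT.lf (nat_lit 0) (nat_lit 5870700529) (nat_lit 228) (nat_lit 8251760883) (nat_lit 304) (nat_lit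 4539249032) (nat_lit 110) (nat_lit 5) (nat_lit 113) (nat_lit 5) (nat_lit 114) (nat_lit 5) (nat_lit 642) (nat_lit 533) (nat_lit 385)) (XT.lf (nat_lit 0) (nat_lit 690077695) (nat_lit 304) (nat_lit 664080759) (nat_lit 76) (nat_lit 17537731275) (nat_lit 109) (nat_lit 5) (nat_lit 113) (nat_lit 5) (nat_lit 110) (nat_lit 5) (nat_lit 643) (nat_lit 533) (nat_lit 384)))) (XT.nd (nat_lit 156) (nat_lit 912) (nat_lit 0) (XT.nd (nat_lit 78) (nat_lit 0) (nat_lit 0) (XT.lf (nat_lit 0) (nat_lit 469537070) (nat_lit 988) (nat_lit 1468766039) (nat_lit 988) (nat_lit 1468766039) (nat_lit 709) (nat_lit 3) (nat_lit 722) (nat_lit 3) (nat_lit 722) (nat_lit 5) (nat_lit 534) (nat_lit 534) (nat_lit 492)) (XT.lf (nat_lit 76) (nat_lit 464598356) (nat_lit 0) (nat_lit 2524652541) (nat_lit 988) (nat_lit 3852124946) (nat_lit 710) (nat_lit 5) (nat_lit 709) (nat_lit 3) (nat_lit 722) (nat_lit 5) (nat_lit 535) (nat_lit 534) (nat_lit 491))) (XT.nd (nat_lit 78) (nat_lit 912) (nat_lit 0) (XT.lf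 (nat_lit 76) (nat_lit 3946966745) (nat_lit 0) (nat_lit 1099546050) (nat_lit 988) (nat_lit 1823326025) (nat_lit 710) (nat_lit 5) (nat_lit 709) (nat_lit 3) (nat_lit 722) (nat_lit 5) (nat_lit 536) (nat_lit 534) (nat_lit 490)) (XT.lf (nat_lit 0) (nat_lit 196144532) (nat_lit 988) (nat_lit 6324011397) (nat_lit 1064) (nat_lit 379618947) (nat_lit 697) (nat_lit 5) (nat_lit 710) (nat_lit 5) (nat_lit 711) (nat_lit 5) (nat_lit 537) (nat_lit 534) (nat_lit 489))))) (XT.nd (nat_lit 312) (nat_lit 988) (nat_lit 0) (XT.nd (nat_lit 156) (nat_lit 1064) (nat_lit 0) (XT.nd (nat_lit 78) (nat_lit 0) (nat_lit 0) (XT.lf (nat_lit 0) (nat_lit 2206726473) (nat_lit 988) (nat_lit 2794219287) (nat_lit 1064) (nat_lit 1929622301) (nat_lit 697) (nat_lit 5) (nat_lit 710) (nat_lit 5) (nat_lit 711) (nat_lit 5) (nat_lit 538) (nat_lit 534) (nat_lit 488)) (XT.lf (nat_lit 76) (nat_lit 788264447) (nat_lit 0) (nat_lit 3423479247) (nat_lit 1064) (nat_lit 2751151078) (nat_lit 698) (nat_lit 5) (nat_lit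 697) (nat_lit 5) (nat_lit 711) (nat_lit 5) (nat_lit 539) (nat_lit 534) (nat_lit 487))) (XT.nd (nat_lit 78) (nat_lit 1064) (nat_lit 0) (XT.lf (nat_lit 76) (nat_lit 4452217592) (nat_lit 0) (nat_lit 1773315820) (nat_lit 1064) (nat_lit 770963255) (nat_lit 698) (nat_lit 5) (nat_lit 697) (nat_lit 5) (nat_lit 711) (nat_lit 5) (nat_lit 540) (nat_lit 534) (nat_lit 486)) (XT.lf (nat_lit 76) (nat_lit 1137321815) (nat_lit 0) (nat_lit 53088381) (nat_lit 1140) (nat_lit 5841041043) (nat_lit 684) (nat_lit 5) (nat_lit 683) (nat_lit 5) (nat_lit 698) (nat_lit 5) (nat_lit 541) (nat_lit 534) (nat_lit 485)))) (XT.nd (nat_lit 156) (nat_lit 1064) (nat_lit 0) (XT.nd (nat_lit 78) (nat_lit 0) (nat_lit 0) (XT.lf (nat_lit 0) (nat_lit 3160429418) (nat_lit 1064) (nat_lit 2185075527) (nat_lit 1140) (nat_lit 1721905179) (nat_lit 684) (nat_lit 5) (nat_lit 698) (nat_lit 5) (nat_lit 699) (nat_lit 5) (nat_lit 542) (nat_lit 534) (nat_lit 484)) (XT.lf (nat_lit 76) (nat_lit 1590144412) (nat_lit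 0) (nat_lit 3542829262) (nat_lit 1140) (nat_lit 1971853952) (nat_lit 685) (nat_lit 5) (nat_lit 684) (nat_lit 5) (nat_lit 699) (nat_lit 5) (nat_lit 543) (nat_lit 534) (nat_lit 483))) (XT.nd (nat_lit 78) (nat_lit 1064) (nat_lit 0) (XT.lf (nat_lit 76) (nat_lit 5442157161) (nat_lit 0) (nat_lit 1670671897) (nat_lit 1140) (nat_lit 30809112) (nat_lit 685) (nat_lit 5) (nat_lit 684) (nat_lit 5) (nat_lit 699) (nat_lit 5) (nat_lit 544) (nat_lit 534) (nat_lit 482)) (XT.lf (nat_lit 0) (nat_lit 1893272421) (nat_lit 1140) (nat_lit 5009987842) (nat_lit 1216) (nat_lit 280317834) (nat_lit 670) (nat_lit 5) (nat_lit 685) (nat_lit 5) (nat_lit 686) (nat_lit 5) (nat_lit 545) (nat_lit 534) (nat_lit 481))))))))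
noncomputable def xc94 : XT := (XT.nd (nat_lit 2418) (nat_lit 13680) (nat_lit 0) (XT.nd (nat_lit 1170) (nat_lit 13300) (nat_lit 0) (XT.nd (nat_lit 546) (nat_lit 4180) (nat_lit 0) (XT.nd (nat_lit 234) (nat_lit 1140) (nat_lit 0) (XT.nd (nat_lit 78) (nat_lit 1216) (nat_lit 0) (XT.lf (nat_lit 0) (nat_lit 3832624834) (nat_lit 1140) (nat_lit 1115432682) (nat_lit 1216) (nat_lit 2276712983) (nat_lit 670) (nat_lit 5) (nat_lit 685) (nat_lit 5) (nat_lit 686) (nat_lit 5) (nat_lit 546) (nat_lit 534) (nat_lit 480)) (XT.nd (nat_lit 78) (nat_lit 1216) (nat_lit 0) (XT.lf (nat_lit 76) (nat_lit 2865946585) (nat_lit 0) (nat_lit 2918958568) (nat_lit 1216) (nat_lit 1482400531) (nat_lit 671) (nat_lit 5) (nat_lit 670) (nat_lit 5) (nat_lit 686) (nat_lit 5) (nat_lit 547) (nat_lit 534) (nat_lit 479)) (XT.lf (nat_lit 0) (nat_lit 422897265) (nat_lit 1216) (nat_lit 400593861) (nat_lit 1292) (nat_lit 6487872411) (nat_lit 654) (nat_lit 5) (nat_lit 670) (nat_lit 5) (nat_lit 671) (nat_lit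 5) (nat_lit 548) (nat_lit 534) (nat_lit 478)))) (XT.nd (nat_lit 156) (nat_lit 1216) (nat_lit 0) (XT.nd (nat_lit 78) (nat_lit 0) (nat_lit 0) (XT.lf (nat_lit 0) (nat_lit 2336072733) (nat_lit 1216) (nat_lit 3675058077) (nat_lit 1292) (nat_lit 1345184993) (nat_lit 655) (nat_lit 5) (nat_lit 671) (nat_lit 5) (nat_lit 672) (nat_lit 5) (nat_lit 549) (nat_lit 534) (nat_lit 477)) (XT.lf (nat_lit 76) (nat_lit 418843791) (nat_lit 0) (nat_lit 3837095725) (nat_lit 1292) (nat_lit 3146860659) (nat_lit 656) (nat_lit 5) (nat_lit 655) (nat_lit 5) (nat_lit 672) (nat_lit 5) (nat_lit 550) (nat_lit 534) (nat_lit 476))) (XT.nd (nat_lit 78) (nat_lit 1216) (nat_lit 0) (XT.lf (nat_lit 76) (nat_lit 4615391269) (nat_lit 0) (nat_lit 1581666527) (nat_lit 1292) (nat_lit 1253500945) (nat_lit 656) (nat_lit 5) (nat_lit 655) (nat_lit 5) (nat_lit 672) (nat_lit 5) (nat_lit 551) (nat_lit 534) (nat_lit 475)) (XT.lf (nat_lit 0) (nat_lit 641380374) (nat_lit 1292) (nat_lit 6123383506) (nat_lit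 1368) (nat_lit 734971257) (nat_lit 639) (nat_lit 5) (nat_lit 656) (nat_lit 5) (nat_lit 657) (nat_lit 5) (nat_lit 552) (nat_lit 534) (nat_lit 474))))) (XT.nd (nat_lit 312) (nat_lit 2888) (nat_lit 0) (XT.nd (nat_lit 156) (nat_lit 1292) (nat_lit 0) (XT.nd (nat_lit 78) (nat_lit 0) (nat_lit 0) (XT.lf (nat_lit 0) (nat_lit 2546454483) (nat_lit 1292) (nat_lit 1887612924) (nat_lit 1368) (nat_lit 3115881846) (nat_lit 639) (nat_lit 5) (nat_lit 656) (nat_lit 5) (nat_lit 657) (nat_lit 5) (nat_lit 553) (nat_lit 534) (nat_lit 473)) (XT.lf (nat_lit 76) (nat_lit 2435671266) (nat_lit 0) (nat_lit 2030005915) (nat_lit 1368) (nat_lit 3135970995) (nat_lit 640) (nat_lit 5) (nat_lit 639) (nat_lit 5) (nat_lit 657) (nat_lit 5) (nat_lit 554) (nat_lit 534) (nat_lit 472))) (XT.nd (nat_lit 78) (nat_lit 1368) (nat_lit 0) (XT.lf (nat_lit 0) (nat_lit 6399667115) (nat_lit 1292) (nat_lit 815749806) (nat_lit 76) (nat_lit 439437937) (nat_lit 640) (nat_lit 5) (nat_lit 657) (nat_lit 5) (nat_lit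 641) (nat_lit 5) (nat_lit 555) (nat_lit 534) (nat_lit 471)) (XT.lf (nat_lit 0) (nat_lit 653149346) (nat_lit 1368) (nat_lit 4087073695) (nat_lit 76) (nat_lit 2968845168) (nat_lit 622) (nat_lit 5) (nat_lit 640) (nat_lit 5) (nat_lit 623) (nat_lit 5) (nat_lit 556) (nat_lit 534) (nat_lit 470)))) (XT.nd (nat_lit 156) (nat_lit 1520) (nat_lit 0) (XT.nd (nat_lit 78) (nat_lit 0) (nat_lit 0) (XT.lf (nat_lit 0) (nat_lit 362160421) (nat_lit 1368) (nat_lit 2190533093) (nat_lit 1444) (nat_lit 5212110786) (nat_lit 604) (nat_lit 5) (nat_lit 622) (nat_lit 5) (nat_lit 623) (nat_lit 5) (nat_lit 557) (nat_lit 534) (nat_lit 469)) (XT.lf (nat_lit 0) (nat_lit 4483077417) (nat_lit 1444) (nat_lit 2898315633) (nat_lit 76) (nat_lit 440406412) (nat_lit 604) (nat_lit 5) (nat_lit 623) (nat_lit 5) (nat_lit 605) (nat_lit 5) (nat_lit 558) (nat_lit 534) (nat_lit 468))) (XT.nd (nat_lit 78) (nat_lit 76) (nat_lit 0) (XT.lf (nat_lit 0) (nat_lit 1673993109) (nat_lit 1444) (nat_lit 4766763006)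 (nat_lit 1520) (nat_lit 1439405972) (nat_lit 585) (nat_lit 5) (nat_lit 604) (nat_lit 5) (nat_lit 605) (nat_lit 5) (nat_lit 559) (nat_lit 534) (nat_lit 467)) (XT.lf (nat_lit 0) (nat_lit 474544081) (nat_lit 1520) (nat_lit 1595473505) (nat_lit 76) (nat_lit 5869947422) (nat_lit 584) (nat_lit 5) (nat_lit 604) (nat_lit 5) (nat_lit 585) (nat_lit 5) (nat_lit 560) (nat_lit 534) (nat_lit 466)))))) (XT.nd (nat_lit 624) (nat_lit 4864) (nat_lit 0) (XT.nd (nat_lit 312) (nat_lit 3572) (nat_lit 0) (XT.nd (nat_lit 156) (nat_lit 3344) (nat_lit 0) (XT.nd (nat_lit 78) (nat_lit 0) (nat_lit 0) (XT.lf (nat_lit 0) (nat_lit 2396677193) (nat_lit 1596) (nat_lit 4896317670) (nat_lit 76) (nat_lit 707996508) (nat_lit 564) (nat_lit 5) (nat_lit 585) (nat_lit 5) (nat_lit 565) (nat_lit 5) (nat_lit 561) (nat_lit 534) (nat_lit 465)) (XT.lf (nat_lit 0) (nat_lit 4346603109) (nat_lit 1596) (nat_lit 186164046) (nat_lit 76) (nat_lit 3530685305) (nat_lit 564) (nat_lit 5) (nat_lit 585) (nat_lit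 5) (nat_lit 565) (nat_lit 5) (nat_lit 562) (nat_lit 534) (nat_lit 464))) (XT.nd (nat_lit 78) (nat_lit 1748) (nat_lit 0) (XT.lf (nat_lit 0) (nat_lit 4649950923) (nat_lit 1596) (nat_lit 1681320172) (nat_lit 1672) (nat_lit 1795977985) (nat_lit 543) (nat_lit 5) (nat_lit 564) (nat_lit 5) (nat_lit 565) (nat_lit 5) (nat_lit 563) (nat_lit 534) (nat_lit 463)) (XT.lf (nat_lit 0) (nat_lit 145276597) (nat_lit 1748) (nat_lit 6820290625) (nat_lit 76) (nat_lit 1227052184) (nat_lit 520) (nat_lit 5) (nat_lit 543) (nat_lit 5) (nat_lit 521) (nat_lit 5) (nat_lit 564) (nat_lit 534) (nat_lit 462)))) (XT.nd (nat_lit 156) (nat_lit 1824) (nat_lit 0) (XT.nd (nat_lit 78) (nat_lit 1748) (nat_lit 0) (XT.lf (nat_lit 0) (nat_lit 2102276818) (nat_lit 1748) (nat_lit 1945929184) (nat_lit 76) (nat_lit 4210835444) (nat_lit 520) (nat_lit 5) (nat_lit 543) (nat_lit 5) (nat_lit 521) (nat_lit 5) (nat_lit 565) (nat_lit 534) (nat_lit 461)) (XT.lf (nat_lit 0) (nat_lit 3036330039) (nat_lit 1748)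 (nat_lit 1048783822) (nat_lit 1824) (nat_lit 4241945220) (nat_lit 497) (nat_lit 5) (nat_lit 520) (nat_lit 5) (nat_lit 521) (nat_lit 5) (nat_lit 566) (nat_lit 534) (nat_lit 460))) (XT.nd (nat_lit 78) (nat_lit 1824) (nat_lit 0) (XT.lf (nat_lit 0) (nat_lit 6101268990) (nat_lit 1824) (nat_lit 294596588) (nat_lit 76) (nat_lit 2000699331) (nat_lit 497) (nat_lit 5) (nat_lit 521) (nat_lit 5) (nat_lit 498) (nat_lit 5) (nat_lit 567) (nat_lit 534) (nat_lit 459)) (XT.lf (nat_lit 0) (nat_lit 4828534223) (nat_lit 1824) (nat_lit 3335608960) (nat_lit 1900) (nat_lit 303190798) (nat_lit 473) (nat_lit 5) (nat_lit 497) (nat_lit 5) (nat_lit 498) (nat_lit 5) (nat_lit 568) (nat_lit 534) (nat_lit 458))))) (XT.nd (nat_lit 312) (nat_lit 1824) (nat_lit 0) (XT.nd (nat_lit 156) (nat_lit 1824) (nat_lit 0) (XT.nd (nat_lit 78) (nat_lit 0) (nat_lit 0) (XT.lf (nat_lit 0) (nat_lit 1497509961) (nat_lit 1140) (nat_lit 188613742) (nat_lit 1216) (nat_lit 6853570448) (nat_lit 457) (nat_lit 5)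 (nat_lit 472) (nat_lit 5) (nat_lit 473) (nat_lit 5) (nat_lit 569) (nat_lit 534) (nat_lit 457)) (XT.lf (nat_lit 0) (nat_lit 3724135251) (nat_lit 1216) (nat_lit 1878907193) (nat_lit 76) (nat_lit 3010160576) (nat_lit 457) (nat_lit 5) (nat_lit 473) (nat_lit 5) (nat_lit 458) (nat_lit 5) (nat_lit 570) (nat_lit 534) (nat_lit 456))) (XT.nd (nat_lit 78) (nat_lit 912) (nat_lit 0) (XT.lf (nat_lit 0) (nat_lit 3401607987) (nat_lit 912) (nat_lit 2394016272) (nat_lit 988) (nat_lit 2892704429) (nat_lit 445) (nat_lit 5) (nat_lit 457) (nat_lit 5) (nat_lit 458) (nat_lit 5) (nat_lit 571) (nat_lit 534) (nat_lit 455)) (XT.lf (nat_lit 0) (nat_lit 13068228) (nat_lit 912) (nat_lit 7883759869) (nat_lit 988) (nat_lit 868364020) (nat_lit 433) (nat_lit 5) (nat_lit 445) (nat_lit 5) (nat_lit 446) (nat_lit 5) (nat_lit 572) (nat_lit 534) (nat_lit 454)))) (XT.nd (nat_lit 156) (nat_lit 912) (nat_lit 0) (XT.nd (nat_lit 78) (nat_lit 836) (nat_lit 0) (XT.lf (nat_lit 0) (nat_lit 1202338982)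 (nat_lit 988) (nat_lit 3406237734) (nat_lit 76) (nat_lit 4234430293) (nat_lit 432) (nat_lit 5) (nat_lit 445) (nat_lit 5) (nat_lit 433) (nat_lit 5) (nat_lit 573) (nat_lit 534) (nat_lit 453)) (XT.lf (nat_lit 0) (nat_lit 2038121513) (nat_lit 836) (nat_lit 1248540625) (nat_lit 912) (nat_lit 5635925486) (nat_lit 421) (nat_lit 5) (nat_lit 432) (nat_lit 5) (nat_lit 433) (nat_lit 5) (nat_lit 574) (nat_lit 534) (nat_lit 452))) (XT.nd (nat_lit 78) (nat_lit 912) (nat_lit 0) (XT.lf (nat_lit 0) (nat_lit 5420801646) (nat_lit 912) (nat_lit 1409869843) (nat_lit 76) (nat_lit 2172926641) (nat_lit 421) (nat_lit 5) (nat_lit 433) (nat_lit 5) (nat_lit 422) (nat_lit 5) (nat_lit 575) (nat_lit 534) (nat_lit 451)) (XT.lf (nat_lit 0) (nat_lit 4191698651) (nat_lit 912) (nat_lit 3412953496) (nat_lit 988) (nat_lit 1481436993) (nat_lit 409) (nat_lit 5) (nat_lit 421) (nat_lit 5) (nat_lit 422) (nat_lit 5) (nat_lit 576) (nat_lit 534) (nat_lit 450))))))) (XT.nd (nat_lit 1170) (nat_lit 6612)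 (nat_lit 0) (XT.nd (nat_lit 546) (nat_lit 3724) (nat_lit 0) (XT.nd (nat_lit 234) (nat_lit 1596) (nat_lit 0) (XT.nd (nat_lit 78) (nat_lit 836) (nat_lit 0) (XT.lf (nat_lit 0) (nat_lit 639849827) (nat_lit 912) (nat_lit 8440840857) (nat_lit 76) (nat_lit 89722523) (nat_lit 397) (nat_lit 5) (nat_lit 409) (nat_lit 5) (nat_lit 398) (nat_lit 5) (nat_lit 577) (nat_lit 534) (nat_lit 449)) (XT.nd (nat_lit 78) (nat_lit 836) (nat_lit 0) (XT.lf (nat_lit 0) (nat_lit 2811491501) (nat_lit 912) (nat_lit 2785805737) (nat_lit 76) (nat_lit 3658376167) (nat_lit 397) (nat_lit 5) (nat_lit 409) (nat_lit 5) (nat_lit 398) (nat_lit 5) (nat_lit 578) (nat_lit 534) (nat_lit 448)) (XT.lf (nat_lit 0) (nat_lit 2992392149) (nat_lit 836) (nat_lit 2026233070) (nat_lit 912) (nat_lit 4324173198) (nat_lit 386) (nat_lit 5) (nat_lit 397) (nat_lit 5) (nat_lit 398) (nat_lit 5) (nat_lit 579) (nat_lit 534) (nat_lit 447)))) (XT.nd (nat_lit 156) (nat_lit 760) (nat_lit 0) (XT.nd (nat_lit 78) (nat_lit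 836) (nat_lit 0) (XT.lf (nat_lit 0) (nat_lit 7272179662) (nat_lit 912) (nat_lit 547513406) (nat_lit 76) (nat_lit 1611928077) (nat_lit 386) (nat_lit 5) (nat_lit 398) (nat_lit 5) (nat_lit 387) (nat_lit 5) (nat_lit 580) (nat_lit 534) (nat_lit 446)) (XT.lf (nat_lit 0) (nat_lit 70067238) (nat_lit 836) (nat_lit 4122344656) (nat_lit 76) (nat_lit 5329360483) (nat_lit 375) (nat_lit 5) (nat_lit 386) (nat_lit 5) (nat_lit 376) (nat_lit 5) (nat_lit 581) (nat_lit 534) (nat_lit 445))) (XT.nd (nat_lit 78) (nat_lit 0) (nat_lit 0) (XT.lf (nat_lit 0) (nat_lit 1839778250) (nat_lit 760) (nat_lit 464798759) (nat_lit 836) (nat_lit 7309078361) (nat_lit 365) (nat_lit 5) (nat_lit 375) (nat_lit 5) (nat_lit 376) (nat_lit 5) (nat_lit 582) (nat_lit 534) (nat_lit 444)) (XT.lf (nat_lit 0) (nat_lit 4607257016) (nat_lit 836) (nat_lit 1781063773) (nat_lit 76) (nat_lit 3318586352) (nat_lit 365) (nat_lit 5) (nat_lit 376) (nat_lit 5) (nat_lit 366) (nat_lit 5) (nat_lit 583) (nat_lit 534) (nat_lit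 443))))) (XT.nd (nat_lit 312) (nat_lit 1444) (nat_lit 0) (XT.nd (nat_lit 156) (nat_lit 760) (nat_lit 0) (XT.nd (nat_lit 78) (nat_lit 760) (nat_lit 0) (XT.lf (nat_lit 0) (nat_lit 4356832563) (nat_lit 760) (nat_lit 2604999466) (nat_lit 836) (nat_lit 2840075796) (nat_lit 355) (nat_lit 5) (nat_lit 365) (nat_lit 5) (nat_lit 366) (nat_lit 5) (nat_lit 584) (nat_lit 534) (nat_lit 442)) (XT.lf (nat_lit 0) (nat_lit 715089132) (nat_lit 760) (nat_lit 8647992990) (nat_lit 836) (nat_lit 535735418) (nat_lit 345) (nat_lit 5) (nat_lit 355) (nat_lit 5) (nat_lit 356) (nat_lit 5) (nat_lit 585) (nat_lit 534) (nat_lit 441))) (XT.nd (nat_lit 78) (nat_lit 684) (nat_lit 0) (XT.lf (nat_lit 0) (nat_lit 1819833840) (nat_lit 836) (nat_lit 2983215356) (nat_lit 76) (nat_lit 5193802434) (nat_lit 344) (nat_lit 5) (nat_lit 355) (nat_lit 5) (nat_lit 345) (nat_lit 5) (nat_lit 586) (nat_lit 534) (nat_lit 440)) (XT.lf (nat_lit 0) (nat_lit 3353038570) (nat_lit 684) (nat_lit 859480378) (nat_lit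 760) (nat_lit 5884313719) (nat_lit 335) (nat_lit 5) (nat_lit 344) (nat_lit 5) (nat_lit 345) (nat_lit 5) (nat_lit 587) (nat_lit 534) (nat_lit 439)))) (XT.nd (nat_lit 156) (nat_lit 760) (nat_lit 0) (XT.nd (nat_lit 78) (nat_lit 684) (nat_lit 0) (XT.lf (nat_lit 0) (nat_lit 6669416343) (nat_lit 760) (nat_lit 391593447) (nat_lit 76) (nat_lit 3137477003) (nat_lit 335) (nat_lit 5) (nat_lit 345) (nat_lit 5) (nat_lit 336) (nat_lit 5) (nat_lit 588) (nat_lit 534) (nat_lit 438)) (XT.lf (nat_lit 0) (nat_lit 6134008173) (nat_lit 684) (nat_lit 3063109552) (nat_lit 760) (nat_lit 1104623580) (nat_lit 326) (nat_lit 5) (nat_lit 335) (nat_lit 5) (nat_lit 336) (nat_lit 5) (nat_lit 589) (nat_lit 534) (nat_lit 437))) (XT.nd (nat_lit 78) (nat_lit 0) (nat_lit 0) (XT.lf (nat_lit 0) (nat_lit 1351490719) (nat_lit 760) (nat_lit 8031497187) (nat_lit 76) (nat_lit 1023873440) (nat_lit 316) (nat_lit 5) (nat_lit 326) (nat_lit 5) (nat_lit 317) (nat_lit 5) (nat_lit 590) (nat_lit 534) (nat_lit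 436)) (XT.lf (nat_lit 0) (nat_lit 3866913877) (nat_lit 760) (nat_lit 1464271154) (nat_lit 76) (nat_lit 5182253765) (nat_lit 316) (nat_lit 5) (nat_lit 326) (nat_lit 5) (nat_lit 317) (nat_lit 5) (nat_lit 591) (nat_lit 534) (nat_lit 435)))))) (XT.nd (nat_lit 624) (nat_lit 3344) (nat_lit 0) (XT.nd (nat_lit 312) (nat_lit 1292) (nat_lit 0) (XT.nd (nat_lit 156) (nat_lit 684) (nat_lit 0) (XT.nd (nat_lit 78) (nat_lit 608) (nat_lit 0) (XT.lf (nat_lit 0) (nat_lit 5275271077) (nat_lit 684) (nat_lit 1168610530) (nat_lit 760) (nat_lit 4178042044) (nat_lit 307) (nat_lit 5) (nat_lit 316) (nat_lit 5) (nat_lit 317) (nat_lit 5) (nat_lit 592) (nat_lit 534) (nat_lit 434)) (XT.lf (nat_lit 0) (nat_lit 1407030114) (nat_lit 608) (nat_lit 7681584906) (nat_lit 684) (nat_lit 1643639223) (nat_lit 299) (nat_lit 5) (nat_lit 307) (nat_lit 5) (nat_lit 308) (nat_lit 5) (nat_lit 593) (nat_lit 534) (nat_lit 433))) (XT.nd (nat_lit 78) (nat_lit 608) (nat_lit 0) (XT.lf (nat_lit 0) (nat_lit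 950293970) (nat_lit 684) (nat_lit 2518465996) (nat_lit 76) (nat_lit 7375485983) (nat_lit 298) (nat_lit 5) (nat_lit 307) (nat_lit 5) (nat_lit 299) (nat_lit 5) (nat_lit 594) (nat_lit 534) (nat_lit 432)) (XT.lf (nat_lit 0) (nat_lit 3586352371) (nat_lit 684) (nat_lit 6519912071) (nat_lit 76) (nat_lit 851751194) (nat_lit 290) (nat_lit 5) (nat_lit 299) (nat_lit 5) (nat_lit 291) (nat_lit 5) (nat_lit 595) (nat_lit 534) (nat_lit 431)))) (XT.nd (nat_lit 156) (nat_lit 684) (nat_lit 0) (XT.nd (nat_lit 78) (nat_lit 0) (nat_lit 0) (XT.lf (nat_lit 0) (nat_lit 448800429) (nat_lit 608) (nat_lit 5847225029) (nat_lit 684) (nat_lit 4777617911) (nat_lit 282) (nat_lit 5) (nat_lit 290) (nat_lit 5) (nat_lit 291) (nat_lit 5) (nat_lit 596) (nat_lit 534) (nat_lit 430)) (XT.lf (nat_lit 0) (nat_lit 7617229875) (nat_lit 608) (nat_lit 1464659137) (nat_lit 684) (nat_lit 2109255219) (nat_lit 282) (nat_lit 5) (nat_lit 290) (nat_lit 5) (nat_lit 291) (nat_lit 5) (nat_lit 597) (nat_lit 534)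 (nat_lit 429))) (XT.nd (nat_lit 78) (nat_lit 0) (nat_lit 0) (XT.lf (nat_lit 0) (nat_lit 626221513) (nat_lit 684) (nat_lit 7696585829) (nat_lit 76) (nat_lit 2987673138) (nat_lit 273) (nat_lit 5) (nat_lit 282) (nat_lit 5) (nat_lit 274) (nat_lit 5) (nat_lit 598) (nat_lit 534) (nat_lit 428)) (XT.lf (nat_lit 0) (nat_lit 3400762995) (nat_lit 684) (nat_lit 489619293) (nat_lit 76) (nat_lit 7541290845) (nat_lit 273) (nat_lit 5) (nat_lit 282) (nat_lit 5) (nat_lit 274) (nat_lit 5) (nat_lit 599) (nat_lit 534) (nat_lit 427))))) (XT.nd (nat_lit 312) (nat_lit 1596) (nat_lit 0) (XT.nd (nat_lit 156) (nat_lit 608) (nat_lit 0) (XT.nd (nat_lit 78) (nat_lit 608) (nat_lit 0) (XT.lf (nat_lit 0) (nat_lit 6259253576) (nat_lit 608) (nat_lit 4634275290) (nat_lit 76) (nat_lit 661192080) (nat_lit 266) (nat_lit 5) (nat_lit 274) (nat_lit 5) (nat_lit 267) (nat_lit 5) (nat_lit 600) (nat_lit 534) (nat_lit 426)) (XT.lf (nat_lit 0) (nat_lit 2788354214) (nat_lit 608) (nat_lit 6413071450)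 (nat_lit 684) (nat_lit 2478274284) (nat_lit 258) (nat_lit 5) (nat_lit 266) (nat_lit 5) (nat_lit 267) (nat_lit 5) (nat_lit 601) (nat_lit 534) (nat_lit 425))) (XT.nd (nat_lit 78) (nat_lit 532) (nat_lit 0) (XT.lf (nat_lit 0) (nat_lit 400810733) (nat_lit 684) (nat_lit 1414780348) (nat_lit 76) (nat_lit 9991321928) (nat_lit 257) (nat_lit 5) (nat_lit 266) (nat_lit 5) (nat_lit 258) (nat_lit 5) (nat_lit 602) (nat_lit 534) (nat_lit 424)) (XT.lf (nat_lit 0) (nat_lit 3343723502) (nat_lit 608) (nat_lit 5705218663) (nat_lit 76) (nat_lit 2886612375) (nat_lit 250) (nat_lit 5) (nat_lit 258) (nat_lit 5) (nat_lit 251) (nat_lit 5) (nat_lit 603) (nat_lit 534) (nat_lit 423)))) (XT.nd (nat_lit 156) (nat_lit 1064) (nat_lit 0) (XT.nd (nat_lit 78) (nat_lit 0) (nat_lit 0) (XT.lf (nat_lit 0) (nat_lit 1967329947) (nat_lit 532) (nat_lit 4392523964) (nat_lit 608) (nat_lit 5706628229) (nat_lit 243) (nat_lit 5) (nat_lit 250) (nat_lit 5) (nat_lit 251) (nat_lit 5) (nat_lit 604) (nat_lit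 534) (nat_lit 422)) (XT.lf (nat_lit 0) (nat_lit 9457336921) (nat_lit 608) (nat_lit 2358675524) (nat_lit 76) (nat_lit 383595671) (nat_lit 243) (nat_lit 5) (nat_lit 251) (nat_lit 5) (nat_lit 244) (nat_lit 5) (nat_lit 605) (nat_lit 534) (nat_lit 421))) (XT.nd (nat_lit 78) (nat_lit 532) (nat_lit 0) (XT.lf (nat_lit 0) (nat_lit 323693010) (nat_lit 532) (nat_lit 6783224916) (nat_lit 76) (nat_lit 5227522347) (nat_lit 236) (nat_lit 5) (nat_lit 243) (nat_lit 5) (nat_lit 237) (nat_lit 5) (nat_lit 606) (nat_lit 534) (nat_lit 420)) (XT.lf (nat_lit 0) (nat_lit 1149385320) (nat_lit 532) (nat_lit 2268943437) (nat_lit 608) (nat_lit 9053196758) (nat_lit 229) (nat_lit 5) (nat_lit 236) (nat_lit 5) (nat_lit 237) (nat_lit 5) (nat_lit 607) (nat_lit 534) (nat_lit 419))))))))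
noncomputable def xc95 : XT := (XT.nd (nat_lit 2418) (nat_lit 912) (nat_lit 0) (XT.nd (nat_lit 1170) (nat_lit 4028) (nat_lit 0) (XT.nd (nat_lit 546) (nat_lit 2128) (nat_lit 0) (XT.nd (nat_lit 234) (nat_lit 988) (nat_lit 0) (XT.nd (nat_lit 78) (nat_lit 988) (nat_lit 0) (XT.lf (nat_lit 0) (nat_lit 6618782382) (nat_lit 608) (nat_lit 3322658391) (nat_lit 76) (nat_lit 2669033576) (nat_lit 229) (nat_lit 5) (nat_lit 237) (nat_lit 5) (nat_lit 230) (nat_lit 5) (nat_lit 608) (nat_lit 534) (nat_lit 418)) (XT.nd (nat_lit 78) (nat_lit 532) (nat_lit 0) (XT.lf (nat_lit 0) (nat_lit 4858841973) (nat_lit 456) (nat_lit 5052149202) (nat_lit 532) (nat_lit 2840656442) (nat_lit 223) (nat_lit 5) (nat_lit 229) (nat_lit 5) (nat_lit 230) (nat_lit 5) (nat_lit 609) (nat_lit 534) (nat_lit 417)) (XT.lf (nat_lit 0) (nat_lit 328810141) (nat_lit 456) (nat_lit 45518295) (nat_lit 532) (nat_lit 12521151278) (nat_lit 216) (nat_lit 5) (nat_lit 222) (nat_lit 5) (nat_lit 223) (nat_lit 5) (nat_lit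 610) (nat_lit 534) (nat_lit 416)))) (XT.nd (nat_lit 156) (nat_lit 532) (nat_lit 0) (XT.nd (nat_lit 78) (nat_lit 456) (nat_lit 0) (XT.lf (nat_lit 0) (nat_lit 3683178548) (nat_lit 532) (nat_lit 4298193126) (nat_lit 76) (nat_lit 5059089566) (nat_lit 216) (nat_lit 5) (nat_lit 223) (nat_lit 5) (nat_lit 217) (nat_lit 5) (nat_lit 611) (nat_lit 534) (nat_lit 415)) (XT.lf (nat_lit 0) (nat_lit 4163597683) (nat_lit 456) (nat_lit 2903696934) (nat_lit 532) (nat_lit 6120866351) (nat_lit 210) (nat_lit 5) (nat_lit 216) (nat_lit 5) (nat_lit 217) (nat_lit 5) (nat_lit 612) (nat_lit 534) (nat_lit 414))) (XT.nd (nat_lit 78) (nat_lit 532) (nat_lit 0) (XT.lf (nat_lit 0) (nat_lit 10544791043) (nat_lit 532) (nat_lit 526811004) (nat_lit 76) (nat_lit 2266699029) (nat_lit 210) (nat_lit 5) (nat_lit 217) (nat_lit 5) (nat_lit 211) (nat_lit 5) (nat_lit 613) (nat_lit 534) (nat_lit 413)) (XT.lf (nat_lit 0) (nat_lit 647616929) (nat_lit 532) (nat_lit 5291332074) (nat_lit 76) (nat_lit 7551315396)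 (nat_lit 203) (nat_lit 5) (nat_lit 210) (nat_lit 5) (nat_lit 204) (nat_lit 5) (nat_lit 614) (nat_lit 534) (nat_lit 412))))) (XT.nd (nat_lit 312) (nat_lit 836) (nat_lit 0) (XT.nd (nat_lit 156) (nat_lit 912) (nat_lit 0) (XT.nd (nat_lit 78) (nat_lit 0) (nat_lit 0) (XT.lf (nat_lit 0) (nat_lit 3461975881) (nat_lit 380) (nat_lit 666565063) (nat_lit 456) (nat_lit 9516189474) (nat_lit 198) (nat_lit 5) (nat_lit 203) (nat_lit 5) (nat_lit 204) (nat_lit 5) (nat_lit 615) (nat_lit 534) (nat_lit 411)) (XT.lf (nat_lit 0) (nat_lit 7727848168) (nat_lit 456) (nat_lit 1396489399) (nat_lit 76) (nat_lit 4676973217) (nat_lit 198) (nat_lit 5) (nat_lit 204) (nat_lit 5) (nat_lit 199) (nat_lit 5) (nat_lit 616) (nat_lit 534) (nat_lit 410))) (XT.nd (nat_lit 78) (nat_lit 456) (nat_lit 0) (XT.lf (nat_lit 0) (nat_lit 7635576339) (nat_lit 456) (nat_lit 3800332494) (nat_lit 532) (nat_lit 2524378891) (nat_lit 192) (nat_lit 5) (nat_lit 198) (nat_lit 5) (nat_lit 199) (nat_lit 5) (nat_lit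 617) (nat_lit 534) (nat_lit 409)) (XT.lf (nat_lit 0) (nat_lit 1102185204) (nat_lit 456) (nat_lit 11384745825) (nat_lit 76) (nat_lit 1634953818) (nat_lit 186) (nat_lit 5) (nat_lit 192) (nat_lit 5) (nat_lit 187) (nat_lit 5) (nat_lit 618) (nat_lit 534) (nat_lit 408)))) (XT.nd (nat_lit 156) (nat_lit 456) (nat_lit 0) (XT.nd (nat_lit 78) (nat_lit 380) (nat_lit 0) (XT.lf (nat_lit 0) (nat_lit 4818353657) (nat_lit 456) (nat_lit 2287899506) (nat_lit 76) (nat_lit 7179109833) (nat_lit 186) (nat_lit 5) (nat_lit 192) (nat_lit 5) (nat_lit 187) (nat_lit 5) (nat_lit 619) (nat_lit 534) (nat_lit 407)) (XT.lf (nat_lit 0) (nat_lit 7058131399) (nat_lit 380) (nat_lit 1579826356) (nat_lit 456) (nat_lit 5813570995) (nat_lit 181) (nat_lit 5) (nat_lit 186) (nat_lit 5) (nat_lit 187) (nat_lit 5) (nat_lit 620) (nat_lit 534) (nat_lit 406))) (XT.nd (nat_lit 78) (nat_lit 76) (nat_lit 0) (XT.lf (nat_lit 0) (nat_lit 1975420166) (nat_lit 380) (nat_lit 10596550506) (nat_lit 456) (nat_lit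 2048287097) (nat_lit 176) (nat_lit 5) (nat_lit 181) (nat_lit 5) (nat_lit 182) (nat_lit 5) (nat_lit 621) (nat_lit 534) (nat_lit 405)) (XT.lf (nat_lit 0) (nat_lit 1812647829) (nat_lit 456) (nat_lit 3207446191) (nat_lit 76) (nat_lit 9771157849) (nat_lit 175) (nat_lit 5) (nat_lit 181) (nat_lit 5) (nat_lit 176) (nat_lit 5) (nat_lit 622) (nat_lit 534) (nat_lit 404)))))) (XT.nd (nat_lit 624) (nat_lit 2052) (nat_lit 0) (XT.nd (nat_lit 312) (nat_lit 760) (nat_lit 0) (XT.nd (nat_lit 156) (nat_lit 456) (nat_lit 0) (XT.nd (nat_lit 78) (nat_lit 380) (nat_lit 0) (XT.lf (nat_lit 0) (nat_lit 5753794235) (nat_lit 456) (nat_lit 8504593362) (nat_lit 76) (nat_lit 706399350) (nat_lit 170) (nat_lit 5) (nat_lit 176) (nat_lit 5) (nat_lit 171) (nat_lit 5) (nat_lit 623) (nat_lit 534) (nat_lit 403)) (XT.lf (nat_lit 0) (nat_lit 1180309824) (nat_lit 380) (nat_lit 8639900920) (nat_lit 456) (nat_lit 5320653301) (nat_lit 165) (nat_lit 5) (nat_lit 170) (nat_lit 5) (nat_lit 171) (nat_lit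 5) (nat_lit 624) (nat_lit 534) (nat_lit 402))) (XT.nd (nat_lit 78) (nat_lit 456) (nat_lit 0) (XT.lf (nat_lit 0) (nat_lit 11149274466) (nat_lit 380) (nat_lit 2859777837) (nat_lit 456) (nat_lit 1310588706) (nat_lit 165) (nat_lit 5) (nat_lit 170) (nat_lit 5) (nat_lit 171) (nat_lit 5) (nat_lit 625) (nat_lit 534) (nat_lit 401)) (XT.lf (nat_lit 0) (nat_lit 2785461538) (nat_lit 456) (nat_lit 9671556376) (nat_lit 76) (nat_lit 3043770087) (nat_lit 159) (nat_lit 5) (nat_lit 165) (nat_lit 5) (nat_lit 160) (nat_lit 5) (nat_lit 626) (nat_lit 534) (nat_lit 400)))) (XT.nd (nat_lit 156) (nat_lit 456) (nat_lit 0) (XT.nd (nat_lit 78) (nat_lit 0) (nat_lit 0) (XT.lf (nat_lit 0) (nat_lit 352439976) (nat_lit 304) (nat_lit 6627186621) (nat_lit 380) (nat_lit 8705083466) (nat_lit 155) (nat_lit 5) (nat_lit 159) (nat_lit 5) (nat_lit 160) (nat_lit 5) (nat_lit 627) (nat_lit 534) (nat_lit 399)) (XT.lf (nat_lit 0) (nat_lit 10683446832) (nat_lit 304) (nat_lit 623605423) (nat_lit 380)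 (nat_lit 4564271002) (nat_lit 155) (nat_lit 5) (nat_lit 159) (nat_lit 5) (nat_lit 160) (nat_lit 5) (nat_lit 628) (nat_lit 534) (nat_lit 398))) (XT.nd (nat_lit 78) (nat_lit 76) (nat_lit 0) (XT.lf (nat_lit 0) (nat_lit 5167127767) (nat_lit 380) (nat_lit 10607879910) (nat_lit 456) (nat_lit 285581645) (nat_lit 150) (nat_lit 5) (nat_lit 155) (nat_lit 5) (nat_lit 156) (nat_lit 5) (nat_lit 629) (nat_lit 534) (nat_lit 397)) (XT.lf (nat_lit 0) (nat_lit 4049127638) (nat_lit 456) (nat_lit 508609046) (nat_lit 76) (nat_lit 11694895843) (nat_lit 149) (nat_lit 5) (nat_lit 155) (nat_lit 5) (nat_lit 150) (nat_lit 5) (nat_lit 630) (nat_lit 534) (nat_lit 396))))) (XT.nd (nat_lit 312) (nat_lit 988) (nat_lit 0) (XT.nd (nat_lit 156) (nat_lit 380) (nat_lit 0) (XT.nd (nat_lit 78) (nat_lit 380) (nat_lit 0) (XT.lf (nat_lit 0) (nat_lit 8528814394) (nat_lit 380) (nat_lit 6266505183) (nat_lit 76) (nat_lit 1651917339) (nat_lit 145) (nat_lit 5) (nat_lit 150) (nat_lit 5) (nat_lit 146)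 (nat_lit 5) (nat_lit 631) (nat_lit 534) (nat_lit 395)) (XT.lf (nat_lit 0) (nat_lit 4449254365) (nat_lit 380) (nat_lit 8696491728) (nat_lit 456) (nat_lit 3499034490) (nat_lit 140) (nat_lit 5) (nat_lit 145) (nat_lit 5) (nat_lit 146) (nat_lit 5) (nat_lit 632) (nat_lit 534) (nat_lit 394))) (XT.nd (nat_lit 78) (nat_lit 304) (nat_lit 0) (XT.lf (nat_lit 0) (nat_lit 1023024817) (nat_lit 456) (nat_lit 1412008752) (nat_lit 76) (nat_lit 14410560506) (nat_lit 139) (nat_lit 5) (nat_lit 145) (nat_lit 5) (nat_lit 140) (nat_lit 5) (nat_lit 633) (nat_lit 534) (nat_lit 393)) (XT.lf (nat_lit 0) (nat_lit 5663124336) (nat_lit 380) (nat_lit 7407917794) (nat_lit 76) (nat_lit 3977430316) (nat_lit 135) (nat_lit 5) (nat_lit 140) (nat_lit 5) (nat_lit 136) (nat_lit 5) (nat_lit 634) (nat_lit 534) (nat_lit 392)))) (XT.nd (nat_lit 156) (nat_lit 684) (nat_lit 0) (XT.nd (nat_lit 78) (nat_lit 0) (nat_lit 0) (XT.lf (nat_lit 0) (nat_lit 3686628897) (nat_lit 304) (nat_lit 6744545435) (nat_lit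 380) (nat_lit 6823531280) (nat_lit 131) (nat_lit 5) (nat_lit 135) (nat_lit 5) (nat_lit 136) (nat_lit 5) (nat_lit 635) (nat_lit 534) (nat_lit 391)) (XT.lf (nat_lit 0) (nat_lit 15080014514) (nat_lit 304) (nat_lit 249961160) (nat_lit 380) (nat_lit 2134380154) (nat_lit 131) (nat_lit 5) (nat_lit 135) (nat_lit 5) (nat_lit 136) (nat_lit 5) (nat_lit 636) (nat_lit 534) (nat_lit 390))) (XT.nd (nat_lit 78) (nat_lit 304) (nat_lit 0) (XT.lf (nat_lit 0) (nat_lit 2700615220) (nat_lit 380) (nat_lit 8616738490) (nat_lit 76) (nat_lit 6358765653) (nat_lit 126) (nat_lit 5) (nat_lit 131) (nat_lit 5) (nat_lit 127) (nat_lit 5) (nat_lit 637) (nat_lit 534) (nat_lit 389)) (XT.lf (nat_lit 0) (nat_lit 2870991851) (nat_lit 304) (nat_lit 4755103692) (nat_lit 380) (nat_lit 10265293356) (nat_lit 122) (nat_lit 5) (nat_lit 126) (nat_lit 5) (nat_lit 127) (nat_lit 5) (nat_lit 638) (nat_lit 534) (nat_lit 388))))))) (XT.nd (nat_lit 73944) (nat_lit 0) (nat_lit 34504) (XT.nd (nat_lit 73320)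 (nat_lit 0) (nat_lit 42484) (XT.nd (nat_lit 312) (nat_lit 228) (nat_lit 0) (XT.nd (nat_lit 156) (nat_lit 380) (nat_lit 0) (XT.nd (nat_lit 78) (nat_lit 304) (nat_lit 0) (XT.lf (nat_lit 0) (nat_lit 12706878501) (nat_lit 380) (nat_lit 3440828131) (nat_lit 76) (nat_lit 1962121513) (nat_lit 122) (nat_lit 5) (nat_lit 127) (nat_lit 5) (nat_lit 123) (nat_lit 5) (nat_lit 639) (nat_lit 534) (nat_lit 387)) (XT.lf (nat_lit 0) (nat_lit 8426482256) (nat_lit 304) (nat_lit 9535272321) (nat_lit 380) (nat_lit 369432225) (nat_lit 118) (nat_lit 5) (nat_lit 122) (nat_lit 5) (nat_lit 123) (nat_lit 5) (nat_lit 640) (nat_lit 534) (nat_lit 386))) (XT.nd (nat_lit 78) (nat_lit 0) (nat_lit 0) (XT.lf (nat_lit 0) (nat_lit 1993418893) (nat_lit 304) (nat_lit 2731338999) (nat_lit 380) (nat_lit 13831146332) (nat_lit 113) (nat_lit 5) (nat_lit 117) (nat_lit 5) (nat_lit 118) (nat_lit 5) (nat_lit 641) (nat_lit 534) (nat_lit 385)) (XT.lf (nat_lit 0) (nat_lit 9996489998) (nat_lit 380) (nat_lit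 4573200146) (nat_lit 76) (nat_lit 4213765079) (nat_lit 113) (nat_lit 5) (nat_lit 118) (nat_lit 5) (nat_lit 114) (nat_lit 5) (nat_lit 642) (nat_lit 534) (nat_lit 384)))) (XT.nd (nat_lit 72852) (nat_lit 0) (nat_lit 44536) (XT.nd (nat_lit 72774) (nat_lit 0) (nat_lit 45524) (XT.lf (nat_lit 0) (nat_lit 7716468700) (nat_lit 228) (nat_lit 7712012904) (nat_lit 304) (nat_lit 3585979303) (nat_lit 110) (nat_lit 5) (nat_lit 113) (nat_lit 5) (nat_lit 114) (nat_lit 5) (nat_lit 643) (nat_lit 534) (nat_lit 383)) (XT.lf (nat_lit 0) (nat_lit 2503466794) (nat_lit 988) (nat_lit 465582706) (nat_lit 988) (nat_lit 465582706) (nat_lit 709) (nat_lit 3) (nat_lit 722) (nat_lit 3) (nat_lit 722) (nat_lit 5) (nat_lit 535) (nat_lit 535) (nat_lit 490))) (XT.nd (nat_lit 78) (nat_lit 0) (nat_lit 0) (XT.lf (nat_lit 0) (nat_lit 131915385) (nat_lit 988) (nat_lit 4373818157) (nat_lit 1064) (nat_lit 2392620723) (nat_lit 696) (nat_lit 5) (nat_lit 709) (nat_lit 3) (nat_lit 710) (nat_lit 5) (nat_lit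 536) (nat_lit 535) (nat_lit 489)) (XT.lf (nat_lit 0) (nat_lit 2095531412) (nat_lit 988) (nat_lit 905544589) (nat_lit 1064) (nat_lit 3927617458) (nat_lit 696) (nat_lit 5) (nat_lit 709) (nat_lit 3) (nat_lit 710) (nat_lit 5) (nat_lit 537) (nat_lit 535) (nat_lit 488))))) (XT.nd (nat_lit 312) (nat_lit 1064) (nat_lit 0) (XT.nd (nat_lit 156) (nat_lit 988) (nat_lit 0) (XT.nd (nat_lit 78) (nat_lit 0) (nat_lit 76) (XT.lf (nat_lit 76) (nat_lit 2640010022) (nat_lit 0) (nat_lit 1424676118) (nat_lit 1064) (nat_lit 2895630106) (nat_lit 697) (nat_lit 5) (nat_lit 696) (nat_lit 5) (nat_lit 710) (nat_lit 5) (nat_lit 538) (nat_lit 535) (nat_lit 487)) (XT.lf (nat_lit 0) (nat_lit 6030634312) (nat_lit 988) (nat_lit 752618042) (nat_lit 1064) (nat_lit 210173021) (nat_lit 697) (nat_lit 5) (nat_lit 710) (nat_lit 5) (nat_lit 711) (nat_lit 5) (nat_lit 539) (nat_lit 535) (nat_lit 486))) (XT.nd (nat_lit 78) (nat_lit 0) (nat_lit 0) (XT.lf (nat_lit 0) (nat_lit 974601981) (nat_lit 1064)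 (nat_lit 4146309157) (nat_lit 1140) (nat_lit 1906574046) (nat_lit 683) (nat_lit 5) (nat_lit 697) (nat_lit 5) (nat_lit 698) (nat_lit 5) (nat_lit 540) (nat_lit 535) (nat_lit 485)) (XT.lf (nat_lit 0) (nat_lit 2894492402) (nat_lit 1064) (nat_lit 498299890) (nat_lit 1140) (nat_lit 3670175761) (nat_lit 683) (nat_lit 5) (nat_lit 697) (nat_lit 5) (nat_lit 698) (nat_lit 5) (nat_lit 541) (nat_lit 535) (nat_lit 484)))) (XT.nd (nat_lit 156) (nat_lit 1064) (nat_lit 0) (XT.nd (nat_lit 78) (nat_lit 0) (nat_lit 76) (XT.lf (nat_lit 76) (nat_lit 3238065729) (nat_lit 0) (nat_lit 1588233992) (nat_lit 1140) (nat_lit 2273392411) (nat_lit 684) (nat_lit 5) (nat_lit 683) (nat_lit 5) (nat_lit 698) (nat_lit 5) (nat_lit 542) (nat_lit 535) (nat_lit 483)) (XT.lf (nat_lit 0) (nat_lit 6755129214) (nat_lit 1064) (nat_lit 110790863) (nat_lit 1140) (nat_lit 272064794) (nat_lit 684) (nat_lit 5) (nat_lit 698) (nat_lit 5) (nat_lit 699) (nat_lit 5) (nat_lit 543) (nat_lit 535) (nat_lit 482)))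 (XT.nd (nat_lit 78) (nat_lit 0) (nat_lit 0) (XT.lf (nat_lit 0) (nat_lit 1514152817) (nat_lit 1140) (nat_lit 3461227396) (nat_lit 1216) (nat_lit 2201685776) (nat_lit 669) (nat_lit 5) (nat_lit 684) (nat_lit 5) (nat_lit 685) (nat_lit 5) (nat_lit 544) (nat_lit 535) (nat_lit 481)) (XT.lf (nat_lit 76) (nat_lit 378173656) (nat_lit 0) (nat_lit 3023724830) (nat_lit 1216) (nat_lit 3815822949) (nat_lit 670) (nat_lit 5) (nat_lit 669) (nat_lit 5) (nat_lit 685) (nat_lit 5) (nat_lit 545) (nat_lit 535) (nat_lit 480)))))) (XT.nd (nat_lit 624) (nat_lit 5624) (nat_lit 0) (XT.nd (nat_lit 312) (nat_lit 1216) (nat_lit 0) (XT.nd (nat_lit 156) (nat_lit 1140) (nat_lit 0) (XT.nd (nat_lit 78) (nat_lit 0) (nat_lit 76) (XT.lf (nat_lit 76) (nat_lit 4313629356) (nat_lit 0) (nat_lit 992419711) (nat_lit 1216) (nat_lit 1953569674) (nat_lit 670) (nat_lit 5) (nat_lit 669) (nat_lit 5) (nat_lit 685) (nat_lit 5) (nat_lit 546) (nat_lit 535) (nat_lit 479)) (XT.lf (nat_lit 76) (nat_lit 1003499802)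 (nat_lit 0) (nat_lit 6214712279) (nat_lit 1216) (nat_lit 84745041) (nat_lit 671) (nat_lit 5) (nat_lit 670) (nat_lit 5) (nat_lit 686) (nat_lit 5) (nat_lit 547) (nat_lit 535) (nat_lit 478))) (XT.nd (nat_lit 78) (nat_lit 0) (nat_lit 0) (XT.lf (nat_lit 0) (nat_lit 1780832562) (nat_lit 1216) (nat_lit 2321867371) (nat_lit 1292) (nat_lit 3244562163) (nat_lit 654) (nat_lit 5) (nat_lit 670) (nat_lit 5) (nat_lit 671) (nat_lit 5) (nat_lit 548) (nat_lit 535) (nat_lit 477)) (XT.lf (nat_lit 76) (nat_lit 1729470388) (nat_lit 0) (nat_lit 1921986550) (nat_lit 1292) (nat_lit 3741609247) (nat_lit 655) (nat_lit 5) (nat_lit 654) (nat_lit 5) (nat_lit 671) (nat_lit 5) (nat_lit 549) (nat_lit 535) (nat_lit 476)))) (XT.nd (nat_lit 156) (nat_lit 1292) (nat_lit 0) (XT.nd (nat_lit 78) (nat_lit 0) (nat_lit 0) (XT.lf (nat_lit 0) (nat_lit 5535522127) (nat_lit 1216) (nat_lit 1576900322) (nat_lit 1292) (nat_lit 327844926) (nat_lit 655) (nat_lit 5) (nat_lit 671) (nat_lit 5) (nat_lit 672)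 (nat_lit 5) (nat_lit 550) (nat_lit 535) (nat_lit 475)) (XT.lf (nat_lit 76) (nat_lit 2584592353) (nat_lit 0) (nat_lit 4861382786) (nat_lit 1292) (nat_lit 42664875) (nat_lit 656) (nat_lit 5) (nat_lit 655) (nat_lit 5) (nat_lit 672) (nat_lit 5) (nat_lit 551) (nat_lit 535) (nat_lit 474))) (XT.nd (nat_lit 78) (nat_lit 0) (nat_lit 0) (XT.lf (nat_lit 0) (nat_lit 1802507016) (nat_lit 1292) (nat_lit 727662899) (nat_lit 1368) (nat_lit 5008166588) (nat_lit 638) (nat_lit 5) (nat_lit 655) (nat_lit 5) (nat_lit 656) (nat_lit 5) (nat_lit 552) (nat_lit 535) (nat_lit 473)) (XT.lf (nat_lit 76) (nat_lit 3550632344) (nat_lit 0) (nat_lit 116773875) (nat_lit 1368) (nat_lit 3921948623) (nat_lit 639) (nat_lit 5) (nat_lit 638) (nat_lit 5) (nat_lit 656) (nat_lit 5) (nat_lit 553) (nat_lit 535) (nat_lit 472))))) (XT.nd (nat_lit 312) (nat_lit 4332) (nat_lit 0) (XT.nd (nat_lit 156) (nat_lit 1368) (nat_lit 0) (XT.nd (nat_lit 78) (nat_lit 0) (nat_lit 0) (XT.lf (nat_lit 76) (nat_lit 242409005)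 (nat_lit 0) (nat_lit 5309921060) (nat_lit 1368) (nat_lit 2089410388) (nat_lit 640) (nat_lit 5) (nat_lit 639) (nat_lit 5) (nat_lit 657) (nat_lit 5) (nat_lit 554) (nat_lit 535) (nat_lit 471)) (XT.lf (nat_lit 76) (nat_lit 4634738886) (nat_lit 0) (nat_lit 2829676710) (nat_lit 1368) (nat_lit 230970325) (nat_lit 640) (nat_lit 5) (nat_lit 639) (nat_lit 5) (nat_lit 657) (nat_lit 5) (nat_lit 555) (nat_lit 535) (nat_lit 470))) (XT.nd (nat_lit 78) (nat_lit 0) (nat_lit 76) (XT.lf (nat_lit 76) (nat_lit 1343285485) (nat_lit 0) (nat_lit 270337878) (nat_lit 1444) (nat_lit 6136849795) (nat_lit 622) (nat_lit 5) (nat_lit 621) (nat_lit 5) (nat_lit 640) (nat_lit 5) (nat_lit 556) (nat_lit 535) (nat_lit 469)) (XT.lf (nat_lit 0) (nat_lit 3490603273) (nat_lit 1368) (nat_lit 1975283080) (nat_lit 76) (nat_lit 2340774836) (nat_lit 622) (nat_lit 5) (nat_lit 640) (nat_lit 5) (nat_lit 623) (nat_lit 5) (nat_lit 557) (nat_lit 535) (nat_lit 468)))) (XT.nd (nat_lit 156) (nat_lit 3040) (nat_lit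 0) (XT.nd (nat_lit 78) (nat_lit 0) (nat_lit 0) (XT.lf (nat_lit 0) (nat_lit 2548504586) (nat_lit 1368) (nat_lit 2838401693) (nat_lit 1444) (nat_lit 2477432336) (nat_lit 604) (nat_lit 5) (nat_lit 622) (nat_lit 5) (nat_lit 623) (nat_lit 5) (nat_lit 558) (nat_lit 535) (nat_lit 467)) (XT.lf (nat_lit 0) (nat_lit 7161341459) (nat_lit 1368) (nat_lit 137029299) (nat_lit 1444) (nat_lit 625255398) (nat_lit 604) (nat_lit 5) (nat_lit 622) (nat_lit 5) (nat_lit 623) (nat_lit 5) (nat_lit 559) (nat_lit 535) (nat_lit 466))) (XT.nd (nat_lit 78) (nat_lit 1520) (nat_lit 0) (XT.lf (nat_lit 0) (nat_lit 1254412346) (nat_lit 1520) (nat_lit 4104293964) (nat_lit 76) (nat_lit 2625089746) (nat_lit 584) (nat_lit 5) (nat_lit 604) (nat_lit 5) (nat_lit 585) (nat_lit 5) (nat_lit 560) (nat_lit 535) (nat_lit 465)) (XT.lf (nat_lit 0) (nat_lit 552873852) (nat_lit 1520) (nat_lit 2585094664) (nat_lit 1596) (nat_lit 4907626036) (nat_lit 564) (nat_lit 5) (nat_lit 584) (nat_lit 5) (nat_lit 585)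 (nat_lit 5) (nat_lit 561) (nat_lit 535) (nat_lit 464))))))))
noncomputable def xc96 : XT := (XT.nd (nat_lit 2418) (nat_lit 10032) (nat_lit 0) (XT.nd (nat_lit 1170) (nat_lit 7752) (nat_lit 0) (XT.nd (nat_lit 546) (nat_lit 4788) (nat_lit 0) (XT.nd (nat_lit 234) (nat_lit 5320) (nat_lit 0) (XT.nd (nat_lit 78) (nat_lit 1672) (nat_lit 0) (XT.lf (nat_lit 0) (nat_lit 5054057306) (nat_lit 1596) (nat_lit 2780251576) (nat_lit 76) (nat_lit 274424086) (nat_lit 564) (nat_lit 5) (nat_lit 585) (nat_lit 5) (nat_lit 565) (nat_lit 5) (nat_lit 562) (nat_lit 535) (nat_lit 463)) (XT.nd (nat_lit 78) (nat_lit 76) (nat_lit 0) (XT.lf (nat_lit 0) (nat_lit 2007015877) (nat_lit 1596) (nat_lit 4997831123) (nat_lit 1672) (nat_lit 1168360726) (nat_lit 543) (nat_lit 5) (nat_lit 564) (nat_lit 5) (nat_lit 565) (nat_lit 5) (nat_lit 563) (nat_lit 535) (nat_lit 462)) (XT.lf (nat_lit 0) (nat_lit 731034312) (nat_lit 1672) (nat_lit 1344824657) (nat_lit 76) (nat_lit 6163310698) (nat_lit 542) (nat_lit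 5) (nat_lit 564) (nat_lit 5) (nat_lit 543) (nat_lit 5) (nat_lit 564) (nat_lit 535) (nat_lit 461)))) (XT.nd (nat_lit 156) (nat_lit 1900) (nat_lit 0) (XT.nd (nat_lit 78) (nat_lit 1748) (nat_lit 0) (XT.lf (nat_lit 0) (nat_lit 2649305481) (nat_lit 1748) (nat_lit 4728705530) (nat_lit 76) (nat_lit 928355817) (nat_lit 520) (nat_lit 5) (nat_lit 543) (nat_lit 5) (nat_lit 521) (nat_lit 5) (nat_lit 565) (nat_lit 535) (nat_lit 460)) (XT.lf (nat_lit 0) (nat_lit 202107722) (nat_lit 1748) (nat_lit 4395608568) (nat_lit 1824) (nat_lit 3777357226) (nat_lit 497) (nat_lit 5) (nat_lit 520) (nat_lit 5) (nat_lit 521) (nat_lit 5) (nat_lit 566) (nat_lit 535) (nat_lit 459))) (XT.nd (nat_lit 78) (nat_lit 1900) (nat_lit 0) (XT.lf (nat_lit 0) (nat_lit 5266991025) (nat_lit 1748) (nat_lit 1317915451) (nat_lit 1824) (nat_lit 1860252685) (nat_lit 497) (nat_lit 5) (nat_lit 520) (nat_lit 5) (nat_lit 521) (nat_lit 5) (nat_lit 567) (nat_lit 535) (nat_lit 458)) (XT.lf (nat_lit 0) (nat_lit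 86790387) (nat_lit 1900) (nat_lit 6616461026) (nat_lit 76) (nat_lit 1813526852) (nat_lit 472) (nat_lit 5) (nat_lit 497) (nat_lit 5) (nat_lit 473) (nat_lit 5) (nat_lit 568) (nat_lit 535) (nat_lit 457))))) (XT.nd (nat_lit 312) (nat_lit 2736) (nat_lit 0) (XT.nd (nat_lit 156) (nat_lit 912) (nat_lit 0) (XT.nd (nat_lit 78) (nat_lit 1140) (nat_lit 0) (XT.lf (nat_lit 0) (nat_lit 2047033602) (nat_lit 1900) (nat_lit 1516094488) (nat_lit 76) (nat_lit 5026473362) (nat_lit 472) (nat_lit 5) (nat_lit 497) (nat_lit 5) (nat_lit 473) (nat_lit 5) (nat_lit 569) (nat_lit 535) (nat_lit 456)) (XT.lf (nat_lit 0) (nat_lit 3706502794) (nat_lit 1140) (nat_lit 333601259) (nat_lit 1216) (nat_lit 4623905567) (nat_lit 457) (nat_lit 5) (nat_lit 472) (nat_lit 5) (nat_lit 473) (nat_lit 5) (nat_lit 570) (nat_lit 535) (nat_lit 455))) (XT.nd (nat_lit 78) (nat_lit 0) (nat_lit 0) (XT.lf (nat_lit 0) (nat_lit 269835874) (nat_lit 912) (nat_lit 5804397773) (nat_lit 988) (nat_lit 2665649300) (nat_lit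 445) (nat_lit 5) (nat_lit 457) (nat_lit 5) (nat_lit 458) (nat_lit 5) (nat_lit 571) (nat_lit 535) (nat_lit 454)) (XT.lf (nat_lit 0) (nat_lit 5638062003) (nat_lit 912) (nat_lit 2516831749) (nat_lit 988) (nat_lit 662263959) (nat_lit 445) (nat_lit 5) (nat_lit 457) (nat_lit 5) (nat_lit 458) (nat_lit 5) (nat_lit 572) (nat_lit 535) (nat_lit 453)))) (XT.nd (nat_lit 156) (nat_lit 1748) (nat_lit 0) (XT.nd (nat_lit 78) (nat_lit 0) (nat_lit 0) (XT.lf (nat_lit 0) (nat_lit 1353781935) (nat_lit 988) (nat_lit 6692459200) (nat_lit 76) (nat_lit 849744228) (nat_lit 432) (nat_lit 5) (nat_lit 445) (nat_lit 5) (nat_lit 433) (nat_lit 5) (nat_lit 573) (nat_lit 535) (nat_lit 452)) (XT.lf (nat_lit 0) (nat_lit 3410598223) (nat_lit 988) (nat_lit 1289111104) (nat_lit 76) (nat_lit 4276407223) (nat_lit 432) (nat_lit 5) (nat_lit 445) (nat_lit 5) (nat_lit 433) (nat_lit 5) (nat_lit 574) (nat_lit 535) (nat_lit 451))) (XT.nd (nat_lit 78) (nat_lit 912) (nat_lit 0) (XT.lf (nat_lit 0) (nat_lit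 4249758674) (nat_lit 836) (nat_lit 1258116232) (nat_lit 912) (nat_lit 3549989831) (nat_lit 421) (nat_lit 5) (nat_lit 432) (nat_lit 5) (nat_lit 433) (nat_lit 5) (nat_lit 575) (nat_lit 535) (nat_lit 450)) (XT.lf (nat_lit 0) (nat_lit 742205561) (nat_lit 912) (nat_lit 6905144225) (nat_lit 988) (nat_lit 1493893891) (nat_lit 409) (nat_lit 5) (nat_lit 421) (nat_lit 5) (nat_lit 422) (nat_lit 5) (nat_lit 576) (nat_lit 535) (nat_lit 449)))))) (XT.nd (nat_lit 624) (nat_lit 3648) (nat_lit 0) (XT.nd (nat_lit 312) (nat_lit 2356) (nat_lit 0) (XT.nd (nat_lit 156) (nat_lit 836) (nat_lit 0) (XT.nd (nat_lit 78) (nat_lit 836) (nat_lit 0) (XT.lf (nat_lit 0) (nat_lit 608503178) (nat_lit 988) (nat_lit 2798242793) (nat_lit 76) (nat_lit 5819204852) (nat_lit 408) (nat_lit 5) (nat_lit 421) (nat_lit 5) (nat_lit 409) (nat_lit 5) (nat_lit 577) (nat_lit 535) (nat_lit 448)) (XT.lf (nat_lit 0) (nat_lit 2725945389) (nat_lit 912) (nat_lit 6398920464) (nat_lit 76) (nat_lit 187429551) (nat_lit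 397) (nat_lit 5) (nat_lit 409) (nat_lit 5) (nat_lit 398) (nat_lit 5) (nat_lit 578) (nat_lit 535) (nat_lit 447))) (XT.nd (nat_lit 78) (nat_lit 836) (nat_lit 0) (XT.lf (nat_lit 0) (nat_lit 4900366983) (nat_lit 912) (nat_lit 674132430) (nat_lit 76) (nat_lit 3825575629) (nat_lit 397) (nat_lit 5) (nat_lit 409) (nat_lit 5) (nat_lit 398) (nat_lit 5) (nat_lit 579) (nat_lit 535) (nat_lit 446)) (XT.lf (nat_lit 0) (nat_lit 5205370273) (nat_lit 836) (nat_lit 1920396856) (nat_lit 912) (nat_lit 2363694107) (nat_lit 386) (nat_lit 5) (nat_lit 397) (nat_lit 5) (nat_lit 398) (nat_lit 5) (nat_lit 580) (nat_lit 535) (nat_lit 445)))) (XT.nd (nat_lit 156) (nat_lit 1520) (nat_lit 0) (XT.nd (nat_lit 78) (nat_lit 76) (nat_lit 0) (XT.lf (nat_lit 0) (nat_lit 1612064288) (nat_lit 760) (nat_lit 7784378182) (nat_lit 836) (nat_lit 184178084) (nat_lit 376) (nat_lit 5) (nat_lit 386) (nat_lit 5) (nat_lit 387) (nat_lit 5) (nat_lit 581) (nat_lit 535) (nat_lit 444)) (XT.lf (nat_lit 0) (nat_lit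 2028015935) (nat_lit 836) (nat_lit 2043490878) (nat_lit 76) (nat_lit 5601515633) (nat_lit 375) (nat_lit 5) (nat_lit 386) (nat_lit 5) (nat_lit 376) (nat_lit 5) (nat_lit 582) (nat_lit 535) (nat_lit 443))) (XT.nd (nat_lit 78) (nat_lit 760) (nat_lit 0) (XT.lf (nat_lit 0) (nat_lit 4023655403) (nat_lit 760) (nat_lit 259137103) (nat_lit 836) (nat_lit 5484440129) (nat_lit 365) (nat_lit 5) (nat_lit 375) (nat_lit 5) (nat_lit 376) (nat_lit 5) (nat_lit 583) (nat_lit 535) (nat_lit 442)) (XT.lf (nat_lit 0) (nat_lit 329183012) (nat_lit 760) (nat_lit 6267963874) (nat_lit 836) (nat_lit 3265891187) (nat_lit 355) (nat_lit 5) (nat_lit 365) (nat_lit 5) (nat_lit 366) (nat_lit 5) (nat_lit 584) (nat_lit 535) (nat_lit 441))))) (XT.nd (nat_lit 312) (nat_lit 2128) (nat_lit 0) (XT.nd (nat_lit 156) (nat_lit 684) (nat_lit 0) (XT.nd (nat_lit 78) (nat_lit 836) (nat_lit 0) (XT.lf (nat_lit 0) (nat_lit 6571430832) (nat_lit 760) (nat_lit 2401889411) (nat_lit 836) (nat_lit 987129416) (nat_lit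 355) (nat_lit 5) (nat_lit 365) (nat_lit 5) (nat_lit 366) (nat_lit 5) (nat_lit 585) (nat_lit 535) (nat_lit 440)) (XT.lf (nat_lit 0) (nat_lit 1324143793) (nat_lit 836) (nat_lit 7189973091) (nat_lit 76) (nat_lit 1545430124) (nat_lit 344) (nat_lit 5) (nat_lit 355) (nat_lit 5) (nat_lit 345) (nat_lit 5) (nat_lit 586) (nat_lit 535) (nat_lit 439))) (XT.nd (nat_lit 78) (nat_lit 684) (nat_lit 0) (XT.lf (nat_lit 0) (nat_lit 3683119859) (nat_lit 836) (nat_lit 911622831) (nat_lit 76) (nat_lit 5565459853) (nat_lit 344) (nat_lit 5) (nat_lit 355) (nat_lit 5) (nat_lit 345) (nat_lit 5) (nat_lit 587) (nat_lit 535) (nat_lit 438)) (XT.lf (nat_lit 0) (nat_lit 5537334748) (nat_lit 684) (nat_lit 564249059) (nat_lit 760) (nat_lit 4161041840) (nat_lit 335) (nat_lit 5) (nat_lit 344) (nat_lit 5) (nat_lit 345) (nat_lit 5) (nat_lit 588) (nat_lit 535) (nat_lit 437)))) (XT.nd (nat_lit 156) (nat_lit 1368) (nat_lit 0) (XT.nd (nat_lit 78) (nat_lit 76) (nat_lit 0) (XT.lf (nat_lit 0) (nat_lit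 1732463545) (nat_lit 684) (nat_lit 6853004058) (nat_lit 760) (nat_lit 1781289212) (nat_lit 326) (nat_lit 5) (nat_lit 335) (nat_lit 5) (nat_lit 336) (nat_lit 5) (nat_lit 589) (nat_lit 535) (nat_lit 436)) (XT.lf (nat_lit 0) (nat_lit 649982300) (nat_lit 760) (nat_lit 2125021559) (nat_lit 76) (nat_lit 7697635502) (nat_lit 325) (nat_lit 5) (nat_lit 335) (nat_lit 5) (nat_lit 326) (nat_lit 5) (nat_lit 590) (nat_lit 535) (nat_lit 435))) (XT.nd (nat_lit 78) (nat_lit 684) (nat_lit 0) (XT.lf (nat_lit 0) (nat_lit 3121922011) (nat_lit 760) (nat_lit 6054812713) (nat_lit 76) (nat_lit 1403352043) (nat_lit 316) (nat_lit 5) (nat_lit 326) (nat_lit 5) (nat_lit 317) (nat_lit 5) (nat_lit 591) (nat_lit 535) (nat_lit 434)) (XT.lf (nat_lit 0) (nat_lit 609847979) (nat_lit 684) (nat_lit 5047580847) (nat_lit 760) (nat_lit 5031972295) (nat_lit 307) (nat_lit 5) (nat_lit 316) (nat_lit 5) (nat_lit 317) (nat_lit 5) (nat_lit 592) (nat_lit 535) (nat_lit 433))))))) (XT.nd (nat_lit 1170)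 (nat_lit 4636) (nat_lit 0) (XT.nd (nat_lit 546) (nat_lit 2812) (nat_lit 0) (XT.nd (nat_lit 234) (nat_lit 1900) (nat_lit 0) (XT.nd (nat_lit 78) (nat_lit 684) (nat_lit 0) (XT.lf (nat_lit 0) (nat_lit 7462397223) (nat_lit 684) (nat_lit 799580352) (nat_lit 760) (nat_lit 2538558106) (nat_lit 307) (nat_lit 5) (nat_lit 316) (nat_lit 5) (nat_lit 317) (nat_lit 5) (nat_lit 593) (nat_lit 535) (nat_lit 432)) (XT.nd (nat_lit 78) (nat_lit 0) (nat_lit 0) (XT.lf (nat_lit 0) (nat_lit 28813059) (nat_lit 684) (nat_lit 7379433698) (nat_lit 76) (nat_lit 3505163083) (nat_lit 298) (nat_lit 5) (nat_lit 307) (nat_lit 5) (nat_lit 299) (nat_lit 5) (nat_lit 594) (nat_lit 535) (nat_lit 431)) (XT.lf (nat_lit 0) (nat_lit 2619630546) (nat_lit 684) (nat_lit 489021702) (nat_lit 76) (nat_lit 7919432356) (nat_lit 298) (nat_lit 5) (nat_lit 307) (nat_lit 5) (nat_lit 299) (nat_lit 5) (nat_lit 595) (nat_lit 535) (nat_lit 430)))) (XT.nd (nat_lit 156) (nat_lit 684) (nat_lit 0) (XT.nd (nat_lit 78)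 (nat_lit 608) (nat_lit 0) (XT.lf (nat_lit 0) (nat_lit 5292288031) (nat_lit 684) (nat_lit 4554335742) (nat_lit 76) (nat_lit 1297829131) (nat_lit 290) (nat_lit 5) (nat_lit 299) (nat_lit 5) (nat_lit 291) (nat_lit 5) (nat_lit 596) (nat_lit 535) (nat_lit 429)) (XT.lf (nat_lit 0) (nat_lit 2539961702) (nat_lit 608) (nat_lit 5497668500) (nat_lit 684) (nat_lit 3225134241) (nat_lit 282) (nat_lit 5) (nat_lit 290) (nat_lit 5) (nat_lit 291) (nat_lit 5) (nat_lit 597) (nat_lit 535) (nat_lit 428))) (XT.nd (nat_lit 78) (nat_lit 684) (nat_lit 0) (XT.lf (nat_lit 0) (nat_lit 9810932574) (nat_lit 608) (nat_lit 1036598370) (nat_lit 684) (nat_lit 535718726) (nat_lit 282) (nat_lit 5) (nat_lit 290) (nat_lit 5) (nat_lit 291) (nat_lit 5) (nat_lit 598) (nat_lit 535) (nat_lit 427)) (XT.lf (nat_lit 0) (nat_lit 2218382748) (nat_lit 684) (nat_lit 5773002109) (nat_lit 76) (nat_lit 3513676586) (nat_lit 273) (nat_lit 5) (nat_lit 282) (nat_lit 5) (nat_lit 274) (nat_lit 5) (nat_lit 599) (nat_lit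 535) (nat_lit 426))))) (XT.nd (nat_lit 312) (nat_lit 1064) (nat_lit 0) (XT.nd (nat_lit 156) (nat_lit 1216) (nat_lit 0) (XT.nd (nat_lit 78) (nat_lit 0) (nat_lit 0) (XT.lf (nat_lit 0) (nat_lit 1557798974) (nat_lit 532) (nat_lit 3469757078) (nat_lit 608) (nat_lit 6601539780) (nat_lit 266) (nat_lit 5) (nat_lit 273) (nat_lit 5) (nat_lit 274) (nat_lit 5) (nat_lit 600) (nat_lit 535) (nat_lit 425)) (XT.lf (nat_lit 0) (nat_lit 7919067389) (nat_lit 608) (nat_lit 2676111647) (nat_lit 76) (nat_lit 1159909238) (nat_lit 266) (nat_lit 5) (nat_lit 274) (nat_lit 5) (nat_lit 267) (nat_lit 5) (nat_lit 601) (nat_lit 535) (nat_lit 424))) (XT.nd (nat_lit 78) (nat_lit 608) (nat_lit 0) (XT.lf (nat_lit 0) (nat_lit 4881478019) (nat_lit 608) (nat_lit 6021742011) (nat_lit 684) (nat_lit 979684759) (nat_lit 258) (nat_lit 5) (nat_lit 266) (nat_lit 5) (nat_lit 267) (nat_lit 5) (nat_lit 602) (nat_lit 535) (nat_lit 423)) (XT.lf (nat_lit 0) (nat_lit 581903091) (nat_lit 532) (nat_lit 1328594779)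 (nat_lit 608) (nat_lit 10102487454) (nat_lit 250) (nat_lit 5) (nat_lit 257) (nat_lit 5) (nat_lit 258) (nat_lit 5) (nat_lit 603) (nat_lit 535) (nat_lit 422)))) (XT.nd (nat_lit 156) (nat_lit 532) (nat_lit 0) (XT.nd (nat_lit 78) (nat_lit 532) (nat_lit 0) (XT.lf (nat_lit 0) (nat_lit 4895524816) (nat_lit 608) (nat_lit 3788977885) (nat_lit 76) (nat_lit 3460032502) (nat_lit 250) (nat_lit 5) (nat_lit 258) (nat_lit 5) (nat_lit 251) (nat_lit 5) (nat_lit 604) (nat_lit 535) (nat_lit 421)) (XT.lf (nat_lit 0) (nat_lit 4023664163) (nat_lit 532) (nat_lit 3932293081) (nat_lit 608) (nat_lit 4322445152) (nat_lit 243) (nat_lit 5) (nat_lit 250) (nat_lit 5) (nat_lit 251) (nat_lit 5) (nat_lit 605) (nat_lit 535) (nat_lit 420))) (XT.nd (nat_lit 78) (nat_lit 532) (nat_lit 0) (XT.lf (nat_lit 0) (nat_lit 11090076563) (nat_lit 608) (nat_lit 403066194) (nat_lit 76) (nat_lit 921555013) (nat_lit 243) (nat_lit 5) (nat_lit 251) (nat_lit 5) (nat_lit 244) (nat_lit 5) (nat_lit 606) (nat_lit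 535) (nat_lit 419)) (XT.lf (nat_lit 0) (nat_lit 1767859843) (nat_lit 532) (nat_lit 4910147134) (nat_lit 76) (nat_lit 5874338782) (nat_lit 236) (nat_lit 5) (nat_lit 243) (nat_lit 5) (nat_lit 237) (nat_lit 5) (nat_lit 607) (nat_lit 535) (nat_lit 418)))))) (XT.nd (nat_lit 624) (nat_lit 2128) (nat_lit 0) (XT.nd (nat_lit 312) (nat_lit 988) (nat_lit 0) (XT.nd (nat_lit 156) (nat_lit 988) (nat_lit 0) (XT.nd (nat_lit 78) (nat_lit 0) (nat_lit 0) (XT.lf (nat_lit 0) (nat_lit 3167899898) (nat_lit 532) (nat_lit 1741254633) (nat_lit 608) (nat_lit 7783323428) (nat_lit 229) (nat_lit 5) (nat_lit 236) (nat_lit 5) (nat_lit 237) (nat_lit 5) (nat_lit 608) (nat_lit 535) (nat_lit 417)) (XT.lf (nat_lit 0) (nat_lit 8149373651) (nat_lit 608) (nat_lit 1408440772) (nat_lit 76) (nat_lit 3276876784) (nat_lit 229) (nat_lit 5) (nat_lit 237) (nat_lit 5) (nat_lit 230) (nat_lit 5) (nat_lit 609) (nat_lit 535) (nat_lit 416))) (XT.nd (nat_lit 78) (nat_lit 532) (nat_lit 0) (XT.lf (nat_lit 0)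 (nat_lit 6923658871) (nat_lit 456) (nat_lit 4569126981) (nat_lit 532) (nat_lit 1486195460) (nat_lit 223) (nat_lit 5) (nat_lit 229) (nat_lit 5) (nat_lit 230) (nat_lit 5) (nat_lit 610) (nat_lit 535) (nat_lit 415)) (XT.lf (nat_lit 0) (nat_lit 1763642289) (nat_lit 532) (nat_lit 10820862180) (nat_lit 76) (nat_lit 541221611) (nat_lit 216) (nat_lit 5) (nat_lit 223) (nat_lit 5) (nat_lit 217) (nat_lit 5) (nat_lit 611) (nat_lit 535) (nat_lit 414)))) (XT.nd (nat_lit 156) (nat_lit 532) (nat_lit 0) (XT.nd (nat_lit 78) (nat_lit 456) (nat_lit 0) (XT.lf (nat_lit 0) (nat_lit 5111870285) (nat_lit 532) (nat_lit 2426471361) (nat_lit 76) (nat_lit 5735802095) (nat_lit 216) (nat_lit 5) (nat_lit 223) (nat_lit 5) (nat_lit 217) (nat_lit 5) (nat_lit 612) (nat_lit 535) (nat_lit 413)) (XT.lf (nat_lit 0) (nat_lit 6191675753) (nat_lit 456) (nat_lit 2358050713) (nat_lit 532) (nat_lit 4875350354) (nat_lit 210) (nat_lit 5) (nat_lit 216) (nat_lit 5) (nat_lit 217) (nat_lit 5) (nat_lit 613)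 (nat_lit 535) (nat_lit 412))) (XT.nd (nat_lit 78) (nat_lit 76) (nat_lit 0) (XT.lf (nat_lit 0) (nat_lit 1410299827) (nat_lit 456) (nat_lit 10673176686) (nat_lit 532) (nat_lit 1495009647) (nat_lit 204) (nat_lit 5) (nat_lit 210) (nat_lit 5) (nat_lit 211) (nat_lit 5) (nat_lit 614) (nat_lit 535) (nat_lit 411)) (XT.lf (nat_lit 0) (nat_lit 1974457860) (nat_lit 532) (nat_lit 3463214724) (nat_lit 76) (nat_lit 8296095162) (nat_lit 203) (nat_lit 5) (nat_lit 210) (nat_lit 5) (nat_lit 204) (nat_lit 5) (nat_lit 615) (nat_lit 535) (nat_lit 410))))) (XT.nd (nat_lit 312) (nat_lit 836) (nat_lit 0) (XT.nd (nat_lit 156) (nat_lit 456) (nat_lit 0) (XT.nd (nat_lit 78) (nat_lit 456) (nat_lit 0) (XT.lf (nat_lit 0) (nat_lit 5452436074) (nat_lit 380) (nat_lit 59275600) (nat_lit 456) (nat_lit 8379877662) (nat_lit 198) (nat_lit 5) (nat_lit 203) (nat_lit 5) (nat_lit 204) (nat_lit 5) (nat_lit 616) (nat_lit 535) (nat_lit 409)) (XT.lf (nat_lit 0) (nat_lit 487093529) (nat_lit 456) (nat_lit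 8677522560) (nat_lit 532) (nat_lit 4887053463) (nat_lit 192) (nat_lit 5) (nat_lit 198) (nat_lit 5) (nat_lit 199) (nat_lit 5) (nat_lit 617) (nat_lit 535) (nat_lit 408))) (XT.nd (nat_lit 78) (nat_lit 456) (nat_lit 0) (XT.lf (nat_lit 0) (nat_lit 9680878550) (nat_lit 456) (nat_lit 3250005456) (nat_lit 532) (nat_lit 1283261558) (nat_lit 192) (nat_lit 5) (nat_lit 198) (nat_lit 5) (nat_lit 199) (nat_lit 5) (nat_lit 618) (nat_lit 535) (nat_lit 407)) (XT.lf (nat_lit 0) (nat_lit 2390340117) (nat_lit 456) (nat_lit 9694312140) (nat_lit 76) (nat_lit 2294326174) (nat_lit 186) (nat_lit 5) (nat_lit 192) (nat_lit 5) (nat_lit 187) (nat_lit 5) (nat_lit 619) (nat_lit 535) (nat_lit 406)))) (XT.nd (nat_lit 156) (nat_lit 456) (nat_lit 0) (XT.nd (nat_lit 78) (nat_lit 380) (nat_lit 0) (XT.lf (nat_lit 0) (nat_lit 6156006229) (nat_lit 456) (nat_lit 453139259) (nat_lit 76) (nat_lit 7937077598) (nat_lit 186) (nat_lit 5) (nat_lit 192) (nat_lit 5) (nat_lit 187) (nat_lit 5) (nat_lit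 620) (nat_lit 535) (nat_lit 405)) (XT.lf (nat_lit 0) (nat_lit 9067440434) (nat_lit 380) (nat_lit 972352290) (nat_lit 456) (nat_lit 4676164046) (nat_lit 181) (nat_lit 5) (nat_lit 186) (nat_lit 5) (nat_lit 187) (nat_lit 5) (nat_lit 621) (nat_lit 535) (nat_lit 404))) (XT.nd (nat_lit 78) (nat_lit 76) (nat_lit 0) (XT.lf (nat_lit 0) (nat_lit 3891103264) (nat_lit 380) (nat_lit 10153532392) (nat_lit 456) (nat_lit 843582130) (nat_lit 176) (nat_lit 5) (nat_lit 181) (nat_lit 5) (nat_lit 182) (nat_lit 5) (nat_lit 622) (nat_lit 535) (nat_lit 403)) (XT.lf (nat_lit 0) (nat_lit 3054129720) (nat_lit 456) (nat_lit 1416171476) (nat_lit 76) (nat_lit 10592651306) (nat_lit 175) (nat_lit 5) (nat_lit 181) (nat_lit 5) (nat_lit 176) (nat_lit 5) (nat_lit 623) (nat_lit 535) (nat_lit 402))))))))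
noncomputable def xc97 : XT := (XT.nd (nat_lit 75192) (nat_lit 0) (nat_lit 22420) (XT.nd (nat_lit 1170) (nat_lit 988) (nat_lit 0) (XT.nd (nat_lit 546) (nat_lit 1748) (nat_lit 0) (XT.nd (nat_lit 234) (nat_lit 1216) (nat_lit 0) (XT.nd (nat_lit 78) (nat_lit 380) (nat_lit 0) (XT.lf (nat_lit 0) (nat_lit 7066652476) (nat_lit 456) (nat_lit 6811795575) (nat_lit 76) (nat_lit 1361659551) (nat_lit 170) (nat_lit 5) (nat_lit 176) (nat_lit 5) (nat_lit 171) (nat_lit 5) (nat_lit 624) (nat_lit 535) (nat_lit 401)) (XT.nd (nat_lit 78) (nat_lit 0) (nat_lit 0) (XT.lf (nat_lit 0) (nat_lit 3054549822) (nat_lit 380) (nat_lit 8148377107) (nat_lit 456) (nat_lit 4217009102) (nat_lit 165) (nat_lit 5) (nat_lit 170) (nat_lit 5) (nat_lit 171) (nat_lit 5) (nat_lit 625) (nat_lit 535) (nat_lit 400)) (XT.lf (nat_lit 0) (nat_lit 13186606819) (nat_lit 380) (nat_lit 2265677480) (nat_lit 456) (nat_lit 150469828) (nat_lit 165) (nat_lit 5) (nat_lit 170) (nat_lit 5) (nat_lit 171) (nat_lit 5) (nat_lit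 626) (nat_lit 535) (nat_lit 399)))) (XT.nd (nat_lit 156) (nat_lit 456) (nat_lit 0) (XT.nd (nat_lit 78) (nat_lit 304) (nat_lit 0) (XT.lf (nat_lit 0) (nat_lit 4005062994) (nat_lit 456) (nat_lit 8028165939) (nat_lit 76) (nat_lit 3754279026) (nat_lit 159) (nat_lit 5) (nat_lit 165) (nat_lit 5) (nat_lit 160) (nat_lit 5) (nat_lit 627) (nat_lit 535) (nat_lit 398)) (XT.lf (nat_lit 0) (nat_lit 2184225988) (nat_lit 304) (nat_lit 6087911355) (nat_lit 380) (nat_lit 7703190952) (nat_lit 155) (nat_lit 5) (nat_lit 159) (nat_lit 5) (nat_lit 160) (nat_lit 5) (nat_lit 628) (nat_lit 535) (nat_lit 397))) (XT.nd (nat_lit 78) (nat_lit 456) (nat_lit 0) (XT.lf (nat_lit 0) (nat_lit 12663651805) (nat_lit 380) (nat_lit 3480198934) (nat_lit 76) (nat_lit 22272554) (nat_lit 155) (nat_lit 5) (nat_lit 160) (nat_lit 5) (nat_lit 156) (nat_lit 5) (nat_lit 629) (nat_lit 535) (nat_lit 396)) (XT.lf (nat_lit 0) (nat_lit 843986019) (nat_lit 456) (nat_lit 9298971417) (nat_lit 76) (nat_lit 6216235730)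 (nat_lit 149) (nat_lit 5) (nat_lit 155) (nat_lit 5) (nat_lit 150) (nat_lit 5) (nat_lit 630) (nat_lit 535) (nat_lit 395))))) (XT.nd (nat_lit 312) (nat_lit 684) (nat_lit 0) (XT.nd (nat_lit 156) (nat_lit 760) (nat_lit 0) (XT.nd (nat_lit 78) (nat_lit 0) (nat_lit 0) (XT.lf (nat_lit 0) (nat_lit 1272881568) (nat_lit 304) (nat_lit 3974766478) (nat_lit 380) (nat_lit 11307670109) (nat_lit 145) (nat_lit 5) (nat_lit 149) (nat_lit 5) (nat_lit 150) (nat_lit 5) (nat_lit 631) (nat_lit 535) (nat_lit 394)) (XT.lf (nat_lit 0) (nat_lit 9802675348) (nat_lit 380) (nat_lit 4610861818) (nat_lit 76) (nat_lit 2340562850) (nat_lit 145) (nat_lit 5) (nat_lit 150) (nat_lit 5) (nat_lit 146) (nat_lit 5) (nat_lit 632) (nat_lit 535) (nat_lit 393))) (XT.nd (nat_lit 78) (nat_lit 380) (nat_lit 0) (XT.lf (nat_lit 0) (nat_lit 6307495991) (nat_lit 380) (nat_lit 8194303845) (nat_lit 456) (nat_lit 2453997950) (nat_lit 140) (nat_lit 5) (nat_lit 145) (nat_lit 5) (nat_lit 146) (nat_lit 5) (nat_lit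 633) (nat_lit 535) (nat_lit 392)) (XT.lf (nat_lit 0) (nat_lit 312770283) (nat_lit 304) (nat_lit 1811562976) (nat_lit 380) (nat_lit 15036540713) (nat_lit 135) (nat_lit 5) (nat_lit 139) (nat_lit 5) (nat_lit 140) (nat_lit 5) (nat_lit 634) (nat_lit 535) (nat_lit 391)))) (XT.nd (nat_lit 156) (nat_lit 380) (nat_lit 0) (XT.nd (nat_lit 78) (nat_lit 304) (nat_lit 0) (XT.lf (nat_lit 0) (nat_lit 6849671333) (nat_lit 380) (nat_lit 5801611522) (nat_lit 76) (nat_lit 4716678619) (nat_lit 135) (nat_lit 5) (nat_lit 140) (nat_lit 5) (nat_lit 136) (nat_lit 5) (nat_lit 635) (nat_lit 535) (nat_lit 390)) (XT.lf (nat_lit 0) (nat_lit 5503283572) (nat_lit 304) (nat_lit 6200070168) (nat_lit 380) (nat_lit 5875160423) (nat_lit 131) (nat_lit 5) (nat_lit 135) (nat_lit 5) (nat_lit 136) (nat_lit 5) (nat_lit 636) (nat_lit 535) (nat_lit 389))) (XT.nd (nat_lit 78) (nat_lit 380) (nat_lit 0) (XT.lf (nat_lit 0) (nat_lit 16681946108) (nat_lit 380) (nat_lit 705081826) (nat_lit 76) (nat_lit 405693434)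 (nat_lit 131) (nat_lit 5) (nat_lit 136) (nat_lit 5) (nat_lit 132) (nat_lit 5) (nat_lit 637) (nat_lit 535) (nat_lit 388)) (XT.lf (nat_lit 0) (nat_lit 3799137311) (nat_lit 380) (nat_lit 7061238321) (nat_lit 76) (nat_lit 7148362314) (nat_lit 126) (nat_lit 5) (nat_lit 131) (nat_lit 5) (nat_lit 127) (nat_lit 5) (nat_lit 638) (nat_lit 535) (nat_lit 387)))))) (XT.nd (nat_lit 73398) (nat_lit 0) (nat_lit 42180) (XT.nd (nat_lit 312) (nat_lit 0) (nat_lit 0) (XT.nd (nat_lit 156) (nat_lit 684) (nat_lit 0) (XT.nd (nat_lit 78) (nat_lit 0) (nat_lit 0) (XT.lf (nat_lit 0) (nat_lit 4644879292) (nat_lit 304) (nat_lit 4168911810) (nat_lit 380) (nat_lit 9414708760) (nat_lit 122) (nat_lit 5) (nat_lit 126) (nat_lit 5) (nat_lit 127) (nat_lit 5) (nat_lit 639) (nat_lit 535) (nat_lit 386)) (XT.lf (nat_lit 0) (nat_lit 13980228875) (nat_lit 380) (nat_lit 1810859392) (nat_lit 76) (nat_lit 2660539103) (nat_lit 122) (nat_lit 5) (nat_lit 127) (nat_lit 5) (nat_lit 123) (nat_lit 5) (nat_lit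 640) (nat_lit 535) (nat_lit 385))) (XT.nd (nat_lit 78) (nat_lit 304) (nat_lit 0) (XT.lf (nat_lit 0) (nat_lit 645009145) (nat_lit 380) (nat_lit 8399216507) (nat_lit 76) (nat_lit 9633283486) (nat_lit 117) (nat_lit 5) (nat_lit 122) (nat_lit 5) (nat_lit 118) (nat_lit 5) (nat_lit 641) (nat_lit 535) (nat_lit 384)) (XT.lf (nat_lit 0) (nat_lit 3723231150) (nat_lit 304) (nat_lit 2103943099) (nat_lit 380) (nat_lit 13079677309) (nat_lit 113) (nat_lit 5) (nat_lit 117) (nat_lit 5) (nat_lit 118) (nat_lit 5) (nat_lit 642) (nat_lit 535) (nat_lit 383)))) (XT.nd (nat_lit 72930) (nat_lit 0) (nat_lit 44308) (XT.nd (nat_lit 72852) (nat_lit 0) (nat_lit 44308) (XT.lf (nat_lit 0) (nat_lit 11188919154) (nat_lit 380) (nat_lit 2992422497) (nat_lit 76) (nat_lit 4957920605) (nat_lit 113) (nat_lit 5) (nat_lit 118) (nat_lit 5) (nat_lit 114) (nat_lit 5) (nat_lit 643) (nat_lit 535) (nat_lit 382)) (XT.lf (nat_lit 0) (nat_lit 514163723) (nat_lit 0) (nat_lit 514163723) (nat_lit 988) (nat_lit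 2435725054) (nat_lit 696) (nat_lit 5) (nat_lit 696) (nat_lit 3) (nat_lit 709) (nat_lit 3) (nat_lit 536) (nat_lit 536) (nat_lit 488))) (XT.nd (nat_lit 78) (nat_lit 0) (nat_lit 0) (XT.lf (nat_lit 0) (nat_lit 3988409031) (nat_lit 988) (nat_lit 2438049500) (nat_lit 1064) (nat_lit 532623960) (nat_lit 696) (nat_lit 5) (nat_lit 709) (nat_lit 3) (nat_lit 710) (nat_lit 5) (nat_lit 537) (nat_lit 536) (nat_lit 487)) (XT.lf (nat_lit 76) (nat_lit 1074003820) (nat_lit 0) (nat_lit 4848700912) (nat_lit 1064) (nat_lit 1068698762) (nat_lit 697) (nat_lit 5) (nat_lit 696) (nat_lit 5) (nat_lit 710) (nat_lit 5) (nat_lit 538) (nat_lit 536) (nat_lit 486))))) (XT.nd (nat_lit 312) (nat_lit 1064) (nat_lit 0) (XT.nd (nat_lit 156) (nat_lit 0) (nat_lit 76) (XT.nd (nat_lit 78) (nat_lit 0) (nat_lit 0) (XT.lf (nat_lit 0) (nat_lit 826962242) (nat_lit 1064) (nat_lit 2367133707) (nat_lit 1140) (nat_lit 3830822351) (nat_lit 682) (nat_lit 5) (nat_lit 696) (nat_lit 5) (nat_lit 697) (nat_lit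 5) (nat_lit 539) (nat_lit 536) (nat_lit 485)) (XT.lf (nat_lit 76) (nat_lit 1237137237) (nat_lit 0) (nat_lit 1468708896) (nat_lit 1140) (nat_lit 4353925570) (nat_lit 683) (nat_lit 5) (nat_lit 682) (nat_lit 5) (nat_lit 697) (nat_lit 5) (nat_lit 540) (nat_lit 536) (nat_lit 484))) (XT.nd (nat_lit 78) (nat_lit 0) (nat_lit 0) (XT.lf (nat_lit 0) (nat_lit 4592683604) (nat_lit 1064) (nat_lit 2178491173) (nat_lit 1140) (nat_lit 324741814) (nat_lit 683) (nat_lit 5) (nat_lit 697) (nat_lit 5) (nat_lit 698) (nat_lit 5) (nat_lit 541) (nat_lit 536) (nat_lit 483)) (XT.lf (nat_lit 76) (nat_lit 1522231954) (nat_lit 0) (nat_lit 4968062639) (nat_lit 1140) (nat_lit 643030942) (nat_lit 684) (nat_lit 5) (nat_lit 683) (nat_lit 5) (nat_lit 698) (nat_lit 5) (nat_lit 542) (nat_lit 536) (nat_lit 482)))) (XT.nd (nat_lit 156) (nat_lit 0) (nat_lit 76) (XT.nd (nat_lit 78) (nat_lit 0) (nat_lit 0) (XT.lf (nat_lit 0) (nat_lit 1206502963) (nat_lit 1140) (nat_lit 1879912937) (nat_lit 1216)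 (nat_lit 4085534113) (nat_lit 668) (nat_lit 5) (nat_lit 683) (nat_lit 5) (nat_lit 684) (nat_lit 5) (nat_lit 543) (nat_lit 536) (nat_lit 481)) (XT.lf (nat_lit 76) (nat_lit 1920366663) (nat_lit 0) (nat_lit 1131295220) (nat_lit 1216) (nat_lit 4160256986) (nat_lit 669) (nat_lit 5) (nat_lit 668) (nat_lit 5) (nat_lit 684) (nat_lit 5) (nat_lit 544) (nat_lit 536) (nat_lit 480))) (XT.nd (nat_lit 78) (nat_lit 0) (nat_lit 0) (XT.lf (nat_lit 0) (nat_lit 4907628304) (nat_lit 1140) (nat_lit 1463275044) (nat_lit 1216) (nat_lit 882307419) (nat_lit 669) (nat_lit 5) (nat_lit 684) (nat_lit 5) (nat_lit 685) (nat_lit 5) (nat_lit 545) (nat_lit 536) (nat_lit 479)) (XT.lf (nat_lit 76) (nat_lit 2439314182) (nat_lit 0) (nat_lit 4341202939) (nat_lit 1216) (nat_lit 515217037) (nat_lit 670) (nat_lit 5) (nat_lit 669) (nat_lit 5) (nat_lit 685) (nat_lit 5) (nat_lit 546) (nat_lit 536) (nat_lit 478))))))) (XT.nd (nat_lit 1170) (nat_lit 13376) (nat_lit 0) (XT.nd (nat_lit 546) (nat_lit 4028)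 (nat_lit 0) (XT.nd (nat_lit 234) (nat_lit 1216) (nat_lit 0) (XT.nd (nat_lit 78) (nat_lit 0) (nat_lit 0) (XT.lf (nat_lit 0) (nat_lit 1300780451) (nat_lit 1216) (nat_lit 935115216) (nat_lit 1292) (nat_lit 5103703406) (nat_lit 653) (nat_lit 5) (nat_lit 669) (nat_lit 5) (nat_lit 670) (nat_lit 5) (nat_lit 547) (nat_lit 536) (nat_lit 477)) (XT.nd (nat_lit 78) (nat_lit 0) (nat_lit 76) (XT.lf (nat_lit 76) (nat_lit 3074911691) (nat_lit 0) (nat_lit 48972864) (nat_lit 1292) (nat_lit 4260836530) (nat_lit 654) (nat_lit 5) (nat_lit 653) (nat_lit 5) (nat_lit 670) (nat_lit 5) (nat_lit 548) (nat_lit 536) (nat_lit 476)) (XT.lf (nat_lit 0) (nat_lit 4962402996) (nat_lit 1216) (nat_lit 294389216) (nat_lit 1292) (nat_lit 2174375865) (nat_lit 654) (nat_lit 5) (nat_lit 670) (nat_lit 5) (nat_lit 671) (nat_lit 5) (nat_lit 549) (nat_lit 536) (nat_lit 475)))) (XT.nd (nat_lit 156) (nat_lit 0) (nat_lit 76) (XT.nd (nat_lit 78) (nat_lit 1292) (nat_lit 0) (XT.lf (nat_lit 76) (nat_lit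 3824331117) (nat_lit 0) (nat_lit 2997800023) (nat_lit 1292) (nat_lit 656725640) (nat_lit 655) (nat_lit 5) (nat_lit 654) (nat_lit 5) (nat_lit 671) (nat_lit 5) (nat_lit 550) (nat_lit 536) (nat_lit 474)) (XT.lf (nat_lit 76) (nat_lit 473211497) (nat_lit 0) (nat_lit 667419761) (nat_lit 1368) (nat_lit 6387420682) (nat_lit 638) (nat_lit 5) (nat_lit 637) (nat_lit 5) (nat_lit 655) (nat_lit 5) (nat_lit 551) (nat_lit 536) (nat_lit 473))) (XT.nd (nat_lit 78) (nat_lit 0) (nat_lit 0) (XT.lf (nat_lit 0) (nat_lit 2961277371) (nat_lit 1292) (nat_lit 2888212153) (nat_lit 1368) (nat_lit 1728733413) (nat_lit 638) (nat_lit 5) (nat_lit 655) (nat_lit 5) (nat_lit 656) (nat_lit 5) (nat_lit 552) (nat_lit 536) (nat_lit 472)) (XT.lf (nat_lit 76) (nat_lit 1347648606) (nat_lit 0) (nat_lit 3444976806) (nat_lit 1368) (nat_lit 2837287600) (nat_lit 639) (nat_lit 5) (nat_lit 638) (nat_lit 5) (nat_lit 656) (nat_lit 5) (nat_lit 553) (nat_lit 536) (nat_lit 471))))) (XT.nd (nat_lit 312) (nat_lit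 2812) (nat_lit 0) (XT.nd (nat_lit 156) (nat_lit 0) (nat_lit 0) (XT.nd (nat_lit 78) (nat_lit 1292) (nat_lit 0) (XT.lf (nat_lit 76) (nat_lit 5680202272) (nat_lit 0) (nat_lit 961484678) (nat_lit 1368) (nat_lit 1041329618) (nat_lit 639) (nat_lit 5) (nat_lit 638) (nat_lit 5) (nat_lit 656) (nat_lit 5) (nat_lit 554) (nat_lit 536) (nat_lit 470)) (XT.lf (nat_lit 0) (nat_lit 768122953) (nat_lit 1368) (nat_lit 5387028957) (nat_lit 1444) (nat_lit 1582170110) (nat_lit 621) (nat_lit 5) (nat_lit 639) (nat_lit 5) (nat_lit 640) (nat_lit 5) (nat_lit 555) (nat_lit 536) (nat_lit 469))) (XT.nd (nat_lit 78) (nat_lit 0) (nat_lit 0) (XT.lf (nat_lit 0) (nat_lit 2582569184) (nat_lit 1368) (nat_lit 1015965699) (nat_lit 1444) (nat_lit 4194387402) (nat_lit 621) (nat_lit 5) (nat_lit 639) (nat_lit 5) (nat_lit 640) (nat_lit 5) (nat_lit 556) (nat_lit 536) (nat_lit 468)) (XT.lf (nat_lit 76) (nat_lit 3460671363) (nat_lit 0) (nat_lit 958669192) (nat_lit 1444) (nat_lit 3430574578) (nat_lit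 622) (nat_lit 5) (nat_lit 621) (nat_lit 5) (nat_lit 640) (nat_lit 5) (nat_lit 557) (nat_lit 536) (nat_lit 467)))) (XT.nd (nat_lit 156) (nat_lit 1444) (nat_lit 0) (XT.nd (nat_lit 78) (nat_lit 76) (nat_lit 0) (XT.lf (nat_lit 0) (nat_lit 94809262) (nat_lit 1368) (nat_lit 6180938039) (nat_lit 1444) (nat_lit 1632643813) (nat_lit 604) (nat_lit 5) (nat_lit 622) (nat_lit 5) (nat_lit 623) (nat_lit 5) (nat_lit 558) (nat_lit 536) (nat_lit 466)) (XT.lf (nat_lit 0) (nat_lit 199055589) (nat_lit 1444) (nat_lit 3275380002) (nat_lit 76) (nat_lit 4493567131) (nat_lit 603) (nat_lit 5) (nat_lit 622) (nat_lit 5) (nat_lit 604) (nat_lit 5) (nat_lit 559) (nat_lit 536) (nat_lit 465))) (XT.nd (nat_lit 78) (nat_lit 0) (nat_lit 0) (XT.lf (nat_lit 0) (nat_lit 1332680751) (nat_lit 1444) (nat_lit 686668637) (nat_lit 1520) (nat_lit 6009766109) (nat_lit 584) (nat_lit 5) (nat_lit 603) (nat_lit 5) (nat_lit 604) (nat_lit 5) (nat_lit 560) (nat_lit 536) (nat_lit 464)) (XT.lf (nat_lit 0) (nat_lit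 3877876995) (nat_lit 1520) (nat_lit 2055982011) (nat_lit 76) (nat_lit 2157556143) (nat_lit 584) (nat_lit 5) (nat_lit 604) (nat_lit 5) (nat_lit 585) (nat_lit 5) (nat_lit 561) (nat_lit 536) (nat_lit 463)))))) (XT.nd (nat_lit 624) (nat_lit 4864) (nat_lit 0) (XT.nd (nat_lit 312) (nat_lit 3648) (nat_lit 0) (XT.nd (nat_lit 156) (nat_lit 3344) (nat_lit 0) (XT.nd (nat_lit 78) (nat_lit 0) (nat_lit 0) (XT.lf (nat_lit 0) (nat_lit 2680313386) (nat_lit 1520) (nat_lit 3081583302) (nat_lit 1596) (nat_lit 2393298832) (nat_lit 564) (nat_lit 5) (nat_lit 584) (nat_lit 5) (nat_lit 585) (nat_lit 5) (nat_lit 562) (nat_lit 536) (nat_lit 462)) (XT.lf (nat_lit 0) (nat_lit 7511813751) (nat_lit 1520) (nat_lit 152432976) (nat_lit 1596) (nat_lit 556392904) (nat_lit 564) (nat_lit 5) (nat_lit 584) (nat_lit 5) (nat_lit 585) (nat_lit 5) (nat_lit 563) (nat_lit 536) (nat_lit 461))) (XT.nd (nat_lit 78) (nat_lit 1672) (nat_lit 0) (XT.lf (nat_lit 0) (nat_lit 1313025502) (nat_lit 1672) (nat_lit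 4134596267) (nat_lit 76) (nat_lit 2839339888) (nat_lit 542) (nat_lit 5) (nat_lit 564) (nat_lit 5) (nat_lit 543) (nat_lit 5) (nat_lit 564) (nat_lit 536) (nat_lit 460)) (XT.lf (nat_lit 0) (nat_lit 743105130) (nat_lit 1672) (nat_lit 2447691969) (nat_lit 1748) (nat_lit 5164172239) (nat_lit 520) (nat_lit 5) (nat_lit 542) (nat_lit 5) (nat_lit 543) (nat_lit 5) (nat_lit 565) (nat_lit 536) (nat_lit 459)))) (XT.nd (nat_lit 156) (nat_lit 1900) (nat_lit 0) (XT.nd (nat_lit 78) (nat_lit 1748) (nat_lit 0) (XT.lf (nat_lit 0) (nat_lit 5106293276) (nat_lit 1748) (nat_lit 2681804336) (nat_lit 76) (nat_lit 636237225) (nat_lit 520) (nat_lit 5) (nat_lit 543) (nat_lit 5) (nat_lit 521) (nat_lit 5) (nat_lit 566) (nat_lit 536) (nat_lit 458)) (XT.lf (nat_lit 0) (nat_lit 2333536528) (nat_lit 1748) (nat_lit 4726810890) (nat_lit 1824) (nat_lit 1434736293) (nat_lit 497) (nat_lit 5) (nat_lit 520) (nat_lit 5) (nat_lit 521) (nat_lit 5) (nat_lit 567) (nat_lit 536) (nat_lit 457))) (XT.nd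 (nat_lit 78) (nat_lit 1824) (nat_lit 0) (XT.lf (nat_lit 0) (nat_lit 467087925) (nat_lit 1824) (nat_lit 1112571184) (nat_lit 76) (nat_lit 6987781702) (nat_lit 496) (nat_lit 5) (nat_lit 520) (nat_lit 5) (nat_lit 497) (nat_lit 5) (nat_lit 568) (nat_lit 536) (nat_lit 456)) (XT.lf (nat_lit 0) (nat_lit 2394636280) (nat_lit 1900) (nat_lit 4598326149) (nat_lit 76) (nat_lit 1647955944) (nat_lit 472) (nat_lit 5) (nat_lit 497) (nat_lit 5) (nat_lit 473) (nat_lit 5) (nat_lit 569) (nat_lit 536) (nat_lit 455))))) (XT.nd (nat_lit 312) (nat_lit 2736) (nat_lit 0) (XT.nd (nat_lit 156) (nat_lit 988) (nat_lit 0) (XT.nd (nat_lit 78) (nat_lit 0) (nat_lit 0) (XT.lf (nat_lit 0) (nat_lit 569348870) (nat_lit 1140) (nat_lit 3783214235) (nat_lit 1216) (nat_lit 4363466779) (nat_lit 457) (nat_lit 5) (nat_lit 472) (nat_lit 5) (nat_lit 473) (nat_lit 5) (nat_lit 570) (nat_lit 536) (nat_lit 454)) (XT.lf (nat_lit 0) (nat_lit 5875060603) (nat_lit 1140) (nat_lit 476004965) (nat_lit 1216) (nat_lit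 2441550644) (nat_lit 457) (nat_lit 5) (nat_lit 472) (nat_lit 5) (nat_lit 473) (nat_lit 5) (nat_lit 571) (nat_lit 536) (nat_lit 453))) (XT.nd (nat_lit 78) (nat_lit 76) (nat_lit 0) (XT.lf (nat_lit 0) (nat_lit 2401136371) (nat_lit 912) (nat_lit 5993951563) (nat_lit 988) (nat_lit 475536247) (nat_lit 445) (nat_lit 5) (nat_lit 457) (nat_lit 5) (nat_lit 458) (nat_lit 5) (nat_lit 572) (nat_lit 536) (nat_lit 452)) (XT.lf (nat_lit 0) (nat_lit 1503941463) (nat_lit 988) (nat_lit 1125160009) (nat_lit 76) (nat_lit 6321008933) (nat_lit 444) (nat_lit 5) (nat_lit 457) (nat_lit 5) (nat_lit 445) (nat_lit 5) (nat_lit 573) (nat_lit 536) (nat_lit 451)))) (XT.nd (nat_lit 156) (nat_lit 988) (nat_lit 0) (XT.nd (nat_lit 78) (nat_lit 836) (nat_lit 0) (XT.lf (nat_lit 0) (nat_lit 3522242340) (nat_lit 988) (nat_lit 4683905065) (nat_lit 76) (nat_lit 824864920) (nat_lit 432) (nat_lit 5) (nat_lit 445) (nat_lit 5) (nat_lit 433) (nat_lit 5) (nat_lit 574) (nat_lit 536) (nat_lit 450)) (XT.lf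 (nat_lit 0) (nat_lit 795940992) (nat_lit 836) (nat_lit 4787433801) (nat_lit 912) (nat_lit 3530109021) (nat_lit 421) (nat_lit 5) (nat_lit 432) (nat_lit 5) (nat_lit 433) (nat_lit 5) (nat_lit 575) (nat_lit 536) (nat_lit 449))) (XT.nd (nat_lit 78) (nat_lit 988) (nat_lit 0) (XT.lf (nat_lit 0) (nat_lit 6421330867) (nat_lit 836) (nat_lit 1268481165) (nat_lit 912) (nat_lit 1507711884) (nat_lit 421) (nat_lit 5) (nat_lit 432) (nat_lit 5) (nat_lit 433) (nat_lit 5) (nat_lit 576) (nat_lit 536) (nat_lit 448)) (XT.lf (nat_lit 0) (nat_lit 554792196) (nat_lit 988) (nat_lit 6415728810) (nat_lit 76) (nat_lit 2312513727) (nat_lit 408) (nat_lit 5) (nat_lit 421) (nat_lit 5) (nat_lit 409) (nat_lit 5) (nat_lit 577) (nat_lit 536) (nat_lit 447))))))))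
noncomputable def xc98 : XT := (XT.nd (nat_lit 2418) (nat_lit 8360) (nat_lit 0) (XT.nd (nat_lit 1170) (nat_lit 6080) (nat_lit 0) (XT.nd (nat_lit 546) (nat_lit 3724) (nat_lit 0) (XT.nd (nat_lit 234) (nat_lit 1596) (nat_lit 0) (XT.nd (nat_lit 78) (nat_lit 1672) (nat_lit 0) (XT.lf (nat_lit 0) (nat_lit 2638888364) (nat_lit 988) (nat_lit 754799088) (nat_lit 76) (nat_lit 5976359167) (nat_lit 408) (nat_lit 5) (nat_lit 421) (nat_lit 5) (nat_lit 409) (nat_lit 5) (nat_lit 578) (nat_lit 536) (nat_lit 446)) (XT.nd (nat_lit 78) (nat_lit 836) (nat_lit 0) (XT.lf (nat_lit 0) (nat_lit 4773254151) (nat_lit 912) (nat_lit 4402007283) (nat_lit 76) (nat_lit 283366318) (nat_lit 397) (nat_lit 5) (nat_lit 409) (nat_lit 5) (nat_lit 398) (nat_lit 5) (nat_lit 579) (nat_lit 536) (nat_lit 445)) (XT.lf (nat_lit 0) (nat_lit 1414158917) (nat_lit 836) (nat_lit 5547112607) (nat_lit 912) (nat_lit 2587490446) (nat_lit 386) (nat_lit 5) (nat_lit 397) (nat_lit 5) (nat_lit 398) (nat_lit 5) (nat_lit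 580) (nat_lit 536) (nat_lit 444)))) (XT.nd (nat_lit 156) (nat_lit 760) (nat_lit 0) (XT.nd (nat_lit 78) (nat_lit 836) (nat_lit 0) (XT.lf (nat_lit 0) (nat_lit 7378999286) (nat_lit 836) (nat_lit 1818127288) (nat_lit 912) (nat_lit 443491484) (nat_lit 386) (nat_lit 5) (nat_lit 397) (nat_lit 5) (nat_lit 398) (nat_lit 5) (nat_lit 581) (nat_lit 536) (nat_lit 443)) (XT.lf (nat_lit 0) (nat_lit 1732785871) (nat_lit 836) (nat_lit 6007785443) (nat_lit 76) (nat_lit 1993269009) (nat_lit 375) (nat_lit 5) (nat_lit 386) (nat_lit 5) (nat_lit 376) (nat_lit 5) (nat_lit 582) (nat_lit 536) (nat_lit 442))) (XT.nd (nat_lit 78) (nat_lit 760) (nat_lit 0) (XT.lf (nat_lit 0) (nat_lit 3949148488) (nat_lit 836) (nat_lit 6985964) (nat_lit 76) (nat_lit 5872684682) (nat_lit 375) (nat_lit 5) (nat_lit 386) (nat_lit 5) (nat_lit 376) (nat_lit 5) (nat_lit 583) (nat_lit 536) (nat_lit 441)) (XT.lf (nat_lit 0) (nat_lit 6167836304) (nat_lit 760) (nat_lit 57709281) (nat_lit 836) (nat_lit 3699838467)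 (nat_lit 365) (nat_lit 5) (nat_lit 375) (nat_lit 5) (nat_lit 376) (nat_lit 5) (nat_lit 584) (nat_lit 536) (nat_lit 440))))) (XT.nd (nat_lit 312) (nat_lit 1444) (nat_lit 0) (XT.nd (nat_lit 156) (nat_lit 1444) (nat_lit 0) (XT.nd (nat_lit 78) (nat_lit 76) (nat_lit 0) (XT.lf (nat_lit 0) (nat_lit 2421513356) (nat_lit 760) (nat_lit 6143117226) (nat_lit 836) (nat_lit 1458907152) (nat_lit 355) (nat_lit 5) (nat_lit 365) (nat_lit 5) (nat_lit 366) (nat_lit 5) (nat_lit 585) (nat_lit 536) (nat_lit 439)) (XT.lf (nat_lit 0) (nat_lit 817849267) (nat_lit 836) (nat_lit 1381289806) (nat_lit 76) (nat_lit 7924371673) (nat_lit 354) (nat_lit 5) (nat_lit 365) (nat_lit 5) (nat_lit 355) (nat_lit 5) (nat_lit 586) (nat_lit 536) (nat_lit 438))) (XT.nd (nat_lit 78) (nat_lit 684) (nat_lit 0) (XT.lf (nat_lit 0) (nat_lit 3141694652) (nat_lit 836) (nat_lit 5244305070) (nat_lit 76) (nat_lit 1838869482) (nat_lit 344) (nat_lit 5) (nat_lit 355) (nat_lit 5) (nat_lit 345) (nat_lit 5) (nat_lit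 587) (nat_lit 536) (nat_lit 437)) (XT.lf (nat_lit 0) (nat_lit 1133508411) (nat_lit 684) (nat_lit 4386582336) (nat_lit 760) (nat_lit 4808003221) (nat_lit 335) (nat_lit 5) (nat_lit 344) (nat_lit 5) (nat_lit 345) (nat_lit 5) (nat_lit 588) (nat_lit 536) (nat_lit 436)))) (XT.nd (nat_lit 156) (nat_lit 760) (nat_lit 0) (XT.nd (nat_lit 78) (nat_lit 684) (nat_lit 0) (XT.lf (nat_lit 0) (nat_lit 7683102018) (nat_lit 684) (nat_lit 275244799) (nat_lit 760) (nat_lit 2474791172) (nat_lit 335) (nat_lit 5) (nat_lit 344) (nat_lit 5) (nat_lit 345) (nat_lit 5) (nat_lit 589) (nat_lit 536) (nat_lit 435)) (XT.lf (nat_lit 0) (nat_lit 3821319865) (nat_lit 684) (nat_lit 6651822805) (nat_lit 760) (nat_lit 66585314) (nat_lit 326) (nat_lit 5) (nat_lit 335) (nat_lit 5) (nat_lit 336) (nat_lit 5) (nat_lit 590) (nat_lit 536) (nat_lit 434))) (XT.nd (nat_lit 78) (nat_lit 684) (nat_lit 0) (XT.lf (nat_lit 0) (nat_lit 2356485666) (nat_lit 760) (nat_lit 131044819) (nat_lit 76) (nat_lit 8160648671)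 (nat_lit 325) (nat_lit 5) (nat_lit 335) (nat_lit 5) (nat_lit 326) (nat_lit 5) (nat_lit 591) (nat_lit 536) (nat_lit 433)) (XT.lf (nat_lit 0) (nat_lit 4860063524) (nat_lit 760) (nat_lit 4121589074) (nat_lit 76) (nat_lit 1776479767) (nat_lit 316) (nat_lit 5) (nat_lit 326) (nat_lit 5) (nat_lit 317) (nat_lit 5) (nat_lit 592) (nat_lit 536) (nat_lit 432)))))) (XT.nd (nat_lit 624) (nat_lit 2812) (nat_lit 0) (XT.nd (nat_lit 312) (nat_lit 1292) (nat_lit 0) (XT.nd (nat_lit 156) (nat_lit 1292) (nat_lit 0) (XT.nd (nat_lit 78) (nat_lit 0) (nat_lit 0) (XT.lf (nat_lit 0) (nat_lit 2662849571) (nat_lit 684) (nat_lit 4763824239) (nat_lit 760) (nat_lit 3443352154) (nat_lit 307) (nat_lit 5) (nat_lit 316) (nat_lit 5) (nat_lit 317) (nat_lit 5) (nat_lit 593) (nat_lit 536) (nat_lit 431)) (XT.lf (nat_lit 0) (nat_lit 9612434022) (nat_lit 684) (nat_lit 438407033) (nat_lit 760) (nat_lit 933192419) (nat_lit 307) (nat_lit 5) (nat_lit 316) (nat_lit 5) (nat_lit 317) (nat_lit 5) (nat_lit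 594) (nat_lit 536) (nat_lit 430))) (XT.nd (nat_lit 78) (nat_lit 608) (nat_lit 0) (XT.lf (nat_lit 0) (nat_lit 1647360591) (nat_lit 684) (nat_lit 5487989418) (nat_lit 76) (nat_lit 3963929731) (nat_lit 298) (nat_lit 5) (nat_lit 307) (nat_lit 5) (nat_lit 299) (nat_lit 5) (nat_lit 595) (nat_lit 536) (nat_lit 429)) (XT.lf (nat_lit 0) (nat_lit 1520187309) (nat_lit 608) (nat_lit 2747952256) (nat_lit 684) (nat_lit 6948546293) (nat_lit 290) (nat_lit 5) (nat_lit 298) (nat_lit 5) (nat_lit 299) (nat_lit 5) (nat_lit 596) (nat_lit 536) (nat_lit 428)))) (XT.nd (nat_lit 156) (nat_lit 684) (nat_lit 0) (XT.nd (nat_lit 78) (nat_lit 608) (nat_lit 0) (XT.lf (nat_lit 0) (nat_lit 6968884092) (nat_lit 684) (nat_lit 2630837134) (nat_lit 76) (nat_lit 1736168368) (nat_lit 290) (nat_lit 5) (nat_lit 299) (nat_lit 5) (nat_lit 291) (nat_lit 5) (nat_lit 597) (nat_lit 536) (nat_lit 427)) (XT.lf (nat_lit 0) (nat_lit 4592092408) (nat_lit 608) (nat_lit 5159235644) (nat_lit 684) (nat_lit 1705596144)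 (nat_lit 282) (nat_lit 5) (nat_lit 290) (nat_lit 5) (nat_lit 291) (nat_lit 5) (nat_lit 598) (nat_lit 536) (nat_lit 426))) (XT.nd (nat_lit 78) (nat_lit 0) (nat_lit 0) (XT.lf (nat_lit 0) (nat_lit 387357139) (nat_lit 608) (nat_lit 608504837) (nat_lit 684) (nat_lit 10584385865) (nat_lit 273) (nat_lit 5) (nat_lit 281) (nat_lit 5) (nat_lit 282) (nat_lit 5) (nat_lit 599) (nat_lit 536) (nat_lit 425)) (XT.lf (nat_lit 0) (nat_lit 3781047984) (nat_lit 684) (nat_lit 3891619171) (nat_lit 76) (nat_lit 4032095047) (nat_lit 273) (nat_lit 5) (nat_lit 282) (nat_lit 5) (nat_lit 274) (nat_lit 5) (nat_lit 600) (nat_lit 536) (nat_lit 424))))) (XT.nd (nat_lit 312) (nat_lit 1064) (nat_lit 0) (XT.nd (nat_lit 156) (nat_lit 1216) (nat_lit 0) (XT.nd (nat_lit 78) (nat_lit 0) (nat_lit 0) (XT.lf (nat_lit 0) (nat_lit 3572660809) (nat_lit 532) (nat_lit 3056852939) (nat_lit 608) (nat_lit 5202102028) (nat_lit 266) (nat_lit 5) (nat_lit 273) (nat_lit 5) (nat_lit 274) (nat_lit 5) (nat_lit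 601) (nat_lit 536) (nat_lit 423)) (XT.lf (nat_lit 0) (nat_lit 9552485974) (nat_lit 608) (nat_lit 758421702) (nat_lit 76) (nat_lit 1649748441) (nat_lit 266) (nat_lit 5) (nat_lit 274) (nat_lit 5) (nat_lit 267) (nat_lit 5) (nat_lit 602) (nat_lit 536) (nat_lit 422))) (XT.nd (nat_lit 78) (nat_lit 532) (nat_lit 0) (XT.lf (nat_lit 0) (nat_lit 482349637) (nat_lit 684) (nat_lit 5157175873) (nat_lit 76) (nat_lit 6451764798) (nat_lit 257) (nat_lit 5) (nat_lit 266) (nat_lit 5) (nat_lit 258) (nat_lit 5) (nat_lit 603) (nat_lit 536) (nat_lit 421)) (XT.lf (nat_lit 0) (nat_lit 2558320822) (nat_lit 532) (nat_lit 842871478) (nat_lit 608) (nat_lit 8822971778) (nat_lit 250) (nat_lit 5) (nat_lit 257) (nat_lit 5) (nat_lit 258) (nat_lit 5) (nat_lit 604) (nat_lit 536) (nat_lit 420)))) (XT.nd (nat_lit 156) (nat_lit 532) (nat_lit 0) (XT.nd (nat_lit 78) (nat_lit 532) (nat_lit 0) (XT.lf (nat_lit 0) (nat_lit 6420700638) (nat_lit 608) (nat_lit 1913253069) (nat_lit 76) (nat_lit 4024896244)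 (nat_lit 250) (nat_lit 5) (nat_lit 258) (nat_lit 5) (nat_lit 251) (nat_lit 5) (nat_lit 605) (nat_lit 536) (nat_lit 419)) (XT.lf (nat_lit 0) (nat_lit 6042802976) (nat_lit 532) (nat_lit 3484140246) (nat_lit 608) (nat_lit 2968759835) (nat_lit 243) (nat_lit 5) (nat_lit 250) (nat_lit 5) (nat_lit 251) (nat_lit 5) (nat_lit 606) (nat_lit 536) (nat_lit 418))) (XT.nd (nat_lit 78) (nat_lit 0) (nat_lit 0) (XT.lf (nat_lit 0) (nat_lit 73386681) (nat_lit 532) (nat_lit 11101491594) (nat_lit 76) (nat_lit 1460124411) (nat_lit 236) (nat_lit 5) (nat_lit 243) (nat_lit 5) (nat_lit 237) (nat_lit 5) (nat_lit 607) (nat_lit 536) (nat_lit 417)) (XT.lf (nat_lit 0) (nat_lit 3185082642) (nat_lit 532) (nat_lit 3077609707) (nat_lit 76) (nat_lit 6513034697) (nat_lit 236) (nat_lit 5) (nat_lit 243) (nat_lit 5) (nat_lit 237) (nat_lit 5) (nat_lit 608) (nat_lit 536) (nat_lit 416))))))) (XT.nd (nat_lit 1170) (nat_lit 3724) (nat_lit 0) (XT.nd (nat_lit 546) (nat_lit 2204) (nat_lit 0) (XT.nd (nat_lit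 234) (nat_lit 1444) (nat_lit 0) (XT.nd (nat_lit 78) (nat_lit 456) (nat_lit 0) (XT.lf (nat_lit 0) (nat_lit 5149296026) (nat_lit 532) (nat_lit 1225264969) (nat_lit 608) (nat_lit 6544394294) (nat_lit 229) (nat_lit 5) (nat_lit 236) (nat_lit 5) (nat_lit 237) (nat_lit 5) (nat_lit 609) (nat_lit 536) (nat_lit 415)) (XT.nd (nat_lit 78) (nat_lit 0) (nat_lit 0) (XT.lf (nat_lit 0) (nat_lit 473357507) (nat_lit 456) (nat_lit 9185998172) (nat_lit 532) (nat_lit 3405062244) (nat_lit 223) (nat_lit 5) (nat_lit 229) (nat_lit 5) (nat_lit 230) (nat_lit 5) (nat_lit 610) (nat_lit 536) (nat_lit 414)) (XT.lf (nat_lit 0) (nat_lit 8953366244) (nat_lit 456) (nat_lit 4099124280) (nat_lit 532) (nat_lit 159446752) (nat_lit 223) (nat_lit 5) (nat_lit 229) (nat_lit 5) (nat_lit 230) (nat_lit 5) (nat_lit 611) (nat_lit 536) (nat_lit 413)))) (XT.nd (nat_lit 156) (nat_lit 912) (nat_lit 0) (XT.nd (nat_lit 78) (nat_lit 0) (nat_lit 0) (XT.lf (nat_lit 0) (nat_lit 3127374121) (nat_lit 532) (nat_lit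 9117979789) (nat_lit 76) (nat_lit 1116291865) (nat_lit 216) (nat_lit 5) (nat_lit 223) (nat_lit 5) (nat_lit 217) (nat_lit 5) (nat_lit 612) (nat_lit 536) (nat_lit 412)) (XT.lf (nat_lit 0) (nat_lit 6516518462) (nat_lit 532) (nat_lit 593334480) (nat_lit 76) (nat_lit 6403700315) (nat_lit 216) (nat_lit 5) (nat_lit 223) (nat_lit 5) (nat_lit 217) (nat_lit 5) (nat_lit 613) (nat_lit 536) (nat_lit 411))) (XT.nd (nat_lit 78) (nat_lit 456) (nat_lit 0) (XT.lf (nat_lit 0) (nat_lit 8184796193) (nat_lit 456) (nat_lit 1824934759) (nat_lit 532) (nat_lit 3658042556) (nat_lit 210) (nat_lit 5) (nat_lit 216) (nat_lit 5) (nat_lit 217) (nat_lit 5) (nat_lit 614) (nat_lit 536) (nat_lit 410)) (XT.lf (nat_lit 0) (nat_lit 3317387133) (nat_lit 456) (nat_lit 10287386774) (nat_lit 532) (nat_lit 219665251) (nat_lit 204) (nat_lit 5) (nat_lit 210) (nat_lit 5) (nat_lit 211) (nat_lit 5) (nat_lit 615) (nat_lit 536) (nat_lit 409))))) (XT.nd (nat_lit 312) (nat_lit 1292) (nat_lit 0) (XT.nd (nat_lit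 156) (nat_lit 456) (nat_lit 0) (XT.nd (nat_lit 78) (nat_lit 380) (nat_lit 0) (XT.lf (nat_lit 0) (nat_lit 3276815714) (nat_lit 532) (nat_lit 1673632430) (nat_lit 76) (nat_lit 9032714354) (nat_lit 203) (nat_lit 5) (nat_lit 210) (nat_lit 5) (nat_lit 204) (nat_lit 5) (nat_lit 616) (nat_lit 536) (nat_lit 408)) (XT.lf (nat_lit 0) (nat_lit 6875522396) (nat_lit 456) (nat_lit 6739774756) (nat_lit 76) (nat_lit 529029666) (nat_lit 198) (nat_lit 5) (nat_lit 204) (nat_lit 5) (nat_lit 199) (nat_lit 5) (nat_lit 617) (nat_lit 536) (nat_lit 407))) (XT.nd (nat_lit 78) (nat_lit 0) (nat_lit 0) (XT.lf (nat_lit 0) (nat_lit 2352316462) (nat_lit 456) (nat_lit 8237020376) (nat_lit 532) (nat_lit 3718515208) (nat_lit 192) (nat_lit 5) (nat_lit 198) (nat_lit 5) (nat_lit 199) (nat_lit 5) (nat_lit 618) (nat_lit 536) (nat_lit 406)) (XT.lf (nat_lit 0) (nat_lit 11693595202) (nat_lit 456) (nat_lit 2712993178) (nat_lit 532) (nat_lit 67476472) (nat_lit 192) (nat_lit 5) (nat_lit 198) (nat_lit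 5) (nat_lit 199) (nat_lit 5) (nat_lit 619) (nat_lit 536) (nat_lit 405)))) (XT.nd (nat_lit 156) (nat_lit 456) (nat_lit 0) (XT.nd (nat_lit 78) (nat_lit 380) (nat_lit 0) (XT.lf (nat_lit 0) (nat_lit 3655093488) (nat_lit 456) (nat_lit 8044553052) (nat_lit 76) (nat_lit 2942551490) (nat_lit 186) (nat_lit 5) (nat_lit 192) (nat_lit 5) (nat_lit 187) (nat_lit 5) (nat_lit 620) (nat_lit 536) (nat_lit 404)) (XT.lf (nat_lit 0) (nat_lit 1363171619) (nat_lit 380) (nat_lit 6117890220) (nat_lit 456) (nat_lit 7332026373) (nat_lit 181) (nat_lit 5) (nat_lit 186) (nat_lit 5) (nat_lit 187) (nat_lit 5) (nat_lit 621) (nat_lit 536) (nat_lit 403))) (XT.nd (nat_lit 78) (nat_lit 456) (nat_lit 0) (XT.lf (nat_lit 0) (nat_lit 11044393248) (nat_lit 380) (nat_lit 377544632) (nat_lit 456) (nat_lit 3564690817) (nat_lit 181) (nat_lit 5) (nat_lit 186) (nat_lit 5) (nat_lit 187) (nat_lit 5) (nat_lit 622) (nat_lit 536) (nat_lit 402)) (XT.lf (nat_lit 0) (nat_lit 332428227) (nat_lit 456) (nat_lit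 9392427392) (nat_lit 76) (nat_lit 5437586878) (nat_lit 175) (nat_lit 5) (nat_lit 181) (nat_lit 5) (nat_lit 176) (nat_lit 5) (nat_lit 623) (nat_lit 536) (nat_lit 401)))))) (XT.nd (nat_lit 624) (nat_lit 1748) (nat_lit 0) (XT.nd (nat_lit 312) (nat_lit 1140) (nat_lit 0) (XT.nd (nat_lit 156) (nat_lit 456) (nat_lit 0) (XT.nd (nat_lit 78) (nat_lit 0) (nat_lit 0) (XT.lf (nat_lit 0) (nat_lit 343383914) (nat_lit 380) (nat_lit 3932486302) (nat_lit 456) (nat_lit 11065109122) (nat_lit 170) (nat_lit 5) (nat_lit 175) (nat_lit 5) (nat_lit 176) (nat_lit 5) (nat_lit 624) (nat_lit 536) (nat_lit 400)) (XT.lf (nat_lit 0) (nat_lit 8359256533) (nat_lit 456) (nat_lit 5157480108) (nat_lit 76) (nat_lit 2005129011) (nat_lit 170) (nat_lit 5) (nat_lit 176) (nat_lit 5) (nat_lit 171) (nat_lit 5) (nat_lit 625) (nat_lit 536) (nat_lit 399))) (XT.nd (nat_lit 78) (nat_lit 76) (nat_lit 0) (XT.lf (nat_lit 0) (nat_lit 4894412255) (nat_lit 380) (nat_lit 7672819244) (nat_lit 456) (nat_lit 3138280017)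 (nat_lit 165) (nat_lit 5) (nat_lit 170) (nat_lit 5) (nat_lit 171) (nat_lit 5) (nat_lit 626) (nat_lit 536) (nat_lit 398)) (XT.lf (nat_lit 0) (nat_lit 973842902) (nat_lit 456) (nat_lit 704607830) (nat_lit 76) (nat_lit 14213854619) (nat_lit 164) (nat_lit 5) (nat_lit 170) (nat_lit 5) (nat_lit 165) (nat_lit 5) (nat_lit 627) (nat_lit 536) (nat_lit 397)))) (XT.nd (nat_lit 156) (nat_lit 456) (nat_lit 0) (XT.nd (nat_lit 78) (nat_lit 304) (nat_lit 0) (XT.lf (nat_lit 0) (nat_lit 5203861126) (nat_lit 456) (nat_lit 6423233713) (nat_lit 76) (nat_lit 4453772082) (nat_lit 159) (nat_lit 5) (nat_lit 165) (nat_lit 5) (nat_lit 160) (nat_lit 5) (nat_lit 628) (nat_lit 536) (nat_lit 396)) (XT.lf (nat_lit 0) (nat_lit 3981790949) (nat_lit 304) (nat_lit 5563938134) (nat_lit 380) (nat_lit 6726925876) (nat_lit 155) (nat_lit 5) (nat_lit 159) (nat_lit 5) (nat_lit 160) (nat_lit 5) (nat_lit 629) (nat_lit 536) (nat_lit 395))) (XT.nd (nat_lit 78) (nat_lit 456) (nat_lit 0) (XT.lf (nat_lit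 0) (nat_lit 14007455734) (nat_lit 380) (nat_lit 1812677593) (nat_lit 76) (nat_lit 647485224) (nat_lit 155) (nat_lit 5) (nat_lit 160) (nat_lit 5) (nat_lit 156) (nat_lit 5) (nat_lit 630) (nat_lit 536) (nat_lit 394)) (XT.lf (nat_lit 0) (nat_lit 1948388744) (nat_lit 456) (nat_lit 7744785428) (nat_lit 76) (nat_lit 6971436451) (nat_lit 149) (nat_lit 5) (nat_lit 155) (nat_lit 5) (nat_lit 150) (nat_lit 5) (nat_lit 631) (nat_lit 536) (nat_lit 393))))) (XT.nd (nat_lit 312) (nat_lit 684) (nat_lit 0) (XT.nd (nat_lit 156) (nat_lit 760) (nat_lit 0) (XT.nd (nat_lit 78) (nat_lit 0) (nat_lit 0) (XT.lf (nat_lit 0) (nat_lit 3027056161) (nat_lit 304) (nat_lit 3402967849) (nat_lit 380) (nat_lit 10434836417) (nat_lit 145) (nat_lit 5) (nat_lit 149) (nat_lit 5) (nat_lit 150) (nat_lit 5) (nat_lit 632) (nat_lit 536) (nat_lit 392)) (XT.lf (nat_lit 0) (nat_lit 11059171634) (nat_lit 380) (nat_lit 2991262955) (nat_lit 76) (nat_lit 3017523246) (nat_lit 145) (nat_lit 5) (nat_lit 150)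 (nat_lit 5) (nat_lit 146) (nat_lit 5) (nat_lit 633) (nat_lit 536) (nat_lit 391))) (XT.nd (nat_lit 78) (nat_lit 380) (nat_lit 0) (XT.lf (nat_lit 0) (nat_lit 8134200062) (nat_lit 380) (nat_lit 7708326679) (nat_lit 456) (nat_lit 1431358157) (nat_lit 140) (nat_lit 5) (nat_lit 145) (nat_lit 5) (nat_lit 146) (nat_lit 5) (nat_lit 634) (nat_lit 536) (nat_lit 390)) (XT.lf (nat_lit 0) (nat_lit 2022369942) (nat_lit 304) (nat_lit 1192434669) (nat_lit 380) (nat_lit 14268312705) (nat_lit 135) (nat_lit 5) (nat_lit 139) (nat_lit 5) (nat_lit 140) (nat_lit 5) (nat_lit 635) (nat_lit 536) (nat_lit 389)))) (XT.nd (nat_lit 156) (nat_lit 380) (nat_lit 0) (XT.nd (nat_lit 78) (nat_lit 304) (nat_lit 0) (XT.lf (nat_lit 0) (nat_lit 8018272324) (nat_lit 380) (nat_lit 4231307124) (nat_lit 76) (nat_lit 5445094945) (nat_lit 135) (nat_lit 5) (nat_lit 140) (nat_lit 5) (nat_lit 136) (nat_lit 5) (nat_lit 636) (nat_lit 536) (nat_lit 388)) (XT.lf (nat_lit 0) (nat_lit 7288591551) (nat_lit 304)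 (nat_lit 5671086013) (nat_lit 380) (nat_lit 4949947866) (nat_lit 131) (nat_lit 5) (nat_lit 135) (nat_lit 5) (nat_lit 136) (nat_lit 5) (nat_lit 637) (nat_lit 536) (nat_lit 387))) (XT.nd (nat_lit 78) (nat_lit 76) (nat_lit 0) (XT.lf (nat_lit 0) (nat_lit 951592638) (nat_lit 304) (nat_lit 17076539747) (nat_lit 380) (nat_lit 100178854) (nat_lit 127) (nat_lit 5) (nat_lit 131) (nat_lit 5) (nat_lit 132) (nat_lit 5) (nat_lit 638) (nat_lit 536) (nat_lit 386)) (XT.lf (nat_lit 0) (nat_lit 4879070255) (nat_lit 380) (nat_lit 5541722084) (nat_lit 76) (nat_lit 7928028280) (nat_lit 126) (nat_lit 5) (nat_lit 131) (nat_lit 5) (nat_lit 127) (nat_lit 5) (nat_lit 639) (nat_lit 536) (nat_lit 385))))))))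
noncomputable def xc99 : XT := (XT.nd (nat_lit 75348) (nat_lit 0) (nat_lit 13756) (XT.nd (nat_lit 74100) (nat_lit 0) (nat_lit 32300) (XT.nd (nat_lit 73476) (nat_lit 0) (nat_lit 40660) (XT.nd (nat_lit 73164) (nat_lit 0) (nat_lit 42864) (XT.nd (nat_lit 78) (nat_lit 380) (nat_lit 0) (XT.lf (nat_lit 0) (nat_lit 6387591953) (nat_lit 304) (nat_lit 3597451565) (nat_lit 380) (nat_lit 8588113985) (nat_lit 122) (nat_lit 5) (nat_lit 126) (nat_lit 5) (nat_lit 127) (nat_lit 5) (nat_lit 640) (nat_lit 536) (nat_lit 384)) (XT.nd (nat_lit 78) (nat_lit 380) (nat_lit 0) (XT.lf (nat_lit 0) (nat_lit 15239468982) (nat_lit 380) (nat_lit 214257183) (nat_lit 76) (nat_lit 3347328470) (nat_lit 122) (nat_lit 5) (nat_lit 127) (nat_lit 5) (nat_lit 123) (nat_lit 5) (nat_lit 641) (nat_lit 536) (nat_lit 383)) (XT.lf (nat_lit 0) (nat_lit 1635310272) (nat_lit 380) (nat_lit 6932122443) (nat_lit 76) (nat_lit 10464066502) (nat_lit 117) (nat_lit 5) (nat_lit 122) (nat_lit 5) (nat_lit 118) (nat_lit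 5) (nat_lit 642) (nat_lit 536) (nat_lit 382)))) (XT.nd (nat_lit 156) (nat_lit 0) (nat_lit 76) (XT.nd (nat_lit 78) (nat_lit 1140) (nat_lit 0) (XT.lf (nat_lit 0) (nat_lit 1472095766) (nat_lit 0) (nat_lit 1472095766) (nat_lit 988) (nat_lit 551156776) (nat_lit 696) (nat_lit 5) (nat_lit 696) (nat_lit 3) (nat_lit 709) (nat_lit 3) (nat_lit 537) (nat_lit 537) (nat_lit 486)) (XT.lf (nat_lit 0) (nat_lit 747089519) (nat_lit 1140) (nat_lit 555535659) (nat_lit 1140) (nat_lit 5721131280) (nat_lit 681) (nat_lit 3) (nat_lit 696) (nat_lit 3) (nat_lit 696) (nat_lit 5) (nat_lit 538) (nat_lit 537) (nat_lit 485))) (XT.nd (nat_lit 78) (nat_lit 0) (nat_lit 0) (XT.lf (nat_lit 0) (nat_lit 2592624456) (nat_lit 1064) (nat_lit 4047883640) (nat_lit 1140) (nat_lit 417347569) (nat_lit 682) (nat_lit 5) (nat_lit 696) (nat_lit 5) (nat_lit 697) (nat_lit 5) (nat_lit 539) (nat_lit 537) (nat_lit 484)) (XT.lf (nat_lit 0) (nat_lit 4439972756) (nat_lit 1064) (nat_lit 472528781) (nat_lit 1140)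 (nat_lit 2180839200) (nat_lit 682) (nat_lit 5) (nat_lit 696) (nat_lit 5) (nat_lit 697) (nat_lit 5) (nat_lit 540) (nat_lit 537) (nat_lit 483))))) (XT.nd (nat_lit 312) (nat_lit 1140) (nat_lit 0) (XT.nd (nat_lit 156) (nat_lit 0) (nat_lit 76) (XT.nd (nat_lit 78) (nat_lit 1140) (nat_lit 0) (XT.lf (nat_lit 76) (nat_lit 3191051611) (nat_lit 0) (nat_lit 3107389131) (nat_lit 1140) (nat_lit 831613210) (nat_lit 683) (nat_lit 5) (nat_lit 682) (nat_lit 5) (nat_lit 697) (nat_lit 5) (nat_lit 541) (nat_lit 537) (nat_lit 482)) (XT.lf (nat_lit 0) (nat_lit 970204574) (nat_lit 1140) (nat_lit 265397267) (nat_lit 1216) (nat_lit 5932626276) (nat_lit 667) (nat_lit 5) (nat_lit 682) (nat_lit 5) (nat_lit 683) (nat_lit 5) (nat_lit 542) (nat_lit 537) (nat_lit 481))) (XT.nd (nat_lit 78) (nat_lit 0) (nat_lit 0) (XT.lf (nat_lit 0) (nat_lit 2779133078) (nat_lit 1140) (nat_lit 3715242837) (nat_lit 1216) (nat_lit 713037503) (nat_lit 668) (nat_lit 5) (nat_lit 683) (nat_lit 5) (nat_lit 684)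 (nat_lit 5) (nat_lit 543) (nat_lit 537) (nat_lit 480)) (XT.lf (nat_lit 76) (nat_lit 47637234) (nat_lit 0) (nat_lit 4542542830) (nat_lit 1216) (nat_lit 2657885316) (nat_lit 669) (nat_lit 5) (nat_lit 668) (nat_lit 5) (nat_lit 684) (nat_lit 5) (nat_lit 544) (nat_lit 537) (nat_lit 479)))) (XT.nd (nat_lit 156) (nat_lit 0) (nat_lit 76) (XT.nd (nat_lit 78) (nat_lit 1216) (nat_lit 0) (XT.lf (nat_lit 76) (nat_lit 3910373159) (nat_lit 0) (nat_lit 2508363381) (nat_lit 1216) (nat_lit 871169786) (nat_lit 669) (nat_lit 5) (nat_lit 668) (nat_lit 5) (nat_lit 684) (nat_lit 5) (nat_lit 545) (nat_lit 537) (nat_lit 478)) (XT.lf (nat_lit 76) (nat_lit 492227273) (nat_lit 0) (nat_lit 406700471) (nat_lit 1292) (nat_lit 6434331994) (nat_lit 653) (nat_lit 5) (nat_lit 652) (nat_lit 5) (nat_lit 669) (nat_lit 5) (nat_lit 546) (nat_lit 537) (nat_lit 477))) (XT.nd (nat_lit 78) (nat_lit 0) (nat_lit 0) (XT.lf (nat_lit 0) (nat_lit 2684594137) (nat_lit 1216) (nat_lit 2933610452) (nat_lit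 1292) (nat_lit 1759325441) (nat_lit 653) (nat_lit 5) (nat_lit 669) (nat_lit 5) (nat_lit 670) (nat_lit 5) (nat_lit 547) (nat_lit 537) (nat_lit 476)) (XT.lf (nat_lit 76) (nat_lit 1036766019) (nat_lit 0) (nat_lit 3437176323) (nat_lit 1292) (nat_lit 2949385602) (nat_lit 654) (nat_lit 5) (nat_lit 653) (nat_lit 5) (nat_lit 670) (nat_lit 5) (nat_lit 548) (nat_lit 537) (nat_lit 475)))))) (XT.nd (nat_lit 624) (nat_lit 5928) (nat_lit 0) (XT.nd (nat_lit 312) (nat_lit 1292) (nat_lit 0) (XT.nd (nat_lit 156) (nat_lit 0) (nat_lit 0) (XT.nd (nat_lit 78) (nat_lit 1216) (nat_lit 0) (XT.lf (nat_lit 76) (nat_lit 5100389605) (nat_lit 0) (nat_lit 1177562247) (nat_lit 1292) (nat_lit 1192514034) (nat_lit 654) (nat_lit 5) (nat_lit 653) (nat_lit 5) (nat_lit 670) (nat_lit 5) (nat_lit 549) (nat_lit 537) (nat_lit 474)) (XT.lf (nat_lit 0) (nat_lit 570029784) (nat_lit 1292) (nat_lit 5807121170) (nat_lit 1368) (nat_lit 1141751335) (nat_lit 637) (nat_lit 5) (nat_lit 654) (nat_lit 5) (nat_lit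 655) (nat_lit 5) (nat_lit 550) (nat_lit 537) (nat_lit 473))) (XT.nd (nat_lit 78) (nat_lit 0) (nat_lit 0) (XT.lf (nat_lit 0) (nat_lit 2336114294) (nat_lit 1292) (nat_lit 1703056427) (nat_lit 1368) (nat_lit 3529295363) (nat_lit 637) (nat_lit 5) (nat_lit 654) (nat_lit 5) (nat_lit 655) (nat_lit 5) (nat_lit 551) (nat_lit 537) (nat_lit 472)) (XT.lf (nat_lit 76) (nat_lit 2489595440) (nat_lit 0) (nat_lit 1625299394) (nat_lit 1368) (nat_lit 3504580271) (nat_lit 638) (nat_lit 5) (nat_lit 637) (nat_lit 5) (nat_lit 655) (nat_lit 5) (nat_lit 552) (nat_lit 537) (nat_lit 471)))) (XT.nd (nat_lit 156) (nat_lit 0) (nat_lit 0) (XT.nd (nat_lit 78) (nat_lit 1368) (nat_lit 0) (XT.lf (nat_lit 0) (nat_lit 5908070005) (nat_lit 1292) (nat_lit 914417464) (nat_lit 1368) (nat_lit 849441865) (nat_lit 638) (nat_lit 5) (nat_lit 655) (nat_lit 5) (nat_lit 656) (nat_lit 5) (nat_lit 553) (nat_lit 537) (nat_lit 470)) (XT.lf (nat_lit 0) (nat_lit 6912023) (nat_lit 1368) (nat_lit 4332776097)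 (nat_lit 1444) (nat_lit 3385836585) (nat_lit 620) (nat_lit 5) (nat_lit 638) (nat_lit 5) (nat_lit 639) (nat_lit 5) (nat_lit 554) (nat_lit 537) (nat_lit 469))) (XT.nd (nat_lit 78) (nat_lit 0) (nat_lit 76) (XT.lf (nat_lit 0) (nat_lit 1758626716) (nat_lit 1368) (nat_lit 19951208) (nat_lit 1444) (nat_lit 6001999283) (nat_lit 620) (nat_lit 5) (nat_lit 638) (nat_lit 5) (nat_lit 639) (nat_lit 5) (nat_lit 555) (nat_lit 537) (nat_lit 468)) (XT.lf (nat_lit 0) (nat_lit 3543357093) (nat_lit 1368) (nat_lit 3431666915) (nat_lit 1444) (nat_lit 861748424) (nat_lit 621) (nat_lit 5) (nat_lit 639) (nat_lit 5) (nat_lit 640) (nat_lit 5) (nat_lit 556) (nat_lit 537) (nat_lit 467))))) (XT.nd (nat_lit 312) (nat_lit 4636) (nat_lit 0) (XT.nd (nat_lit 156) (nat_lit 1368) (nat_lit 0) (XT.nd (nat_lit 78) (nat_lit 0) (nat_lit 0) (XT.lf (nat_lit 76) (nat_lit 999472881) (nat_lit 0) (nat_lit 4346993478) (nat_lit 1444) (nat_lit 2547972796) (nat_lit 622) (nat_lit 5) (nat_lit 621) (nat_lit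 5) (nat_lit 640) (nat_lit 5) (nat_lit 557) (nat_lit 537) (nat_lit 466)) (XT.lf (nat_lit 76) (nat_lit 5539227513) (nat_lit 0) (nat_lit 1634248339) (nat_lit 1444) (nat_lit 780027849) (nat_lit 622) (nat_lit 5) (nat_lit 621) (nat_lit 5) (nat_lit 640) (nat_lit 5) (nat_lit 558) (nat_lit 537) (nat_lit 465))) (XT.nd (nat_lit 78) (nat_lit 0) (nat_lit 0) (XT.lf (nat_lit 0) (nat_lit 996636879) (nat_lit 1444) (nat_lit 5870449248) (nat_lit 76) (nat_lit 1146796110) (nat_lit 603) (nat_lit 5) (nat_lit 622) (nat_lit 5) (nat_lit 604) (nat_lit 5) (nat_lit 559) (nat_lit 537) (nat_lit 464)) (XT.lf (nat_lit 0) (nat_lit 2791363077) (nat_lit 1444) (nat_lit 1293248356) (nat_lit 76) (nat_lit 3990895516) (nat_lit 603) (nat_lit 5) (nat_lit 622) (nat_lit 5) (nat_lit 604) (nat_lit 5) (nat_lit 560) (nat_lit 537) (nat_lit 463)))) (XT.nd (nat_lit 156) (nat_lit 3192) (nat_lit 0) (XT.nd (nat_lit 78) (nat_lit 0) (nat_lit 0) (XT.lf (nat_lit 0) (nat_lit 3393502301) (nat_lit 1444) (nat_lit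 1217016122) (nat_lit 1520) (nat_lit 3528076196) (nat_lit 584) (nat_lit 5) (nat_lit 603) (nat_lit 5) (nat_lit 604) (nat_lit 5) (nat_lit 561) (nat_lit 537) (nat_lit 462)) (XT.lf (nat_lit 0) (nat_lit 6452912814) (nat_lit 1520) (nat_lit 49429764) (nat_lit 76) (nat_lit 1700865478) (nat_lit 584) (nat_lit 5) (nat_lit 604) (nat_lit 5) (nat_lit 585) (nat_lit 5) (nat_lit 562) (nat_lit 537) (nat_lit 461))) (XT.nd (nat_lit 78) (nat_lit 1596) (nat_lit 0) (XT.lf (nat_lit 0) (nat_lit 68952797) (nat_lit 1596) (nat_lit 3501314594) (nat_lit 76) (nat_lit 4698704508) (nat_lit 563) (nat_lit 5) (nat_lit 584) (nat_lit 5) (nat_lit 564) (nat_lit 5) (nat_lit 563) (nat_lit 537) (nat_lit 460)) (XT.lf (nat_lit 0) (nat_lit 1324738389) (nat_lit 1596) (nat_lit 553296135) (nat_lit 1672) (nat_lit 6458248470) (nat_lit 542) (nat_lit 5) (nat_lit 563) (nat_lit 5) (nat_lit 564) (nat_lit 5) (nat_lit 564) (nat_lit 537) (nat_lit 459))))))) (XT.nd (nat_lit 1170) (nat_lit 7524) (nat_lit 0) (XT.nd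 (nat_lit 546) (nat_lit 4560) (nat_lit 0) (XT.nd (nat_lit 234) (nat_lit 4788) (nat_lit 0) (XT.nd (nat_lit 78) (nat_lit 1672) (nat_lit 0) (XT.lf (nat_lit 0) (nat_lit 3731754022) (nat_lit 1672) (nat_lit 2153483953) (nat_lit 76) (nat_lit 2519534260) (nat_lit 542) (nat_lit 5) (nat_lit 564) (nat_lit 5) (nat_lit 543) (nat_lit 5) (nat_lit 565) (nat_lit 537) (nat_lit 458)) (XT.nd (nat_lit 78) (nat_lit 0) (nat_lit 0) (XT.lf (nat_lit 0) (nat_lit 2808193813) (nat_lit 1672) (nat_lit 2805287531) (nat_lit 1748) (nat_lit 2861332274) (nat_lit 520) (nat_lit 5) (nat_lit 542) (nat_lit 5) (nat_lit 543) (nat_lit 5) (nat_lit 566) (nat_lit 537) (nat_lit 457)) (XT.lf (nat_lit 0) (nat_lit 7519070510) (nat_lit 1748) (nat_lit 677121214) (nat_lit 76) (nat_lit 350340566) (nat_lit 520) (nat_lit 5) (nat_lit 543) (nat_lit 5) (nat_lit 521) (nat_lit 5) (nat_lit 567) (nat_lit 537) (nat_lit 456)))) (XT.nd (nat_lit 156) (nat_lit 1140) (nat_lit 0) (XT.nd (nat_lit 78) (nat_lit 1824) (nat_lit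 0) (XT.lf (nat_lit 0) (nat_lit 849546617) (nat_lit 1824) (nat_lit 4199942482) (nat_lit 76) (nat_lit 3569737371) (nat_lit 496) (nat_lit 5) (nat_lit 520) (nat_lit 5) (nat_lit 497) (nat_lit 5) (nat_lit 568) (nat_lit 537) (nat_lit 455)) (XT.lf (nat_lit 0) (nat_lit 911776763) (nat_lit 1824) (nat_lit 1819381090) (nat_lit 1900) (nat_lit 5962465391) (nat_lit 472) (nat_lit 5) (nat_lit 496) (nat_lit 5) (nat_lit 497) (nat_lit 5) (nat_lit 569) (nat_lit 537) (nat_lit 454))) (XT.nd (nat_lit 78) (nat_lit 1140) (nat_lit 0) (XT.lf (nat_lit 0) (nat_lit 4659090025) (nat_lit 1900) (nat_lit 2623333716) (nat_lit 76) (nat_lit 1486911367) (nat_lit 472) (nat_lit 5) (nat_lit 497) (nat_lit 5) (nat_lit 473) (nat_lit 5) (nat_lit 570) (nat_lit 537) (nat_lit 453)) (XT.lf (nat_lit 0) (nat_lit 2634096389) (nat_lit 1140) (nat_lit 3991948796) (nat_lit 1216) (nat_lit 2220507650) (nat_lit 457) (nat_lit 5) (nat_lit 472) (nat_lit 5) (nat_lit 473) (nat_lit 5) (nat_lit 571) (nat_lit 537) (nat_lit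 452))))) (XT.nd (nat_lit 312) (nat_lit 2660) (nat_lit 0) (XT.nd (nat_lit 156) (nat_lit 912) (nat_lit 0) (XT.nd (nat_lit 78) (nat_lit 988) (nat_lit 0) (XT.lf (nat_lit 0) (nat_lit 8005660385) (nat_lit 1140) (nat_lit 615986120) (nat_lit 1216) (nat_lit 303883162) (nat_lit 457) (nat_lit 5) (nat_lit 472) (nat_lit 5) (nat_lit 473) (nat_lit 5) (nat_lit 572) (nat_lit 537) (nat_lit 451)) (XT.lf (nat_lit 0) (nat_lit 1649345168) (nat_lit 988) (nat_lit 4524030519) (nat_lit 76) (nat_lit 2832098301) (nat_lit 444) (nat_lit 5) (nat_lit 457) (nat_lit 5) (nat_lit 445) (nat_lit 5) (nat_lit 573) (nat_lit 537) (nat_lit 450))) (XT.nd (nat_lit 78) (nat_lit 0) (nat_lit 0) (XT.lf (nat_lit 0) (nat_lit 895153161) (nat_lit 912) (nat_lit 2730983631) (nat_lit 988) (nat_lit 5461069718) (nat_lit 432) (nat_lit 5) (nat_lit 444) (nat_lit 5) (nat_lit 445) (nat_lit 5) (nat_lit 574) (nat_lit 537) (nat_lit 449)) (XT.lf (nat_lit 0) (nat_lit 5650919372) (nat_lit 988) (nat_lit 2718371980) (nat_lit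 76) (nat_lit 801114052) (nat_lit 432) (nat_lit 5) (nat_lit 445) (nat_lit 5) (nat_lit 433) (nat_lit 5) (nat_lit 575) (nat_lit 537) (nat_lit 448)))) (XT.nd (nat_lit 156) (nat_lit 1748) (nat_lit 0) (XT.nd (nat_lit 78) (nat_lit 76) (nat_lit 0) (XT.lf (nat_lit 0) (nat_lit 2857523557) (nat_lit 836) (nat_lit 4868675230) (nat_lit 912) (nat_lit 1528870276) (nat_lit 421) (nat_lit 5) (nat_lit 432) (nat_lit 5) (nat_lit 433) (nat_lit 5) (nat_lit 576) (nat_lit 537) (nat_lit 447)) (XT.lf (nat_lit 0) (nat_lit 486880091) (nat_lit 912) (nat_lit 789480684) (nat_lit 76) (nat_lit 8065162862) (nat_lit 420) (nat_lit 5) (nat_lit 432) (nat_lit 5) (nat_lit 421) (nat_lit 5) (nat_lit 577) (nat_lit 537) (nat_lit 446))) (XT.nd (nat_lit 78) (nat_lit 836) (nat_lit 0) (XT.lf (nat_lit 0) (nat_lit 2544530317) (nat_lit 988) (nat_lit 4485799700) (nat_lit 76) (nat_lit 2398734803) (nat_lit 408) (nat_lit 5) (nat_lit 421) (nat_lit 5) (nat_lit 409) (nat_lit 5) (nat_lit 578) (nat_lit 537) (nat_lit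 445)) (XT.lf (nat_lit 0) (nat_lit 1264576038) (nat_lit 836) (nat_lit 3375145929) (nat_lit 912) (nat_lit 4878707839) (nat_lit 397) (nat_lit 5) (nat_lit 408) (nat_lit 5) (nat_lit 409) (nat_lit 5) (nat_lit 579) (nat_lit 537) (nat_lit 444)))))) (XT.nd (nat_lit 624) (nat_lit 3496) (nat_lit 0) (XT.nd (nat_lit 312) (nat_lit 2356) (nat_lit 0) (XT.nd (nat_lit 156) (nat_lit 836) (nat_lit 0) (XT.nd (nat_lit 78) (nat_lit 836) (nat_lit 0) (XT.lf (nat_lit 0) (nat_lit 6784126631) (nat_lit 912) (nat_lit 2447667969) (nat_lit 76) (nat_lit 377642040) (nat_lit 397) (nat_lit 5) (nat_lit 409) (nat_lit 5) (nat_lit 398) (nat_lit 5) (nat_lit 580) (nat_lit 537) (nat_lit 443)) (XT.lf (nat_lit 0) (nat_lit 3471384848) (nat_lit 836) (nat_lit 5520135737) (nat_lit 912) (nat_lit 710341721) (nat_lit 386) (nat_lit 5) (nat_lit 397) (nat_lit 5) (nat_lit 398) (nat_lit 5) (nat_lit 581) (nat_lit 537) (nat_lit 442))) (XT.nd (nat_lit 78) (nat_lit 760) (nat_lit 0) (XT.lf (nat_lit 0) (nat_lit 1419846664)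 (nat_lit 912) (nat_lit 289900426) (nat_lit 76) (nat_lit 8086364250) (nat_lit 385) (nat_lit 5) (nat_lit 397) (nat_lit 5) (nat_lit 386) (nat_lit 5) (nat_lit 582) (nat_lit 537) (nat_lit 441)) (XT.lf (nat_lit 0) (nat_lit 3611139858) (nat_lit 836) (nat_lit 4091299258) (nat_lit 76) (nat_lit 2189152758) (nat_lit 375) (nat_lit 5) (nat_lit 386) (nat_lit 5) (nat_lit 376) (nat_lit 5) (nat_lit 583) (nat_lit 537) (nat_lit 440)))) (XT.nd (nat_lit 156) (nat_lit 1596) (nat_lit 0) (XT.nd (nat_lit 78) (nat_lit 0) (nat_lit 0) (XT.lf (nat_lit 0) (nat_lit 2016022554) (nat_lit 760) (nat_lit 3832745582) (nat_lit 836) (nat_lit 4140164362) (nat_lit 365) (nat_lit 5) (nat_lit 375) (nat_lit 5) (nat_lit 376) (nat_lit 5) (nat_lit 584) (nat_lit 537) (nat_lit 439)) (XT.lf (nat_lit 0) (nat_lit 8135947559) (nat_lit 836) (nat_lit 1814285404) (nat_lit 76) (nat_lit 137891649) (nat_lit 365) (nat_lit 5) (nat_lit 376) (nat_lit 5) (nat_lit 366) (nat_lit 5) (nat_lit 585) (nat_lit 537) (nat_lit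 438))) (XT.nd (nat_lit 78) (nat_lit 760) (nat_lit 0) (XT.lf (nat_lit 0) (nat_lit 307427253) (nat_lit 836) (nat_lit 5715999194) (nat_lit 76) (nat_lit 4165207969) (nat_lit 354) (nat_lit 5) (nat_lit 365) (nat_lit 5) (nat_lit 355) (nat_lit 5) (nat_lit 586) (nat_lit 537) (nat_lit 437)) (XT.lf (nat_lit 0) (nat_lit 587419922) (nat_lit 760) (nat_lit 1991772841) (nat_lit 836) (nat_lit 7711842012) (nat_lit 344) (nat_lit 5) (nat_lit 354) (nat_lit 5) (nat_lit 355) (nat_lit 5) (nat_lit 587) (nat_lit 537) (nat_lit 436))))) (XT.nd (nat_lit 312) (nat_lit 2052) (nat_lit 0) (XT.nd (nat_lit 156) (nat_lit 760) (nat_lit 0) (XT.nd (nat_lit 78) (nat_lit 684) (nat_lit 0) (XT.lf (nat_lit 0) (nat_lit 4926047175) (nat_lit 836) (nat_lit 3340860258) (nat_lit 76) (nat_lit 2127983238) (nat_lit 344) (nat_lit 5) (nat_lit 355) (nat_lit 5) (nat_lit 345) (nat_lit 5) (nat_lit 588) (nat_lit 537) (nat_lit 435)) (XT.lf (nat_lit 0) (nat_lit 3151296790) (nat_lit 684) (nat_lit 4179912766) (nat_lit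 760) (nat_lit 3169387300) (nat_lit 335) (nat_lit 5) (nat_lit 344) (nat_lit 5) (nat_lit 345) (nat_lit 5) (nat_lit 589) (nat_lit 537) (nat_lit 434))) (XT.nd (nat_lit 78) (nat_lit 760) (nat_lit 0) (XT.lf (nat_lit 0) (nat_lit 9784934510) (nat_lit 760) (nat_lit 815698431) (nat_lit 76) (nat_lit 7775615) (nat_lit 335) (nat_lit 5) (nat_lit 345) (nat_lit 5) (nat_lit 336) (nat_lit 5) (nat_lit 590) (nat_lit 537) (nat_lit 433)) (XT.lf (nat_lit 0) (nat_lit 1593271487) (nat_lit 760) (nat_lit 4855789074) (nat_lit 76) (nat_lit 4268222771) (nat_lit 325) (nat_lit 5) (nat_lit 335) (nat_lit 5) (nat_lit 326) (nat_lit 5) (nat_lit 591) (nat_lit 537) (nat_lit 432)))) (XT.nd (nat_lit 156) (nat_lit 1368) (nat_lit 0) (XT.nd (nat_lit 78) (nat_lit 0) (nat_lit 0) (XT.lf (nat_lit 0) (nat_lit 1847969010) (nat_lit 684) (nat_lit 2195387516) (nat_lit 760) (nat_lit 6784950140) (nat_lit 316) (nat_lit 5) (nat_lit 325) (nat_lit 5) (nat_lit 326) (nat_lit 5) (nat_lit 592) (nat_lit 537) (nat_lit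 431)) (XT.lf (nat_lit 0) (nat_lit 6567898274) (nat_lit 760) (nat_lit 2229472706) (nat_lit 76) (nat_lit 2143670919) (nat_lit 316) (nat_lit 5) (nat_lit 326) (nat_lit 5) (nat_lit 317) (nat_lit 5) (nat_lit 593) (nat_lit 537) (nat_lit 430))) (XT.nd (nat_lit 78) (nat_lit 684) (nat_lit 0) (XT.lf (nat_lit 0) (nat_lit 4677664262) (nat_lit 684) (nat_lit 4489331189) (nat_lit 760) (nat_lit 1888555619) (nat_lit 307) (nat_lit 5) (nat_lit 316) (nat_lit 5) (nat_lit 317) (nat_lit 5) (nat_lit 594) (nat_lit 537) (nat_lit 429)) (XT.lf (nat_lit 0) (nat_lit 558484254) (nat_lit 608) (nat_lit 76719233) (nat_lit 684) (nat_lit 10537104628) (nat_lit 298) (nat_lit 5) (nat_lit 306) (nat_lit 5) (nat_lit 307) (nat_lit 5) (nat_lit 595) (nat_lit 537) (nat_lit 428))))))))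
noncomputable def xc100 : XT := (XT.nd (nat_lit 2418) (nat_lit 3952) (nat_lit 0) (XT.nd (nat_lit 1170) (nat_lit 4484) (nat_lit 0) (XT.nd (nat_lit 546) (nat_lit 2812) (nat_lit 0) (XT.nd (nat_lit 234) (nat_lit 1824) (nat_lit 0) (XT.nd (nat_lit 78) (nat_lit 608) (nat_lit 0) (XT.lf (nat_lit 0) (nat_lit 3235451278) (nat_lit 684) (nat_lit 3637894386) (nat_lit 76) (nat_lit 4416779438) (nat_lit 298) (nat_lit 5) (nat_lit 307) (nat_lit 5) (nat_lit 299) (nat_lit 5) (nat_lit 596) (nat_lit 537) (nat_lit 427)) (XT.nd (nat_lit 78) (nat_lit 0) (nat_lit 0) (XT.lf (nat_lit 0) (nat_lit 3497552094) (nat_lit 608) (nat_lit 2393241691) (nat_lit 684) (nat_lit 5519443332) (nat_lit 290) (nat_lit 5) (nat_lit 298) (nat_lit 5) (nat_lit 299) (nat_lit 5) (nat_lit 597) (nat_lit 537) (nat_lit 426)) (XT.lf (nat_lit 0) (nat_lit 8618017926) (nat_lit 684) (nat_lit 747097357) (nat_lit 76) (nat_lit 2167261068) (nat_lit 290) (nat_lit 5) (nat_lit 299) (nat_lit 5) (nat_lit 291) (nat_lit 5) (nat_lit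 598) (nat_lit 537) (nat_lit 425)))) (XT.nd (nat_lit 156) (nat_lit 532) (nat_lit 0) (XT.nd (nat_lit 78) (nat_lit 684) (nat_lit 0) (XT.lf (nat_lit 0) (nat_lit 6607551589) (nat_lit 608) (nat_lit 4831445514) (nat_lit 684) (nat_lit 217177520) (nat_lit 282) (nat_lit 5) (nat_lit 290) (nat_lit 5) (nat_lit 291) (nat_lit 5) (nat_lit 599) (nat_lit 537) (nat_lit 424)) (XT.lf (nat_lit 0) (nat_lit 2325937419) (nat_lit 608) (nat_lit 175478326) (nat_lit 684) (nat_lit 9280690482) (nat_lit 273) (nat_lit 5) (nat_lit 281) (nat_lit 5) (nat_lit 282) (nat_lit 5) (nat_lit 600) (nat_lit 537) (nat_lit 423))) (XT.nd (nat_lit 78) (nat_lit 532) (nat_lit 0) (XT.lf (nat_lit 0) (nat_lit 5316009180) (nat_lit 684) (nat_lit 2050148420) (nat_lit 76) (nat_lit 4543479864) (nat_lit 273) (nat_lit 5) (nat_lit 282) (nat_lit 5) (nat_lit 274) (nat_lit 5) (nat_lit 601) (nat_lit 537) (nat_lit 422)) (XT.lf (nat_lit 0) (nat_lit 5550790165) (nat_lit 532) (nat_lit 2654418986) (nat_lit 608) (nat_lit 3834144312)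 (nat_lit 266) (nat_lit 5) (nat_lit 273) (nat_lit 5) (nat_lit 274) (nat_lit 5) (nat_lit 602) (nat_lit 537) (nat_lit 421))))) (XT.nd (nat_lit 312) (nat_lit 1596) (nat_lit 0) (XT.nd (nat_lit 156) (nat_lit 532) (nat_lit 0) (XT.nd (nat_lit 78) (nat_lit 76) (nat_lit 0) (XT.lf (nat_lit 0) (nat_lit 1135975999) (nat_lit 608) (nat_lit 10032694948) (nat_lit 684) (nat_lit 1002663699) (nat_lit 258) (nat_lit 5) (nat_lit 266) (nat_lit 5) (nat_lit 267) (nat_lit 5) (nat_lit 603) (nat_lit 537) (nat_lit 420)) (XT.lf (nat_lit 0) (nat_lit 1903494492) (nat_lit 684) (nat_lit 3359327989) (nat_lit 76) (nat_lit 7042033027) (nat_lit 257) (nat_lit 5) (nat_lit 266) (nat_lit 5) (nat_lit 258) (nat_lit 5) (nat_lit 604) (nat_lit 537) (nat_lit 419))) (XT.nd (nat_lit 78) (nat_lit 0) (nat_lit 0) (XT.lf (nat_lit 0) (nat_lit 4497972117) (nat_lit 532) (nat_lit 367326758) (nat_lit 608) (nat_lit 7575396780) (nat_lit 250) (nat_lit 5) (nat_lit 257) (nat_lit 5) (nat_lit 258) (nat_lit 5) (nat_lit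 605) (nat_lit 537) (nat_lit 418)) (XT.lf (nat_lit 0) (nat_lit 7920957525) (nat_lit 608) (nat_lit 75793050) (nat_lit 76) (nat_lit 4581810058) (nat_lit 250) (nat_lit 5) (nat_lit 258) (nat_lit 5) (nat_lit 251) (nat_lit 5) (nat_lit 606) (nat_lit 537) (nat_lit 417)))) (XT.nd (nat_lit 156) (nat_lit 532) (nat_lit 0) (XT.nd (nat_lit 78) (nat_lit 532) (nat_lit 0) (XT.lf (nat_lit 0) (nat_lit 8027043819) (nat_lit 532) (nat_lit 3047480591) (nat_lit 608) (nat_lit 1643922979) (nat_lit 243) (nat_lit 5) (nat_lit 250) (nat_lit 5) (nat_lit 251) (nat_lit 5) (nat_lit 607) (nat_lit 537) (nat_lit 416)) (XT.lf (nat_lit 0) (nat_lit 1429624613) (nat_lit 532) (nat_lit 9430638710) (nat_lit 76) (nat_lit 2000316251) (nat_lit 236) (nat_lit 5) (nat_lit 243) (nat_lit 5) (nat_lit 237) (nat_lit 5) (nat_lit 608) (nat_lit 537) (nat_lit 415))) (XT.nd (nat_lit 78) (nat_lit 532) (nat_lit 0) (XT.lf (nat_lit 0) (nat_lit 4576990371) (nat_lit 532) (nat_lit 1283394532) (nat_lit 76) (nat_lit 7144265344)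 (nat_lit 236) (nat_lit 5) (nat_lit 243) (nat_lit 5) (nat_lit 237) (nat_lit 5) (nat_lit 609) (nat_lit 537) (nat_lit 414)) (XT.lf (nat_lit 0) (nat_lit 7095840320) (nat_lit 532) (nat_lit 720344320) (nat_lit 608) (nat_lit 5334840424) (nat_lit 229) (nat_lit 5) (nat_lit 236) (nat_lit 5) (nat_lit 237) (nat_lit 5) (nat_lit 610) (nat_lit 537) (nat_lit 413)))))) (XT.nd (nat_lit 624) (nat_lit 2128) (nat_lit 0) (XT.nd (nat_lit 312) (nat_lit 912) (nat_lit 0) (XT.nd (nat_lit 156) (nat_lit 912) (nat_lit 0) (XT.nd (nat_lit 78) (nat_lit 76) (nat_lit 0) (XT.lf (nat_lit 0) (nat_lit 2336975830) (nat_lit 456) (nat_lit 8819340449) (nat_lit 532) (nat_lit 2143288374) (nat_lit 223) (nat_lit 5) (nat_lit 229) (nat_lit 5) (nat_lit 230) (nat_lit 5) (nat_lit 611) (nat_lit 537) (nat_lit 412)) (XT.lf (nat_lit 0) (nat_lit 1126196881) (nat_lit 532) (nat_lit 2507766542) (nat_lit 76) (nat_lit 9816474581) (nat_lit 222) (nat_lit 5) (nat_lit 229) (nat_lit 5) (nat_lit 223) (nat_lit 5) (nat_lit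 612) (nat_lit 537) (nat_lit 411))) (XT.nd (nat_lit 78) (nat_lit 456) (nat_lit 0) (XT.lf (nat_lit 0) (nat_lit 4466794909) (nat_lit 532) (nat_lit 7455568494) (nat_lit 76) (nat_lit 1680953170) (nat_lit 216) (nat_lit 5) (nat_lit 223) (nat_lit 5) (nat_lit 217) (nat_lit 5) (nat_lit 613) (nat_lit 537) (nat_lit 410)) (XT.lf (nat_lit 0) (nat_lit 1219390264) (nat_lit 456) (nat_lit 6687212230) (nat_lit 532) (nat_lit 5852002586) (nat_lit 210) (nat_lit 5) (nat_lit 216) (nat_lit 5) (nat_lit 217) (nat_lit 5) (nat_lit 614) (nat_lit 537) (nat_lit 409)))) (XT.nd (nat_lit 156) (nat_lit 380) (nat_lit 0) (XT.nd (nat_lit 78) (nat_lit 532) (nat_lit 0) (XT.lf (nat_lit 0) (nat_lit 10145192352) (nat_lit 456) (nat_lit 1303689346) (nat_lit 532) (nat_lit 2467444463) (nat_lit 210) (nat_lit 5) (nat_lit 216) (nat_lit 5) (nat_lit 217) (nat_lit 5) (nat_lit 615) (nat_lit 537) (nat_lit 408)) (XT.lf (nat_lit 0) (nat_lit 1016986577) (nat_lit 532) (nat_lit 8893339713) (nat_lit 76) (nat_lit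 4165845841) (nat_lit 203) (nat_lit 5) (nat_lit 210) (nat_lit 5) (nat_lit 204) (nat_lit 5) (nat_lit 616) (nat_lit 537) (nat_lit 407))) (XT.nd (nat_lit 78) (nat_lit 0) (nat_lit 0) (XT.lf (nat_lit 0) (nat_lit 80617544) (nat_lit 380) (nat_lit 4476087873) (nat_lit 456) (nat_lit 9681810936) (nat_lit 198) (nat_lit 5) (nat_lit 203) (nat_lit 5) (nat_lit 204) (nat_lit 5) (nat_lit 617) (nat_lit 537) (nat_lit 406)) (XT.lf (nat_lit 0) (nat_lit 8218308740) (nat_lit 456) (nat_lit 5079328981) (nat_lit 76) (nat_lit 1105448226) (nat_lit 198) (nat_lit 5) (nat_lit 204) (nat_lit 5) (nat_lit 199) (nat_lit 5) (nat_lit 618) (nat_lit 537) (nat_lit 405))))) (XT.nd (nat_lit 312) (nat_lit 836) (nat_lit 0) (XT.nd (nat_lit 156) (nat_lit 760) (nat_lit 0) (XT.nd (nat_lit 78) (nat_lit 76) (nat_lit 0) (XT.lf (nat_lit 0) (nat_lit 4182793264) (nat_lit 456) (nat_lit 7811552560) (nat_lit 532) (nat_lit 2575777358) (nat_lit 192) (nat_lit 5) (nat_lit 198) (nat_lit 5) (nat_lit 199) (nat_lit 5)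 (nat_lit 619) (nat_lit 537) (nat_lit 404)) (XT.lf (nat_lit 0) (nat_lit 1109670351) (nat_lit 532) (nat_lit 1071500705) (nat_lit 76) (nat_lit 12558811530) (nat_lit 191) (nat_lit 5) (nat_lit 198) (nat_lit 5) (nat_lit 192) (nat_lit 5) (nat_lit 620) (nat_lit 537) (nat_lit 403))) (XT.nd (nat_lit 78) (nat_lit 380) (nat_lit 0) (XT.lf (nat_lit 0) (nat_lit 4897886407) (nat_lit 456) (nat_lit 6433389777) (nat_lit 76) (nat_lit 3580351762) (nat_lit 186) (nat_lit 5) (nat_lit 192) (nat_lit 5) (nat_lit 187) (nat_lit 5) (nat_lit 621) (nat_lit 537) (nat_lit 402)) (XT.lf (nat_lit 0) (nat_lit 3150831134) (nat_lit 380) (nat_lit 5638037530) (nat_lit 456) (nat_lit 6297297773) (nat_lit 181) (nat_lit 5) (nat_lit 186) (nat_lit 5) (nat_lit 187) (nat_lit 5) (nat_lit 622) (nat_lit 537) (nat_lit 401)))) (XT.nd (nat_lit 156) (nat_lit 380) (nat_lit 0) (XT.nd (nat_lit 78) (nat_lit 456) (nat_lit 0) (XT.lf (nat_lit 0) (nat_lit 12787185695) (nat_lit 456) (nat_lit 2273805675) (nat_lit 76)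 (nat_lit 202614282) (nat_lit 181) (nat_lit 5) (nat_lit 187) (nat_lit 5) (nat_lit 182) (nat_lit 5) (nat_lit 623) (nat_lit 537) (nat_lit 400)) (XT.lf (nat_lit 0) (nat_lit 1474790934) (nat_lit 456) (nat_lit 7831868805) (nat_lit 76) (nat_lit 6136298643) (nat_lit 175) (nat_lit 5) (nat_lit 181) (nat_lit 5) (nat_lit 176) (nat_lit 5) (nat_lit 624) (nat_lit 537) (nat_lit 399))) (XT.nd (nat_lit 78) (nat_lit 0) (nat_lit 0) (XT.lf (nat_lit 0) (nat_lit 2087156049) (nat_lit 380) (nat_lit 3398953945) (nat_lit 456) (nat_lit 10139176167) (nat_lit 170) (nat_lit 5) (nat_lit 175) (nat_lit 5) (nat_lit 176) (nat_lit 5) (nat_lit 625) (nat_lit 537) (nat_lit 398)) (XT.lf (nat_lit 0) (nat_lit 9633007415) (nat_lit 456) (nat_lit 3539607623) (nat_lit 76) (nat_lit 2637538655) (nat_lit 170) (nat_lit 5) (nat_lit 176) (nat_lit 5) (nat_lit 171) (nat_lit 5) (nat_lit 626) (nat_lit 537) (nat_lit 397))))))) (XT.nd (nat_lit 1170) (nat_lit 304) (nat_lit 0) (XT.nd (nat_lit 546) (nat_lit 1748)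 (nat_lit 0) (XT.nd (nat_lit 234) (nat_lit 1064) (nat_lit 0) (XT.nd (nat_lit 78) (nat_lit 456) (nat_lit 0) (XT.lf (nat_lit 0) (nat_lit 6702000073) (nat_lit 380) (nat_lit 7212544943) (nat_lit 456) (nat_lit 2083139748) (nat_lit 165) (nat_lit 5) (nat_lit 170) (nat_lit 5) (nat_lit 171) (nat_lit 5) (nat_lit 627) (nat_lit 537) (nat_lit 396)) (XT.nd (nat_lit 78) (nat_lit 0) (nat_lit 0) (XT.lf (nat_lit 0) (nat_lit 984782643) (nat_lit 380) (nat_lit 1096543070) (nat_lit 456) (nat_lit 14107048704) (nat_lit 159) (nat_lit 5) (nat_lit 164) (nat_lit 5) (nat_lit 165) (nat_lit 5) (nat_lit 628) (nat_lit 537) (nat_lit 395)) (XT.lf (nat_lit 0) (nat_lit 6383194857) (nat_lit 456) (nat_lit 4854759187) (nat_lit 76) (nat_lit 5143008496) (nat_lit 159) (nat_lit 5) (nat_lit 165) (nat_lit 5) (nat_lit 160) (nat_lit 5) (nat_lit 629) (nat_lit 537) (nat_lit 394)))) (XT.nd (nat_lit 156) (nat_lit 760) (nat_lit 0) (XT.nd (nat_lit 78) (nat_lit 0) (nat_lit 0) (XT.lf (nat_lit 0) (nat_lit 5747201895)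 (nat_lit 304) (nat_lit 5054559988) (nat_lit 380) (nat_lit 5775027547) (nat_lit 155) (nat_lit 5) (nat_lit 159) (nat_lit 5) (nat_lit 160) (nat_lit 5) (nat_lit 630) (nat_lit 537) (nat_lit 393)) (XT.lf (nat_lit 0) (nat_lit 15335789098) (nat_lit 380) (nat_lit 179260518) (nat_lit 76) (nat_lit 1260941676) (nat_lit 155) (nat_lit 5) (nat_lit 160) (nat_lit 5) (nat_lit 156) (nat_lit 5) (nat_lit 631) (nat_lit 537) (nat_lit 392))) (XT.nd (nat_lit 78) (nat_lit 304) (nat_lit 0) (XT.lf (nat_lit 0) (nat_lit 3032649681) (nat_lit 456) (nat_lit 6227088463) (nat_lit 76) (nat_lit 7717243503) (nat_lit 149) (nat_lit 5) (nat_lit 155) (nat_lit 5) (nat_lit 150) (nat_lit 5) (nat_lit 632) (nat_lit 537) (nat_lit 391)) (XT.lf (nat_lit 0) (nat_lit 4749186058) (nat_lit 304) (nat_lit 2845023785) (nat_lit 380) (nat_lit 9587221060) (nat_lit 145) (nat_lit 5) (nat_lit 149) (nat_lit 5) (nat_lit 150) (nat_lit 5) (nat_lit 633) (nat_lit 537) (nat_lit 390))))) (XT.nd (nat_lit 312) (nat_lit 988)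 (nat_lit 0) (XT.nd (nat_lit 156) (nat_lit 380) (nat_lit 0) (XT.nd (nat_lit 78) (nat_lit 380) (nat_lit 0) (XT.lf (nat_lit 0) (nat_lit 12299619559) (nat_lit 380) (nat_lit 1405744020) (nat_lit 76) (nat_lit 3683553391) (nat_lit 145) (nat_lit 5) (nat_lit 150) (nat_lit 5) (nat_lit 146) (nat_lit 5) (nat_lit 634) (nat_lit 537) (nat_lit 389)) (XT.lf (nat_lit 0) (nat_lit 9931403624) (nat_lit 380) (nat_lit 7237864952) (nat_lit 456) (nat_lit 429881752) (nat_lit 140) (nat_lit 5) (nat_lit 145) (nat_lit 5) (nat_lit 146) (nat_lit 5) (nat_lit 635) (nat_lit 537) (nat_lit 388))) (XT.nd (nat_lit 78) (nat_lit 0) (nat_lit 0) (XT.lf (nat_lit 0) (nat_lit 3700018662) (nat_lit 304) (nat_lit 586372206) (nat_lit 380) (nat_lit 13526229111) (nat_lit 135) (nat_lit 5) (nat_lit 139) (nat_lit 5) (nat_lit 140) (nat_lit 5) (nat_lit 636) (nat_lit 537) (nat_lit 387)) (XT.lf (nat_lit 0) (nat_lit 9170186755) (nat_lit 380) (nat_lit 2695079145) (nat_lit 76) (nat_lit 6163457391) (nat_lit 135) (nat_lit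 5) (nat_lit 140) (nat_lit 5) (nat_lit 136) (nat_lit 5) (nat_lit 637) (nat_lit 537) (nat_lit 386)))) (XT.nd (nat_lit 156) (nat_lit 304) (nat_lit 0) (XT.nd (nat_lit 78) (nat_lit 380) (nat_lit 0) (XT.lf (nat_lit 0) (nat_lit 9044553990) (nat_lit 304) (nat_lit 5156878399) (nat_lit 380) (nat_lit 4046720982) (nat_lit 131) (nat_lit 5) (nat_lit 135) (nat_lit 5) (nat_lit 136) (nat_lit 5) (nat_lit 638) (nat_lit 537) (nat_lit 385)) (XT.lf (nat_lit 0) (nat_lit 883422609) (nat_lit 380) (nat_lit 15891412083) (nat_lit 76) (nat_lit 1696357917) (nat_lit 126) (nat_lit 5) (nat_lit 131) (nat_lit 5) (nat_lit 127) (nat_lit 5) (nat_lit 639) (nat_lit 537) (nat_lit 384))) (XT.nd (nat_lit 78) (nat_lit 304) (nat_lit 0) (XT.lf (nat_lit 0) (nat_lit 5941617249) (nat_lit 380) (nat_lit 4056304120) (nat_lit 76) (nat_lit 8698563779) (nat_lit 126) (nat_lit 5) (nat_lit 131) (nat_lit 5) (nat_lit 127) (nat_lit 5) (nat_lit 640) (nat_lit 537) (nat_lit 383)) (XT.lf (nat_lit 0) (nat_lit 8101094538)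 (nat_lit 304) (nat_lit 3039990291) (nat_lit 380) (nat_lit 7784396689) (nat_lit 122) (nat_lit 5) (nat_lit 126) (nat_lit 5) (nat_lit 127) (nat_lit 5) (nat_lit 641) (nat_lit 537) (nat_lit 382)))))) (XT.nd (nat_lit 73632) (nat_lit 0) (nat_lit 39368) (XT.nd (nat_lit 73320) (nat_lit 0) (nat_lit 41724) (XT.nd (nat_lit 73164) (nat_lit 0) (nat_lit 42788) (XT.nd (nat_lit 73086) (nat_lit 0) (nat_lit 42788) (XT.lf (nat_lit 0) (nat_lit 1368825090) (nat_lit 304) (nat_lit 15125915679) (nat_lit 380) (nat_lit 2663313226) (nat_lit 118) (nat_lit 5) (nat_lit 122) (nat_lit 5) (nat_lit 123) (nat_lit 5) (nat_lit 642) (nat_lit 537) (nat_lit 381)) (XT.lf (nat_lit 0) (nat_lit 1279033458) (nat_lit 1140) (nat_lit 1124771647) (nat_lit 1140) (nat_lit 1124771647) (nat_lit 681) (nat_lit 3) (nat_lit 696) (nat_lit 3) (nat_lit 696) (nat_lit 5) (nat_lit 538) (nat_lit 538) (nat_lit 484))) (XT.nd (nat_lit 78) (nat_lit 0) (nat_lit 0) (XT.lf (nat_lit 76) (nat_lit 1284108473) (nat_lit 0) (nat_lit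 3082025376) (nat_lit 1140) (nat_lit 2725869183) (nat_lit 682) (nat_lit 5) (nat_lit 681) (nat_lit 3) (nat_lit 696) (nat_lit 5) (nat_lit 539) (nat_lit 538) (nat_lit 483)) (XT.lf (nat_lit 76) (nat_lit 4894876413) (nat_lit 0) (nat_lit 1283888613) (nat_lit 1140) (nat_lit 949418360) (nat_lit 682) (nat_lit 5) (nat_lit 681) (nat_lit 3) (nat_lit 696) (nat_lit 5) (nat_lit 540) (nat_lit 538) (nat_lit 482)))) (XT.nd (nat_lit 156) (nat_lit 0) (nat_lit 0) (XT.nd (nat_lit 78) (nat_lit 0) (nat_lit 0) (XT.lf (nat_lit 0) (nat_lit 818077011) (nat_lit 1140) (nat_lit 5768170201) (nat_lit 1216) (nat_lit 579393386) (nat_lit 667) (nat_lit 5) (nat_lit 682) (nat_lit 5) (nat_lit 683) (nat_lit 5) (nat_lit 541) (nat_lit 538) (nat_lit 481)) (XT.lf (nat_lit 0) (nat_lit 2586613616) (nat_lit 1140) (nat_lit 2112380499) (nat_lit 1216) (nat_lit 2505161032) (nat_lit 667) (nat_lit 5) (nat_lit 682) (nat_lit 5) (nat_lit 683) (nat_lit 5) (nat_lit 542) (nat_lit 538) (nat_lit 480))) (XT.nd (nat_lit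 78) (nat_lit 0) (nat_lit 0) (XT.lf (nat_lit 76) (nat_lit 1613092467) (nat_lit 0) (nat_lit 2743591620) (nat_lit 1216) (nat_lit 2887434390) (nat_lit 668) (nat_lit 5) (nat_lit 667) (nat_lit 5) (nat_lit 683) (nat_lit 5) (nat_lit 543) (nat_lit 538) (nat_lit 479)) (XT.lf (nat_lit 76) (nat_lit 5417282009) (nat_lit 0) (nat_lit 715449244) (nat_lit 1216) (nat_lit 1152740032) (nat_lit 668) (nat_lit 5) (nat_lit 667) (nat_lit 5) (nat_lit 683) (nat_lit 5) (nat_lit 544) (nat_lit 538) (nat_lit 478))))) (XT.nd (nat_lit 312) (nat_lit 1216) (nat_lit 0) (XT.nd (nat_lit 156) (nat_lit 0) (nat_lit 0) (XT.nd (nat_lit 78) (nat_lit 0) (nat_lit 0) (XT.lf (nat_lit 0) (nat_lit 587320753) (nat_lit 1216) (nat_lit 5370016267) (nat_lit 1292) (nat_lit 1370660506) (nat_lit 652) (nat_lit 5) (nat_lit 668) (nat_lit 5) (nat_lit 669) (nat_lit 5) (nat_lit 545) (nat_lit 538) (nat_lit 477)) (XT.lf (nat_lit 0) (nat_lit 2321892209) (nat_lit 1216) (nat_lit 1522904933) (nat_lit 1292) (nat_lit 3526923482)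 (nat_lit 652) (nat_lit 5) (nat_lit 668) (nat_lit 5) (nat_lit 669) (nat_lit 5) (nat_lit 546) (nat_lit 538) (nat_lit 476))) (XT.nd (nat_lit 78) (nat_lit 0) (nat_lit 76) (XT.lf (nat_lit 76) (nat_lit 2407900001) (nat_lit 0) (nat_lit 1657489348) (nat_lit 1292) (nat_lit 3351445738) (nat_lit 653) (nat_lit 5) (nat_lit 652) (nat_lit 5) (nat_lit 669) (nat_lit 5) (nat_lit 547) (nat_lit 538) (nat_lit 475)) (XT.lf (nat_lit 0) (nat_lit 5817124168) (nat_lit 1216) (nat_lit 1054060927) (nat_lit 1292) (nat_lit 592200945) (nat_lit 653) (nat_lit 5) (nat_lit 669) (nat_lit 5) (nat_lit 670) (nat_lit 5) (nat_lit 548) (nat_lit 538) (nat_lit 474)))) (XT.nd (nat_lit 156) (nat_lit 0) (nat_lit 76) (XT.nd (nat_lit 78) (nat_lit 0) (nat_lit 0) (XT.lf (nat_lit 0) (nat_lit 82238898) (nat_lit 1292) (nat_lit 4528629013) (nat_lit 1368) (nat_lit 2900180850) (nat_lit 636) (nat_lit 5) (nat_lit 653) (nat_lit 5) (nat_lit 654) (nat_lit 5) (nat_lit 549) (nat_lit 538) (nat_lit 473)) (XT.lf (nat_lit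 0) (nat_lit 1790918772) (nat_lit 1292) (nat_lit 482000170) (nat_lit 1368) (nat_lit 5287176573) (nat_lit 636) (nat_lit 5) (nat_lit 653) (nat_lit 5) (nat_lit 654) (nat_lit 5) (nat_lit 550) (nat_lit 538) (nat_lit 472))) (XT.nd (nat_lit 78) (nat_lit 0) (nat_lit 0) (XT.lf (nat_lit 0) (nat_lit 3519851077) (nat_lit 1292) (nat_lit 3942664993) (nat_lit 1368) (nat_lit 147886996) (nat_lit 637) (nat_lit 5) (nat_lit 654) (nat_lit 5) (nat_lit 655) (nat_lit 5) (nat_lit 551) (nat_lit 538) (nat_lit 471)) (XT.lf (nat_lit 76) (nat_lit 207365412) (nat_lit 0) (nat_lit 5057622127) (nat_lit 1368) (nat_lit 2397098127) (nat_lit 638) (nat_lit 5) (nat_lit 637) (nat_lit 5) (nat_lit 655) (nat_lit 5) (nat_lit 552) (nat_lit 538) (nat_lit 470))))))))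
noncomputable def xc101 : XT := (XT.nd (nat_lit 2418) (nat_lit 12084) (nat_lit 0) (XT.nd (nat_lit 1170) (nat_lit 11020) (nat_lit 0) (XT.nd (nat_lit 546) (nat_lit 6232) (nat_lit 0) (XT.nd (nat_lit 234) (nat_lit 1368) (nat_lit 0) (XT.nd (nat_lit 78) (nat_lit 1292) (nat_lit 0) (XT.lf (nat_lit 76) (nat_lit 4468375924) (nat_lit 0) (nat_lit 2565659321) (nat_lit 1368) (nat_lit 680987884) (nat_lit 638) (nat_lit 5) (nat_lit 637) (nat_lit 5) (nat_lit 655) (nat_lit 5) (nat_lit 553) (nat_lit 538) (nat_lit 469)) (XT.nd (nat_lit 78) (nat_lit 0) (nat_lit 0) (XT.lf (nat_lit 0) (nat_lit 1025135179) (nat_lit 1368) (nat_lit 6742846654) (nat_lit 1444) (nat_lit 1505633) (nat_lit 620) (nat_lit 5) (nat_lit 638) (nat_lit 5) (nat_lit 639) (nat_lit 5) (nat_lit 554) (nat_lit 538) (nat_lit 468)) (XT.lf (nat_lit 0) (nat_lit 2758866496) (nat_lit 1368) (nat_lit 2442938333) (nat_lit 1444) (nat_lit 2623095451) (nat_lit 620) (nat_lit 5) (nat_lit 638) (nat_lit 5) (nat_lit 639) (nat_lit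 5) (nat_lit 555) (nat_lit 538) (nat_lit 467)))) (XT.nd (nat_lit 156) (nat_lit 1368) (nat_lit 0) (XT.nd (nat_lit 78) (nat_lit 0) (nat_lit 76) (XT.lf (nat_lit 76) (nat_lit 1942869364) (nat_lit 0) (nat_lit 2561403335) (nat_lit 1444) (nat_lit 3377609924) (nat_lit 621) (nat_lit 5) (nat_lit 620) (nat_lit 5) (nat_lit 639) (nat_lit 5) (nat_lit 556) (nat_lit 538) (nat_lit 466)) (XT.lf (nat_lit 0) (nat_lit 6266926736) (nat_lit 1368) (nat_lit 1517310422) (nat_lit 1444) (nat_lit 156121909) (nat_lit 621) (nat_lit 5) (nat_lit 639) (nat_lit 5) (nat_lit 640) (nat_lit 5) (nat_lit 557) (nat_lit 538) (nat_lit 465))) (XT.nd (nat_lit 78) (nat_lit 0) (nat_lit 0) (XT.lf (nat_lit 0) (nat_lit 66031614) (nat_lit 1444) (nat_lit 5010993688) (nat_lit 1520) (nat_lit 2922931462) (nat_lit 602) (nat_lit 5) (nat_lit 621) (nat_lit 5) (nat_lit 622) (nat_lit 5) (nat_lit 558) (nat_lit 538) (nat_lit 464)) (XT.lf (nat_lit 0) (nat_lit 1794098955) (nat_lit 1444) (nat_lit 491711730) (nat_lit 1520)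 (nat_lit 5775191255) (nat_lit 602) (nat_lit 5) (nat_lit 621) (nat_lit 5) (nat_lit 622) (nat_lit 5) (nat_lit 559) (nat_lit 538) (nat_lit 463))))) (XT.nd (nat_lit 312) (nat_lit 3268) (nat_lit 0) (XT.nd (nat_lit 156) (nat_lit 1596) (nat_lit 0) (XT.nd (nat_lit 78) (nat_lit 1444) (nat_lit 0) (XT.lf (nat_lit 0) (nat_lit 3554144496) (nat_lit 1444) (nat_lit 3980368777) (nat_lit 76) (nat_lit 588807564) (nat_lit 603) (nat_lit 5) (nat_lit 622) (nat_lit 5) (nat_lit 604) (nat_lit 5) (nat_lit 560) (nat_lit 538) (nat_lit 462)) (XT.lf (nat_lit 0) (nat_lit 657638643) (nat_lit 1444) (nat_lit 4681640030) (nat_lit 1520) (nat_lit 2847810817) (nat_lit 584) (nat_lit 5) (nat_lit 603) (nat_lit 5) (nat_lit 604) (nat_lit 5) (nat_lit 561) (nat_lit 538) (nat_lit 461))) (XT.nd (nat_lit 78) (nat_lit 1596) (nat_lit 0) (XT.lf (nat_lit 0) (nat_lit 5416551061) (nat_lit 1444) (nat_lit 1737909800) (nat_lit 1520) (nat_lit 1097786860) (nat_lit 584) (nat_lit 5) (nat_lit 603) (nat_lit 5) (nat_lit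 604) (nat_lit 5) (nat_lit 562) (nat_lit 538) (nat_lit 460)) (XT.lf (nat_lit 0) (nat_lit 667290571) (nat_lit 1596) (nat_lit 6380091804) (nat_lit 76) (nat_lit 1271457244) (nat_lit 563) (nat_lit 5) (nat_lit 584) (nat_lit 5) (nat_lit 564) (nat_lit 5) (nat_lit 563) (nat_lit 538) (nat_lit 459)))) (XT.nd (nat_lit 156) (nat_lit 1672) (nat_lit 0) (XT.nd (nat_lit 78) (nat_lit 1596) (nat_lit 0) (XT.lf (nat_lit 0) (nat_lit 2452205451) (nat_lit 1596) (nat_lit 1584397861) (nat_lit 76) (nat_lit 4350031257) (nat_lit 563) (nat_lit 5) (nat_lit 584) (nat_lit 5) (nat_lit 564) (nat_lit 5) (nat_lit 564) (nat_lit 538) (nat_lit 458)) (XT.lf (nat_lit 0) (nat_lit 3325104187) (nat_lit 1596) (nat_lit 938476901) (nat_lit 1672) (nat_lit 4192390108) (nat_lit 542) (nat_lit 5) (nat_lit 563) (nat_lit 5) (nat_lit 564) (nat_lit 5) (nat_lit 565) (nat_lit 538) (nat_lit 457))) (XT.nd (nat_lit 78) (nat_lit 1672) (nat_lit 0) (XT.lf (nat_lit 0) (nat_lit 6105954664) (nat_lit 1672) (nat_lit 212889426)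 (nat_lit 76) (nat_lit 2207956063) (nat_lit 542) (nat_lit 5) (nat_lit 564) (nat_lit 5) (nat_lit 543) (nat_lit 5) (nat_lit 566) (nat_lit 538) (nat_lit 456)) (XT.lf (nat_lit 0) (nat_lit 4834971473) (nat_lit 1672) (nat_lit 3158050071) (nat_lit 1748) (nat_lit 605868215) (nat_lit 520) (nat_lit 5) (nat_lit 542) (nat_lit 5) (nat_lit 543) (nat_lit 5) (nat_lit 567) (nat_lit 538) (nat_lit 455)))))) (XT.nd (nat_lit 624) (nat_lit 4332) (nat_lit 0) (XT.nd (nat_lit 312) (nat_lit 3040) (nat_lit 0) (XT.nd (nat_lit 156) (nat_lit 1824) (nat_lit 0) (XT.nd (nat_lit 78) (nat_lit 0) (nat_lit 0) (XT.lf (nat_lit 0) (nat_lit 1209968214) (nat_lit 1824) (nat_lit 7375920279) (nat_lit 76) (nat_lit 86754023) (nat_lit 496) (nat_lit 5) (nat_lit 520) (nat_lit 5) (nat_lit 497) (nat_lit 5) (nat_lit 568) (nat_lit 538) (nat_lit 454)) (XT.lf (nat_lit 0) (nat_lit 3071251578) (nat_lit 1824) (nat_lit 2289195004) (nat_lit 76) (nat_lit 3386999725) (nat_lit 496) (nat_lit 5) (nat_lit 520) (nat_lit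 5) (nat_lit 497) (nat_lit 5) (nat_lit 569) (nat_lit 538) (nat_lit 453))) (XT.nd (nat_lit 78) (nat_lit 0) (nat_lit 0) (XT.lf (nat_lit 0) (nat_lit 2911635295) (nat_lit 1824) (nat_lit 2048496068) (nat_lit 1900) (nat_lit 3863808308) (nat_lit 472) (nat_lit 5) (nat_lit 496) (nat_lit 5) (nat_lit 497) (nat_lit 5) (nat_lit 570) (nat_lit 538) (nat_lit 452)) (XT.lf (nat_lit 0) (nat_lit 6882761080) (nat_lit 1900) (nat_lit 689103970) (nat_lit 76) (nat_lit 1330179298) (nat_lit 472) (nat_lit 5) (nat_lit 497) (nat_lit 5) (nat_lit 473) (nat_lit 5) (nat_lit 571) (nat_lit 538) (nat_lit 451)))) (XT.nd (nat_lit 156) (nat_lit 912) (nat_lit 0) (XT.nd (nat_lit 78) (nat_lit 988) (nat_lit 0) (XT.lf (nat_lit 0) (nat_lit 4660404366) (nat_lit 1140) (nat_lit 4199690767) (nat_lit 1216) (nat_lit 121291827) (nat_lit 457) (nat_lit 5) (nat_lit 472) (nat_lit 5) (nat_lit 473) (nat_lit 5) (nat_lit 572) (nat_lit 538) (nat_lit 450)) (XT.lf (nat_lit 0) (nat_lit 1039938846) (nat_lit 912) (nat_lit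 734948802) (nat_lit 988) (nat_lit 7287513422) (nat_lit 444) (nat_lit 5) (nat_lit 456) (nat_lit 5) (nat_lit 457) (nat_lit 5) (nat_lit 573) (nat_lit 538) (nat_lit 449))) (XT.nd (nat_lit 78) (nat_lit 912) (nat_lit 0) (XT.lf (nat_lit 0) (nat_lit 3727728711) (nat_lit 988) (nat_lit 2623259877) (nat_lit 76) (nat_lit 2793624423) (nat_lit 444) (nat_lit 5) (nat_lit 457) (nat_lit 5) (nat_lit 445) (nat_lit 5) (nat_lit 574) (nat_lit 538) (nat_lit 448)) (XT.lf (nat_lit 0) (nat_lit 2891207139) (nat_lit 912) (nat_lit 2825586680) (nat_lit 988) (nat_lit 3511732838) (nat_lit 432) (nat_lit 5) (nat_lit 444) (nat_lit 5) (nat_lit 445) (nat_lit 5) (nat_lit 575) (nat_lit 538) (nat_lit 447))))) (XT.nd (nat_lit 312) (nat_lit 2508) (nat_lit 0) (XT.nd (nat_lit 156) (nat_lit 912) (nat_lit 0) (XT.nd (nat_lit 78) (nat_lit 912) (nat_lit 0) (XT.lf (nat_lit 0) (nat_lit 7742246281) (nat_lit 988) (nat_lit 793489913) (nat_lit 76) (nat_lit 778451052) (nat_lit 432) (nat_lit 5) (nat_lit 445)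 (nat_lit 5) (nat_lit 433) (nat_lit 5) (nat_lit 576) (nat_lit 538) (nat_lit 446)) (XT.lf (nat_lit 0) (nat_lit 426276149) (nat_lit 912) (nat_lit 4522968136) (nat_lit 76) (nat_lit 4451765469) (nat_lit 420) (nat_lit 5) (nat_lit 432) (nat_lit 5) (nat_lit 421) (nat_lit 5) (nat_lit 577) (nat_lit 538) (nat_lit 445))) (XT.nd (nat_lit 78) (nat_lit 0) (nat_lit 0) (XT.lf (nat_lit 0) (nat_lit 1163323479) (nat_lit 912) (nat_lit 1267583943) (nat_lit 988) (nat_lit 7058704265) (nat_lit 408) (nat_lit 5) (nat_lit 420) (nat_lit 5) (nat_lit 421) (nat_lit 5) (nat_lit 578) (nat_lit 538) (nat_lit 444)) (XT.lf (nat_lit 0) (nat_lit 4497230109) (nat_lit 988) (nat_lit 2597196118) (nat_lit 76) (nat_lit 2485128186) (nat_lit 408) (nat_lit 5) (nat_lit 421) (nat_lit 5) (nat_lit 409) (nat_lit 5) (nat_lit 579) (nat_lit 538) (nat_lit 443)))) (XT.nd (nat_lit 156) (nat_lit 1672) (nat_lit 0) (XT.nd (nat_lit 78) (nat_lit 0) (nat_lit 0) (XT.lf (nat_lit 0) (nat_lit 3255171874) (nat_lit 836) (nat_lit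 3354623401) (nat_lit 912) (nat_lit 3061403119) (nat_lit 397) (nat_lit 5) (nat_lit 408) (nat_lit 5) (nat_lit 409) (nat_lit 5) (nat_lit 580) (nat_lit 538) (nat_lit 442)) (XT.lf (nat_lit 0) (nat_lit 8760838956) (nat_lit 912) (nat_lit 533549953) (nat_lit 76) (nat_lit 470362506) (nat_lit 397) (nat_lit 5) (nat_lit 409) (nat_lit 5) (nat_lit 398) (nat_lit 5) (nat_lit 581) (nat_lit 538) (nat_lit 441))) (XT.nd (nat_lit 78) (nat_lit 760) (nat_lit 0) (XT.lf (nat_lit 0) (nat_lit 1114635576) (nat_lit 912) (nat_lit 4375859529) (nat_lit 76) (nat_lit 4368853610) (nat_lit 385) (nat_lit 5) (nat_lit 397) (nat_lit 5) (nat_lit 386) (nat_lit 5) (nat_lit 582) (nat_lit 538) (nat_lit 440)) (XT.lf (nat_lit 0) (nat_lit 1661904832) (nat_lit 760) (nat_lit 1590934392) (nat_lit 836) (nat_lit 6703052145) (nat_lit 375) (nat_lit 5) (nat_lit 385) (nat_lit 5) (nat_lit 386) (nat_lit 5) (nat_lit 583) (nat_lit 538) (nat_lit 439))))))) (XT.nd (nat_lit 1170) (nat_lit 5624) (nat_lit 0) (XT.nd (nat_lit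 546) (nat_lit 3420) (nat_lit 0) (XT.nd (nat_lit 234) (nat_lit 1520) (nat_lit 0) (XT.nd (nat_lit 78) (nat_lit 1520) (nat_lit 0) (XT.lf (nat_lit 0) (nat_lit 5455467873) (nat_lit 836) (nat_lit 2215568636) (nat_lit 76) (nat_lit 2382895798) (nat_lit 375) (nat_lit 5) (nat_lit 386) (nat_lit 5) (nat_lit 376) (nat_lit 5) (nat_lit 584) (nat_lit 538) (nat_lit 438)) (XT.nd (nat_lit 78) (nat_lit 760) (nat_lit 0) (XT.lf (nat_lit 0) (nat_lit 4001020950) (nat_lit 760) (nat_lit 3714706744) (nat_lit 836) (nat_lit 2437935436) (nat_lit 365) (nat_lit 5) (nat_lit 375) (nat_lit 5) (nat_lit 376) (nat_lit 5) (nat_lit 585) (nat_lit 538) (nat_lit 437)) (XT.lf (nat_lit 0) (nat_lit 90281455) (nat_lit 760) (nat_lit 9925881298) (nat_lit 836) (nat_lit 239327042) (nat_lit 355) (nat_lit 5) (nat_lit 365) (nat_lit 5) (nat_lit 366) (nat_lit 5) (nat_lit 586) (nat_lit 538) (nat_lit 436)))) (XT.nd (nat_lit 156) (nat_lit 684) (nat_lit 0) (XT.nd (nat_lit 78) (nat_lit 760) (nat_lit 0) (XT.lf (nat_lit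 0) (nat_lit 2020607751) (nat_lit 836) (nat_lit 3880680543) (nat_lit 76) (nat_lit 4456932627) (nat_lit 354) (nat_lit 5) (nat_lit 365) (nat_lit 5) (nat_lit 355) (nat_lit 5) (nat_lit 587) (nat_lit 538) (nat_lit 435)) (XT.lf (nat_lit 0) (nat_lit 2535980385) (nat_lit 760) (nat_lit 1780932039) (nat_lit 836) (nat_lit 6146175678) (nat_lit 344) (nat_lit 5) (nat_lit 354) (nat_lit 5) (nat_lit 355) (nat_lit 5) (nat_lit 588) (nat_lit 538) (nat_lit 434))) (XT.nd (nat_lit 78) (nat_lit 684) (nat_lit 0) (XT.lf (nat_lit 0) (nat_lit 6679238082) (nat_lit 836) (nat_lit 1477332486) (nat_lit 76) (nat_lit 2413080740) (nat_lit 344) (nat_lit 5) (nat_lit 355) (nat_lit 5) (nat_lit 345) (nat_lit 5) (nat_lit 589) (nat_lit 538) (nat_lit 433)) (XT.lf (nat_lit 0) (nat_lit 5131968064) (nat_lit 684) (nat_lit 3980541762) (nat_lit 760) (nat_lit 1565362527) (nat_lit 335) (nat_lit 5) (nat_lit 344) (nat_lit 5) (nat_lit 345) (nat_lit 5) (nat_lit 590) (nat_lit 538) (nat_lit 432))))) (XT.nd (nat_lit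 312) (nat_lit 1976) (nat_lit 0) (XT.nd (nat_lit 156) (nat_lit 684) (nat_lit 0) (XT.nd (nat_lit 78) (nat_lit 0) (nat_lit 0) (XT.lf (nat_lit 0) (nat_lit 793305372) (nat_lit 760) (nat_lit 9700867610) (nat_lit 76) (nat_lit 294026905) (nat_lit 325) (nat_lit 5) (nat_lit 335) (nat_lit 5) (nat_lit 326) (nat_lit 5) (nat_lit 591) (nat_lit 538) (nat_lit 431)) (XT.lf (nat_lit 0) (nat_lit 3220963295) (nat_lit 760) (nat_lit 3033886933) (nat_lit 76) (nat_lit 4644821799) (nat_lit 325) (nat_lit 5) (nat_lit 335) (nat_lit 5) (nat_lit 326) (nat_lit 5) (nat_lit 592) (nat_lit 538) (nat_lit 430))) (XT.nd (nat_lit 78) (nat_lit 0) (nat_lit 0) (XT.lf (nat_lit 0) (nat_lit 3791321194) (nat_lit 684) (nat_lit 1909815694) (nat_lit 760) (nat_lit 5312157997) (nat_lit 316) (nat_lit 5) (nat_lit 325) (nat_lit 5) (nat_lit 326) (nat_lit 5) (nat_lit 593) (nat_lit 538) (nat_lit 429)) (XT.lf (nat_lit 0) (nat_lit 8247346859) (nat_lit 760) (nat_lit 376188123) (nat_lit 76) (nat_lit 2505327071) (nat_lit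 316) (nat_lit 5) (nat_lit 326) (nat_lit 5) (nat_lit 317) (nat_lit 5) (nat_lit 594) (nat_lit 538) (nat_lit 428)))) (XT.nd (nat_lit 156) (nat_lit 608) (nat_lit 0) (XT.nd (nat_lit 78) (nat_lit 684) (nat_lit 0) (XT.lf (nat_lit 0) (nat_lit 6656605572) (nat_lit 684) (nat_lit 4223706879) (nat_lit 760) (nat_lit 365711988) (nat_lit 307) (nat_lit 5) (nat_lit 316) (nat_lit 5) (nat_lit 317) (nat_lit 5) (nat_lit 595) (nat_lit 538) (nat_lit 427)) (XT.lf (nat_lit 0) (nat_lit 2172049949) (nat_lit 684) (nat_lit 8904165970) (nat_lit 76) (nat_lit 289018880) (nat_lit 298) (nat_lit 5) (nat_lit 307) (nat_lit 5) (nat_lit 299) (nat_lit 5) (nat_lit 596) (nat_lit 538) (nat_lit 426))) (XT.nd (nat_lit 78) (nat_lit 608) (nat_lit 0) (XT.lf (nat_lit 0) (nat_lit 4794915662) (nat_lit 684) (nat_lit 1826901005) (nat_lit 76) (nat_lit 4864179918) (nat_lit 298) (nat_lit 5) (nat_lit 307) (nat_lit 5) (nat_lit 299) (nat_lit 5) (nat_lit 597) (nat_lit 538) (nat_lit 425)) (XT.lf (nat_lit 0) (nat_lit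 5438861304) (nat_lit 608) (nat_lit 2047344885) (nat_lit 684) (nat_lit 4122648532) (nat_lit 290) (nat_lit 5) (nat_lit 298) (nat_lit 5) (nat_lit 299) (nat_lit 5) (nat_lit 598) (nat_lit 538) (nat_lit 424)))))) (XT.nd (nat_lit 624) (nat_lit 2584) (nat_lit 0) (XT.nd (nat_lit 312) (nat_lit 1748) (nat_lit 0) (XT.nd (nat_lit 156) (nat_lit 608) (nat_lit 0) (XT.nd (nat_lit 78) (nat_lit 76) (nat_lit 0) (XT.lf (nat_lit 0) (nat_lit 1113732939) (nat_lit 608) (nat_lit 9135006918) (nat_lit 684) (nat_lit 1485082271) (nat_lit 282) (nat_lit 5) (nat_lit 290) (nat_lit 5) (nat_lit 291) (nat_lit 5) (nat_lit 599) (nat_lit 538) (nat_lit 423)) (XT.lf (nat_lit 0) (nat_lit 1225600178) (nat_lit 684) (nat_lit 3280010259) (nat_lit 76) (nat_lit 7354798946) (nat_lit 281) (nat_lit 5) (nat_lit 290) (nat_lit 5) (nat_lit 282) (nat_lit 5) (nat_lit 600) (nat_lit 538) (nat_lit 422))) (XT.nd (nat_lit 78) (nat_lit 0) (nat_lit 0) (XT.lf (nat_lit 0) (nat_lit 3981007674) (nat_lit 684) (nat_lit 7762460337)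 (nat_lit 76) (nat_lit 245656541) (nat_lit 273) (nat_lit 5) (nat_lit 282) (nat_lit 5) (nat_lit 274) (nat_lit 5) (nat_lit 601) (nat_lit 538) (nat_lit 421)) (XT.lf (nat_lit 0) (nat_lit 6825001640) (nat_lit 684) (nat_lit 246377134) (nat_lit 76) (nat_lit 5048366105) (nat_lit 273) (nat_lit 5) (nat_lit 282) (nat_lit 5) (nat_lit 274) (nat_lit 5) (nat_lit 602) (nat_lit 538) (nat_lit 420)))) (XT.nd (nat_lit 156) (nat_lit 532) (nat_lit 0) (XT.nd (nat_lit 78) (nat_lit 684) (nat_lit 0) (XT.lf (nat_lit 0) (nat_lit 7494443550) (nat_lit 532) (nat_lit 2261937381) (nat_lit 608) (nat_lit 2495986985) (nat_lit 266) (nat_lit 5) (nat_lit 273) (nat_lit 5) (nat_lit 274) (nat_lit 5) (nat_lit 603) (nat_lit 538) (nat_lit 419)) (XT.lf (nat_lit 0) (nat_lit 374517576) (nat_lit 684) (nat_lit 9385708603) (nat_lit 76) (nat_lit 2626961485) (nat_lit 257) (nat_lit 5) (nat_lit 266) (nat_lit 5) (nat_lit 258) (nat_lit 5) (nat_lit 604) (nat_lit 538) (nat_lit 418))) (XT.nd (nat_lit 78) (nat_lit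 532) (nat_lit 0) (XT.lf (nat_lit 0) (nat_lit 3298252061) (nat_lit 684) (nat_lit 1599340959) (nat_lit 76) (nat_lit 7626196383) (nat_lit 257) (nat_lit 5) (nat_lit 266) (nat_lit 5) (nat_lit 258) (nat_lit 5) (nat_lit 605) (nat_lit 538) (nat_lit 417)) (XT.lf (nat_lit 0) (nat_lit 6305116219) (nat_lit 608) (nat_lit 6260199224) (nat_lit 76) (nat_lit 97315015) (nat_lit 250) (nat_lit 5) (nat_lit 258) (nat_lit 5) (nat_lit 251) (nat_lit 5) (nat_lit 606) (nat_lit 538) (nat_lit 416))))) (XT.nd (nat_lit 312) (nat_lit 988) (nat_lit 0) (XT.nd (nat_lit 156) (nat_lit 1064) (nat_lit 0) (XT.nd (nat_lit 78) (nat_lit 0) (nat_lit 0) (XT.lf (nat_lit 0) (nat_lit 1748511521) (nat_lit 532) (nat_lit 7660790193) (nat_lit 608) (nat_lit 3394203314) (nat_lit 243) (nat_lit 5) (nat_lit 250) (nat_lit 5) (nat_lit 251) (nat_lit 5) (nat_lit 607) (nat_lit 538) (nat_lit 415)) (XT.lf (nat_lit 0) (nat_lit 9978611977) (nat_lit 532) (nat_lit 2621749637) (nat_lit 608) (nat_lit 346340027) (nat_lit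 243) (nat_lit 5) (nat_lit 250) (nat_lit 5) (nat_lit 251) (nat_lit 5) (nat_lit 608) (nat_lit 538) (nat_lit 414))) (XT.nd (nat_lit 78) (nat_lit 532) (nat_lit 0) (XT.lf (nat_lit 0) (nat_lit 2760379926) (nat_lit 532) (nat_lit 7799871711) (nat_lit 76) (nat_lit 2531469589) (nat_lit 236) (nat_lit 5) (nat_lit 243) (nat_lit 5) (nat_lit 237) (nat_lit 5) (nat_lit 609) (nat_lit 538) (nat_lit 413)) (XT.lf (nat_lit 0) (nat_lit 480950994) (nat_lit 532) (nat_lit 5467332053) (nat_lit 608) (nat_lit 7290838989) (nat_lit 229) (nat_lit 5) (nat_lit 236) (nat_lit 5) (nat_lit 237) (nat_lit 5) (nat_lit 610) (nat_lit 538) (nat_lit 412)))) (XT.nd (nat_lit 156) (nat_lit 532) (nat_lit 0) (XT.nd (nat_lit 78) (nat_lit 456) (nat_lit 0) (XT.lf (nat_lit 0) (nat_lit 9009727880) (nat_lit 532) (nat_lit 225883513) (nat_lit 608) (nat_lit 4153146464) (nat_lit 229) (nat_lit 5) (nat_lit 236) (nat_lit 5) (nat_lit 237) (nat_lit 5) (nat_lit 611) (nat_lit 538) (nat_lit 411)) (XT.lf (nat_lit 0) (nat_lit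 4165867569) (nat_lit 456) (nat_lit 8466721407) (nat_lit 532) (nat_lit 907919697) (nat_lit 223) (nat_lit 5) (nat_lit 229) (nat_lit 5) (nat_lit 230) (nat_lit 5) (nat_lit 612) (nat_lit 538) (nat_lit 410))) (XT.nd (nat_lit 78) (nat_lit 456) (nat_lit 0) (XT.lf (nat_lit 0) (nat_lit 2385456279) (nat_lit 532) (nat_lit 794254081) (nat_lit 76) (nat_lit 10514977529) (nat_lit 222) (nat_lit 5) (nat_lit 229) (nat_lit 5) (nat_lit 223) (nat_lit 5) (nat_lit 613) (nat_lit 538) (nat_lit 409)) (XT.lf (nat_lit 0) (nat_lit 5783421565) (nat_lit 532) (nat_lit 5831543676) (nat_lit 76) (nat_lit 2235848155) (nat_lit 216) (nat_lit 5) (nat_lit 223) (nat_lit 5) (nat_lit 217) (nat_lit 5) (nat_lit 614) (nat_lit 538) (nat_lit 408))))))))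
noncomputable def xc102 : XT := (XT.nd (nat_lit 75504) (nat_lit 0) (nat_lit 25384) (XT.nd (nat_lit 1170) (nat_lit 2812) (nat_lit 0) (XT.nd (nat_lit 546) (nat_lit 2052) (nat_lit 0) (XT.nd (nat_lit 234) (nat_lit 1292) (nat_lit 0) (XT.nd (nat_lit 78) (nat_lit 532) (nat_lit 0) (XT.lf (nat_lit 0) (nat_lit 3005248888) (nat_lit 456) (nat_lit 6274148526) (nat_lit 532) (nat_lit 4730063281) (nat_lit 210) (nat_lit 5) (nat_lit 216) (nat_lit 5) (nat_lit 217) (nat_lit 5) (nat_lit 615) (nat_lit 538) (nat_lit 407)) (XT.nd (nat_lit 78) (nat_lit 532) (nat_lit 0) (XT.lf (nat_lit 0) (nat_lit 12075028374) (nat_lit 456) (nat_lit 793676910) (nat_lit 532) (nat_lit 1302107708) (nat_lit 210) (nat_lit 5) (nat_lit 216) (nat_lit 5) (nat_lit 217) (nat_lit 5) (nat_lit 616) (nat_lit 538) (nat_lit 406)) (XT.lf (nat_lit 0) (nat_lit 2227355688) (nat_lit 532) (nat_lit 7319573850) (nat_lit 76) (nat_lit 4786943559) (nat_lit 203) (nat_lit 5) (nat_lit 210) (nat_lit 5) (nat_lit 204) (nat_lit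 5) (nat_lit 617) (nat_lit 538) (nat_lit 405)))) (XT.nd (nat_lit 156) (nat_lit 912) (nat_lit 0) (XT.nd (nat_lit 78) (nat_lit 0) (nat_lit 0) (XT.lf (nat_lit 0) (nat_lit 1822338653) (nat_lit 380) (nat_lit 4003494282) (nat_lit 456) (nat_lit 8673872417) (nat_lit 198) (nat_lit 5) (nat_lit 203) (nat_lit 5) (nat_lit 204) (nat_lit 5) (nat_lit 618) (nat_lit 538) (nat_lit 404)) (XT.lf (nat_lit 0) (nat_lit 9541148479) (nat_lit 456) (nat_lit 3455385698) (nat_lit 76) (nat_lit 1671422979) (nat_lit 198) (nat_lit 5) (nat_lit 204) (nat_lit 5) (nat_lit 199) (nat_lit 5) (nat_lit 619) (nat_lit 538) (nat_lit 403))) (XT.nd (nat_lit 78) (nat_lit 456) (nat_lit 0) (XT.lf (nat_lit 0) (nat_lit 5980626822) (nat_lit 456) (nat_lit 7400493893) (nat_lit 532) (nat_lit 1457446544) (nat_lit 192) (nat_lit 5) (nat_lit 198) (nat_lit 5) (nat_lit 199) (nat_lit 5) (nat_lit 620) (nat_lit 538) (nat_lit 402)) (XT.lf (nat_lit 0) (nat_lit 610706910) (nat_lit 380) (nat_lit 1656988252) (nat_lit 456)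 (nat_lit 12744350622) (nat_lit 186) (nat_lit 5) (nat_lit 191) (nat_lit 5) (nat_lit 192) (nat_lit 5) (nat_lit 621) (nat_lit 538) (nat_lit 401))))) (XT.nd (nat_lit 312) (nat_lit 1216) (nat_lit 0) (XT.nd (nat_lit 156) (nat_lit 456) (nat_lit 0) (XT.nd (nat_lit 78) (nat_lit 380) (nat_lit 0) (XT.lf (nat_lit 0) (nat_lit 6120114655) (nat_lit 456) (nat_lit 4858814267) (nat_lit 76) (nat_lit 4208426736) (nat_lit 186) (nat_lit 5) (nat_lit 192) (nat_lit 5) (nat_lit 187) (nat_lit 5) (nat_lit 622) (nat_lit 538) (nat_lit 400)) (XT.lf (nat_lit 0) (nat_lit 4905885515) (nat_lit 380) (nat_lit 5171972355) (nat_lit 456) (nat_lit 5287748604) (nat_lit 181) (nat_lit 5) (nat_lit 186) (nat_lit 5) (nat_lit 187) (nat_lit 5) (nat_lit 623) (nat_lit 538) (nat_lit 399))) (XT.nd (nat_lit 78) (nat_lit 456) (nat_lit 0) (XT.lf (nat_lit 0) (nat_lit 14137997991) (nat_lit 456) (nat_lit 642259310) (nat_lit 76) (nat_lit 766700410) (nat_lit 181) (nat_lit 5) (nat_lit 187) (nat_lit 5) (nat_lit 182)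 (nat_lit 5) (nat_lit 624) (nat_lit 538) (nat_lit 398)) (XT.lf (nat_lit 0) (nat_lit 2595899732) (nat_lit 456) (nat_lit 6307991825) (nat_lit 76) (nat_lit 6826075776) (nat_lit 175) (nat_lit 5) (nat_lit 181) (nat_lit 5) (nat_lit 176) (nat_lit 5) (nat_lit 625) (nat_lit 538) (nat_lit 397)))) (XT.nd (nat_lit 156) (nat_lit 836) (nat_lit 0) (XT.nd (nat_lit 78) (nat_lit 0) (nat_lit 0) (XT.lf (nat_lit 0) (nat_lit 3798357510) (nat_lit 380) (nat_lit 2878522718) (nat_lit 456) (nat_lit 9239273091) (nat_lit 170) (nat_lit 5) (nat_lit 175) (nat_lit 5) (nat_lit 176) (nat_lit 5) (nat_lit 626) (nat_lit 538) (nat_lit 396)) (XT.lf (nat_lit 0) (nat_lit 10889264018) (nat_lit 456) (nat_lit 1956207074) (nat_lit 76) (nat_lit 3259596486) (nat_lit 170) (nat_lit 5) (nat_lit 176) (nat_lit 5) (nat_lit 171) (nat_lit 5) (nat_lit 627) (nat_lit 538) (nat_lit 395))) (XT.nd (nat_lit 78) (nat_lit 456) (nat_lit 0) (XT.lf (nat_lit 0) (nat_lit 8479349929) (nat_lit 380) (nat_lit 6766897067) (nat_lit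 456) (nat_lit 1050306320) (nat_lit 165) (nat_lit 5) (nat_lit 170) (nat_lit 5) (nat_lit 171) (nat_lit 5) (nat_lit 628) (nat_lit 538) (nat_lit 394)) (XT.lf (nat_lit 0) (nat_lit 2650992881) (nat_lit 380) (nat_lit 522261387) (nat_lit 456) (nat_lit 13317865333) (nat_lit 159) (nat_lit 5) (nat_lit 164) (nat_lit 5) (nat_lit 165) (nat_lit 5) (nat_lit 629) (nat_lit 538) (nat_lit 393)))))) (XT.nd (nat_lit 624) (nat_lit 988) (nat_lit 0) (XT.nd (nat_lit 312) (nat_lit 1064) (nat_lit 0) (XT.nd (nat_lit 156) (nat_lit 456) (nat_lit 0) (XT.nd (nat_lit 78) (nat_lit 304) (nat_lit 0) (XT.lf (nat_lit 0) (nat_lit 7544361742) (nat_lit 456) (nat_lit 3320809388) (nat_lit 76) (nat_lit 5822724656) (nat_lit 159) (nat_lit 5) (nat_lit 165) (nat_lit 5) (nat_lit 160) (nat_lit 5) (nat_lit 630) (nat_lit 538) (nat_lit 392)) (XT.lf (nat_lit 0) (nat_lit 7482460358) (nat_lit 304) (nat_lit 4559095143) (nat_lit 380) (nat_lit 4846278918) (nat_lit 155) (nat_lit 5) (nat_lit 159) (nat_lit 5) (nat_lit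 160) (nat_lit 5) (nat_lit 631) (nat_lit 538) (nat_lit 391))) (XT.nd (nat_lit 78) (nat_lit 76) (nat_lit 0) (XT.lf (nat_lit 0) (nat_lit 1440887045) (nat_lit 380) (nat_lit 15218455007) (nat_lit 456) (nat_lit 431816996) (nat_lit 150) (nat_lit 5) (nat_lit 155) (nat_lit 5) (nat_lit 156) (nat_lit 5) (nat_lit 632) (nat_lit 538) (nat_lit 390)) (XT.lf (nat_lit 0) (nat_lit 4098005828) (nat_lit 456) (nat_lit 4743986371) (nat_lit 76) (nat_lit 8454420287) (nat_lit 149) (nat_lit 5) (nat_lit 155) (nat_lit 5) (nat_lit 150) (nat_lit 5) (nat_lit 633) (nat_lit 538) (nat_lit 389)))) (XT.nd (nat_lit 156) (nat_lit 380) (nat_lit 0) (XT.nd (nat_lit 78) (nat_lit 380) (nat_lit 0) (XT.lf (nat_lit 0) (nat_lit 6441237036) (nat_lit 304) (nat_lit 2300229315) (nat_lit 380) (nat_lit 8763671280) (nat_lit 145) (nat_lit 5) (nat_lit 149) (nat_lit 5) (nat_lit 150) (nat_lit 5) (nat_lit 634) (nat_lit 538) (nat_lit 388)) (XT.lf (nat_lit 0) (nat_lit 149556026) (nat_lit 380) (nat_lit 13376712152)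 (nat_lit 456) (nat_lit 4190799849) (nat_lit 140) (nat_lit 5) (nat_lit 145) (nat_lit 5) (nat_lit 146) (nat_lit 5) (nat_lit 635) (nat_lit 538) (nat_lit 387))) (XT.nd (nat_lit 78) (nat_lit 304) (nat_lit 0) (XT.lf (nat_lit 0) (nat_lit 544389355) (nat_lit 456) (nat_lit 6234206572) (nat_lit 76) (nat_lit 11153038376) (nat_lit 139) (nat_lit 5) (nat_lit 145) (nat_lit 5) (nat_lit 140) (nat_lit 5) (nat_lit 636) (nat_lit 538) (nat_lit 386)) (XT.lf (nat_lit 0) (nat_lit 5340342274) (nat_lit 380) (nat_lit 12801897415) (nat_lit 76) (nat_lit 7254874) (nat_lit 135) (nat_lit 5) (nat_lit 140) (nat_lit 5) (nat_lit 136) (nat_lit 5) (nat_lit 637) (nat_lit 538) (nat_lit 385))))) (XT.nd (nat_lit 312) (nat_lit 304) (nat_lit 0) (XT.nd (nat_lit 156) (nat_lit 380) (nat_lit 0) (XT.nd (nat_lit 78) (nat_lit 304) (nat_lit 0) (XT.lf (nat_lit 0) (nat_lit 10306636420) (nat_lit 380) (nat_lit 1191066347) (nat_lit 76) (nat_lit 6872520990) (nat_lit 135) (nat_lit 5) (nat_lit 140) (nat_lit 5)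 (nat_lit 136) (nat_lit 5) (nat_lit 638) (nat_lit 538) (nat_lit 384)) (XT.lf (nat_lit 0) (nat_lit 10773110014) (nat_lit 304) (nat_lit 4656758245) (nat_lit 380) (nat_lit 3164347211) (nat_lit 131) (nat_lit 5) (nat_lit 135) (nat_lit 5) (nat_lit 136) (nat_lit 5) (nat_lit 639) (nat_lit 538) (nat_lit 383))) (XT.nd (nat_lit 78) (nat_lit 0) (nat_lit 0) (XT.lf (nat_lit 0) (nat_lit 1847135756) (nat_lit 380) (nat_lit 14644286986) (nat_lit 76) (nat_lit 2330260500) (nat_lit 126) (nat_lit 5) (nat_lit 131) (nat_lit 5) (nat_lit 127) (nat_lit 5) (nat_lit 640) (nat_lit 538) (nat_lit 382)) (XT.lf (nat_lit 0) (nat_lit 6987944392) (nat_lit 380) (nat_lit 2603162223) (nat_lit 76) (nat_lit 9460746255) (nat_lit 126) (nat_lit 5) (nat_lit 131) (nat_lit 5) (nat_lit 127) (nat_lit 5) (nat_lit 641) (nat_lit 538) (nat_lit 381)))) (XT.nd (nat_lit 73242) (nat_lit 0) (nat_lit 41344) (XT.nd (nat_lit 73164) (nat_lit 0) (nat_lit 42484) (XT.lf (nat_lit 0) (nat_lit 9787290539) (nat_lit 304) (nat_lit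 2495820561) (nat_lit 380) (nat_lit 7002484109) (nat_lit 122) (nat_lit 5) (nat_lit 126) (nat_lit 5) (nat_lit 127) (nat_lit 5) (nat_lit 642) (nat_lit 538) (nat_lit 380)) (XT.lf (nat_lit 0) (nat_lit 3067244155) (nat_lit 1140) (nat_lit 248289858) (nat_lit 1140) (nat_lit 248289858) (nat_lit 681) (nat_lit 3) (nat_lit 696) (nat_lit 3) (nat_lit 696) (nat_lit 5) (nat_lit 539) (nat_lit 539) (nat_lit 482))) (XT.nd (nat_lit 78) (nat_lit 0) (nat_lit 0) (XT.lf (nat_lit 0) (nat_lit 746916819) (nat_lit 1140) (nat_lit 4073345085) (nat_lit 1216) (nat_lit 2343987414) (nat_lit 666) (nat_lit 5) (nat_lit 681) (nat_lit 3) (nat_lit 682) (nat_lit 5) (nat_lit 540) (nat_lit 539) (nat_lit 481)) (XT.lf (nat_lit 0) (nat_lit 2466684411) (nat_lit 1140) (nat_lit 474964739) (nat_lit 1216) (nat_lit 4260640500) (nat_lit 666) (nat_lit 5) (nat_lit 681) (nat_lit 3) (nat_lit 682) (nat_lit 5) (nat_lit 541) (nat_lit 539) (nat_lit 480))))))) (XT.nd (nat_lit 1170) (nat_lit 12388) (nat_lit 0) (XT.nd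 (nat_lit 546) (nat_lit 2432) (nat_lit 0) (XT.nd (nat_lit 234) (nat_lit 0) (nat_lit 0) (XT.nd (nat_lit 78) (nat_lit 1140) (nat_lit 0) (XT.lf (nat_lit 76) (nat_lit 3214285904) (nat_lit 0) (nat_lit 983137987) (nat_lit 1216) (nat_lit 3044137118) (nat_lit 667) (nat_lit 5) (nat_lit 666) (nat_lit 5) (nat_lit 682) (nat_lit 5) (nat_lit 542) (nat_lit 539) (nat_lit 479)) (XT.nd (nat_lit 78) (nat_lit 1216) (nat_lit 0) (XT.lf (nat_lit 0) (nat_lit 5929132316) (nat_lit 1140) (nat_lit 328508812) (nat_lit 1216) (nat_lit 1024651302) (nat_lit 667) (nat_lit 5) (nat_lit 682) (nat_lit 5) (nat_lit 683) (nat_lit 5) (nat_lit 543) (nat_lit 539) (nat_lit 478)) (XT.lf (nat_lit 0) (nat_lit 353052945) (nat_lit 1216) (nat_lit 3866975560) (nat_lit 1292) (nat_lit 3104037554) (nat_lit 651) (nat_lit 5) (nat_lit 667) (nat_lit 5) (nat_lit 668) (nat_lit 5) (nat_lit 544) (nat_lit 539) (nat_lit 477)))) (XT.nd (nat_lit 156) (nat_lit 0) (nat_lit 76) (XT.nd (nat_lit 78) (nat_lit 0) (nat_lit 76)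 (XT.lf (nat_lit 0) (nat_lit 2035321435) (nat_lit 1216) (nat_lit 76792661) (nat_lit 1292) (nat_lit 5255182797) (nat_lit 651) (nat_lit 5) (nat_lit 667) (nat_lit 5) (nat_lit 668) (nat_lit 5) (nat_lit 545) (nat_lit 539) (nat_lit 476)) (XT.lf (nat_lit 0) (nat_lit 3735176318) (nat_lit 1216) (nat_lit 3596583688) (nat_lit 1292) (nat_lit 79955103) (nat_lit 652) (nat_lit 5) (nat_lit 668) (nat_lit 5) (nat_lit 669) (nat_lit 5) (nat_lit 546) (nat_lit 539) (nat_lit 475))) (XT.nd (nat_lit 78) (nat_lit 0) (nat_lit 0) (XT.lf (nat_lit 76) (nat_lit 294452593) (nat_lit 0) (nat_lit 5150406055) (nat_lit 1292) (nat_lit 2012647990) (nat_lit 653) (nat_lit 5) (nat_lit 652) (nat_lit 5) (nat_lit 669) (nat_lit 5) (nat_lit 547) (nat_lit 539) (nat_lit 474)) (XT.lf (nat_lit 76) (nat_lit 4287880553) (nat_lit 0) (nat_lit 2885040200) (nat_lit 1292) (nat_lit 331611046) (nat_lit 653) (nat_lit 5) (nat_lit 652) (nat_lit 5) (nat_lit 669) (nat_lit 5) (nat_lit 548) (nat_lit 539) (nat_lit 473)))))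 (XT.nd (nat_lit 312) (nat_lit 1216) (nat_lit 0) (XT.nd (nat_lit 156) (nat_lit 0) (nat_lit 76) (XT.nd (nat_lit 78) (nat_lit 0) (nat_lit 76) (XT.lf (nat_lit 76) (nat_lit 785772543) (nat_lit 0) (nat_lit 544810562) (nat_lit 1368) (nat_lit 6222422724) (nat_lit 636) (nat_lit 5) (nat_lit 635) (nat_lit 5) (nat_lit 653) (nat_lit 5) (nat_lit 549) (nat_lit 539) (nat_lit 472)) (XT.lf (nat_lit 0) (nat_lit 3016560392) (nat_lit 1292) (nat_lit 2729417091) (nat_lit 1368) (nat_lit 1856529864) (nat_lit 636) (nat_lit 5) (nat_lit 653) (nat_lit 5) (nat_lit 654) (nat_lit 5) (nat_lit 550) (nat_lit 539) (nat_lit 471))) (XT.nd (nat_lit 78) (nat_lit 0) (nat_lit 0) (XT.lf (nat_lit 76) (nat_lit 1379177896) (nat_lit 0) (nat_lit 3331687040) (nat_lit 1368) (nat_lit 2942643214) (nat_lit 637) (nat_lit 5) (nat_lit 636) (nat_lit 5) (nat_lit 654) (nat_lit 5) (nat_lit 551) (nat_lit 539) (nat_lit 470)) (XT.lf (nat_lit 76) (nat_lit 5582645974) (nat_lit 0) (nat_lit 837357042) (nat_lit 1368) (nat_lit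 1285908385) (nat_lit 637) (nat_lit 5) (nat_lit 636) (nat_lit 5) (nat_lit 654) (nat_lit 5) (nat_lit 552) (nat_lit 539) (nat_lit 469)))) (XT.nd (nat_lit 156) (nat_lit 0) (nat_lit 0) (XT.nd (nat_lit 78) (nat_lit 0) (nat_lit 0) (XT.lf (nat_lit 0) (nat_lit 386765095) (nat_lit 1368) (nat_lit 5659466958) (nat_lit 1444) (nat_lit 1713317497) (nat_lit 619) (nat_lit 5) (nat_lit 637) (nat_lit 5) (nat_lit 638) (nat_lit 5) (nat_lit 553) (nat_lit 539) (nat_lit 468)) (XT.lf (nat_lit 0) (nat_lit 2059343482) (nat_lit 1368) (nat_lit 1416410610) (nat_lit 1444) (nat_lit 4338664279) (nat_lit 619) (nat_lit 5) (nat_lit 637) (nat_lit 5) (nat_lit 638) (nat_lit 5) (nat_lit 554) (nat_lit 539) (nat_lit 467))) (XT.nd (nat_lit 78) (nat_lit 0) (nat_lit 76) (XT.lf (nat_lit 76) (nat_lit 2925405070) (nat_lit 0) (nat_lit 823438171) (nat_lit 1444) (nat_lit 4121873207) (nat_lit 620) (nat_lit 5) (nat_lit 619) (nat_lit 5) (nat_lit 638) (nat_lit 5) (nat_lit 555) (nat_lit 539) (nat_lit 466)) (XT.lf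 (nat_lit 0) (nat_lit 5459003681) (nat_lit 1368) (nat_lit 592053457) (nat_lit 1444) (nat_lit 1877347186) (nat_lit 620) (nat_lit 5) (nat_lit 638) (nat_lit 5) (nat_lit 639) (nat_lit 5) (nat_lit 556) (nat_lit 539) (nat_lit 465)))))) (XT.nd (nat_lit 624) (nat_lit 8132) (nat_lit 0) (XT.nd (nat_lit 312) (nat_lit 2888) (nat_lit 0) (XT.nd (nat_lit 156) (nat_lit 0) (nat_lit 76) (XT.nd (nat_lit 78) (nat_lit 1444) (nat_lit 0) (XT.lf (nat_lit 76) (nat_lit 3868972080) (nat_lit 0) (nat_lit 3330737217) (nat_lit 1444) (nat_lit 787611048) (nat_lit 621) (nat_lit 5) (nat_lit 620) (nat_lit 5) (nat_lit 639) (nat_lit 5) (nat_lit 557) (nat_lit 539) (nat_lit 464)) (XT.lf (nat_lit 76) (nat_lit 353618734) (nat_lit 0) (nat_lit 534379315) (nat_lit 1520) (nat_lit 7159850293) (nat_lit 602) (nat_lit 5) (nat_lit 601) (nat_lit 5) (nat_lit 621) (nat_lit 5) (nat_lit 558) (nat_lit 539) (nat_lit 463))) (XT.nd (nat_lit 78) (nat_lit 0) (nat_lit 0) (XT.lf (nat_lit 0) (nat_lit 2596070435) (nat_lit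 1444) (nat_lit 3184072155) (nat_lit 1520) (nat_lit 2329151398) (nat_lit 602) (nat_lit 5) (nat_lit 621) (nat_lit 5) (nat_lit 622) (nat_lit 5) (nat_lit 559) (nat_lit 539) (nat_lit 462)) (XT.lf (nat_lit 76) (nat_lit 1406251598) (nat_lit 0) (nat_lit 2911995133) (nat_lit 1520) (nat_lit 3854124100) (nat_lit 603) (nat_lit 5) (nat_lit 602) (nat_lit 5) (nat_lit 622) (nat_lit 5) (nat_lit 560) (nat_lit 539) (nat_lit 461)))) (XT.nd (nat_lit 156) (nat_lit 1596) (nat_lit 0) (XT.nd (nat_lit 78) (nat_lit 1444) (nat_lit 0) (XT.lf (nat_lit 0) (nat_lit 6064265139) (nat_lit 1444) (nat_lit 2130439958) (nat_lit 76) (nat_lit 42217253) (nat_lit 603) (nat_lit 5) (nat_lit 622) (nat_lit 5) (nat_lit 604) (nat_lit 5) (nat_lit 561) (nat_lit 539) (nat_lit 460)) (XT.lf (nat_lit 0) (nat_lit 2587633293) (nat_lit 1444) (nat_lit 5262089846) (nat_lit 1520) (nat_lit 452952464) (nat_lit 584) (nat_lit 5) (nat_lit 603) (nat_lit 5) (nat_lit 604) (nat_lit 5) (nat_lit 562) (nat_lit 539) (nat_lit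 459))) (XT.nd (nat_lit 78) (nat_lit 1520) (nat_lit 0) (XT.lf (nat_lit 0) (nat_lit 1267157322) (nat_lit 1520) (nat_lit 974278965) (nat_lit 76) (nat_lit 6128478210) (nat_lit 583) (nat_lit 5) (nat_lit 603) (nat_lit 5) (nat_lit 584) (nat_lit 5) (nat_lit 563) (nat_lit 539) (nat_lit 458)) (XT.lf (nat_lit 0) (nat_lit 3015806577) (nat_lit 1596) (nat_lit 4559710283) (nat_lit 76) (nat_lit 862918407) (nat_lit 563) (nat_lit 5) (nat_lit 584) (nat_lit 5) (nat_lit 564) (nat_lit 5) (nat_lit 564) (nat_lit 539) (nat_lit 457))))) (XT.nd (nat_lit 312) (nat_lit 4788) (nat_lit 0) (XT.nd (nat_lit 156) (nat_lit 1748) (nat_lit 0) (XT.nd (nat_lit 78) (nat_lit 0) (nat_lit 0) (XT.lf (nat_lit 0) (nat_lit 297604927) (nat_lit 1596) (nat_lit 4494959425) (nat_lit 1672) (nat_lit 3715900398) (nat_lit 542) (nat_lit 5) (nat_lit 563) (nat_lit 5) (nat_lit 564) (nat_lit 5) (nat_lit 565) (nat_lit 539) (nat_lit 456)) (XT.lf (nat_lit 0) (nat_lit 5288829484) (nat_lit 1596) (nat_lit 1316833948) (nat_lit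 1672) (nat_lit 1974216253) (nat_lit 542) (nat_lit 5) (nat_lit 563) (nat_lit 5) (nat_lit 564) (nat_lit 5) (nat_lit 566) (nat_lit 539) (nat_lit 455))) (XT.nd (nat_lit 78) (nat_lit 76) (nat_lit 0) (XT.lf (nat_lit 0) (nat_lit 1711941310) (nat_lit 1672) (nat_lit 6737518134) (nat_lit 1748) (nat_lit 203375743) (nat_lit 520) (nat_lit 5) (nat_lit 542) (nat_lit 5) (nat_lit 543) (nat_lit 5) (nat_lit 567) (nat_lit 539) (nat_lit 454)) (XT.lf (nat_lit 0) (nat_lit 1583851967) (nat_lit 1748) (nat_lit 1911867868) (nat_lit 76) (nat_lit 5231282903) (nat_lit 519) (nat_lit 5) (nat_lit 542) (nat_lit 5) (nat_lit 520) (nat_lit 5) (nat_lit 568) (nat_lit 539) (nat_lit 453)))) (XT.nd (nat_lit 156) (nat_lit 3040) (nat_lit 0) (XT.nd (nat_lit 78) (nat_lit 0) (nat_lit 0) (XT.lf (nat_lit 0) (nat_lit 3233913504) (nat_lit 1748) (nat_lit 162795392) (nat_lit 1824) (nat_lit 5406066613) (nat_lit 496) (nat_lit 5) (nat_lit 519) (nat_lit 5) (nat_lit 520) (nat_lit 5) (nat_lit 569) (nat_lit 539)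 (nat_lit 452)) (XT.lf (nat_lit 0) (nat_lit 5251778906) (nat_lit 1824) (nat_lit 417691006) (nat_lit 76) (nat_lit 3210475597) (nat_lit 496) (nat_lit 5) (nat_lit 520) (nat_lit 5) (nat_lit 497) (nat_lit 5) (nat_lit 570) (nat_lit 539) (nat_lit 451))) (XT.nd (nat_lit 78) (nat_lit 1216) (nat_lit 0) (XT.lf (nat_lit 0) (nat_lit 4874542162) (nat_lit 1824) (nat_lit 2274709507) (nat_lit 1900) (nat_lit 1809302091) (nat_lit 472) (nat_lit 5) (nat_lit 496) (nat_lit 5) (nat_lit 497) (nat_lit 5) (nat_lit 571) (nat_lit 539) (nat_lit 450)) (XT.lf (nat_lit 0) (nat_lit 36720429) (nat_lit 1216) (nat_lit 7816447337) (nat_lit 76) (nat_lit 1185733621) (nat_lit 456) (nat_lit 5) (nat_lit 472) (nat_lit 5) (nat_lit 457) (nat_lit 5) (nat_lit 572) (nat_lit 539) (nat_lit 449))))))))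
noncomputable def xc103 : XT := (XT.nd (nat_lit 2418) (nat_lit 8892) (nat_lit 0) (XT.nd (nat_lit 1170) (nat_lit 6688) (nat_lit 0) (XT.nd (nat_lit 546) (nat_lit 4104) (nat_lit 0) (XT.nd (nat_lit 234) (nat_lit 2736) (nat_lit 0) (XT.nd (nat_lit 78) (nat_lit 912) (nat_lit 0) (XT.lf (nat_lit 0) (nat_lit 1911268944) (nat_lit 1216) (nat_lit 2482526383) (nat_lit 76) (nat_lit 4726505633) (nat_lit 456) (nat_lit 5) (nat_lit 472) (nat_lit 5) (nat_lit 457) (nat_lit 5) (nat_lit 573) (nat_lit 539) (nat_lit 448)) (XT.nd (nat_lit 78) (nat_lit 0) (nat_lit 0) (XT.lf (nat_lit 0) (nat_lit 2972151856) (nat_lit 912) (nat_lit 844137860) (nat_lit 988) (nat_lit 5387179992) (nat_lit 444) (nat_lit 5) (nat_lit 456) (nat_lit 5) (nat_lit 457) (nat_lit 5) (nat_lit 574) (nat_lit 539) (nat_lit 447)) (XT.lf (nat_lit 0) (nat_lit 5768254680) (nat_lit 988) (nat_lit 761796536) (nat_lit 76) (nat_lit 2758074532) (nat_lit 444) (nat_lit 5) (nat_lit 457) (nat_lit 5) (nat_lit 445) (nat_lit 5) (nat_lit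 575) (nat_lit 539) (nat_lit 446)))) (XT.nd (nat_lit 156) (nat_lit 912) (nat_lit 0) (XT.nd (nat_lit 78) (nat_lit 912) (nat_lit 0) (XT.lf (nat_lit 0) (nat_lit 4850368185) (nat_lit 912) (nat_lit 2920529186) (nat_lit 988) (nat_lit 1603345548) (nat_lit 432) (nat_lit 5) (nat_lit 444) (nat_lit 5) (nat_lit 445) (nat_lit 5) (nat_lit 576) (nat_lit 539) (nat_lit 445)) (XT.lf (nat_lit 0) (nat_lit 339025491) (nat_lit 912) (nat_lit 8356911115) (nat_lit 76) (nat_lit 766258427) (nat_lit 420) (nat_lit 5) (nat_lit 432) (nat_lit 5) (nat_lit 421) (nat_lit 5) (nat_lit 577) (nat_lit 539) (nat_lit 444))) (XT.nd (nat_lit 78) (nat_lit 912) (nat_lit 0) (XT.lf (nat_lit 0) (nat_lit 2323759183) (nat_lit 912) (nat_lit 2698391635) (nat_lit 76) (nat_lit 4529044462) (nat_lit 420) (nat_lit 5) (nat_lit 432) (nat_lit 5) (nat_lit 421) (nat_lit 5) (nat_lit 578) (nat_lit 539) (nat_lit 443)) (XT.lf (nat_lit 0) (nat_lit 3089026892) (nat_lit 912) (nat_lit 1254769689) (nat_lit 988) (nat_lit 5298267488)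 (nat_lit 408) (nat_lit 5) (nat_lit 420) (nat_lit 5) (nat_lit 421) (nat_lit 5) (nat_lit 579) (nat_lit 539) (nat_lit 442))))) (XT.nd (nat_lit 312) (nat_lit 2356) (nat_lit 0) (XT.nd (nat_lit 156) (nat_lit 912) (nat_lit 0) (XT.nd (nat_lit 78) (nat_lit 836) (nat_lit 0) (XT.lf (nat_lit 0) (nat_lit 6415134329) (nat_lit 988) (nat_lit 747641025) (nat_lit 76) (nat_lit 2571757592) (nat_lit 408) (nat_lit 5) (nat_lit 421) (nat_lit 5) (nat_lit 409) (nat_lit 5) (nat_lit 580) (nat_lit 539) (nat_lit 441)) (XT.lf (nat_lit 0) (nat_lit 5209264465) (nat_lit 836) (nat_lit 3337108558) (nat_lit 912) (nat_lit 1282109385) (nat_lit 397) (nat_lit 5) (nat_lit 408) (nat_lit 5) (nat_lit 409) (nat_lit 5) (nat_lit 581) (nat_lit 539) (nat_lit 440))) (XT.nd (nat_lit 78) (nat_lit 0) (nat_lit 0) (XT.lf (nat_lit 0) (nat_lit 779640440) (nat_lit 912) (nat_lit 8569092189) (nat_lit 76) (nat_lit 575592470) (nat_lit 385) (nat_lit 5) (nat_lit 397) (nat_lit 5) (nat_lit 386) (nat_lit 5) (nat_lit 582)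 (nat_lit 539) (nat_lit 439)) (XT.lf (nat_lit 0) (nat_lit 2895561071) (nat_lit 912) (nat_lit 2565526635) (nat_lit 76) (nat_lit 4560226029) (nat_lit 385) (nat_lit 5) (nat_lit 397) (nat_lit 5) (nat_lit 386) (nat_lit 5) (nat_lit 583) (nat_lit 539) (nat_lit 438)))) (XT.nd (nat_lit 156) (nat_lit 1596) (nat_lit 0) (XT.nd (nat_lit 78) (nat_lit 0) (nat_lit 0) (XT.lf (nat_lit 0) (nat_lit 3580507158) (nat_lit 760) (nat_lit 1473779673) (nat_lit 836) (nat_lit 5065946215) (nat_lit 375) (nat_lit 5) (nat_lit 385) (nat_lit 5) (nat_lit 386) (nat_lit 5) (nat_lit 584) (nat_lit 539) (nat_lit 437)) (XT.lf (nat_lit 0) (nat_lit 7267869443) (nat_lit 836) (nat_lit 378337711) (nat_lit 76) (nat_lit 2574690570) (nat_lit 375) (nat_lit 5) (nat_lit 386) (nat_lit 5) (nat_lit 376) (nat_lit 5) (nat_lit 585) (nat_lit 539) (nat_lit 436))) (XT.nd (nat_lit 78) (nat_lit 836) (nat_lit 0) (XT.lf (nat_lit 0) (nat_lit 5950205100) (nat_lit 760) (nat_lit 3601867325) (nat_lit 836) (nat_lit 770976909)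 (nat_lit 365) (nat_lit 5) (nat_lit 375) (nat_lit 5) (nat_lit 376) (nat_lit 5) (nat_lit 586) (nat_lit 539) (nat_lit 435)) (XT.lf (nat_lit 0) (nat_lit 1432648747) (nat_lit 836) (nat_lit 8455517134) (nat_lit 76) (nat_lit 538949543) (nat_lit 354) (nat_lit 5) (nat_lit 365) (nat_lit 5) (nat_lit 355) (nat_lit 5) (nat_lit 587) (nat_lit 539) (nat_lit 434)))))) (XT.nd (nat_lit 624) (nat_lit 3116) (nat_lit 0) (XT.nd (nat_lit 312) (nat_lit 2052) (nat_lit 0) (XT.nd (nat_lit 156) (nat_lit 760) (nat_lit 0) (XT.nd (nat_lit 78) (nat_lit 760) (nat_lit 0) (XT.lf (nat_lit 0) (nat_lit 3701765727) (nat_lit 836) (nat_lit 2084362363) (nat_lit 76) (nat_lit 4746398556) (nat_lit 354) (nat_lit 5) (nat_lit 365) (nat_lit 5) (nat_lit 355) (nat_lit 5) (nat_lit 588) (nat_lit 539) (nat_lit 433)) (XT.lf (nat_lit 0) (nat_lit 4448303285) (nat_lit 760) (nat_lit 1575608485) (nat_lit 836) (nat_lit 4615981954) (nat_lit 344) (nat_lit 5) (nat_lit 354) (nat_lit 5) (nat_lit 355) (nat_lit 5) (nat_lit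 589) (nat_lit 539) (nat_lit 432))) (XT.nd (nat_lit 78) (nat_lit 76) (nat_lit 0) (XT.lf (nat_lit 0) (nat_lit 353139683) (nat_lit 684) (nat_lit 8052393089) (nat_lit 760) (nat_lit 2343615287) (nat_lit 335) (nat_lit 5) (nat_lit 344) (nat_lit 5) (nat_lit 345) (nat_lit 5) (nat_lit 590) (nat_lit 539) (nat_lit 431)) (XT.lf (nat_lit 0) (nat_lit 5916454) (nat_lit 760) (nat_lit 3782215222) (nat_lit 76) (nat_lit 7071832102) (nat_lit 334) (nat_lit 5) (nat_lit 344) (nat_lit 5) (nat_lit 335) (nat_lit 5) (nat_lit 591) (nat_lit 539) (nat_lit 430)))) (XT.nd (nat_lit 156) (nat_lit 1368) (nat_lit 0) (XT.nd (nat_lit 78) (nat_lit 0) (nat_lit 0) (XT.lf (nat_lit 0) (nat_lit 2373707145) (nat_lit 760) (nat_lit 8013494843) (nat_lit 76) (nat_lit 585431535) (nat_lit 325) (nat_lit 5) (nat_lit 335) (nat_lit 5) (nat_lit 326) (nat_lit 5) (nat_lit 592) (nat_lit 539) (nat_lit 429)) (XT.lf (nat_lit 0) (nat_lit 4819241057) (nat_lit 760) (nat_lit 1250064555) (nat_lit 76) (nat_lit 5017643815)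 (nat_lit 325) (nat_lit 5) (nat_lit 335) (nat_lit 5) (nat_lit 326) (nat_lit 5) (nat_lit 593) (nat_lit 539) (nat_lit 428))) (XT.nd (nat_lit 78) (nat_lit 684) (nat_lit 0) (XT.lf (nat_lit 0) (nat_lit 5699512866) (nat_lit 684) (nat_lit 1631326528) (nat_lit 760) (nat_lit 3872369682) (nat_lit 316) (nat_lit 5) (nat_lit 325) (nat_lit 5) (nat_lit 326) (nat_lit 5) (nat_lit 594) (nat_lit 539) (nat_lit 427)) (XT.lf (nat_lit 0) (nat_lit 1459608416) (nat_lit 684) (nat_lit 8450138499) (nat_lit 760) (nat_lit 1411705953) (nat_lit 307) (nat_lit 5) (nat_lit 316) (nat_lit 5) (nat_lit 317) (nat_lit 5) (nat_lit 595) (nat_lit 539) (nat_lit 426))))) (XT.nd (nat_lit 312) (nat_lit 1824) (nat_lit 0) (XT.nd (nat_lit 156) (nat_lit 608) (nat_lit 0) (XT.nd (nat_lit 78) (nat_lit 608) (nat_lit 0) (XT.lf (nat_lit 0) (nat_lit 1112207291) (nat_lit 760) (nat_lit 2846900335) (nat_lit 76) (nat_lit 7482243005) (nat_lit 306) (nat_lit 5) (nat_lit 316) (nat_lit 5) (nat_lit 307) (nat_lit 5) (nat_lit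 596) (nat_lit 539) (nat_lit 425)) (XT.lf (nat_lit 0) (nat_lit 3680937378) (nat_lit 684) (nat_lit 7235434320) (nat_lit 76) (nat_lit 646823661) (nat_lit 298) (nat_lit 5) (nat_lit 307) (nat_lit 5) (nat_lit 299) (nat_lit 5) (nat_lit 597) (nat_lit 539) (nat_lit 424))) (XT.nd (nat_lit 78) (nat_lit 608) (nat_lit 0) (XT.lf (nat_lit 0) (nat_lit 6327526161) (nat_lit 684) (nat_lit 52836114) (nat_lit 76) (nat_lit 5306585480) (nat_lit 298) (nat_lit 5) (nat_lit 307) (nat_lit 5) (nat_lit 299) (nat_lit 5) (nat_lit 598) (nat_lit 539) (nat_lit 423)) (XT.lf (nat_lit 0) (nat_lit 7346329580) (nat_lit 608) (nat_lit 1709820387) (nat_lit 684) (nat_lit 2756443615) (nat_lit 290) (nat_lit 5) (nat_lit 298) (nat_lit 5) (nat_lit 299) (nat_lit 5) (nat_lit 599) (nat_lit 539) (nat_lit 422)))) (XT.nd (nat_lit 156) (nat_lit 1140) (nat_lit 0) (XT.nd (nat_lit 78) (nat_lit 76) (nat_lit 0) (XT.lf (nat_lit 0) (nat_lit 2948675173) (nat_lit 608) (nat_lit 8911589837) (nat_lit 684) (nat_lit 80069377)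 (nat_lit 282) (nat_lit 5) (nat_lit 290) (nat_lit 5) (nat_lit 291) (nat_lit 5) (nat_lit 600) (nat_lit 539) (nat_lit 421)) (XT.lf (nat_lit 0) (nat_lit 2638247476) (nat_lit 684) (nat_lit 1550005915) (nat_lit 76) (nat_lit 7881569586) (nat_lit 281) (nat_lit 5) (nat_lit 290) (nat_lit 5) (nat_lit 282) (nat_lit 5) (nat_lit 601) (nat_lit 539) (nat_lit 420))) (XT.nd (nat_lit 78) (nat_lit 532) (nat_lit 0) (XT.lf (nat_lit 0) (nat_lit 5435796726) (nat_lit 684) (nat_lit 6109107334) (nat_lit 76) (nat_lit 656468342) (nat_lit 273) (nat_lit 5) (nat_lit 282) (nat_lit 5) (nat_lit 274) (nat_lit 5) (nat_lit 602) (nat_lit 539) (nat_lit 419)) (XT.lf (nat_lit 0) (nat_lit 1542059126) (nat_lit 532) (nat_lit 6777659419) (nat_lit 608) (nat_lit 4015226244) (nat_lit 266) (nat_lit 5) (nat_lit 273) (nat_lit 5) (nat_lit 274) (nat_lit 5) (nat_lit 603) (nat_lit 539) (nat_lit 418))))))) (XT.nd (nat_lit 1170) (nat_lit 4104) (nat_lit 0) (XT.nd (nat_lit 546) (nat_lit 2508) (nat_lit 0) (XT.nd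 (nat_lit 234) (nat_lit 1064) (nat_lit 0) (XT.nd (nat_lit 78) (nat_lit 1216) (nat_lit 0) (XT.lf (nat_lit 0) (nat_lit 9405806452) (nat_lit 532) (nat_lit 1878908170) (nat_lit 608) (nat_lit 1186006483) (nat_lit 266) (nat_lit 5) (nat_lit 273) (nat_lit 5) (nat_lit 274) (nat_lit 5) (nat_lit 604) (nat_lit 539) (nat_lit 417)) (XT.nd (nat_lit 78) (nat_lit 532) (nat_lit 0) (XT.lf (nat_lit 0) (nat_lit 1712093888) (nat_lit 684) (nat_lit 7782076119) (nat_lit 76) (nat_lit 3114130808) (nat_lit 257) (nat_lit 5) (nat_lit 266) (nat_lit 5) (nat_lit 258) (nat_lit 5) (nat_lit 605) (nat_lit 539) (nat_lit 416)) (XT.lf (nat_lit 0) (nat_lit 126554213) (nat_lit 532) (nat_lit 4542490406) (nat_lit 608) (nat_lit 8079095706) (nat_lit 250) (nat_lit 5) (nat_lit 257) (nat_lit 5) (nat_lit 258) (nat_lit 5) (nat_lit 606) (nat_lit 539) (nat_lit 415)))) (XT.nd (nat_lit 156) (nat_lit 532) (nat_lit 0) (XT.nd (nat_lit 78) (nat_lit 532) (nat_lit 0) (XT.lf (nat_lit 0) (nat_lit 7723936723) (nat_lit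 608) (nat_lit 4617865572) (nat_lit 76) (nat_lit 548198648) (nat_lit 250) (nat_lit 5) (nat_lit 258) (nat_lit 5) (nat_lit 251) (nat_lit 5) (nat_lit 607) (nat_lit 539) (nat_lit 414)) (XT.lf (nat_lit 0) (nat_lit 3539390851) (nat_lit 532) (nat_lit 7336868188) (nat_lit 608) (nat_lit 2157713448) (nat_lit 243) (nat_lit 5) (nat_lit 250) (nat_lit 5) (nat_lit 251) (nat_lit 5) (nat_lit 608) (nat_lit 539) (nat_lit 413))) (XT.nd (nat_lit 78) (nat_lit 456) (nat_lit 0) (XT.lf (nat_lit 0) (nat_lit 913392637) (nat_lit 608) (nat_lit 1286880481) (nat_lit 76) (nat_lit 10980141744) (nat_lit 242) (nat_lit 5) (nat_lit 250) (nat_lit 5) (nat_lit 243) (nat_lit 5) (nat_lit 609) (nat_lit 539) (nat_lit 412)) (XT.lf (nat_lit 0) (nat_lit 4067185775) (nat_lit 532) (nat_lit 6207138106) (nat_lit 76) (nat_lit 3054174157) (nat_lit 236) (nat_lit 5) (nat_lit 243) (nat_lit 5) (nat_lit 237) (nat_lit 5) (nat_lit 610) (nat_lit 539) (nat_lit 411))))) (XT.nd (nat_lit 312) (nat_lit 988) (nat_lit 0)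 (XT.nd (nat_lit 156) (nat_lit 988) (nat_lit 0) (XT.nd (nat_lit 78) (nat_lit 0) (nat_lit 0) (XT.lf (nat_lit 0) (nat_lit 2227796244) (nat_lit 532) (nat_lit 5077788798) (nat_lit 608) (nat_lit 6173527564) (nat_lit 229) (nat_lit 5) (nat_lit 236) (nat_lit 5) (nat_lit 237) (nat_lit 5) (nat_lit 611) (nat_lit 539) (nat_lit 410)) (XT.lf (nat_lit 0) (nat_lit 10636058545) (nat_lit 608) (nat_lit 2740821546) (nat_lit 76) (nat_lit 255313573) (nat_lit 229) (nat_lit 5) (nat_lit 237) (nat_lit 5) (nat_lit 230) (nat_lit 5) (nat_lit 612) (nat_lit 539) (nat_lit 409))) (XT.nd (nat_lit 78) (nat_lit 456) (nat_lit 0) (XT.lf (nat_lit 0) (nat_lit 298553333) (nat_lit 532) (nat_lit 7827035143) (nat_lit 76) (nat_lit 5661577217) (nat_lit 222) (nat_lit 5) (nat_lit 229) (nat_lit 5) (nat_lit 223) (nat_lit 5) (nat_lit 613) (nat_lit 539) (nat_lit 408)) (XT.lf (nat_lit 0) (nat_lit 896805019) (nat_lit 456) (nat_lit 2730894553) (nat_lit 532) (nat_lit 10316968162) (nat_lit 216) (nat_lit 5) (nat_lit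 222) (nat_lit 5) (nat_lit 223) (nat_lit 5) (nat_lit 614) (nat_lit 539) (nat_lit 407)))) (XT.nd (nat_lit 156) (nat_lit 532) (nat_lit 0) (XT.nd (nat_lit 78) (nat_lit 456) (nat_lit 0) (XT.lf (nat_lit 0) (nat_lit 7078723559) (nat_lit 532) (nat_lit 4243891400) (nat_lit 76) (nat_lit 2781599260) (nat_lit 216) (nat_lit 5) (nat_lit 223) (nat_lit 5) (nat_lit 217) (nat_lit 5) (nat_lit 615) (nat_lit 539) (nat_lit 406)) (XT.lf (nat_lit 0) (nat_lit 4758424626) (nat_lit 456) (nat_lit 5874056768) (nat_lit 532) (nat_lit 3633796268) (nat_lit 210) (nat_lit 5) (nat_lit 216) (nat_lit 5) (nat_lit 217) (nat_lit 5) (nat_lit 616) (nat_lit 539) (nat_lit 405))) (XT.nd (nat_lit 78) (nat_lit 532) (nat_lit 0) (XT.lf (nat_lit 0) (nat_lit 13976402236) (nat_lit 456) (nat_lit 294281105) (nat_lit 532) (nat_lit 160631942) (nat_lit 210) (nat_lit 5) (nat_lit 216) (nat_lit 5) (nat_lit 217) (nat_lit 5) (nat_lit 617) (nat_lit 539) (nat_lit 404)) (XT.lf (nat_lit 0) (nat_lit 3415721889) (nat_lit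 532) (nat_lit 5782350701) (nat_lit 76) (nat_lit 5399580547) (nat_lit 203) (nat_lit 5) (nat_lit 210) (nat_lit 5) (nat_lit 204) (nat_lit 5) (nat_lit 618) (nat_lit 539) (nat_lit 403)))))) (XT.nd (nat_lit 624) (nat_lit 1976) (nat_lit 0) (XT.nd (nat_lit 312) (nat_lit 836) (nat_lit 0) (XT.nd (nat_lit 156) (nat_lit 912) (nat_lit 0) (XT.nd (nat_lit 78) (nat_lit 0) (nat_lit 0) (XT.lf (nat_lit 0) (nat_lit 3531323640) (nat_lit 380) (nat_lit 3543276444) (nat_lit 456) (nat_lit 7692433738) (nat_lit 198) (nat_lit 5) (nat_lit 203) (nat_lit 5) (nat_lit 204) (nat_lit 5) (nat_lit 619) (nat_lit 539) (nat_lit 402)) (XT.lf (nat_lit 0) (nat_lit 10845460072) (nat_lit 456) (nat_lit 1865967976) (nat_lit 76) (nat_lit 2227598256) (nat_lit 198) (nat_lit 5) (nat_lit 204) (nat_lit 5) (nat_lit 199) (nat_lit 5) (nat_lit 620) (nat_lit 539) (nat_lit 401))) (XT.nd (nat_lit 78) (nat_lit 456) (nat_lit 0) (XT.lf (nat_lit 0) (nat_lit 7747853443) (nat_lit 456) (nat_lit 7003242604) (nat_lit 532)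 (nat_lit 362175674) (nat_lit 192) (nat_lit 5) (nat_lit 198) (nat_lit 5) (nat_lit 199) (nat_lit 5) (nat_lit 621) (nat_lit 539) (nat_lit 400)) (XT.lf (nat_lit 0) (nat_lit 2274364824) (nat_lit 380) (nat_lit 1137321052) (nat_lit 456) (nat_lit 11878609032) (nat_lit 186) (nat_lit 5) (nat_lit 191) (nat_lit 5) (nat_lit 192) (nat_lit 5) (nat_lit 622) (nat_lit 539) (nat_lit 399)))) (XT.nd (nat_lit 156) (nat_lit 456) (nat_lit 0) (XT.nd (nat_lit 78) (nat_lit 380) (nat_lit 0) (XT.lf (nat_lit 0) (nat_lit 7323130674) (nat_lit 456) (nat_lit 3318886259) (nat_lit 76) (nat_lit 4827454880) (nat_lit 186) (nat_lit 5) (nat_lit 192) (nat_lit 5) (nat_lit 187) (nat_lit 5) (nat_lit 623) (nat_lit 539) (nat_lit 398)) (XT.lf (nat_lit 0) (nat_lit 6630337095) (nat_lit 380) (nat_lit 4719062392) (nat_lit 456) (nat_lit 4302101111) (nat_lit 181) (nat_lit 5) (nat_lit 186) (nat_lit 5) (nat_lit 187) (nat_lit 5) (nat_lit 624) (nat_lit 539) (nat_lit 397))) (XT.nd (nat_lit 78) (nat_lit 76) (nat_lit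 0) (XT.lf (nat_lit 0) (nat_lit 969512486) (nat_lit 380) (nat_lit 14510085917) (nat_lit 456) (nat_lit 357103697) (nat_lit 176) (nat_lit 5) (nat_lit 181) (nat_lit 5) (nat_lit 182) (nat_lit 5) (nat_lit 625) (nat_lit 539) (nat_lit 396)) (XT.lf (nat_lit 0) (nat_lit 3697042043) (nat_lit 456) (nat_lit 4818893727) (nat_lit 76) (nat_lit 7507629164) (nat_lit 175) (nat_lit 5) (nat_lit 181) (nat_lit 5) (nat_lit 176) (nat_lit 5) (nat_lit 626) (nat_lit 539) (nat_lit 395))))) (XT.nd (nat_lit 312) (nat_lit 760) (nat_lit 0) (XT.nd (nat_lit 156) (nat_lit 836) (nat_lit 0) (XT.nd (nat_lit 78) (nat_lit 0) (nat_lit 0) (XT.lf (nat_lit 0) (nat_lit 5478955898) (nat_lit 380) (nat_lit 2370531555) (nat_lit 456) (nat_lit 8364190618) (nat_lit 170) (nat_lit 5) (nat_lit 175) (nat_lit 5) (nat_lit 176) (nat_lit 5) (nat_lit 627) (nat_lit 539) (nat_lit 394)) (XT.lf (nat_lit 0) (nat_lit 12129345006) (nat_lit 456) (nat_lit 405372833) (nat_lit 76) (nat_lit 3871988587) (nat_lit 170) (nat_lit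 5) (nat_lit 176) (nat_lit 5) (nat_lit 171) (nat_lit 5) (nat_lit 628) (nat_lit 539) (nat_lit 393))) (XT.nd (nat_lit 78) (nat_lit 456) (nat_lit 0) (XT.lf (nat_lit 0) (nat_lit 10228435058) (nat_lit 380) (nat_lit 6335242721) (nat_lit 456) (nat_lit 38540222) (nat_lit 165) (nat_lit 5) (nat_lit 170) (nat_lit 5) (nat_lit 171) (nat_lit 5) (nat_lit 629) (nat_lit 539) (nat_lit 392)) (XT.lf (nat_lit 0) (nat_lit 4246498893) (nat_lit 456) (nat_lit 12514406861) (nat_lit 76) (nat_lit 39825016) (nat_lit 159) (nat_lit 5) (nat_lit 165) (nat_lit 5) (nat_lit 160) (nat_lit 5) (nat_lit 630) (nat_lit 539) (nat_lit 391)))) (XT.nd (nat_lit 156) (nat_lit 456) (nat_lit 0) (XT.nd (nat_lit 78) (nat_lit 304) (nat_lit 0) (XT.lf (nat_lit 0) (nat_lit 8688619785) (nat_lit 456) (nat_lit 1819516057) (nat_lit 76) (nat_lit 6493635119) (nat_lit 159) (nat_lit 5) (nat_lit 165) (nat_lit 5) (nat_lit 160) (nat_lit 5) (nat_lit 631) (nat_lit 539) (nat_lit 390)) (XT.lf (nat_lit 0) (nat_lit 9189505205)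 (nat_lit 304) (nat_lit 4076885999) (nat_lit 380) (nat_lit 3939504785) (nat_lit 155) (nat_lit 5) (nat_lit 159) (nat_lit 5) (nat_lit 160) (nat_lit 5) (nat_lit 632) (nat_lit 539) (nat_lit 389))) (XT.nd (nat_lit 78) (nat_lit 0) (nat_lit 0) (XT.lf (nat_lit 0) (nat_lit 550326379) (nat_lit 456) (nat_lit 14384296296) (nat_lit 76) (nat_lit 2478702244) (nat_lit 149) (nat_lit 5) (nat_lit 155) (nat_lit 5) (nat_lit 150) (nat_lit 5) (nat_lit 633) (nat_lit 539) (nat_lit 388)) (XT.lf (nat_lit 0) (nat_lit 5145655251) (nat_lit 456) (nat_lit 3293649008) (nat_lit 76) (nat_lit 9183708533) (nat_lit 149) (nat_lit 5) (nat_lit 155) (nat_lit 5) (nat_lit 150) (nat_lit 5) (nat_lit 634) (nat_lit 539) (nat_lit 387))))))))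
noncomputable def xc104 : XT := (XT.nd (nat_lit 75582) (nat_lit 0) (nat_lit 15124) (XT.nd (nat_lit 74334) (nat_lit 0) (nat_lit 34656) (XT.nd (nat_lit 546) (nat_lit 0) (nat_lit 0) (XT.nd (nat_lit 234) (nat_lit 988) (nat_lit 0) (XT.nd (nat_lit 78) (nat_lit 456) (nat_lit 0) (XT.lf (nat_lit 0) (nat_lit 8105112966) (nat_lit 304) (nat_lit 1767903505) (nat_lit 380) (nat_lit 7963075617) (nat_lit 145) (nat_lit 5) (nat_lit 149) (nat_lit 5) (nat_lit 150) (nat_lit 5) (nat_lit 635) (nat_lit 539) (nat_lit 386)) (XT.nd (nat_lit 78) (nat_lit 76) (nat_lit 0) (XT.lf (nat_lit 0) (nat_lit 1692791435) (nat_lit 380) (nat_lit 13055645234) (nat_lit 456) (nat_lit 3303926247) (nat_lit 140) (nat_lit 5) (nat_lit 145) (nat_lit 5) (nat_lit 146) (nat_lit 5) (nat_lit 636) (nat_lit 539) (nat_lit 385)) (XT.lf (nat_lit 0) (nat_lit 1494452466) (nat_lit 456) (nat_lit 4836353057) (nat_lit 76) (nat_lit 11940664879) (nat_lit 139) (nat_lit 5) (nat_lit 145) (nat_lit 5) (nat_lit 140) (nat_lit 5)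 (nat_lit 637) (nat_lit 539) (nat_lit 384)))) (XT.nd (nat_lit 156) (nat_lit 380) (nat_lit 0) (XT.nd (nat_lit 78) (nat_lit 304) (nat_lit 0) (XT.lf (nat_lit 0) (nat_lit 6381507874) (nat_lit 380) (nat_lit 11530568324) (nat_lit 76) (nat_lit 581708258) (nat_lit 135) (nat_lit 5) (nat_lit 140) (nat_lit 5) (nat_lit 136) (nat_lit 5) (nat_lit 638) (nat_lit 539) (nat_lit 383)) (XT.lf (nat_lit 0) (nat_lit 286285679) (nat_lit 304) (nat_lit 11144380220) (nat_lit 380) (nat_lit 7288591826) (nat_lit 131) (nat_lit 5) (nat_lit 135) (nat_lit 5) (nat_lit 136) (nat_lit 5) (nat_lit 639) (nat_lit 539) (nat_lit 382))) (XT.nd (nat_lit 78) (nat_lit 380) (nat_lit 0) (XT.lf (nat_lit 0) (nat_lit 12476139442) (nat_lit 304) (nat_lit 4170060921) (nat_lit 380) (nat_lit 2301732395) (nat_lit 131) (nat_lit 5) (nat_lit 135) (nat_lit 5) (nat_lit 136) (nat_lit 5) (nat_lit 640) (nat_lit 539) (nat_lit 381)) (XT.lf (nat_lit 0) (nat_lit 2793387097) (nat_lit 380) (nat_lit 13432988432) (nat_lit 76)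 (nat_lit 2953543357) (nat_lit 126) (nat_lit 5) (nat_lit 131) (nat_lit 5) (nat_lit 127) (nat_lit 5) (nat_lit 641) (nat_lit 539) (nat_lit 380))))) (XT.nd (nat_lit 73476) (nat_lit 0) (nat_lit 39824) (XT.nd (nat_lit 73320) (nat_lit 0) (nat_lit 41040) (XT.nd (nat_lit 73242) (nat_lit 0) (nat_lit 41040) (XT.lf (nat_lit 0) (nat_lit 8019182325) (nat_lit 380) (nat_lit 1180534984) (nat_lit 76) (nat_lit 10215331422) (nat_lit 126) (nat_lit 5) (nat_lit 131) (nat_lit 5) (nat_lit 127) (nat_lit 5) (nat_lit 642) (nat_lit 539) (nat_lit 379)) (XT.lf (nat_lit 0) (nat_lit 606794677) (nat_lit 0) (nat_lit 606794677) (nat_lit 1140) (nat_lit 2387239941) (nat_lit 666) (nat_lit 5) (nat_lit 666) (nat_lit 3) (nat_lit 681) (nat_lit 3) (nat_lit 540) (nat_lit 540) (nat_lit 480))) (XT.nd (nat_lit 78) (nat_lit 0) (nat_lit 0) (XT.lf (nat_lit 0) (nat_lit 4117139774) (nat_lit 1140) (nat_lit 2393320972) (nat_lit 1216) (nat_lit 729835173) (nat_lit 666) (nat_lit 5) (nat_lit 681) (nat_lit 3) (nat_lit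 682) (nat_lit 5) (nat_lit 541) (nat_lit 540) (nat_lit 479)) (XT.lf (nat_lit 76) (nat_lit 1258999952) (nat_lit 0) (nat_lit 4554687134) (nat_lit 1216) (nat_lit 1466564886) (nat_lit 667) (nat_lit 5) (nat_lit 666) (nat_lit 5) (nat_lit 682) (nat_lit 5) (nat_lit 542) (nat_lit 540) (nat_lit 478)))) (XT.nd (nat_lit 156) (nat_lit 0) (nat_lit 76) (XT.nd (nat_lit 78) (nat_lit 0) (nat_lit 0) (XT.lf (nat_lit 0) (nat_lit 193393827) (nat_lit 1216) (nat_lit 2328652274) (nat_lit 1292) (nat_lit 4799470470) (nat_lit 650) (nat_lit 5) (nat_lit 666) (nat_lit 5) (nat_lit 667) (nat_lit 5) (nat_lit 543) (nat_lit 540) (nat_lit 477)) (XT.lf (nat_lit 76) (nat_lit 1423997933) (nat_lit 0) (nat_lit 410019184) (nat_lit 1292) (nat_lit 5530055029) (nat_lit 651) (nat_lit 5) (nat_lit 650) (nat_lit 5) (nat_lit 667) (nat_lit 5) (nat_lit 544) (nat_lit 540) (nat_lit 476))) (XT.nd (nat_lit 78) (nat_lit 0) (nat_lit 0) (XT.lf (nat_lit 0) (nat_lit 3493148816) (nat_lit 1216) (nat_lit 2158897071)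 (nat_lit 1292) (nat_lit 1755720614) (nat_lit 651) (nat_lit 5) (nat_lit 667) (nat_lit 5) (nat_lit 668) (nat_lit 5) (nat_lit 545) (nat_lit 540) (nat_lit 475)) (XT.lf (nat_lit 76) (nat_lit 1694302369) (nat_lit 0) (nat_lit 3464328785) (nat_lit 1292) (nat_lit 2294241783) (nat_lit 652) (nat_lit 5) (nat_lit 651) (nat_lit 5) (nat_lit 668) (nat_lit 5) (nat_lit 546) (nat_lit 540) (nat_lit 474)))))) (XT.nd (nat_lit 624) (nat_lit 2736) (nat_lit 0) (XT.nd (nat_lit 312) (nat_lit 1292) (nat_lit 0) (XT.nd (nat_lit 156) (nat_lit 0) (nat_lit 0) (XT.nd (nat_lit 78) (nat_lit 1216) (nat_lit 0) (XT.lf (nat_lit 76) (nat_lit 5630875272) (nat_lit 0) (nat_lit 1201133336) (nat_lit 1292) (nat_lit 667382711) (nat_lit 652) (nat_lit 5) (nat_lit 651) (nat_lit 5) (nat_lit 668) (nat_lit 5) (nat_lit 547) (nat_lit 540) (nat_lit 473)) (XT.lf (nat_lit 0) (nat_lit 960669131) (nat_lit 1292) (nat_lit 5457279884) (nat_lit 1368) (nat_lit 1129130380) (nat_lit 635) (nat_lit 5) (nat_lit 652) (nat_lit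 5) (nat_lit 653) (nat_lit 5) (nat_lit 548) (nat_lit 540) (nat_lit 472))) (XT.nd (nat_lit 78) (nat_lit 0) (nat_lit 0) (XT.lf (nat_lit 0) (nat_lit 2594277085) (nat_lit 1292) (nat_lit 1479075969) (nat_lit 1368) (nat_lit 3522642764) (nat_lit 635) (nat_lit 5) (nat_lit 652) (nat_lit 5) (nat_lit 653) (nat_lit 5) (nat_lit 549) (nat_lit 540) (nat_lit 471)) (XT.lf (nat_lit 76) (nat_lit 2589359985) (nat_lit 0) (nat_lit 1650113649) (nat_lit 1368) (nat_lit 3406840014) (nat_lit 636) (nat_lit 5) (nat_lit 635) (nat_lit 5) (nat_lit 653) (nat_lit 5) (nat_lit 550) (nat_lit 540) (nat_lit 470)))) (XT.nd (nat_lit 156) (nat_lit 1368) (nat_lit 0) (XT.nd (nat_lit 78) (nat_lit 0) (nat_lit 0) (XT.lf (nat_lit 0) (nat_lit 5895688905) (nat_lit 1292) (nat_lit 967603566) (nat_lit 1368) (nat_lit 834784449) (nat_lit 636) (nat_lit 5) (nat_lit 653) (nat_lit 5) (nat_lit 654) (nat_lit 5) (nat_lit 551) (nat_lit 540) (nat_lit 469)) (XT.lf (nat_lit 76) (nat_lit 3211213308) (nat_lit 0) (nat_lit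 4369111394) (nat_lit 1368) (nat_lit 170646185) (nat_lit 637) (nat_lit 5) (nat_lit 636) (nat_lit 5) (nat_lit 654) (nat_lit 5) (nat_lit 552) (nat_lit 540) (nat_lit 468))) (XT.nd (nat_lit 78) (nat_lit 0) (nat_lit 76) (XT.lf (nat_lit 0) (nat_lit 1444519574) (nat_lit 1368) (nat_lit 351646625) (nat_lit 1444) (nat_lit 6009156278) (nat_lit 618) (nat_lit 5) (nat_lit 636) (nat_lit 5) (nat_lit 637) (nat_lit 5) (nat_lit 553) (nat_lit 540) (nat_lit 467)) (XT.lf (nat_lit 0) (nat_lit 3085521201) (nat_lit 1368) (nat_lit 3919068369) (nat_lit 1444) (nat_lit 856233894) (nat_lit 619) (nat_lit 5) (nat_lit 637) (nat_lit 5) (nat_lit 638) (nat_lit 5) (nat_lit 554) (nat_lit 540) (nat_lit 466))))) (XT.nd (nat_lit 312) (nat_lit 1444) (nat_lit 0) (XT.nd (nat_lit 156) (nat_lit 1368) (nat_lit 0) (XT.nd (nat_lit 78) (nat_lit 0) (nat_lit 0) (XT.lf (nat_lit 76) (nat_lit 377454629) (nat_lit 0) (nat_lit 4363782099) (nat_lit 1444) (nat_lit 3176561118) (nat_lit 620) (nat_lit 5) (nat_lit 619)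 (nat_lit 5) (nat_lit 638) (nat_lit 5) (nat_lit 555) (nat_lit 540) (nat_lit 465)) (XT.lf (nat_lit 76) (nat_lit 4789200691) (nat_lit 0) (nat_lit 1632865725) (nat_lit 1444) (nat_lit 1554006528) (nat_lit 620) (nat_lit 5) (nat_lit 619) (nat_lit 5) (nat_lit 638) (nat_lit 5) (nat_lit 556) (nat_lit 540) (nat_lit 464))) (XT.nd (nat_lit 78) (nat_lit 0) (nat_lit 0) (XT.lf (nat_lit 0) (nat_lit 81517793) (nat_lit 1444) (nat_lit 6798091220) (nat_lit 1520) (nat_lit 1156255730) (nat_lit 601) (nat_lit 5) (nat_lit 620) (nat_lit 5) (nat_lit 621) (nat_lit 5) (nat_lit 557) (nat_lit 540) (nat_lit 463)) (XT.lf (nat_lit 0) (nat_lit 1728027285) (nat_lit 1444) (nat_lit 2347949596) (nat_lit 1520) (nat_lit 4020689556) (nat_lit 601) (nat_lit 5) (nat_lit 620) (nat_lit 5) (nat_lit 621) (nat_lit 5) (nat_lit 558) (nat_lit 540) (nat_lit 462)))) (XT.nd (nat_lit 156) (nat_lit 1444) (nat_lit 0) (XT.nd (nat_lit 78) (nat_lit 0) (nat_lit 76) (XT.lf (nat_lit 76) (nat_lit 2196085844) (nat_lit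 0) (nat_lit 1193014550) (nat_lit 1520) (nat_lit 4769952235) (nat_lit 602) (nat_lit 5) (nat_lit 601) (nat_lit 5) (nat_lit 621) (nat_lit 5) (nat_lit 559) (nat_lit 540) (nat_lit 461)) (XT.lf (nat_lit 0) (nat_lit 5078516823) (nat_lit 1444) (nat_lit 1395445440) (nat_lit 1520) (nat_lit 1748822956) (nat_lit 602) (nat_lit 5) (nat_lit 621) (nat_lit 5) (nat_lit 622) (nat_lit 5) (nat_lit 560) (nat_lit 540) (nat_lit 460))) (XT.nd (nat_lit 78) (nat_lit 1520) (nat_lit 0) (XT.lf (nat_lit 76) (nat_lit 3274498549) (nat_lit 0) (nat_lit 3524928035) (nat_lit 1520) (nat_lit 1488412866) (nat_lit 603) (nat_lit 5) (nat_lit 602) (nat_lit 5) (nat_lit 622) (nat_lit 5) (nat_lit 561) (nat_lit 540) (nat_lit 459)) (XT.lf (nat_lit 0) (nat_lit 176155464) (nat_lit 1520) (nat_lit 322845241) (nat_lit 1596) (nat_lit 7855604544) (nat_lit 582) (nat_lit 5) (nat_lit 602) (nat_lit 5) (nat_lit 603) (nat_lit 5) (nat_lit 562) (nat_lit 540) (nat_lit 458))))))) (XT.nd (nat_lit 1170) (nat_lit 8056)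 (nat_lit 0) (XT.nd (nat_lit 546) (nat_lit 6688) (nat_lit 0) (XT.nd (nat_lit 234) (nat_lit 3344) (nat_lit 0) (XT.nd (nat_lit 78) (nat_lit 1520) (nat_lit 0) (XT.lf (nat_lit 0) (nat_lit 1869748138) (nat_lit 1520) (nat_lit 3952949828) (nat_lit 76) (nat_lit 2599499397) (nat_lit 583) (nat_lit 5) (nat_lit 603) (nat_lit 5) (nat_lit 584) (nat_lit 5) (nat_lit 563) (nat_lit 540) (nat_lit 457)) (XT.nd (nat_lit 78) (nat_lit 0) (nat_lit 0) (XT.lf (nat_lit 0) (nat_lit 854097533) (nat_lit 1520) (nat_lit 2724046625) (nat_lit 1596) (nat_lit 4913379539) (nat_lit 563) (nat_lit 5) (nat_lit 583) (nat_lit 5) (nat_lit 584) (nat_lit 5) (nat_lit 564) (nat_lit 540) (nat_lit 456)) (XT.lf (nat_lit 0) (nat_lit 5320615398) (nat_lit 1596) (nat_lit 2778563700) (nat_lit 76) (nat_lit 463060300) (nat_lit 563) (nat_lit 5) (nat_lit 584) (nat_lit 5) (nat_lit 564) (nat_lit 5) (nat_lit 565) (nat_lit 540) (nat_lit 455)))) (XT.nd (nat_lit 156) (nat_lit 1672) (nat_lit 0) (XT.nd (nat_lit 78) (nat_lit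 76) (nat_lit 0) (XT.lf (nat_lit 0) (nat_lit 2163579784) (nat_lit 1596) (nat_lit 4937395386) (nat_lit 1672) (nat_lit 1533334428) (nat_lit 542) (nat_lit 5) (nat_lit 563) (nat_lit 5) (nat_lit 564) (nat_lit 5) (nat_lit 566) (nat_lit 540) (nat_lit 454)) (XT.lf (nat_lit 0) (nat_lit 196321758) (nat_lit 1672) (nat_lit 1491155733) (nat_lit 76) (nat_lit 7020518615) (nat_lit 541) (nat_lit 5) (nat_lit 563) (nat_lit 5) (nat_lit 542) (nat_lit 5) (nat_lit 567) (nat_lit 540) (nat_lit 453))) (XT.nd (nat_lit 78) (nat_lit 0) (nat_lit 0) (XT.lf (nat_lit 0) (nat_lit 1945995589) (nat_lit 1748) (nat_lit 5192760571) (nat_lit 76) (nat_lit 1644079273) (nat_lit 519) (nat_lit 5) (nat_lit 542) (nat_lit 5) (nat_lit 520) (nat_lit 5) (nat_lit 568) (nat_lit 540) (nat_lit 452)) (XT.lf (nat_lit 0) (nat_lit 3724076253) (nat_lit 1748) (nat_lit 101473535) (nat_lit 76) (nat_lit 5033754383) (nat_lit 519) (nat_lit 5) (nat_lit 542) (nat_lit 5) (nat_lit 520) (nat_lit 5) (nat_lit 569) (nat_lit 540)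 (nat_lit 451))))) (XT.nd (nat_lit 312) (nat_lit 1900) (nat_lit 0) (XT.nd (nat_lit 156) (nat_lit 1216) (nat_lit 0) (XT.nd (nat_lit 78) (nat_lit 1824) (nat_lit 0) (XT.lf (nat_lit 0) (nat_lit 5135061414) (nat_lit 1748) (nat_lit 408708421) (nat_lit 1824) (nat_lit 3393412298) (nat_lit 496) (nat_lit 5) (nat_lit 519) (nat_lit 5) (nat_lit 520) (nat_lit 5) (nat_lit 570) (nat_lit 540) (nat_lit 450)) (XT.lf (nat_lit 0) (nat_lit 1435620870) (nat_lit 1824) (nat_lit 5967329589) (nat_lit 1900) (nat_lit 1613606193) (nat_lit 472) (nat_lit 5) (nat_lit 496) (nat_lit 5) (nat_lit 497) (nat_lit 5) (nat_lit 571) (nat_lit 540) (nat_lit 449))) (XT.nd (nat_lit 78) (nat_lit 1140) (nat_lit 0) (XT.lf (nat_lit 0) (nat_lit 200845411) (nat_lit 1900) (nat_lit 2296060793) (nat_lit 76) (nat_lit 6600553157) (nat_lit 471) (nat_lit 5) (nat_lit 496) (nat_lit 5) (nat_lit 472) (nat_lit 5) (nat_lit 572) (nat_lit 540) (nat_lit 448)) (XT.lf (nat_lit 0) (nat_lit 2030948984) (nat_lit 1216) (nat_lit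 6086430592) (nat_lit 76) (nat_lit 1062368659) (nat_lit 456) (nat_lit 5) (nat_lit 472) (nat_lit 5) (nat_lit 457) (nat_lit 5) (nat_lit 573) (nat_lit 540) (nat_lit 447)))) (XT.nd (nat_lit 156) (nat_lit 988) (nat_lit 0) (XT.nd (nat_lit 78) (nat_lit 912) (nat_lit 0) (XT.lf (nat_lit 0) (nat_lit 3903900348) (nat_lit 1216) (nat_lit 682818389) (nat_lit 76) (nat_lit 4676840026) (nat_lit 456) (nat_lit 5) (nat_lit 472) (nat_lit 5) (nat_lit 457) (nat_lit 5) (nat_lit 574) (nat_lit 540) (nat_lit 446)) (XT.lf (nat_lit 0) (nat_lit 4868786582) (nat_lit 912) (nat_lit 951841533) (nat_lit 988) (nat_lit 3528291817) (nat_lit 444) (nat_lit 5) (nat_lit 456) (nat_lit 5) (nat_lit 457) (nat_lit 5) (nat_lit 575) (nat_lit 540) (nat_lit 445))) (XT.nd (nat_lit 78) (nat_lit 76) (nat_lit 0) (XT.lf (nat_lit 0) (nat_lit 1076696968) (nat_lit 912) (nat_lit 6703543766) (nat_lit 988) (nat_lit 1655657349) (nat_lit 432) (nat_lit 5) (nat_lit 444) (nat_lit 5) (nat_lit 445) (nat_lit 5) (nat_lit 576)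 (nat_lit 540) (nat_lit 444)) (XT.lf (nat_lit 0) (nat_lit 262883601) (nat_lit 988) (nat_lit 2751230540) (nat_lit 76) (nat_lit 6510233534) (nat_lit 431) (nat_lit 5) (nat_lit 444) (nat_lit 5) (nat_lit 432) (nat_lit 5) (nat_lit 577) (nat_lit 540) (nat_lit 443)))))) (XT.nd (nat_lit 624) (nat_lit 3800) (nat_lit 0) (XT.nd (nat_lit 312) (nat_lit 1672) (nat_lit 0) (XT.nd (nat_lit 156) (nat_lit 1748) (nat_lit 0) (XT.nd (nat_lit 78) (nat_lit 0) (nat_lit 0) (XT.lf (nat_lit 0) (nat_lit 2197725130) (nat_lit 912) (nat_lit 6646563196) (nat_lit 76) (nat_lit 770057794) (nat_lit 420) (nat_lit 5) (nat_lit 432) (nat_lit 5) (nat_lit 421) (nat_lit 5) (nat_lit 578) (nat_lit 540) (nat_lit 442)) (XT.lf (nat_lit 0) (nat_lit 4185841355) (nat_lit 912) (nat_lit 911686780) (nat_lit 76) (nat_lit 4608325546) (nat_lit 420) (nat_lit 5) (nat_lit 432) (nat_lit 5) (nat_lit 421) (nat_lit 5) (nat_lit 579) (nat_lit 540) (nat_lit 441))) (XT.nd (nat_lit 78) (nat_lit 836) (nat_lit 0) (XT.lf (nat_lit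 0) (nat_lit 4979370428) (nat_lit 912) (nat_lit 1243181180) (nat_lit 988) (nat_lit 3576463843) (nat_lit 408) (nat_lit 5) (nat_lit 420) (nat_lit 5) (nat_lit 421) (nat_lit 5) (nat_lit 580) (nat_lit 540) (nat_lit 440)) (XT.lf (nat_lit 0) (nat_lit 1079221833) (nat_lit 836) (nat_lit 7228199924) (nat_lit 912) (nat_lit 1586470863) (nat_lit 397) (nat_lit 5) (nat_lit 408) (nat_lit 5) (nat_lit 409) (nat_lit 5) (nat_lit 581) (nat_lit 540) (nat_lit 439)))) (XT.nd (nat_lit 156) (nat_lit 760) (nat_lit 0) (XT.nd (nat_lit 78) (nat_lit 836) (nat_lit 0) (XT.lf (nat_lit 0) (nat_lit 455250479) (nat_lit 912) (nat_lit 2864223374) (nat_lit 76) (nat_lit 6670781707) (nat_lit 396) (nat_lit 5) (nat_lit 408) (nat_lit 5) (nat_lit 397) (nat_lit 5) (nat_lit 582) (nat_lit 540) (nat_lit 438)) (XT.lf (nat_lit 0) (nat_lit 2519383037) (nat_lit 912) (nat_lit 6879836694) (nat_lit 76) (nat_lit 689060542) (nat_lit 385) (nat_lit 5) (nat_lit 397) (nat_lit 5) (nat_lit 386) (nat_lit 5) (nat_lit 583)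 (nat_lit 540) (nat_lit 437))) (XT.nd (nat_lit 78) (nat_lit 760) (nat_lit 0) (XT.lf (nat_lit 0) (nat_lit 4643815222) (nat_lit 912) (nat_lit 792682914) (nat_lit 76) (nat_lit 4751387630) (nat_lit 385) (nat_lit 5) (nat_lit 397) (nat_lit 5) (nat_lit 386) (nat_lit 5) (nat_lit 584) (nat_lit 540) (nat_lit 436)) (XT.lf (nat_lit 0) (nat_lit 5464270540) (nat_lit 760) (nat_lit 1360066679) (nat_lit 836) (nat_lit 3464874740) (nat_lit 375) (nat_lit 5) (nat_lit 385) (nat_lit 5) (nat_lit 386) (nat_lit 5) (nat_lit 585) (nat_lit 540) (nat_lit 435))))) (XT.nd (nat_lit 312) (nat_lit 2204) (nat_lit 0) (XT.nd (nat_lit 156) (nat_lit 760) (nat_lit 0) (XT.nd (nat_lit 78) (nat_lit 76) (nat_lit 0) (XT.lf (nat_lit 0) (nat_lit 1441480528) (nat_lit 760) (nat_lit 7618256651) (nat_lit 836) (nat_lit 1332602747) (nat_lit 365) (nat_lit 5) (nat_lit 375) (nat_lit 5) (nat_lit 376) (nat_lit 5) (nat_lit 586) (nat_lit 540) (nat_lit 434)) (XT.lf (nat_lit 0) (nat_lit 851382966) (nat_lit 836) (nat_lit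 2636941548) (nat_lit 76) (nat_lit 7008694833) (nat_lit 364) (nat_lit 5) (nat_lit 375) (nat_lit 5) (nat_lit 365) (nat_lit 5) (nat_lit 587) (nat_lit 540) (nat_lit 433))) (XT.nd (nat_lit 78) (nat_lit 0) (nat_lit 0) (XT.lf (nat_lit 0) (nat_lit 3069876056) (nat_lit 836) (nat_lit 6787439446) (nat_lit 76) (nat_lit 746127824) (nat_lit 354) (nat_lit 5) (nat_lit 365) (nat_lit 5) (nat_lit 355) (nat_lit 5) (nat_lit 588) (nat_lit 540) (nat_lit 432)) (XT.lf (nat_lit 0) (nat_lit 5352834703) (nat_lit 836) (nat_lit 324884875) (nat_lit 76) (nat_lit 5033874851) (nat_lit 354) (nat_lit 5) (nat_lit 365) (nat_lit 5) (nat_lit 355) (nat_lit 5) (nat_lit 589) (nat_lit 540) (nat_lit 431)))) (XT.nd (nat_lit 156) (nat_lit 760) (nat_lit 0) (XT.nd (nat_lit 78) (nat_lit 684) (nat_lit 0) (XT.lf (nat_lit 0) (nat_lit 6326584318) (nat_lit 760) (nat_lit 1375534540) (nat_lit 836) (nat_lit 3119376912) (nat_lit 344) (nat_lit 5) (nat_lit 354) (nat_lit 5) (nat_lit 355) (nat_lit 5) (nat_lit 590)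 (nat_lit 540) (nat_lit 430)) (XT.lf (nat_lit 0) (nat_lit 2167242509) (nat_lit 684) (nat_lit 7946792698) (nat_lit 760) (nat_lit 819247535) (nat_lit 335) (nat_lit 5) (nat_lit 344) (nat_lit 5) (nat_lit 345) (nat_lit 5) (nat_lit 591) (nat_lit 540) (nat_lit 429))) (XT.nd (nat_lit 78) (nat_lit 684) (nat_lit 0) (XT.lf (nat_lit 0) (nat_lit 1526263178) (nat_lit 760) (nat_lit 2066009744) (nat_lit 76) (nat_lit 7454446692) (nat_lit 334) (nat_lit 5) (nat_lit 344) (nat_lit 5) (nat_lit 335) (nat_lit 5) (nat_lit 592) (nat_lit 540) (nat_lit 428)) (XT.lf (nat_lit 0) (nat_lit 3924964126) (nat_lit 760) (nat_lit 6365431291) (nat_lit 76) (nat_lit 871577009) (nat_lit 325) (nat_lit 5) (nat_lit 335) (nat_lit 5) (nat_lit 326) (nat_lit 5) (nat_lit 593) (nat_lit 540) (nat_lit 427))))))))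
noncomputable def xc105 : XT := (XT.nd (nat_lit 2418) (nat_lit 4560) (nat_lit 0) (XT.nd (nat_lit 1170) (nat_lit 4864) (nat_lit 0) (XT.nd (nat_lit 546) (nat_lit 3040) (nat_lit 0) (XT.nd (nat_lit 234) (nat_lit 1216) (nat_lit 0) (XT.nd (nat_lit 78) (nat_lit 760) (nat_lit 0) (XT.lf (nat_lit 0) (nat_lit 504425717) (nat_lit 684) (nat_lit 5888772127) (nat_lit 760) (nat_lit 4885901769) (nat_lit 316) (nat_lit 5) (nat_lit 325) (nat_lit 5) (nat_lit 326) (nat_lit 5) (nat_lit 594) (nat_lit 540) (nat_lit 426)) (XT.nd (nat_lit 78) (nat_lit 760) (nat_lit 0) (XT.lf (nat_lit 0) (nat_lit 7574715396) (nat_lit 684) (nat_lit 1359564863) (nat_lit 760) (nat_lit 2463819888) (nat_lit 316) (nat_lit 5) (nat_lit 325) (nat_lit 5) (nat_lit 326) (nat_lit 5) (nat_lit 595) (nat_lit 540) (nat_lit 425)) (XT.lf (nat_lit 0) (nat_lit 30259916) (nat_lit 760) (nat_lit 8253766632) (nat_lit 76) (nat_lit 3234980853) (nat_lit 306) (nat_lit 5) (nat_lit 316) (nat_lit 5) (nat_lit 307) (nat_lit 5) (nat_lit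 596) (nat_lit 540) (nat_lit 424)))) (XT.nd (nat_lit 156) (nat_lit 608) (nat_lit 0) (XT.nd (nat_lit 78) (nat_lit 608) (nat_lit 0) (XT.lf (nat_lit 0) (nat_lit 2557309198) (nat_lit 760) (nat_lit 1143087691) (nat_lit 76) (nat_lit 7941289082) (nat_lit 306) (nat_lit 5) (nat_lit 316) (nat_lit 5) (nat_lit 307) (nat_lit 5) (nat_lit 597) (nat_lit 540) (nat_lit 423)) (XT.lf (nat_lit 0) (nat_lit 5163097484) (nat_lit 684) (nat_lit 5605042113) (nat_lit 76) (nat_lit 998115001) (nat_lit 298) (nat_lit 5) (nat_lit 307) (nat_lit 5) (nat_lit 299) (nat_lit 5) (nat_lit 598) (nat_lit 540) (nat_lit 422))) (XT.nd (nat_lit 78) (nat_lit 0) (nat_lit 0) (XT.lf (nat_lit 0) (nat_lit 1708813554) (nat_lit 608) (nat_lit 6137280782) (nat_lit 684) (nat_lit 4046718844) (nat_lit 290) (nat_lit 5) (nat_lit 298) (nat_lit 5) (nat_lit 299) (nat_lit 5) (nat_lit 599) (nat_lit 540) (nat_lit 421)) (XT.lf (nat_lit 0) (nat_lit 9222101856) (nat_lit 608) (nat_lit 1380241905) (nat_lit 684) (nat_lit 1419167750)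 (nat_lit 290) (nat_lit 5) (nat_lit 298) (nat_lit 5) (nat_lit 299) (nat_lit 5) (nat_lit 600) (nat_lit 540) (nat_lit 420))))) (XT.nd (nat_lit 312) (nat_lit 1216) (nat_lit 0) (XT.nd (nat_lit 156) (nat_lit 532) (nat_lit 0) (XT.nd (nat_lit 78) (nat_lit 608) (nat_lit 0) (XT.lf (nat_lit 0) (nat_lit 1280317317) (nat_lit 684) (nat_lit 7410565520) (nat_lit 76) (nat_lit 3461019241) (nat_lit 281) (nat_lit 5) (nat_lit 290) (nat_lit 5) (nat_lit 282) (nat_lit 5) (nat_lit 601) (nat_lit 540) (nat_lit 419)) (XT.lf (nat_lit 0) (nat_lit 146798289) (nat_lit 608) (nat_lit 3879399558) (nat_lit 684) (nat_lit 8258287231) (nat_lit 273) (nat_lit 5) (nat_lit 281) (nat_lit 5) (nat_lit 282) (nat_lit 5) (nat_lit 602) (nat_lit 540) (nat_lit 418))) (XT.nd (nat_lit 78) (nat_lit 532) (nat_lit 0) (XT.lf (nat_lit 0) (nat_lit 6866282074) (nat_lit 684) (nat_lit 4492917499) (nat_lit 76) (nat_lit 1059734840) (nat_lit 273) (nat_lit 5) (nat_lit 282) (nat_lit 5) (nat_lit 274) (nat_lit 5) (nat_lit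 603) (nat_lit 540) (nat_lit 417)) (XT.lf (nat_lit 0) (nat_lit 3299835633) (nat_lit 532) (nat_lit 6493342059) (nat_lit 608) (nat_lit 2762295237) (nat_lit 266) (nat_lit 5) (nat_lit 273) (nat_lit 5) (nat_lit 274) (nat_lit 5) (nat_lit 604) (nat_lit 540) (nat_lit 416)))) (XT.nd (nat_lit 156) (nat_lit 532) (nat_lit 0) (XT.nd (nat_lit 78) (nat_lit 608) (nat_lit 0) (XT.lf (nat_lit 0) (nat_lit 96090059) (nat_lit 608) (nat_lit 1408113667) (nat_lit 76) (nat_lit 11190261553) (nat_lit 265) (nat_lit 5) (nat_lit 273) (nat_lit 5) (nat_lit 266) (nat_lit 5) (nat_lit 605) (nat_lit 540) (nat_lit 415)) (XT.lf (nat_lit 0) (nat_lit 3024772867) (nat_lit 684) (nat_lit 6215931160) (nat_lit 76) (nat_lit 3594166302) (nat_lit 257) (nat_lit 5) (nat_lit 266) (nat_lit 5) (nat_lit 258) (nat_lit 5) (nat_lit 606) (nat_lit 540) (nat_lit 414))) (XT.nd (nat_lit 78) (nat_lit 0) (nat_lit 0) (XT.lf (nat_lit 0) (nat_lit 1839544237) (nat_lit 532) (nat_lit 4187356416) (nat_lit 608) (nat_lit 6950885759)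 (nat_lit 250) (nat_lit 5) (nat_lit 257) (nat_lit 5) (nat_lit 258) (nat_lit 5) (nat_lit 607) (nat_lit 540) (nat_lit 413)) (XT.lf (nat_lit 0) (nat_lit 9120935814) (nat_lit 608) (nat_lit 3011320887) (nat_lit 76) (nat_lit 990667171) (nat_lit 250) (nat_lit 5) (nat_lit 258) (nat_lit 5) (nat_lit 251) (nat_lit 5) (nat_lit 608) (nat_lit 540) (nat_lit 412)))))) (XT.nd (nat_lit 624) (nat_lit 2280) (nat_lit 0) (XT.nd (nat_lit 312) (nat_lit 988) (nat_lit 0) (XT.nd (nat_lit 156) (nat_lit 532) (nat_lit 0) (XT.nd (nat_lit 78) (nat_lit 532) (nat_lit 0) (XT.lf (nat_lit 0) (nat_lit 5297903677) (nat_lit 532) (nat_lit 7024995585) (nat_lit 608) (nat_lit 947144213) (nat_lit 243) (nat_lit 5) (nat_lit 250) (nat_lit 5) (nat_lit 251) (nat_lit 5) (nat_lit 609) (nat_lit 540) (nat_lit 411)) (XT.lf (nat_lit 0) (nat_lit 362919572) (nat_lit 456) (nat_lit 1784117521) (nat_lit 532) (nat_lit 11272653390) (nat_lit 236) (nat_lit 5) (nat_lit 242) (nat_lit 5) (nat_lit 243) (nat_lit 5) (nat_lit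 610) (nat_lit 540) (nat_lit 410))) (XT.nd (nat_lit 78) (nat_lit 532) (nat_lit 0) (XT.lf (nat_lit 0) (nat_lit 5351526656) (nat_lit 532) (nat_lit 4650455187) (nat_lit 76) (nat_lit 3569001562) (nat_lit 236) (nat_lit 5) (nat_lit 243) (nat_lit 5) (nat_lit 237) (nat_lit 5) (nat_lit 611) (nat_lit 540) (nat_lit 409)) (XT.lf (nat_lit 0) (nat_lit 3942119786) (nat_lit 532) (nat_lit 4699827181) (nat_lit 608) (nat_lit 5082918718) (nat_lit 229) (nat_lit 5) (nat_lit 236) (nat_lit 5) (nat_lit 237) (nat_lit 5) (nat_lit 612) (nat_lit 540) (nat_lit 408)))) (XT.nd (nat_lit 156) (nat_lit 456) (nat_lit 0) (XT.nd (nat_lit 78) (nat_lit 532) (nat_lit 0) (XT.lf (nat_lit 0) (nat_lit 12018744000) (nat_lit 608) (nat_lit 1138301267) (nat_lit 76) (nat_lit 724369292) (nat_lit 229) (nat_lit 5) (nat_lit 237) (nat_lit 5) (nat_lit 230) (nat_lit 5) (nat_lit 613) (nat_lit 540) (nat_lit 407)) (XT.lf (nat_lit 0) (nat_lit 1469927846) (nat_lit 532) (nat_lit 6321632294) (nat_lit 76) (nat_lit 6248018024)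 (nat_lit 222) (nat_lit 5) (nat_lit 229) (nat_lit 5) (nat_lit 223) (nat_lit 5) (nat_lit 614) (nat_lit 540) (nat_lit 406))) (XT.nd (nat_lit 78) (nat_lit 0) (nat_lit 0) (XT.lf (nat_lit 0) (nat_lit 2565750832) (nat_lit 456) (nat_lit 2287774579) (nat_lit 532) (nat_lit 9346947913) (nat_lit 216) (nat_lit 5) (nat_lit 222) (nat_lit 5) (nat_lit 223) (nat_lit 5) (nat_lit 615) (nat_lit 540) (nat_lit 405)) (XT.lf (nat_lit 0) (nat_lit 8354124983) (nat_lit 532) (nat_lit 2690665471) (nat_lit 76) (nat_lit 3318809621) (nat_lit 216) (nat_lit 5) (nat_lit 223) (nat_lit 5) (nat_lit 217) (nat_lit 5) (nat_lit 616) (nat_lit 540) (nat_lit 404))))) (XT.nd (nat_lit 312) (nat_lit 912) (nat_lit 0) (XT.nd (nat_lit 156) (nat_lit 380) (nat_lit 0) (XT.nd (nat_lit 78) (nat_lit 532) (nat_lit 0) (XT.lf (nat_lit 0) (nat_lit 6480919877) (nat_lit 456) (nat_lit 5486371881) (nat_lit 532) (nat_lit 2561846782) (nat_lit 210) (nat_lit 5) (nat_lit 216) (nat_lit 5) (nat_lit 217) (nat_lit 5) (nat_lit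 617) (nat_lit 540) (nat_lit 403)) (XT.lf (nat_lit 0) (nat_lit 954673728) (nat_lit 532) (nat_lit 13536544959) (nat_lit 76) (nat_lit 206396162) (nat_lit 203) (nat_lit 5) (nat_lit 210) (nat_lit 5) (nat_lit 204) (nat_lit 5) (nat_lit 618) (nat_lit 540) (nat_lit 402))) (XT.nd (nat_lit 78) (nat_lit 380) (nat_lit 0) (XT.lf (nat_lit 0) (nat_lit 4583439525) (nat_lit 532) (nat_lit 4279759896) (nat_lit 76) (nat_lit 6004398492) (nat_lit 203) (nat_lit 5) (nat_lit 210) (nat_lit 5) (nat_lit 204) (nat_lit 5) (nat_lit 619) (nat_lit 540) (nat_lit 401)) (XT.lf (nat_lit 0) (nat_lit 5209541630) (nat_lit 380) (nat_lit 3094834279) (nat_lit 456) (nat_lit 6736213087) (nat_lit 198) (nat_lit 5) (nat_lit 203) (nat_lit 5) (nat_lit 204) (nat_lit 5) (nat_lit 620) (nat_lit 540) (nat_lit 400)))) (XT.nd (nat_lit 156) (nat_lit 380) (nat_lit 0) (XT.nd (nat_lit 78) (nat_lit 532) (nat_lit 0) (XT.lf (nat_lit 0) (nat_lit 12132619777) (nat_lit 456) (nat_lit 309164463) (nat_lit 76) (nat_lit 2774598142)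 (nat_lit 198) (nat_lit 5) (nat_lit 204) (nat_lit 5) (nat_lit 199) (nat_lit 5) (nat_lit 621) (nat_lit 540) (nat_lit 399)) (XT.lf (nat_lit 0) (nat_lit 702008696) (nat_lit 532) (nat_lit 5912499900) (nat_lit 76) (nat_lit 8779726189) (nat_lit 191) (nat_lit 5) (nat_lit 198) (nat_lit 5) (nat_lit 192) (nat_lit 5) (nat_lit 622) (nat_lit 540) (nat_lit 398))) (XT.nd (nat_lit 78) (nat_lit 0) (nat_lit 0) (XT.lf (nat_lit 0) (nat_lit 3907168321) (nat_lit 380) (nat_lit 628726677) (nat_lit 456) (nat_lit 11039067984) (nat_lit 186) (nat_lit 5) (nat_lit 191) (nat_lit 5) (nat_lit 192) (nat_lit 5) (nat_lit 623) (nat_lit 540) (nat_lit 397)) (XT.lf (nat_lit 0) (nat_lit 8508245466) (nat_lit 456) (nat_lit 1811730447) (nat_lit 76) (nat_lit 5438094337) (nat_lit 186) (nat_lit 5) (nat_lit 192) (nat_lit 5) (nat_lit 187) (nat_lit 5) (nat_lit 624) (nat_lit 540) (nat_lit 396))))))) (XT.nd (nat_lit 1170) (nat_lit 684) (nat_lit 0) (XT.nd (nat_lit 546) (nat_lit 1824) (nat_lit 0) (XT.nd (nat_lit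 234) (nat_lit 1216) (nat_lit 0) (XT.nd (nat_lit 78) (nat_lit 456) (nat_lit 0) (XT.lf (nat_lit 0) (nat_lit 8326125180) (nat_lit 380) (nat_lit 4278697955) (nat_lit 456) (nat_lit 3339121156) (nat_lit 181) (nat_lit 5) (nat_lit 186) (nat_lit 5) (nat_lit 187) (nat_lit 5) (nat_lit 625) (nat_lit 540) (nat_lit 395)) (XT.nd (nat_lit 78) (nat_lit 0) (nat_lit 0) (XT.lf (nat_lit 0) (nat_lit 669182668) (nat_lit 456) (nat_lit 13578582271) (nat_lit 76) (nat_lit 1885128555) (nat_lit 175) (nat_lit 5) (nat_lit 181) (nat_lit 5) (nat_lit 176) (nat_lit 5) (nat_lit 626) (nat_lit 540) (nat_lit 394)) (XT.lf (nat_lit 0) (nat_lit 4779464541) (nat_lit 456) (nat_lit 3362736101) (nat_lit 76) (nat_lit 8181649368) (nat_lit 175) (nat_lit 5) (nat_lit 181) (nat_lit 5) (nat_lit 176) (nat_lit 5) (nat_lit 627) (nat_lit 540) (nat_lit 393)))) (XT.nd (nat_lit 156) (nat_lit 456) (nat_lit 0) (XT.nd (nat_lit 78) (nat_lit 380) (nat_lit 0) (XT.lf (nat_lit 0) (nat_lit 7130856467) (nat_lit 380) (nat_lit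 1874342016) (nat_lit 456) (nat_lit 7512762460) (nat_lit 170) (nat_lit 5) (nat_lit 175) (nat_lit 5) (nat_lit 176) (nat_lit 5) (nat_lit 628) (nat_lit 540) (nat_lit 392)) (XT.lf (nat_lit 0) (nat_lit 1129552353) (nat_lit 380) (nat_lit 12232312076) (nat_lit 456) (nat_lit 3353161530) (nat_lit 165) (nat_lit 5) (nat_lit 170) (nat_lit 5) (nat_lit 171) (nat_lit 5) (nat_lit 629) (nat_lit 540) (nat_lit 391))) (XT.nd (nat_lit 78) (nat_lit 380) (nat_lit 0) (XT.lf (nat_lit 0) (nat_lit 940853939) (nat_lit 456) (nat_lit 4969804726) (nat_lit 76) (nat_lit 11004000487) (nat_lit 164) (nat_lit 5) (nat_lit 170) (nat_lit 5) (nat_lit 165) (nat_lit 5) (nat_lit 630) (nat_lit 540) (nat_lit 390)) (XT.lf (nat_lit 0) (nat_lit 5305321819) (nat_lit 456) (nat_lit 11227724882) (nat_lit 76) (nat_lit 584205800) (nat_lit 159) (nat_lit 5) (nat_lit 165) (nat_lit 5) (nat_lit 160) (nat_lit 5) (nat_lit 631) (nat_lit 540) (nat_lit 389))))) (XT.nd (nat_lit 312) (nat_lit 1064) (nat_lit 0) (XT.nd (nat_lit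 156) (nat_lit 456) (nat_lit 0) (XT.nd (nat_lit 78) (nat_lit 304) (nat_lit 0) (XT.lf (nat_lit 0) (nat_lit 9817189189) (nat_lit 456) (nat_lit 349072930) (nat_lit 76) (nat_lit 7156433589) (nat_lit 159) (nat_lit 5) (nat_lit 165) (nat_lit 5) (nat_lit 160) (nat_lit 5) (nat_lit 632) (nat_lit 540) (nat_lit 388)) (XT.lf (nat_lit 0) (nat_lit 10870215379) (nat_lit 304) (nat_lit 3607298146) (nat_lit 380) (nat_lit 3053570053) (nat_lit 155) (nat_lit 5) (nat_lit 159) (nat_lit 5) (nat_lit 160) (nat_lit 5) (nat_lit 633) (nat_lit 540) (nat_lit 387))) (XT.nd (nat_lit 78) (nat_lit 0) (nat_lit 0) (XT.lf (nat_lit 0) (nat_lit 1508087129) (nat_lit 456) (nat_lit 13157063505) (nat_lit 76) (nat_lit 3077491818) (nat_lit 149) (nat_lit 5) (nat_lit 155) (nat_lit 5) (nat_lit 150) (nat_lit 5) (nat_lit 634) (nat_lit 540) (nat_lit 386)) (XT.lf (nat_lit 0) (nat_lit 6176758769) (nat_lit 456) (nat_lit 1874307560) (nat_lit 76) (nat_lit 9905829301) (nat_lit 149) (nat_lit 5) (nat_lit 155) (nat_lit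 5) (nat_lit 150) (nat_lit 5) (nat_lit 635) (nat_lit 540) (nat_lit 385)))) (XT.nd (nat_lit 156) (nat_lit 380) (nat_lit 0) (XT.nd (nat_lit 78) (nat_lit 380) (nat_lit 0) (XT.lf (nat_lit 0) (nat_lit 9742658506) (nat_lit 304) (nat_lit 1247388452) (nat_lit 380) (nat_lit 7184362226) (nat_lit 145) (nat_lit 5) (nat_lit 149) (nat_lit 5) (nat_lit 150) (nat_lit 5) (nat_lit 636) (nat_lit 540) (nat_lit 384)) (XT.lf (nat_lit 0) (nat_lit 3207081989) (nat_lit 380) (nat_lit 12751013078) (nat_lit 456) (nat_lit 2437008233) (nat_lit 140) (nat_lit 5) (nat_lit 145) (nat_lit 5) (nat_lit 146) (nat_lit 5) (nat_lit 637) (nat_lit 540) (nat_lit 383))) (XT.nd (nat_lit 78) (nat_lit 304) (nat_lit 0) (XT.lf (nat_lit 0) (nat_lit 2427047517) (nat_lit 456) (nat_lit 3469664464) (nat_lit 76) (nat_lit 12722121137) (nat_lit 139) (nat_lit 5) (nat_lit 145) (nat_lit 5) (nat_lit 140) (nat_lit 5) (nat_lit 638) (nat_lit 540) (nat_lit 382)) (XT.lf (nat_lit 0) (nat_lit 7407214497) (nat_lit 380) (nat_lit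 10293122174) (nat_lit 76) (nat_lit 1145349618) (nat_lit 135) (nat_lit 5) (nat_lit 140) (nat_lit 5) (nat_lit 136) (nat_lit 5) (nat_lit 639) (nat_lit 540) (nat_lit 381)))))) (XT.nd (nat_lit 73866) (nat_lit 0) (nat_lit 37316) (XT.nd (nat_lit 73554) (nat_lit 0) (nat_lit 39748) (XT.nd (nat_lit 156) (nat_lit 380) (nat_lit 0) (XT.nd (nat_lit 78) (nat_lit 0) (nat_lit 0) (XT.lf (nat_lit 0) (nat_lit 1750410636) (nat_lit 304) (nat_lit 10798804600) (nat_lit 380) (nat_lit 6526616840) (nat_lit 131) (nat_lit 5) (nat_lit 135) (nat_lit 5) (nat_lit 136) (nat_lit 5) (nat_lit 640) (nat_lit 540) (nat_lit 380)) (XT.lf (nat_lit 0) (nat_lit 14155465410) (nat_lit 304) (nat_lit 3696145252) (nat_lit 380) (nat_lit 1457819178) (nat_lit 131) (nat_lit 5) (nat_lit 135) (nat_lit 5) (nat_lit 136) (nat_lit 5) (nat_lit 641) (nat_lit 540) (nat_lit 379))) (XT.nd (nat_lit 73320) (nat_lit 0) (nat_lit 41040) (XT.lf (nat_lit 0) (nat_lit 3723253903) (nat_lit 380) (nat_lit 12255873217) (nat_lit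 76) (nat_lit 3566898776) (nat_lit 126) (nat_lit 5) (nat_lit 131) (nat_lit 5) (nat_lit 127) (nat_lit 5) (nat_lit 642) (nat_lit 540) (nat_lit 378)) (XT.lf (nat_lit 0) (nat_lit 1443982644) (nat_lit 0) (nat_lit 1443982644) (nat_lit 1140) (nat_lit 751813464) (nat_lit 666) (nat_lit 5) (nat_lit 666) (nat_lit 3) (nat_lit 681) (nat_lit 3) (nat_lit 541) (nat_lit 541) (nat_lit 478)))) (XT.nd (nat_lit 156) (nat_lit 0) (nat_lit 76) (XT.nd (nat_lit 78) (nat_lit 0) (nat_lit 76) (XT.lf (nat_lit 0) (nat_lit 108282025) (nat_lit 1292) (nat_lit 754415523) (nat_lit 1292) (nat_lit 6457650486) (nat_lit 649) (nat_lit 3) (nat_lit 666) (nat_lit 3) (nat_lit 666) (nat_lit 5) (nat_lit 542) (nat_lit 541) (nat_lit 477)) (XT.lf (nat_lit 0) (nat_lit 1717537267) (nat_lit 1216) (nat_lit 4407446588) (nat_lit 1292) (nat_lit 1237068525) (nat_lit 650) (nat_lit 5) (nat_lit 666) (nat_lit 5) (nat_lit 667) (nat_lit 5) (nat_lit 543) (nat_lit 541) (nat_lit 476))) (XT.nd (nat_lit 78) (nat_lit 0) (nat_lit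 0) (XT.lf (nat_lit 0) (nat_lit 3328452395) (nat_lit 1216) (nat_lit 684521277) (nat_lit 1292) (nat_lit 3392229232) (nat_lit 650) (nat_lit 5) (nat_lit 666) (nat_lit 5) (nat_lit 667) (nat_lit 5) (nat_lit 544) (nat_lit 541) (nat_lit 475)) (XT.lf (nat_lit 76) (nat_lit 3132058881) (nat_lit 0) (nat_lit 1819338327) (nat_lit 1292) (nat_lit 2498224557) (nat_lit 651) (nat_lit 5) (nat_lit 650) (nat_lit 5) (nat_lit 667) (nat_lit 5) (nat_lit 545) (nat_lit 541) (nat_lit 474))))) (XT.nd (nat_lit 312) (nat_lit 1292) (nat_lit 0) (XT.nd (nat_lit 156) (nat_lit 0) (nat_lit 0) (XT.nd (nat_lit 78) (nat_lit 1292) (nat_lit 0) (XT.lf (nat_lit 0) (nat_lit 6574387043) (nat_lit 1216) (nat_lit 485986968) (nat_lit 1292) (nat_lit 435204796) (nat_lit 651) (nat_lit 5) (nat_lit 667) (nat_lit 5) (nat_lit 668) (nat_lit 5) (nat_lit 546) (nat_lit 541) (nat_lit 473)) (XT.lf (nat_lit 0) (nat_lit 673698835) (nat_lit 1292) (nat_lit 4113995018) (nat_lit 1368) (nat_lit 2754766699) (nat_lit 634) (nat_lit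 5) (nat_lit 651) (nat_lit 5) (nat_lit 652) (nat_lit 5) (nat_lit 547) (nat_lit 541) (nat_lit 472))) (XT.nd (nat_lit 78) (nat_lit 0) (nat_lit 0) (XT.lf (nat_lit 0) (nat_lit 2252838979) (nat_lit 1292) (nat_lit 191120235) (nat_lit 1368) (nat_lit 5146906642) (nat_lit 634) (nat_lit 5) (nat_lit 651) (nat_lit 5) (nat_lit 652) (nat_lit 5) (nat_lit 548) (nat_lit 541) (nat_lit 471)) (XT.lf (nat_lit 76) (nat_lit 3838418203) (nat_lit 0) (nat_lit 12214430) (nat_lit 1368) (nat_lit 3789866627) (nat_lit 635) (nat_lit 5) (nat_lit 634) (nat_lit 5) (nat_lit 652) (nat_lit 5) (nat_lit 549) (nat_lit 541) (nat_lit 470)))) (XT.nd (nat_lit 156) (nat_lit 1368) (nat_lit 0) (XT.nd (nat_lit 78) (nat_lit 0) (nat_lit 0) (XT.lf (nat_lit 76) (nat_lit 224108924) (nat_lit 0) (nat_lit 5237891918) (nat_lit 1368) (nat_lit 2229493499) (nat_lit 636) (nat_lit 5) (nat_lit 635) (nat_lit 5) (nat_lit 653) (nat_lit 5) (nat_lit 550) (nat_lit 541) (nat_lit 469)) (XT.lf (nat_lit 76) (nat_lit 4359593927)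 (nat_lit 0) (nat_lit 2735025645) (nat_lit 1368) (nat_lit 649110643) (nat_lit 636) (nat_lit 5) (nat_lit 635) (nat_lit 5) (nat_lit 653) (nat_lit 5) (nat_lit 551) (nat_lit 541) (nat_lit 468))) (XT.nd (nat_lit 78) (nat_lit 0) (nat_lit 76) (XT.lf (nat_lit 76) (nat_lit 761796084) (nat_lit 0) (nat_lit 157308687) (nat_lit 1444) (nat_lit 6878405238) (nat_lit 618) (nat_lit 5) (nat_lit 617) (nat_lit 5) (nat_lit 636) (nat_lit 5) (nat_lit 552) (nat_lit 541) (nat_lit 467)) (XT.lf (nat_lit 0) (nat_lit 2513462835) (nat_lit 1368) (nat_lit 2859257759) (nat_lit 1444) (nat_lit 2479490870) (nat_lit 618) (nat_lit 5) (nat_lit 636) (nat_lit 5) (nat_lit 637) (nat_lit 5) (nat_lit 553) (nat_lit 541) (nat_lit 466))))))))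
noncomputable def xc106 : XT := (XT.nd (nat_lit 2418) (nat_lit 12388) (nat_lit 0) (XT.nd (nat_lit 1170) (nat_lit 10184) (nat_lit 0) (XT.nd (nat_lit 546) (nat_lit 6156) (nat_lit 0) (XT.nd (nat_lit 234) (nat_lit 1368) (nat_lit 0) (XT.nd (nat_lit 78) (nat_lit 0) (nat_lit 76) (XT.lf (nat_lit 76) (nat_lit 1395072823) (nat_lit 0) (nat_lit 2719982261) (nat_lit 1444) (nat_lit 3793446176) (nat_lit 619) (nat_lit 5) (nat_lit 618) (nat_lit 5) (nat_lit 637) (nat_lit 5) (nat_lit 554) (nat_lit 541) (nat_lit 465)) (XT.nd (nat_lit 78) (nat_lit 0) (nat_lit 0) (XT.lf (nat_lit 0) (nat_lit 5733756812) (nat_lit 1368) (nat_lit 2215838887) (nat_lit 1444) (nat_lit 16620824) (nat_lit 619) (nat_lit 5) (nat_lit 637) (nat_lit 5) (nat_lit 638) (nat_lit 5) (nat_lit 555) (nat_lit 541) (nat_lit 464)) (XT.lf (nat_lit 76) (nat_lit 2154893447) (nat_lit 0) (nat_lit 5228468321) (nat_lit 1444) (nat_lit 641754944) (nat_lit 620) (nat_lit 5) (nat_lit 619) (nat_lit 5) (nat_lit 638) (nat_lit 5)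 (nat_lit 556) (nat_lit 541) (nat_lit 463)))) (XT.nd (nat_lit 156) (nat_lit 0) (nat_lit 76) (XT.nd (nat_lit 78) (nat_lit 0) (nat_lit 76) (XT.lf (nat_lit 0) (nat_lit 949682169) (nat_lit 1444) (nat_lit 1471635239) (nat_lit 1520) (nat_lit 5664115674) (nat_lit 600) (nat_lit 5) (nat_lit 619) (nat_lit 5) (nat_lit 620) (nat_lit 5) (nat_lit 557) (nat_lit 541) (nat_lit 462)) (XT.lf (nat_lit 0) (nat_lit 2554573934) (nat_lit 1444) (nat_lit 5122729841) (nat_lit 1520) (nat_lit 469763916) (nat_lit 601) (nat_lit 5) (nat_lit 620) (nat_lit 5) (nat_lit 621) (nat_lit 5) (nat_lit 558) (nat_lit 541) (nat_lit 461))) (XT.nd (nat_lit 78) (nat_lit 0) (nat_lit 0) (XT.lf (nat_lit 0) (nat_lit 4185554286) (nat_lit 1444) (nat_lit 619101526) (nat_lit 1520) (nat_lit 3405400477) (nat_lit 601) (nat_lit 5) (nat_lit 620) (nat_lit 5) (nat_lit 621) (nat_lit 5) (nat_lit 559) (nat_lit 541) (nat_lit 460)) (XT.lf (nat_lit 76) (nat_lit 4004131682) (nat_lit 0) (nat_lit 1839661894) (nat_lit 1520)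 (nat_lit 2430619385) (nat_lit 602) (nat_lit 5) (nat_lit 601) (nat_lit 5) (nat_lit 621) (nat_lit 5) (nat_lit 560) (nat_lit 541) (nat_lit 459))))) (XT.nd (nat_lit 312) (nat_lit 4788) (nat_lit 0) (XT.nd (nat_lit 156) (nat_lit 0) (nat_lit 0) (XT.nd (nat_lit 78) (nat_lit 1520) (nat_lit 0) (XT.lf (nat_lit 76) (nat_lit 361771117) (nat_lit 0) (nat_lit 7156809632) (nat_lit 1520) (nat_lit 821809422) (nat_lit 603) (nat_lit 5) (nat_lit 602) (nat_lit 5) (nat_lit 622) (nat_lit 5) (nat_lit 561) (nat_lit 541) (nat_lit 458)) (XT.lf (nat_lit 0) (nat_lit 818873535) (nat_lit 1520) (nat_lit 3304211581) (nat_lit 1596) (nat_lit 4284287655) (nat_lit 582) (nat_lit 5) (nat_lit 602) (nat_lit 5) (nat_lit 603) (nat_lit 5) (nat_lit 562) (nat_lit 541) (nat_lit 457))) (XT.nd (nat_lit 78) (nat_lit 0) (nat_lit 76) (XT.lf (nat_lit 76) (nat_lit 1454021628) (nat_lit 0) (nat_lit 1006806674) (nat_lit 1596) (nat_lit 6015169841) (nat_lit 583) (nat_lit 5) (nat_lit 582) (nat_lit 5) (nat_lit 603)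 (nat_lit 5) (nat_lit 563) (nat_lit 541) (nat_lit 456)) (XT.lf (nat_lit 0) (nat_lit 4142533613) (nat_lit 1520) (nat_lit 2231361339) (nat_lit 76) (nat_lit 2171963827) (nat_lit 583) (nat_lit 5) (nat_lit 603) (nat_lit 5) (nat_lit 584) (nat_lit 5) (nat_lit 564) (nat_lit 541) (nat_lit 455)))) (XT.nd (nat_lit 156) (nat_lit 3344) (nat_lit 0) (XT.nd (nat_lit 78) (nat_lit 0) (nat_lit 0) (XT.lf (nat_lit 0) (nat_lit 2659980604) (nat_lit 1520) (nat_lit 3192899846) (nat_lit 1596) (nat_lit 2764336997) (nat_lit 563) (nat_lit 5) (nat_lit 583) (nat_lit 5) (nat_lit 584) (nat_lit 5) (nat_lit 565) (nat_lit 541) (nat_lit 454)) (XT.lf (nat_lit 0) (nat_lit 7584364009) (nat_lit 1596) (nat_lit 1034499460) (nat_lit 76) (nat_lit 71402171) (nat_lit 563) (nat_lit 5) (nat_lit 584) (nat_lit 5) (nat_lit 564) (nat_lit 5) (nat_lit 566) (nat_lit 541) (nat_lit 453))) (XT.nd (nat_lit 78) (nat_lit 1672) (nat_lit 0) (XT.lf (nat_lit 0) (nat_lit 597307403) (nat_lit 1672) (nat_lit 4773674983) (nat_lit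 76) (nat_lit 3393331536) (nat_lit 541) (nat_lit 5) (nat_lit 563) (nat_lit 5) (nat_lit 542) (nat_lit 5) (nat_lit 567) (nat_lit 541) (nat_lit 452)) (XT.lf (nat_lit 0) (nat_lit 263173598) (nat_lit 1672) (nat_lit 2037603258) (nat_lit 1748) (nat_lit 6539300922) (nat_lit 519) (nat_lit 5) (nat_lit 541) (nat_lit 5) (nat_lit 542) (nat_lit 5) (nat_lit 568) (nat_lit 541) (nat_lit 451)))))) (XT.nd (nat_lit 624) (nat_lit 4484) (nat_lit 0) (XT.nd (nat_lit 312) (nat_lit 2052) (nat_lit 0) (XT.nd (nat_lit 156) (nat_lit 1900) (nat_lit 0) (XT.nd (nat_lit 78) (nat_lit 1748) (nat_lit 0) (XT.lf (nat_lit 0) (nat_lit 4052118683) (nat_lit 1748) (nat_lit 3484231771) (nat_lit 76) (nat_lit 1380731272) (nat_lit 519) (nat_lit 5) (nat_lit 542) (nat_lit 5) (nat_lit 520) (nat_lit 5) (nat_lit 569) (nat_lit 541) (nat_lit 450)) (XT.lf (nat_lit 0) (nat_lit 1695581924) (nat_lit 1748) (nat_lit 4140654483) (nat_lit 1824) (nat_lit 3159435225) (nat_lit 496) (nat_lit 5) (nat_lit 519) (nat_lit 5)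 (nat_lit 520) (nat_lit 5) (nat_lit 570) (nat_lit 541) (nat_lit 449))) (XT.nd (nat_lit 78) (nat_lit 1900) (nat_lit 0) (XT.lf (nat_lit 0) (nat_lit 7002919929) (nat_lit 1748) (nat_lit 650117040) (nat_lit 1824) (nat_lit 1422857200) (nat_lit 496) (nat_lit 5) (nat_lit 519) (nat_lit 5) (nat_lit 520) (nat_lit 5) (nat_lit 571) (nat_lit 541) (nat_lit 448)) (XT.lf (nat_lit 0) (nat_lit 358187708) (nat_lit 1900) (nat_lit 5900643948) (nat_lit 76) (nat_lit 2898558953) (nat_lit 471) (nat_lit 5) (nat_lit 496) (nat_lit 5) (nat_lit 472) (nat_lit 5) (nat_lit 572) (nat_lit 541) (nat_lit 447)))) (XT.nd (nat_lit 156) (nat_lit 912) (nat_lit 0) (XT.nd (nat_lit 78) (nat_lit 1140) (nat_lit 0) (XT.lf (nat_lit 0) (nat_lit 2148470197) (nat_lit 1900) (nat_lit 556467876) (nat_lit 76) (nat_lit 6535538222) (nat_lit 471) (nat_lit 5) (nat_lit 496) (nat_lit 5) (nat_lit 472) (nat_lit 5) (nat_lit 573) (nat_lit 541) (nat_lit 446)) (XT.lf (nat_lit 0) (nat_lit 3987652302) (nat_lit 1216) (nat_lit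 4395062614) (nat_lit 76) (nat_lit 942247679) (nat_lit 456) (nat_lit 5) (nat_lit 472) (nat_lit 5) (nat_lit 457) (nat_lit 5) (nat_lit 574) (nat_lit 541) (nat_lit 445))) (XT.nd (nat_lit 78) (nat_lit 0) (nat_lit 0) (XT.lf (nat_lit 0) (nat_lit 1095437782) (nat_lit 912) (nat_lit 4772166939) (nat_lit 988) (nat_lit 3543454928) (nat_lit 444) (nat_lit 5) (nat_lit 456) (nat_lit 5) (nat_lit 457) (nat_lit 5) (nat_lit 575) (nat_lit 541) (nat_lit 444)) (XT.lf (nat_lit 0) (nat_lit 6732013611) (nat_lit 912) (nat_lit 1058172594) (nat_lit 988) (nat_lit 1708592587) (nat_lit 444) (nat_lit 5) (nat_lit 456) (nat_lit 5) (nat_lit 457) (nat_lit 5) (nat_lit 576) (nat_lit 541) (nat_lit 443))))) (XT.nd (nat_lit 312) (nat_lit 1748) (nat_lit 0) (XT.nd (nat_lit 156) (nat_lit 1748) (nat_lit 0) (XT.nd (nat_lit 78) (nat_lit 0) (nat_lit 0) (XT.lf (nat_lit 0) (nat_lit 173424437) (nat_lit 988) (nat_lit 6699240610) (nat_lit 76) (nat_lit 2715314931) (nat_lit 431) (nat_lit 5) (nat_lit 444) (nat_lit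 5) (nat_lit 432) (nat_lit 5) (nat_lit 577) (nat_lit 541) (nat_lit 442)) (XT.lf (nat_lit 0) (nat_lit 2072108336) (nat_lit 988) (nat_lit 1025686613) (nat_lit 76) (nat_lit 6580906975) (nat_lit 431) (nat_lit 5) (nat_lit 444) (nat_lit 5) (nat_lit 432) (nat_lit 5) (nat_lit 578) (nat_lit 541) (nat_lit 441))) (XT.nd (nat_lit 78) (nat_lit 912) (nat_lit 0) (XT.lf (nat_lit 0) (nat_lit 4021686484) (nat_lit 912) (nat_lit 4974913394) (nat_lit 76) (nat_lit 774380710) (nat_lit 420) (nat_lit 5) (nat_lit 432) (nat_lit 5) (nat_lit 421) (nat_lit 5) (nat_lit 579) (nat_lit 541) (nat_lit 440)) (XT.lf (nat_lit 0) (nat_lit 850430151) (nat_lit 912) (nat_lit 5169754344) (nat_lit 988) (nat_lit 3844722443) (nat_lit 408) (nat_lit 5) (nat_lit 420) (nat_lit 5) (nat_lit 421) (nat_lit 5) (nat_lit 580) (nat_lit 541) (nat_lit 439)))) (XT.nd (nat_lit 156) (nat_lit 836) (nat_lit 0) (XT.nd (nat_lit 78) (nat_lit 912) (nat_lit 0) (XT.lf (nat_lit 0) (nat_lit 6836515505) (nat_lit 912) (nat_lit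 1232785382) (nat_lit 988) (nat_lit 1891198624) (nat_lit 408) (nat_lit 5) (nat_lit 420) (nat_lit 5) (nat_lit 421) (nat_lit 5) (nat_lit 581) (nat_lit 541) (nat_lit 438)) (XT.lf (nat_lit 0) (nat_lit 114640996) (nat_lit 912) (nat_lit 7177626265) (nat_lit 76) (nat_lit 2765432641) (nat_lit 396) (nat_lit 5) (nat_lit 408) (nat_lit 5) (nat_lit 397) (nat_lit 5) (nat_lit 582) (nat_lit 541) (nat_lit 437))) (XT.nd (nat_lit 78) (nat_lit 836) (nat_lit 0) (XT.lf (nat_lit 0) (nat_lit 2142412635) (nat_lit 912) (nat_lit 1154025971) (nat_lit 76) (nat_lit 6860013537) (nat_lit 396) (nat_lit 5) (nat_lit 408) (nat_lit 5) (nat_lit 397) (nat_lit 5) (nat_lit 583) (nat_lit 541) (nat_lit 436)) (XT.lf (nat_lit 0) (nat_lit 4226969648) (nat_lit 912) (nat_lit 5229046905) (nat_lit 76) (nat_lit 800838890) (nat_lit 385) (nat_lit 5) (nat_lit 397) (nat_lit 5) (nat_lit 386) (nat_lit 5) (nat_lit 584) (nat_lit 541) (nat_lit 435))))))) (XT.nd (nat_lit 1170) (nat_lit 5776) (nat_lit 0) (XT.nd (nat_lit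 546) (nat_lit 3496) (nat_lit 0) (XT.nd (nat_lit 234) (nat_lit 1520) (nat_lit 0) (XT.nd (nat_lit 78) (nat_lit 836) (nat_lit 0) (XT.lf (nat_lit 0) (nat_lit 957339223) (nat_lit 760) (nat_lit 5410272837) (nat_lit 836) (nat_lit 3991367466) (nat_lit 375) (nat_lit 5) (nat_lit 385) (nat_lit 5) (nat_lit 386) (nat_lit 5) (nat_lit 585) (nat_lit 541) (nat_lit 434)) (XT.nd (nat_lit 78) (nat_lit 836) (nat_lit 0) (XT.lf (nat_lit 0) (nat_lit 7315341070) (nat_lit 760) (nat_lit 1249639613) (nat_lit 836) (nat_lit 1897887729) (nat_lit 375) (nat_lit 5) (nat_lit 385) (nat_lit 5) (nat_lit 386) (nat_lit 5) (nat_lit 586) (nat_lit 541) (nat_lit 433)) (XT.lf (nat_lit 0) (nat_lit 254126659) (nat_lit 836) (nat_lit 7338449674) (nat_lit 76) (nat_lit 2975832886) (nat_lit 364) (nat_lit 5) (nat_lit 375) (nat_lit 5) (nat_lit 365) (nat_lit 5) (nat_lit 587) (nat_lit 541) (nat_lit 432)))) (XT.nd (nat_lit 156) (nat_lit 760) (nat_lit 0) (XT.nd (nat_lit 78) (nat_lit 760) (nat_lit 0) (XT.lf (nat_lit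 0) (nat_lit 2432679832) (nat_lit 836) (nat_lit 942031625) (nat_lit 76) (nat_lit 7300920816) (nat_lit 364) (nat_lit 5) (nat_lit 375) (nat_lit 5) (nat_lit 365) (nat_lit 5) (nat_lit 588) (nat_lit 541) (nat_lit 431)) (XT.lf (nat_lit 0) (nat_lit 4677385010) (nat_lit 836) (nat_lit 5157340456) (nat_lit 76) (nat_lit 949823248) (nat_lit 354) (nat_lit 5) (nat_lit 365) (nat_lit 5) (nat_lit 355) (nat_lit 5) (nat_lit 589) (nat_lit 541) (nat_lit 430))) (XT.nd (nat_lit 78) (nat_lit 0) (nat_lit 0) (XT.lf (nat_lit 0) (nat_lit 1418443887) (nat_lit 760) (nat_lit 5566452510) (nat_lit 836) (nat_lit 3910389378) (nat_lit 344) (nat_lit 5) (nat_lit 354) (nat_lit 5) (nat_lit 355) (nat_lit 5) (nat_lit 590) (nat_lit 541) (nat_lit 429)) (XT.lf (nat_lit 0) (nat_lit 8172949691) (nat_lit 760) (nat_lit 1180451887) (nat_lit 836) (nat_lit 1654539652) (nat_lit 344) (nat_lit 5) (nat_lit 354) (nat_lit 5) (nat_lit 355) (nat_lit 5) (nat_lit 591) (nat_lit 541) (nat_lit 428))))) (XT.nd (nat_lit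 312) (nat_lit 1368) (nat_lit 0) (XT.nd (nat_lit 156) (nat_lit 1368) (nat_lit 0) (XT.nd (nat_lit 78) (nat_lit 0) (nat_lit 0) (XT.lf (nat_lit 0) (nat_lit 665746978) (nat_lit 760) (nat_lit 7179220085) (nat_lit 76) (nat_lit 3277243334) (nat_lit 334) (nat_lit 5) (nat_lit 344) (nat_lit 5) (nat_lit 335) (nat_lit 5) (nat_lit 592) (nat_lit 541) (nat_lit 427)) (XT.lf (nat_lit 0) (nat_lit 3017984514) (nat_lit 760) (nat_lit 385059867) (nat_lit 76) (nat_lit 7835348340) (nat_lit 334) (nat_lit 5) (nat_lit 344) (nat_lit 5) (nat_lit 335) (nat_lit 5) (nat_lit 593) (nat_lit 541) (nat_lit 426))) (XT.nd (nat_lit 78) (nat_lit 684) (nat_lit 0) (XT.lf (nat_lit 0) (nat_lit 5448852527) (nat_lit 760) (nat_lit 4754626261) (nat_lit 76) (nat_lit 1152788675) (nat_lit 325) (nat_lit 5) (nat_lit 335) (nat_lit 5) (nat_lit 326) (nat_lit 5) (nat_lit 594) (nat_lit 541) (nat_lit 425)) (XT.lf (nat_lit 0) (nat_lit 2241192930) (nat_lit 684) (nat_lit 5708127770) (nat_lit 760) (nat_lit 3526759816)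 (nat_lit 316) (nat_lit 5) (nat_lit 325) (nat_lit 5) (nat_lit 326) (nat_lit 5) (nat_lit 595) (nat_lit 541) (nat_lit 424)))) (XT.nd (nat_lit 156) (nat_lit 608) (nat_lit 0) (XT.nd (nat_lit 78) (nat_lit 760) (nat_lit 0) (XT.lf (nat_lit 0) (nat_lit 9419031957) (nat_lit 684) (nat_lit 1094187729) (nat_lit 760) (nat_lit 1084802179) (nat_lit 316) (nat_lit 5) (nat_lit 325) (nat_lit 5) (nat_lit 326) (nat_lit 5) (nat_lit 596) (nat_lit 541) (nat_lit 423)) (XT.lf (nat_lit 0) (nat_lit 1425823704) (nat_lit 760) (nat_lit 6692615837) (nat_lit 76) (nat_lit 3603014996) (nat_lit 306) (nat_lit 5) (nat_lit 316) (nat_lit 5) (nat_lit 307) (nat_lit 5) (nat_lit 597) (nat_lit 541) (nat_lit 422))) (XT.nd (nat_lit 78) (nat_lit 0) (nat_lit 0) (XT.lf (nat_lit 0) (nat_lit 533425077) (nat_lit 608) (nat_lit 3446100114) (nat_lit 684) (nat_lit 7867539926) (nat_lit 298) (nat_lit 5) (nat_lit 306) (nat_lit 5) (nat_lit 307) (nat_lit 5) (nat_lit 598) (nat_lit 541) (nat_lit 421)) (XT.lf (nat_lit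 0) (nat_lit 6620205415) (nat_lit 684) (nat_lit 4010971393) (nat_lit 76) (nat_lit 1343293436) (nat_lit 298) (nat_lit 5) (nat_lit 307) (nat_lit 5) (nat_lit 299) (nat_lit 5) (nat_lit 599) (nat_lit 541) (nat_lit 420)))))) (XT.nd (nat_lit 624) (nat_lit 2660) (nat_lit 0) (XT.nd (nat_lit 312) (nat_lit 1216) (nat_lit 0) (XT.nd (nat_lit 156) (nat_lit 1292) (nat_lit 0) (XT.nd (nat_lit 78) (nat_lit 0) (nat_lit 0) (XT.lf (nat_lit 0) (nat_lit 3437936574) (nat_lit 608) (nat_lit 5903384349) (nat_lit 684) (nat_lit 2762550538) (nat_lit 290) (nat_lit 5) (nat_lit 298) (nat_lit 5) (nat_lit 299) (nat_lit 5) (nat_lit 600) (nat_lit 541) (nat_lit 419)) (XT.lf (nat_lit 0) (nat_lit 11068256392) (nat_lit 608) (nat_lit 1058197675) (nat_lit 684) (nat_lit 109215142) (nat_lit 290) (nat_lit 5) (nat_lit 298) (nat_lit 5) (nat_lit 299) (nat_lit 5) (nat_lit 601) (nat_lit 541) (nat_lit 418))) (XT.nd (nat_lit 78) (nat_lit 608) (nat_lit 0) (XT.lf (nat_lit 0) (nat_lit 2613994555) (nat_lit 684)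 (nat_lit 5866738559) (nat_lit 76) (nat_lit 3888015538) (nat_lit 281) (nat_lit 5) (nat_lit 290) (nat_lit 5) (nat_lit 282) (nat_lit 5) (nat_lit 602) (nat_lit 541) (nat_lit 417)) (XT.lf (nat_lit 0) (nat_lit 1830640696) (nat_lit 608) (nat_lit 3569417110) (nat_lit 684) (nat_lit 7104220793) (nat_lit 273) (nat_lit 5) (nat_lit 281) (nat_lit 5) (nat_lit 282) (nat_lit 5) (nat_lit 603) (nat_lit 541) (nat_lit 416)))) (XT.nd (nat_lit 156) (nat_lit 684) (nat_lit 0) (XT.nd (nat_lit 78) (nat_lit 532) (nat_lit 0) (XT.lf (nat_lit 0) (nat_lit 8274051213) (nat_lit 684) (nat_lit 2911906970) (nat_lit 76) (nat_lit 1455917166) (nat_lit 273) (nat_lit 5) (nat_lit 282) (nat_lit 5) (nat_lit 274) (nat_lit 5) (nat_lit 604) (nat_lit 541) (nat_lit 415)) (XT.lf (nat_lit 0) (nat_lit 5025708666) (nat_lit 532) (nat_lit 6219642438) (nat_lit 608) (nat_lit 1536076771) (nat_lit 266) (nat_lit 5) (nat_lit 273) (nat_lit 5) (nat_lit 274) (nat_lit 5) (nat_lit 605) (nat_lit 541) (nat_lit 414))) (XT.nd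 (nat_lit 78) (nat_lit 0) (nat_lit 0) (XT.lf (nat_lit 0) (nat_lit 210316433) (nat_lit 608) (nat_lit 1128921465) (nat_lit 684) (nat_lit 11584264949) (nat_lit 257) (nat_lit 5) (nat_lit 265) (nat_lit 5) (nat_lit 266) (nat_lit 5) (nat_lit 606) (nat_lit 541) (nat_lit 413)) (XT.lf (nat_lit 0) (nat_lit 4314062155) (nat_lit 684) (nat_lit 4685322369) (nat_lit 76) (nat_lit 4067580652) (nat_lit 257) (nat_lit 5) (nat_lit 266) (nat_lit 5) (nat_lit 258) (nat_lit 5) (nat_lit 607) (nat_lit 541) (nat_lit 412))))) (XT.nd (nat_lit 312) (nat_lit 1064) (nat_lit 0) (XT.nd (nat_lit 156) (nat_lit 1064) (nat_lit 0) (XT.nd (nat_lit 78) (nat_lit 0) (nat_lit 0) (XT.lf (nat_lit 0) (nat_lit 3520374855) (nat_lit 532) (nat_lit 3842437841) (nat_lit 608) (nat_lit 5850195803) (nat_lit 250) (nat_lit 5) (nat_lit 257) (nat_lit 5) (nat_lit 258) (nat_lit 5) (nat_lit 608) (nat_lit 541) (nat_lit 411)) (XT.lf (nat_lit 0) (nat_lit 10497626307) (nat_lit 608) (nat_lit 1438615744) (nat_lit 76) (nat_lit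 1425229216) (nat_lit 250) (nat_lit 5) (nat_lit 258) (nat_lit 5) (nat_lit 251) (nat_lit 5) (nat_lit 609) (nat_lit 541) (nat_lit 410))) (XT.nd (nat_lit 78) (nat_lit 456) (nat_lit 0) (XT.lf (nat_lit 0) (nat_lit 235818884) (nat_lit 608) (nat_lit 6487292560) (nat_lit 76) (nat_lit 6788648988) (nat_lit 242) (nat_lit 5) (nat_lit 250) (nat_lit 5) (nat_lit 243) (nat_lit 5) (nat_lit 610) (nat_lit 541) (nat_lit 409)) (XT.lf (nat_lit 0) (nat_lit 1997419088) (nat_lit 456) (nat_lit 1369041107) (nat_lit 532) (nat_lit 10298070282) (nat_lit 236) (nat_lit 5) (nat_lit 242) (nat_lit 5) (nat_lit 243) (nat_lit 5) (nat_lit 611) (nat_lit 541) (nat_lit 408)))) (XT.nd (nat_lit 156) (nat_lit 532) (nat_lit 0) (XT.nd (nat_lit 78) (nat_lit 532) (nat_lit 0) (XT.lf (nat_lit 0) (nat_lit 6614840509) (nat_lit 532) (nat_lit 3127907119) (nat_lit 76) (nat_lit 4076506085) (nat_lit 236) (nat_lit 5) (nat_lit 243) (nat_lit 5) (nat_lit 237) (nat_lit 5) (nat_lit 612) (nat_lit 541) (nat_lit 407))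 (XT.lf (nat_lit 0) (nat_lit 5625890688) (nat_lit 532) (nat_lit 4332926577) (nat_lit 608) (nat_lit 4017641878) (nat_lit 229) (nat_lit 5) (nat_lit 236) (nat_lit 5) (nat_lit 237) (nat_lit 5) (nat_lit 613) (nat_lit 541) (nat_lit 406))) (XT.nd (nat_lit 78) (nat_lit 76) (nat_lit 0) (XT.lf (nat_lit 0) (nat_lit 437652910) (nat_lit 456) (nat_lit 12948840648) (nat_lit 532) (nat_lit 749979025) (nat_lit 223) (nat_lit 5) (nat_lit 229) (nat_lit 5) (nat_lit 230) (nat_lit 5) (nat_lit 614) (nat_lit 541) (nat_lit 405)) (XT.lf (nat_lit 0) (nat_lit 2619475813) (nat_lit 532) (nat_lit 4850656681) (nat_lit 76) (nat_lit 6827812356) (nat_lit 222) (nat_lit 5) (nat_lit 229) (nat_lit 5) (nat_lit 223) (nat_lit 5) (nat_lit 615) (nat_lit 541) (nat_lit 404))))))))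
noncomputable def xc107 : XT := (XT.nd (nat_lit 75816) (nat_lit 0) (nat_lit 23712) (XT.nd (nat_lit 1170) (nat_lit 2584) (nat_lit 0) (XT.nd (nat_lit 546) (nat_lit 2052) (nat_lit 0) (XT.nd (nat_lit 234) (nat_lit 1368) (nat_lit 0) (XT.nd (nat_lit 78) (nat_lit 456) (nat_lit 0) (XT.lf (nat_lit 0) (nat_lit 4203964842) (nat_lit 456) (nat_lit 1855119974) (nat_lit 532) (nat_lit 8403206736) (nat_lit 216) (nat_lit 5) (nat_lit 222) (nat_lit 5) (nat_lit 223) (nat_lit 5) (nat_lit 616) (nat_lit 541) (nat_lit 403)) (XT.nd (nat_lit 78) (nat_lit 456) (nat_lit 0) (XT.lf (nat_lit 0) (nat_lit 9611006554) (nat_lit 532) (nat_lit 1169984588) (nat_lit 76) (nat_lit 3848063913) (nat_lit 216) (nat_lit 5) (nat_lit 223) (nat_lit 5) (nat_lit 217) (nat_lit 5) (nat_lit 617) (nat_lit 541) (nat_lit 402)) (XT.lf (nat_lit 0) (nat_lit 8174673953) (nat_lit 456) (nat_lit 5110549509) (nat_lit 532) (nat_lit 1512905505) (nat_lit 210) (nat_lit 5) (nat_lit 216) (nat_lit 5) (nat_lit 217) (nat_lit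 5) (nat_lit 618) (nat_lit 541) (nat_lit 401)))) (XT.nd (nat_lit 156) (nat_lit 836) (nat_lit 0) (XT.nd (nat_lit 78) (nat_lit 0) (nat_lit 0) (XT.lf (nat_lit 0) (nat_lit 2051613476) (nat_lit 532) (nat_lit 12220768193) (nat_lit 76) (nat_lit 697608726) (nat_lit 203) (nat_lit 5) (nat_lit 210) (nat_lit 5) (nat_lit 204) (nat_lit 5) (nat_lit 619) (nat_lit 541) (nat_lit 400)) (XT.lf (nat_lit 0) (nat_lit 5731820348) (nat_lit 532) (nat_lit 2809955423) (nat_lit 76) (nat_lit 6602020423) (nat_lit 203) (nat_lit 5) (nat_lit 210) (nat_lit 5) (nat_lit 204) (nat_lit 5) (nat_lit 620) (nat_lit 541) (nat_lit 399))) (XT.nd (nat_lit 78) (nat_lit 456) (nat_lit 0) (XT.lf (nat_lit 0) (nat_lit 6858899242) (nat_lit 380) (nat_lit 2657588622) (nat_lit 456) (nat_lit 5803973368) (nat_lit 198) (nat_lit 5) (nat_lit 203) (nat_lit 5) (nat_lit 204) (nat_lit 5) (nat_lit 621) (nat_lit 541) (nat_lit 398)) (XT.lf (nat_lit 0) (nat_lit 1233044991) (nat_lit 456) (nat_lit 12178924299) (nat_lit 532)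 (nat_lit 2087988115) (nat_lit 192) (nat_lit 5) (nat_lit 198) (nat_lit 5) (nat_lit 199) (nat_lit 5) (nat_lit 622) (nat_lit 541) (nat_lit 397))))) (XT.nd (nat_lit 312) (nat_lit 1216) (nat_lit 0) (XT.nd (nat_lit 156) (nat_lit 380) (nat_lit 0) (XT.nd (nat_lit 78) (nat_lit 380) (nat_lit 0) (XT.lf (nat_lit 0) (nat_lit 1741215041) (nat_lit 532) (nat_lit 4494967287) (nat_lit 76) (nat_lit 9445415873) (nat_lit 191) (nat_lit 5) (nat_lit 198) (nat_lit 5) (nat_lit 192) (nat_lit 5) (nat_lit 623) (nat_lit 541) (nat_lit 396)) (XT.lf (nat_lit 0) (nat_lit 5510990466) (nat_lit 380) (nat_lit 130593024) (nat_lit 456) (nat_lit 10224561734) (nat_lit 186) (nat_lit 5) (nat_lit 191) (nat_lit 5) (nat_lit 192) (nat_lit 5) (nat_lit 624) (nat_lit 541) (nat_lit 395))) (XT.nd (nat_lit 78) (nat_lit 380) (nat_lit 0) (XT.lf (nat_lit 0) (nat_lit 9676730423) (nat_lit 456) (nat_lit 335533743) (nat_lit 76) (nat_lit 6040983828) (nat_lit 186) (nat_lit 5) (nat_lit 192) (nat_lit 5) (nat_lit 187)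 (nat_lit 5) (nat_lit 625) (nat_lit 541) (nat_lit 394)) (XT.lf (nat_lit 0) (nat_lit 9995128790) (nat_lit 380) (nat_lit 3850291057) (nat_lit 456) (nat_lit 2397616404) (nat_lit 181) (nat_lit 5) (nat_lit 186) (nat_lit 5) (nat_lit 187) (nat_lit 5) (nat_lit 626) (nat_lit 541) (nat_lit 393)))) (XT.nd (nat_lit 156) (nat_lit 760) (nat_lit 0) (XT.nd (nat_lit 78) (nat_lit 0) (nat_lit 0) (XT.lf (nat_lit 0) (nat_lit 1671273829) (nat_lit 456) (nat_lit 12328060288) (nat_lit 76) (nat_lit 2436426832) (nat_lit 175) (nat_lit 5) (nat_lit 181) (nat_lit 5) (nat_lit 176) (nat_lit 5) (nat_lit 627) (nat_lit 541) (nat_lit 392)) (XT.lf (nat_lit 0) (nat_lit 5844374918) (nat_lit 456) (nat_lit 1937742168) (nat_lit 76) (nat_lit 8848807558) (nat_lit 175) (nat_lit 5) (nat_lit 181) (nat_lit 5) (nat_lit 176) (nat_lit 5) (nat_lit 628) (nat_lit 541) (nat_lit 391))) (XT.nd (nat_lit 78) (nat_lit 380) (nat_lit 0) (XT.lf (nat_lit 0) (nat_lit 8755904826) (nat_lit 380) (nat_lit 1389337343) (nat_lit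 456) (nat_lit 6683863565) (nat_lit 170) (nat_lit 5) (nat_lit 175) (nat_lit 5) (nat_lit 176) (nat_lit 5) (nat_lit 629) (nat_lit 541) (nat_lit 390)) (XT.lf (nat_lit 0) (nat_lit 2640539766) (nat_lit 380) (nat_lit 11942668822) (nat_lit 456) (nat_lit 2447020427) (nat_lit 165) (nat_lit 5) (nat_lit 170) (nat_lit 5) (nat_lit 171) (nat_lit 5) (nat_lit 630) (nat_lit 541) (nat_lit 389)))))) (XT.nd (nat_lit 624) (nat_lit 684) (nat_lit 0) (XT.nd (nat_lit 312) (nat_lit 1140) (nat_lit 0) (XT.nd (nat_lit 156) (nat_lit 304) (nat_lit 0) (XT.nd (nat_lit 78) (nat_lit 380) (nat_lit 0) (XT.lf (nat_lit 0) (nat_lit 1901279433) (nat_lit 456) (nat_lit 3597460486) (nat_lit 76) (nat_lit 11735365516) (nat_lit 164) (nat_lit 5) (nat_lit 170) (nat_lit 5) (nat_lit 165) (nat_lit 5) (nat_lit 631) (nat_lit 541) (nat_lit 388)) (XT.lf (nat_lit 0) (nat_lit 6347503754) (nat_lit 456) (nat_lit 9974991686) (nat_lit 76) (nat_lit 1118366159) (nat_lit 159) (nat_lit 5) (nat_lit 165) (nat_lit 5) (nat_lit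 160) (nat_lit 5) (nat_lit 632) (nat_lit 541) (nat_lit 387))) (XT.nd (nat_lit 78) (nat_lit 0) (nat_lit 0) (XT.lf (nat_lit 0) (nat_lit 1106782530) (nat_lit 304) (nat_lit 9831657485) (nat_lit 380) (nat_lit 6712197307) (nat_lit 155) (nat_lit 5) (nat_lit 159) (nat_lit 5) (nat_lit 160) (nat_lit 5) (nat_lit 633) (nat_lit 541) (nat_lit 386)) (XT.lf (nat_lit 0) (nat_lit 12526412525) (nat_lit 304) (nat_lit 3149719414) (nat_lit 380) (nat_lit 2187378066) (nat_lit 155) (nat_lit 5) (nat_lit 159) (nat_lit 5) (nat_lit 160) (nat_lit 5) (nat_lit 634) (nat_lit 541) (nat_lit 385)))) (XT.nd (nat_lit 156) (nat_lit 684) (nat_lit 0) (XT.nd (nat_lit 78) (nat_lit 0) (nat_lit 0) (XT.lf (nat_lit 0) (nat_lit 2448239472) (nat_lit 456) (nat_lit 11964112199) (nat_lit 76) (nat_lit 3666930476) (nat_lit 149) (nat_lit 5) (nat_lit 155) (nat_lit 5) (nat_lit 150) (nat_lit 5) (nat_lit 635) (nat_lit 541) (nat_lit 384)) (XT.lf (nat_lit 0) (nat_lit 7192441592) (nat_lit 456) (nat_lit 484251969)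 (nat_lit 76) (nat_lit 10621483947) (nat_lit 149) (nat_lit 5) (nat_lit 155) (nat_lit 5) (nat_lit 150) (nat_lit 5) (nat_lit 636) (nat_lit 541) (nat_lit 383))) (XT.nd (nat_lit 78) (nat_lit 380) (nat_lit 0) (XT.lf (nat_lit 0) (nat_lit 11355661696) (nat_lit 304) (nat_lit 738048329) (nat_lit 380) (nat_lit 6426497276) (nat_lit 145) (nat_lit 5) (nat_lit 149) (nat_lit 5) (nat_lit 150) (nat_lit 5) (nat_lit 637) (nat_lit 541) (nat_lit 382)) (XT.lf (nat_lit 0) (nat_lit 4694171269) (nat_lit 380) (nat_lit 12462256849) (nat_lit 456) (nat_lit 1588981252) (nat_lit 140) (nat_lit 5) (nat_lit 145) (nat_lit 5) (nat_lit 146) (nat_lit 5) (nat_lit 638) (nat_lit 541) (nat_lit 381))))) (XT.nd (nat_lit 73710) (nat_lit 0) (nat_lit 38152) (XT.nd (nat_lit 156) (nat_lit 304) (nat_lit 0) (XT.nd (nat_lit 78) (nat_lit 304) (nat_lit 0) (XT.lf (nat_lit 0) (nat_lit 3343241294) (nat_lit 456) (nat_lit 2132468313) (nat_lit 76) (nat_lit 13498135032) (nat_lit 139) (nat_lit 5) (nat_lit 145) (nat_lit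 5) (nat_lit 140) (nat_lit 5) (nat_lit 639) (nat_lit 541) (nat_lit 380)) (XT.lf (nat_lit 0) (nat_lit 8418561848) (nat_lit 380) (nat_lit 9087933564) (nat_lit 76) (nat_lit 1698828694) (nat_lit 135) (nat_lit 5) (nat_lit 140) (nat_lit 5) (nat_lit 136) (nat_lit 5) (nat_lit 640) (nat_lit 541) (nat_lit 379))) (XT.nd (nat_lit 73476) (nat_lit 0) (nat_lit 39368) (XT.lf (nat_lit 0) (nat_lit 3187186672) (nat_lit 304) (nat_lit 10468391587) (nat_lit 380) (nat_lit 5784651269) (nat_lit 131) (nat_lit 5) (nat_lit 135) (nat_lit 5) (nat_lit 136) (nat_lit 5) (nat_lit 641) (nat_lit 541) (nat_lit 378)) (XT.lf (nat_lit 0) (nat_lit 839801431) (nat_lit 1292) (nat_lit 1420439652) (nat_lit 1292) (nat_lit 1420439652) (nat_lit 649) (nat_lit 3) (nat_lit 666) (nat_lit 3) (nat_lit 666) (nat_lit 5) (nat_lit 542) (nat_lit 542) (nat_lit 476)))) (XT.nd (nat_lit 156) (nat_lit 1216) (nat_lit 0) (XT.nd (nat_lit 78) (nat_lit 0) (nat_lit 0) (XT.lf (nat_lit 76) (nat_lit 838142439) (nat_lit 0) (nat_lit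 2408323067) (nat_lit 1292) (nat_lit 4157448947) (nat_lit 650) (nat_lit 5) (nat_lit 649) (nat_lit 3) (nat_lit 666) (nat_lit 5) (nat_lit 543) (nat_lit 542) (nat_lit 475)) (XT.lf (nat_lit 76) (nat_lit 4608314900) (nat_lit 0) (nat_lit 214762286) (nat_lit 1292) (nat_lit 2624674630) (nat_lit 650) (nat_lit 5) (nat_lit 649) (nat_lit 3) (nat_lit 666) (nat_lit 5) (nat_lit 544) (nat_lit 542) (nat_lit 474))) (XT.nd (nat_lit 78) (nat_lit 1292) (nat_lit 0) (XT.lf (nat_lit 76) (nat_lit 939157459) (nat_lit 0) (nat_lit 5471564356) (nat_lit 1292) (nat_lit 1082155621) (nat_lit 651) (nat_lit 5) (nat_lit 650) (nat_lit 5) (nat_lit 667) (nat_lit 5) (nat_lit 545) (nat_lit 542) (nat_lit 473)) (XT.lf (nat_lit 0) (nat_lit 466024850) (nat_lit 1292) (nat_lit 2733284582) (nat_lit 1368) (nat_lit 4339908749) (nat_lit 633) (nat_lit 5) (nat_lit 650) (nat_lit 5) (nat_lit 651) (nat_lit 5) (nat_lit 546) (nat_lit 542) (nat_lit 472))))))) (XT.nd (nat_lit 1170) (nat_lit 11856) (nat_lit 0) (XT.nd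 (nat_lit 546) (nat_lit 1368) (nat_lit 0) (XT.nd (nat_lit 234) (nat_lit 1216) (nat_lit 0) (XT.nd (nat_lit 78) (nat_lit 0) (nat_lit 76) (XT.lf (nat_lit 76) (nat_lit 1150069043) (nat_lit 0) (nat_lit 849512802) (nat_lit 1368) (nat_lit 5587384212) (nat_lit 634) (nat_lit 5) (nat_lit 633) (nat_lit 5) (nat_lit 651) (nat_lit 5) (nat_lit 547) (nat_lit 542) (nat_lit 471)) (XT.nd (nat_lit 78) (nat_lit 0) (nat_lit 0) (XT.lf (nat_lit 0) (nat_lit 3554468345) (nat_lit 1292) (nat_lit 2519464742) (nat_lit 1368) (nat_lit 1561924045) (nat_lit 634) (nat_lit 5) (nat_lit 651) (nat_lit 5) (nat_lit 652) (nat_lit 5) (nat_lit 548) (nat_lit 542) (nat_lit 470)) (XT.lf (nat_lit 76) (nat_lit 1468245205) (nat_lit 0) (nat_lit 3650257427) (nat_lit 1368) (nat_lit 2567663775) (nat_lit 635) (nat_lit 5) (nat_lit 634) (nat_lit 5) (nat_lit 652) (nat_lit 5) (nat_lit 549) (nat_lit 542) (nat_lit 469)))) (XT.nd (nat_lit 156) (nat_lit 0) (nat_lit 0) (XT.nd (nat_lit 78) (nat_lit 1292) (nat_lit 0)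 (XT.lf (nat_lit 76) (nat_lit 5548302774) (nat_lit 0) (nat_lit 1145900739) (nat_lit 1368) (nat_lit 1043671992) (nat_lit 635) (nat_lit 5) (nat_lit 634) (nat_lit 5) (nat_lit 652) (nat_lit 5) (nat_lit 550) (nat_lit 542) (nat_lit 468)) (XT.lf (nat_lit 0) (nat_lit 489863631) (nat_lit 1368) (nat_lit 5880782924) (nat_lit 1444) (nat_lit 1420191937) (nat_lit 617) (nat_lit 5) (nat_lit 635) (nat_lit 5) (nat_lit 636) (nat_lit 5) (nat_lit 551) (nat_lit 542) (nat_lit 467))) (XT.nd (nat_lit 78) (nat_lit 0) (nat_lit 0) (XT.lf (nat_lit 0) (nat_lit 2027102363) (nat_lit 1368) (nat_lit 1760083656) (nat_lit 1444) (nat_lit 4057797879) (nat_lit 617) (nat_lit 5) (nat_lit 635) (nat_lit 5) (nat_lit 636) (nat_lit 5) (nat_lit 552) (nat_lit 542) (nat_lit 466)) (XT.lf (nat_lit 76) (nat_lit 2453367061) (nat_lit 0) (nat_lit 1122956384) (nat_lit 1444) (nat_lit 4324265268) (nat_lit 618) (nat_lit 5) (nat_lit 617) (nat_lit 5) (nat_lit 636) (nat_lit 5) (nat_lit 553) (nat_lit 542) (nat_lit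 465))))) (XT.nd (nat_lit 312) (nat_lit 0) (nat_lit 76) (XT.nd (nat_lit 156) (nat_lit 1444) (nat_lit 0) (XT.nd (nat_lit 78) (nat_lit 0) (nat_lit 0) (XT.lf (nat_lit 0) (nat_lit 5144700111) (nat_lit 1368) (nat_lit 1215015709) (nat_lit 1444) (nat_lit 1597827607) (nat_lit 618) (nat_lit 5) (nat_lit 636) (nat_lit 5) (nat_lit 637) (nat_lit 5) (nat_lit 554) (nat_lit 542) (nat_lit 464)) (XT.lf (nat_lit 76) (nat_lit 3113207885) (nat_lit 0) (nat_lit 3625483221) (nat_lit 1444) (nat_lit 1277062395) (nat_lit 619) (nat_lit 5) (nat_lit 618) (nat_lit 5) (nat_lit 637) (nat_lit 5) (nat_lit 555) (nat_lit 542) (nat_lit 463))) (XT.nd (nat_lit 78) (nat_lit 0) (nat_lit 76) (XT.lf (nat_lit 0) (nat_lit 260736497) (nat_lit 1444) (nat_lit 554748337) (nat_lit 1520) (nat_lit 7260104548) (nat_lit 599) (nat_lit 5) (nat_lit 618) (nat_lit 5) (nat_lit 619) (nat_lit 5) (nat_lit 556) (nat_lit 542) (nat_lit 462)) (XT.lf (nat_lit 0) (nat_lit 1818681425) (nat_lit 1444) (nat_lit 4249374732) (nat_lit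 1520) (nat_lit 2068268330) (nat_lit 600) (nat_lit 5) (nat_lit 619) (nat_lit 5) (nat_lit 620) (nat_lit 5) (nat_lit 557) (nat_lit 542) (nat_lit 461)))) (XT.nd (nat_lit 156) (nat_lit 0) (nat_lit 76) (XT.nd (nat_lit 78) (nat_lit 0) (nat_lit 0) (XT.lf (nat_lit 76) (nat_lit 201578705) (nat_lit 0) (nat_lit 3184765108) (nat_lit 1520) (nat_lit 4812360421) (nat_lit 601) (nat_lit 5) (nat_lit 600) (nat_lit 5) (nat_lit 620) (nat_lit 5) (nat_lit 558) (nat_lit 542) (nat_lit 460)) (XT.lf (nat_lit 76) (nat_lit 4776858697) (nat_lit 0) (nat_lit 205598910) (nat_lit 1520) (nat_lit 3279933096) (nat_lit 601) (nat_lit 5) (nat_lit 600) (nat_lit 5) (nat_lit 620) (nat_lit 5) (nat_lit 559) (nat_lit 542) (nat_lit 459))) (XT.nd (nat_lit 78) (nat_lit 0) (nat_lit 0) (XT.lf (nat_lit 76) (nat_lit 1089657811) (nat_lit 0) (nat_lit 5515562057) (nat_lit 1520) (nat_lit 1722237575) (nat_lit 602) (nat_lit 5) (nat_lit 601) (nat_lit 5) (nat_lit 621) (nat_lit 5) (nat_lit 560) (nat_lit 542) (nat_lit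 458)) (XT.lf (nat_lit 76) (nat_lit 5779835347) (nat_lit 0) (nat_lit 2475058604) (nat_lit 1520) (nat_lit 139043484) (nat_lit 602) (nat_lit 5) (nat_lit 601) (nat_lit 5) (nat_lit 621) (nat_lit 5) (nat_lit 561) (nat_lit 542) (nat_lit 457)))))) (XT.nd (nat_lit 624) (nat_lit 5776) (nat_lit 0) (XT.nd (nat_lit 312) (nat_lit 4788) (nat_lit 0) (XT.nd (nat_lit 156) (nat_lit 0) (nat_lit 0) (XT.nd (nat_lit 78) (nat_lit 0) (nat_lit 0) (XT.lf (nat_lit 0) (nat_lit 1444457387) (nat_lit 1520) (nat_lit 6368494970) (nat_lit 1596) (nat_lit 648844066) (nat_lit 582) (nat_lit 5) (nat_lit 602) (nat_lit 5) (nat_lit 603) (nat_lit 5) (nat_lit 562) (nat_lit 542) (nat_lit 456)) (XT.lf (nat_lit 0) (nat_lit 3062416944) (nat_lit 1520) (nat_lit 1640635010) (nat_lit 1596) (nat_lit 3827850233) (nat_lit 582) (nat_lit 5) (nat_lit 602) (nat_lit 5) (nat_lit 603) (nat_lit 5) (nat_lit 563) (nat_lit 542) (nat_lit 455))) (XT.nd (nat_lit 78) (nat_lit 0) (nat_lit 76) (XT.lf (nat_lit 76) (nat_lit 3201383516)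 (nat_lit 0) (nat_lit 1503313593) (nat_lit 1596) (nat_lit 3896854696) (nat_lit 583) (nat_lit 5) (nat_lit 582) (nat_lit 5) (nat_lit 603) (nat_lit 5) (nat_lit 564) (nat_lit 542) (nat_lit 454)) (XT.lf (nat_lit 0) (nat_lit 6373971859) (nat_lit 1520) (nat_lit 545262417) (nat_lit 76) (nat_lit 1754498108) (nat_lit 583) (nat_lit 5) (nat_lit 603) (nat_lit 5) (nat_lit 584) (nat_lit 5) (nat_lit 565) (nat_lit 542) (nat_lit 453)))) (XT.nd (nat_lit 156) (nat_lit 1672) (nat_lit 0) (XT.nd (nat_lit 78) (nat_lit 1672) (nat_lit 0) (XT.lf (nat_lit 0) (nat_lit 4432520009) (nat_lit 1520) (nat_lit 3655039550) (nat_lit 1596) (nat_lit 659579395) (nat_lit 563) (nat_lit 5) (nat_lit 583) (nat_lit 5) (nat_lit 584) (nat_lit 5) (nat_lit 566) (nat_lit 542) (nat_lit 452)) (XT.lf (nat_lit 0) (nat_lit 674937465) (nat_lit 1596) (nat_lit 305653511) (nat_lit 1672) (nat_lit 7841682447) (nat_lit 541) (nat_lit 5) (nat_lit 562) (nat_lit 5) (nat_lit 563) (nat_lit 5) (nat_lit 567) (nat_lit 542) (nat_lit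 451))) (XT.nd (nat_lit 78) (nat_lit 1672) (nat_lit 0) (XT.lf (nat_lit 0) (nat_lit 2666920184) (nat_lit 1672) (nat_lit 3123363309) (nat_lit 76) (nat_lit 3108097024) (nat_lit 541) (nat_lit 5) (nat_lit 563) (nat_lit 5) (nat_lit 542) (nat_lit 5) (nat_lit 568) (nat_lit 542) (nat_lit 450)) (XT.lf (nat_lit 0) (nat_lit 2002736815) (nat_lit 1672) (nat_lit 2372636031) (nat_lit 1748) (nat_lit 4600869829) (nat_lit 519) (nat_lit 5) (nat_lit 541) (nat_lit 5) (nat_lit 542) (nat_lit 5) (nat_lit 569) (nat_lit 542) (nat_lit 449))))) (XT.nd (nat_lit 312) (nat_lit 2128) (nat_lit 0) (XT.nd (nat_lit 156) (nat_lit 1900) (nat_lit 0) (XT.nd (nat_lit 78) (nat_lit 1748) (nat_lit 0) (XT.lf (nat_lit 0) (nat_lit 6120092221) (nat_lit 1748) (nat_lit 1811909476) (nat_lit 76) (nat_lit 1123619267) (nat_lit 519) (nat_lit 5) (nat_lit 542) (nat_lit 5) (nat_lit 520) (nat_lit 5) (nat_lit 570) (nat_lit 542) (nat_lit 448)) (XT.lf (nat_lit 0) (nat_lit 3460039921) (nat_lit 1748) (nat_lit 4452128798)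 (nat_lit 1824) (nat_lit 1224169670) (nat_lit 496) (nat_lit 5) (nat_lit 519) (nat_lit 5) (nat_lit 520) (nat_lit 5) (nat_lit 571) (nat_lit 542) (nat_lit 447))) (XT.nd (nat_lit 78) (nat_lit 1824) (nat_lit 0) (XT.lf (nat_lit 0) (nat_lit 501292622) (nat_lit 1824) (nat_lit 382640493) (nat_lit 76) (nat_lit 8334935845) (nat_lit 495) (nat_lit 5) (nat_lit 519) (nat_lit 5) (nat_lit 496) (nat_lit 5) (nat_lit 572) (nat_lit 542) (nat_lit 446)) (XT.lf (nat_lit 0) (nat_lit 2270849381) (nat_lit 1900) (nat_lit 4268152775) (nat_lit 76) (nat_lit 2763367389) (nat_lit 471) (nat_lit 5) (nat_lit 496) (nat_lit 5) (nat_lit 472) (nat_lit 5) (nat_lit 573) (nat_lit 542) (nat_lit 445)))) (XT.nd (nat_lit 156) (nat_lit 988) (nat_lit 0) (XT.nd (nat_lit 78) (nat_lit 0) (nat_lit 0) (XT.lf (nat_lit 0) (nat_lit 1163847275) (nat_lit 1140) (nat_lit 2903284009) (nat_lit 1216) (nat_lit 5320582942) (nat_lit 456) (nat_lit 5) (nat_lit 471) (nat_lit 5) (nat_lit 472) (nat_lit 5) (nat_lit 574) (nat_lit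 542) (nat_lit 444)) (XT.lf (nat_lit 0) (nat_lit 5909085797) (nat_lit 1216) (nat_lit 2740272027) (nat_lit 76) (nat_lit 825213785) (nat_lit 456) (nat_lit 5) (nat_lit 472) (nat_lit 5) (nat_lit 457) (nat_lit 5) (nat_lit 575) (nat_lit 542) (nat_lit 443))) (XT.nd (nat_lit 78) (nat_lit 76) (nat_lit 0) (XT.lf (nat_lit 0) (nat_lit 2848573299) (nat_lit 912) (nat_lit 4953192856) (nat_lit 988) (nat_lit 1761122981) (nat_lit 444) (nat_lit 5) (nat_lit 456) (nat_lit 5) (nat_lit 457) (nat_lit 5) (nat_lit 576) (nat_lit 542) (nat_lit 442)) (XT.lf (nat_lit 0) (nat_lit 73127505) (nat_lit 988) (nat_lit 1089622305) (nat_lit 76) (nat_lit 8490316792) (nat_lit 443) (nat_lit 5) (nat_lit 456) (nat_lit 5) (nat_lit 444) (nat_lit 5) (nat_lit 577) (nat_lit 542) (nat_lit 441))))))))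
noncomputable def xc108 : XT := (XT.nd (nat_lit 2418) (nat_lit 8892) (nat_lit 0) (XT.nd (nat_lit 1170) (nat_lit 6612) (nat_lit 0) (XT.nd (nat_lit 546) (nat_lit 3116) (nat_lit 0) (XT.nd (nat_lit 234) (nat_lit 2660) (nat_lit 0) (XT.nd (nat_lit 78) (nat_lit 836) (nat_lit 0) (XT.lf (nat_lit 0) (nat_lit 1945488085) (nat_lit 988) (nat_lit 5087569993) (nat_lit 76) (nat_lit 2711257279) (nat_lit 431) (nat_lit 5) (nat_lit 444) (nat_lit 5) (nat_lit 432) (nat_lit 5) (nat_lit 578) (nat_lit 542) (nat_lit 440)) (XT.nd (nat_lit 78) (nat_lit 0) (nat_lit 0) (XT.lf (nat_lit 0) (nat_lit 674067056) (nat_lit 836) (nat_lit 3177776760) (nat_lit 912) (nat_lit 5985614989) (nat_lit 420) (nat_lit 5) (nat_lit 431) (nat_lit 5) (nat_lit 432) (nat_lit 5) (nat_lit 579) (nat_lit 542) (nat_lit 439)) (XT.lf (nat_lit 0) (nat_lit 5813007230) (nat_lit 912) (nat_lit 3339904679) (nat_lit 76) (nat_lit 779220266) (nat_lit 420) (nat_lit 5) (nat_lit 432) (nat_lit 5) (nat_lit 421) (nat_lit 5) (nat_lit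 580) (nat_lit 542) (nat_lit 438)))) (XT.nd (nat_lit 156) (nat_lit 1748) (nat_lit 0) (XT.nd (nat_lit 78) (nat_lit 0) (nat_lit 0) (XT.lf (nat_lit 0) (nat_lit 2590534507) (nat_lit 912) (nat_lit 5238581370) (nat_lit 988) (nat_lit 2199269346) (nat_lit 408) (nat_lit 5) (nat_lit 420) (nat_lit 5) (nat_lit 421) (nat_lit 5) (nat_lit 581) (nat_lit 542) (nat_lit 437)) (XT.lf (nat_lit 0) (nat_lit 8662555378) (nat_lit 912) (nat_lit 1223550833) (nat_lit 988) (nat_lit 240446571) (nat_lit 408) (nat_lit 5) (nat_lit 420) (nat_lit 5) (nat_lit 421) (nat_lit 5) (nat_lit 582) (nat_lit 542) (nat_lit 436))) (XT.nd (nat_lit 78) (nat_lit 836) (nat_lit 0) (XT.lf (nat_lit 0) (nat_lit 1762087881) (nat_lit 912) (nat_lit 5588353427) (nat_lit 76) (nat_lit 2875463054) (nat_lit 396) (nat_lit 5) (nat_lit 408) (nat_lit 5) (nat_lit 397) (nat_lit 5) (nat_lit 583) (nat_lit 542) (nat_lit 435)) (XT.lf (nat_lit 0) (nat_lit 528675580) (nat_lit 836) (nat_lit 3272913963) (nat_lit 912) (nat_lit 6525619526)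 (nat_lit 385) (nat_lit 5) (nat_lit 396) (nat_lit 5) (nat_lit 397) (nat_lit 5) (nat_lit 584) (nat_lit 542) (nat_lit 434))))) (XT.nd (nat_lit 312) (nat_lit 1520) (nat_lit 0) (XT.nd (nat_lit 156) (nat_lit 836) (nat_lit 0) (XT.nd (nat_lit 78) (nat_lit 760) (nat_lit 0) (XT.lf (nat_lit 0) (nat_lit 5904356936) (nat_lit 912) (nat_lit 3614686549) (nat_lit 76) (nat_lit 911047458) (nat_lit 385) (nat_lit 5) (nat_lit 397) (nat_lit 5) (nat_lit 386) (nat_lit 5) (nat_lit 585) (nat_lit 542) (nat_lit 433)) (XT.lf (nat_lit 0) (nat_lit 2684118478) (nat_lit 760) (nat_lit 5383548489) (nat_lit 836) (nat_lit 2466994319) (nat_lit 375) (nat_lit 5) (nat_lit 385) (nat_lit 5) (nat_lit 386) (nat_lit 5) (nat_lit 586) (nat_lit 542) (nat_lit 432))) (XT.nd (nat_lit 78) (nat_lit 836) (nat_lit 0) (XT.lf (nat_lit 0) (nat_lit 9135797372) (nat_lit 760) (nat_lit 1142348283) (nat_lit 836) (nat_lit 363099899) (nat_lit 375) (nat_lit 5) (nat_lit 385) (nat_lit 5) (nat_lit 386) (nat_lit 5) (nat_lit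 587) (nat_lit 542) (nat_lit 431)) (XT.lf (nat_lit 0) (nat_lit 1792806454) (nat_lit 836) (nat_lit 5771837536) (nat_lit 76) (nat_lit 3184420217) (nat_lit 364) (nat_lit 5) (nat_lit 375) (nat_lit 5) (nat_lit 365) (nat_lit 5) (nat_lit 588) (nat_lit 542) (nat_lit 430)))) (XT.nd (nat_lit 156) (nat_lit 760) (nat_lit 0) (XT.nd (nat_lit 78) (nat_lit 0) (nat_lit 0) (XT.lf (nat_lit 0) (nat_lit 728467142) (nat_lit 760) (nat_lit 3261122705) (nat_lit 836) (nat_lit 6869349500) (nat_lit 354) (nat_lit 5) (nat_lit 364) (nat_lit 5) (nat_lit 365) (nat_lit 5) (nat_lit 589) (nat_lit 542) (nat_lit 429)) (XT.lf (nat_lit 0) (nat_lit 6257006752) (nat_lit 836) (nat_lit 3563209506) (nat_lit 76) (nat_lit 1150262299) (nat_lit 354) (nat_lit 5) (nat_lit 365) (nat_lit 5) (nat_lit 355) (nat_lit 5) (nat_lit 590) (nat_lit 542) (nat_lit 428))) (XT.nd (nat_lit 78) (nat_lit 0) (nat_lit 0) (XT.lf (nat_lit 0) (nat_lit 3132924222) (nat_lit 760) (nat_lit 5459552792) (nat_lit 836) (nat_lit 2491317951)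 (nat_lit 344) (nat_lit 5) (nat_lit 354) (nat_lit 5) (nat_lit 355) (nat_lit 5) (nat_lit 591) (nat_lit 542) (nat_lit 427)) (XT.lf (nat_lit 0) (nat_lit 9989459133) (nat_lit 760) (nat_lit 990111151) (nat_lit 836) (nat_lit 219709646) (nat_lit 344) (nat_lit 5) (nat_lit 354) (nat_lit 5) (nat_lit 355) (nat_lit 5) (nat_lit 592) (nat_lit 542) (nat_lit 426)))))) (XT.nd (nat_lit 624) (nat_lit 3116) (nat_lit 0) (XT.nd (nat_lit 312) (nat_lit 1368) (nat_lit 0) (XT.nd (nat_lit 156) (nat_lit 684) (nat_lit 0) (XT.nd (nat_lit 78) (nat_lit 684) (nat_lit 0) (XT.lf (nat_lit 0) (nat_lit 2111607087) (nat_lit 760) (nat_lit 5634304416) (nat_lit 76) (nat_lit 3570055568) (nat_lit 334) (nat_lit 5) (nat_lit 344) (nat_lit 5) (nat_lit 335) (nat_lit 5) (nat_lit 593) (nat_lit 542) (nat_lit 425)) (XT.lf (nat_lit 0) (nat_lit 1279410864) (nat_lit 684) (nat_lit 3211696172) (nat_lit 760) (nat_lit 6943762371) (nat_lit 325) (nat_lit 5) (nat_lit 334) (nat_lit 5) (nat_lit 335) (nat_lit 5) (nat_lit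 594) (nat_lit 542) (nat_lit 424))) (XT.nd (nat_lit 78) (nat_lit 684) (nat_lit 0) (XT.lf (nat_lit 0) (nat_lit 6947092474) (nat_lit 760) (nat_lit 3179098201) (nat_lit 76) (nat_lit 1429381670) (nat_lit 325) (nat_lit 5) (nat_lit 335) (nat_lit 5) (nat_lit 326) (nat_lit 5) (nat_lit 595) (nat_lit 542) (nat_lit 423)) (XT.lf (nat_lit 0) (nat_lit 3945646448) (nat_lit 684) (nat_lit 5535458530) (nat_lit 760) (nat_lit 2197006673) (nat_lit 316) (nat_lit 5) (nat_lit 325) (nat_lit 5) (nat_lit 326) (nat_lit 5) (nat_lit 596) (nat_lit 542) (nat_lit 422)))) (XT.nd (nat_lit 156) (nat_lit 608) (nat_lit 0) (XT.nd (nat_lit 78) (nat_lit 684) (nat_lit 0) (XT.lf (nat_lit 0) (nat_lit 262840470) (nat_lit 760) (nat_lit 570259573) (nat_lit 76) (nat_lit 10969896230) (nat_lit 315) (nat_lit 5) (nat_lit 325) (nat_lit 5) (nat_lit 316) (nat_lit 5) (nat_lit 597) (nat_lit 542) (nat_lit 421)) (XT.lf (nat_lit 0) (nat_lit 2795130825) (nat_lit 760) (nat_lit 5167273490) (nat_lit 76) (nat_lit 3966630973)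 (nat_lit 306) (nat_lit 5) (nat_lit 316) (nat_lit 5) (nat_lit 307) (nat_lit 5) (nat_lit 598) (nat_lit 542) (nat_lit 420))) (XT.nd (nat_lit 78) (nat_lit 0) (nat_lit 0) (XT.lf (nat_lit 0) (nat_lit 2192372488) (nat_lit 608) (nat_lit 3191945562) (nat_lit 684) (nat_lit 6673152434) (nat_lit 298) (nat_lit 5) (nat_lit 306) (nat_lit 5) (nat_lit 307) (nat_lit 5) (nat_lit 599) (nat_lit 542) (nat_lit 419)) (XT.lf (nat_lit 0) (nat_lit 8053884016) (nat_lit 684) (nat_lit 2451271980) (nat_lit 76) (nat_lit 1682746901) (nat_lit 298) (nat_lit 5) (nat_lit 307) (nat_lit 5) (nat_lit 299) (nat_lit 5) (nat_lit 600) (nat_lit 542) (nat_lit 418))))) (XT.nd (nat_lit 312) (nat_lit 1216) (nat_lit 0) (XT.nd (nat_lit 156) (nat_lit 608) (nat_lit 0) (XT.nd (nat_lit 78) (nat_lit 684) (nat_lit 0) (XT.lf (nat_lit 0) (nat_lit 5135825207) (nat_lit 608) (nat_lit 5678658832) (nat_lit 684) (nat_lit 1505707467) (nat_lit 290) (nat_lit 5) (nat_lit 298) (nat_lit 5) (nat_lit 299) (nat_lit 5) (nat_lit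 601) (nat_lit 542) (nat_lit 417)) (XT.lf (nat_lit 0) (nat_lit 429684159) (nat_lit 608) (nat_lit 732663029) (nat_lit 684) (nat_lit 11292574698) (nat_lit 281) (nat_lit 5) (nat_lit 289) (nat_lit 5) (nat_lit 290) (nat_lit 5) (nat_lit 602) (nat_lit 542) (nat_lit 416))) (XT.nd (nat_lit 78) (nat_lit 608) (nat_lit 0) (XT.lf (nat_lit 0) (nat_lit 3923551350) (nat_lit 684) (nat_lit 4357738967) (nat_lit 76) (nat_lit 4309658887) (nat_lit 281) (nat_lit 5) (nat_lit 290) (nat_lit 5) (nat_lit 282) (nat_lit 5) (nat_lit 603) (nat_lit 542) (nat_lit 415)) (XT.lf (nat_lit 0) (nat_lit 3482888305) (nat_lit 608) (nat_lit 3268284846) (nat_lit 684) (nat_lit 5978300420) (nat_lit 273) (nat_lit 5) (nat_lit 281) (nat_lit 5) (nat_lit 282) (nat_lit 5) (nat_lit 604) (nat_lit 542) (nat_lit 414)))) (XT.nd (nat_lit 156) (nat_lit 684) (nat_lit 0) (XT.nd (nat_lit 78) (nat_lit 532) (nat_lit 0) (XT.lf (nat_lit 0) (nat_lit 9660642864) (nat_lit 684) (nat_lit 1364158105) (nat_lit 76) (nat_lit 1845461913)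 (nat_lit 273) (nat_lit 5) (nat_lit 282) (nat_lit 5) (nat_lit 274) (nat_lit 5) (nat_lit 605) (nat_lit 542) (nat_lit 413)) (XT.lf (nat_lit 0) (nat_lit 6721644140) (nat_lit 532) (nat_lit 5956139801) (nat_lit 608) (nat_lit 335094758) (nat_lit 266) (nat_lit 5) (nat_lit 273) (nat_lit 5) (nat_lit 274) (nat_lit 5) (nat_lit 606) (nat_lit 542) (nat_lit 412))) (XT.nd (nat_lit 78) (nat_lit 0) (nat_lit 0) (XT.lf (nat_lit 0) (nat_lit 1815522114) (nat_lit 608) (nat_lit 752610522) (nat_lit 684) (nat_lit 10589771908) (nat_lit 257) (nat_lit 5) (nat_lit 265) (nat_lit 5) (nat_lit 266) (nat_lit 5) (nat_lit 607) (nat_lit 542) (nat_lit 411)) (XT.lf (nat_lit 0) (nat_lit 5581421666) (nat_lit 684) (nat_lit 3188364250) (nat_lit 76) (nat_lit 4534871350) (nat_lit 257) (nat_lit 5) (nat_lit 266) (nat_lit 5) (nat_lit 258) (nat_lit 5) (nat_lit 608) (nat_lit 542) (nat_lit 410))))))) (XT.nd (nat_lit 1170) (nat_lit 3952) (nat_lit 0) (XT.nd (nat_lit 546) (nat_lit 2280) (nat_lit 0) (XT.nd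 (nat_lit 234) (nat_lit 1520) (nat_lit 0) (XT.nd (nat_lit 78) (nat_lit 608) (nat_lit 0) (XT.lf (nat_lit 0) (nat_lit 5170982020) (nat_lit 532) (nat_lit 3507266506) (nat_lit 608) (nat_lit 4775631408) (nat_lit 250) (nat_lit 5) (nat_lit 257) (nat_lit 5) (nat_lit 258) (nat_lit 5) (nat_lit 609) (nat_lit 542) (nat_lit 409)) (XT.nd (nat_lit 78) (nat_lit 76) (nat_lit 0) (XT.lf (nat_lit 0) (nat_lit 103492096) (nat_lit 532) (nat_lit 11752655424) (nat_lit 608) (nat_lit 1749557147) (nat_lit 243) (nat_lit 5) (nat_lit 250) (nat_lit 5) (nat_lit 251) (nat_lit 5) (nat_lit 610) (nat_lit 542) (nat_lit 408)) (XT.lf (nat_lit 0) (nat_lit 1383591372) (nat_lit 608) (nat_lit 5042627073) (nat_lit 76) (nat_lit 7332892379) (nat_lit 242) (nat_lit 5) (nat_lit 250) (nat_lit 5) (nat_lit 243) (nat_lit 5) (nat_lit 611) (nat_lit 542) (nat_lit 407)))) (XT.nd (nat_lit 156) (nat_lit 1064) (nat_lit 0) (XT.nd (nat_lit 78) (nat_lit 0) (nat_lit 0) (XT.lf (nat_lit 0) (nat_lit 3601420839) (nat_lit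 456) (nat_lit 963166677) (nat_lit 532) (nat_lit 9350594379) (nat_lit 236) (nat_lit 5) (nat_lit 242) (nat_lit 5) (nat_lit 243) (nat_lit 5) (nat_lit 612) (nat_lit 542) (nat_lit 406)) (XT.lf (nat_lit 0) (nat_lit 7858520748) (nat_lit 532) (nat_lit 1637642144) (nat_lit 76) (nat_lit 4577225453) (nat_lit 236) (nat_lit 5) (nat_lit 243) (nat_lit 5) (nat_lit 237) (nat_lit 5) (nat_lit 613) (nat_lit 542) (nat_lit 405))) (XT.nd (nat_lit 78) (nat_lit 532) (nat_lit 0) (XT.lf (nat_lit 0) (nat_lit 7281015678) (nat_lit 532) (nat_lit 3976585158) (nat_lit 608) (nat_lit 2976373018) (nat_lit 229) (nat_lit 5) (nat_lit 236) (nat_lit 5) (nat_lit 237) (nat_lit 5) (nat_lit 614) (nat_lit 542) (nat_lit 404)) (XT.lf (nat_lit 0) (nat_lit 343239921) (nat_lit 532) (nat_lit 12401742790) (nat_lit 76) (nat_lit 1652333483) (nat_lit 222) (nat_lit 5) (nat_lit 229) (nat_lit 5) (nat_lit 223) (nat_lit 5) (nat_lit 615) (nat_lit 542) (nat_lit 403))))) (XT.nd (nat_lit 312) (nat_lit 1368) (nat_lit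 0) (XT.nd (nat_lit 156) (nat_lit 456) (nat_lit 0) (XT.nd (nat_lit 78) (nat_lit 456) (nat_lit 0) (XT.lf (nat_lit 0) (nat_lit 3748517972) (nat_lit 532) (nat_lit 3412290866) (nat_lit 76) (nat_lit 7401540816) (nat_lit 222) (nat_lit 5) (nat_lit 229) (nat_lit 5) (nat_lit 223) (nat_lit 5) (nat_lit 616) (nat_lit 542) (nat_lit 402)) (XT.lf (nat_lit 0) (nat_lit 5813321910) (nat_lit 456) (nat_lit 1432389524) (nat_lit 532) (nat_lit 7484496424) (nat_lit 216) (nat_lit 5) (nat_lit 222) (nat_lit 5) (nat_lit 223) (nat_lit 5) (nat_lit 617) (nat_lit 542) (nat_lit 401))) (XT.nd (nat_lit 78) (nat_lit 0) (nat_lit 0) (XT.lf (nat_lit 0) (nat_lit 324222620) (nat_lit 456) (nat_lit 10528589977) (nat_lit 532) (nat_lit 4047811619) (nat_lit 210) (nat_lit 5) (nat_lit 216) (nat_lit 5) (nat_lit 217) (nat_lit 5) (nat_lit 618) (nat_lit 542) (nat_lit 400)) (XT.lf (nat_lit 0) (nat_lit 9841565815) (nat_lit 456) (nat_lit 4746065180) (nat_lit 532) (nat_lit 485706664) (nat_lit 210) (nat_lit 5)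 (nat_lit 216) (nat_lit 5) (nat_lit 217) (nat_lit 5) (nat_lit 619) (nat_lit 542) (nat_lit 399)))) (XT.nd (nat_lit 156) (nat_lit 836) (nat_lit 0) (XT.nd (nat_lit 78) (nat_lit 0) (nat_lit 0) (XT.lf (nat_lit 0) (nat_lit 3128637934) (nat_lit 532) (nat_lit 10940281918) (nat_lit 76) (nat_lit 1179731450) (nat_lit 203) (nat_lit 5) (nat_lit 210) (nat_lit 5) (nat_lit 204) (nat_lit 5) (nat_lit 620) (nat_lit 542) (nat_lit 398)) (XT.lf (nat_lit 0) (nat_lit 6862135372) (nat_lit 532) (nat_lit 1371152925) (nat_lit 76) (nat_lit 7193051567) (nat_lit 203) (nat_lit 5) (nat_lit 210) (nat_lit 5) (nat_lit 204) (nat_lit 5) (nat_lit 621) (nat_lit 542) (nat_lit 397))) (XT.nd (nat_lit 78) (nat_lit 456) (nat_lit 0) (XT.lf (nat_lit 0) (nat_lit 8481243296) (nat_lit 380) (nat_lit 2230980357) (nat_lit 456) (nat_lit 4894520366) (nat_lit 198) (nat_lit 5) (nat_lit 203) (nat_lit 5) (nat_lit 204) (nat_lit 5) (nat_lit 622) (nat_lit 542) (nat_lit 396)) (XT.lf (nat_lit 0) (nat_lit 2750000730)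 (nat_lit 456) (nat_lit 11928642947) (nat_lit 532) (nat_lit 1111326220) (nat_lit 192) (nat_lit 5) (nat_lit 198) (nat_lit 5) (nat_lit 199) (nat_lit 5) (nat_lit 623) (nat_lit 542) (nat_lit 395)))))) (XT.nd (nat_lit 624) (nat_lit 1900) (nat_lit 0) (XT.nd (nat_lit 312) (nat_lit 1216) (nat_lit 0) (XT.nd (nat_lit 156) (nat_lit 380) (nat_lit 0) (XT.nd (nat_lit 78) (nat_lit 380) (nat_lit 0) (XT.lf (nat_lit 0) (nat_lit 2761397062) (nat_lit 532) (nat_lit 3108720332) (nat_lit 76) (nat_lit 10105388357) (nat_lit 191) (nat_lit 5) (nat_lit 198) (nat_lit 5) (nat_lit 192) (nat_lit 5) (nat_lit 624) (nat_lit 542) (nat_lit 394)) (XT.lf (nat_lit 0) (nat_lit 6732295451) (nat_lit 456) (nat_lit 9078617203) (nat_lit 76) (nat_lit 352980948) (nat_lit 186) (nat_lit 5) (nat_lit 192) (nat_lit 5) (nat_lit 187) (nat_lit 5) (nat_lit 625) (nat_lit 542) (nat_lit 393))) (XT.nd (nat_lit 78) (nat_lit 0) (nat_lit 0) (XT.lf (nat_lit 0) (nat_lit 1126228025) (nat_lit 380) (nat_lit 9710903288) (nat_lit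 456) (nat_lit 5517827725) (nat_lit 181) (nat_lit 5) (nat_lit 186) (nat_lit 5) (nat_lit 187) (nat_lit 5) (nat_lit 626) (nat_lit 542) (nat_lit 392)) (XT.lf (nat_lit 0) (nat_lit 11639169300) (nat_lit 380) (nat_lit 3433274524) (nat_lit 456) (nat_lit 1476434577) (nat_lit 181) (nat_lit 5) (nat_lit 186) (nat_lit 5) (nat_lit 187) (nat_lit 5) (nat_lit 627) (nat_lit 542) (nat_lit 391)))) (XT.nd (nat_lit 156) (nat_lit 760) (nat_lit 0) (XT.nd (nat_lit 78) (nat_lit 0) (nat_lit 0) (XT.lf (nat_lit 0) (nat_lit 2655014095) (nat_lit 456) (nat_lit 11111632616) (nat_lit 76) (nat_lit 2978807528) (nat_lit 175) (nat_lit 5) (nat_lit 181) (nat_lit 5) (nat_lit 176) (nat_lit 5) (nat_lit 628) (nat_lit 542) (nat_lit 390)) (XT.lf (nat_lit 0) (nat_lit 6892943582) (nat_lit 456) (nat_lit 542194190) (nat_lit 76) (nat_lit 9509756414) (nat_lit 175) (nat_lit 5) (nat_lit 181) (nat_lit 5) (nat_lit 176) (nat_lit 5) (nat_lit 629) (nat_lit 542) (nat_lit 389))) (XT.nd (nat_lit 78) (nat_lit 380)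 (nat_lit 0) (XT.lf (nat_lit 0) (nat_lit 10355889541) (nat_lit 380) (nat_lit 914921559) (nat_lit 456) (nat_lit 5876408442) (nat_lit 170) (nat_lit 5) (nat_lit 175) (nat_lit 5) (nat_lit 176) (nat_lit 5) (nat_lit 630) (nat_lit 542) (nat_lit 388)) (XT.lf (nat_lit 0) (nat_lit 4123950682) (nat_lit 380) (nat_lit 11667979816) (nat_lit 456) (nat_lit 1560547212) (nat_lit 165) (nat_lit 5) (nat_lit 170) (nat_lit 5) (nat_lit 171) (nat_lit 5) (nat_lit 631) (nat_lit 542) (nat_lit 387))))) (XT.nd (nat_lit 312) (nat_lit 1140) (nat_lit 0) (XT.nd (nat_lit 156) (nat_lit 304) (nat_lit 0) (XT.nd (nat_lit 78) (nat_lit 380) (nat_lit 0) (XT.lf (nat_lit 0) (nat_lit 2844349635) (nat_lit 456) (nat_lit 2254818832) (nat_lit 76) (nat_lit 12461504026) (nat_lit 164) (nat_lit 5) (nat_lit 170) (nat_lit 5) (nat_lit 165) (nat_lit 5) (nat_lit 632) (nat_lit 542) (nat_lit 386)) (XT.lf (nat_lit 0) (nat_lit 7374180375) (nat_lit 456) (nat_lit 8754568708) (nat_lit 76) (nat_lit 1642921336) (nat_lit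 159) (nat_lit 5) (nat_lit 165) (nat_lit 5) (nat_lit 160) (nat_lit 5) (nat_lit 633) (nat_lit 542) (nat_lit 385))) (XT.nd (nat_lit 78) (nat_lit 0) (nat_lit 0) (XT.lf (nat_lit 0) (nat_lit 2539499396) (nat_lit 304) (nat_lit 9508952698) (nat_lit 380) (nat_lit 5937359501) (nat_lit 155) (nat_lit 5) (nat_lit 159) (nat_lit 5) (nat_lit 160) (nat_lit 5) (nat_lit 634) (nat_lit 542) (nat_lit 384)) (XT.lf (nat_lit 0) (nat_lit 14159863535) (nat_lit 304) (nat_lit 2703558962) (nat_lit 380) (nat_lit 1339869007) (nat_lit 155) (nat_lit 5) (nat_lit 159) (nat_lit 5) (nat_lit 160) (nat_lit 5) (nat_lit 635) (nat_lit 542) (nat_lit 383)))) (XT.nd (nat_lit 156) (nat_lit 380) (nat_lit 0) (XT.nd (nat_lit 78) (nat_lit 304) (nat_lit 0) (XT.lf (nat_lit 0) (nat_lit 3371858819) (nat_lit 456) (nat_lit 10803843715) (nat_lit 76) (nat_lit 4247659340) (nat_lit 149) (nat_lit 5) (nat_lit 155) (nat_lit 5) (nat_lit 150) (nat_lit 5) (nat_lit 636) (nat_lit 542) (nat_lit 382)) (XT.lf (nat_lit 0) (nat_lit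 889841984) (nat_lit 304) (nat_lit 7309730352) (nat_lit 380) (nat_lit 10447290512) (nat_lit 145) (nat_lit 5) (nat_lit 149) (nat_lit 5) (nat_lit 150) (nat_lit 5) (nat_lit 637) (nat_lit 542) (nat_lit 381))) (XT.nd (nat_lit 78) (nat_lit 380) (nat_lit 0) (XT.lf (nat_lit 0) (nat_lit 12945856456) (nat_lit 304) (nat_lit 239268453) (nat_lit 380) (nat_lit 5688483398) (nat_lit 145) (nat_lit 5) (nat_lit 149) (nat_lit 5) (nat_lit 150) (nat_lit 5) (nat_lit 638) (nat_lit 542) (nat_lit 380)) (XT.lf (nat_lit 0) (nat_lit 6155747545) (nat_lit 380) (nat_lit 12188840999) (nat_lit 456) (nat_lit 758816292) (nat_lit 140) (nat_lit 5) (nat_lit 145) (nat_lit 5) (nat_lit 146) (nat_lit 5) (nat_lit 639) (nat_lit 542) (nat_lit 379))))))))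
noncomputable def xc109 : XT := (XT.nd (nat_lit 75894) (nat_lit 0) (nat_lit 11780) (XT.nd (nat_lit 74646) (nat_lit 0) (nat_lit 29184) (XT.nd (nat_lit 74022) (nat_lit 0) (nat_lit 36556) (XT.nd (nat_lit 73710) (nat_lit 0) (nat_lit 37772) (XT.nd (nat_lit 78) (nat_lit 304) (nat_lit 0) (XT.lf (nat_lit 0) (nat_lit 4244066930) (nat_lit 456) (nat_lit 823147821) (nat_lit 76) (nat_lit 14269415949) (nat_lit 139) (nat_lit 5) (nat_lit 145) (nat_lit 5) (nat_lit 140) (nat_lit 5) (nat_lit 640) (nat_lit 542) (nat_lit 378)) (XT.nd (nat_lit 73554) (nat_lit 0) (nat_lit 39064) (XT.lf (nat_lit 0) (nat_lit 9416616920) (nat_lit 380) (nat_lit 7913434014) (nat_lit 76) (nat_lit 2242774590) (nat_lit 135) (nat_lit 5) (nat_lit 140) (nat_lit 5) (nat_lit 136) (nat_lit 5) (nat_lit 641) (nat_lit 542) (nat_lit 377)) (XT.lf (nat_lit 0) (nat_lit 2391193569) (nat_lit 1292) (nat_lit 666174972) (nat_lit 1292) (nat_lit 666174972) (nat_lit 649) (nat_lit 3) (nat_lit 666) (nat_lit 3) (nat_lit 666)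 (nat_lit 5) (nat_lit 543) (nat_lit 543) (nat_lit 474)))) (XT.nd (nat_lit 156) (nat_lit 0) (nat_lit 76) (XT.nd (nat_lit 78) (nat_lit 1292) (nat_lit 0) (XT.lf (nat_lit 76) (nat_lit 2409953899) (nat_lit 0) (nat_lit 3920549304) (nat_lit 1292) (nat_lit 1160991853) (nat_lit 650) (nat_lit 5) (nat_lit 649) (nat_lit 3) (nat_lit 666) (nat_lit 5) (nat_lit 544) (nat_lit 543) (nat_lit 473)) (XT.lf (nat_lit 0) (nat_lit 337567423) (nat_lit 1292) (nat_lit 1314577575) (nat_lit 1368) (nat_lit 5885205981) (nat_lit 632) (nat_lit 5) (nat_lit 649) (nat_lit 3) (nat_lit 650) (nat_lit 5) (nat_lit 545) (nat_lit 543) (nat_lit 472))) (XT.nd (nat_lit 78) (nat_lit 0) (nat_lit 0) (XT.lf (nat_lit 0) (nat_lit 1833024786) (nat_lit 1292) (nat_lit 5055975797) (nat_lit 1368) (nat_lit 695321940) (nat_lit 633) (nat_lit 5) (nat_lit 650) (nat_lit 5) (nat_lit 651) (nat_lit 5) (nat_lit 546) (nat_lit 543) (nat_lit 471)) (XT.lf (nat_lit 0) (nat_lit 3340391426) (nat_lit 1292) (nat_lit 1198095384)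 (nat_lit 1368) (nat_lit 3094108092) (nat_lit 633) (nat_lit 5) (nat_lit 650) (nat_lit 5) (nat_lit 651) (nat_lit 5) (nat_lit 547) (nat_lit 543) (nat_lit 470))))) (XT.nd (nat_lit 312) (nat_lit 0) (nat_lit 76) (XT.nd (nat_lit 156) (nat_lit 1292) (nat_lit 0) (XT.nd (nat_lit 78) (nat_lit 0) (nat_lit 76) (XT.lf (nat_lit 76) (nat_lit 2752465741) (nat_lit 0) (nat_lit 2106230928) (nat_lit 1368) (nat_lit 2823521617) (nat_lit 634) (nat_lit 5) (nat_lit 633) (nat_lit 5) (nat_lit 651) (nat_lit 5) (nat_lit 548) (nat_lit 543) (nat_lit 469)) (XT.lf (nat_lit 0) (nat_lit 6381512664) (nat_lit 1292) (nat_lit 958156443) (nat_lit 1368) (nat_lit 393683490) (nat_lit 634) (nat_lit 5) (nat_lit 651) (nat_lit 5) (nat_lit 652) (nat_lit 5) (nat_lit 549) (nat_lit 543) (nat_lit 468))) (XT.nd (nat_lit 78) (nat_lit 0) (nat_lit 0) (XT.lf (nat_lit 0) (nat_lit 145705392) (nat_lit 1368) (nat_lit 4687797091) (nat_lit 1444) (nat_lit 2952021276) (nat_lit 616) (nat_lit 5) (nat_lit 634) (nat_lit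 5) (nat_lit 635) (nat_lit 5) (nat_lit 550) (nat_lit 543) (nat_lit 467)) (XT.lf (nat_lit 0) (nat_lit 1626253099) (nat_lit 1368) (nat_lit 621081725) (nat_lit 1444) (nat_lit 5591803029) (nat_lit 616) (nat_lit 5) (nat_lit 634) (nat_lit 5) (nat_lit 635) (nat_lit 5) (nat_lit 551) (nat_lit 543) (nat_lit 466)))) (XT.nd (nat_lit 156) (nat_lit 0) (nat_lit 0) (XT.nd (nat_lit 78) (nat_lit 0) (nat_lit 0) (XT.lf (nat_lit 0) (nat_lit 3127613603) (nat_lit 1368) (nat_lit 4344048963) (nat_lit 1444) (nat_lit 422338877) (nat_lit 617) (nat_lit 5) (nat_lit 635) (nat_lit 5) (nat_lit 636) (nat_lit 5) (nat_lit 552) (nat_lit 543) (nat_lit 465)) (XT.lf (nat_lit 0) (nat_lit 4644068625) (nat_lit 1368) (nat_lit 173373938) (nat_lit 1444) (nat_lit 3132819623) (nat_lit 617) (nat_lit 5) (nat_lit 635) (nat_lit 5) (nat_lit 636) (nat_lit 5) (nat_lit 553) (nat_lit 543) (nat_lit 464))) (XT.nd (nat_lit 78) (nat_lit 0) (nat_lit 76) (XT.lf (nat_lit 76) (nat_lit 4113675324) (nat_lit 0) (nat_lit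 2070541927) (nat_lit 1444) (nat_lit 1823564804) (nat_lit 618) (nat_lit 5) (nat_lit 617) (nat_lit 5) (nat_lit 636) (nat_lit 5) (nat_lit 554) (nat_lit 543) (nat_lit 463)) (XT.lf (nat_lit 76) (nat_lit 401305889) (nat_lit 0) (nat_lit 7329639654) (nat_lit 1444) (nat_lit 335992425) (nat_lit 619) (nat_lit 5) (nat_lit 618) (nat_lit 5) (nat_lit 637) (nat_lit 5) (nat_lit 555) (nat_lit 543) (nat_lit 462)))))) (XT.nd (nat_lit 624) (nat_lit 4712) (nat_lit 0) (XT.nd (nat_lit 312) (nat_lit 1368) (nat_lit 0) (XT.nd (nat_lit 156) (nat_lit 0) (nat_lit 76) (XT.nd (nat_lit 78) (nat_lit 0) (nat_lit 0) (XT.lf (nat_lit 0) (nat_lit 1173394928) (nat_lit 1444) (nat_lit 3334775874) (nat_lit 1520) (nat_lit 3618802791) (nat_lit 599) (nat_lit 5) (nat_lit 618) (nat_lit 5) (nat_lit 619) (nat_lit 5) (nat_lit 556) (nat_lit 543) (nat_lit 461)) (XT.lf (nat_lit 76) (nat_lit 1073096518) (nat_lit 0) (nat_lit 1610522640) (nat_lit 1520) (nat_lit 5505044504) (nat_lit 600) (nat_lit 5) (nat_lit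 599) (nat_lit 5) (nat_lit 619) (nat_lit 5) (nat_lit 557) (nat_lit 543) (nat_lit 460))) (XT.nd (nat_lit 78) (nat_lit 0) (nat_lit 0) (XT.lf (nat_lit 0) (nat_lit 4224034680) (nat_lit 1444) (nat_lit 2667692708) (nat_lit 1520) (nat_lit 1359861498) (nat_lit 600) (nat_lit 5) (nat_lit 619) (nat_lit 5) (nat_lit 620) (nat_lit 5) (nat_lit 558) (nat_lit 543) (nat_lit 459)) (XT.lf (nat_lit 76) (nat_lit 1861314866) (nat_lit 0) (nat_lit 3926034801) (nat_lit 1520) (nat_lit 2528582192) (nat_lit 601) (nat_lit 5) (nat_lit 600) (nat_lit 5) (nat_lit 620) (nat_lit 5) (nat_lit 559) (nat_lit 543) (nat_lit 458)))) (XT.nd (nat_lit 156) (nat_lit 0) (nat_lit 0) (XT.nd (nat_lit 78) (nat_lit 1444) (nat_lit 0) (XT.lf (nat_lit 76) (nat_lit 6495635662) (nat_lit 0) (nat_lit 873999506) (nat_lit 1520) (nat_lit 1012173485) (nat_lit 601) (nat_lit 5) (nat_lit 600) (nat_lit 5) (nat_lit 620) (nat_lit 5) (nat_lit 560) (nat_lit 543) (nat_lit 457)) (XT.lf (nat_lit 0) (nat_lit 530568934) (nat_lit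 1520) (nat_lit 5678610116) (nat_lit 1596) (nat_lit 2239695196) (nat_lit 581) (nat_lit 5) (nat_lit 601) (nat_lit 5) (nat_lit 602) (nat_lit 5) (nat_lit 561) (nat_lit 543) (nat_lit 456))) (XT.nd (nat_lit 78) (nat_lit 0) (nat_lit 76) (XT.lf (nat_lit 0) (nat_lit 2079851440) (nat_lit 1520) (nat_lit 1006110407) (nat_lit 1596) (nat_lit 5431401717) (nat_lit 581) (nat_lit 5) (nat_lit 601) (nat_lit 5) (nat_lit 602) (nat_lit 5) (nat_lit 562) (nat_lit 543) (nat_lit 455)) (XT.lf (nat_lit 0) (nat_lit 3656842552) (nat_lit 1520) (nat_lit 4800118984) (nat_lit 1596) (nat_lit 130327639) (nat_lit 582) (nat_lit 5) (nat_lit 602) (nat_lit 5) (nat_lit 603) (nat_lit 5) (nat_lit 563) (nat_lit 543) (nat_lit 454))))) (XT.nd (nat_lit 312) (nat_lit 3268) (nat_lit 0) (XT.nd (nat_lit 156) (nat_lit 1520) (nat_lit 0) (XT.nd (nat_lit 78) (nat_lit 0) (nat_lit 0) (XT.lf (nat_lit 0) (nat_lit 5264347653) (nat_lit 1520) (nat_lit 10951744) (nat_lit 1596) (nat_lit 3383335367) (nat_lit 582) (nat_lit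 5) (nat_lit 602) (nat_lit 5) (nat_lit 603) (nat_lit 5) (nat_lit 564) (nat_lit 543) (nat_lit 453)) (XT.lf (nat_lit 76) (nat_lit 4916969679) (nat_lit 0) (nat_lit 1991252591) (nat_lit 1596) (nat_lit 1823101535) (nat_lit 583) (nat_lit 5) (nat_lit 582) (nat_lit 5) (nat_lit 603) (nat_lit 5) (nat_lit 565) (nat_lit 543) (nat_lit 452))) (XT.nd (nat_lit 78) (nat_lit 76) (nat_lit 0) (XT.lf (nat_lit 0) (nat_lit 1122068406) (nat_lit 1520) (nat_lit 7451823402) (nat_lit 1596) (nat_lit 231797382) (nat_lit 563) (nat_lit 5) (nat_lit 583) (nat_lit 5) (nat_lit 584) (nat_lit 5) (nat_lit 566) (nat_lit 543) (nat_lit 451)) (XT.lf (nat_lit 0) (nat_lit 1384990410) (nat_lit 1596) (nat_lit 2716671860) (nat_lit 76) (nat_lit 4779461717) (nat_lit 562) (nat_lit 5) (nat_lit 583) (nat_lit 5) (nat_lit 563) (nat_lit 5) (nat_lit 567) (nat_lit 543) (nat_lit 450)))) (XT.nd (nat_lit 156) (nat_lit 1672) (nat_lit 0) (XT.nd (nat_lit 78) (nat_lit 0) (nat_lit 0) (XT.lf (nat_lit 0) (nat_lit 2357255818)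 (nat_lit 1596) (nat_lit 662544690) (nat_lit 1672) (nat_lit 5938461380) (nat_lit 541) (nat_lit 5) (nat_lit 562) (nat_lit 5) (nat_lit 563) (nat_lit 5) (nat_lit 568) (nat_lit 543) (nat_lit 449)) (XT.lf (nat_lit 0) (nat_lit 4698023517) (nat_lit 1672) (nat_lit 1507836367) (nat_lit 76) (nat_lit 2830869170) (nat_lit 541) (nat_lit 5) (nat_lit 563) (nat_lit 5) (nat_lit 542) (nat_lit 5) (nat_lit 569) (nat_lit 543) (nat_lit 448))) (XT.nd (nat_lit 78) (nat_lit 0) (nat_lit 0) (XT.lf (nat_lit 0) (nat_lit 3709746324) (nat_lit 1672) (nat_lit 2702942180) (nat_lit 1748) (nat_lit 2704020337) (nat_lit 519) (nat_lit 5) (nat_lit 541) (nat_lit 5) (nat_lit 542) (nat_lit 5) (nat_lit 570) (nat_lit 543) (nat_lit 447)) (XT.lf (nat_lit 0) (nat_lit 8152270270) (nat_lit 1748) (nat_lit 173784987) (nat_lit 76) (nat_lit 872421304) (nat_lit 519) (nat_lit 5) (nat_lit 542) (nat_lit 5) (nat_lit 520) (nat_lit 5) (nat_lit 571) (nat_lit 543) (nat_lit 446))))))) (XT.nd (nat_lit 1170) (nat_lit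 7220) (nat_lit 0) (XT.nd (nat_lit 546) (nat_lit 3496) (nat_lit 0) (XT.nd (nat_lit 234) (nat_lit 3040) (nat_lit 0) (XT.nd (nat_lit 78) (nat_lit 1824) (nat_lit 0) (XT.lf (nat_lit 0) (nat_lit 663382772) (nat_lit 1824) (nat_lit 4093118985) (nat_lit 76) (nat_lit 4524753434) (nat_lit 495) (nat_lit 5) (nat_lit 519) (nat_lit 5) (nat_lit 496) (nat_lit 5) (nat_lit 572) (nat_lit 543) (nat_lit 445)) (XT.nd (nat_lit 78) (nat_lit 0) (nat_lit 0) (XT.lf (nat_lit 0) (nat_lit 1282009073) (nat_lit 1824) (nat_lit 1096122787) (nat_lit 1900) (nat_lit 6987720449) (nat_lit 471) (nat_lit 5) (nat_lit 495) (nat_lit 5) (nat_lit 496) (nat_lit 5) (nat_lit 573) (nat_lit 543) (nat_lit 444)) (XT.lf (nat_lit 0) (nat_lit 4147771482) (nat_lit 1900) (nat_lit 2670985984) (nat_lit 76) (nat_lit 2632972738) (nat_lit 471) (nat_lit 5) (nat_lit 496) (nat_lit 5) (nat_lit 472) (nat_lit 5) (nat_lit 574) (nat_lit 543) (nat_lit 443)))) (XT.nd (nat_lit 156) (nat_lit 1900) (nat_lit 0) (XT.nd (nat_lit 78)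 (nat_lit 0) (nat_lit 0) (XT.lf (nat_lit 0) (nat_lit 2858584791) (nat_lit 1140) (nat_lit 3096334597) (nat_lit 1216) (nat_lit 3584364693) (nat_lit 456) (nat_lit 5) (nat_lit 471) (nat_lit 5) (nat_lit 472) (nat_lit 5) (nat_lit 575) (nat_lit 543) (nat_lit 442)) (XT.lf (nat_lit 0) (nat_lit 7797433265) (nat_lit 1216) (nat_lit 1120056476) (nat_lit 76) (nat_lit 711115554) (nat_lit 456) (nat_lit 5) (nat_lit 472) (nat_lit 5) (nat_lit 457) (nat_lit 5) (nat_lit 576) (nat_lit 543) (nat_lit 441))) (XT.nd (nat_lit 78) (nat_lit 988) (nat_lit 0) (XT.lf (nat_lit 0) (nat_lit 4569545882) (nat_lit 912) (nat_lit 5134516015) (nat_lit 988) (nat_lit 15106450) (nat_lit 444) (nat_lit 5) (nat_lit 456) (nat_lit 5) (nat_lit 457) (nat_lit 5) (nat_lit 577) (nat_lit 543) (nat_lit 440)) (XT.lf (nat_lit 0) (nat_lit 550128422) (nat_lit 912) (nat_lit 1251442961) (nat_lit 988) (nat_lit 8009965633) (nat_lit 431) (nat_lit 5) (nat_lit 443) (nat_lit 5) (nat_lit 444) (nat_lit 5) (nat_lit 578) (nat_lit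 543) (nat_lit 439))))) (XT.nd (nat_lit 312) (nat_lit 1748) (nat_lit 0) (XT.nd (nat_lit 156) (nat_lit 912) (nat_lit 0) (XT.nd (nat_lit 78) (nat_lit 836) (nat_lit 0) (XT.lf (nat_lit 0) (nat_lit 3684316301) (nat_lit 988) (nat_lit 3511451892) (nat_lit 76) (nat_lit 2709384817) (nat_lit 431) (nat_lit 5) (nat_lit 444) (nat_lit 5) (nat_lit 432) (nat_lit 5) (nat_lit 579) (nat_lit 543) (nat_lit 438)) (XT.lf (nat_lit 0) (nat_lit 2354379283) (nat_lit 836) (nat_lit 3251910301) (nat_lit 912) (nat_lit 4394320920) (nat_lit 420) (nat_lit 5) (nat_lit 431) (nat_lit 5) (nat_lit 432) (nat_lit 5) (nat_lit 580) (nat_lit 543) (nat_lit 437))) (XT.nd (nat_lit 78) (nat_lit 912) (nat_lit 0) (XT.lf (nat_lit 0) (nat_lit 7573718563) (nat_lit 912) (nat_lit 1739548809) (nat_lit 76) (nat_lit 784570090) (nat_lit 420) (nat_lit 5) (nat_lit 432) (nat_lit 5) (nat_lit 421) (nat_lit 5) (nat_lit 581) (nat_lit 543) (nat_lit 436)) (XT.lf (nat_lit 0) (nat_lit 4298531043) (nat_lit 912) (nat_lit 5310127257)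 (nat_lit 988) (nat_lit 587788042) (nat_lit 408) (nat_lit 5) (nat_lit 420) (nat_lit 5) (nat_lit 421) (nat_lit 5) (nat_lit 582) (nat_lit 543) (nat_lit 435)))) (XT.nd (nat_lit 156) (nat_lit 836) (nat_lit 0) (XT.nd (nat_lit 78) (nat_lit 0) (nat_lit 0) (XT.lf (nat_lit 0) (nat_lit 155396238) (nat_lit 836) (nat_lit 1205294301) (nat_lit 912) (nat_lit 8936325011) (nat_lit 396) (nat_lit 5) (nat_lit 407) (nat_lit 5) (nat_lit 408) (nat_lit 5) (nat_lit 583) (nat_lit 543) (nat_lit 434)) (XT.lf (nat_lit 0) (nat_lit 3378600367) (nat_lit 912) (nat_lit 4034582853) (nat_lit 76) (nat_lit 2985569163) (nat_lit 396) (nat_lit 5) (nat_lit 408) (nat_lit 5) (nat_lit 397) (nat_lit 5) (nat_lit 584) (nat_lit 543) (nat_lit 433))) (XT.nd (nat_lit 78) (nat_lit 0) (nat_lit 0) (XT.lf (nat_lit 0) (nat_lit 2193829249) (nat_lit 836) (nat_lit 3244800135) (nat_lit 912) (nat_lit 5063859927) (nat_lit 385) (nat_lit 5) (nat_lit 396) (nat_lit 5) (nat_lit 397) (nat_lit 5) (nat_lit 585) (nat_lit 543)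 (nat_lit 432)) (XT.lf (nat_lit 0) (nat_lit 7553439745) (nat_lit 912) (nat_lit 2034787571) (nat_lit 76) (nat_lit 1019802614) (nat_lit 385) (nat_lit 5) (nat_lit 397) (nat_lit 5) (nat_lit 386) (nat_lit 5) (nat_lit 586) (nat_lit 543) (nat_lit 431)))))) (XT.nd (nat_lit 624) (nat_lit 3344) (nat_lit 0) (XT.nd (nat_lit 312) (nat_lit 1520) (nat_lit 0) (XT.nd (nat_lit 156) (nat_lit 760) (nat_lit 0) (XT.nd (nat_lit 78) (nat_lit 836) (nat_lit 0) (XT.lf (nat_lit 0) (nat_lit 4379123868) (nat_lit 760) (nat_lit 5361529144) (nat_lit 836) (nat_lit 974426770) (nat_lit 375) (nat_lit 5) (nat_lit 385) (nat_lit 5) (nat_lit 386) (nat_lit 5) (nat_lit 587) (nat_lit 543) (nat_lit 430)) (XT.lf (nat_lit 0) (nat_lit 97127871) (nat_lit 760) (nat_lit 1029846292) (nat_lit 836) (nat_lit 9697254379) (nat_lit 364) (nat_lit 5) (nat_lit 374) (nat_lit 5) (nat_lit 375) (nat_lit 5) (nat_lit 588) (nat_lit 543) (nat_lit 429))) (XT.nd (nat_lit 78) (nat_lit 760) (nat_lit 0) (XT.lf (nat_lit 0) (nat_lit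 3302708393) (nat_lit 836) (nat_lit 4240425833) (nat_lit 76) (nat_lit 3391390699) (nat_lit 364) (nat_lit 5) (nat_lit 375) (nat_lit 5) (nat_lit 365) (nat_lit 5) (nat_lit 589) (nat_lit 543) (nat_lit 428)) (XT.lf (nat_lit 0) (nat_lit 2379050409) (nat_lit 760) (nat_lit 3146096274) (nat_lit 836) (nat_lit 5521817278) (nat_lit 354) (nat_lit 5) (nat_lit 364) (nat_lit 5) (nat_lit 365) (nat_lit 5) (nat_lit 590) (nat_lit 543) (nat_lit 427)))) (XT.nd (nat_lit 156) (nat_lit 760) (nat_lit 0) (XT.nd (nat_lit 78) (nat_lit 760) (nat_lit 0) (XT.lf (nat_lit 0) (nat_lit 7810514862) (nat_lit 836) (nat_lit 2003103302) (nat_lit 76) (nat_lit 1347664495) (nat_lit 354) (nat_lit 5) (nat_lit 365) (nat_lit 5) (nat_lit 355) (nat_lit 5) (nat_lit 591) (nat_lit 543) (nat_lit 426)) (XT.lf (nat_lit 0) (nat_lit 4816220400) (nat_lit 760) (nat_lit 5358989168) (nat_lit 836) (nat_lit 1102006272) (nat_lit 344) (nat_lit 5) (nat_lit 354) (nat_lit 5) (nat_lit 355) (nat_lit 5) (nat_lit 592) (nat_lit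 543) (nat_lit 425))) (XT.nd (nat_lit 78) (nat_lit 0) (nat_lit 0) (XT.lf (nat_lit 0) (nat_lit 379820086) (nat_lit 684) (nat_lit 793896460) (nat_lit 760) (nat_lit 10221644547) (nat_lit 334) (nat_lit 5) (nat_lit 343) (nat_lit 5) (nat_lit 344) (nat_lit 5) (nat_lit 593) (nat_lit 543) (nat_lit 424)) (XT.lf (nat_lit 0) (nat_lit 3530756924) (nat_lit 760) (nat_lit 4124056950) (nat_lit 76) (nat_lit 3859898977) (nat_lit 334) (nat_lit 5) (nat_lit 344) (nat_lit 5) (nat_lit 335) (nat_lit 5) (nat_lit 594) (nat_lit 543) (nat_lit 423))))) (XT.nd (nat_lit 312) (nat_lit 1216) (nat_lit 0) (XT.nd (nat_lit 156) (nat_lit 1444) (nat_lit 0) (XT.nd (nat_lit 78) (nat_lit 0) (nat_lit 0) (XT.lf (nat_lit 0) (nat_lit 2917255441) (nat_lit 684) (nat_lit 3024060882) (nat_lit 760) (nat_lit 5695008212) (nat_lit 325) (nat_lit 5) (nat_lit 334) (nat_lit 5) (nat_lit 335) (nat_lit 5) (nat_lit 595) (nat_lit 543) (nat_lit 422)) (XT.lf (nat_lit 0) (nat_lit 8421350449) (nat_lit 760) (nat_lit 1636931813)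 (nat_lit 76) (nat_lit 1701661367) (nat_lit 325) (nat_lit 5) (nat_lit 335) (nat_lit 5) (nat_lit 326) (nat_lit 5) (nat_lit 596) (nat_lit 543) (nat_lit 421))) (XT.nd (nat_lit 78) (nat_lit 760) (nat_lit 0) (XT.lf (nat_lit 0) (nat_lit 5619743595) (nat_lit 684) (nat_lit 5370473933) (nat_lit 760) (nat_lit 895033370) (nat_lit 316) (nat_lit 5) (nat_lit 325) (nat_lit 5) (nat_lit 326) (nat_lit 5) (nat_lit 597) (nat_lit 543) (nat_lit 420)) (XT.lf (nat_lit 0) (nat_lit 1012862879) (nat_lit 684) (nat_lit 564027773) (nat_lit 760) (nat_lit 10435957790) (nat_lit 306) (nat_lit 5) (nat_lit 315) (nat_lit 5) (nat_lit 316) (nat_lit 5) (nat_lit 598) (nat_lit 543) (nat_lit 419)))) (XT.nd (nat_lit 156) (nat_lit 608) (nat_lit 0) (XT.nd (nat_lit 78) (nat_lit 608) (nat_lit 0) (XT.lf (nat_lit 0) (nat_lit 4139759554) (nat_lit 760) (nat_lit 3675852847) (nat_lit 76) (nat_lit 4326197807) (nat_lit 306) (nat_lit 5) (nat_lit 316) (nat_lit 5) (nat_lit 307) (nat_lit 5) (nat_lit 599) (nat_lit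 543) (nat_lit 418)) (XT.lf (nat_lit 0) (nat_lit 3820494168) (nat_lit 608) (nat_lit 2945253374) (nat_lit 684) (nat_lit 5507366838) (nat_lit 298) (nat_lit 5) (nat_lit 306) (nat_lit 5) (nat_lit 307) (nat_lit 5) (nat_lit 600) (nat_lit 543) (nat_lit 417))) (XT.nd (nat_lit 78) (nat_lit 608) (nat_lit 0) (XT.lf (nat_lit 0) (nat_lit 9465706113) (nat_lit 684) (nat_lit 924058626) (nat_lit 76) (nat_lit 2016851277) (nat_lit 298) (nat_lit 5) (nat_lit 307) (nat_lit 5) (nat_lit 299) (nat_lit 5) (nat_lit 601) (nat_lit 543) (nat_lit 416)) (XT.lf (nat_lit 0) (nat_lit 6804410513) (nat_lit 608) (nat_lit 5462749883) (nat_lit 684) (nat_lit 274677747) (nat_lit 290) (nat_lit 5) (nat_lit 298) (nat_lit 5) (nat_lit 299) (nat_lit 5) (nat_lit 602) (nat_lit 543) (nat_lit 415))))))))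
noncomputable def xc110 : XT := (XT.nd (nat_lit 2418) (nat_lit 2204) (nat_lit 0) (XT.nd (nat_lit 1170) (nat_lit 4408) (nat_lit 0) (XT.nd (nat_lit 546) (nat_lit 2660) (nat_lit 0) (XT.nd (nat_lit 234) (nat_lit 1216) (nat_lit 0) (XT.nd (nat_lit 78) (nat_lit 608) (nat_lit 0) (XT.lf (nat_lit 0) (nat_lit 2010304880) (nat_lit 608) (nat_lit 405695640) (nat_lit 684) (nat_lit 10263383360) (nat_lit 281) (nat_lit 5) (nat_lit 289) (nat_lit 5) (nat_lit 290) (nat_lit 5) (nat_lit 603) (nat_lit 543) (nat_lit 414)) (XT.nd (nat_lit 78) (nat_lit 608) (nat_lit 0) (XT.lf (nat_lit 0) (nat_lit 5210477687) (nat_lit 684) (nat_lit 2881711928) (nat_lit 76) (nat_lit 4726381705) (nat_lit 281) (nat_lit 5) (nat_lit 290) (nat_lit 5) (nat_lit 282) (nat_lit 5) (nat_lit 604) (nat_lit 543) (nat_lit 413)) (XT.lf (nat_lit 0) (nat_lit 5105443798) (nat_lit 608) (nat_lit 2975595366) (nat_lit 684) (nat_lit 4879099811) (nat_lit 273) (nat_lit 5) (nat_lit 281) (nat_lit 5) (nat_lit 282) (nat_lit 5)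 (nat_lit 605) (nat_lit 543) (nat_lit 412)))) (XT.nd (nat_lit 156) (nat_lit 608) (nat_lit 0) (XT.nd (nat_lit 78) (nat_lit 76) (nat_lit 0) (XT.lf (nat_lit 0) (nat_lit 154205740) (nat_lit 532) (nat_lit 10874344601) (nat_lit 608) (nat_lit 2075597224) (nat_lit 266) (nat_lit 5) (nat_lit 273) (nat_lit 5) (nat_lit 274) (nat_lit 5) (nat_lit 606) (nat_lit 543) (nat_lit 411)) (XT.lf (nat_lit 0) (nat_lit 831034335) (nat_lit 608) (nat_lit 4865818553) (nat_lit 76) (nat_lit 7552935156) (nat_lit 265) (nat_lit 5) (nat_lit 273) (nat_lit 5) (nat_lit 266) (nat_lit 5) (nat_lit 607) (nat_lit 543) (nat_lit 410))) (XT.nd (nat_lit 78) (nat_lit 0) (nat_lit 0) (XT.lf (nat_lit 0) (nat_lit 3390663153) (nat_lit 608) (nat_lit 384262721) (nat_lit 684) (nat_lit 9623003007) (nat_lit 257) (nat_lit 5) (nat_lit 265) (nat_lit 5) (nat_lit 266) (nat_lit 5) (nat_lit 608) (nat_lit 543) (nat_lit 409)) (XT.lf (nat_lit 0) (nat_lit 6828265660) (nat_lit 684) (nat_lit 1723234413) (nat_lit 76) (nat_lit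 4996521377) (nat_lit 257) (nat_lit 5) (nat_lit 266) (nat_lit 5) (nat_lit 258) (nat_lit 5) (nat_lit 609) (nat_lit 543) (nat_lit 408))))) (XT.nd (nat_lit 312) (nat_lit 1064) (nat_lit 0) (XT.nd (nat_lit 156) (nat_lit 532) (nat_lit 0) (XT.nd (nat_lit 78) (nat_lit 532) (nat_lit 0) (XT.lf (nat_lit 0) (nat_lit 6793240249) (nat_lit 532) (nat_lit 3181390986) (nat_lit 608) (nat_lit 3725845775) (nat_lit 250) (nat_lit 5) (nat_lit 257) (nat_lit 5) (nat_lit 258) (nat_lit 5) (nat_lit 610) (nat_lit 543) (nat_lit 407)) (XT.lf (nat_lit 0) (nat_lit 1634186478) (nat_lit 532) (nat_lit 11572331356) (nat_lit 608) (nat_lit 649012286) (nat_lit 243) (nat_lit 5) (nat_lit 250) (nat_lit 5) (nat_lit 251) (nat_lit 5) (nat_lit 611) (nat_lit 543) (nat_lit 406))) (XT.nd (nat_lit 78) (nat_lit 456) (nat_lit 0) (XT.lf (nat_lit 0) (nat_lit 2509933048) (nat_lit 608) (nat_lit 3630204587) (nat_lit 76) (nat_lit 7872159235) (nat_lit 242) (nat_lit 5) (nat_lit 250) (nat_lit 5) (nat_lit 243) (nat_lit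 5) (nat_lit 612) (nat_lit 543) (nat_lit 405)) (XT.lf (nat_lit 0) (nat_lit 5176768526) (nat_lit 456) (nat_lit 565998589) (nat_lit 532) (nat_lit 8428958335) (nat_lit 236) (nat_lit 5) (nat_lit 242) (nat_lit 5) (nat_lit 243) (nat_lit 5) (nat_lit 613) (nat_lit 543) (nat_lit 404)))) (XT.nd (nat_lit 156) (nat_lit 532) (nat_lit 0) (XT.nd (nat_lit 78) (nat_lit 532) (nat_lit 0) (XT.lf (nat_lit 0) (nat_lit 9083918219) (nat_lit 532) (nat_lit 177869883) (nat_lit 76) (nat_lit 5071681579) (nat_lit 236) (nat_lit 5) (nat_lit 243) (nat_lit 5) (nat_lit 237) (nat_lit 5) (nat_lit 614) (nat_lit 543) (nat_lit 403)) (XT.lf (nat_lit 0) (nat_lit 8909341851) (nat_lit 532) (nat_lit 3630319139) (nat_lit 608) (nat_lit 1957832718) (nat_lit 229) (nat_lit 5) (nat_lit 236) (nat_lit 5) (nat_lit 237) (nat_lit 5) (nat_lit 615) (nat_lit 543) (nat_lit 402))) (XT.nd (nat_lit 78) (nat_lit 0) (nat_lit 0) (XT.lf (nat_lit 0) (nat_lit 1405646527) (nat_lit 532) (nat_lit 11144504167) (nat_lit 76) (nat_lit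 2113980362) (nat_lit 222) (nat_lit 5) (nat_lit 229) (nat_lit 5) (nat_lit 223) (nat_lit 5) (nat_lit 616) (nat_lit 543) (nat_lit 401)) (XT.lf (nat_lit 0) (nat_lit 4858333240) (nat_lit 532) (nat_lit 2004778371) (nat_lit 76) (nat_lit 7969767916) (nat_lit 222) (nat_lit 5) (nat_lit 229) (nat_lit 5) (nat_lit 223) (nat_lit 5) (nat_lit 617) (nat_lit 543) (nat_lit 400)))))) (XT.nd (nat_lit 624) (nat_lit 2052) (nat_lit 0) (XT.nd (nat_lit 312) (nat_lit 912) (nat_lit 0) (XT.nd (nat_lit 156) (nat_lit 532) (nat_lit 0) (XT.nd (nat_lit 78) (nat_lit 456) (nat_lit 0) (XT.lf (nat_lit 0) (nat_lit 7395637725) (nat_lit 456) (nat_lit 1019060335) (nat_lit 532) (nat_lit 6589612681) (nat_lit 216) (nat_lit 5) (nat_lit 222) (nat_lit 5) (nat_lit 223) (nat_lit 5) (nat_lit 618) (nat_lit 543) (nat_lit 399)) (XT.lf (nat_lit 0) (nat_lit 1804627056) (nat_lit 456) (nat_lit 10281617346) (nat_lit 532) (nat_lit 3092045350) (nat_lit 210) (nat_lit 5) (nat_lit 216) (nat_lit 5) (nat_lit 217) (nat_lit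 5) (nat_lit 619) (nat_lit 543) (nat_lit 398))) (XT.nd (nat_lit 78) (nat_lit 456) (nat_lit 0) (XT.lf (nat_lit 0) (nat_lit 514141146) (nat_lit 532) (nat_lit 3874822209) (nat_lit 76) (nat_lit 10965825418) (nat_lit 209) (nat_lit 5) (nat_lit 216) (nat_lit 5) (nat_lit 210) (nat_lit 5) (nat_lit 620) (nat_lit 543) (nat_lit 397)) (XT.lf (nat_lit 0) (nat_lit 4186974042) (nat_lit 532) (nat_lit 9693399707) (nat_lit 76) (nat_lit 1653316997) (nat_lit 203) (nat_lit 5) (nat_lit 210) (nat_lit 5) (nat_lit 204) (nat_lit 5) (nat_lit 621) (nat_lit 543) (nat_lit 396)))) (XT.nd (nat_lit 156) (nat_lit 532) (nat_lit 0) (XT.nd (nat_lit 78) (nat_lit 0) (nat_lit 0) (XT.lf (nat_lit 0) (nat_lit 38882844) (nat_lit 380) (nat_lit 7936986266) (nat_lit 456) (nat_lit 7739449773) (nat_lit 198) (nat_lit 5) (nat_lit 203) (nat_lit 5) (nat_lit 204) (nat_lit 5) (nat_lit 622) (nat_lit 543) (nat_lit 395)) (XT.lf (nat_lit 0) (nat_lit 10078363424) (nat_lit 380) (nat_lit 1814469594) (nat_lit 456) (nat_lit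 4006700980) (nat_lit 198) (nat_lit 5) (nat_lit 203) (nat_lit 5) (nat_lit 204) (nat_lit 5) (nat_lit 623) (nat_lit 543) (nat_lit 394))) (XT.nd (nat_lit 78) (nat_lit 76) (nat_lit 0) (XT.lf (nat_lit 0) (nat_lit 4239347956) (nat_lit 456) (nat_lit 11692533147) (nat_lit 532) (nat_lit 154677642) (nat_lit 192) (nat_lit 5) (nat_lit 198) (nat_lit 5) (nat_lit 199) (nat_lit 5) (nat_lit 624) (nat_lit 543) (nat_lit 393)) (XT.lf (nat_lit 0) (nat_lit 3763720081) (nat_lit 532) (nat_lit 1752068997) (nat_lit 76) (nat_lit 10760268296) (nat_lit 191) (nat_lit 5) (nat_lit 198) (nat_lit 5) (nat_lit 192) (nat_lit 5) (nat_lit 625) (nat_lit 543) (nat_lit 392))))) (XT.nd (nat_lit 312) (nat_lit 836) (nat_lit 0) (XT.nd (nat_lit 156) (nat_lit 456) (nat_lit 0) (XT.nd (nat_lit 78) (nat_lit 380) (nat_lit 0) (XT.lf (nat_lit 0) (nat_lit 7807680639) (nat_lit 456) (nat_lit 7834991741) (nat_lit 76) (nat_lit 825668044) (nat_lit 186) (nat_lit 5) (nat_lit 192) (nat_lit 5) (nat_lit 187) (nat_lit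 5) (nat_lit 626) (nat_lit 543) (nat_lit 391)) (XT.lf (nat_lit 0) (nat_lit 2564574090) (nat_lit 380) (nat_lit 9420785712) (nat_lit 456) (nat_lit 4678052755) (nat_lit 181) (nat_lit 5) (nat_lit 186) (nat_lit 5) (nat_lit 187) (nat_lit 5) (nat_lit 627) (nat_lit 543) (nat_lit 390))) (XT.nd (nat_lit 78) (nat_lit 456) (nat_lit 0) (XT.lf (nat_lit 0) (nat_lit 13260012984) (nat_lit 380) (nat_lit 3027101150) (nat_lit 456) (nat_lit 574461774) (nat_lit 181) (nat_lit 5) (nat_lit 186) (nat_lit 5) (nat_lit 187) (nat_lit 5) (nat_lit 628) (nat_lit 543) (nat_lit 389)) (XT.lf (nat_lit 0) (nat_lit 3621527285) (nat_lit 456) (nat_lit 9927686032) (nat_lit 76) (nat_lit 3512866723) (nat_lit 175) (nat_lit 5) (nat_lit 181) (nat_lit 5) (nat_lit 176) (nat_lit 5) (nat_lit 629) (nat_lit 543) (nat_lit 388)))) (XT.nd (nat_lit 156) (nat_lit 456) (nat_lit 0) (XT.nd (nat_lit 78) (nat_lit 0) (nat_lit 0) (XT.lf (nat_lit 0) (nat_lit 836540397) (nat_lit 380) (nat_lit 7095196283) (nat_lit 456)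 (nat_lit 9334021975) (nat_lit 170) (nat_lit 5) (nat_lit 175) (nat_lit 5) (nat_lit 176) (nat_lit 5) (nat_lit 630) (nat_lit 543) (nat_lit 387)) (XT.lf (nat_lit 0) (nat_lit 11932544643) (nat_lit 380) (nat_lit 450518596) (nat_lit 456) (nat_lit 5089349534) (nat_lit 170) (nat_lit 5) (nat_lit 175) (nat_lit 5) (nat_lit 176) (nat_lit 5) (nat_lit 631) (nat_lit 543) (nat_lit 386))) (XT.nd (nat_lit 78) (nat_lit 76) (nat_lit 0) (XT.lf (nat_lit 0) (nat_lit 5581477870) (nat_lit 380) (nat_lit 11407738505) (nat_lit 456) (nat_lit 692667784) (nat_lit 165) (nat_lit 5) (nat_lit 170) (nat_lit 5) (nat_lit 171) (nat_lit 5) (nat_lit 632) (nat_lit 543) (nat_lit 385)) (XT.lf (nat_lit 0) (nat_lit 3771137256) (nat_lit 456) (nat_lit 940254633) (nat_lit 76) (nat_lit 13183082433) (nat_lit 164) (nat_lit 5) (nat_lit 170) (nat_lit 5) (nat_lit 165) (nat_lit 5) (nat_lit 633) (nat_lit 543) (nat_lit 384))))))) (XT.nd (nat_lit 74724) (nat_lit 0) (nat_lit 32376) (XT.nd (nat_lit 546) (nat_lit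 304) (nat_lit 0) (XT.nd (nat_lit 234) (nat_lit 1216) (nat_lit 0) (XT.nd (nat_lit 78) (nat_lit 304) (nat_lit 0) (XT.lf (nat_lit 0) (nat_lit 8386453050) (nat_lit 456) (nat_lit 7564874603) (nat_lit 76) (nat_lit 2158467050) (nat_lit 159) (nat_lit 5) (nat_lit 165) (nat_lit 5) (nat_lit 160) (nat_lit 5) (nat_lit 634) (nat_lit 543) (nat_lit 383)) (XT.nd (nat_lit 78) (nat_lit 0) (nat_lit 0) (XT.lf (nat_lit 0) (nat_lit 3946096010) (nat_lit 304) (nat_lit 9199960340) (nat_lit 380) (nat_lit 5182325691) (nat_lit 155) (nat_lit 5) (nat_lit 159) (nat_lit 5) (nat_lit 160) (nat_lit 5) (nat_lit 635) (nat_lit 543) (nat_lit 382)) (XT.lf (nat_lit 0) (nat_lit 15772282989) (nat_lit 304) (nat_lit 2268246404) (nat_lit 380) (nat_lit 510018348) (nat_lit 155) (nat_lit 5) (nat_lit 159) (nat_lit 5) (nat_lit 160) (nat_lit 5) (nat_lit 636) (nat_lit 543) (nat_lit 381)))) (XT.nd (nat_lit 156) (nat_lit 456) (nat_lit 0) (XT.nd (nat_lit 78) (nat_lit 304) (nat_lit 0) (XT.lf (nat_lit 0) (nat_lit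 4279986650) (nat_lit 456) (nat_lit 9674716123) (nat_lit 76) (nat_lit 4820300200) (nat_lit 149) (nat_lit 5) (nat_lit 155) (nat_lit 5) (nat_lit 150) (nat_lit 5) (nat_lit 637) (nat_lit 543) (nat_lit 380)) (XT.lf (nat_lit 0) (nat_lit 2243993261) (nat_lit 304) (nat_lit 6952453545) (nat_lit 380) (nat_lit 9806683553) (nat_lit 145) (nat_lit 5) (nat_lit 149) (nat_lit 5) (nat_lit 150) (nat_lit 5) (nat_lit 638) (nat_lit 543) (nat_lit 379))) (XT.nd (nat_lit 78) (nat_lit 456) (nat_lit 0) (XT.lf (nat_lit 0) (nat_lit 14266999608) (nat_lit 380) (nat_lit 4721432808) (nat_lit 76) (nat_lit 246272766) (nat_lit 145) (nat_lit 5) (nat_lit 150) (nat_lit 5) (nat_lit 146) (nat_lit 5) (nat_lit 639) (nat_lit 543) (nat_lit 378)) (XT.lf (nat_lit 0) (nat_lit 53767071) (nat_lit 456) (nat_lit 11876124518) (nat_lit 76) (nat_lit 7539318288) (nat_lit 139) (nat_lit 5) (nat_lit 145) (nat_lit 5) (nat_lit 140) (nat_lit 5) (nat_lit 640) (nat_lit 543) (nat_lit 377))))) (XT.nd (nat_lit 73866) (nat_lit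 0) (nat_lit 36480) (XT.nd (nat_lit 73710) (nat_lit 0) (nat_lit 37772) (XT.nd (nat_lit 73632) (nat_lit 0) (nat_lit 37772) (XT.lf (nat_lit 0) (nat_lit 465971746) (nat_lit 304) (nat_lit 4667579016) (nat_lit 380) (nat_lit 14573709338) (nat_lit 135) (nat_lit 5) (nat_lit 139) (nat_lit 5) (nat_lit 140) (nat_lit 5) (nat_lit 641) (nat_lit 543) (nat_lit 376)) (XT.lf (nat_lit 0) (nat_lit 72304002) (nat_lit 0) (nat_lit 72304002) (nat_lit 1292) (nat_lit 3623811704) (nat_lit 632) (nat_lit 5) (nat_lit 632) (nat_lit 3) (nat_lit 649) (nat_lit 3) (nat_lit 544) (nat_lit 544) (nat_lit 472))) (XT.nd (nat_lit 78) (nat_lit 0) (nat_lit 0) (XT.lf (nat_lit 0) (nat_lit 1752519463) (nat_lit 1292) (nat_lit 3641889050) (nat_lit 1368) (nat_lit 2188537364) (nat_lit 632) (nat_lit 5) (nat_lit 649) (nat_lit 3) (nat_lit 650) (nat_lit 5) (nat_lit 545) (nat_lit 544) (nat_lit 471)) (XT.lf (nat_lit 76) (nat_lit 164816236) (nat_lit 0) (nat_lit 3044494205) (nat_lit 1368) (nat_lit 4421381004) (nat_lit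 633) (nat_lit 5) (nat_lit 632) (nat_lit 5) (nat_lit 650) (nat_lit 5) (nat_lit 546) (nat_lit 544) (nat_lit 470)))) (XT.nd (nat_lit 156) (nat_lit 1292) (nat_lit 0) (XT.nd (nat_lit 78) (nat_lit 0) (nat_lit 76) (XT.lf (nat_lit 76) (nat_lit 4077305121) (nat_lit 0) (nat_lit 605178083) (nat_lit 1368) (nat_lit 2997165182) (nat_lit 633) (nat_lit 5) (nat_lit 632) (nat_lit 5) (nat_lit 650) (nat_lit 5) (nat_lit 547) (nat_lit 544) (nat_lit 469)) (XT.lf (nat_lit 76) (nat_lit 310128991) (nat_lit 0) (nat_lit 5852876675) (nat_lit 1368) (nat_lit 1567022430) (nat_lit 634) (nat_lit 5) (nat_lit 633) (nat_lit 5) (nat_lit 651) (nat_lit 5) (nat_lit 548) (nat_lit 544) (nat_lit 468))) (XT.nd (nat_lit 78) (nat_lit 1368) (nat_lit 0) (XT.lf (nat_lit 76) (nat_lit 4325580529) (nat_lit 0) (nat_lit 3339943272) (nat_lit 1368) (nat_lit 116045222) (nat_lit 634) (nat_lit 5) (nat_lit 633) (nat_lit 5) (nat_lit 651) (nat_lit 5) (nat_lit 549) (nat_lit 544) (nat_lit 467)) (XT.lf (nat_lit 76) (nat_lit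 565645901) (nat_lit 0) (nat_lit 748787720) (nat_lit 1444) (nat_lit 6520163898) (nat_lit 616) (nat_lit 5) (nat_lit 615) (nat_lit 5) (nat_lit 634) (nat_lit 5) (nat_lit 550) (nat_lit 544) (nat_lit 466)))))) (XT.nd (nat_lit 624) (nat_lit 2812) (nat_lit 0) (XT.nd (nat_lit 312) (nat_lit 1368) (nat_lit 0) (XT.nd (nat_lit 156) (nat_lit 0) (nat_lit 0) (XT.nd (nat_lit 78) (nat_lit 0) (nat_lit 0) (XT.lf (nat_lit 0) (nat_lit 2772969331) (nat_lit 1368) (nat_lit 3207660164) (nat_lit 1444) (nat_lit 1908022978) (nat_lit 616) (nat_lit 5) (nat_lit 634) (nat_lit 5) (nat_lit 635) (nat_lit 5) (nat_lit 551) (nat_lit 544) (nat_lit 465)) (XT.lf (nat_lit 76) (nat_lit 921616023) (nat_lit 0) (nat_lit 3316037871) (nat_lit 1444) (nat_lit 3706596295) (nat_lit 617) (nat_lit 5) (nat_lit 616) (nat_lit 5) (nat_lit 635) (nat_lit 5) (nat_lit 552) (nat_lit 544) (nat_lit 464))) (XT.nd (nat_lit 78) (nat_lit 0) (nat_lit 76) (XT.lf (nat_lit 76) (nat_lit 5156723025) (nat_lit 0) (nat_lit 563004340)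 (nat_lit 1444) (nat_lit 2281471793) (nat_lit 617) (nat_lit 5) (nat_lit 616) (nat_lit 5) (nat_lit 635) (nat_lit 5) (nat_lit 553) (nat_lit 544) (nat_lit 463)) (XT.lf (nat_lit 76) (nat_lit 1400456416) (nat_lit 0) (nat_lit 5821964796) (nat_lit 1444) (nat_lit 837047494) (nat_lit 618) (nat_lit 5) (nat_lit 617) (nat_lit 5) (nat_lit 636) (nat_lit 5) (nat_lit 554) (nat_lit 544) (nat_lit 462)))) (XT.nd (nat_lit 156) (nat_lit 0) (nat_lit 76) (XT.nd (nat_lit 78) (nat_lit 0) (nat_lit 0) (XT.lf (nat_lit 0) (nat_lit 618466991) (nat_lit 1444) (nat_lit 2378538165) (nat_lit 1520) (nat_lit 5122006073) (nat_lit 598) (nat_lit 5) (nat_lit 617) (nat_lit 5) (nat_lit 618) (nat_lit 5) (nat_lit 555) (nat_lit 544) (nat_lit 461)) (XT.lf (nat_lit 76) (nat_lit 1987603642) (nat_lit 0) (nat_lit 85434189) (nat_lit 1520) (nat_lit 6106974143) (nat_lit 599) (nat_lit 5) (nat_lit 598) (nat_lit 5) (nat_lit 618) (nat_lit 5) (nat_lit 556) (nat_lit 544) (nat_lit 460))) (XT.nd (nat_lit 78) (nat_lit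 0) (nat_lit 0) (XT.lf (nat_lit 0) (nat_lit 3560294863) (nat_lit 1444) (nat_lit 1808465540) (nat_lit 1520) (nat_lit 2873401523) (nat_lit 599) (nat_lit 5) (nat_lit 618) (nat_lit 5) (nat_lit 619) (nat_lit 5) (nat_lit 557) (nat_lit 544) (nat_lit 459)) (XT.lf (nat_lit 76) (nat_lit 2677083998) (nat_lit 0) (nat_lit 2387572580) (nat_lit 1520) (nat_lit 3241152175) (nat_lit 600) (nat_lit 5) (nat_lit 599) (nat_lit 5) (nat_lit 619) (nat_lit 5) (nat_lit 558) (nat_lit 544) (nat_lit 458))))) (XT.nd (nat_lit 312) (nat_lit 1444) (nat_lit 0) (XT.nd (nat_lit 156) (nat_lit 1520) (nat_lit 0) (XT.nd (nat_lit 78) (nat_lit 0) (nat_lit 0) (XT.lf (nat_lit 0) (nat_lit 6585504633) (nat_lit 1444) (nat_lit 1119095853) (nat_lit 1520) (nat_lit 666401097) (nat_lit 600) (nat_lit 5) (nat_lit 619) (nat_lit 5) (nat_lit 620) (nat_lit 5) (nat_lit 559) (nat_lit 544) (nat_lit 457)) (XT.lf (nat_lit 76) (nat_lit 3489952724) (nat_lit 0) (nat_lit 4655818848) (nat_lit 1520) (nat_lit 291547686) (nat_lit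 601) (nat_lit 5) (nat_lit 600) (nat_lit 5) (nat_lit 620) (nat_lit 5) (nat_lit 560) (nat_lit 544) (nat_lit 456))) (XT.nd (nat_lit 78) (nat_lit 0) (nat_lit 76) (XT.lf (nat_lit 0) (nat_lit 1194460421) (nat_lit 1520) (nat_lit 327497099) (nat_lit 1596) (nat_lit 6983279907) (nat_lit 580) (nat_lit 5) (nat_lit 600) (nat_lit 5) (nat_lit 601) (nat_lit 5) (nat_lit 561) (nat_lit 544) (nat_lit 455)) (XT.lf (nat_lit 0) (nat_lit 2717470256) (nat_lit 1520) (nat_lit 4165365746) (nat_lit 1596) (nat_lit 1691416675) (nat_lit 581) (nat_lit 5) (nat_lit 601) (nat_lit 5) (nat_lit 602) (nat_lit 5) (nat_lit 562) (nat_lit 544) (nat_lit 454)))) (XT.nd (nat_lit 156) (nat_lit 1520) (nat_lit 0) (XT.nd (nat_lit 78) (nat_lit 0) (nat_lit 0) (XT.lf (nat_lit 76) (nat_lit 576243125) (nat_lit 0) (nat_lit 3682564288) (nat_lit 1596) (nat_lit 4386084424) (nat_lit 582) (nat_lit 5) (nat_lit 581) (nat_lit 5) (nat_lit 602) (nat_lit 5) (nat_lit 563) (nat_lit 544) (nat_lit 453)) (XT.lf (nat_lit 76)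 (nat_lit 5448230980) (nat_lit 0) (nat_lit 382942949) (nat_lit 1596) (nat_lit 2885766728) (nat_lit 582) (nat_lit 5) (nat_lit 581) (nat_lit 5) (nat_lit 602) (nat_lit 5) (nat_lit 564) (nat_lit 544) (nat_lit 452))) (XT.nd (nat_lit 78) (nat_lit 1596) (nat_lit 0) (XT.lf (nat_lit 76) (nat_lit 1607855759) (nat_lit 0) (nat_lit 5829775177) (nat_lit 1596) (nat_lit 1352747565) (nat_lit 583) (nat_lit 5) (nat_lit 582) (nat_lit 5) (nat_lit 603) (nat_lit 5) (nat_lit 565) (nat_lit 544) (nat_lit 451)) (XT.lf (nat_lit 0) (nat_lit 205838449) (nat_lit 1596) (nat_lit 2263950879) (nat_lit 1672) (nat_lit 6395515803) (nat_lit 561) (nat_lit 5) (nat_lit 582) (nat_lit 5) (nat_lit 583) (nat_lit 5) (nat_lit 566) (nat_lit 544) (nat_lit 450))))))))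
noncomputable def xc111 : XT := (XT.nd (nat_lit 2418) (nat_lit 11020) (nat_lit 0) (XT.nd (nat_lit 1170) (nat_lit 7220) (nat_lit 0) (XT.nd (nat_lit 546) (nat_lit 5700) (nat_lit 0) (XT.nd (nat_lit 234) (nat_lit 3496) (nat_lit 0) (XT.nd (nat_lit 78) (nat_lit 1596) (nat_lit 0) (XT.lf (nat_lit 0) (nat_lit 1775430163) (nat_lit 1596) (nat_lit 6188825384) (nat_lit 76) (nat_lit 977337827) (nat_lit 562) (nat_lit 5) (nat_lit 583) (nat_lit 5) (nat_lit 563) (nat_lit 5) (nat_lit 567) (nat_lit 544) (nat_lit 449)) (XT.nd (nat_lit 78) (nat_lit 1596) (nat_lit 0) (XT.lf (nat_lit 0) (nat_lit 3382065344) (nat_lit 1596) (nat_lit 1156365361) (nat_lit 76) (nat_lit 4480864485) (nat_lit 562) (nat_lit 5) (nat_lit 583) (nat_lit 5) (nat_lit 563) (nat_lit 5) (nat_lit 568) (nat_lit 544) (nat_lit 448)) (XT.lf (nat_lit 0) (nat_lit 4008418240) (nat_lit 1596) (nat_lit 1012952551) (nat_lit 1672) (nat_lit 4077170326) (nat_lit 541) (nat_lit 5) (nat_lit 562) (nat_lit 5) (nat_lit 563) (nat_lit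 5) (nat_lit 569) (nat_lit 544) (nat_lit 447)))) (XT.nd (nat_lit 156) (nat_lit 1824) (nat_lit 0) (XT.nd (nat_lit 78) (nat_lit 0) (nat_lit 0) (XT.lf (nat_lit 0) (nat_lit 75837170) (nat_lit 1672) (nat_lit 6617605110) (nat_lit 1748) (nat_lit 2485930893) (nat_lit 519) (nat_lit 5) (nat_lit 541) (nat_lit 5) (nat_lit 542) (nat_lit 5) (nat_lit 570) (nat_lit 544) (nat_lit 446)) (XT.lf (nat_lit 0) (nat_lit 5386166137) (nat_lit 1672) (nat_lit 3028870909) (nat_lit 1748) (nat_lit 846463980) (nat_lit 519) (nat_lit 5) (nat_lit 541) (nat_lit 5) (nat_lit 542) (nat_lit 5) (nat_lit 571) (nat_lit 544) (nat_lit 445))) (XT.nd (nat_lit 78) (nat_lit 0) (nat_lit 0) (XT.lf (nat_lit 0) (nat_lit 804181010) (nat_lit 1824) (nat_lit 7899660968) (nat_lit 76) (nat_lit 641538607) (nat_lit 495) (nat_lit 5) (nat_lit 519) (nat_lit 5) (nat_lit 496) (nat_lit 5) (nat_lit 572) (nat_lit 544) (nat_lit 444)) (XT.lf (nat_lit 0) (nat_lit 2498699185) (nat_lit 1824) (nat_lit 2551953328) (nat_lit 76)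 (nat_lit 4379730177) (nat_lit 495) (nat_lit 5) (nat_lit 519) (nat_lit 5) (nat_lit 496) (nat_lit 5) (nat_lit 573) (nat_lit 544) (nat_lit 443))))) (XT.nd (nat_lit 312) (nat_lit 1824) (nat_lit 0) (XT.nd (nat_lit 156) (nat_lit 2052) (nat_lit 0) (XT.nd (nat_lit 78) (nat_lit 0) (nat_lit 0) (XT.lf (nat_lit 0) (nat_lit 2919999475) (nat_lit 1824) (nat_lit 1302485780) (nat_lit 1900) (nat_lit 5294692765) (nat_lit 471) (nat_lit 5) (nat_lit 495) (nat_lit 5) (nat_lit 496) (nat_lit 5) (nat_lit 574) (nat_lit 544) (nat_lit 442)) (XT.lf (nat_lit 0) (nat_lit 5991112449) (nat_lit 1900) (nat_lit 1107210542) (nat_lit 76) (nat_lit 2507179676) (nat_lit 471) (nat_lit 5) (nat_lit 496) (nat_lit 5) (nat_lit 472) (nat_lit 5) (nat_lit 575) (nat_lit 544) (nat_lit 441))) (XT.nd (nat_lit 78) (nat_lit 912) (nat_lit 0) (XT.lf (nat_lit 0) (nat_lit 4522312207) (nat_lit 1140) (nat_lit 3288004569) (nat_lit 1216) (nat_lit 1884973644) (nat_lit 456) (nat_lit 5) (nat_lit 471) (nat_lit 5) (nat_lit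 472) (nat_lit 5) (nat_lit 576) (nat_lit 544) (nat_lit 440)) (XT.lf (nat_lit 0) (nat_lit 473733377) (nat_lit 912) (nat_lit 9184152402) (nat_lit 988) (nat_lit 129149228) (nat_lit 444) (nat_lit 5) (nat_lit 456) (nat_lit 5) (nat_lit 457) (nat_lit 5) (nat_lit 577) (nat_lit 544) (nat_lit 439)))) (XT.nd (nat_lit 156) (nat_lit 836) (nat_lit 0) (XT.nd (nat_lit 78) (nat_lit 912) (nat_lit 0) (XT.lf (nat_lit 0) (nat_lit 1674410693) (nat_lit 988) (nat_lit 3630624539) (nat_lit 76) (nat_lit 4574675854) (nat_lit 443) (nat_lit 5) (nat_lit 456) (nat_lit 5) (nat_lit 444) (nat_lit 5) (nat_lit 578) (nat_lit 544) (nat_lit 438)) (XT.lf (nat_lit 0) (nat_lit 2172350992) (nat_lit 912) (nat_lit 1332200365) (nat_lit 988) (nat_lit 6469828129) (nat_lit 431) (nat_lit 5) (nat_lit 443) (nat_lit 5) (nat_lit 444) (nat_lit 5) (nat_lit 579) (nat_lit 544) (nat_lit 437))) (XT.nd (nat_lit 78) (nat_lit 836) (nat_lit 0) (XT.lf (nat_lit 0) (nat_lit 5391911176) (nat_lit 988) (nat_lit 1968965146)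 (nat_lit 76) (nat_lit 2709653244) (nat_lit 431) (nat_lit 5) (nat_lit 444) (nat_lit 5) (nat_lit 432) (nat_lit 5) (nat_lit 580) (nat_lit 544) (nat_lit 436)) (XT.lf (nat_lit 0) (nat_lit 4003572680) (nat_lit 836) (nat_lit 3327115755) (nat_lit 912) (nat_lit 2837641433) (nat_lit 420) (nat_lit 5) (nat_lit 431) (nat_lit 5) (nat_lit 432) (nat_lit 5) (nat_lit 581) (nat_lit 544) (nat_lit 435)))))) (XT.nd (nat_lit 624) (nat_lit 2964) (nat_lit 0) (XT.nd (nat_lit 312) (nat_lit 2432) (nat_lit 0) (XT.nd (nat_lit 156) (nat_lit 836) (nat_lit 0) (XT.nd (nat_lit 78) (nat_lit 988) (nat_lit 0) (XT.lf (nat_lit 0) (nat_lit 9305788079) (nat_lit 912) (nat_lit 171923442) (nat_lit 76) (nat_lit 790424332) (nat_lit 420) (nat_lit 5) (nat_lit 432) (nat_lit 5) (nat_lit 421) (nat_lit 5) (nat_lit 582) (nat_lit 544) (nat_lit 434)) (XT.lf (nat_lit 0) (nat_lit 978633574) (nat_lit 988) (nat_lit 4399193536) (nat_lit 76) (nat_lit 4991175074) (nat_lit 407) (nat_lit 5) (nat_lit 420) (nat_lit 5)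 (nat_lit 408) (nat_lit 5) (nat_lit 583) (nat_lit 544) (nat_lit 433))) (XT.nd (nat_lit 78) (nat_lit 0) (nat_lit 0) (XT.lf (nat_lit 0) (nat_lit 1760681152) (nat_lit 836) (nat_lit 1177149371) (nat_lit 912) (nat_lit 7534083039) (nat_lit 396) (nat_lit 5) (nat_lit 407) (nat_lit 5) (nat_lit 408) (nat_lit 5) (nat_lit 584) (nat_lit 544) (nat_lit 432)) (XT.lf (nat_lit 0) (nat_lit 4966040432) (nat_lit 912) (nat_lit 2514411725) (nat_lit 76) (nat_lit 3095834995) (nat_lit 396) (nat_lit 5) (nat_lit 408) (nat_lit 5) (nat_lit 397) (nat_lit 5) (nat_lit 585) (nat_lit 544) (nat_lit 431)))) (XT.nd (nat_lit 156) (nat_lit 1596) (nat_lit 0) (XT.nd (nat_lit 78) (nat_lit 0) (nat_lit 0) (XT.lf (nat_lit 0) (nat_lit 3828036628) (nat_lit 836) (nat_lit 3219757550) (nat_lit 912) (nat_lit 3634694999) (nat_lit 385) (nat_lit 5) (nat_lit 396) (nat_lit 5) (nat_lit 397) (nat_lit 5) (nat_lit 586) (nat_lit 544) (nat_lit 430)) (XT.lf (nat_lit 0) (nat_lit 9176053782) (nat_lit 912) (nat_lit 487447270)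 (nat_lit 76) (nat_lit 1127217320) (nat_lit 385) (nat_lit 5) (nat_lit 397) (nat_lit 5) (nat_lit 386) (nat_lit 5) (nat_lit 587) (nat_lit 544) (nat_lit 429))) (XT.nd (nat_lit 78) (nat_lit 760) (nat_lit 0) (XT.lf (nat_lit 0) (nat_lit 481716229) (nat_lit 836) (nat_lit 4859156646) (nat_lit 76) (nat_lit 5559345993) (nat_lit 374) (nat_lit 5) (nat_lit 385) (nat_lit 5) (nat_lit 375) (nat_lit 5) (nat_lit 588) (nat_lit 544) (nat_lit 428)) (XT.lf (nat_lit 0) (nat_lit 1685628650) (nat_lit 760) (nat_lit 908103786) (nat_lit 836) (nat_lit 8418057429) (nat_lit 364) (nat_lit 5) (nat_lit 374) (nat_lit 5) (nat_lit 375) (nat_lit 5) (nat_lit 589) (nat_lit 544) (nat_lit 427))))) (XT.nd (nat_lit 312) (nat_lit 1368) (nat_lit 0) (XT.nd (nat_lit 156) (nat_lit 836) (nat_lit 0) (XT.nd (nat_lit 78) (nat_lit 760) (nat_lit 0) (XT.lf (nat_lit 0) (nat_lit 4785569377) (nat_lit 836) (nat_lit 2742335029) (nat_lit 76) (nat_lit 3596936772) (nat_lit 364) (nat_lit 5) (nat_lit 375) (nat_lit 5)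 (nat_lit 365) (nat_lit 5) (nat_lit 590) (nat_lit 544) (nat_lit 426)) (XT.lf (nat_lit 0) (nat_lit 3999116927) (nat_lit 760) (nat_lit 3035768598) (nat_lit 836) (nat_lit 4204995634) (nat_lit 354) (nat_lit 5) (nat_lit 364) (nat_lit 5) (nat_lit 365) (nat_lit 5) (nat_lit 591) (nat_lit 544) (nat_lit 425))) (XT.nd (nat_lit 78) (nat_lit 836) (nat_lit 0) (XT.lf (nat_lit 0) (nat_lit 9339627865) (nat_lit 836) (nat_lit 475143075) (nat_lit 76) (nat_lit 1542242688) (nat_lit 354) (nat_lit 5) (nat_lit 365) (nat_lit 5) (nat_lit 355) (nat_lit 5) (nat_lit 592) (nat_lit 544) (nat_lit 424)) (XT.lf (nat_lit 0) (nat_lit 255808594) (nat_lit 836) (nat_lit 5007034097) (nat_lit 76) (nat_lit 6212725961) (nat_lit 343) (nat_lit 5) (nat_lit 354) (nat_lit 5) (nat_lit 344) (nat_lit 5) (nat_lit 593) (nat_lit 544) (nat_lit 423)))) (XT.nd (nat_lit 156) (nat_lit 684) (nat_lit 0) (XT.nd (nat_lit 78) (nat_lit 0) (nat_lit 0) (XT.lf (nat_lit 0) (nat_lit 1952932033) (nat_lit 684) (nat_lit 592769211)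 (nat_lit 760) (nat_lit 9050562347) (nat_lit 334) (nat_lit 5) (nat_lit 343) (nat_lit 5) (nat_lit 344) (nat_lit 5) (nat_lit 594) (nat_lit 544) (nat_lit 422)) (XT.lf (nat_lit 0) (nat_lit 4924822364) (nat_lit 760) (nat_lit 2646625022) (nat_lit 76) (nat_lit 4147056875) (nat_lit 334) (nat_lit 5) (nat_lit 344) (nat_lit 5) (nat_lit 335) (nat_lit 5) (nat_lit 595) (nat_lit 544) (nat_lit 421))) (XT.nd (nat_lit 78) (nat_lit 0) (nat_lit 0) (XT.lf (nat_lit 0) (nat_lit 4525251031) (nat_lit 684) (nat_lit 2842453274) (nat_lit 760) (nat_lit 4475162311) (nat_lit 325) (nat_lit 5) (nat_lit 334) (nat_lit 5) (nat_lit 335) (nat_lit 5) (nat_lit 596) (nat_lit 544) (nat_lit 420)) (XT.lf (nat_lit 0) (nat_lit 9873241631) (nat_lit 760) (nat_lit 126275264) (nat_lit 76) (nat_lit 1969923797) (nat_lit 325) (nat_lit 5) (nat_lit 335) (nat_lit 5) (nat_lit 326) (nat_lit 5) (nat_lit 597) (nat_lit 544) (nat_lit 419))))))) (XT.nd (nat_lit 1248) (nat_lit 4712) (nat_lit 0) (XT.nd (nat_lit 624)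 (nat_lit 2964) (nat_lit 0) (XT.nd (nat_lit 312) (nat_lit 1292) (nat_lit 0) (XT.nd (nat_lit 156) (nat_lit 608) (nat_lit 0) (XT.nd (nat_lit 78) (nat_lit 684) (nat_lit 0) (XT.lf (nat_lit 0) (nat_lit 375722781) (nat_lit 760) (nat_lit 4834651090) (nat_lit 76) (nat_lit 6887135657) (nat_lit 315) (nat_lit 5) (nat_lit 325) (nat_lit 5) (nat_lit 316) (nat_lit 5) (nat_lit 598) (nat_lit 544) (nat_lit 418)) (XT.lf (nat_lit 0) (nat_lit 2573160182) (nat_lit 684) (nat_lit 296917760) (nat_lit 760) (nat_lit 9357763829) (nat_lit 306) (nat_lit 5) (nat_lit 315) (nat_lit 5) (nat_lit 316) (nat_lit 5) (nat_lit 599) (nat_lit 544) (nat_lit 417))) (XT.nd (nat_lit 78) (nat_lit 608) (nat_lit 0) (XT.lf (nat_lit 0) (nat_lit 5461238051) (nat_lit 760) (nat_lit 2216530503) (nat_lit 76) (nat_lit 4682074142) (nat_lit 306) (nat_lit 5) (nat_lit 316) (nat_lit 5) (nat_lit 307) (nat_lit 5) (nat_lit 600) (nat_lit 544) (nat_lit 416)) (XT.lf (nat_lit 0) (nat_lit 5419658983) (nat_lit 608) (nat_lit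 2705685644) (nat_lit 684) (nat_lit 4368716938) (nat_lit 298) (nat_lit 5) (nat_lit 306) (nat_lit 5) (nat_lit 307) (nat_lit 5) (nat_lit 601) (nat_lit 544) (nat_lit 415)))) (XT.nd (nat_lit 156) (nat_lit 608) (nat_lit 0) (XT.nd (nat_lit 78) (nat_lit 76) (nat_lit 0) (XT.lf (nat_lit 0) (nat_lit 580099835) (nat_lit 608) (nat_lit 10280863280) (nat_lit 684) (nat_lit 1769637481) (nat_lit 290) (nat_lit 5) (nat_lit 298) (nat_lit 5) (nat_lit 299) (nat_lit 5) (nat_lit 602) (nat_lit 544) (nat_lit 414)) (XT.lf (nat_lit 0) (nat_lit 919777455) (nat_lit 684) (nat_lit 4329367301) (nat_lit 76) (nat_lit 7519613284) (nat_lit 289) (nat_lit 5) (nat_lit 298) (nat_lit 5) (nat_lit 290) (nat_lit 5) (nat_lit 603) (nat_lit 544) (nat_lit 413))) (XT.nd (nat_lit 78) (nat_lit 0) (nat_lit 0) (XT.lf (nat_lit 0) (nat_lit 3561494290) (nat_lit 608) (nat_lit 85454450) (nat_lit 684) (nat_lit 9262343037) (nat_lit 281) (nat_lit 5) (nat_lit 289) (nat_lit 5) (nat_lit 290) (nat_lit 5) (nat_lit 604)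 (nat_lit 544) (nat_lit 412)) (XT.lf (nat_lit 0) (nat_lit 6476216759) (nat_lit 684) (nat_lit 1436864604) (nat_lit 76) (nat_lit 5138604111) (nat_lit 281) (nat_lit 5) (nat_lit 290) (nat_lit 5) (nat_lit 282) (nat_lit 5) (nat_lit 605) (nat_lit 544) (nat_lit 411))))) (XT.nd (nat_lit 312) (nat_lit 1140) (nat_lit 0) (XT.nd (nat_lit 156) (nat_lit 684) (nat_lit 0) (XT.nd (nat_lit 78) (nat_lit 532) (nat_lit 0) (XT.lf (nat_lit 0) (nat_lit 6700149489) (nat_lit 608) (nat_lit 2690955816) (nat_lit 684) (nat_lit 3805241382) (nat_lit 273) (nat_lit 5) (nat_lit 281) (nat_lit 5) (nat_lit 282) (nat_lit 5) (nat_lit 606) (nat_lit 544) (nat_lit 410)) (XT.lf (nat_lit 0) (nat_lit 1660690979) (nat_lit 532) (nat_lit 10726308913) (nat_lit 608) (nat_lit 956447406) (nat_lit 266) (nat_lit 5) (nat_lit 273) (nat_lit 5) (nat_lit 274) (nat_lit 5) (nat_lit 607) (nat_lit 544) (nat_lit 409))) (XT.nd (nat_lit 78) (nat_lit 608) (nat_lit 0) (XT.lf (nat_lit 0) (nat_lit 1970634899) (nat_lit 608)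 (nat_lit 3474263791) (nat_lit 76) (nat_lit 8047400866) (nat_lit 265) (nat_lit 5) (nat_lit 273) (nat_lit 5) (nat_lit 266) (nat_lit 5) (nat_lit 608) (nat_lit 544) (nat_lit 408)) (XT.lf (nat_lit 0) (nat_lit 4937552344) (nat_lit 608) (nat_lit 23435853) (nat_lit 684) (nat_lit 8682663817) (nat_lit 257) (nat_lit 5) (nat_lit 265) (nat_lit 5) (nat_lit 266) (nat_lit 5) (nat_lit 609) (nat_lit 544) (nat_lit 407)))) (XT.nd (nat_lit 156) (nat_lit 608) (nat_lit 0) (XT.nd (nat_lit 78) (nat_lit 532) (nat_lit 0) (XT.lf (nat_lit 0) (nat_lit 8055964729) (nat_lit 684) (nat_lit 288170918) (nat_lit 76) (nat_lit 5452999863) (nat_lit 257) (nat_lit 5) (nat_lit 266) (nat_lit 5) (nat_lit 258) (nat_lit 5) (nat_lit 610) (nat_lit 544) (nat_lit 406)) (XT.lf (nat_lit 0) (nat_lit 8388965289) (nat_lit 532) (nat_lit 2864375929) (nat_lit 608) (nat_lit 2699537756) (nat_lit 250) (nat_lit 5) (nat_lit 257) (nat_lit 5) (nat_lit 258) (nat_lit 5) (nat_lit 611) (nat_lit 544) (nat_lit 405))) (XT.nd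 (nat_lit 78) (nat_lit 0) (nat_lit 0) (XT.lf (nat_lit 0) (nat_lit 423816921) (nat_lit 608) (nat_lit 10977869453) (nat_lit 76) (nat_lit 2709475437) (nat_lit 242) (nat_lit 5) (nat_lit 250) (nat_lit 5) (nat_lit 243) (nat_lit 5) (nat_lit 612) (nat_lit 544) (nat_lit 404)) (XT.lf (nat_lit 0) (nat_lit 3616138868) (nat_lit 608) (nat_lit 2248295965) (nat_lit 76) (nat_lit 8406965942) (nat_lit 242) (nat_lit 5) (nat_lit 250) (nat_lit 5) (nat_lit 243) (nat_lit 5) (nat_lit 613) (nat_lit 544) (nat_lit 403)))))) (XT.nd (nat_lit 624) (nat_lit 2204) (nat_lit 0) (XT.nd (nat_lit 312) (nat_lit 988) (nat_lit 0) (XT.nd (nat_lit 156) (nat_lit 532) (nat_lit 0) (XT.nd (nat_lit 78) (nat_lit 532) (nat_lit 0) (XT.lf (nat_lit 0) (nat_lit 6725247447) (nat_lit 456) (nat_lit 177057678) (nat_lit 532) (nat_lit 7531939720) (nat_lit 236) (nat_lit 5) (nat_lit 242) (nat_lit 5) (nat_lit 243) (nat_lit 5) (nat_lit 614) (nat_lit 544) (nat_lit 402)) (XT.lf (nat_lit 0) (nat_lit 1269794840) (nat_lit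 532) (nat_lit 9030792590) (nat_lit 608) (nat_lit 4298830788) (nat_lit 229) (nat_lit 5) (nat_lit 236) (nat_lit 5) (nat_lit 237) (nat_lit 5) (nat_lit 615) (nat_lit 544) (nat_lit 401))) (XT.nd (nat_lit 78) (nat_lit 532) (nat_lit 0) (XT.lf (nat_lit 0) (nat_lit 10512659272) (nat_lit 532) (nat_lit 3293662044) (nat_lit 608) (nat_lit 960784298) (nat_lit 229) (nat_lit 5) (nat_lit 236) (nat_lit 5) (nat_lit 237) (nat_lit 5) (nat_lit 616) (nat_lit 544) (nat_lit 400)) (XT.lf (nat_lit 0) (nat_lit 2448313289) (nat_lit 532) (nat_lit 9920572375) (nat_lit 76) (nat_lit 2568217110) (nat_lit 222) (nat_lit 5) (nat_lit 229) (nat_lit 5) (nat_lit 223) (nat_lit 5) (nat_lit 617) (nat_lit 544) (nat_lit 399)))) (XT.nd (nat_lit 156) (nat_lit 532) (nat_lit 0) (XT.nd (nat_lit 78) (nat_lit 456) (nat_lit 0) (XT.lf (nat_lit 0) (nat_lit 5950160524) (nat_lit 532) (nat_lit 626421119) (nat_lit 76) (nat_lit 8533042825) (nat_lit 222) (nat_lit 5) (nat_lit 229) (nat_lit 5) (nat_lit 223) (nat_lit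 5) (nat_lit 618) (nat_lit 544) (nat_lit 398)) (XT.lf (nat_lit 0) (nat_lit 8952671372) (nat_lit 456) (nat_lit 614627067) (nat_lit 532) (nat_lit 5717393333) (nat_lit 216) (nat_lit 5) (nat_lit 222) (nat_lit 5) (nat_lit 223) (nat_lit 5) (nat_lit 619) (nat_lit 544) (nat_lit 397))) (XT.nd (nat_lit 78) (nat_lit 76) (nat_lit 0) (XT.lf (nat_lit 0) (nat_lit 3257405471) (nat_lit 456) (nat_lit 10047472271) (nat_lit 532) (nat_lit 2157420954) (nat_lit 210) (nat_lit 5) (nat_lit 216) (nat_lit 5) (nat_lit 217) (nat_lit 5) (nat_lit 620) (nat_lit 544) (nat_lit 396)) (XT.lf (nat_lit 0) (nat_lit 1488538166) (nat_lit 532) (nat_lit 2550580407) (nat_lit 76) (nat_lit 11603465735) (nat_lit 209) (nat_lit 5) (nat_lit 216) (nat_lit 5) (nat_lit 210) (nat_lit 5) (nat_lit 621) (nat_lit 544) (nat_lit 395))))) (XT.nd (nat_lit 312) (nat_lit 836) (nat_lit 0) (XT.nd (nat_lit 156) (nat_lit 532) (nat_lit 0) (XT.nd (nat_lit 78) (nat_lit 380) (nat_lit 0) (XT.lf (nat_lit 0) (nat_lit 5227810168)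 (nat_lit 532) (nat_lit 8478494296) (nat_lit 76) (nat_lit 2118900558) (nat_lit 203) (nat_lit 5) (nat_lit 210) (nat_lit 5) (nat_lit 204) (nat_lit 5) (nat_lit 622) (nat_lit 544) (nat_lit 394)) (XT.lf (nat_lit 0) (nat_lit 1439165659) (nat_lit 380) (nat_lit 7643637393) (nat_lit 456) (nat_lit 6927856618) (nat_lit 198) (nat_lit 5) (nat_lit 203) (nat_lit 5) (nat_lit 204) (nat_lit 5) (nat_lit 623) (nat_lit 544) (nat_lit 393))) (XT.nd (nat_lit 78) (nat_lit 532) (nat_lit 0) (XT.lf (nat_lit 0) (nat_lit 11651994572) (nat_lit 380) (nat_lit 1407534870) (nat_lit 456) (nat_lit 3139401518) (nat_lit 198) (nat_lit 5) (nat_lit 203) (nat_lit 5) (nat_lit 204) (nat_lit 5) (nat_lit 624) (nat_lit 544) (nat_lit 392)) (XT.lf (nat_lit 0) (nat_lit 772822589) (nat_lit 532) (nat_lit 10692125021) (nat_lit 76) (nat_lit 4924776040) (nat_lit 191) (nat_lit 5) (nat_lit 198) (nat_lit 5) (nat_lit 192) (nat_lit 5) (nat_lit 625) (nat_lit 544) (nat_lit 391)))) (XT.nd (nat_lit 156) (nat_lit 456)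 (nat_lit 0) (XT.nd (nat_lit 78) (nat_lit 380) (nat_lit 0) (XT.lf (nat_lit 0) (nat_lit 4749312705) (nat_lit 532) (nat_lit 423379369) (nat_lit 76) (nat_lit 11410664138) (nat_lit 191) (nat_lit 5) (nat_lit 198) (nat_lit 5) (nat_lit 192) (nat_lit 5) (nat_lit 626) (nat_lit 544) (nat_lit 390)) (XT.lf (nat_lit 0) (nat_lit 8868043477) (nat_lit 456) (nat_lit 6621835939) (nat_lit 76) (nat_lit 1289728000) (nat_lit 186) (nat_lit 5) (nat_lit 192) (nat_lit 5) (nat_lit 187) (nat_lit 5) (nat_lit 627) (nat_lit 544) (nat_lit 389))) (XT.nd (nat_lit 78) (nat_lit 76) (nat_lit 0) (XT.lf (nat_lit 0) (nat_lit 3976709001) (nat_lit 380) (nat_lit 9143673128) (nat_lit 456) (nat_lit 3858377050) (nat_lit 181) (nat_lit 5) (nat_lit 186) (nat_lit 5) (nat_lit 187) (nat_lit 5) (nat_lit 628) (nat_lit 544) (nat_lit 388)) (XT.lf (nat_lit 0) (nat_lit 305321583) (nat_lit 456) (nat_lit 2323872427) (nat_lit 76) (nat_lit 14552003016) (nat_lit 180) (nat_lit 5) (nat_lit 186) (nat_lit 5) (nat_lit 181)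 (nat_lit 5) (nat_lit 629) (nat_lit 544) (nat_lit 387))))))))
noncomputable def xc112 : XT := (XT.nd (nat_lit 76050) (nat_lit 0) (nat_lit 15504) (XT.nd (nat_lit 74802) (nat_lit 0) (nat_lit 33440) (XT.nd (nat_lit 546) (nat_lit 1216) (nat_lit 0) (XT.nd (nat_lit 234) (nat_lit 1140) (nat_lit 0) (XT.nd (nat_lit 78) (nat_lit 380) (nat_lit 0) (XT.lf (nat_lit 0) (nat_lit 4571901803) (nat_lit 456) (nat_lit 8774664170) (nat_lit 76) (nat_lit 4039182347) (nat_lit 175) (nat_lit 5) (nat_lit 181) (nat_lit 5) (nat_lit 176) (nat_lit 5) (nat_lit 630) (nat_lit 544) (nat_lit 386)) (XT.nd (nat_lit 78) (nat_lit 0) (nat_lit 0) (XT.lf (nat_lit 0) (nat_lit 2195954843) (nat_lit 380) (nat_lit 6763863547) (nat_lit 456) (nat_lit 8633852339) (nat_lit 170) (nat_lit 5) (nat_lit 175) (nat_lit 5) (nat_lit 176) (nat_lit 5) (nat_lit 631) (nat_lit 544) (nat_lit 385)) (XT.lf (nat_lit 0) (nat_lit 13483152254) (nat_lit 456) (nat_lit 4317275877) (nat_lit 76) (nat_lit 4370461) (nat_lit 170) (nat_lit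 5) (nat_lit 176) (nat_lit 5) (nat_lit 171) (nat_lit 5) (nat_lit 632) (nat_lit 544) (nat_lit 384)))) (XT.nd (nat_lit 156) (nat_lit 304) (nat_lit 0) (XT.nd (nat_lit 78) (nat_lit 380) (nat_lit 0) (XT.lf (nat_lit 0) (nat_lit 155588764) (nat_lit 456) (nat_lit 11004826647) (nat_lit 76) (nat_lit 6858127958) (nat_lit 164) (nat_lit 5) (nat_lit 170) (nat_lit 5) (nat_lit 165) (nat_lit 5) (nat_lit 633) (nat_lit 544) (nat_lit 383)) (XT.lf (nat_lit 0) (nat_lit 352425699) (nat_lit 380) (nat_lit 4332543809) (nat_lit 456) (nat_lit 13550613029) (nat_lit 159) (nat_lit 5) (nat_lit 164) (nat_lit 5) (nat_lit 165) (nat_lit 5) (nat_lit 634) (nat_lit 544) (nat_lit 382))) (XT.nd (nat_lit 78) (nat_lit 304) (nat_lit 0) (XT.lf (nat_lit 0) (nat_lit 9385390365) (nat_lit 456) (nat_lit 6404382900) (nat_lit 76) (nat_lit 2665580343) (nat_lit 159) (nat_lit 5) (nat_lit 165) (nat_lit 5) (nat_lit 160) (nat_lit 5) (nat_lit 635) (nat_lit 544) (nat_lit 381)) (XT.lf (nat_lit 0) (nat_lit 5328176934)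 (nat_lit 304) (nat_lit 8904171569) (nat_lit 380) (nat_lit 4446121186) (nat_lit 155) (nat_lit 5) (nat_lit 159) (nat_lit 5) (nat_lit 160) (nat_lit 5) (nat_lit 636) (nat_lit 544) (nat_lit 380))))) (XT.nd (nat_lit 312) (nat_lit 456) (nat_lit 0) (XT.nd (nat_lit 156) (nat_lit 304) (nat_lit 0) (XT.nd (nat_lit 78) (nat_lit 380) (nat_lit 0) (XT.lf (nat_lit 0) (nat_lit 299188577) (nat_lit 380) (nat_lit 1542034672) (nat_lit 76) (nat_lit 17064139224) (nat_lit 154) (nat_lit 5) (nat_lit 159) (nat_lit 5) (nat_lit 155) (nat_lit 5) (nat_lit 637) (nat_lit 544) (nat_lit 379)) (XT.lf (nat_lit 0) (nat_lit 5173631995) (nat_lit 456) (nat_lit 8575241908) (nat_lit 76) (nat_lit 5385456370) (nat_lit 149) (nat_lit 5) (nat_lit 155) (nat_lit 5) (nat_lit 150) (nat_lit 5) (nat_lit 638) (nat_lit 544) (nat_lit 378))) (XT.nd (nat_lit 78) (nat_lit 0) (nat_lit 0) (XT.lf (nat_lit 0) (nat_lit 3573335292) (nat_lit 304) (nat_lit 6607581611) (nat_lit 380) (nat_lit 9186253625) (nat_lit 145) (nat_lit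 5) (nat_lit 149) (nat_lit 5) (nat_lit 150) (nat_lit 5) (nat_lit 639) (nat_lit 544) (nat_lit 377)) (XT.lf (nat_lit 0) (nat_lit 15340264204) (nat_lit 380) (nat_lit 3543956888) (nat_lit 76) (nat_lit 719408314) (nat_lit 145) (nat_lit 5) (nat_lit 150) (nat_lit 5) (nat_lit 146) (nat_lit 5) (nat_lit 640) (nat_lit 544) (nat_lit 376)))) (XT.nd (nat_lit 73788) (nat_lit 0) (nat_lit 37468) (XT.nd (nat_lit 73710) (nat_lit 0) (nat_lit 37468) (XT.lf (nat_lit 0) (nat_lit 840702311) (nat_lit 456) (nat_lit 10839655616) (nat_lit 76) (nat_lit 8162508005) (nat_lit 139) (nat_lit 5) (nat_lit 145) (nat_lit 5) (nat_lit 140) (nat_lit 5) (nat_lit 641) (nat_lit 544) (nat_lit 375)) (XT.lf (nat_lit 0) (nat_lit 792062355) (nat_lit 0) (nat_lit 792062355) (nat_lit 1292) (nat_lit 2230877541) (nat_lit 632) (nat_lit 5) (nat_lit 632) (nat_lit 3) (nat_lit 649) (nat_lit 3) (nat_lit 545) (nat_lit 545) (nat_lit 470))) (XT.nd (nat_lit 78) (nat_lit 0) (nat_lit 0) (XT.lf (nat_lit 0) (nat_lit 4595336101)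 (nat_lit 1292) (nat_lit 2240683921) (nat_lit 1368) (nat_lit 842324820) (nat_lit 632) (nat_lit 5) (nat_lit 649) (nat_lit 3) (nat_lit 650) (nat_lit 5) (nat_lit 546) (nat_lit 545) (nat_lit 469)) (XT.lf (nat_lit 76) (nat_lit 1632457820) (nat_lit 0) (nat_lit 4403258339) (nat_lit 1368) (nat_lit 1692242148) (nat_lit 633) (nat_lit 5) (nat_lit 632) (nat_lit 5) (nat_lit 650) (nat_lit 5) (nat_lit 547) (nat_lit 545) (nat_lit 468)))))) (XT.nd (nat_lit 624) (nat_lit 1368) (nat_lit 0) (XT.nd (nat_lit 312) (nat_lit 1368) (nat_lit 0) (XT.nd (nat_lit 156) (nat_lit 0) (nat_lit 0) (XT.nd (nat_lit 78) (nat_lit 1292) (nat_lit 0) (XT.lf (nat_lit 76) (nat_lit 5594483830) (nat_lit 0) (nat_lit 1889707380) (nat_lit 1368) (nat_lit 294788412) (nat_lit 633) (nat_lit 5) (nat_lit 632) (nat_lit 5) (nat_lit 650) (nat_lit 5) (nat_lit 548) (nat_lit 545) (nat_lit 467)) (XT.lf (nat_lit 0) (nat_lit 1096812847) (nat_lit 1368) (nat_lit 6033984430) (nat_lit 1444) (nat_lit 700458015) (nat_lit 615)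 (nat_lit 5) (nat_lit 633) (nat_lit 5) (nat_lit 634) (nat_lit 5) (nat_lit 549) (nat_lit 545) (nat_lit 466))) (XT.nd (nat_lit 78) (nat_lit 0) (nat_lit 0) (XT.lf (nat_lit 0) (nat_lit 2504963628) (nat_lit 1368) (nat_lit 2030285806) (nat_lit 1444) (nat_lit 3349436027) (nat_lit 615) (nat_lit 5) (nat_lit 633) (nat_lit 5) (nat_lit 634) (nat_lit 5) (nat_lit 550) (nat_lit 545) (nat_lit 465)) (XT.lf (nat_lit 76) (nat_lit 2061183463) (nat_lit 0) (nat_lit 1859545364) (nat_lit 1444) (nat_lit 4018867605) (nat_lit 616) (nat_lit 5) (nat_lit 615) (nat_lit 5) (nat_lit 634) (nat_lit 5) (nat_lit 551) (nat_lit 545) (nat_lit 464)))) (XT.nd (nat_lit 156) (nat_lit 1444) (nat_lit 0) (XT.nd (nat_lit 78) (nat_lit 0) (nat_lit 0) (XT.lf (nat_lit 0) (nat_lit 5350871846) (nat_lit 1368) (nat_lit 1759036676) (nat_lit 1444) (nat_lit 885977052) (nat_lit 616) (nat_lit 5) (nat_lit 634) (nat_lit 5) (nat_lit 635) (nat_lit 5) (nat_lit 552) (nat_lit 545) (nat_lit 463)) (XT.lf (nat_lit 76) (nat_lit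 2442872556) (nat_lit 0) (nat_lit 4362275207) (nat_lit 1444) (nat_lit 1248243315) (nat_lit 617) (nat_lit 5) (nat_lit 616) (nat_lit 5) (nat_lit 635) (nat_lit 5) (nat_lit 553) (nat_lit 545) (nat_lit 462))) (XT.nd (nat_lit 78) (nat_lit 0) (nat_lit 76) (XT.lf (nat_lit 0) (nat_lit 153684720) (nat_lit 1444) (nat_lit 1380250929) (nat_lit 1520) (nat_lit 6578498530) (nat_lit 597) (nat_lit 5) (nat_lit 616) (nat_lit 5) (nat_lit 617) (nat_lit 5) (nat_lit 554) (nat_lit 545) (nat_lit 461)) (XT.lf (nat_lit 0) (nat_lit 1563397755) (nat_lit 1444) (nat_lit 5236282399) (nat_lit 1520) (nat_lit 1372884873) (nat_lit 598) (nat_lit 5) (nat_lit 617) (nat_lit 5) (nat_lit 618) (nat_lit 5) (nat_lit 555) (nat_lit 545) (nat_lit 460))))) (XT.nd (nat_lit 312) (nat_lit 1444) (nat_lit 0) (XT.nd (nat_lit 156) (nat_lit 0) (nat_lit 76) (XT.nd (nat_lit 78) (nat_lit 0) (nat_lit 0) (XT.lf (nat_lit 0) (nat_lit 2989648695) (nat_lit 1444) (nat_lit 906141499) (nat_lit 1520) (nat_lit 4338342514) (nat_lit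 598) (nat_lit 5) (nat_lit 617) (nat_lit 5) (nat_lit 618) (nat_lit 5) (nat_lit 556) (nat_lit 545) (nat_lit 459)) (XT.lf (nat_lit 76) (nat_lit 3537323358) (nat_lit 0) (nat_lit 899540083) (nat_lit 1520) (nat_lit 3860220594) (nat_lit 599) (nat_lit 5) (nat_lit 598) (nat_lit 5) (nat_lit 618) (nat_lit 5) (nat_lit 557) (nat_lit 545) (nat_lit 458))) (XT.nd (nat_lit 78) (nat_lit 0) (nat_lit 0) (XT.lf (nat_lit 0) (nat_lit 5903157850) (nat_lit 1444) (nat_lit 313487358) (nat_lit 1520) (nat_lit 2144847520) (nat_lit 599) (nat_lit 5) (nat_lit 618) (nat_lit 5) (nat_lit 619) (nat_lit 5) (nat_lit 558) (nat_lit 545) (nat_lit 457)) (XT.lf (nat_lit 76) (nat_lit 4251699833) (nat_lit 0) (nat_lit 3151240494) (nat_lit 1520) (nat_lit 1024167050) (nat_lit 600) (nat_lit 5) (nat_lit 599) (nat_lit 5) (nat_lit 619) (nat_lit 5) (nat_lit 559) (nat_lit 545) (nat_lit 456)))) (XT.nd (nat_lit 156) (nat_lit 0) (nat_lit 76) (XT.nd (nat_lit 78) (nat_lit 0) (nat_lit 76) (XT.lf (nat_lit 76) (nat_lit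 400767797) (nat_lit 0) (nat_lit 7738599) (nat_lit 1596) (nat_lit 8085960431) (nat_lit 580) (nat_lit 5) (nat_lit 579) (nat_lit 5) (nat_lit 600) (nat_lit 5) (nat_lit 560) (nat_lit 545) (nat_lit 455)) (XT.lf (nat_lit 0) (nat_lit 1876459811) (nat_lit 1520) (nat_lit 3485857382) (nat_lit 1596) (nat_lit 3200315044) (nat_lit 580) (nat_lit 5) (nat_lit 600) (nat_lit 5) (nat_lit 601) (nat_lit 5) (nat_lit 561) (nat_lit 545) (nat_lit 454))) (XT.nd (nat_lit 78) (nat_lit 0) (nat_lit 76) (XT.lf (nat_lit 76) (nat_lit 1209785894) (nat_lit 0) (nat_lit 2143808935) (nat_lit 1596) (nat_lit 5278970623) (nat_lit 581) (nat_lit 5) (nat_lit 580) (nat_lit 5) (nat_lit 601) (nat_lit 5) (nat_lit 562) (nat_lit 545) (nat_lit 453)) (XT.lf (nat_lit 0) (nat_lit 4863601614) (nat_lit 1520) (nat_lit 2685027758) (nat_lit 1596) (nat_lit 1155202308) (nat_lit 581) (nat_lit 5) (nat_lit 601) (nat_lit 5) (nat_lit 602) (nat_lit 5) (nat_lit 563) (nat_lit 545) (nat_lit 452))))))) (XT.nd (nat_lit 1170)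 (nat_lit 7600) (nat_lit 0) (XT.nd (nat_lit 546) (nat_lit 7448) (nat_lit 0) (XT.nd (nat_lit 234) (nat_lit 1520) (nat_lit 0) (XT.nd (nat_lit 78) (nat_lit 1520) (nat_lit 0) (XT.lf (nat_lit 76) (nat_lit 2141126150) (nat_lit 0) (nat_lit 4263709462) (nat_lit 1596) (nat_lit 2371667989) (nat_lit 582) (nat_lit 5) (nat_lit 581) (nat_lit 5) (nat_lit 602) (nat_lit 5) (nat_lit 564) (nat_lit 545) (nat_lit 451)) (XT.nd (nat_lit 78) (nat_lit 1520) (nat_lit 0) (XT.lf (nat_lit 76) (nat_lit 7080095759) (nat_lit 0) (nat_lit 888144836) (nat_lit 1596) (nat_lit 882562333) (nat_lit 582) (nat_lit 5) (nat_lit 581) (nat_lit 5) (nat_lit 602) (nat_lit 5) (nat_lit 565) (nat_lit 545) (nat_lit 450)) (XT.lf (nat_lit 0) (nat_lit 639287473) (nat_lit 1596) (nat_lit 5734256948) (nat_lit 1672) (nat_lit 2552735900) (nat_lit 561) (nat_lit 5) (nat_lit 582) (nat_lit 5) (nat_lit 583) (nat_lit 5) (nat_lit 566) (nat_lit 545) (nat_lit 449)))) (XT.nd (nat_lit 156) (nat_lit 1520) (nat_lit 0) (XT.nd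 (nat_lit 78) (nat_lit 0) (nat_lit 76) (XT.lf (nat_lit 0) (nat_lit 2171713681) (nat_lit 1596) (nat_lit 757310626) (nat_lit 1672) (nat_lit 6074287983) (nat_lit 561) (nat_lit 5) (nat_lit 582) (nat_lit 5) (nat_lit 583) (nat_lit 5) (nat_lit 567) (nat_lit 545) (nat_lit 448)) (XT.lf (nat_lit 0) (nat_lit 3741698694) (nat_lit 1596) (nat_lit 4729621562) (nat_lit 76) (nat_lit 610427263) (nat_lit 562) (nat_lit 5) (nat_lit 583) (nat_lit 5) (nat_lit 563) (nat_lit 5) (nat_lit 568) (nat_lit 545) (nat_lit 447))) (XT.nd (nat_lit 78) (nat_lit 0) (nat_lit 0) (XT.lf (nat_lit 0) (nat_lit 377398479) (nat_lit 1596) (nat_lit 4967660382) (nat_lit 1672) (nat_lit 3816653891) (nat_lit 541) (nat_lit 5) (nat_lit 562) (nat_lit 5) (nat_lit 563) (nat_lit 5) (nat_lit 569) (nat_lit 545) (nat_lit 446)) (XT.lf (nat_lit 0) (nat_lit 5630317963) (nat_lit 1596) (nat_lit 1357276353) (nat_lit 1672) (nat_lit 2255541606) (nat_lit 541) (nat_lit 5) (nat_lit 562) (nat_lit 5) (nat_lit 563) (nat_lit 5)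 (nat_lit 570) (nat_lit 545) (nat_lit 445))))) (XT.nd (nat_lit 312) (nat_lit 3952) (nat_lit 0) (XT.nd (nat_lit 156) (nat_lit 1748) (nat_lit 0) (XT.nd (nat_lit 78) (nat_lit 76) (nat_lit 0) (XT.lf (nat_lit 0) (nat_lit 1648162626) (nat_lit 1672) (nat_lit 7016496315) (nat_lit 1748) (nat_lit 661495821) (nat_lit 519) (nat_lit 5) (nat_lit 541) (nat_lit 5) (nat_lit 542) (nat_lit 5) (nat_lit 571) (nat_lit 545) (nat_lit 444)) (XT.lf (nat_lit 0) (nat_lit 961237971) (nat_lit 1748) (nat_lit 2383072790) (nat_lit 76) (nat_lit 6066209618) (nat_lit 518) (nat_lit 5) (nat_lit 541) (nat_lit 5) (nat_lit 519) (nat_lit 5) (nat_lit 572) (nat_lit 545) (nat_lit 443))) (XT.nd (nat_lit 78) (nat_lit 0) (nat_lit 0) (XT.lf (nat_lit 0) (nat_lit 2606586941) (nat_lit 1824) (nat_lit 6466450230) (nat_lit 76) (nat_lit 423469060) (nat_lit 495) (nat_lit 5) (nat_lit 519) (nat_lit 5) (nat_lit 496) (nat_lit 5) (nat_lit 573) (nat_lit 545) (nat_lit 442)) (XT.lf (nat_lit 0) (nat_lit 4299969553) (nat_lit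 1824) (nat_lit 1042988515) (nat_lit 76) (nat_lit 4240951918) (nat_lit 495) (nat_lit 5) (nat_lit 519) (nat_lit 5) (nat_lit 496) (nat_lit 5) (nat_lit 574) (nat_lit 545) (nat_lit 441)))) (XT.nd (nat_lit 156) (nat_lit 988) (nat_lit 0) (XT.nd (nat_lit 78) (nat_lit 1140) (nat_lit 0) (XT.lf (nat_lit 0) (nat_lit 4528140161) (nat_lit 1824) (nat_lit 1505813983) (nat_lit 1900) (nat_lit 3638973690) (nat_lit 471) (nat_lit 5) (nat_lit 495) (nat_lit 5) (nat_lit 496) (nat_lit 5) (nat_lit 575) (nat_lit 545) (nat_lit 440)) (XT.lf (nat_lit 0) (nat_lit 430691343) (nat_lit 1140) (nat_lit 7375067310) (nat_lit 1216) (nat_lit 1957905272) (nat_lit 456) (nat_lit 5) (nat_lit 471) (nat_lit 5) (nat_lit 472) (nat_lit 5) (nat_lit 576) (nat_lit 545) (nat_lit 439))) (XT.nd (nat_lit 78) (nat_lit 988) (nat_lit 0) (XT.lf (nat_lit 0) (nat_lit 6156929655) (nat_lit 1140) (nat_lit 3478469850) (nat_lit 1216) (nat_lit 220367905) (nat_lit 456) (nat_lit 5) (nat_lit 471) (nat_lit 5) (nat_lit 472)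 (nat_lit 5) (nat_lit 577) (nat_lit 545) (nat_lit 438)) (XT.lf (nat_lit 0) (nat_lit 1526482916) (nat_lit 988) (nat_lit 7908623808) (nat_lit 76) (nat_lit 514507041) (nat_lit 443) (nat_lit 5) (nat_lit 456) (nat_lit 5) (nat_lit 444) (nat_lit 5) (nat_lit 578) (nat_lit 545) (nat_lit 437)))))) (XT.nd (nat_lit 624) (nat_lit 4028) (nat_lit 0) (XT.nd (nat_lit 312) (nat_lit 1824) (nat_lit 0) (XT.nd (nat_lit 156) (nat_lit 836) (nat_lit 0) (XT.nd (nat_lit 78) (nat_lit 912) (nat_lit 0) (XT.lf (nat_lit 0) (nat_lit 3331906198) (nat_lit 988) (nat_lit 2144326674) (nat_lit 76) (nat_lit 4568543956) (nat_lit 443) (nat_lit 5) (nat_lit 456) (nat_lit 5) (nat_lit 444) (nat_lit 5) (nat_lit 579) (nat_lit 545) (nat_lit 436)) (XT.lf (nat_lit 0) (nat_lit 3764452378) (nat_lit 912) (nat_lit 1412408909) (nat_lit 988) (nat_lit 4964914026) (nat_lit 431) (nat_lit 5) (nat_lit 443) (nat_lit 5) (nat_lit 444) (nat_lit 5) (nat_lit 580) (nat_lit 545) (nat_lit 435))) (XT.nd (nat_lit 78) (nat_lit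 836) (nat_lit 0) (XT.lf (nat_lit 0) (nat_lit 7070211288) (nat_lit 988) (nat_lit 458252385) (nat_lit 76) (nat_lit 2712020791) (nat_lit 431) (nat_lit 5) (nat_lit 444) (nat_lit 5) (nat_lit 432) (nat_lit 5) (nat_lit 581) (nat_lit 545) (nat_lit 434)) (XT.lf (nat_lit 0) (nat_lit 5623538224) (nat_lit 836) (nat_lit 3403430512) (nat_lit 912) (nat_lit 1313688854) (nat_lit 420) (nat_lit 5) (nat_lit 431) (nat_lit 5) (nat_lit 432) (nat_lit 5) (nat_lit 582) (nat_lit 545) (nat_lit 433)))) (XT.nd (nat_lit 156) (nat_lit 836) (nat_lit 0) (XT.nd (nat_lit 78) (nat_lit 0) (nat_lit 0) (XT.lf (nat_lit 0) (nat_lit 569641500) (nat_lit 988) (nat_lit 9063669069) (nat_lit 76) (nat_lit 809504438) (nat_lit 407) (nat_lit 5) (nat_lit 420) (nat_lit 5) (nat_lit 408) (nat_lit 5) (nat_lit 583) (nat_lit 545) (nat_lit 432)) (XT.lf (nat_lit 0) (nat_lit 2507543281) (nat_lit 988) (nat_lit 2937016476) (nat_lit 76) (nat_lit 5101592811) (nat_lit 407) (nat_lit 5) (nat_lit 420) (nat_lit 5) (nat_lit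 408) (nat_lit 5) (nat_lit 584) (nat_lit 545) (nat_lit 431))) (XT.nd (nat_lit 78) (nat_lit 0) (nat_lit 0) (XT.lf (nat_lit 0) (nat_lit 3335857279) (nat_lit 836) (nat_lit 1150470505) (nat_lit 912) (nat_lit 6165187159) (nat_lit 396) (nat_lit 5) (nat_lit 407) (nat_lit 5) (nat_lit 408) (nat_lit 5) (nat_lit 585) (nat_lit 545) (nat_lit 430)) (XT.lf (nat_lit 0) (nat_lit 6526210970) (nat_lit 912) (nat_lit 1026000626) (nat_lit 76) (nat_lit 3206343052) (nat_lit 396) (nat_lit 5) (nat_lit 408) (nat_lit 5) (nat_lit 397) (nat_lit 5) (nat_lit 586) (nat_lit 545) (nat_lit 429))))) (XT.nd (nat_lit 312) (nat_lit 1596) (nat_lit 0) (XT.nd (nat_lit 156) (nat_lit 836) (nat_lit 0) (XT.nd (nat_lit 78) (nat_lit 760) (nat_lit 0) (XT.lf (nat_lit 0) (nat_lit 5433173672) (nat_lit 836) (nat_lit 3197706538) (nat_lit 912) (nat_lit 2236375705) (nat_lit 385) (nat_lit 5) (nat_lit 396) (nat_lit 5) (nat_lit 397) (nat_lit 5) (nat_lit 587) (nat_lit 545) (nat_lit 428)) (XT.lf (nat_lit 0) (nat_lit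 1042851648) (nat_lit 760) (nat_lit 9737897441) (nat_lit 836) (nat_lit 197320516) (nat_lit 375) (nat_lit 5) (nat_lit 385) (nat_lit 5) (nat_lit 386) (nat_lit 5) (nat_lit 588) (nat_lit 545) (nat_lit 427))) (XT.nd (nat_lit 78) (nat_lit 760) (nat_lit 0) (XT.lf (nat_lit 0) (nat_lit 1897152320) (nat_lit 836) (nat_lit 3421290538) (nat_lit 76) (nat_lit 5771626242) (nat_lit 374) (nat_lit 5) (nat_lit 385) (nat_lit 5) (nat_lit 375) (nat_lit 5) (nat_lit 589) (nat_lit 545) (nat_lit 426)) (XT.lf (nat_lit 0) (nat_lit 3244291456) (nat_lit 760) (nat_lit 789453643) (nat_lit 836) (nat_lit 7170480440) (nat_lit 364) (nat_lit 5) (nat_lit 374) (nat_lit 5) (nat_lit 375) (nat_lit 5) (nat_lit 590) (nat_lit 545) (nat_lit 425)))) (XT.nd (nat_lit 156) (nat_lit 836) (nat_lit 0) (XT.nd (nat_lit 78) (nat_lit 760) (nat_lit 0) (XT.lf (nat_lit 0) (nat_lit 6243071244) (nat_lit 836) (nat_lit 1275748318) (nat_lit 76) (nat_lit 3801245999) (nat_lit 364) (nat_lit 5) (nat_lit 375) (nat_lit 5) (nat_lit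 365) (nat_lit 5) (nat_lit 591) (nat_lit 545) (nat_lit 424)) (XT.lf (nat_lit 0) (nat_lit 5590523247) (nat_lit 760) (nat_lit 2929961862) (nat_lit 836) (nat_lit 2917259725) (nat_lit 354) (nat_lit 5) (nat_lit 364) (nat_lit 5) (nat_lit 365) (nat_lit 5) (nat_lit 592) (nat_lit 545) (nat_lit 423))) (XT.nd (nat_lit 78) (nat_lit 76) (nat_lit 0) (XT.lf (nat_lit 0) (nat_lit 1036076469) (nat_lit 760) (nat_lit 9816662069) (nat_lit 836) (nat_lit 704853793) (nat_lit 344) (nat_lit 5) (nat_lit 354) (nat_lit 5) (nat_lit 355) (nat_lit 5) (nat_lit 593) (nat_lit 545) (nat_lit 422)) (XT.lf (nat_lit 0) (nat_lit 1573028689) (nat_lit 836) (nat_lit 3592485047) (nat_lit 76) (nat_lit 6513290371) (nat_lit 343) (nat_lit 5) (nat_lit 354) (nat_lit 5) (nat_lit 344) (nat_lit 5) (nat_lit 594) (nat_lit 545) (nat_lit 421))))))))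
noncomputable def xc113 : XT := (XT.nd (nat_lit 2418) (nat_lit 4028) (nat_lit 0) (XT.nd (nat_lit 1170) (nat_lit 5092) (nat_lit 0) (XT.nd (nat_lit 546) (nat_lit 3116) (nat_lit 0) (XT.nd (nat_lit 234) (nat_lit 1444) (nat_lit 0) (XT.nd (nat_lit 78) (nat_lit 684) (nat_lit 0) (XT.lf (nat_lit 0) (nat_lit 3496715342) (nat_lit 684) (nat_lit 396045992) (nat_lit 760) (nat_lit 7909471429) (nat_lit 334) (nat_lit 5) (nat_lit 343) (nat_lit 5) (nat_lit 344) (nat_lit 5) (nat_lit 595) (nat_lit 545) (nat_lit 420)) (XT.nd (nat_lit 78) (nat_lit 684) (nat_lit 0) (XT.lf (nat_lit 0) (nat_lit 6295377926) (nat_lit 760) (nat_lit 1200217781) (nat_lit 76) (nat_lit 4431804930) (nat_lit 334) (nat_lit 5) (nat_lit 344) (nat_lit 5) (nat_lit 335) (nat_lit 5) (nat_lit 596) (nat_lit 545) (nat_lit 419)) (XT.lf (nat_lit 0) (nat_lit 6105231716) (nat_lit 684) (nat_lit 2666614118) (nat_lit 760) (nat_lit 3282710477) (nat_lit 325) (nat_lit 5) (nat_lit 334) (nat_lit 5) (nat_lit 335) (nat_lit 5)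 (nat_lit 597) (nat_lit 545) (nat_lit 418)))) (XT.nd (nat_lit 156) (nat_lit 684) (nat_lit 0) (XT.nd (nat_lit 78) (nat_lit 76) (nat_lit 0) (XT.lf (nat_lit 0) (nat_lit 1372665252) (nat_lit 684) (nat_lit 9940579160) (nat_lit 760) (nat_lit 870703072) (nat_lit 316) (nat_lit 5) (nat_lit 325) (nat_lit 5) (nat_lit 326) (nat_lit 5) (nat_lit 598) (nat_lit 545) (nat_lit 417)) (XT.lf (nat_lit 0) (nat_lit 1610345585) (nat_lit 760) (nat_lit 3441302795) (nat_lit 76) (nat_lit 7263239123) (nat_lit 315) (nat_lit 5) (nat_lit 325) (nat_lit 5) (nat_lit 316) (nat_lit 5) (nat_lit 599) (nat_lit 545) (nat_lit 416))) (XT.nd (nat_lit 78) (nat_lit 0) (nat_lit 0) (XT.lf (nat_lit 0) (nat_lit 4104861799) (nat_lit 684) (nat_lit 35275792) (nat_lit 760) (nat_lit 8307978394) (nat_lit 306) (nat_lit 5) (nat_lit 315) (nat_lit 5) (nat_lit 316) (nat_lit 5) (nat_lit 600) (nat_lit 545) (nat_lit 415)) (XT.lf (nat_lit 0) (nat_lit 6761046536) (nat_lit 760) (nat_lit 787543734) (nat_lit 76) (nat_lit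 5034608723) (nat_lit 306) (nat_lit 5) (nat_lit 316) (nat_lit 5) (nat_lit 307) (nat_lit 5) (nat_lit 601) (nat_lit 545) (nat_lit 414))))) (XT.nd (nat_lit 312) (nat_lit 1216) (nat_lit 0) (XT.nd (nat_lit 156) (nat_lit 684) (nat_lit 0) (XT.nd (nat_lit 78) (nat_lit 608) (nat_lit 0) (XT.lf (nat_lit 0) (nat_lit 6991676664) (nat_lit 608) (nat_lit 2472916622) (nat_lit 684) (nat_lit 3255786359) (nat_lit 298) (nat_lit 5) (nat_lit 306) (nat_lit 5) (nat_lit 307) (nat_lit 5) (nat_lit 602) (nat_lit 545) (nat_lit 413)) (XT.lf (nat_lit 0) (nat_lit 2067254976) (nat_lit 608) (nat_lit 10176002180) (nat_lit 684) (nat_lit 616626195) (nat_lit 290) (nat_lit 5) (nat_lit 298) (nat_lit 5) (nat_lit 299) (nat_lit 5) (nat_lit 603) (nat_lit 545) (nat_lit 412))) (XT.nd (nat_lit 78) (nat_lit 608) (nat_lit 0) (XT.lf (nat_lit 0) (nat_lit 2087994478) (nat_lit 684) (nat_lit 2954026711) (nat_lit 76) (nat_lit 7959088899) (nat_lit 289) (nat_lit 5) (nat_lit 298) (nat_lit 5) (nat_lit 290) (nat_lit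 5) (nat_lit 604) (nat_lit 545) (nat_lit 411)) (XT.lf (nat_lit 0) (nat_lit 4858076220) (nat_lit 684) (nat_lit 8061166374) (nat_lit 76) (nat_lit 225445088) (nat_lit 281) (nat_lit 5) (nat_lit 290) (nat_lit 5) (nat_lit 282) (nat_lit 5) (nat_lit 605) (nat_lit 545) (nat_lit 410)))) (XT.nd (nat_lit 156) (nat_lit 608) (nat_lit 0) (XT.nd (nat_lit 78) (nat_lit 608) (nat_lit 0) (XT.lf (nat_lit 0) (nat_lit 7722167005) (nat_lit 684) (nat_lit 21463524) (nat_lit 76) (nat_lit 5546734490) (nat_lit 281) (nat_lit 5) (nat_lit 290) (nat_lit 5) (nat_lit 282) (nat_lit 5) (nat_lit 606) (nat_lit 545) (nat_lit 409)) (XT.lf (nat_lit 0) (nat_lit 8268789941) (nat_lit 608) (nat_lit 2413987294) (nat_lit 684) (nat_lit 2755394245) (nat_lit 273) (nat_lit 5) (nat_lit 281) (nat_lit 5) (nat_lit 282) (nat_lit 5) (nat_lit 607) (nat_lit 545) (nat_lit 408))) (XT.nd (nat_lit 78) (nat_lit 0) (nat_lit 0) (XT.lf (nat_lit 0) (nat_lit 138179169) (nat_lit 608) (nat_lit 10450399775) (nat_lit 76) (nat_lit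 2999820600) (nat_lit 265) (nat_lit 5) (nat_lit 273) (nat_lit 5) (nat_lit 266) (nat_lit 5) (nat_lit 608) (nat_lit 545) (nat_lit 407)) (XT.lf (nat_lit 0) (nat_lit 3089420797) (nat_lit 608) (nat_lit 2112692614) (nat_lit 76) (nat_lit 8538420978) (nat_lit 265) (nat_lit 5) (nat_lit 273) (nat_lit 5) (nat_lit 266) (nat_lit 5) (nat_lit 609) (nat_lit 545) (nat_lit 406)))))) (XT.nd (nat_lit 624) (nat_lit 2280) (nat_lit 0) (XT.nd (nat_lit 312) (nat_lit 1064) (nat_lit 0) (XT.nd (nat_lit 156) (nat_lit 608) (nat_lit 0) (XT.nd (nat_lit 78) (nat_lit 532) (nat_lit 0) (XT.lf (nat_lit 0) (nat_lit 6129791734) (nat_lit 684) (nat_lit 7439352554) (nat_lit 76) (nat_lit 325965862) (nat_lit 257) (nat_lit 5) (nat_lit 266) (nat_lit 5) (nat_lit 258) (nat_lit 5) (nat_lit 610) (nat_lit 545) (nat_lit 405)) (XT.lf (nat_lit 0) (nat_lit 1133394955) (nat_lit 532) (nat_lit 8139811523) (nat_lit 608) (nat_lit 4778726519) (nat_lit 250) (nat_lit 5) (nat_lit 257) (nat_lit 5) (nat_lit 258) (nat_lit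 5) (nat_lit 611) (nat_lit 545) (nat_lit 404))) (XT.nd (nat_lit 78) (nat_lit 608) (nat_lit 0) (XT.lf (nat_lit 0) (nat_lit 9959916677) (nat_lit 532) (nat_lit 2555801397) (nat_lit 608) (nat_lit 1695449951) (nat_lit 250) (nat_lit 5) (nat_lit 257) (nat_lit 5) (nat_lit 258) (nat_lit 5) (nat_lit 612) (nat_lit 545) (nat_lit 403)) (XT.lf (nat_lit 0) (nat_lit 1467594395) (nat_lit 608) (nat_lit 9771433986) (nat_lit 76) (nat_lit 3133629183) (nat_lit 242) (nat_lit 5) (nat_lit 250) (nat_lit 5) (nat_lit 243) (nat_lit 5) (nat_lit 613) (nat_lit 545) (nat_lit 402)))) (XT.nd (nat_lit 156) (nat_lit 608) (nat_lit 0) (XT.nd (nat_lit 78) (nat_lit 456) (nat_lit 0) (XT.lf (nat_lit 0) (nat_lit 4703462759) (nat_lit 608) (nat_lit 895229673) (nat_lit 76) (nat_lit 8937815297) (nat_lit 242) (nat_lit 5) (nat_lit 250) (nat_lit 5) (nat_lit 243) (nat_lit 5) (nat_lit 614) (nat_lit 545) (nat_lit 401)) (XT.lf (nat_lit 0) (nat_lit 8045792874) (nat_lit 532) (nat_lit 6455565038) (nat_lit 76)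 (nat_lit 201442370) (nat_lit 236) (nat_lit 5) (nat_lit 243) (nat_lit 5) (nat_lit 237) (nat_lit 5) (nat_lit 615) (nat_lit 545) (nat_lit 400))) (XT.nd (nat_lit 78) (nat_lit 76) (nat_lit 0) (XT.lf (nat_lit 0) (nat_lit 2692377584) (nat_lit 532) (nat_lit 8810169738) (nat_lit 608) (nat_lit 3368920075) (nat_lit 229) (nat_lit 5) (nat_lit 236) (nat_lit 5) (nat_lit 237) (nat_lit 5) (nat_lit 616) (nat_lit 545) (nat_lit 399)) (XT.lf (nat_lit 0) (nat_lit 15758562) (nat_lit 608) (nat_lit 2950299697) (nat_lit 76) (nat_lit 12076839173) (nat_lit 228) (nat_lit 5) (nat_lit 236) (nat_lit 5) (nat_lit 229) (nat_lit 5) (nat_lit 617) (nat_lit 545) (nat_lit 398))))) (XT.nd (nat_lit 312) (nat_lit 912) (nat_lit 0) (XT.nd (nat_lit 156) (nat_lit 456) (nat_lit 0) (XT.nd (nat_lit 78) (nat_lit 456) (nat_lit 0) (XT.lf (nat_lit 0) (nat_lit 3472437025) (nat_lit 532) (nat_lit 8728343804) (nat_lit 76) (nat_lit 3015541795) (nat_lit 222) (nat_lit 5) (nat_lit 229) (nat_lit 5) (nat_lit 223) (nat_lit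 5) (nat_lit 618) (nat_lit 545) (nat_lit 397)) (XT.lf (nat_lit 0) (nat_lit 734050225) (nat_lit 456) (nat_lit 6295916185) (nat_lit 532) (nat_lit 8362615811) (nat_lit 216) (nat_lit 5) (nat_lit 222) (nat_lit 5) (nat_lit 223) (nat_lit 5) (nat_lit 619) (nat_lit 545) (nat_lit 396))) (XT.nd (nat_lit 78) (nat_lit 456) (nat_lit 0) (XT.lf (nat_lit 0) (nat_lit 10486127810) (nat_lit 456) (nat_lit 218601197) (nat_lit 532) (nat_lit 4866716592) (nat_lit 216) (nat_lit 5) (nat_lit 222) (nat_lit 5) (nat_lit 223) (nat_lit 5) (nat_lit 620) (nat_lit 545) (nat_lit 395)) (XT.lf (nat_lit 0) (nat_lit 4684227815) (nat_lit 456) (nat_lit 9825721387) (nat_lit 532) (nat_lit 1242798032) (nat_lit 210) (nat_lit 5) (nat_lit 216) (nat_lit 5) (nat_lit 217) (nat_lit 5) (nat_lit 621) (nat_lit 545) (nat_lit 394)))) (XT.nd (nat_lit 156) (nat_lit 380) (nat_lit 0) (XT.nd (nat_lit 78) (nat_lit 456) (nat_lit 0) (XT.lf (nat_lit 0) (nat_lit 2444985398) (nat_lit 532) (nat_lit 1254284973) (nat_lit 76)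 (nat_lit 12237614835) (nat_lit 209) (nat_lit 5) (nat_lit 216) (nat_lit 5) (nat_lit 210) (nat_lit 5) (nat_lit 622) (nat_lit 545) (nat_lit 393)) (XT.lf (nat_lit 0) (nat_lit 6252297787) (nat_lit 532) (nat_lit 7293995167) (nat_lit 76) (nat_lit 2577000620) (nat_lit 203) (nat_lit 5) (nat_lit 210) (nat_lit 5) (nat_lit 204) (nat_lit 5) (nat_lit 623) (nat_lit 545) (nat_lit 392))) (XT.nd (nat_lit 78) (nat_lit 0) (nat_lit 0) (XT.lf (nat_lit 0) (nat_lit 2813109639) (nat_lit 380) (nat_lit 7361976694) (nat_lit 456) (nat_lit 6137557397) (nat_lit 198) (nat_lit 5) (nat_lit 203) (nat_lit 5) (nat_lit 204) (nat_lit 5) (nat_lit 624) (nat_lit 545) (nat_lit 391)) (XT.lf (nat_lit 0) (nat_lit 13203819432) (nat_lit 380) (nat_lit 1009672384) (nat_lit 456) (nat_lit 2291546064) (nat_lit 198) (nat_lit 5) (nat_lit 203) (nat_lit 5) (nat_lit 204) (nat_lit 5) (nat_lit 625) (nat_lit 545) (nat_lit 390))))))) (XT.nd (nat_lit 1170) (nat_lit 0) (nat_lit 0) (XT.nd (nat_lit 546) (nat_lit 1900)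 (nat_lit 0) (XT.nd (nat_lit 234) (nat_lit 1216) (nat_lit 0) (XT.nd (nat_lit 78) (nat_lit 380) (nat_lit 0) (XT.lf (nat_lit 0) (nat_lit 1680747886) (nat_lit 532) (nat_lit 9568976337) (nat_lit 76) (nat_lit 5449928891) (nat_lit 191) (nat_lit 5) (nat_lit 198) (nat_lit 5) (nat_lit 192) (nat_lit 5) (nat_lit 626) (nat_lit 545) (nat_lit 389)) (XT.nd (nat_lit 78) (nat_lit 0) (nat_lit 0) (XT.lf (nat_lit 0) (nat_lit 890609214) (nat_lit 380) (nat_lit 4834441627) (nat_lit 456) (nat_lit 11172342132) (nat_lit 186) (nat_lit 5) (nat_lit 191) (nat_lit 5) (nat_lit 192) (nat_lit 5) (nat_lit 627) (nat_lit 545) (nat_lit 388)) (XT.lf (nat_lit 0) (nat_lit 9914502026) (nat_lit 456) (nat_lit 5437610184) (nat_lit 76) (nat_lit 1745690375) (nat_lit 186) (nat_lit 5) (nat_lit 192) (nat_lit 5) (nat_lit 187) (nat_lit 5) (nat_lit 628) (nat_lit 545) (nat_lit 387)))) (XT.nd (nat_lit 156) (nat_lit 760) (nat_lit 0) (XT.nd (nat_lit 78) (nat_lit 76) (nat_lit 0) (XT.lf (nat_lit 0) (nat_lit 5364243402)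 (nat_lit 380) (nat_lit 8879095324) (nat_lit 456) (nat_lit 3057769928) (nat_lit 181) (nat_lit 5) (nat_lit 186) (nat_lit 5) (nat_lit 187) (nat_lit 5) (nat_lit 629) (nat_lit 545) (nat_lit 386)) (XT.lf (nat_lit 0) (nat_lit 1160704967) (nat_lit 456) (nat_lit 1076696116) (nat_lit 76) (nat_lit 15270420187) (nat_lit 180) (nat_lit 5) (nat_lit 186) (nat_lit 5) (nat_lit 181) (nat_lit 5) (nat_lit 630) (nat_lit 545) (nat_lit 385))) (XT.nd (nat_lit 78) (nat_lit 380) (nat_lit 0) (XT.lf (nat_lit 0) (nat_lit 5507192176) (nat_lit 456) (nat_lit 7651065198) (nat_lit 76) (nat_lit 4558314984) (nat_lit 175) (nat_lit 5) (nat_lit 181) (nat_lit 5) (nat_lit 176) (nat_lit 5) (nat_lit 631) (nat_lit 545) (nat_lit 384)) (XT.lf (nat_lit 0) (nat_lit 3530419536) (nat_lit 380) (nat_lit 6444280513) (nat_lit 456) (nat_lit 7954116780) (nat_lit 170) (nat_lit 5) (nat_lit 175) (nat_lit 5) (nat_lit 176) (nat_lit 5) (nat_lit 632) (nat_lit 545) (nat_lit 383))))) (XT.nd (nat_lit 312) (nat_lit 1064)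 (nat_lit 0) (XT.nd (nat_lit 156) (nat_lit 380) (nat_lit 0) (XT.nd (nat_lit 78) (nat_lit 456) (nat_lit 0) (XT.lf (nat_lit 0) (nat_lit 14575009952) (nat_lit 456) (nat_lit 3124876633) (nat_lit 76) (nat_lit 444550743) (nat_lit 170) (nat_lit 5) (nat_lit 176) (nat_lit 5) (nat_lit 171) (nat_lit 5) (nat_lit 633) (nat_lit 545) (nat_lit 382)) (XT.lf (nat_lit 0) (nat_lit 978427329) (nat_lit 456) (nat_lit 9943684652) (nat_lit 76) (nat_lit 7440394895) (nat_lit 164) (nat_lit 5) (nat_lit 170) (nat_lit 5) (nat_lit 165) (nat_lit 5) (nat_lit 634) (nat_lit 545) (nat_lit 381))) (XT.nd (nat_lit 78) (nat_lit 0) (nat_lit 0) (XT.lf (nat_lit 0) (nat_lit 1632283540) (nat_lit 380) (nat_lit 3958302997) (nat_lit 456) (nat_lit 12993456726) (nat_lit 159) (nat_lit 5) (nat_lit 164) (nat_lit 5) (nat_lit 165) (nat_lit 5) (nat_lit 635) (nat_lit 545) (nat_lit 380)) (XT.lf (nat_lit 0) (nat_lit 10372029597) (nat_lit 456) (nat_lit 5271619736) (nat_lit 76) (nat_lit 3164820392) (nat_lit 159) (nat_lit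 5) (nat_lit 165) (nat_lit 5) (nat_lit 160) (nat_lit 5) (nat_lit 636) (nat_lit 545) (nat_lit 379)))) (XT.nd (nat_lit 156) (nat_lit 684) (nat_lit 0) (XT.nd (nat_lit 78) (nat_lit 76) (nat_lit 0) (XT.lf (nat_lit 0) (nat_lit 6687296223) (nat_lit 304) (nat_lit 8621097775) (nat_lit 380) (nat_lit 3727805029) (nat_lit 155) (nat_lit 5) (nat_lit 159) (nat_lit 5) (nat_lit 160) (nat_lit 5) (nat_lit 637) (nat_lit 545) (nat_lit 378)) (XT.lf (nat_lit 0) (nat_lit 1086203232) (nat_lit 380) (nat_lit 334488427) (nat_lit 76) (nat_lit 17847145831) (nat_lit 154) (nat_lit 5) (nat_lit 159) (nat_lit 5) (nat_lit 155) (nat_lit 5) (nat_lit 638) (nat_lit 545) (nat_lit 377))) (XT.nd (nat_lit 78) (nat_lit 304) (nat_lit 0) (XT.lf (nat_lit 0) (nat_lit 6053772851) (nat_lit 456) (nat_lit 7503985752) (nat_lit 76) (nat_lit 5943713523) (nat_lit 149) (nat_lit 5) (nat_lit 155) (nat_lit 5) (nat_lit 150) (nat_lit 5) (nat_lit 639) (nat_lit 545) (nat_lit 376)) (XT.lf (nat_lit 0) (nat_lit 4879386933)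 (nat_lit 304) (nat_lit 6274603480) (nat_lit 380) (nat_lit 8585123259) (nat_lit 145) (nat_lit 5) (nat_lit 149) (nat_lit 5) (nat_lit 150) (nat_lit 5) (nat_lit 640) (nat_lit 545) (nat_lit 375)))))) (XT.nd (nat_lit 74334) (nat_lit 0) (nat_lit 32984) (XT.nd (nat_lit 74022) (nat_lit 0) (nat_lit 35644) (XT.nd (nat_lit 73866) (nat_lit 0) (nat_lit 35644) (XT.nd (nat_lit 73788) (nat_lit 0) (nat_lit 37012) (XT.lf (nat_lit 0) (nat_lit 16404398021) (nat_lit 380) (nat_lit 2392321054) (nat_lit 76) (nat_lit 1183825404) (nat_lit 145) (nat_lit 5) (nat_lit 150) (nat_lit 5) (nat_lit 146) (nat_lit 5) (nat_lit 641) (nat_lit 545) (nat_lit 374)) (XT.lf (nat_lit 0) (nat_lit 1498322934) (nat_lit 0) (nat_lit 1498322934) (nat_lit 1292) (nat_lit 866988366) (nat_lit 632) (nat_lit 5) (nat_lit 632) (nat_lit 3) (nat_lit 649) (nat_lit 3) (nat_lit 546) (nat_lit 546) (nat_lit 468))) (XT.nd (nat_lit 78) (nat_lit 1368) (nat_lit 0) (XT.lf (nat_lit 0) (nat_lit 6905943028) (nat_lit 0) (nat_lit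 483174145) (nat_lit 1292) (nat_lit 388656513) (nat_lit 632) (nat_lit 5) (nat_lit 632) (nat_lit 3) (nat_lit 649) (nat_lit 3) (nat_lit 547) (nat_lit 546) (nat_lit 467)) (XT.lf (nat_lit 0) (nat_lit 969189920) (nat_lit 1368) (nat_lit 4763106022) (nat_lit 1444) (nat_lit 2096896230) (nat_lit 614) (nat_lit 5) (nat_lit 632) (nat_lit 5) (nat_lit 633) (nat_lit 5) (nat_lit 548) (nat_lit 546) (nat_lit 466)))) (XT.nd (nat_lit 156) (nat_lit 0) (nat_lit 76) (XT.nd (nat_lit 78) (nat_lit 0) (nat_lit 0) (XT.lf (nat_lit 0) (nat_lit 2323493631) (nat_lit 1368) (nat_lit 811431924) (nat_lit 1444) (nat_lit 4747173254) (nat_lit 614) (nat_lit 5) (nat_lit 632) (nat_lit 5) (nat_lit 633) (nat_lit 5) (nat_lit 549) (nat_lit 546) (nat_lit 465)) (XT.lf (nat_lit 76) (nat_lit 3243504369) (nat_lit 0) (nat_lit 448526831) (nat_lit 1444) (nat_lit 4244290649) (nat_lit 615) (nat_lit 5) (nat_lit 614) (nat_lit 5) (nat_lit 633) (nat_lit 5) (nat_lit 550) (nat_lit 546) (nat_lit 464))) (XT.nd (nat_lit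 78) (nat_lit 0) (nat_lit 0) (XT.lf (nat_lit 0) (nat_lit 5075033453) (nat_lit 1368) (nat_lit 634853511) (nat_lit 1444) (nat_lit 2282001710) (nat_lit 615) (nat_lit 5) (nat_lit 633) (nat_lit 5) (nat_lit 634) (nat_lit 5) (nat_lit 551) (nat_lit 546) (nat_lit 463)) (XT.lf (nat_lit 76) (nat_lit 3528997525) (nat_lit 0) (nat_lit 2949967615) (nat_lit 1444) (nat_lit 1569737487) (nat_lit 616) (nat_lit 5) (nat_lit 615) (nat_lit 5) (nat_lit 634) (nat_lit 5) (nat_lit 552) (nat_lit 546) (nat_lit 462))))) (XT.nd (nat_lit 312) (nat_lit 1368) (nat_lit 0) (XT.nd (nat_lit 156) (nat_lit 0) (nat_lit 0) (XT.nd (nat_lit 78) (nat_lit 1368) (nat_lit 0) (XT.lf (nat_lit 76) (nat_lit 7766268188) (nat_lit 0) (nat_lit 116873502) (nat_lit 1444) (nat_lit 224069000) (nat_lit 616) (nat_lit 5) (nat_lit 615) (nat_lit 5) (nat_lit 634) (nat_lit 5) (nat_lit 553) (nat_lit 546) (nat_lit 461)) (XT.lf (nat_lit 0) (nat_lit 1145711347) (nat_lit 1444) (nat_lit 4237986261) (nat_lit 1520) (nat_lit 2782798050)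 (nat_lit 597) (nat_lit 5) (nat_lit 616) (nat_lit 5) (nat_lit 617) (nat_lit 5) (nat_lit 554) (nat_lit 546) (nat_lit 460))) (XT.nd (nat_lit 78) (nat_lit 0) (nat_lit 76) (XT.lf (nat_lit 76) (nat_lit 40196849) (nat_lit 0) (nat_lit 2471941349) (nat_lit 1520) (nat_lit 5715354571) (nat_lit 598) (nat_lit 5) (nat_lit 597) (nat_lit 5) (nat_lit 617) (nat_lit 5) (nat_lit 555) (nat_lit 546) (nat_lit 459)) (XT.lf (nat_lit 0) (nat_lit 3907226852) (nat_lit 1444) (nat_lit 3850843900) (nat_lit 1520) (nat_lit 531613471) (nat_lit 598) (nat_lit 5) (nat_lit 617) (nat_lit 5) (nat_lit 618) (nat_lit 5) (nat_lit 556) (nat_lit 546) (nat_lit 458)))) (XT.nd (nat_lit 156) (nat_lit 1444) (nat_lit 0) (XT.nd (nat_lit 78) (nat_lit 0) (nat_lit 0) (XT.lf (nat_lit 76) (nat_lit 543813118) (nat_lit 0) (nat_lit 4776376152) (nat_lit 1520) (nat_lit 3033131846) (nat_lit 599) (nat_lit 5) (nat_lit 598) (nat_lit 5) (nat_lit 618) (nat_lit 5) (nat_lit 557) (nat_lit 546) (nat_lit 457)) (XT.lf (nat_lit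 76) (nat_lit 5059403585) (nat_lit 0) (nat_lit 1698381720) (nat_lit 1520) (nat_lit 1660518979) (nat_lit 599) (nat_lit 5) (nat_lit 598) (nat_lit 5) (nat_lit 618) (nat_lit 5) (nat_lit 558) (nat_lit 546) (nat_lit 456))) (XT.nd (nat_lit 78) (nat_lit 1520) (nat_lit 0) (XT.lf (nat_lit 76) (nat_lit 1167242661) (nat_lit 0) (nat_lit 7045002735) (nat_lit 1520) (nat_lit 272580482) (nat_lit 600) (nat_lit 5) (nat_lit 599) (nat_lit 5) (nat_lit 619) (nat_lit 5) (nat_lit 559) (nat_lit 546) (nat_lit 455)) (XT.lf (nat_lit 0) (nat_lit 1133488913) (nat_lit 1520) (nat_lit 2761286636) (nat_lit 1596) (nat_lit 4657647599) (nat_lit 579) (nat_lit 5) (nat_lit 599) (nat_lit 5) (nat_lit 600) (nat_lit 5) (nat_lit 560) (nat_lit 546) (nat_lit 454))))))))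
noncomputable def xc114 : XT := (XT.nd (nat_lit 2418) (nat_lit 11704) (nat_lit 0) (XT.nd (nat_lit 1170) (nat_lit 8132) (nat_lit 0) (XT.nd (nat_lit 546) (nat_lit 6764) (nat_lit 0) (XT.nd (nat_lit 234) (nat_lit 1444) (nat_lit 0) (XT.nd (nat_lit 78) (nat_lit 0) (nat_lit 76) (XT.lf (nat_lit 76) (nat_lit 1889821449) (nat_lit 0) (nat_lit 658469515) (nat_lit 1596) (nat_lit 6073361091) (nat_lit 580) (nat_lit 5) (nat_lit 579) (nat_lit 5) (nat_lit 600) (nat_lit 5) (nat_lit 561) (nat_lit 546) (nat_lit 453)) (XT.nd (nat_lit 78) (nat_lit 0) (nat_lit 0) (XT.lf (nat_lit 0) (nat_lit 3999665936) (nat_lit 1520) (nat_lit 2057568279) (nat_lit 1596) (nat_lit 2634866716) (nat_lit 580) (nat_lit 5) (nat_lit 600) (nat_lit 5) (nat_lit 601) (nat_lit 5) (nat_lit 562) (nat_lit 546) (nat_lit 452)) (XT.lf (nat_lit 76) (nat_lit 2722132559) (nat_lit 0) (nat_lit 2752977533) (nat_lit 1596) (nat_lit 3288948771) (nat_lit 581) (nat_lit 5) (nat_lit 580) (nat_lit 5) (nat_lit 601) (nat_lit 5)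 (nat_lit 563) (nat_lit 546) (nat_lit 451)))) (XT.nd (nat_lit 156) (nat_lit 1596) (nat_lit 0) (XT.nd (nat_lit 78) (nat_lit 0) (nat_lit 0) (XT.lf (nat_lit 0) (nat_lit 6971429156) (nat_lit 1520) (nat_lit 1235801263) (nat_lit 1596) (nat_lit 630399106) (nat_lit 581) (nat_lit 5) (nat_lit 601) (nat_lit 5) (nat_lit 602) (nat_lit 5) (nat_lit 564) (nat_lit 546) (nat_lit 450)) (XT.lf (nat_lit 76) (nat_lit 3676988045) (nat_lit 0) (nat_lit 4836770934) (nat_lit 1596) (nat_lit 398591810) (nat_lit 582) (nat_lit 5) (nat_lit 581) (nat_lit 5) (nat_lit 602) (nat_lit 5) (nat_lit 565) (nat_lit 546) (nat_lit 449))) (XT.nd (nat_lit 78) (nat_lit 0) (nat_lit 76) (XT.lf (nat_lit 0) (nat_lit 1066504835) (nat_lit 1596) (nat_lit 310468915) (nat_lit 1672) (nat_lit 7611800120) (nat_lit 560) (nat_lit 5) (nat_lit 581) (nat_lit 5) (nat_lit 582) (nat_lit 5) (nat_lit 566) (nat_lit 546) (nat_lit 448)) (XT.lf (nat_lit 0) (nat_lit 2575365834) (nat_lit 1596) (nat_lit 4327452606) (nat_lit 1672)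 (nat_lit 2163459112) (nat_lit 561) (nat_lit 5) (nat_lit 582) (nat_lit 5) (nat_lit 583) (nat_lit 5) (nat_lit 567) (nat_lit 546) (nat_lit 447))))) (XT.nd (nat_lit 312) (nat_lit 5320) (nat_lit 0) (XT.nd (nat_lit 156) (nat_lit 1520) (nat_lit 0) (XT.nd (nat_lit 78) (nat_lit 0) (nat_lit 76) (XT.lf (nat_lit 76) (nat_lit 728757298) (nat_lit 0) (nat_lit 3376703223) (nat_lit 1672) (nat_lit 5040050466) (nat_lit 562) (nat_lit 5) (nat_lit 561) (nat_lit 5) (nat_lit 583) (nat_lit 5) (nat_lit 568) (nat_lit 546) (nat_lit 446)) (XT.lf (nat_lit 0) (nat_lit 5672318835) (nat_lit 1596) (nat_lit 3302702719) (nat_lit 76) (nat_lit 251185097) (nat_lit 562) (nat_lit 5) (nat_lit 583) (nat_lit 5) (nat_lit 563) (nat_lit 5) (nat_lit 569) (nat_lit 546) (nat_lit 445))) (XT.nd (nat_lit 78) (nat_lit 0) (nat_lit 0) (XT.lf (nat_lit 0) (nat_lit 1896447781) (nat_lit 1596) (nat_lit 5384724130) (nat_lit 1672) (nat_lit 2027131942) (nat_lit 541) (nat_lit 5) (nat_lit 562) (nat_lit 5) (nat_lit 563)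 (nat_lit 5) (nat_lit 570) (nat_lit 546) (nat_lit 444)) (XT.lf (nat_lit 0) (nat_lit 7224788373) (nat_lit 1596) (nat_lit 1695902801) (nat_lit 1672) (nat_lit 471382804) (nat_lit 541) (nat_lit 5) (nat_lit 562) (nat_lit 5) (nat_lit 563) (nat_lit 5) (nat_lit 571) (nat_lit 546) (nat_lit 443)))) (XT.nd (nat_lit 156) (nat_lit 3572) (nat_lit 0) (XT.nd (nat_lit 78) (nat_lit 0) (nat_lit 0) (XT.lf (nat_lit 0) (nat_lit 1111876032) (nat_lit 1748) (nat_lit 6293678001) (nat_lit 76) (nat_lit 2071600869) (nat_lit 518) (nat_lit 5) (nat_lit 541) (nat_lit 5) (nat_lit 519) (nat_lit 5) (nat_lit 572) (nat_lit 546) (nat_lit 442)) (XT.lf (nat_lit 0) (nat_lit 2723357457) (nat_lit 1748) (nat_lit 927309528) (nat_lit 76) (nat_lit 5913151476) (nat_lit 518) (nat_lit 5) (nat_lit 541) (nat_lit 5) (nat_lit 519) (nat_lit 5) (nat_lit 573) (nat_lit 546) (nat_lit 441))) (XT.nd (nat_lit 78) (nat_lit 1824) (nat_lit 0) (XT.lf (nat_lit 0) (nat_lit 4375675919) (nat_lit 1824) (nat_lit 5066363666)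 (nat_lit 76) (nat_lit 210004263) (nat_lit 495) (nat_lit 5) (nat_lit 519) (nat_lit 5) (nat_lit 496) (nat_lit 5) (nat_lit 574) (nat_lit 546) (nat_lit 440)) (XT.lf (nat_lit 0) (nat_lit 441367354) (nat_lit 1824) (nat_lit 5630758650) (nat_lit 1900) (nat_lit 3669686724) (nat_lit 471) (nat_lit 5) (nat_lit 495) (nat_lit 5) (nat_lit 496) (nat_lit 5) (nat_lit 575) (nat_lit 546) (nat_lit 439)))))) (XT.nd (nat_lit 624) (nat_lit 4180) (nat_lit 0) (XT.nd (nat_lit 312) (nat_lit 1824) (nat_lit 0) (XT.nd (nat_lit 156) (nat_lit 988) (nat_lit 0) (XT.nd (nat_lit 78) (nat_lit 1140) (nat_lit 0) (XT.lf (nat_lit 0) (nat_lit 6108265341) (nat_lit 1824) (nat_lit 1706324810) (nat_lit 1900) (nat_lit 2018545811) (nat_lit 471) (nat_lit 5) (nat_lit 495) (nat_lit 5) (nat_lit 496) (nat_lit 5) (nat_lit 576) (nat_lit 546) (nat_lit 438)) (XT.lf (nat_lit 0) (nat_lit 1953198506) (nat_lit 1140) (nat_lit 7644828646) (nat_lit 1216) (nat_lit 328136699) (nat_lit 456) (nat_lit 5) (nat_lit 471) (nat_lit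 5) (nat_lit 472) (nat_lit 5) (nat_lit 577) (nat_lit 546) (nat_lit 437))) (XT.nd (nat_lit 78) (nat_lit 912) (nat_lit 0) (XT.lf (nat_lit 0) (nat_lit 1392916237) (nat_lit 1216) (nat_lit 2265638543) (nat_lit 76) (nat_lit 6362013962) (nat_lit 455) (nat_lit 5) (nat_lit 471) (nat_lit 5) (nat_lit 456) (nat_lit 5) (nat_lit 578) (nat_lit 546) (nat_lit 436)) (XT.lf (nat_lit 0) (nat_lit 3149176586) (nat_lit 988) (nat_lit 6538452799) (nat_lit 76) (nat_lit 429085990) (nat_lit 443) (nat_lit 5) (nat_lit 456) (nat_lit 5) (nat_lit 444) (nat_lit 5) (nat_lit 579) (nat_lit 546) (nat_lit 435)))) (XT.nd (nat_lit 156) (nat_lit 912) (nat_lit 0) (XT.nd (nat_lit 78) (nat_lit 912) (nat_lit 0) (XT.lf (nat_lit 0) (nat_lit 4959489431) (nat_lit 988) (nat_lit 688837242) (nat_lit 76) (nat_lit 4566080334) (nat_lit 443) (nat_lit 5) (nat_lit 456) (nat_lit 5) (nat_lit 444) (nat_lit 5) (nat_lit 580) (nat_lit 546) (nat_lit 434)) (XT.lf (nat_lit 0) (nat_lit 5328259655) (nat_lit 912) (nat_lit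 1492141648) (nat_lit 988) (nat_lit 3493363915) (nat_lit 431) (nat_lit 5) (nat_lit 443) (nat_lit 5) (nat_lit 444) (nat_lit 5) (nat_lit 581) (nat_lit 546) (nat_lit 433))) (XT.nd (nat_lit 78) (nat_lit 76) (nat_lit 0) (XT.lf (nat_lit 0) (nat_lit 1036070923) (nat_lit 836) (nat_lit 7691750389) (nat_lit 912) (nat_lit 1687104073) (nat_lit 420) (nat_lit 5) (nat_lit 431) (nat_lit 5) (nat_lit 432) (nat_lit 5) (nat_lit 582) (nat_lit 546) (nat_lit 432)) (XT.lf (nat_lit 0) (nat_lit 177009693) (nat_lit 912) (nat_lit 3302694567) (nat_lit 76) (nat_lit 7037909593) (nat_lit 419) (nat_lit 5) (nat_lit 431) (nat_lit 5) (nat_lit 420) (nat_lit 5) (nat_lit 583) (nat_lit 546) (nat_lit 431))))) (XT.nd (nat_lit 312) (nat_lit 1596) (nat_lit 0) (XT.nd (nat_lit 156) (nat_lit 1672) (nat_lit 0) (XT.nd (nat_lit 78) (nat_lit 0) (nat_lit 0) (XT.lf (nat_lit 0) (nat_lit 2060776523) (nat_lit 988) (nat_lit 7725176832) (nat_lit 76) (nat_lit 836081033) (nat_lit 407) (nat_lit 5) (nat_lit 420) (nat_lit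 5) (nat_lit 408) (nat_lit 5) (nat_lit 584) (nat_lit 546) (nat_lit 430)) (XT.lf (nat_lit 0) (nat_lit 4008421786) (nat_lit 988) (nat_lit 1505790513) (nat_lit 76) (nat_lit 5213807516) (nat_lit 407) (nat_lit 5) (nat_lit 420) (nat_lit 5) (nat_lit 408) (nat_lit 5) (nat_lit 585) (nat_lit 546) (nat_lit 429))) (XT.nd (nat_lit 78) (nat_lit 836) (nat_lit 0) (XT.lf (nat_lit 0) (nat_lit 4882738307) (nat_lit 836) (nat_lit 1125208237) (nat_lit 912) (nat_lit 4827920411) (nat_lit 396) (nat_lit 5) (nat_lit 407) (nat_lit 5) (nat_lit 408) (nat_lit 5) (nat_lit 586) (nat_lit 546) (nat_lit 428)) (XT.lf (nat_lit 0) (nat_lit 438175878) (nat_lit 836) (nat_lit 7625527393) (nat_lit 912) (nat_lit 2881843459) (nat_lit 385) (nat_lit 5) (nat_lit 396) (nat_lit 5) (nat_lit 397) (nat_lit 5) (nat_lit 587) (nat_lit 546) (nat_lit 427)))) (XT.nd (nat_lit 156) (nat_lit 760) (nat_lit 0) (XT.nd (nat_lit 78) (nat_lit 836) (nat_lit 0) (XT.lf (nat_lit 0) (nat_lit 7011056975) (nat_lit 836) (nat_lit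 3178571316) (nat_lit 912) (nat_lit 867211261) (nat_lit 385) (nat_lit 5) (nat_lit 396) (nat_lit 5) (nat_lit 397) (nat_lit 5) (nat_lit 588) (nat_lit 546) (nat_lit 426)) (XT.lf (nat_lit 0) (nat_lit 1179609750) (nat_lit 836) (nat_lit 8627665323) (nat_lit 76) (nat_lit 1362779957) (nat_lit 374) (nat_lit 5) (nat_lit 385) (nat_lit 5) (nat_lit 375) (nat_lit 5) (nat_lit 589) (nat_lit 546) (nat_lit 425))) (XT.nd (nat_lit 78) (nat_lit 760) (nat_lit 0) (XT.lf (nat_lit 0) (nat_lit 3286308136) (nat_lit 836) (nat_lit 2014274941) (nat_lit 76) (nat_lit 5984226519) (nat_lit 374) (nat_lit 5) (nat_lit 385) (nat_lit 5) (nat_lit 375) (nat_lit 5) (nat_lit 590) (nat_lit 546) (nat_lit 424)) (XT.lf (nat_lit 0) (nat_lit 4774911841) (nat_lit 760) (nat_lit 673743083) (nat_lit 836) (nat_lit 5952934516) (nat_lit 364) (nat_lit 5) (nat_lit 374) (nat_lit 5) (nat_lit 375) (nat_lit 5) (nat_lit 591) (nat_lit 546) (nat_lit 423))))))) (XT.nd (nat_lit 1170) (nat_lit 5396) (nat_lit 0) (XT.nd (nat_lit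 546) (nat_lit 3344) (nat_lit 0) (XT.nd (nat_lit 234) (nat_lit 1368) (nat_lit 0) (XT.nd (nat_lit 78) (nat_lit 836) (nat_lit 0) (XT.lf (nat_lit 0) (nat_lit 163231827) (nat_lit 760) (nat_lit 7514671147) (nat_lit 836) (nat_lit 3842329284) (nat_lit 354) (nat_lit 5) (nat_lit 364) (nat_lit 5) (nat_lit 365) (nat_lit 5) (nat_lit 592) (nat_lit 546) (nat_lit 422)) (XT.nd (nat_lit 78) (nat_lit 836) (nat_lit 0) (XT.lf (nat_lit 0) (nat_lit 7155067258) (nat_lit 760) (nat_lit 2828505247) (nat_lit 836) (nat_lit 1657039154) (nat_lit 354) (nat_lit 5) (nat_lit 364) (nat_lit 5) (nat_lit 365) (nat_lit 5) (nat_lit 593) (nat_lit 546) (nat_lit 421)) (XT.lf (nat_lit 0) (nat_lit 576854696) (nat_lit 836) (nat_lit 9242288340) (nat_lit 76) (nat_lit 1943933795) (nat_lit 343) (nat_lit 5) (nat_lit 354) (nat_lit 5) (nat_lit 344) (nat_lit 5) (nat_lit 594) (nat_lit 546) (nat_lit 420)))) (XT.nd (nat_lit 156) (nat_lit 684) (nat_lit 0) (XT.nd (nat_lit 78) (nat_lit 684) (nat_lit 0) (XT.lf (nat_lit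 0) (nat_lit 2865642591) (nat_lit 836) (nat_lit 2208462264) (nat_lit 76) (nat_lit 6813019740) (nat_lit 343) (nat_lit 5) (nat_lit 354) (nat_lit 5) (nat_lit 344) (nat_lit 5) (nat_lit 595) (nat_lit 546) (nat_lit 419)) (XT.lf (nat_lit 0) (nat_lit 5012944024) (nat_lit 684) (nat_lit 203487671) (nat_lit 760) (nat_lit 6796897532) (nat_lit 334) (nat_lit 5) (nat_lit 343) (nat_lit 5) (nat_lit 344) (nat_lit 5) (nat_lit 596) (nat_lit 546) (nat_lit 418))) (XT.nd (nat_lit 78) (nat_lit 0) (nat_lit 0) (XT.lf (nat_lit 0) (nat_lit 219778853) (nat_lit 684) (nat_lit 7425597090) (nat_lit 760) (nat_lit 4496059635) (nat_lit 325) (nat_lit 5) (nat_lit 334) (nat_lit 5) (nat_lit 335) (nat_lit 5) (nat_lit 597) (nat_lit 546) (nat_lit 417)) (XT.lf (nat_lit 0) (nat_lit 7658973858) (nat_lit 684) (nat_lit 2496293746) (nat_lit 760) (nat_lit 2116189485) (nat_lit 325) (nat_lit 5) (nat_lit 334) (nat_lit 5) (nat_lit 335) (nat_lit 5) (nat_lit 598) (nat_lit 546) (nat_lit 416))))) (XT.nd (nat_lit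 312) (nat_lit 1292) (nat_lit 0) (XT.nd (nat_lit 156) (nat_lit 1292) (nat_lit 0) (XT.nd (nat_lit 78) (nat_lit 0) (nat_lit 0) (XT.lf (nat_lit 0) (nat_lit 326578082) (nat_lit 760) (nat_lit 9560916811) (nat_lit 76) (nat_lit 2516156457) (nat_lit 315) (nat_lit 5) (nat_lit 325) (nat_lit 5) (nat_lit 316) (nat_lit 5) (nat_lit 599) (nat_lit 546) (nat_lit 415)) (XT.lf (nat_lit 0) (nat_lit 2822010732) (nat_lit 760) (nat_lit 2077947655) (nat_lit 76) (nat_lit 7637608819) (nat_lit 315) (nat_lit 5) (nat_lit 325) (nat_lit 5) (nat_lit 316) (nat_lit 5) (nat_lit 600) (nat_lit 546) (nat_lit 414))) (XT.nd (nat_lit 78) (nat_lit 608) (nat_lit 0) (XT.lf (nat_lit 0) (nat_lit 5389945673) (nat_lit 760) (nat_lit 7065456852) (nat_lit 76) (nat_lit 218307355) (nat_lit 306) (nat_lit 5) (nat_lit 316) (nat_lit 5) (nat_lit 307) (nat_lit 5) (nat_lit 601) (nat_lit 546) (nat_lit 413)) (XT.lf (nat_lit 0) (nat_lit 620956009) (nat_lit 608) (nat_lit 7423695023) (nat_lit 684) (nat_lit 4767216509)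 (nat_lit 298) (nat_lit 5) (nat_lit 306) (nat_lit 5) (nat_lit 307) (nat_lit 5) (nat_lit 602) (nat_lit 546) (nat_lit 412)))) (XT.nd (nat_lit 156) (nat_lit 608) (nat_lit 0) (XT.nd (nat_lit 78) (nat_lit 684) (nat_lit 0) (XT.lf (nat_lit 0) (nat_lit 8538300375) (nat_lit 608) (nat_lit 2246632226) (nat_lit 684) (nat_lit 2167206471) (nat_lit 298) (nat_lit 5) (nat_lit 306) (nat_lit 5) (nat_lit 307) (nat_lit 5) (nat_lit 603) (nat_lit 546) (nat_lit 411)) (XT.lf (nat_lit 0) (nat_lit 506566141) (nat_lit 684) (nat_lit 9571134644) (nat_lit 76) (nat_lit 3016890227) (nat_lit 289) (nat_lit 5) (nat_lit 298) (nat_lit 5) (nat_lit 290) (nat_lit 5) (nat_lit 604) (nat_lit 546) (nat_lit 410))) (XT.nd (nat_lit 78) (nat_lit 608) (nat_lit 0) (XT.lf (nat_lit 0) (nat_lit 3234926872) (nat_lit 684) (nat_lit 1607947754) (nat_lit 76) (nat_lit 8396128568) (nat_lit 289) (nat_lit 5) (nat_lit 298) (nat_lit 5) (nat_lit 290) (nat_lit 5) (nat_lit 605) (nat_lit 546) (nat_lit 409)) (XT.lf (nat_lit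 0) (nat_lit 6049772951) (nat_lit 684) (nat_lit 6806567768) (nat_lit 76) (nat_lit 529324869) (nat_lit 281) (nat_lit 5) (nat_lit 290) (nat_lit 5) (nat_lit 282) (nat_lit 5) (nat_lit 606) (nat_lit 546) (nat_lit 408)))))) (XT.nd (nat_lit 624) (nat_lit 2432) (nat_lit 0) (XT.nd (nat_lit 312) (nat_lit 1748) (nat_lit 0) (XT.nd (nat_lit 156) (nat_lit 608) (nat_lit 0) (XT.nd (nat_lit 78) (nat_lit 0) (nat_lit 0) (XT.lf (nat_lit 0) (nat_lit 1384323576) (nat_lit 608) (nat_lit 7574348447) (nat_lit 684) (nat_lit 4575834411) (nat_lit 273) (nat_lit 5) (nat_lit 281) (nat_lit 5) (nat_lit 282) (nat_lit 5) (nat_lit 607) (nat_lit 546) (nat_lit 407)) (XT.lf (nat_lit 0) (nat_lit 9813094481) (nat_lit 608) (nat_lit 2144324290) (nat_lit 684) (nat_lit 1728272252) (nat_lit 273) (nat_lit 5) (nat_lit 281) (nat_lit 5) (nat_lit 282) (nat_lit 5) (nat_lit 608) (nat_lit 546) (nat_lit 406))) (XT.nd (nat_lit 78) (nat_lit 0) (nat_lit 0) (XT.lf (nat_lit 0) (nat_lit 1199151772) (nat_lit 608) (nat_lit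 9256411249) (nat_lit 76) (nat_lit 3383417105) (nat_lit 265) (nat_lit 5) (nat_lit 273) (nat_lit 5) (nat_lit 266) (nat_lit 5) (nat_lit 609) (nat_lit 546) (nat_lit 405)) (XT.lf (nat_lit 0) (nat_lit 4188669037) (nat_lit 608) (nat_lit 779459680) (nat_lit 76) (nat_lit 9026444391) (nat_lit 265) (nat_lit 5) (nat_lit 273) (nat_lit 5) (nat_lit 266) (nat_lit 5) (nat_lit 610) (nat_lit 546) (nat_lit 404)))) (XT.nd (nat_lit 156) (nat_lit 608) (nat_lit 0) (XT.nd (nat_lit 78) (nat_lit 532) (nat_lit 0) (XT.lf (nat_lit 0) (nat_lit 7280587277) (nat_lit 684) (nat_lit 6203370376) (nat_lit 76) (nat_lit 668468378) (nat_lit 257) (nat_lit 5) (nat_lit 266) (nat_lit 5) (nat_lit 258) (nat_lit 5) (nat_lit 611) (nat_lit 546) (nat_lit 403)) (XT.lf (nat_lit 0) (nat_lit 2531721758) (nat_lit 532) (nat_lit 7943919469) (nat_lit 608) (nat_lit 3836969128) (nat_lit 250) (nat_lit 5) (nat_lit 257) (nat_lit 5) (nat_lit 258) (nat_lit 5) (nat_lit 612) (nat_lit 546) (nat_lit 402))) (XT.nd (nat_lit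 78) (nat_lit 608) (nat_lit 0) (XT.lf (nat_lit 0) (nat_lit 11507800212) (nat_lit 532) (nat_lit 2255262243) (nat_lit 608) (nat_lit 712366870) (nat_lit 250) (nat_lit 5) (nat_lit 257) (nat_lit 5) (nat_lit 258) (nat_lit 5) (nat_lit 613) (nat_lit 546) (nat_lit 401)) (XT.lf (nat_lit 0) (nat_lit 2492045415) (nat_lit 608) (nat_lit 8596242849) (nat_lit 76) (nat_lit 3551899842) (nat_lit 242) (nat_lit 5) (nat_lit 250) (nat_lit 5) (nat_lit 243) (nat_lit 5) (nat_lit 614) (nat_lit 546) (nat_lit 400))))) (XT.nd (nat_lit 312) (nat_lit 1368) (nat_lit 0) (XT.nd (nat_lit 156) (nat_lit 608) (nat_lit 0) (XT.nd (nat_lit 78) (nat_lit 0) (nat_lit 0) (XT.lf (nat_lit 0) (nat_lit 436333239) (nat_lit 456) (nat_lit 5339619123) (nat_lit 532) (nat_lit 9031696892) (nat_lit 236) (nat_lit 5) (nat_lit 242) (nat_lit 5) (nat_lit 243) (nat_lit 5) (nat_lit 615) (nat_lit 546) (nat_lit 399)) (XT.lf (nat_lit 0) (nat_lit 9174234888) (nat_lit 532) (nat_lit 5232850368) (nat_lit 76) (nat_lit 570400682)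 (nat_lit 236) (nat_lit 5) (nat_lit 243) (nat_lit 5) (nat_lit 237) (nat_lit 5) (nat_lit 616) (nat_lit 546) (nat_lit 398))) (XT.nd (nat_lit 78) (nat_lit 76) (nat_lit 0) (XT.lf (nat_lit 0) (nat_lit 4089157514) (nat_lit 532) (nat_lit 8600715017) (nat_lit 608) (nat_lit 2459859292) (nat_lit 229) (nat_lit 5) (nat_lit 236) (nat_lit 5) (nat_lit 237) (nat_lit 5) (nat_lit 617) (nat_lit 546) (nat_lit 397)) (XT.lf (nat_lit 0) (nat_lit 960811978) (nat_lit 608) (nat_lit 1680131563) (nat_lit 76) (nat_lit 12683898392) (nat_lit 228) (nat_lit 5) (nat_lit 236) (nat_lit 5) (nat_lit 229) (nat_lit 5) (nat_lit 618) (nat_lit 546) (nat_lit 396)))) (XT.nd (nat_lit 156) (nat_lit 456) (nat_lit 0) (XT.nd (nat_lit 78) (nat_lit 456) (nat_lit 0) (XT.lf (nat_lit 0) (nat_lit 4479176683) (nat_lit 532) (nat_lit 7566270908) (nat_lit 76) (nat_lit 3456437352) (nat_lit 222) (nat_lit 5) (nat_lit 229) (nat_lit 5) (nat_lit 223) (nat_lit 5) (nat_lit 619) (nat_lit 546) (nat_lit 395)) (XT.lf (nat_lit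 0) (nat_lit 2076577319) (nat_lit 456) (nat_lit 6021522341) (nat_lit 532) (nat_lit 7583765570) (nat_lit 216) (nat_lit 5) (nat_lit 222) (nat_lit 5) (nat_lit 223) (nat_lit 5) (nat_lit 620) (nat_lit 546) (nat_lit 394))) (XT.nd (nat_lit 78) (nat_lit 456) (nat_lit 0) (XT.lf (nat_lit 0) (nat_lit 11829271009) (nat_lit 532) (nat_lit 3868110149) (nat_lit 76) (nat_lit 167266800) (nat_lit 216) (nat_lit 5) (nat_lit 223) (nat_lit 5) (nat_lit 217) (nat_lit 5) (nat_lit 621) (nat_lit 546) (nat_lit 393)) (XT.lf (nat_lit 0) (nat_lit 6086711136) (nat_lit 456) (nat_lit 9615949455) (nat_lit 532) (nat_lit 347074080) (nat_lit 210) (nat_lit 5) (nat_lit 216) (nat_lit 5) (nat_lit 217) (nat_lit 5) (nat_lit 622) (nat_lit 546) (nat_lit 392))))))))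
noncomputable def xc115 : XT := (XT.nd (nat_lit 76206) (nat_lit 0) (nat_lit 18164) (XT.nd (nat_lit 1170) (nat_lit 1064) (nat_lit 0) (XT.nd (nat_lit 546) (nat_lit 2052) (nat_lit 0) (XT.nd (nat_lit 234) (nat_lit 912) (nat_lit 0) (XT.nd (nat_lit 78) (nat_lit 380) (nat_lit 0) (XT.lf (nat_lit 0) (nat_lit 15826360) (nat_lit 456) (nat_lit 3368853992) (nat_lit 532) (nat_lit 12853110063) (nat_lit 203) (nat_lit 5) (nat_lit 209) (nat_lit 5) (nat_lit 210) (nat_lit 5) (nat_lit 623) (nat_lit 546) (nat_lit 391)) (XT.nd (nat_lit 78) (nat_lit 380) (nat_lit 0) (XT.lf (nat_lit 0) (nat_lit 7261553100) (nat_lit 532) (nat_lit 6138386204) (nat_lit 76) (nat_lit 3028119689) (nat_lit 203) (nat_lit 5) (nat_lit 210) (nat_lit 5) (nat_lit 204) (nat_lit 5) (nat_lit 624) (nat_lit 546) (nat_lit 390)) (XT.lf (nat_lit 0) (nat_lit 4162298271) (nat_lit 380) (nat_lit 7091556244) (nat_lit 456) (nat_lit 5367520815) (nat_lit 198) (nat_lit 5) (nat_lit 203) (nat_lit 5) (nat_lit 204) (nat_lit 5)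 (nat_lit 625) (nat_lit 546) (nat_lit 389)))) (XT.nd (nat_lit 156) (nat_lit 380) (nat_lit 0) (XT.nd (nat_lit 78) (nat_lit 532) (nat_lit 0) (XT.lf (nat_lit 0) (nat_lit 14735470761) (nat_lit 380) (nat_lit 620395260) (nat_lit 456) (nat_lit 1462094898) (nat_lit 198) (nat_lit 5) (nat_lit 203) (nat_lit 5) (nat_lit 204) (nat_lit 5) (nat_lit 626) (nat_lit 546) (nat_lit 388)) (XT.lf (nat_lit 0) (nat_lit 2572176036) (nat_lit 532) (nat_lit 8475281676) (nat_lit 76) (nat_lit 5969017174) (nat_lit 191) (nat_lit 5) (nat_lit 198) (nat_lit 5) (nat_lit 192) (nat_lit 5) (nat_lit 627) (nat_lit 546) (nat_lit 387))) (XT.nd (nat_lit 78) (nat_lit 0) (nat_lit 0) (XT.lf (nat_lit 0) (nat_lit 2185041150) (nat_lit 380) (nat_lit 4503792696) (nat_lit 456) (nat_lit 10529506616) (nat_lit 186) (nat_lit 5) (nat_lit 191) (nat_lit 5) (nat_lit 192) (nat_lit 5) (nat_lit 628) (nat_lit 546) (nat_lit 386)) (XT.lf (nat_lit 0) (nat_lit 10948141623) (nat_lit 456) (nat_lit 4280827522) (nat_lit 76) (nat_lit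 2194068058) (nat_lit 186) (nat_lit 5) (nat_lit 192) (nat_lit 5) (nat_lit 187) (nat_lit 5) (nat_lit 629) (nat_lit 546) (nat_lit 385))))) (XT.nd (nat_lit 312) (nat_lit 836) (nat_lit 0) (XT.nd (nat_lit 156) (nat_lit 380) (nat_lit 0) (XT.nd (nat_lit 78) (nat_lit 456) (nat_lit 0) (XT.lf (nat_lit 0) (nat_lit 6728737248) (nat_lit 380) (nat_lit 8626601041) (nat_lit 456) (nat_lit 2275235723) (nat_lit 181) (nat_lit 5) (nat_lit 186) (nat_lit 5) (nat_lit 187) (nat_lit 5) (nat_lit 630) (nat_lit 546) (nat_lit 384)) (XT.lf (nat_lit 0) (nat_lit 147119061) (nat_lit 380) (nat_lit 1854053691) (nat_lit 456) (nat_lit 15840446260) (nat_lit 175) (nat_lit 5) (nat_lit 180) (nat_lit 5) (nat_lit 181) (nat_lit 5) (nat_lit 631) (nat_lit 546) (nat_lit 383))) (XT.nd (nat_lit 78) (nat_lit 380) (nat_lit 0) (XT.lf (nat_lit 0) (nat_lit 6428420542) (nat_lit 456) (nat_lit 6555439582) (nat_lit 76) (nat_lit 5070808649) (nat_lit 175) (nat_lit 5) (nat_lit 181) (nat_lit 5) (nat_lit 176) (nat_lit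 5) (nat_lit 632) (nat_lit 546) (nat_lit 382)) (XT.lf (nat_lit 0) (nat_lit 4841460065) (nat_lit 380) (nat_lit 6135968599) (nat_lit 456) (nat_lit 7293886730) (nat_lit 170) (nat_lit 5) (nat_lit 175) (nat_lit 5) (nat_lit 176) (nat_lit 5) (nat_lit 633) (nat_lit 546) (nat_lit 381)))) (XT.nd (nat_lit 156) (nat_lit 380) (nat_lit 0) (XT.nd (nat_lit 78) (nat_lit 456) (nat_lit 0) (XT.lf (nat_lit 0) (nat_lit 15656777984) (nat_lit 456) (nat_lit 1958284623) (nat_lit 76) (nat_lit 876445288) (nat_lit 170) (nat_lit 5) (nat_lit 176) (nat_lit 5) (nat_lit 171) (nat_lit 5) (nat_lit 634) (nat_lit 546) (nat_lit 380)) (XT.lf (nat_lit 0) (nat_lit 1785891676) (nat_lit 456) (nat_lit 8911071870) (nat_lit 76) (nat_lit 8017023226) (nat_lit 164) (nat_lit 5) (nat_lit 170) (nat_lit 5) (nat_lit 165) (nat_lit 5) (nat_lit 635) (nat_lit 546) (nat_lit 379))) (XT.nd (nat_lit 78) (nat_lit 0) (nat_lit 0) (XT.lf (nat_lit 0) (nat_lit 2888313801) (nat_lit 380) (nat_lit 3594474354) (nat_lit 456)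 (nat_lit 12457316091) (nat_lit 159) (nat_lit 5) (nat_lit 164) (nat_lit 5) (nat_lit 165) (nat_lit 5) (nat_lit 636) (nat_lit 546) (nat_lit 378)) (XT.lf (nat_lit 0) (nat_lit 11347378132) (nat_lit 456) (nat_lit 4165161683) (nat_lit 76) (nat_lit 3656729298) (nat_lit 159) (nat_lit 5) (nat_lit 165) (nat_lit 5) (nat_lit 160) (nat_lit 5) (nat_lit 637) (nat_lit 546) (nat_lit 377)))))) (XT.nd (nat_lit 74412) (nat_lit 0) (nat_lit 34276) (XT.nd (nat_lit 74100) (nat_lit 0) (nat_lit 35568) (XT.nd (nat_lit 156) (nat_lit 304) (nat_lit 0) (XT.nd (nat_lit 78) (nat_lit 456) (nat_lit 0) (XT.lf (nat_lit 0) (nat_lit 8024959632) (nat_lit 304) (nat_lit 8350269802) (nat_lit 380) (nat_lit 3026468607) (nat_lit 155) (nat_lit 5) (nat_lit 159) (nat_lit 5) (nat_lit 160) (nat_lit 5) (nat_lit 638) (nat_lit 546) (nat_lit 376)) (XT.lf (nat_lit 0) (nat_lit 860405035) (nat_lit 380) (nat_lit 1003811084) (nat_lit 456) (nat_lit 17773841180) (nat_lit 149) (nat_lit 5) (nat_lit 154) (nat_lit 5)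 (nat_lit 155) (nat_lit 5) (nat_lit 639) (nat_lit 546) (nat_lit 375))) (XT.nd (nat_lit 78) (nat_lit 304) (nat_lit 0) (XT.lf (nat_lit 0) (nat_lit 6921357550) (nat_lit 456) (nat_lit 6459562398) (nat_lit 76) (nat_lit 6495640491) (nat_lit 149) (nat_lit 5) (nat_lit 155) (nat_lit 5) (nat_lit 150) (nat_lit 5) (nat_lit 640) (nat_lit 546) (nat_lit 374)) (XT.lf (nat_lit 0) (nat_lit 6163619168) (nat_lit 304) (nat_lit 5953027343) (nat_lit 380) (nat_lit 8002447178) (nat_lit 145) (nat_lit 5) (nat_lit 149) (nat_lit 5) (nat_lit 150) (nat_lit 5) (nat_lit 641) (nat_lit 546) (nat_lit 373)))) (XT.nd (nat_lit 156) (nat_lit 0) (nat_lit 76) (XT.nd (nat_lit 78) (nat_lit 0) (nat_lit 0) (XT.lf (nat_lit 0) (nat_lit 463327185) (nat_lit 1444) (nat_lit 1725462547) (nat_lit 1444) (nat_lit 1725462547) (nat_lit 613) (nat_lit 3) (nat_lit 632) (nat_lit 3) (nat_lit 632) (nat_lit 5) (nat_lit 547) (nat_lit 547) (nat_lit 466)) (XT.lf (nat_lit 76) (nat_lit 455383628) (nat_lit 0) (nat_lit 1776062618)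 (nat_lit 1444) (nat_lit 5649386093) (nat_lit 614) (nat_lit 5) (nat_lit 613) (nat_lit 3) (nat_lit 632) (nat_lit 5) (nat_lit 548) (nat_lit 547) (nat_lit 465))) (XT.nd (nat_lit 78) (nat_lit 0) (nat_lit 0) (XT.lf (nat_lit 0) (nat_lit 3557430860) (nat_lit 1368) (nat_lit 3471307806) (nat_lit 1444) (nat_lit 905567299) (nat_lit 614) (nat_lit 5) (nat_lit 632) (nat_lit 5) (nat_lit 633) (nat_lit 5) (nat_lit 549) (nat_lit 547) (nat_lit 464)) (XT.lf (nat_lit 76) (nat_lit 539275202) (nat_lit 0) (nat_lit 4352677027) (nat_lit 1444) (nat_lit 3097257696) (nat_lit 615) (nat_lit 5) (nat_lit 614) (nat_lit 5) (nat_lit 633) (nat_lit 5) (nat_lit 550) (nat_lit 547) (nat_lit 463))))) (XT.nd (nat_lit 312) (nat_lit 0) (nat_lit 76) (XT.nd (nat_lit 156) (nat_lit 1368) (nat_lit 0) (XT.nd (nat_lit 78) (nat_lit 0) (nat_lit 76) (XT.lf (nat_lit 76) (nat_lit 4659291063) (nat_lit 0) (nat_lit 1584457096) (nat_lit 1444) (nat_lit 1801653302) (nat_lit 615) (nat_lit 5) (nat_lit 614) (nat_lit 5)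 (nat_lit 633) (nat_lit 5) (nat_lit 551) (nat_lit 547) (nat_lit 462)) (XT.lf (nat_lit 76) (nat_lit 742461843) (nat_lit 0) (nat_lit 6861009858) (nat_lit 1444) (nat_lit 499628448) (nat_lit 616) (nat_lit 5) (nat_lit 615) (nat_lit 5) (nat_lit 634) (nat_lit 5) (nat_lit 552) (nat_lit 547) (nat_lit 461))) (XT.nd (nat_lit 78) (nat_lit 0) (nat_lit 0) (XT.lf (nat_lit 0) (nat_lit 819263789) (nat_lit 1444) (nat_lit 3196538573) (nat_lit 1520) (nat_lit 4146010143) (nat_lit 596) (nat_lit 5) (nat_lit 615) (nat_lit 5) (nat_lit 616) (nat_lit 5) (nat_lit 553) (nat_lit 547) (nat_lit 460)) (XT.lf (nat_lit 76) (nat_lit 1043054372) (nat_lit 0) (nat_lit 1090514819) (nat_lit 1520) (nat_lit 6088550451) (nat_lit 597) (nat_lit 5) (nat_lit 596) (nat_lit 5) (nat_lit 616) (nat_lit 5) (nat_lit 554) (nat_lit 547) (nat_lit 459)))) (XT.nd (nat_lit 156) (nat_lit 0) (nat_lit 0) (XT.nd (nat_lit 78) (nat_lit 0) (nat_lit 0) (XT.lf (nat_lit 0) (nat_lit 3477565574) (nat_lit 1444) (nat_lit 2903603233)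 (nat_lit 1520) (nat_lit 1902397083) (nat_lit 597) (nat_lit 5) (nat_lit 616) (nat_lit 5) (nat_lit 617) (nat_lit 5) (nat_lit 555) (nat_lit 547) (nat_lit 458)) (XT.lf (nat_lit 76) (nat_lit 1450807073) (nat_lit 0) (nat_lit 3384393953) (nat_lit 1520) (nat_lit 3511305902) (nat_lit 598) (nat_lit 5) (nat_lit 597) (nat_lit 5) (nat_lit 617) (nat_lit 5) (nat_lit 556) (nat_lit 547) (nat_lit 457))) (XT.nd (nat_lit 78) (nat_lit 0) (nat_lit 76) (XT.lf (nat_lit 76) (nat_lit 5913418912) (nat_lit 0) (nat_lit 296640035) (nat_lit 1520) (nat_lit 2200847470) (nat_lit 598) (nat_lit 5) (nat_lit 597) (nat_lit 5) (nat_lit 617) (nat_lit 5) (nat_lit 557) (nat_lit 547) (nat_lit 456)) (XT.lf (nat_lit 76) (nat_lit 1977565615) (nat_lit 0) (nat_lit 5637443710) (nat_lit 1520) (nat_lit 861533671) (nat_lit 599) (nat_lit 5) (nat_lit 598) (nat_lit 5) (nat_lit 618) (nat_lit 5) (nat_lit 558) (nat_lit 547) (nat_lit 455))))))) (XT.nd (nat_lit 1170) (nat_lit 10184) (nat_lit 0) (XT.nd (nat_lit 546)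 (nat_lit 3192) (nat_lit 0) (XT.nd (nat_lit 234) (nat_lit 1368) (nat_lit 0) (XT.nd (nat_lit 78) (nat_lit 0) (nat_lit 76) (XT.lf (nat_lit 0) (nat_lit 488272744) (nat_lit 1520) (nat_lit 1991329489) (nat_lit 1596) (nat_lit 6064019045) (nat_lit 578) (nat_lit 5) (nat_lit 598) (nat_lit 5) (nat_lit 599) (nat_lit 5) (nat_lit 559) (nat_lit 547) (nat_lit 454)) (XT.nd (nat_lit 78) (nat_lit 0) (nat_lit 0) (XT.lf (nat_lit 0) (nat_lit 1847612905) (nat_lit 1520) (nat_lit 6000515501) (nat_lit 1596) (nat_lit 763918302) (nat_lit 579) (nat_lit 5) (nat_lit 599) (nat_lit 5) (nat_lit 600) (nat_lit 5) (nat_lit 560) (nat_lit 547) (nat_lit 453)) (XT.lf (nat_lit 0) (nat_lit 3236549433) (nat_lit 1520) (nat_lit 1383557259) (nat_lit 1596) (nat_lit 4061686693) (nat_lit 579) (nat_lit 5) (nat_lit 599) (nat_lit 5) (nat_lit 600) (nat_lit 5) (nat_lit 561) (nat_lit 547) (nat_lit 452)))) (XT.nd (nat_lit 156) (nat_lit 1444) (nat_lit 0) (XT.nd (nat_lit 78) (nat_lit 0) (nat_lit 76) (XT.lf (nat_lit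 76) (nat_lit 3351145651) (nat_lit 0) (nat_lit 1296952385) (nat_lit 1596) (nat_lit 4104941204) (nat_lit 580) (nat_lit 5) (nat_lit 579) (nat_lit 5) (nat_lit 600) (nat_lit 5) (nat_lit 562) (nat_lit 547) (nat_lit 451)) (XT.lf (nat_lit 0) (nat_lit 6084346807) (nat_lit 1520) (nat_lit 658882802) (nat_lit 1596) (nat_lit 2082551912) (nat_lit 580) (nat_lit 5) (nat_lit 600) (nat_lit 5) (nat_lit 601) (nat_lit 5) (nat_lit 563) (nat_lit 547) (nat_lit 450))) (XT.nd (nat_lit 78) (nat_lit 1520) (nat_lit 0) (XT.lf (nat_lit 76) (nat_lit 4206939441) (nat_lit 0) (nat_lit 3352339678) (nat_lit 1596) (nat_lit 1340501233) (nat_lit 581) (nat_lit 5) (nat_lit 580) (nat_lit 5) (nat_lit 601) (nat_lit 5) (nat_lit 564) (nat_lit 547) (nat_lit 449)) (XT.lf (nat_lit 0) (nat_lit 68004843) (nat_lit 1596) (nat_lit 8789595396) (nat_lit 1672) (nat_lit 118033998) (nat_lit 560) (nat_lit 5) (nat_lit 581) (nat_lit 5) (nat_lit 582) (nat_lit 5) (nat_lit 565) (nat_lit 547) (nat_lit 448))))) (XT.nd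 (nat_lit 312) (nat_lit 3192) (nat_lit 0) (XT.nd (nat_lit 156) (nat_lit 0) (nat_lit 76) (XT.nd (nat_lit 78) (nat_lit 0) (nat_lit 0) (XT.lf (nat_lit 0) (nat_lit 1515348854) (nat_lit 1596) (nat_lit 3876834618) (nat_lit 1672) (nat_lit 3660072996) (nat_lit 560) (nat_lit 5) (nat_lit 581) (nat_lit 5) (nat_lit 582) (nat_lit 5) (nat_lit 566) (nat_lit 547) (nat_lit 447)) (XT.lf (nat_lit 76) (nat_lit 1130099737) (nat_lit 0) (nat_lit 1844072891) (nat_lit 1672) (nat_lit 6156588668) (nat_lit 561) (nat_lit 5) (nat_lit 560) (nat_lit 5) (nat_lit 582) (nat_lit 5) (nat_lit 567) (nat_lit 547) (nat_lit 446))) (XT.nd (nat_lit 78) (nat_lit 0) (nat_lit 0) (XT.lf (nat_lit 0) (nat_lit 4475481965) (nat_lit 1596) (nat_lit 2951593468) (nat_lit 1672) (nat_lit 1783495398) (nat_lit 561) (nat_lit 5) (nat_lit 582) (nat_lit 5) (nat_lit 583) (nat_lit 5) (nat_lit 568) (nat_lit 547) (nat_lit 445)) (XT.lf (nat_lit 76) (nat_lit 2196119527) (nat_lit 0) (nat_lit 3813244245) (nat_lit 1672) (nat_lit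 3282562637) (nat_lit 562) (nat_lit 5) (nat_lit 561) (nat_lit 5) (nat_lit 583) (nat_lit 5) (nat_lit 569) (nat_lit 547) (nat_lit 444)))) (XT.nd (nat_lit 156) (nat_lit 1748) (nat_lit 0) (XT.nd (nat_lit 78) (nat_lit 1520) (nat_lit 0) (XT.lf (nat_lit 76) (nat_lit 7467994369) (nat_lit 0) (nat_lit 102157846) (nat_lit 1672) (nat_lit 1804833066) (nat_lit 562) (nat_lit 5) (nat_lit 561) (nat_lit 5) (nat_lit 583) (nat_lit 5) (nat_lit 570) (nat_lit 547) (nat_lit 443)) (XT.lf (nat_lit 0) (nat_lit 3387184629) (nat_lit 1596) (nat_lit 5797792065) (nat_lit 1672) (nat_lit 274272979) (nat_lit 541) (nat_lit 5) (nat_lit 562) (nat_lit 5) (nat_lit 563) (nat_lit 5) (nat_lit 571) (nat_lit 547) (nat_lit 442))) (XT.nd (nat_lit 78) (nat_lit 1672) (nat_lit 0) (XT.lf (nat_lit 0) (nat_lit 1260672726) (nat_lit 1672) (nat_lit 760074091) (nat_lit 76) (nat_lit 7524473100) (nat_lit 540) (nat_lit 5) (nat_lit 562) (nat_lit 5) (nat_lit 541) (nat_lit 5) (nat_lit 572) (nat_lit 547) (nat_lit 441))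 (XT.lf (nat_lit 0) (nat_lit 2842833873) (nat_lit 1748) (nat_lit 4945605760) (nat_lit 76) (nat_lit 1844030598) (nat_lit 518) (nat_lit 5) (nat_lit 541) (nat_lit 5) (nat_lit 519) (nat_lit 5) (nat_lit 573) (nat_lit 547) (nat_lit 440)))))) (XT.nd (nat_lit 624) (nat_lit 3572) (nat_lit 0) (XT.nd (nat_lit 312) (nat_lit 3040) (nat_lit 0) (XT.nd (nat_lit 156) (nat_lit 1824) (nat_lit 0) (XT.nd (nat_lit 78) (nat_lit 0) (nat_lit 0) (XT.lf (nat_lit 0) (nat_lit 505823145) (nat_lit 1748) (nat_lit 3950501601) (nat_lit 1824) (nat_lit 5265147765) (nat_lit 495) (nat_lit 5) (nat_lit 518) (nat_lit 5) (nat_lit 519) (nat_lit 5) (nat_lit 574) (nat_lit 547) (nat_lit 439)) (XT.lf (nat_lit 0) (nat_lit 6113475134) (nat_lit 1824) (nat_lit 3697664442) (nat_lit 76) (nat_lit 888144) (nat_lit 495) (nat_lit 5) (nat_lit 519) (nat_lit 5) (nat_lit 496) (nat_lit 5) (nat_lit 575) (nat_lit 547) (nat_lit 438))) (XT.nd (nat_lit 78) (nat_lit 0) (nat_lit 0) (XT.lf (nat_lit 0) (nat_lit 1910549972)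 (nat_lit 1824) (nat_lit 5910427301) (nat_lit 1900) (nat_lit 2083073250) (nat_lit 471) (nat_lit 5) (nat_lit 495) (nat_lit 5) (nat_lit 496) (nat_lit 5) (nat_lit 576) (nat_lit 547) (nat_lit 437)) (XT.lf (nat_lit 0) (nat_lit 7662151501) (nat_lit 1824) (nat_lit 1904229226) (nat_lit 1900) (nat_lit 431458679) (nat_lit 471) (nat_lit 5) (nat_lit 495) (nat_lit 5) (nat_lit 496) (nat_lit 5) (nat_lit 577) (nat_lit 547) (nat_lit 436)))) (XT.nd (nat_lit 156) (nat_lit 1824) (nat_lit 0) (XT.nd (nat_lit 78) (nat_lit 0) (nat_lit 0) (XT.lf (nat_lit 0) (nat_lit 1252772105) (nat_lit 1216) (nat_lit 6654058839) (nat_lit 76) (nat_lit 2186190624) (nat_lit 455) (nat_lit 5) (nat_lit 471) (nat_lit 5) (nat_lit 456) (nat_lit 5) (nat_lit 578) (nat_lit 547) (nat_lit 435)) (XT.lf (nat_lit 0) (nat_lit 2972815637) (nat_lit 1216) (nat_lit 863703546) (nat_lit 76) (nat_lit 6353373658) (nat_lit 455) (nat_lit 5) (nat_lit 471) (nat_lit 5) (nat_lit 456) (nat_lit 5) (nat_lit 579) (nat_lit 547) (nat_lit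 434))) (XT.nd (nat_lit 78) (nat_lit 912) (nat_lit 0) (XT.lf (nat_lit 0) (nat_lit 4742498460) (nat_lit 988) (nat_lit 5200225809) (nat_lit 76) (nat_lit 345673101) (nat_lit 443) (nat_lit 5) (nat_lit 456) (nat_lit 5) (nat_lit 444) (nat_lit 5) (nat_lit 580) (nat_lit 547) (nat_lit 433)) (XT.lf (nat_lit 0) (nat_lit 747380240) (nat_lit 912) (nat_lit 5816483176) (nat_lit 988) (nat_lit 3824683396) (nat_lit 431) (nat_lit 5) (nat_lit 443) (nat_lit 5) (nat_lit 444) (nat_lit 5) (nat_lit 581) (nat_lit 547) (nat_lit 432))))) (XT.nd (nat_lit 312) (nat_lit 1748) (nat_lit 0) (XT.nd (nat_lit 156) (nat_lit 988) (nat_lit 0) (XT.nd (nat_lit 78) (nat_lit 836) (nat_lit 0) (XT.lf (nat_lit 0) (nat_lit 6865542101) (nat_lit 912) (nat_lit 1571469833) (nat_lit 988) (nat_lit 2053380760) (nat_lit 431) (nat_lit 5) (nat_lit 443) (nat_lit 5) (nat_lit 444) (nat_lit 5) (nat_lit 582) (nat_lit 547) (nat_lit 431)) (XT.lf (nat_lit 0) (nat_lit 2507868936) (nat_lit 836) (nat_lit 7854794187) (nat_lit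 912) (nat_lit 231312144) (nat_lit 420) (nat_lit 5) (nat_lit 431) (nat_lit 5) (nat_lit 432) (nat_lit 5) (nat_lit 583) (nat_lit 547) (nat_lit 430))) (XT.nd (nat_lit 78) (nat_lit 912) (nat_lit 0) (XT.lf (nat_lit 0) (nat_lit 1621724890) (nat_lit 912) (nat_lit 1926930638) (nat_lit 76) (nat_lit 7150445850) (nat_lit 419) (nat_lit 5) (nat_lit 431) (nat_lit 5) (nat_lit 420) (nat_lit 5) (nat_lit 584) (nat_lit 547) (nat_lit 429)) (XT.lf (nat_lit 0) (nat_lit 3524274053) (nat_lit 988) (nat_lit 6418929102) (nat_lit 76) (nat_lit 862785839) (nat_lit 407) (nat_lit 5) (nat_lit 420) (nat_lit 5) (nat_lit 408) (nat_lit 5) (nat_lit 585) (nat_lit 547) (nat_lit 428)))) (XT.nd (nat_lit 156) (nat_lit 912) (nat_lit 0) (XT.nd (nat_lit 78) (nat_lit 836) (nat_lit 0) (XT.lf (nat_lit 0) (nat_lit 5482984339) (nat_lit 988) (nat_lit 103797238) (nat_lit 76) (nat_lit 5327871103) (nat_lit 407) (nat_lit 5) (nat_lit 420) (nat_lit 5) (nat_lit 408) (nat_lit 5) (nat_lit 586) (nat_lit 547) (nat_lit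 427)) (XT.lf (nat_lit 0) (nat_lit 6403080388) (nat_lit 836) (nat_lit 1101315173) (nat_lit 912) (nat_lit 3520624059) (nat_lit 396) (nat_lit 5) (nat_lit 407) (nat_lit 5) (nat_lit 408) (nat_lit 5) (nat_lit 587) (nat_lit 547) (nat_lit 426))) (XT.nd (nat_lit 78) (nat_lit 76) (nat_lit 0) (XT.lf (nat_lit 0) (nat_lit 1887350994) (nat_lit 836) (nat_lit 7696577791) (nat_lit 912) (nat_lit 1553311741) (nat_lit 385) (nat_lit 5) (nat_lit 396) (nat_lit 5) (nat_lit 397) (nat_lit 5) (nat_lit 588) (nat_lit 547) (nat_lit 425)) (XT.lf (nat_lit 0) (nat_lit 468211046) (nat_lit 912) (nat_lit 2690926862) (nat_lit 76) (nat_lit 8092093359) (nat_lit 384) (nat_lit 5) (nat_lit 396) (nat_lit 5) (nat_lit 385) (nat_lit 5) (nat_lit 589) (nat_lit 547) (nat_lit 424))))))))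
noncomputable def xc116 : XT := (XT.nd (nat_lit 2418) (nat_lit 5548) (nat_lit 0) (XT.nd (nat_lit 1170) (nat_lit 5776) (nat_lit 0) (XT.nd (nat_lit 546) (nat_lit 3420) (nat_lit 0) (XT.nd (nat_lit 234) (nat_lit 1596) (nat_lit 0) (XT.nd (nat_lit 78) (nat_lit 760) (nat_lit 0) (XT.lf (nat_lit 0) (nat_lit 2527920347) (nat_lit 836) (nat_lit 7353707445) (nat_lit 76) (nat_lit 1485298058) (nat_lit 374) (nat_lit 5) (nat_lit 385) (nat_lit 5) (nat_lit 375) (nat_lit 5) (nat_lit 590) (nat_lit 547) (nat_lit 423)) (XT.nd (nat_lit 78) (nat_lit 760) (nat_lit 0) (XT.lf (nat_lit 0) (nat_lit 4650777830) (nat_lit 836) (nat_lit 636412221) (nat_lit 76) (nat_lit 6197305659) (nat_lit 374) (nat_lit 5) (nat_lit 385) (nat_lit 5) (nat_lit 375) (nat_lit 5) (nat_lit 591) (nat_lit 547) (nat_lit 422)) (XT.lf (nat_lit 0) (nat_lit 6279228375) (nat_lit 760) (nat_lit 560824603) (nat_lit 836) (nat_lit 4763885234) (nat_lit 364) (nat_lit 5) (nat_lit 374) (nat_lit 5) (nat_lit 375) (nat_lit 5) (nat_lit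 592) (nat_lit 547) (nat_lit 421)))) (XT.nd (nat_lit 156) (nat_lit 836) (nat_lit 0) (XT.nd (nat_lit 78) (nat_lit 0) (nat_lit 0) (XT.lf (nat_lit 0) (nat_lit 1590745038) (nat_lit 760) (nat_lit 7508047068) (nat_lit 836) (nat_lit 2626464336) (nat_lit 354) (nat_lit 5) (nat_lit 364) (nat_lit 5) (nat_lit 365) (nat_lit 5) (nat_lit 593) (nat_lit 547) (nat_lit 420)) (XT.lf (nat_lit 0) (nat_lit 8694490735) (nat_lit 760) (nat_lit 2731234664) (nat_lit 836) (nat_lit 422815687) (nat_lit 354) (nat_lit 5) (nat_lit 364) (nat_lit 5) (nat_lit 365) (nat_lit 5) (nat_lit 594) (nat_lit 547) (nat_lit 419))) (XT.nd (nat_lit 78) (nat_lit 0) (nat_lit 0) (XT.lf (nat_lit 0) (nat_lit 1824816622) (nat_lit 836) (nat_lit 7999808142) (nat_lit 76) (nat_lit 2148953218) (nat_lit 343) (nat_lit 5) (nat_lit 354) (nat_lit 5) (nat_lit 344) (nat_lit 5) (nat_lit 595) (nat_lit 547) (nat_lit 418)) (XT.lf (nat_lit 0) (nat_lit 4135136651) (nat_lit 836) (nat_lit 853292328) (nat_lit 76) (nat_lit 7112163221)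 (nat_lit 343) (nat_lit 5) (nat_lit 354) (nat_lit 5) (nat_lit 344) (nat_lit 5) (nat_lit 596) (nat_lit 547) (nat_lit 417))))) (XT.nd (nat_lit 312) (nat_lit 1292) (nat_lit 0) (XT.nd (nat_lit 156) (nat_lit 760) (nat_lit 0) (XT.nd (nat_lit 78) (nat_lit 684) (nat_lit 0) (XT.lf (nat_lit 0) (nat_lit 6503335907) (nat_lit 684) (nat_lit 14863037) (nat_lit 760) (nat_lit 5711417446) (nat_lit 334) (nat_lit 5) (nat_lit 343) (nat_lit 5) (nat_lit 344) (nat_lit 5) (nat_lit 597) (nat_lit 547) (nat_lit 416)) (XT.lf (nat_lit 0) (nat_lit 1627740615) (nat_lit 684) (nat_lit 7354841723) (nat_lit 760) (nat_lit 3377965924) (nat_lit 325) (nat_lit 5) (nat_lit 334) (nat_lit 5) (nat_lit 335) (nat_lit 5) (nat_lit 598) (nat_lit 547) (nat_lit 415))) (XT.nd (nat_lit 78) (nat_lit 760) (nat_lit 0) (XT.lf (nat_lit 0) (nat_lit 9188198615) (nat_lit 684) (nat_lit 2331251672) (nat_lit 760) (nat_lit 974184937) (nat_lit 325) (nat_lit 5) (nat_lit 334) (nat_lit 5) (nat_lit 335) (nat_lit 5) (nat_lit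 599) (nat_lit 547) (nat_lit 414)) (XT.lf (nat_lit 0) (nat_lit 1489441247) (nat_lit 760) (nat_lit 8348035935) (nat_lit 76) (nat_lit 2791092246) (nat_lit 315) (nat_lit 5) (nat_lit 325) (nat_lit 5) (nat_lit 316) (nat_lit 5) (nat_lit 600) (nat_lit 547) (nat_lit 413)))) (XT.nd (nat_lit 156) (nat_lit 608) (nat_lit 0) (XT.nd (nat_lit 78) (nat_lit 684) (nat_lit 0) (XT.lf (nat_lit 0) (nat_lit 4012109382) (nat_lit 760) (nat_lit 742938753) (nat_lit 76) (nat_lit 8010569486) (nat_lit 315) (nat_lit 5) (nat_lit 325) (nat_lit 5) (nat_lit 316) (nat_lit 5) (nat_lit 601) (nat_lit 547) (nat_lit 412)) (XT.lf (nat_lit 0) (nat_lit 6619658221) (nat_lit 760) (nat_lit 5818426118) (nat_lit 76) (nat_lit 466634250) (nat_lit 306) (nat_lit 5) (nat_lit 316) (nat_lit 5) (nat_lit 307) (nat_lit 5) (nat_lit 602) (nat_lit 547) (nat_lit 411))) (XT.nd (nat_lit 78) (nat_lit 0) (nat_lit 0) (XT.lf (nat_lit 0) (nat_lit 2012581186) (nat_lit 608) (nat_lit 7301832915) (nat_lit 684) (nat_lit 3731486707)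 (nat_lit 298) (nat_lit 5) (nat_lit 306) (nat_lit 5) (nat_lit 307) (nat_lit 5) (nat_lit 603) (nat_lit 547) (nat_lit 410)) (XT.lf (nat_lit 0) (nat_lit 10061229184) (nat_lit 608) (nat_lit 2026529568) (nat_lit 684) (nat_lit 1101654392) (nat_lit 298) (nat_lit 5) (nat_lit 306) (nat_lit 5) (nat_lit 307) (nat_lit 5) (nat_lit 604) (nat_lit 547) (nat_lit 409)))))) (XT.nd (nat_lit 624) (nat_lit 2660) (nat_lit 0) (XT.nd (nat_lit 312) (nat_lit 1216) (nat_lit 0) (XT.nd (nat_lit 156) (nat_lit 1216) (nat_lit 0) (XT.nd (nat_lit 78) (nat_lit 0) (nat_lit 0) (XT.lf (nat_lit 0) (nat_lit 1600199919) (nat_lit 684) (nat_lit 8384949992) (nat_lit 76) (nat_lit 3349637728) (nat_lit 289) (nat_lit 5) (nat_lit 298) (nat_lit 5) (nat_lit 290) (nat_lit 5) (nat_lit 605) (nat_lit 547) (nat_lit 408)) (XT.lf (nat_lit 0) (nat_lit 4361882718) (nat_lit 684) (nat_lit 289511272) (nat_lit 76) (nat_lit 8831119470) (nat_lit 289) (nat_lit 5) (nat_lit 298) (nat_lit 5) (nat_lit 290) (nat_lit 5) (nat_lit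 606) (nat_lit 547) (nat_lit 407))) (XT.nd (nat_lit 78) (nat_lit 608) (nat_lit 0) (XT.lf (nat_lit 0) (nat_lit 7222801481) (nat_lit 684) (nat_lit 5581855280) (nat_lit 76) (nat_lit 827657309) (nat_lit 281) (nat_lit 5) (nat_lit 290) (nat_lit 5) (nat_lit 282) (nat_lit 5) (nat_lit 607) (nat_lit 547) (nat_lit 406)) (XT.lf (nat_lit 0) (nat_lit 2763900970) (nat_lit 608) (nat_lit 7414126837) (nat_lit 684) (nat_lit 3606341415) (nat_lit 273) (nat_lit 5) (nat_lit 281) (nat_lit 5) (nat_lit 282) (nat_lit 5) (nat_lit 608) (nat_lit 547) (nat_lit 405)))) (XT.nd (nat_lit 156) (nat_lit 608) (nat_lit 0) (XT.nd (nat_lit 78) (nat_lit 608) (nat_lit 0) (XT.lf (nat_lit 0) (nat_lit 11334739628) (nat_lit 608) (nat_lit 1881614130) (nat_lit 684) (nat_lit 722632124) (nat_lit 273) (nat_lit 5) (nat_lit 281) (nat_lit 5) (nat_lit 282) (nat_lit 5) (nat_lit 609) (nat_lit 547) (nat_lit 404)) (XT.lf (nat_lit 0) (nat_lit 2240252281) (nat_lit 608) (nat_lit 8093023016) (nat_lit 76) (nat_lit 3762119754)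 (nat_lit 265) (nat_lit 5) (nat_lit 273) (nat_lit 5) (nat_lit 266) (nat_lit 5) (nat_lit 610) (nat_lit 547) (nat_lit 403))) (XT.nd (nat_lit 78) (nat_lit 0) (nat_lit 0) (XT.lf (nat_lit 0) (nat_lit 534029983) (nat_lit 608) (nat_lit 4739053705) (nat_lit 684) (nat_lit 8981346167) (nat_lit 257) (nat_lit 5) (nat_lit 265) (nat_lit 5) (nat_lit 266) (nat_lit 5) (nat_lit 611) (nat_lit 547) (nat_lit 402)) (XT.lf (nat_lit 0) (nat_lit 8414472483) (nat_lit 684) (nat_lit 4996440832) (nat_lit 76) (nat_lit 1004774307) (nat_lit 257) (nat_lit 5) (nat_lit 266) (nat_lit 5) (nat_lit 258) (nat_lit 5) (nat_lit 612) (nat_lit 547) (nat_lit 401))))) (XT.nd (nat_lit 312) (nat_lit 1064) (nat_lit 0) (XT.nd (nat_lit 156) (nat_lit 988) (nat_lit 0) (XT.nd (nat_lit 78) (nat_lit 76) (nat_lit 0) (XT.lf (nat_lit 0) (nat_lit 3904596587) (nat_lit 532) (nat_lit 7758037877) (nat_lit 608) (nat_lit 2916657452) (nat_lit 250) (nat_lit 5) (nat_lit 257) (nat_lit 5) (nat_lit 258) (nat_lit 5) (nat_lit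 613) (nat_lit 547) (nat_lit 400)) (XT.lf (nat_lit 0) (nat_lit 247596404) (nat_lit 608) (nat_lit 1713109600) (nat_lit 76) (nat_lit 12785012420) (nat_lit 249) (nat_lit 5) (nat_lit 257) (nat_lit 5) (nat_lit 250) (nat_lit 5) (nat_lit 614) (nat_lit 547) (nat_lit 399))) (XT.nd (nat_lit 78) (nat_lit 456) (nat_lit 0) (XT.lf (nat_lit 0) (nat_lit 3498344542) (nat_lit 608) (nat_lit 7450770728) (nat_lit 76) (nat_lit 3964727607) (nat_lit 242) (nat_lit 5) (nat_lit 250) (nat_lit 5) (nat_lit 243) (nat_lit 5) (nat_lit 615) (nat_lit 547) (nat_lit 398)) (XT.lf (nat_lit 0) (nat_lit 1753789797) (nat_lit 456) (nat_lit 5083882892) (nat_lit 532) (nat_lit 8247186088) (nat_lit 236) (nat_lit 5) (nat_lit 242) (nat_lit 5) (nat_lit 243) (nat_lit 5) (nat_lit 616) (nat_lit 547) (nat_lit 397)))) (XT.nd (nat_lit 156) (nat_lit 532) (nat_lit 0) (XT.nd (nat_lit 78) (nat_lit 532) (nat_lit 0) (XT.lf (nat_lit 0) (nat_lit 10287675522) (nat_lit 532) (nat_lit 4038174455) (nat_lit 76) (nat_lit 932567505)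 (nat_lit 236) (nat_lit 5) (nat_lit 243) (nat_lit 5) (nat_lit 237) (nat_lit 5) (nat_lit 617) (nat_lit 547) (nat_lit 396)) (XT.lf (nat_lit 0) (nat_lit 5461725343) (nat_lit 532) (nat_lit 8402046777) (nat_lit 608) (nat_lit 1570533615) (nat_lit 229) (nat_lit 5) (nat_lit 236) (nat_lit 5) (nat_lit 237) (nat_lit 5) (nat_lit 618) (nat_lit 547) (nat_lit 395))) (XT.nd (nat_lit 78) (nat_lit 456) (nat_lit 0) (XT.lf (nat_lit 0) (nat_lit 1888081125) (nat_lit 608) (nat_lit 436173518) (nat_lit 76) (nat_lit 13288905114) (nat_lit 228) (nat_lit 5) (nat_lit 236) (nat_lit 5) (nat_lit 229) (nat_lit 5) (nat_lit 619) (nat_lit 547) (nat_lit 394)) (XT.lf (nat_lit 0) (nat_lit 5469654985) (nat_lit 532) (nat_lit 6432859906) (nat_lit 76) (nat_lit 3891372250) (nat_lit 222) (nat_lit 5) (nat_lit 229) (nat_lit 5) (nat_lit 223) (nat_lit 5) (nat_lit 620) (nat_lit 547) (nat_lit 393))))))) (XT.nd (nat_lit 1170) (nat_lit 1596) (nat_lit 0) (XT.nd (nat_lit 546) (nat_lit 2128) (nat_lit 0) (XT.nd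 (nat_lit 234) (nat_lit 836) (nat_lit 0) (XT.nd (nat_lit 78) (nat_lit 532) (nat_lit 0) (XT.lf (nat_lit 0) (nat_lit 3394393073) (nat_lit 456) (nat_lit 5757185230) (nat_lit 532) (nat_lit 6826076640) (nat_lit 216) (nat_lit 5) (nat_lit 222) (nat_lit 5) (nat_lit 223) (nat_lit 5) (nat_lit 621) (nat_lit 547) (nat_lit 392)) (XT.nd (nat_lit 78) (nat_lit 532) (nat_lit 0) (XT.lf (nat_lit 0) (nat_lit 12942341542) (nat_lit 532) (nat_lit 2679164868) (nat_lit 76) (nat_lit 542887884) (nat_lit 216) (nat_lit 5) (nat_lit 223) (nat_lit 5) (nat_lit 217) (nat_lit 5) (nat_lit 622) (nat_lit 547) (nat_lit 391)) (XT.lf (nat_lit 0) (nat_lit 523855348) (nat_lit 532) (nat_lit 8890387985) (nat_lit 76) (nat_lit 6939051179) (nat_lit 209) (nat_lit 5) (nat_lit 216) (nat_lit 5) (nat_lit 210) (nat_lit 5) (nat_lit 623) (nat_lit 547) (nat_lit 390)))) (XT.nd (nat_lit 156) (nat_lit 380) (nat_lit 0) (XT.nd (nat_lit 78) (nat_lit 0) (nat_lit 0) (XT.lf (nat_lit 0) (nat_lit 1277387790) (nat_lit 456)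 (nat_lit 3039280824) (nat_lit 532) (nat_lit 12228575771) (nat_lit 203) (nat_lit 5) (nat_lit 209) (nat_lit 5) (nat_lit 210) (nat_lit 5) (nat_lit 624) (nat_lit 547) (nat_lit 389)) (XT.lf (nat_lit 0) (nat_lit 8256658593) (nat_lit 532) (nat_lit 5010203461) (nat_lit 76) (nat_lit 3472744998) (nat_lit 203) (nat_lit 5) (nat_lit 210) (nat_lit 5) (nat_lit 204) (nat_lit 5) (nat_lit 625) (nat_lit 547) (nat_lit 388))) (XT.nd (nat_lit 78) (nat_lit 0) (nat_lit 0) (XT.lf (nat_lit 0) (nat_lit 5488264766) (nat_lit 380) (nat_lit 6831945632) (nat_lit 456) (nat_lit 4616751537) (nat_lit 198) (nat_lit 5) (nat_lit 203) (nat_lit 5) (nat_lit 204) (nat_lit 5) (nat_lit 626) (nat_lit 547) (nat_lit 387)) (XT.lf (nat_lit 0) (nat_lit 16248533636) (nat_lit 380) (nat_lit 239232834) (nat_lit 456) (nat_lit 650042978) (nat_lit 198) (nat_lit 5) (nat_lit 203) (nat_lit 5) (nat_lit 204) (nat_lit 5) (nat_lit 627) (nat_lit 547) (nat_lit 386))))) (XT.nd (nat_lit 312) (nat_lit 836) (nat_lit 0) (XT.nd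 (nat_lit 156) (nat_lit 380) (nat_lit 0) (XT.nd (nat_lit 78) (nat_lit 380) (nat_lit 0) (XT.lf (nat_lit 0) (nat_lit 3448122817) (nat_lit 532) (nat_lit 7409614119) (nat_lit 76) (nat_lit 6482562940) (nat_lit 191) (nat_lit 5) (nat_lit 198) (nat_lit 5) (nat_lit 192) (nat_lit 5) (nat_lit 628) (nat_lit 547) (nat_lit 385)) (XT.lf (nat_lit 0) (nat_lit 3455789024) (nat_lit 380) (nat_lit 4183124832) (nat_lit 456) (nat_lit 9907453190) (nat_lit 186) (nat_lit 5) (nat_lit 191) (nat_lit 5) (nat_lit 192) (nat_lit 5) (nat_lit 629) (nat_lit 547) (nat_lit 384))) (XT.nd (nat_lit 78) (nat_lit 380) (nat_lit 0) (XT.lf (nat_lit 0) (nat_lit 11970016371) (nat_lit 456) (nat_lit 3150051469) (nat_lit 76) (nat_lit 2635357987) (nat_lit 186) (nat_lit 5) (nat_lit 192) (nat_lit 5) (nat_lit 187) (nat_lit 5) (nat_lit 630) (nat_lit 547) (nat_lit 383)) (XT.lf (nat_lit 0) (nat_lit 8071702014) (nat_lit 380) (nat_lit 8385757255) (nat_lit 456) (nat_lit 1509812330) (nat_lit 181) (nat_lit 5) (nat_lit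 186) (nat_lit 5) (nat_lit 187) (nat_lit 5) (nat_lit 631) (nat_lit 547) (nat_lit 382)))) (XT.nd (nat_lit 156) (nat_lit 380) (nat_lit 0) (XT.nd (nat_lit 78) (nat_lit 0) (nat_lit 0) (XT.lf (nat_lit 0) (nat_lit 1361080282) (nat_lit 380) (nat_lit 1472579291) (nat_lit 456) (nat_lit 15348929472) (nat_lit 175) (nat_lit 5) (nat_lit 180) (nat_lit 5) (nat_lit 181) (nat_lit 5) (nat_lit 632) (nat_lit 547) (nat_lit 381)) (XT.lf (nat_lit 0) (nat_lit 7336578075) (nat_lit 456) (nat_lit 5486387935) (nat_lit 76) (nat_lit 5577191531) (nat_lit 175) (nat_lit 5) (nat_lit 181) (nat_lit 5) (nat_lit 176) (nat_lit 5) (nat_lit 633) (nat_lit 547) (nat_lit 380))) (XT.nd (nat_lit 78) (nat_lit 0) (nat_lit 0) (XT.lf (nat_lit 0) (nat_lit 6130553912) (nat_lit 380) (nat_lit 5838467358) (nat_lit 456) (nat_lit 6652266977) (nat_lit 170) (nat_lit 5) (nat_lit 175) (nat_lit 5) (nat_lit 176) (nat_lit 5) (nat_lit 634) (nat_lit 547) (nat_lit 379)) (XT.lf (nat_lit 0) (nat_lit 16729494313) (nat_lit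 456) (nat_lit 816087817) (nat_lit 76) (nat_lit 1300551981) (nat_lit 170) (nat_lit 5) (nat_lit 176) (nat_lit 5) (nat_lit 171) (nat_lit 5) (nat_lit 635) (nat_lit 547) (nat_lit 378)))))) (XT.nd (nat_lit 74568) (nat_lit 0) (nat_lit 33896) (XT.nd (nat_lit 312) (nat_lit 456) (nat_lit 0) (XT.nd (nat_lit 156) (nat_lit 304) (nat_lit 0) (XT.nd (nat_lit 78) (nat_lit 380) (nat_lit 0) (XT.lf (nat_lit 0) (nat_lit 2578910355) (nat_lit 456) (nat_lit 7905626954) (nat_lit 76) (nat_lit 8588571334) (nat_lit 164) (nat_lit 5) (nat_lit 170) (nat_lit 5) (nat_lit 165) (nat_lit 5) (nat_lit 636) (nat_lit 547) (nat_lit 377)) (XT.lf (nat_lit 0) (nat_lit 4121959152) (nat_lit 380) (nat_lit 3240571162) (nat_lit 456) (nat_lit 11941362673) (nat_lit 159) (nat_lit 5) (nat_lit 164) (nat_lit 5) (nat_lit 165) (nat_lit 5) (nat_lit 637) (nat_lit 547) (nat_lit 376))) (XT.nd (nat_lit 78) (nat_lit 304) (nat_lit 0) (XT.lf (nat_lit 0) (nat_lit 12312414837) (nat_lit 456) (nat_lit 3083633652) (nat_lit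 76) (nat_lit 4141832836) (nat_lit 159) (nat_lit 5) (nat_lit 165) (nat_lit 5) (nat_lit 160) (nat_lit 5) (nat_lit 638) (nat_lit 547) (nat_lit 375)) (XT.lf (nat_lit 0) (nat_lit 9342626726) (nat_lit 304) (nat_lit 8091237205) (nat_lit 380) (nat_lit 2341234310) (nat_lit 155) (nat_lit 5) (nat_lit 159) (nat_lit 5) (nat_lit 160) (nat_lit 5) (nat_lit 639) (nat_lit 547) (nat_lit 374)))) (XT.nd (nat_lit 74100) (nat_lit 0) (nat_lit 35264) (XT.nd (nat_lit 74022) (nat_lit 0) (nat_lit 35264) (XT.lf (nat_lit 0) (nat_lit 2036895441) (nat_lit 380) (nat_lit 593683639) (nat_lit 456) (nat_lit 17385647062) (nat_lit 149) (nat_lit 5) (nat_lit 154) (nat_lit 5) (nat_lit 155) (nat_lit 5) (nat_lit 640) (nat_lit 547) (nat_lit 373)) (XT.lf (nat_lit 0) (nat_lit 1756770196) (nat_lit 1444) (nat_lit 1105018573) (nat_lit 1444) (nat_lit 1105018573) (nat_lit 613) (nat_lit 3) (nat_lit 632) (nat_lit 3) (nat_lit 632) (nat_lit 5) (nat_lit 548) (nat_lit 548) (nat_lit 464))) (XT.nd (nat_lit 78)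 (nat_lit 0) (nat_lit 0) (XT.lf (nat_lit 76) (nat_lit 1765779945) (nat_lit 0) (nat_lit 3036737128) (nat_lit 1444) (nat_lit 3185311991) (nat_lit 614) (nat_lit 5) (nat_lit 613) (nat_lit 3) (nat_lit 632) (nat_lit 5) (nat_lit 549) (nat_lit 548) (nat_lit 463)) (XT.lf (nat_lit 76) (nat_lit 5834229673) (nat_lit 0) (nat_lit 265176795) (nat_lit 1444) (nat_lit 1944079778) (nat_lit 614) (nat_lit 5) (nat_lit 613) (nat_lit 3) (nat_lit 632) (nat_lit 5) (nat_lit 550) (nat_lit 548) (nat_lit 462))))) (XT.nd (nat_lit 312) (nat_lit 0) (nat_lit 76) (XT.nd (nat_lit 156) (nat_lit 0) (nat_lit 76) (XT.nd (nat_lit 78) (nat_lit 1444) (nat_lit 0) (XT.lf (nat_lit 76) (nat_lit 1874488753) (nat_lit 0) (nat_lit 5544593046) (nat_lit 1444) (nat_lit 681238967) (nat_lit 615) (nat_lit 5) (nat_lit 614) (nat_lit 5) (nat_lit 633) (nat_lit 5) (nat_lit 551) (nat_lit 548) (nat_lit 461)) (XT.lf (nat_lit 0) (nat_lit 583929867) (nat_lit 1444) (nat_lit 2111496402) (nat_lit 1520) (nat_lit 5463087410)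 (nat_lit 595) (nat_lit 5) (nat_lit 614) (nat_lit 5) (nat_lit 615) (nat_lit 5) (nat_lit 552) (nat_lit 548) (nat_lit 460))) (XT.nd (nat_lit 78) (nat_lit 0) (nat_lit 0) (XT.lf (nat_lit 0) (nat_lit 1849412646) (nat_lit 1444) (nat_lit 6128890295) (nat_lit 1520) (nat_lit 239795890) (nat_lit 596) (nat_lit 5) (nat_lit 615) (nat_lit 5) (nat_lit 616) (nat_lit 5) (nat_lit 553) (nat_lit 548) (nat_lit 459)) (XT.lf (nat_lit 0) (nat_lit 3141874449) (nat_lit 1444) (nat_lit 1911790934) (nat_lit 1520) (nat_lit 3225177985) (nat_lit 596) (nat_lit 5) (nat_lit 615) (nat_lit 5) (nat_lit 616) (nat_lit 5) (nat_lit 554) (nat_lit 548) (nat_lit 458)))) (XT.nd (nat_lit 156) (nat_lit 0) (nat_lit 76) (XT.nd (nat_lit 78) (nat_lit 0) (nat_lit 76) (XT.lf (nat_lit 76) (nat_lit 2403720987) (nat_lit 0) (nat_lit 2042223773) (nat_lit 1520) (nat_lit 3895143896) (nat_lit 597) (nat_lit 5) (nat_lit 596) (nat_lit 5) (nat_lit 616) (nat_lit 5) (nat_lit 555) (nat_lit 548) (nat_lit 457)) (XT.lf (nat_lit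 0) (nat_lit 5766397930) (nat_lit 1444) (nat_lit 1597639588) (nat_lit 1520) (nat_lit 1040736329) (nat_lit 597) (nat_lit 5) (nat_lit 616) (nat_lit 5) (nat_lit 617) (nat_lit 5) (nat_lit 556) (nat_lit 548) (nat_lit 456))) (XT.nd (nat_lit 78) (nat_lit 0) (nat_lit 0) (XT.lf (nat_lit 76) (nat_lit 2834885005) (nat_lit 0) (nat_lit 4281583731) (nat_lit 1520) (nat_lit 1353200840) (nat_lit 598) (nat_lit 5) (nat_lit 597) (nat_lit 5) (nat_lit 617) (nat_lit 5) (nat_lit 557) (nat_lit 548) (nat_lit 455)) (XT.lf (nat_lit 76) (nat_lit 7360179242) (nat_lit 0) (nat_lit 1115809992) (nat_lit 1520) (nat_lit 60226008) (nat_lit 598) (nat_lit 5) (nat_lit 597) (nat_lit 5) (nat_lit 617) (nat_lit 5) (nat_lit 558) (nat_lit 548) (nat_lit 454))))))))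
noncomputable def xc117 : XT := (XT.nd (nat_lit 2418) (nat_lit 12388) (nat_lit 0) (XT.nd (nat_lit 1170) (nat_lit 10108) (nat_lit 0) (XT.nd (nat_lit 546) (nat_lit 3116) (nat_lit 0) (XT.nd (nat_lit 234) (nat_lit 1444) (nat_lit 0) (XT.nd (nat_lit 78) (nat_lit 0) (nat_lit 0) (XT.lf (nat_lit 0) (nat_lit 1250200551) (nat_lit 1520) (nat_lit 5227415712) (nat_lit 1596) (nat_lit 2126151089) (nat_lit 578) (nat_lit 5) (nat_lit 598) (nat_lit 5) (nat_lit 599) (nat_lit 5) (nat_lit 559) (nat_lit 548) (nat_lit 453)) (XT.nd (nat_lit 78) (nat_lit 0) (nat_lit 76) (XT.lf (nat_lit 0) (nat_lit 2573959517) (nat_lit 1520) (nat_lit 662689710) (nat_lit 1596) (nat_lit 5436255639) (nat_lit 578) (nat_lit 5) (nat_lit 598) (nat_lit 5) (nat_lit 599) (nat_lit 5) (nat_lit 560) (nat_lit 548) (nat_lit 452)) (XT.lf (nat_lit 0) (nat_lit 3924163930) (nat_lit 1520) (nat_lit 4715667861) (nat_lit 1596) (nat_lit 103594846) (nat_lit 579) (nat_lit 5) (nat_lit 599) (nat_lit 5) (nat_lit 600) (nat_lit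 5) (nat_lit 561) (nat_lit 548) (nat_lit 451)))) (XT.nd (nat_lit 156) (nat_lit 1520) (nat_lit 0) (XT.nd (nat_lit 78) (nat_lit 0) (nat_lit 0) (XT.lf (nat_lit 0) (nat_lit 5300887056) (nat_lit 1520) (nat_lit 33916688) (nat_lit 1596) (nat_lit 3480565699) (nat_lit 579) (nat_lit 5) (nat_lit 599) (nat_lit 5) (nat_lit 600) (nat_lit 5) (nat_lit 562) (nat_lit 548) (nat_lit 450)) (XT.lf (nat_lit 76) (nat_lit 4786419019) (nat_lit 0) (nat_lit 1923923227) (nat_lit 1596) (nat_lit 2178305783) (nat_lit 580) (nat_lit 5) (nat_lit 579) (nat_lit 5) (nat_lit 600) (nat_lit 5) (nat_lit 563) (nat_lit 548) (nat_lit 449))) (XT.nd (nat_lit 78) (nat_lit 1596) (nat_lit 0) (XT.lf (nat_lit 76) (nat_lit 721326085) (nat_lit 0) (nat_lit 7416234076) (nat_lit 1596) (nat_lit 826041413) (nat_lit 581) (nat_lit 5) (nat_lit 580) (nat_lit 5) (nat_lit 601) (nat_lit 5) (nat_lit 564) (nat_lit 548) (nat_lit 448)) (XT.lf (nat_lit 0) (nat_lit 561241777) (nat_lit 1596) (nat_lit 3377545129) (nat_lit 1672)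 (nat_lit 5100891671) (nat_lit 559) (nat_lit 5) (nat_lit 580) (nat_lit 5) (nat_lit 581) (nat_lit 5) (nat_lit 565) (nat_lit 548) (nat_lit 447))))) (XT.nd (nat_lit 312) (nat_lit 3116) (nat_lit 0) (XT.nd (nat_lit 156) (nat_lit 0) (nat_lit 76) (XT.nd (nat_lit 78) (nat_lit 0) (nat_lit 76) (XT.lf (nat_lit 76) (nat_lit 1581630304) (nat_lit 0) (nat_lit 369131623) (nat_lit 1672) (nat_lit 7166695758) (nat_lit 560) (nat_lit 5) (nat_lit 559) (nat_lit 5) (nat_lit 581) (nat_lit 5) (nat_lit 566) (nat_lit 548) (nat_lit 446)) (XT.lf (nat_lit 0) (nat_lit 3387813027) (nat_lit 1596) (nat_lit 2550492320) (nat_lit 1672) (nat_lit 3258093011) (nat_lit 560) (nat_lit 5) (nat_lit 581) (nat_lit 5) (nat_lit 582) (nat_lit 5) (nat_lit 567) (nat_lit 548) (nat_lit 445))) (XT.nd (nat_lit 78) (nat_lit 0) (nat_lit 76) (XT.lf (nat_lit 76) (nat_lit 2547344676) (nat_lit 0) (nat_lit 2301402818) (nat_lit 1672) (nat_lit 4428268282) (nat_lit 561) (nat_lit 5) (nat_lit 560) (nat_lit 5) (nat_lit 582)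 (nat_lit 5) (nat_lit 568) (nat_lit 548) (nat_lit 444)) (XT.lf (nat_lit 0) (nat_lit 6341816686) (nat_lit 1596) (nat_lit 1605004239) (nat_lit 1672) (nat_lit 1412367059) (nat_lit 561) (nat_lit 5) (nat_lit 582) (nat_lit 5) (nat_lit 583) (nat_lit 5) (nat_lit 569) (nat_lit 548) (nat_lit 443)))) (XT.nd (nat_lit 156) (nat_lit 3268) (nat_lit 0) (XT.nd (nat_lit 78) (nat_lit 0) (nat_lit 0) (XT.lf (nat_lit 76) (nat_lit 3636415509) (nat_lit 0) (nat_lit 4244187096) (nat_lit 1672) (nat_lit 1562084672) (nat_lit 562) (nat_lit 5) (nat_lit 561) (nat_lit 5) (nat_lit 583) (nat_lit 5) (nat_lit 570) (nat_lit 548) (nat_lit 442)) (XT.lf (nat_lit 76) (nat_lit 8986347973) (nat_lit 0) (nat_lit 451924500) (nat_lit 1672) (nat_lit 89822651) (nat_lit 562) (nat_lit 5) (nat_lit 561) (nat_lit 5) (nat_lit 583) (nat_lit 5) (nat_lit 571) (nat_lit 548) (nat_lit 441))) (XT.nd (nat_lit 78) (nat_lit 1672) (nat_lit 0) (XT.lf (nat_lit 0) (nat_lit 1425064831) (nat_lit 1672) (nat_lit 4772635570) (nat_lit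 76) (nat_lit 3416694147) (nat_lit 540) (nat_lit 5) (nat_lit 562) (nat_lit 5) (nat_lit 541) (nat_lit 5) (nat_lit 572) (nat_lit 548) (nat_lit 440)) (XT.lf (nat_lit 0) (nat_lit 624139936) (nat_lit 1672) (nat_lit 2333596798) (nat_lit 1748) (nat_lit 6744898254) (nat_lit 518) (nat_lit 5) (nat_lit 540) (nat_lit 5) (nat_lit 541) (nat_lit 5) (nat_lit 573) (nat_lit 548) (nat_lit 439)))))) (XT.nd (nat_lit 624) (nat_lit 4408) (nat_lit 0) (XT.nd (nat_lit 312) (nat_lit 2128) (nat_lit 0) (XT.nd (nat_lit 156) (nat_lit 1824) (nat_lit 0) (XT.nd (nat_lit 78) (nat_lit 1748) (nat_lit 0) (XT.lf (nat_lit 0) (nat_lit 4542059178) (nat_lit 1748) (nat_lit 3627807186) (nat_lit 76) (nat_lit 1622354608) (nat_lit 518) (nat_lit 5) (nat_lit 541) (nat_lit 5) (nat_lit 519) (nat_lit 5) (nat_lit 574) (nat_lit 548) (nat_lit 438)) (XT.lf (nat_lit 0) (nat_lit 1923329832) (nat_lit 1748) (nat_lit 4241424441) (nat_lit 1824) (nat_lit 3718711342) (nat_lit 495) (nat_lit 5) (nat_lit 518) (nat_lit 5)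 (nat_lit 519) (nat_lit 5) (nat_lit 575) (nat_lit 548) (nat_lit 437))) (XT.nd (nat_lit 78) (nat_lit 1824) (nat_lit 0) (XT.lf (nat_lit 0) (nat_lit 7616450961) (nat_lit 1748) (nat_lit 206839707) (nat_lit 1824) (nat_lit 2153177386) (nat_lit 495) (nat_lit 5) (nat_lit 518) (nat_lit 5) (nat_lit 519) (nat_lit 5) (nat_lit 576) (nat_lit 548) (nat_lit 436)) (XT.lf (nat_lit 0) (nat_lit 3352408867) (nat_lit 1824) (nat_lit 6189202434) (nat_lit 1900) (nat_lit 529187609) (nat_lit 471) (nat_lit 5) (nat_lit 495) (nat_lit 5) (nat_lit 496) (nat_lit 5) (nat_lit 577) (nat_lit 548) (nat_lit 435)))) (XT.nd (nat_lit 156) (nat_lit 912) (nat_lit 0) (XT.nd (nat_lit 78) (nat_lit 1140) (nat_lit 0) (XT.lf (nat_lit 0) (nat_lit 1109430271) (nat_lit 1900) (nat_lit 982856901) (nat_lit 76) (nat_lit 8074644787) (nat_lit 470) (nat_lit 5) (nat_lit 495) (nat_lit 5) (nat_lit 471) (nat_lit 5) (nat_lit 578) (nat_lit 548) (nat_lit 434)) (XT.lf (nat_lit 0) (nat_lit 2799436444) (nat_lit 1216) (nat_lit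 5368269655) (nat_lit 76) (nat_lit 2096698178) (nat_lit 455) (nat_lit 5) (nat_lit 471) (nat_lit 5) (nat_lit 456) (nat_lit 5) (nat_lit 579) (nat_lit 548) (nat_lit 433))) (XT.nd (nat_lit 78) (nat_lit 0) (nat_lit 0) (XT.lf (nat_lit 0) (nat_lit 516850341) (nat_lit 912) (nat_lit 4010550771) (nat_lit 988) (nat_lit 5836342349) (nat_lit 443) (nat_lit 5) (nat_lit 455) (nat_lit 5) (nat_lit 456) (nat_lit 5) (nat_lit 580) (nat_lit 548) (nat_lit 432)) (XT.lf (nat_lit 0) (nat_lit 6308261869) (nat_lit 988) (nat_lit 3892277187) (nat_lit 76) (nat_lit 264164217) (nat_lit 443) (nat_lit 5) (nat_lit 456) (nat_lit 5) (nat_lit 444) (nat_lit 5) (nat_lit 581) (nat_lit 548) (nat_lit 431))))) (XT.nd (nat_lit 312) (nat_lit 2584) (nat_lit 0) (XT.nd (nat_lit 156) (nat_lit 912) (nat_lit 0) (XT.nd (nat_lit 78) (nat_lit 0) (nat_lit 0) (XT.lf (nat_lit 0) (nat_lit 2164991818) (nat_lit 912) (nat_lit 5981327891) (nat_lit 988) (nat_lit 2420931541) (nat_lit 431) (nat_lit 5) (nat_lit 443) (nat_lit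 5) (nat_lit 444) (nat_lit 5) (nat_lit 582) (nat_lit 548) (nat_lit 430)) (XT.lf (nat_lit 0) (nat_lit 8378013701) (nat_lit 912) (nat_lit 1650463005) (nat_lit 988) (nat_lit 643227275) (nat_lit 431) (nat_lit 5) (nat_lit 443) (nat_lit 5) (nat_lit 444) (nat_lit 5) (nat_lit 583) (nat_lit 548) (nat_lit 429))) (XT.nd (nat_lit 78) (nat_lit 0) (nat_lit 0) (XT.lf (nat_lit 0) (nat_lit 1180072656) (nat_lit 912) (nat_lit 6832749707) (nat_lit 76) (nat_lit 2764764271) (nat_lit 419) (nat_lit 5) (nat_lit 431) (nat_lit 5) (nat_lit 420) (nat_lit 5) (nat_lit 584) (nat_lit 548) (nat_lit 428)) (XT.lf (nat_lit 0) (nat_lit 3039371810) (nat_lit 912) (nat_lit 579638973) (nat_lit 76) (nat_lit 7266328725) (nat_lit 419) (nat_lit 5) (nat_lit 431) (nat_lit 5) (nat_lit 420) (nat_lit 5) (nat_lit 585) (nat_lit 548) (nat_lit 427)))) (XT.nd (nat_lit 156) (nat_lit 836) (nat_lit 0) (XT.nd (nat_lit 78) (nat_lit 836) (nat_lit 0) (XT.lf (nat_lit 0) (nat_lit 4961812590) (nat_lit 988) (nat_lit 5143279169)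 (nat_lit 76) (nat_lit 889637081) (nat_lit 407) (nat_lit 5) (nat_lit 420) (nat_lit 5) (nat_lit 408) (nat_lit 5) (nat_lit 586) (nat_lit 548) (nat_lit 426)) (XT.lf (nat_lit 0) (nat_lit 1287511303) (nat_lit 836) (nat_lit 5653740194) (nat_lit 912) (nat_lit 4164683978) (nat_lit 396) (nat_lit 5) (nat_lit 407) (nat_lit 5) (nat_lit 408) (nat_lit 5) (nat_lit 587) (nat_lit 548) (nat_lit 425))) (XT.nd (nat_lit 78) (nat_lit 836) (nat_lit 0) (XT.lf (nat_lit 0) (nat_lit 7898584629) (nat_lit 836) (nat_lit 1078745907) (nat_lit 912) (nat_lit 2241695172) (nat_lit 396) (nat_lit 5) (nat_lit 407) (nat_lit 5) (nat_lit 408) (nat_lit 5) (nat_lit 588) (nat_lit 548) (nat_lit 424)) (XT.lf (nat_lit 0) (nat_lit 3309576674) (nat_lit 836) (nat_lit 7772212394) (nat_lit 912) (nat_lit 252036005) (nat_lit 385) (nat_lit 5) (nat_lit 396) (nat_lit 5) (nat_lit 397) (nat_lit 5) (nat_lit 589) (nat_lit 548) (nat_lit 423))))))) (XT.nd (nat_lit 1170) (nat_lit 5776) (nat_lit 0) (XT.nd (nat_lit 546)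 (nat_lit 3420) (nat_lit 0) (XT.nd (nat_lit 234) (nat_lit 1596) (nat_lit 0) (XT.nd (nat_lit 78) (nat_lit 1520) (nat_lit 0) (XT.lf (nat_lit 0) (nat_lit 1766661606) (nat_lit 912) (nat_lit 1370246893) (nat_lit 76) (nat_lit 8313530458) (nat_lit 384) (nat_lit 5) (nat_lit 396) (nat_lit 5) (nat_lit 385) (nat_lit 5) (nat_lit 590) (nat_lit 548) (nat_lit 422)) (XT.nd (nat_lit 78) (nat_lit 760) (nat_lit 0) (XT.lf (nat_lit 0) (nat_lit 3851756726) (nat_lit 836) (nat_lit 6110440203) (nat_lit 76) (nat_lit 1606567362) (nat_lit 374) (nat_lit 5) (nat_lit 385) (nat_lit 5) (nat_lit 375) (nat_lit 5) (nat_lit 591) (nat_lit 548) (nat_lit 421)) (XT.lf (nat_lit 0) (nat_lit 723427208) (nat_lit 760) (nat_lit 5273374885) (nat_lit 836) (nat_lit 5692289516) (nat_lit 364) (nat_lit 5) (nat_lit 374) (nat_lit 5) (nat_lit 375) (nat_lit 5) (nat_lit 592) (nat_lit 548) (nat_lit 420)))) (XT.nd (nat_lit 156) (nat_lit 836) (nat_lit 0) (XT.nd (nat_lit 78) (nat_lit 760) (nat_lit 0) (XT.lf (nat_lit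 0) (nat_lit 7758925108) (nat_lit 760) (nat_lit 450555760) (nat_lit 836) (nat_lit 3601850395) (nat_lit 364) (nat_lit 5) (nat_lit 374) (nat_lit 5) (nat_lit 375) (nat_lit 5) (nat_lit 593) (nat_lit 548) (nat_lit 419)) (XT.lf (nat_lit 0) (nat_lit 2991503206) (nat_lit 760) (nat_lit 7507383805) (nat_lit 836) (nat_lit 1436479652) (nat_lit 354) (nat_lit 5) (nat_lit 364) (nat_lit 5) (nat_lit 365) (nat_lit 5) (nat_lit 594) (nat_lit 548) (nat_lit 418))) (XT.nd (nat_lit 78) (nat_lit 760) (nat_lit 0) (XT.lf (nat_lit 0) (nat_lit 776558890) (nat_lit 836) (nat_lit 1856222481) (nat_lit 76) (nat_lit 9428711781) (nat_lit 353) (nat_lit 5) (nat_lit 364) (nat_lit 5) (nat_lit 354) (nat_lit 5) (nat_lit 595) (nat_lit 548) (nat_lit 417)) (XT.lf (nat_lit 0) (nat_lit 3049725903) (nat_lit 836) (nat_lit 6787903147) (nat_lit 76) (nat_lit 2351621582) (nat_lit 343) (nat_lit 5) (nat_lit 354) (nat_lit 5) (nat_lit 344) (nat_lit 5) (nat_lit 596) (nat_lit 548) (nat_lit 416))))) (XT.nd (nat_lit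 312) (nat_lit 1976) (nat_lit 0) (XT.nd (nat_lit 156) (nat_lit 760) (nat_lit 0) (XT.nd (nat_lit 78) (nat_lit 0) (nat_lit 0) (XT.lf (nat_lit 0) (nat_lit 480950715) (nat_lit 684) (nat_lit 4905122054) (nat_lit 760) (nat_lit 6933136558) (nat_lit 334) (nat_lit 5) (nat_lit 343) (nat_lit 5) (nat_lit 344) (nat_lit 5) (nat_lit 597) (nat_lit 548) (nat_lit 415)) (XT.lf (nat_lit 0) (nat_lit 7800607624) (nat_lit 760) (nat_lit 4482709464) (nat_lit 76) (nat_lit 167821275) (nat_lit 334) (nat_lit 5) (nat_lit 344) (nat_lit 5) (nat_lit 335) (nat_lit 5) (nat_lit 598) (nat_lit 548) (nat_lit 414))) (XT.nd (nat_lit 78) (nat_lit 76) (nat_lit 0) (XT.lf (nat_lit 0) (nat_lit 3009359426) (nat_lit 684) (nat_lit 7291185667) (nat_lit 760) (nat_lit 2284419030) (nat_lit 325) (nat_lit 5) (nat_lit 334) (nat_lit 5) (nat_lit 335) (nat_lit 5) (nat_lit 599) (nat_lit 548) (nat_lit 413)) (XT.lf (nat_lit 0) (nat_lit 142773404) (nat_lit 760) (nat_lit 2027524735) (nat_lit 76) (nat_lit 10550842862)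 (nat_lit 324) (nat_lit 5) (nat_lit 334) (nat_lit 5) (nat_lit 325) (nat_lit 5) (nat_lit 600) (nat_lit 548) (nat_lit 412)))) (XT.nd (nat_lit 156) (nat_lit 608) (nat_lit 0) (XT.nd (nat_lit 78) (nat_lit 684) (nat_lit 0) (XT.lf (nat_lit 0) (nat_lit 2630659910) (nat_lit 760) (nat_lit 7165420326) (nat_lit 76) (nat_lit 3062804768) (nat_lit 315) (nat_lit 5) (nat_lit 325) (nat_lit 5) (nat_lit 316) (nat_lit 5) (nat_lit 601) (nat_lit 548) (nat_lit 411)) (XT.lf (nat_lit 0) (nat_lit 572829277) (nat_lit 684) (nat_lit 4612878575) (nat_lit 760) (nat_lit 7813328312) (nat_lit 306) (nat_lit 5) (nat_lit 315) (nat_lit 5) (nat_lit 316) (nat_lit 5) (nat_lit 602) (nat_lit 548) (nat_lit 410))) (XT.nd (nat_lit 78) (nat_lit 608) (nat_lit 0) (XT.lf (nat_lit 0) (nat_lit 7830399746) (nat_lit 760) (nat_lit 4600365697) (nat_lit 76) (nat_lit 710454390) (nat_lit 306) (nat_lit 5) (nat_lit 316) (nat_lit 5) (nat_lit 307) (nat_lit 5) (nat_lit 603) (nat_lit 548) (nat_lit 409)) (XT.lf (nat_lit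 0) (nat_lit 3378482615) (nat_lit 608) (nat_lit 7188031041) (nat_lit 684) (nat_lit 2718963296) (nat_lit 298) (nat_lit 5) (nat_lit 306) (nat_lit 5) (nat_lit 307) (nat_lit 5) (nat_lit 604) (nat_lit 548) (nat_lit 408)))))) (XT.nd (nat_lit 624) (nat_lit 2660) (nat_lit 0) (XT.nd (nat_lit 312) (nat_lit 1824) (nat_lit 0) (XT.nd (nat_lit 156) (nat_lit 608) (nat_lit 0) (XT.nd (nat_lit 78) (nat_lit 684) (nat_lit 0) (XT.lf (nat_lit 0) (nat_lit 11562110439) (nat_lit 608) (nat_lit 1812316500) (nat_lit 684) (nat_lit 57851063) (nat_lit 298) (nat_lit 5) (nat_lit 306) (nat_lit 5) (nat_lit 307) (nat_lit 5) (nat_lit 605) (nat_lit 548) (nat_lit 407)) (XT.lf (nat_lit 0) (nat_lit 2673632652) (nat_lit 684) (nat_lit 7228535819) (nat_lit 76) (nat_lit 3678462179) (nat_lit 289) (nat_lit 5) (nat_lit 298) (nat_lit 5) (nat_lit 290) (nat_lit 5) (nat_lit 606) (nat_lit 548) (nat_lit 406))) (XT.nd (nat_lit 78) (nat_lit 0) (nat_lit 0) (XT.lf (nat_lit 0) (nat_lit 1016176002) (nat_lit 608)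 (nat_lit 4460550622) (nat_lit 684) (nat_lit 8254861287) (nat_lit 281) (nat_lit 5) (nat_lit 289) (nat_lit 5) (nat_lit 290) (nat_lit 5) (nat_lit 607) (nat_lit 548) (nat_lit 405)) (XT.lf (nat_lit 0) (nat_lit 8378438855) (nat_lit 684) (nat_lit 4385491768) (nat_lit 76) (nat_lit 1120782873) (nat_lit 281) (nat_lit 5) (nat_lit 290) (nat_lit 5) (nat_lit 282) (nat_lit 5) (nat_lit 608) (nat_lit 548) (nat_lit 404)))) (XT.nd (nat_lit 156) (nat_lit 1140) (nat_lit 0) (XT.nd (nat_lit 78) (nat_lit 76) (nat_lit 0) (XT.lf (nat_lit 0) (nat_lit 4118574340) (nat_lit 608) (nat_lit 7262804819) (nat_lit 684) (nat_lit 2658658858) (nat_lit 273) (nat_lit 5) (nat_lit 281) (nat_lit 5) (nat_lit 282) (nat_lit 5) (nat_lit 609) (nat_lit 548) (nat_lit 403)) (XT.lf (nat_lit 0) (nat_lit 259282626) (nat_lit 684) (nat_lit 1364493908) (nat_lit 76) (nat_lit 12574328881) (nat_lit 272) (nat_lit 5) (nat_lit 281) (nat_lit 5) (nat_lit 273) (nat_lit 5) (nat_lit 610) (nat_lit 548) (nat_lit 402))) (XT.nd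 (nat_lit 78) (nat_lit 608) (nat_lit 0) (XT.lf (nat_lit 0) (nat_lit 3262678890) (nat_lit 608) (nat_lit 6958731557) (nat_lit 76) (nat_lit 4136318614) (nat_lit 265) (nat_lit 5) (nat_lit 273) (nat_lit 5) (nat_lit 266) (nat_lit 5) (nat_lit 611) (nat_lit 548) (nat_lit 401)) (XT.lf (nat_lit 0) (nat_lit 1832335187) (nat_lit 608) (nat_lit 4513022800) (nat_lit 684) (nat_lit 8174803173) (nat_lit 257) (nat_lit 5) (nat_lit 265) (nat_lit 5) (nat_lit 266) (nat_lit 5) (nat_lit 612) (nat_lit 548) (nat_lit 400))))) (XT.nd (nat_lit 312) (nat_lit 1520) (nat_lit 0) (XT.nd (nat_lit 156) (nat_lit 608) (nat_lit 0) (XT.nd (nat_lit 78) (nat_lit 532) (nat_lit 0) (XT.lf (nat_lit 0) (nat_lit 9532659530) (nat_lit 684) (nat_lit 3817056931) (nat_lit 76) (nat_lit 1335266335) (nat_lit 257) (nat_lit 5) (nat_lit 266) (nat_lit 5) (nat_lit 258) (nat_lit 5) (nat_lit 613) (nat_lit 548) (nat_lit 399)) (XT.lf (nat_lit 0) (nat_lit 5253584705) (nat_lit 532) (nat_lit 7581826103) (nat_lit 608) (nat_lit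 2016656250) (nat_lit 250) (nat_lit 5) (nat_lit 257) (nat_lit 5) (nat_lit 258) (nat_lit 5) (nat_lit 614) (nat_lit 548) (nat_lit 398))) (XT.nd (nat_lit 78) (nat_lit 532) (nat_lit 0) (XT.lf (nat_lit 0) (nat_lit 1179769532) (nat_lit 608) (nat_lit 489053419) (nat_lit 76) (nat_lit 13353245980) (nat_lit 249) (nat_lit 5) (nat_lit 257) (nat_lit 5) (nat_lit 250) (nat_lit 5) (nat_lit 615) (nat_lit 548) (nat_lit 397)) (XT.lf (nat_lit 0) (nat_lit 4487629214) (nat_lit 608) (nat_lit 6333545295) (nat_lit 76) (nat_lit 4372539814) (nat_lit 242) (nat_lit 5) (nat_lit 250) (nat_lit 5) (nat_lit 243) (nat_lit 5) (nat_lit 616) (nat_lit 548) (nat_lit 396)))) (XT.nd (nat_lit 156) (nat_lit 1064) (nat_lit 0) (XT.nd (nat_lit 78) (nat_lit 0) (nat_lit 0) (XT.lf (nat_lit 0) (nat_lit 3046775908) (nat_lit 456) (nat_lit 4837109364) (nat_lit 532) (nat_lit 7484462815) (nat_lit 236) (nat_lit 5) (nat_lit 242) (nat_lit 5) (nat_lit 243) (nat_lit 5) (nat_lit 617) (nat_lit 548) (nat_lit 395)) (XT.lf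 (nat_lit 0) (nat_lit 11387273646) (nat_lit 532) (nat_lit 2870059704) (nat_lit 76) (nat_lit 1288357273) (nat_lit 236) (nat_lit 5) (nat_lit 243) (nat_lit 5) (nat_lit 237) (nat_lit 5) (nat_lit 618) (nat_lit 548) (nat_lit 394))) (XT.nd (nat_lit 78) (nat_lit 532) (nat_lit 0) (XT.lf (nat_lit 0) (nat_lit 6811621785) (nat_lit 532) (nat_lit 8213799226) (nat_lit 608) (nat_lit 699865413) (nat_lit 229) (nat_lit 5) (nat_lit 236) (nat_lit 5) (nat_lit 237) (nat_lit 5) (nat_lit 619) (nat_lit 548) (nat_lit 393)) (XT.lf (nat_lit 0) (nat_lit 793460831) (nat_lit 456) (nat_lit 2010325697) (nat_lit 532) (nat_lit 13104060289) (nat_lit 222) (nat_lit 5) (nat_lit 228) (nat_lit 5) (nat_lit 229) (nat_lit 5) (nat_lit 620) (nat_lit 548) (nat_lit 392))))))))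
noncomputable def xc118 : XT := (XT.nd (nat_lit 76050) (nat_lit 0) (nat_lit 25232) (XT.nd (nat_lit 1170) (nat_lit 6308) (nat_lit 0) (XT.nd (nat_lit 546) (nat_lit 2128) (nat_lit 0) (XT.nd (nat_lit 234) (nat_lit 1368) (nat_lit 0) (XT.nd (nat_lit 78) (nat_lit 456) (nat_lit 0) (XT.lf (nat_lit 0) (nat_lit 6444960011) (nat_lit 532) (nat_lit 5326668565) (nat_lit 76) (nat_lit 4320801148) (nat_lit 222) (nat_lit 5) (nat_lit 229) (nat_lit 5) (nat_lit 223) (nat_lit 5) (nat_lit 621) (nat_lit 548) (nat_lit 391)) (XT.nd (nat_lit 78) (nat_lit 0) (nat_lit 0) (XT.lf (nat_lit 0) (nat_lit 4689005470) (nat_lit 456) (nat_lit 5502502369) (nat_lit 532) (nat_lit 6088545653) (nat_lit 216) (nat_lit 5) (nat_lit 222) (nat_lit 5) (nat_lit 223) (nat_lit 5) (nat_lit 622) (nat_lit 548) (nat_lit 390)) (XT.lf (nat_lit 0) (nat_lit 14043638501) (nat_lit 532) (nat_lit 1515612944) (nat_lit 76) (nat_lit 911565468) (nat_lit 216) (nat_lit 5) (nat_lit 223) (nat_lit 5) (nat_lit 217) (nat_lit 5)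 (nat_lit 623) (nat_lit 548) (nat_lit 389)))) (XT.nd (nat_lit 156) (nat_lit 380) (nat_lit 0) (XT.nd (nat_lit 78) (nat_lit 456) (nat_lit 0) (XT.lf (nat_lit 0) (nat_lit 1373651883) (nat_lit 532) (nat_lit 7847898246) (nat_lit 76) (nat_lit 7442008252) (nat_lit 209) (nat_lit 5) (nat_lit 216) (nat_lit 5) (nat_lit 210) (nat_lit 5) (nat_lit 624) (nat_lit 548) (nat_lit 388)) (XT.lf (nat_lit 0) (nat_lit 2515204771) (nat_lit 456) (nat_lit 2718530256) (nat_lit 532) (nat_lit 11625784259) (nat_lit 203) (nat_lit 5) (nat_lit 209) (nat_lit 5) (nat_lit 210) (nat_lit 5) (nat_lit 625) (nat_lit 548) (nat_lit 387))) (XT.nd (nat_lit 78) (nat_lit 380) (nat_lit 0) (XT.lf (nat_lit 0) (nat_lit 9238664535) (nat_lit 532) (nat_lit 3908032995) (nat_lit 76) (nat_lit 3911349182) (nat_lit 203) (nat_lit 5) (nat_lit 210) (nat_lit 5) (nat_lit 204) (nat_lit 5) (nat_lit 626) (nat_lit 548) (nat_lit 386)) (XT.lf (nat_lit 0) (nat_lit 6792494238) (nat_lit 380) (nat_lit 6582731279) (nat_lit 456)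 (nat_lit 3884288707) (nat_lit 198) (nat_lit 5) (nat_lit 203) (nat_lit 5) (nat_lit 204) (nat_lit 5) (nat_lit 627) (nat_lit 548) (nat_lit 385))))) (XT.nd (nat_lit 312) (nat_lit 1216) (nat_lit 0) (XT.nd (nat_lit 156) (nat_lit 380) (nat_lit 0) (XT.nd (nat_lit 78) (nat_lit 0) (nat_lit 0) (XT.lf (nat_lit 0) (nat_lit 146397279) (nat_lit 532) (nat_lit 17182917813) (nat_lit 76) (nat_lit 135307581) (nat_lit 191) (nat_lit 5) (nat_lit 198) (nat_lit 5) (nat_lit 192) (nat_lit 5) (nat_lit 628) (nat_lit 548) (nat_lit 384)) (XT.lf (nat_lit 0) (nat_lit 4309572068) (nat_lit 532) (nat_lit 6370596492) (nat_lit 76) (nat_lit 6991073698) (nat_lit 191) (nat_lit 5) (nat_lit 198) (nat_lit 5) (nat_lit 192) (nat_lit 5) (nat_lit 629) (nat_lit 548) (nat_lit 383))) (XT.nd (nat_lit 78) (nat_lit 0) (nat_lit 0) (XT.lf (nat_lit 0) (nat_lit 4704304123) (nat_lit 380) (nat_lit 3871993290) (nat_lit 456) (nat_lit 9305291259) (nat_lit 186) (nat_lit 5) (nat_lit 191) (nat_lit 5) (nat_lit 192) (nat_lit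 5) (nat_lit 630) (nat_lit 548) (nat_lit 382)) (XT.lf (nat_lit 0) (nat_lit 12981150566) (nat_lit 456) (nat_lit 2043893902) (nat_lit 76) (nat_lit 3070041857) (nat_lit 186) (nat_lit 5) (nat_lit 192) (nat_lit 5) (nat_lit 187) (nat_lit 5) (nat_lit 631) (nat_lit 548) (nat_lit 381)))) (XT.nd (nat_lit 156) (nat_lit 380) (nat_lit 0) (XT.nd (nat_lit 78) (nat_lit 456) (nat_lit 0) (XT.lf (nat_lit 0) (nat_lit 9394602818) (nat_lit 380) (nat_lit 8156148480) (nat_lit 456) (nat_lit 760569795) (nat_lit 181) (nat_lit 5) (nat_lit 186) (nat_lit 5) (nat_lit 187) (nat_lit 5) (nat_lit 632) (nat_lit 548) (nat_lit 380)) (XT.lf (nat_lit 0) (nat_lit 2552295389) (nat_lit 380) (nat_lit 1099728422) (nat_lit 456) (nat_lit 14878970621) (nat_lit 175) (nat_lit 5) (nat_lit 180) (nat_lit 5) (nat_lit 181) (nat_lit 5) (nat_lit 633) (nat_lit 548) (nat_lit 379))) (XT.nd (nat_lit 78) (nat_lit 380) (nat_lit 0) (XT.lf (nat_lit 0) (nat_lit 8232626363) (nat_lit 456) (nat_lit 4442558948) (nat_lit 76)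 (nat_lit 6077976721) (nat_lit 175) (nat_lit 5) (nat_lit 181) (nat_lit 5) (nat_lit 176) (nat_lit 5) (nat_lit 634) (nat_lit 548) (nat_lit 378)) (XT.lf (nat_lit 0) (nat_lit 7399132547) (nat_lit 380) (nat_lit 5551333772) (nat_lit 456) (nat_lit 6028394317) (nat_lit 170) (nat_lit 5) (nat_lit 175) (nat_lit 5) (nat_lit 176) (nat_lit 5) (nat_lit 635) (nat_lit 548) (nat_lit 377)))))) (XT.nd (nat_lit 2184) (nat_lit 304) (nat_lit 0) (XT.nd (nat_lit 312) (nat_lit 5168) (nat_lit 0) (XT.nd (nat_lit 156) (nat_lit 380) (nat_lit 0) (XT.nd (nat_lit 78) (nat_lit 76) (nat_lit 0) (XT.lf (nat_lit 0) (nat_lit 307106942) (nat_lit 380) (nat_lit 17489056521) (nat_lit 456) (nat_lit 1412239897) (nat_lit 165) (nat_lit 5) (nat_lit 170) (nat_lit 5) (nat_lit 171) (nat_lit 5) (nat_lit 636) (nat_lit 548) (nat_lit 376)) (XT.lf (nat_lit 0) (nat_lit 3358382494) (nat_lit 456) (nat_lit 6926036346) (nat_lit 76) (nat_lit 9155582710) (nat_lit 164) (nat_lit 5) (nat_lit 170) (nat_lit 5) (nat_lit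 165) (nat_lit 5) (nat_lit 637) (nat_lit 548) (nat_lit 375))) (XT.nd (nat_lit 78) (nat_lit 0) (nat_lit 0) (XT.lf (nat_lit 0) (nat_lit 5334616593) (nat_lit 380) (nat_lit 2896123955) (nat_lit 456) (nat_lit 11444799942) (nat_lit 159) (nat_lit 5) (nat_lit 164) (nat_lit 5) (nat_lit 165) (nat_lit 5) (nat_lit 638) (nat_lit 548) (nat_lit 374)) (XT.lf (nat_lit 0) (nat_lit 13268091375) (nat_lit 456) (nat_lit 2025706878) (nat_lit 76) (nat_lit 4620641188) (nat_lit 159) (nat_lit 5) (nat_lit 165) (nat_lit 5) (nat_lit 160) (nat_lit 5) (nat_lit 639) (nat_lit 548) (nat_lit 373)))) (XT.nd (nat_lit 1716) (nat_lit 456) (nat_lit 0) (XT.nd (nat_lit 1638) (nat_lit 4408) (nat_lit 0) (XT.lf (nat_lit 0) (nat_lit 10641712922) (nat_lit 304) (nat_lit 7843567530) (nat_lit 380) (nat_lit 1671254238) (nat_lit 155) (nat_lit 5) (nat_lit 159) (nat_lit 5) (nat_lit 160) (nat_lit 5) (nat_lit 640) (nat_lit 548) (nat_lit 372)) (XT.lf (nat_lit 0) (nat_lit 10345124245) (nat_lit 380) (nat_lit 5431310310)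 (nat_lit 76) (nat_lit 10333708069) (nat_lit 97) (nat_lit 5) (nat_lit 102) (nat_lit 5) (nat_lit 98) (nat_lit 5) (nat_lit 661) (nat_lit 548) (nat_lit 351))) (XT.nd (nat_lit 78) (nat_lit 228) (nat_lit 0) (XT.lf (nat_lit 0) (nat_lit 11283752540) (nat_lit 228) (nat_lit 6373791504) (nat_lit 304) (nat_lit 8781939530) (nat_lit 94) (nat_lit 5) (nat_lit 97) (nat_lit 5) (nat_lit 98) (nat_lit 5) (nat_lit 662) (nat_lit 548) (nat_lit 350)) (XT.lf (nat_lit 0) (nat_lit 1619365576) (nat_lit 228) (nat_lit 23557532052) (nat_lit 304) (nat_lit 1597300088) (nat_lit 91) (nat_lit 5) (nat_lit 94) (nat_lit 5) (nat_lit 95) (nat_lit 5) (nat_lit 663) (nat_lit 548) (nat_lit 349))))) (XT.nd (nat_lit 72384) (nat_lit 0) (nat_lit 38532) (XT.nd (nat_lit 72228) (nat_lit 0) (nat_lit 39976) (XT.nd (nat_lit 78) (nat_lit 228) (nat_lit 0) (XT.lf (nat_lit 0) (nat_lit 5793066316) (nat_lit 304) (nat_lit 8271077955) (nat_lit 76) (nat_lit 13047973799) (nat_lit 90) (nat_lit 5) (nat_lit 94) (nat_lit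 5) (nat_lit 91) (nat_lit 5) (nat_lit 664) (nat_lit 548) (nat_lit 348)) (XT.lf (nat_lit 0) (nat_lit 9045846182) (nat_lit 228) (nat_lit 4315513223) (nat_lit 304) (nat_lit 14094196193) (nat_lit 87) (nat_lit 5) (nat_lit 90) (nat_lit 5) (nat_lit 91) (nat_lit 5) (nat_lit 665) (nat_lit 548) (nat_lit 347))) (XT.nd (nat_lit 78) (nat_lit 0) (nat_lit 0) (XT.lf (nat_lit 0) (nat_lit 3026215929) (nat_lit 1444) (nat_lit 497598351) (nat_lit 1444) (nat_lit 497598351) (nat_lit 613) (nat_lit 3) (nat_lit 632) (nat_lit 3) (nat_lit 632) (nat_lit 5) (nat_lit 549) (nat_lit 549) (nat_lit 462)) (XT.lf (nat_lit 76) (nat_lit 3051853564) (nat_lit 0) (nat_lit 4275050934) (nat_lit 1444) (nat_lit 772026857) (nat_lit 614) (nat_lit 5) (nat_lit 613) (nat_lit 3) (nat_lit 632) (nat_lit 5) (nat_lit 550) (nat_lit 549) (nat_lit 461)))) (XT.nd (nat_lit 156) (nat_lit 0) (nat_lit 76) (XT.nd (nat_lit 78) (nat_lit 0) (nat_lit 76) (XT.lf (nat_lit 0) (nat_lit 439619232) (nat_lit 1444) (nat_lit 982400300)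 (nat_lit 1520) (nat_lit 6734578311) (nat_lit 594) (nat_lit 5) (nat_lit 613) (nat_lit 3) (nat_lit 614) (nat_lit 5) (nat_lit 551) (nat_lit 549) (nat_lit 460)) (XT.lf (nat_lit 0) (nat_lit 1664754072) (nat_lit 1444) (nat_lit 5041518780) (nat_lit 1520) (nat_lit 1509051970) (nat_lit 595) (nat_lit 5) (nat_lit 614) (nat_lit 5) (nat_lit 615) (nat_lit 5) (nat_lit 552) (nat_lit 549) (nat_lit 459))) (XT.nd (nat_lit 78) (nat_lit 0) (nat_lit 0) (XT.lf (nat_lit 0) (nat_lit 2900024696) (nat_lit 1444) (nat_lit 874982842) (nat_lit 1520) (nat_lit 4500507208) (nat_lit 595) (nat_lit 5) (nat_lit 614) (nat_lit 5) (nat_lit 615) (nat_lit 5) (nat_lit 553) (nat_lit 549) (nat_lit 458)) (XT.lf (nat_lit 76) (nat_lit 3402964749) (nat_lit 0) (nat_lit 749306422) (nat_lit 1520) (nat_lit 4184792936) (nat_lit 596) (nat_lit 5) (nat_lit 595) (nat_lit 5) (nat_lit 615) (nat_lit 5) (nat_lit 554) (nat_lit 549) (nat_lit 457))))))) (XT.nd (nat_lit 1170) (nat_lit 10640) (nat_lit 0) (XT.nd (nat_lit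 546) (nat_lit 1368) (nat_lit 0) (XT.nd (nat_lit 234) (nat_lit 1444) (nat_lit 0) (XT.nd (nat_lit 78) (nat_lit 0) (nat_lit 0) (XT.lf (nat_lit 0) (nat_lit 5421383780) (nat_lit 1444) (nat_lit 653719168) (nat_lit 1520) (nat_lit 2324906110) (nat_lit 596) (nat_lit 5) (nat_lit 615) (nat_lit 5) (nat_lit 616) (nat_lit 5) (nat_lit 555) (nat_lit 549) (nat_lit 456)) (XT.nd (nat_lit 78) (nat_lit 0) (nat_lit 76) (XT.lf (nat_lit 76) (nat_lit 3739574652) (nat_lit 0) (nat_lit 2976857808) (nat_lit 1520) (nat_lit 1747770377) (nat_lit 597) (nat_lit 5) (nat_lit 596) (nat_lit 5) (nat_lit 616) (nat_lit 5) (nat_lit 556) (nat_lit 549) (nat_lit 455)) (XT.lf (nat_lit 0) (nat_lit 8014829546) (nat_lit 1444) (nat_lit 318523838) (nat_lit 1520) (nat_lit 196779145) (nat_lit 597) (nat_lit 5) (nat_lit 616) (nat_lit 5) (nat_lit 617) (nat_lit 5) (nat_lit 557) (nat_lit 549) (nat_lit 454)))) (XT.nd (nat_lit 156) (nat_lit 0) (nat_lit 76) (XT.nd (nat_lit 78) (nat_lit 0) (nat_lit 0) (XT.lf (nat_lit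 0) (nat_lit 751549805) (nat_lit 1520) (nat_lit 4407913635) (nat_lit 1596) (nat_lit 3437432695) (nat_lit 577) (nat_lit 5) (nat_lit 597) (nat_lit 5) (nat_lit 598) (nat_lit 5) (nat_lit 558) (nat_lit 549) (nat_lit 453)) (XT.lf (nat_lit 76) (nat_lit 106757002) (nat_lit 0) (nat_lit 1905578181) (nat_lit 1596) (nat_lit 6653082728) (nat_lit 578) (nat_lit 5) (nat_lit 577) (nat_lit 5) (nat_lit 598) (nat_lit 5) (nat_lit 559) (nat_lit 549) (nat_lit 452))) (XT.nd (nat_lit 78) (nat_lit 0) (nat_lit 0) (XT.lf (nat_lit 0) (nat_lit 3310421539) (nat_lit 1520) (nat_lit 3990330332) (nat_lit 1596) (nat_lit 1434317458) (nat_lit 578) (nat_lit 5) (nat_lit 598) (nat_lit 5) (nat_lit 599) (nat_lit 5) (nat_lit 560) (nat_lit 549) (nat_lit 451)) (XT.lf (nat_lit 76) (nat_lit 647880719) (nat_lit 0) (nat_lit 3977075222) (nat_lit 1596) (nat_lit 4181349001) (nat_lit 579) (nat_lit 5) (nat_lit 578) (nat_lit 5) (nat_lit 599) (nat_lit 5) (nat_lit 561) (nat_lit 549) (nat_lit 450))))) (XT.nd (nat_lit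 312) (nat_lit 0) (nat_lit 0) (XT.nd (nat_lit 156) (nat_lit 1444) (nat_lit 0) (XT.nd (nat_lit 78) (nat_lit 0) (nat_lit 76) (XT.lf (nat_lit 76) (nat_lit 5415696715) (nat_lit 0) (nat_lit 550926131) (nat_lit 1596) (nat_lit 2912326460) (nat_lit 579) (nat_lit 5) (nat_lit 578) (nat_lit 5) (nat_lit 599) (nat_lit 5) (nat_lit 562) (nat_lit 549) (nat_lit 449)) (XT.lf (nat_lit 76) (nat_lit 1306367242) (nat_lit 0) (nat_lit 6030978828) (nat_lit 1596) (nat_lit 1615656886) (nat_lit 580) (nat_lit 5) (nat_lit 579) (nat_lit 5) (nat_lit 600) (nat_lit 5) (nat_lit 563) (nat_lit 549) (nat_lit 448))) (XT.nd (nat_lit 78) (nat_lit 1520) (nat_lit 0) (XT.lf (nat_lit 76) (nat_lit 6197267022) (nat_lit 0) (nat_lit 2540094690) (nat_lit 1596) (nat_lit 291139252) (nat_lit 580) (nat_lit 5) (nat_lit 579) (nat_lit 5) (nat_lit 600) (nat_lit 5) (nat_lit 564) (nat_lit 549) (nat_lit 447)) (XT.lf (nat_lit 0) (nat_lit 1041645468) (nat_lit 1596) (nat_lit 7028831791) (nat_lit 1672) (nat_lit 1034981311)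 (nat_lit 559) (nat_lit 5) (nat_lit 580) (nat_lit 5) (nat_lit 581) (nat_lit 5) (nat_lit 565) (nat_lit 549) (nat_lit 446)))) (XT.nd (nat_lit 156) (nat_lit 0) (nat_lit 76) (XT.nd (nat_lit 78) (nat_lit 0) (nat_lit 0) (XT.lf (nat_lit 0) (nat_lit 2408895392) (nat_lit 1596) (nat_lit 2099195311) (nat_lit 1672) (nat_lit 4675592774) (nat_lit 559) (nat_lit 5) (nat_lit 580) (nat_lit 5) (nat_lit 581) (nat_lit 5) (nat_lit 566) (nat_lit 549) (nat_lit 445)) (XT.lf (nat_lit 76) (nat_lit 2950309020) (nat_lit 0) (nat_lit 848569507) (nat_lit 1672) (nat_lit 5464687367) (nat_lit 560) (nat_lit 5) (nat_lit 559) (nat_lit 5) (nat_lit 581) (nat_lit 5) (nat_lit 567) (nat_lit 549) (nat_lit 444))) (XT.nd (nat_lit 78) (nat_lit 0) (nat_lit 0) (XT.lf (nat_lit 0) (nat_lit 5226193274) (nat_lit 1596) (nat_lit 1252137509) (nat_lit 1672) (nat_lit 2866525300) (nat_lit 560) (nat_lit 5) (nat_lit 581) (nat_lit 5) (nat_lit 582) (nat_lit 5) (nat_lit 568) (nat_lit 549) (nat_lit 443)) (XT.lf (nat_lit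 76) (nat_lit 3938778828) (nat_lit 0) (nat_lit 2751552818) (nat_lit 1672) (nat_lit 2737275632) (nat_lit 561) (nat_lit 5) (nat_lit 560) (nat_lit 5) (nat_lit 582) (nat_lit 5) (nat_lit 569) (nat_lit 549) (nat_lit 442)))))) (XT.nd (nat_lit 624) (nat_lit 5776) (nat_lit 0) (XT.nd (nat_lit 312) (nat_lit 3344) (nat_lit 0) (XT.nd (nat_lit 156) (nat_lit 0) (nat_lit 0) (XT.nd (nat_lit 78) (nat_lit 1672) (nat_lit 0) (XT.lf (nat_lit 0) (nat_lit 8176481817) (nat_lit 1596) (nat_lit 286065206) (nat_lit 1672) (nat_lit 1049612625) (nat_lit 561) (nat_lit 5) (nat_lit 582) (nat_lit 5) (nat_lit 583) (nat_lit 5) (nat_lit 570) (nat_lit 549) (nat_lit 441)) (XT.lf (nat_lit 0) (nat_lit 121826270) (nat_lit 1672) (nat_lit 4547332438) (nat_lit 1748) (nat_lit 4928650732) (nat_lit 539) (nat_lit 5) (nat_lit 561) (nat_lit 5) (nat_lit 562) (nat_lit 5) (nat_lit 571) (nat_lit 549) (nat_lit 440))) (XT.nd (nat_lit 78) (nat_lit 0) (nat_lit 76) (XT.lf (nat_lit 76) (nat_lit 796418551) (nat_lit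 0) (nat_lit 779369993) (nat_lit 1748) (nat_lit 8109503940) (nat_lit 540) (nat_lit 5) (nat_lit 539) (nat_lit 5) (nat_lit 562) (nat_lit 5) (nat_lit 572) (nat_lit 549) (nat_lit 439)) (XT.lf (nat_lit 0) (nat_lit 3088662425) (nat_lit 1672) (nat_lit 3504137494) (nat_lit 76) (nat_lit 3181129302) (nat_lit 540) (nat_lit 5) (nat_lit 562) (nat_lit 5) (nat_lit 541) (nat_lit 5) (nat_lit 573) (nat_lit 549) (nat_lit 438)))) (XT.nd (nat_lit 156) (nat_lit 1748) (nat_lit 0) (XT.nd (nat_lit 78) (nat_lit 0) (nat_lit 0) (XT.lf (nat_lit 0) (nat_lit 1991600161) (nat_lit 1672) (nat_lit 2637124305) (nat_lit 1748) (nat_lit 5235676275) (nat_lit 518) (nat_lit 5) (nat_lit 540) (nat_lit 5) (nat_lit 541) (nat_lit 5) (nat_lit 574) (nat_lit 549) (nat_lit 437)) (XT.lf (nat_lit 0) (nat_lit 6211493814) (nat_lit 1748) (nat_lit 2338665243) (nat_lit 76) (nat_lit 1406285166) (nat_lit 518) (nat_lit 5) (nat_lit 541) (nat_lit 5) (nat_lit 519) (nat_lit 5) (nat_lit 575) (nat_lit 549) (nat_lit 436)))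 (XT.nd (nat_lit 78) (nat_lit 0) (nat_lit 0) (XT.lf (nat_lit 0) (nat_lit 3314535975) (nat_lit 1748) (nat_lit 4529936905) (nat_lit 1824) (nat_lit 2205485244) (nat_lit 495) (nat_lit 5) (nat_lit 518) (nat_lit 5) (nat_lit 519) (nat_lit 5) (nat_lit 576) (nat_lit 549) (nat_lit 435)) (XT.lf (nat_lit 0) (nat_lit 9094995222) (nat_lit 1748) (nat_lit 410666673) (nat_lit 1824) (nat_lit 639770027) (nat_lit 495) (nat_lit 5) (nat_lit 518) (nat_lit 5) (nat_lit 519) (nat_lit 5) (nat_lit 577) (nat_lit 549) (nat_lit 434))))) (XT.nd (nat_lit 312) (nat_lit 1824) (nat_lit 0) (XT.nd (nat_lit 156) (nat_lit 912) (nat_lit 0) (XT.nd (nat_lit 78) (nat_lit 1140) (nat_lit 0) (XT.lf (nat_lit 0) (nat_lit 980784594) (nat_lit 1900) (nat_lit 5479951899) (nat_lit 76) (nat_lit 3781233406) (nat_lit 470) (nat_lit 5) (nat_lit 495) (nat_lit 5) (nat_lit 471) (nat_lit 5) (nat_lit 578) (nat_lit 549) (nat_lit 433)) (XT.lf (nat_lit 0) (nat_lit 344455906) (nat_lit 1140) (nat_lit 2273200149) (nat_lit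 1216) (nat_lit 7722849148) (nat_lit 455) (nat_lit 5) (nat_lit 470) (nat_lit 5) (nat_lit 471) (nat_lit 5) (nat_lit 579) (nat_lit 549) (nat_lit 432))) (XT.nd (nat_lit 78) (nat_lit 912) (nat_lit 0) (XT.lf (nat_lit 0) (nat_lit 4317948142) (nat_lit 1216) (nat_lit 4111861152) (nat_lit 76) (nat_lit 2010588832) (nat_lit 455) (nat_lit 5) (nat_lit 471) (nat_lit 5) (nat_lit 456) (nat_lit 5) (nat_lit 580) (nat_lit 549) (nat_lit 431)) (XT.lf (nat_lit 0) (nat_lit 1881989047) (nat_lit 912) (nat_lit 4178602407) (nat_lit 988) (nat_lit 4481531113) (nat_lit 443) (nat_lit 5) (nat_lit 455) (nat_lit 5) (nat_lit 456) (nat_lit 5) (nat_lit 581) (nat_lit 549) (nat_lit 430)))) (XT.nd (nat_lit 156) (nat_lit 912) (nat_lit 0) (XT.nd (nat_lit 78) (nat_lit 912) (nat_lit 0) (XT.lf (nat_lit 0) (nat_lit 7848223184) (nat_lit 988) (nat_lit 2612997454) (nat_lit 76) (nat_lit 184458703) (nat_lit 443) (nat_lit 5) (nat_lit 456) (nat_lit 5) (nat_lit 444) (nat_lit 5) (nat_lit 582) (nat_lit 549)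 (nat_lit 429)) (XT.lf (nat_lit 0) (nat_lit 3556488476) (nat_lit 912) (nat_lit 6147585602) (nat_lit 988) (nat_lit 1046584386) (nat_lit 431) (nat_lit 5) (nat_lit 443) (nat_lit 5) (nat_lit 444) (nat_lit 5) (nat_lit 583) (nat_lit 549) (nat_lit 428))) (XT.nd (nat_lit 78) (nat_lit 836) (nat_lit 0) (XT.lf (nat_lit 0) (nat_lit 729087408) (nat_lit 988) (nat_lit 995209113) (nat_lit 76) (nat_lit 9133355596) (nat_lit 430) (nat_lit 5) (nat_lit 443) (nat_lit 5) (nat_lit 431) (nat_lit 5) (nat_lit 584) (nat_lit 549) (nat_lit 427)) (XT.lf (nat_lit 0) (nat_lit 2561725503) (nat_lit 912) (nat_lit 5610747566) (nat_lit 76) (nat_lit 2793465397) (nat_lit 419) (nat_lit 5) (nat_lit 431) (nat_lit 5) (nat_lit 420) (nat_lit 5) (nat_lit 585) (nat_lit 549) (nat_lit 426))))))))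
noncomputable def xc119 : XT := (XT.nd (nat_lit 2418) (nat_lit 11476) (nat_lit 0) (XT.nd (nat_lit 1170) (nat_lit 6308) (nat_lit 0) (XT.nd (nat_lit 546) (nat_lit 3724) (nat_lit 0) (XT.nd (nat_lit 234) (nat_lit 1672) (nat_lit 0) (XT.nd (nat_lit 78) (nat_lit 836) (nat_lit 0) (XT.lf (nat_lit 0) (nat_lit 750629689) (nat_lit 912) (nat_lit 3685826078) (nat_lit 988) (nat_lit 6639826491) (nat_lit 407) (nat_lit 5) (nat_lit 419) (nat_lit 5) (nat_lit 420) (nat_lit 5) (nat_lit 586) (nat_lit 549) (nat_lit 425)) (XT.nd (nat_lit 78) (nat_lit 836) (nat_lit 0) (XT.lf (nat_lit 0) (nat_lit 6375017561) (nat_lit 988) (nat_lit 3896636375) (nat_lit 76) (nat_lit 916652743) (nat_lit 407) (nat_lit 5) (nat_lit 420) (nat_lit 5) (nat_lit 408) (nat_lit 5) (nat_lit 587) (nat_lit 549) (nat_lit 424)) (XT.lf (nat_lit 0) (nat_lit 2653891561) (nat_lit 836) (nat_lit 5723093853) (nat_lit 912) (nat_lit 2925093963) (nat_lit 396) (nat_lit 5) (nat_lit 407) (nat_lit 5) (nat_lit 408) (nat_lit 5)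 (nat_lit 588) (nat_lit 549) (nat_lit 423)))) (XT.nd (nat_lit 156) (nat_lit 760) (nat_lit 0) (XT.nd (nat_lit 78) (nat_lit 912) (nat_lit 0) (XT.lf (nat_lit 0) (nat_lit 9370899490) (nat_lit 836) (nat_lit 1057456957) (nat_lit 912) (nat_lit 989584277) (nat_lit 396) (nat_lit 5) (nat_lit 407) (nat_lit 5) (nat_lit 408) (nat_lit 5) (nat_lit 589) (nat_lit 549) (nat_lit 422)) (XT.lf (nat_lit 0) (nat_lit 1010105019) (nat_lit 912) (nat_lit 6835516700) (nat_lit 76) (nat_lit 3689602518) (nat_lit 384) (nat_lit 5) (nat_lit 396) (nat_lit 5) (nat_lit 385) (nat_lit 5) (nat_lit 590) (nat_lit 549) (nat_lit 421))) (XT.nd (nat_lit 78) (nat_lit 760) (nat_lit 0) (XT.lf (nat_lit 0) (nat_lit 3041024385) (nat_lit 912) (nat_lit 76526777) (nat_lit 76) (nat_lit 8537082144) (nat_lit 384) (nat_lit 5) (nat_lit 396) (nat_lit 5) (nat_lit 385) (nat_lit 5) (nat_lit 591) (nat_lit 549) (nat_lit 420)) (XT.lf (nat_lit 0) (nat_lit 5152626897) (nat_lit 836) (nat_lit 4896296266) (nat_lit 76) (nat_lit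 1726706535) (nat_lit 374) (nat_lit 5) (nat_lit 385) (nat_lit 5) (nat_lit 375) (nat_lit 5) (nat_lit 592) (nat_lit 549) (nat_lit 419))))) (XT.nd (nat_lit 312) (nat_lit 2128) (nat_lit 0) (XT.nd (nat_lit 156) (nat_lit 836) (nat_lit 0) (XT.nd (nat_lit 78) (nat_lit 0) (nat_lit 0) (XT.lf (nat_lit 0) (nat_lit 2065456698) (nat_lit 760) (nat_lit 5259739114) (nat_lit 836) (nat_lit 4573475949) (nat_lit 364) (nat_lit 5) (nat_lit 374) (nat_lit 5) (nat_lit 375) (nat_lit 5) (nat_lit 593) (nat_lit 549) (nat_lit 418)) (XT.lf (nat_lit 0) (nat_lit 9215633950) (nat_lit 760) (nat_lit 342798964) (nat_lit 836) (nat_lit 2465397836) (nat_lit 364) (nat_lit 5) (nat_lit 374) (nat_lit 5) (nat_lit 375) (nat_lit 5) (nat_lit 594) (nat_lit 549) (nat_lit 417))) (XT.nd (nat_lit 78) (nat_lit 76) (nat_lit 0) (XT.lf (nat_lit 0) (nat_lit 4367118801) (nat_lit 760) (nat_lit 7512563965) (nat_lit 836) (nat_lit 270943607) (nat_lit 354) (nat_lit 5) (nat_lit 364) (nat_lit 5) (nat_lit 365) (nat_lit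 5) (nat_lit 595) (nat_lit 549) (nat_lit 416)) (XT.lf (nat_lit 0) (nat_lit 1947582843) (nat_lit 836) (nat_lit 587975176) (nat_lit 76) (nat_lit 9744025092) (nat_lit 353) (nat_lit 5) (nat_lit 364) (nat_lit 5) (nat_lit 354) (nat_lit 5) (nat_lit 596) (nat_lit 549) (nat_lit 415)))) (XT.nd (nat_lit 156) (nat_lit 684) (nat_lit 0) (XT.nd (nat_lit 78) (nat_lit 684) (nat_lit 0) (XT.lf (nat_lit 0) (nat_lit 4252985847) (nat_lit 836) (nat_lit 5605032646) (nat_lit 76) (nat_lit 2552142383) (nat_lit 343) (nat_lit 5) (nat_lit 354) (nat_lit 5) (nat_lit 344) (nat_lit 5) (nat_lit 597) (nat_lit 549) (nat_lit 414)) (XT.lf (nat_lit 0) (nat_lit 1800523105) (nat_lit 684) (nat_lit 4821644269) (nat_lit 760) (nat_lit 5920829793) (nat_lit 334) (nat_lit 5) (nat_lit 343) (nat_lit 5) (nat_lit 344) (nat_lit 5) (nat_lit 598) (nat_lit 549) (nat_lit 413))) (XT.nd (nat_lit 78) (nat_lit 684) (nat_lit 0) (XT.lf (nat_lit 0) (nat_lit 9064023786) (nat_lit 760) (nat_lit 3267098180) (nat_lit 76)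 (nat_lit 346862767) (nat_lit 334) (nat_lit 5) (nat_lit 344) (nat_lit 5) (nat_lit 335) (nat_lit 5) (nat_lit 599) (nat_lit 549) (nat_lit 412)) (XT.lf (nat_lit 0) (nat_lit 4366224815) (nat_lit 684) (nat_lit 7234440280) (nat_lit 760) (nat_lit 1214088367) (nat_lit 325) (nat_lit 5) (nat_lit 334) (nat_lit 5) (nat_lit 335) (nat_lit 5) (nat_lit 600) (nat_lit 549) (nat_lit 411)))))) (XT.nd (nat_lit 624) (nat_lit 2964) (nat_lit 0) (XT.nd (nat_lit 312) (nat_lit 1900) (nat_lit 0) (XT.nd (nat_lit 156) (nat_lit 684) (nat_lit 0) (XT.nd (nat_lit 78) (nat_lit 684) (nat_lit 0) (XT.lf (nat_lit 0) (nat_lit 1225415395) (nat_lit 760) (nat_lit 782445614) (nat_lit 76) (nat_lit 10946080398) (nat_lit 324) (nat_lit 5) (nat_lit 334) (nat_lit 5) (nat_lit 325) (nat_lit 5) (nat_lit 601) (nat_lit 549) (nat_lit 410)) (XT.lf (nat_lit 0) (nat_lit 3751544771) (nat_lit 760) (nat_lit 6011558097) (nat_lit 76) (nat_lit 3331568243) (nat_lit 315) (nat_lit 5) (nat_lit 325) (nat_lit 5) (nat_lit 316)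 (nat_lit 5) (nat_lit 602) (nat_lit 549) (nat_lit 409))) (XT.nd (nat_lit 78) (nat_lit 0) (nat_lit 0) (XT.lf (nat_lit 0) (nat_lit 1872922480) (nat_lit 684) (nat_lit 4472191372) (nat_lit 760) (nat_lit 6892763551) (nat_lit 306) (nat_lit 5) (nat_lit 315) (nat_lit 5) (nat_lit 316) (nat_lit 5) (nat_lit 603) (nat_lit 549) (nat_lit 408)) (XT.lf (nat_lit 0) (nat_lit 9023482521) (nat_lit 760) (nat_lit 3409761571) (nat_lit 76) (nat_lit 950045499) (nat_lit 306) (nat_lit 5) (nat_lit 316) (nat_lit 5) (nat_lit 307) (nat_lit 5) (nat_lit 604) (nat_lit 549) (nat_lit 407)))) (XT.nd (nat_lit 156) (nat_lit 1216) (nat_lit 0) (XT.nd (nat_lit 78) (nat_lit 76) (nat_lit 0) (XT.lf (nat_lit 0) (nat_lit 4720225475) (nat_lit 608) (nat_lit 7082042977) (nat_lit 684) (nat_lit 1728404898) (nat_lit 298) (nat_lit 5) (nat_lit 306) (nat_lit 5) (nat_lit 307) (nat_lit 5) (nat_lit 605) (nat_lit 549) (nat_lit 406)) (XT.lf (nat_lit 0) (nat_lit 952778678) (nat_lit 684) (nat_lit 644538854) (nat_lit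 76) (nat_lit 12083369742) (nat_lit 297) (nat_lit 5) (nat_lit 306) (nat_lit 5) (nat_lit 298) (nat_lit 5) (nat_lit 606) (nat_lit 549) (nat_lit 405))) (XT.nd (nat_lit 78) (nat_lit 608) (nat_lit 0) (XT.lf (nat_lit 0) (nat_lit 3728094092) (nat_lit 684) (nat_lit 6100410290) (nat_lit 76) (nat_lit 4003695875) (nat_lit 289) (nat_lit 5) (nat_lit 298) (nat_lit 5) (nat_lit 290) (nat_lit 5) (nat_lit 607) (nat_lit 549) (nat_lit 404)) (XT.lf (nat_lit 0) (nat_lit 2300822765) (nat_lit 608) (nat_lit 4275008772) (nat_lit 684) (nat_lit 7410573950) (nat_lit 281) (nat_lit 5) (nat_lit 289) (nat_lit 5) (nat_lit 290) (nat_lit 5) (nat_lit 608) (nat_lit 549) (nat_lit 403))))) (XT.nd (nat_lit 312) (nat_lit 1748) (nat_lit 0) (XT.nd (nat_lit 156) (nat_lit 608) (nat_lit 0) (XT.nd (nat_lit 78) (nat_lit 608) (nat_lit 0) (XT.lf (nat_lit 0) (nat_lit 9517923572) (nat_lit 684) (nat_lit 3215992244) (nat_lit 76) (nat_lit 1409031303) (nat_lit 281) (nat_lit 5) (nat_lit 290) (nat_lit 5) (nat_lit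 282) (nat_lit 5) (nat_lit 609) (nat_lit 549) (nat_lit 402)) (XT.lf (nat_lit 0) (nat_lit 5449884072) (nat_lit 608) (nat_lit 7120090370) (nat_lit 684) (nat_lit 1731623091) (nat_lit 273) (nat_lit 5) (nat_lit 281) (nat_lit 5) (nat_lit 282) (nat_lit 5) (nat_lit 610) (nat_lit 549) (nat_lit 401))) (XT.nd (nat_lit 78) (nat_lit 532) (nat_lit 0) (XT.lf (nat_lit 0) (nat_lit 1212853893) (nat_lit 684) (nat_lit 154709941) (nat_lit 76) (nat_lit 13095514937) (nat_lit 272) (nat_lit 5) (nat_lit 281) (nat_lit 5) (nat_lit 273) (nat_lit 5) (nat_lit 611) (nat_lit 549) (nat_lit 400)) (XT.lf (nat_lit 0) (nat_lit 4267591794) (nat_lit 608) (nat_lit 5852085427) (nat_lit 76) (nat_lit 4506392608) (nat_lit 265) (nat_lit 5) (nat_lit 273) (nat_lit 5) (nat_lit 266) (nat_lit 5) (nat_lit 612) (nat_lit 549) (nat_lit 399)))) (XT.nd (nat_lit 156) (nat_lit 1140) (nat_lit 0) (XT.nd (nat_lit 78) (nat_lit 0) (nat_lit 0) (XT.lf (nat_lit 0) (nat_lit 3106606463) (nat_lit 608) (nat_lit 4294928797)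 (nat_lit 684) (nat_lit 7390423499) (nat_lit 257) (nat_lit 5) (nat_lit 265) (nat_lit 5) (nat_lit 266) (nat_lit 5) (nat_lit 613) (nat_lit 549) (nat_lit 398)) (XT.lf (nat_lit 0) (nat_lit 10636324637) (nat_lit 684) (nat_lit 2663762624) (nat_lit 76) (nat_lit 1660315127) (nat_lit 257) (nat_lit 5) (nat_lit 266) (nat_lit 5) (nat_lit 258) (nat_lit 5) (nat_lit 614) (nat_lit 549) (nat_lit 397))) (XT.nd (nat_lit 78) (nat_lit 608) (nat_lit 0) (XT.lf (nat_lit 0) (nat_lit 6580202138) (nat_lit 532) (nat_lit 7414957693) (nat_lit 608) (nat_lit 1135868314) (nat_lit 250) (nat_lit 5) (nat_lit 257) (nat_lit 5) (nat_lit 258) (nat_lit 5) (nat_lit 615) (nat_lit 549) (nat_lit 396)) (XT.lf (nat_lit 0) (nat_lit 720065638) (nat_lit 532) (nat_lit 1379190498) (nat_lit 608) (nat_lit 13205317667) (nat_lit 242) (nat_lit 5) (nat_lit 249) (nat_lit 5) (nat_lit 250) (nat_lit 5) (nat_lit 616) (nat_lit 549) (nat_lit 395))))))) (XT.nd (nat_lit 1248) (nat_lit 7220) (nat_lit 0) (XT.nd (nat_lit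 624) (nat_lit 2280) (nat_lit 0) (XT.nd (nat_lit 312) (nat_lit 912) (nat_lit 0) (XT.nd (nat_lit 156) (nat_lit 608) (nat_lit 0) (XT.nd (nat_lit 78) (nat_lit 456) (nat_lit 0) (XT.lf (nat_lit 0) (nat_lit 5461001349) (nat_lit 608) (nat_lit 5243145029) (nat_lit 76) (nat_lit 4775751525) (nat_lit 242) (nat_lit 5) (nat_lit 250) (nat_lit 5) (nat_lit 243) (nat_lit 5) (nat_lit 617) (nat_lit 549) (nat_lit 394)) (XT.lf (nat_lit 0) (nat_lit 4316775552) (nat_lit 456) (nat_lit 4598931150) (nat_lit 532) (nat_lit 6742507516) (nat_lit 236) (nat_lit 5) (nat_lit 242) (nat_lit 5) (nat_lit 243) (nat_lit 5) (nat_lit 618) (nat_lit 549) (nat_lit 393))) (XT.nd (nat_lit 78) (nat_lit 608) (nat_lit 0) (XT.lf (nat_lit 0) (nat_lit 12474154658) (nat_lit 532) (nat_lit 1727078123) (nat_lit 76) (nat_lit 1638171340) (nat_lit 236) (nat_lit 5) (nat_lit 243) (nat_lit 5) (nat_lit 237) (nat_lit 5) (nat_lit 619) (nat_lit 549) (nat_lit 392)) (XT.lf (nat_lit 0) (nat_lit 151178252) (nat_lit 608) (nat_lit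 7883429102) (nat_lit 76) (nat_lit 7988147003) (nat_lit 228) (nat_lit 5) (nat_lit 236) (nat_lit 5) (nat_lit 229) (nat_lit 5) (nat_lit 620) (nat_lit 549) (nat_lit 391)))) (XT.nd (nat_lit 156) (nat_lit 456) (nat_lit 0) (XT.nd (nat_lit 78) (nat_lit 0) (nat_lit 0) (XT.lf (nat_lit 0) (nat_lit 2005283783) (nat_lit 456) (nat_lit 1701243925) (nat_lit 532) (nat_lit 12502526146) (nat_lit 222) (nat_lit 5) (nat_lit 228) (nat_lit 5) (nat_lit 229) (nat_lit 5) (nat_lit 621) (nat_lit 549) (nat_lit 390)) (XT.lf (nat_lit 0) (nat_lit 7406146723) (nat_lit 532) (nat_lit 4246304071) (nat_lit 76) (nat_lit 4745165512) (nat_lit 222) (nat_lit 5) (nat_lit 229) (nat_lit 5) (nat_lit 223) (nat_lit 5) (nat_lit 622) (nat_lit 549) (nat_lit 389))) (XT.nd (nat_lit 78) (nat_lit 0) (nat_lit 0) (XT.lf (nat_lit 0) (nat_lit 5961874906) (nat_lit 456) (nat_lit 5257086668) (nat_lit 532) (nat_lit 5370204571) (nat_lit 216) (nat_lit 5) (nat_lit 222) (nat_lit 5) (nat_lit 223) (nat_lit 5) (nat_lit 623)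 (nat_lit 549) (nat_lit 388)) (XT.lf (nat_lit 0) (nat_lit 15134248033) (nat_lit 532) (nat_lit 376052826) (nat_lit 76) (nat_lit 1273722024) (nat_lit 216) (nat_lit 5) (nat_lit 223) (nat_lit 5) (nat_lit 217) (nat_lit 5) (nat_lit 624) (nat_lit 549) (nat_lit 387))))) (XT.nd (nat_lit 312) (nat_lit 912) (nat_lit 0) (XT.nd (nat_lit 156) (nat_lit 380) (nat_lit 0) (XT.nd (nat_lit 78) (nat_lit 456) (nat_lit 0) (XT.lf (nat_lit 0) (nat_lit 2207852552) (nat_lit 532) (nat_lit 6831944352) (nat_lit 76) (nat_lit 7940883067) (nat_lit 209) (nat_lit 5) (nat_lit 216) (nat_lit 5) (nat_lit 210) (nat_lit 5) (nat_lit 625) (nat_lit 549) (nat_lit 386)) (XT.lf (nat_lit 0) (nat_lit 3730704200) (nat_lit 456) (nat_lit 2406180190) (nat_lit 532) (nat_lit 11043841056) (nat_lit 203) (nat_lit 5) (nat_lit 209) (nat_lit 5) (nat_lit 210) (nat_lit 5) (nat_lit 626) (nat_lit 549) (nat_lit 385))) (XT.nd (nat_lit 78) (nat_lit 380) (nat_lit 0) (XT.lf (nat_lit 0) (nat_lit 10208590432) (nat_lit 532)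 (nat_lit 2830508788) (nat_lit 76) (nat_lit 4344390933) (nat_lit 203) (nat_lit 5) (nat_lit 210) (nat_lit 5) (nat_lit 204) (nat_lit 5) (nat_lit 627) (nat_lit 549) (nat_lit 384)) (XT.lf (nat_lit 0) (nat_lit 8076425800) (nat_lit 380) (nat_lit 6343515791) (nat_lit 456) (nat_lit 3169204527) (nat_lit 198) (nat_lit 5) (nat_lit 203) (nat_lit 5) (nat_lit 204) (nat_lit 5) (nat_lit 628) (nat_lit 549) (nat_lit 383)))) (XT.nd (nat_lit 156) (nat_lit 380) (nat_lit 0) (XT.nd (nat_lit 78) (nat_lit 0) (nat_lit 0) (XT.lf (nat_lit 0) (nat_lit 926273062) (nat_lit 532) (nat_lit 16362644885) (nat_lit 76) (nat_lit 509444614) (nat_lit 191) (nat_lit 5) (nat_lit 198) (nat_lit 5) (nat_lit 192) (nat_lit 5) (nat_lit 629) (nat_lit 549) (nat_lit 382)) (XT.lf (nat_lit 0) (nat_lit 5157477075) (nat_lit 532) (nat_lit 5356899319) (nat_lit 76) (nat_lit 7495043095) (nat_lit 191) (nat_lit 5) (nat_lit 198) (nat_lit 5) (nat_lit 192) (nat_lit 5) (nat_lit 630) (nat_lit 549) (nat_lit 381))) (XT.nd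 (nat_lit 78) (nat_lit 0) (nat_lit 0) (XT.lf (nat_lit 0) (nat_lit 5931992011) (nat_lit 380) (nat_lit 3569969451) (nat_lit 456) (nat_lit 8722163140) (nat_lit 186) (nat_lit 5) (nat_lit 191) (nat_lit 5) (nat_lit 192) (nat_lit 5) (nat_lit 631) (nat_lit 549) (nat_lit 380)) (XT.lf (nat_lit 0) (nat_lit 13982540079) (nat_lit 456) (nat_lit 961013036) (nat_lit 76) (nat_lit 3498586782) (nat_lit 186) (nat_lit 5) (nat_lit 192) (nat_lit 5) (nat_lit 187) (nat_lit 5) (nat_lit 632) (nat_lit 549) (nat_lit 379)))))) (XT.nd (nat_lit 1872) (nat_lit 5168) (nat_lit 0) (XT.nd (nat_lit 312) (nat_lit 836) (nat_lit 0) (XT.nd (nat_lit 156) (nat_lit 380) (nat_lit 0) (XT.nd (nat_lit 78) (nat_lit 456) (nat_lit 0) (XT.lf (nat_lit 0) (nat_lit 10698860468) (nat_lit 380) (nat_lit 7937376101) (nat_lit 456) (nat_lit 26608968) (nat_lit 181) (nat_lit 5) (nat_lit 186) (nat_lit 5) (nat_lit 187) (nat_lit 5) (nat_lit 633) (nat_lit 549) (nat_lit 378)) (XT.lf (nat_lit 0) (nat_lit 3722135512) (nat_lit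 380) (nat_lit 735042430) (nat_lit 456) (nat_lit 14429782021) (nat_lit 175) (nat_lit 5) (nat_lit 180) (nat_lit 5) (nat_lit 181) (nat_lit 5) (nat_lit 634) (nat_lit 549) (nat_lit 377))) (XT.nd (nat_lit 78) (nat_lit 380) (nat_lit 0) (XT.lf (nat_lit 0) (nat_lit 9117498735) (nat_lit 456) (nat_lit 3422647395) (nat_lit 76) (nat_lit 6573662897) (nat_lit 175) (nat_lit 5) (nat_lit 181) (nat_lit 5) (nat_lit 176) (nat_lit 5) (nat_lit 635) (nat_lit 549) (nat_lit 376)) (XT.lf (nat_lit 0) (nat_lit 8648583438) (nat_lit 380) (nat_lit 5274141557) (nat_lit 456) (nat_lit 5421436252) (nat_lit 170) (nat_lit 5) (nat_lit 175) (nat_lit 5) (nat_lit 176) (nat_lit 5) (nat_lit 636) (nat_lit 549) (nat_lit 375)))) (XT.nd (nat_lit 156) (nat_lit 380) (nat_lit 0) (XT.nd (nat_lit 78) (nat_lit 76) (nat_lit 0) (XT.lf (nat_lit 0) (nat_lit 1419149504) (nat_lit 380) (nat_lit 17441852687) (nat_lit 456) (nat_lit 717379540) (nat_lit 165) (nat_lit 5) (nat_lit 170) (nat_lit 5) (nat_lit 171) (nat_lit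 5) (nat_lit 637) (nat_lit 549) (nat_lit 374)) (XT.lf (nat_lit 0) (nat_lit 4125179066) (nat_lit 456) (nat_lit 5971032326) (nat_lit 76) (nat_lit 9718586665) (nat_lit 164) (nat_lit 5) (nat_lit 170) (nat_lit 5) (nat_lit 165) (nat_lit 5) (nat_lit 638) (nat_lit 549) (nat_lit 373))) (XT.nd (nat_lit 78) (nat_lit 0) (nat_lit 0) (XT.lf (nat_lit 0) (nat_lit 6527639430) (nat_lit 380) (nat_lit 2560679815) (nat_lit 456) (nat_lit 10966862046) (nat_lit 159) (nat_lit 5) (nat_lit 164) (nat_lit 5) (nat_lit 165) (nat_lit 5) (nat_lit 639) (nat_lit 549) (nat_lit 372)) (XT.lf (nat_lit 0) (nat_lit 14215333481) (nat_lit 456) (nat_lit 990096979) (nat_lit 76) (nat_lit 5093649644) (nat_lit 159) (nat_lit 5) (nat_lit 165) (nat_lit 5) (nat_lit 160) (nat_lit 5) (nat_lit 640) (nat_lit 549) (nat_lit 371))))) (XT.nd (nat_lit 312) (nat_lit 836) (nat_lit 0) (XT.nd (nat_lit 156) (nat_lit 228) (nat_lit 0) (XT.nd (nat_lit 78) (nat_lit 304) (nat_lit 0) (XT.lf (nat_lit 0) (nat_lit 1918102426)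 (nat_lit 304) (nat_lit 8396180517) (nat_lit 76) (nat_lit 14695368540) (nat_lit 109) (nat_lit 5) (nat_lit 113) (nat_lit 5) (nat_lit 110) (nat_lit 5) (nat_lit 657) (nat_lit 549) (nat_lit 354)) (XT.lf (nat_lit 0) (nat_lit 7516816491) (nat_lit 304) (nat_lit 1131637114) (nat_lit 380) (nat_lit 16674749036) (nat_lit 105) (nat_lit 5) (nat_lit 109) (nat_lit 5) (nat_lit 110) (nat_lit 5) (nat_lit 658) (nat_lit 549) (nat_lit 353))) (XT.nd (nat_lit 78) (nat_lit 228) (nat_lit 0) (XT.lf (nat_lit 0) (nat_lit 15616115310) (nat_lit 380) (nat_lit 1846577809) (nat_lit 76) (nat_lit 8178277718) (nat_lit 105) (nat_lit 5) (nat_lit 110) (nat_lit 5) (nat_lit 106) (nat_lit 5) (nat_lit 659) (nat_lit 549) (nat_lit 352)) (XT.lf (nat_lit 0) (nat_lit 14603988203) (nat_lit 228) (nat_lit 8214124417) (nat_lit 304) (nat_lit 3145082216) (nat_lit 102) (nat_lit 5) (nat_lit 105) (nat_lit 5) (nat_lit 106) (nat_lit 5) (nat_lit 660) (nat_lit 549) (nat_lit 351)))) (XT.nd (nat_lit 156) (nat_lit 456)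 (nat_lit 0) (XT.nd (nat_lit 78) (nat_lit 0) (nat_lit 0) (XT.lf (nat_lit 0) (nat_lit 3868429007) (nat_lit 380) (nat_lit 21152178348) (nat_lit 76) (nat_lit 1269814648) (nat_lit 97) (nat_lit 5) (nat_lit 102) (nat_lit 5) (nat_lit 98) (nat_lit 5) (nat_lit 661) (nat_lit 549) (nat_lit 350)) (XT.lf (nat_lit 0) (nat_lit 11103980134) (nat_lit 380) (nat_lit 4591303347) (nat_lit 76) (nat_lit 10926016885) (nat_lit 97) (nat_lit 5) (nat_lit 102) (nat_lit 5) (nat_lit 98) (nat_lit 5) (nat_lit 662) (nat_lit 549) (nat_lit 349))) (XT.nd (nat_lit 78) (nat_lit 228) (nat_lit 0) (XT.lf (nat_lit 0) (nat_lit 12451819753) (nat_lit 228) (nat_lit 6106124596) (nat_lit 304) (nat_lit 8399377984) (nat_lit 94) (nat_lit 5) (nat_lit 97) (nat_lit 5) (nat_lit 98) (nat_lit 5) (nat_lit 663) (nat_lit 549) (nat_lit 348)) (XT.lf (nat_lit 0) (nat_lit 2596275317) (nat_lit 228) (nat_lit 23629326996) (nat_lit 304) (nat_lit 1073170214) (nat_lit 91) (nat_lit 5) (nat_lit 94) (nat_lit 5) (nat_lit 95) (nat_lit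 5) (nat_lit 664) (nat_lit 549) (nat_lit 347))))))))
noncomputable def xc120 : XT := (XT.nd (nat_lit 74334) (nat_lit 0) (nat_lit 15656) (XT.nd (nat_lit 73086) (nat_lit 0) (nat_lit 33060) (XT.nd (nat_lit 72462) (nat_lit 0) (nat_lit 37468) (XT.nd (nat_lit 234) (nat_lit 304) (nat_lit 0) (XT.nd (nat_lit 78) (nat_lit 228) (nat_lit 0) (XT.lf (nat_lit 0) (nat_lit 6446950035) (nat_lit 304) (nat_lit 7503341514) (nat_lit 76) (nat_lit 13693302851) (nat_lit 90) (nat_lit 5) (nat_lit 94) (nat_lit 5) (nat_lit 91) (nat_lit 5) (nat_lit 665) (nat_lit 549) (nat_lit 346)) (XT.nd (nat_lit 78) (nat_lit 0) (nat_lit 0) (XT.lf (nat_lit 0) (nat_lit 10153781908) (nat_lit 228) (nat_lit 4008296441) (nat_lit 304) (nat_lit 13831913054) (nat_lit 87) (nat_lit 5) (nat_lit 90) (nat_lit 5) (nat_lit 91) (nat_lit 5) (nat_lit 666) (nat_lit 549) (nat_lit 345)) (XT.lf (nat_lit 0) (nat_lit 22115073017) (nat_lit 304) (nat_lit 136884324) (nat_lit 76) (nat_lit 6097767797) (nat_lit 87) (nat_lit 5)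 (nat_lit 91) (nat_lit 5) (nat_lit 88) (nat_lit 5) (nat_lit 667) (nat_lit 549) (nat_lit 344)))) (XT.nd (nat_lit 72072) (nat_lit 0) (nat_lit 38836) (XT.nd (nat_lit 71994) (nat_lit 0) (nat_lit 38836) (XT.lf (nat_lit 0) (nat_lit 1632989042) (nat_lit 304) (nat_lit 10600828503) (nat_lit 76) (nat_lit 16475793431) (nat_lit 83) (nat_lit 5) (nat_lit 87) (nat_lit 5) (nat_lit 84) (nat_lit 5) (nat_lit 668) (nat_lit 549) (nat_lit 343)) (XT.lf (nat_lit 0) (nat_lit 96883608) (nat_lit 0) (nat_lit 96883608) (nat_lit 1444) (nat_lit 3884252315) (nat_lit 594) (nat_lit 5) (nat_lit 594) (nat_lit 3) (nat_lit 613) (nat_lit 3) (nat_lit 550) (nat_lit 550) (nat_lit 460))) (XT.nd (nat_lit 78) (nat_lit 0) (nat_lit 0) (XT.lf (nat_lit 0) (nat_lit 1572442451) (nat_lit 1444) (nat_lit 3909409818) (nat_lit 1520) (nat_lit 2732085829) (nat_lit 594) (nat_lit 5) (nat_lit 613) (nat_lit 3) (nat_lit 614) (nat_lit 5) (nat_lit 551) (nat_lit 550) (nat_lit 459)) (XT.lf (nat_lit 76) (nat_lit 210016658)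 (nat_lit 0) (nat_lit 2543270359) (nat_lit 1520) (nat_lit 5520264394) (nat_lit 595) (nat_lit 5) (nat_lit 594) (nat_lit 5) (nat_lit 614) (nat_lit 5) (nat_lit 552) (nat_lit 550) (nat_lit 458))))) (XT.nd (nat_lit 312) (nat_lit 1444) (nat_lit 0) (XT.nd (nat_lit 156) (nat_lit 0) (nat_lit 0) (XT.nd (nat_lit 78) (nat_lit 0) (nat_lit 0) (XT.lf (nat_lit 0) (nat_lit 3957280754) (nat_lit 1444) (nat_lit 3888679069) (nat_lit 1520) (nat_lit 488407569) (nat_lit 595) (nat_lit 5) (nat_lit 614) (nat_lit 5) (nat_lit 615) (nat_lit 5) (nat_lit 553) (nat_lit 550) (nat_lit 457)) (XT.lf (nat_lit 76) (nat_lit 341079134) (nat_lit 0) (nat_lit 4834093509) (nat_lit 1520) (nat_lit 3221431709) (nat_lit 596) (nat_lit 5) (nat_lit 595) (nat_lit 5) (nat_lit 615) (nat_lit 5) (nat_lit 554) (nat_lit 550) (nat_lit 456))) (XT.nd (nat_lit 78) (nat_lit 0) (nat_lit 76) (XT.lf (nat_lit 76) (nat_lit 4692026256) (nat_lit 0) (nat_lit 1722720778) (nat_lit 1520) (nat_lit 2045393531) (nat_lit 596) (nat_lit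 5) (nat_lit 595) (nat_lit 5) (nat_lit 615) (nat_lit 5) (nat_lit 555) (nat_lit 550) (nat_lit 455)) (XT.lf (nat_lit 76) (nat_lit 586873784) (nat_lit 0) (nat_lit 7077343817) (nat_lit 1520) (nat_lit 861028793) (nat_lit 597) (nat_lit 5) (nat_lit 596) (nat_lit 5) (nat_lit 616) (nat_lit 5) (nat_lit 556) (nat_lit 550) (nat_lit 454)))) (XT.nd (nat_lit 156) (nat_lit 0) (nat_lit 76) (XT.nd (nat_lit 78) (nat_lit 0) (nat_lit 0) (XT.lf (nat_lit 0) (nat_lit 351469571) (nat_lit 1520) (nat_lit 3541649469) (nat_lit 1596) (nat_lit 4698311235) (nat_lit 576) (nat_lit 5) (nat_lit 596) (nat_lit 5) (nat_lit 597) (nat_lit 5) (nat_lit 557) (nat_lit 550) (nat_lit 453)) (XT.lf (nat_lit 76) (nat_lit 933161240) (nat_lit 0) (nat_lit 622278703) (nat_lit 1596) (nat_lit 7103809966) (nat_lit 577) (nat_lit 5) (nat_lit 576) (nat_lit 5) (nat_lit 597) (nat_lit 5) (nat_lit 558) (nat_lit 550) (nat_lit 452))) (XT.nd (nat_lit 78) (nat_lit 0) (nat_lit 0) (XT.lf (nat_lit 0) (nat_lit 2798215020) (nat_lit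 1520) (nat_lit 3217135890) (nat_lit 1596) (nat_lit 2712781433) (nat_lit 577) (nat_lit 5) (nat_lit 597) (nat_lit 5) (nat_lit 598) (nat_lit 5) (nat_lit 559) (nat_lit 550) (nat_lit 451)) (XT.lf (nat_lit 76) (nat_lit 1379414107) (nat_lit 0) (nat_lit 2673215105) (nat_lit 1596) (nat_lit 4746028434) (nat_lit 578) (nat_lit 5) (nat_lit 577) (nat_lit 5) (nat_lit 598) (nat_lit 5) (nat_lit 560) (nat_lit 550) (nat_lit 450)))))) (XT.nd (nat_lit 624) (nat_lit 3040) (nat_lit 0) (XT.nd (nat_lit 312) (nat_lit 0) (nat_lit 0) (XT.nd (nat_lit 156) (nat_lit 1520) (nat_lit 0) (XT.nd (nat_lit 78) (nat_lit 0) (nat_lit 0) (XT.lf (nat_lit 0) (nat_lit 5332816992) (nat_lit 1520) (nat_lit 2780600515) (nat_lit 1596) (nat_lit 757163117) (nat_lit 578) (nat_lit 5) (nat_lit 598) (nat_lit 5) (nat_lit 599) (nat_lit 5) (nat_lit 561) (nat_lit 550) (nat_lit 449)) (XT.lf (nat_lit 76) (nat_lit 1941890964) (nat_lit 0) (nat_lit 4701711953) (nat_lit 1596) (nat_lit 2300240117) (nat_lit 579) (nat_lit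 5) (nat_lit 578) (nat_lit 5) (nat_lit 599) (nat_lit 5) (nat_lit 562) (nat_lit 550) (nat_lit 448))) (XT.nd (nat_lit 78) (nat_lit 1520) (nat_lit 0) (XT.lf (nat_lit 76) (nat_lit 6779944601) (nat_lit 0) (nat_lit 1194390954) (nat_lit 1596) (nat_lit 1044361358) (nat_lit 579) (nat_lit 5) (nat_lit 578) (nat_lit 5) (nat_lit 599) (nat_lit 5) (nat_lit 563) (nat_lit 550) (nat_lit 447)) (XT.lf (nat_lit 0) (nat_lit 241693144) (nat_lit 1596) (nat_lit 6474649056) (nat_lit 1672) (nat_lit 2378512518) (nat_lit 558) (nat_lit 5) (nat_lit 579) (nat_lit 5) (nat_lit 580) (nat_lit 5) (nat_lit 564) (nat_lit 550) (nat_lit 446)))) (XT.nd (nat_lit 156) (nat_lit 0) (nat_lit 76) (XT.nd (nat_lit 78) (nat_lit 0) (nat_lit 76) (XT.lf (nat_lit 0) (nat_lit 1538353992) (nat_lit 1596) (nat_lit 1597479901) (nat_lit 1672) (nat_lit 6036587129) (nat_lit 558) (nat_lit 5) (nat_lit 579) (nat_lit 5) (nat_lit 580) (nat_lit 5) (nat_lit 565) (nat_lit 550) (nat_lit 445)) (XT.lf (nat_lit 0) (nat_lit 2862898750)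 (nat_lit 1596) (nat_lit 5849897916) (nat_lit 1672) (nat_lit 538703751) (nat_lit 559) (nat_lit 5) (nat_lit 580) (nat_lit 5) (nat_lit 581) (nat_lit 5) (nat_lit 566) (nat_lit 550) (nat_lit 444))) (XT.nd (nat_lit 78) (nat_lit 0) (nat_lit 0) (XT.lf (nat_lit 0) (nat_lit 4222191311) (nat_lit 1596) (nat_lit 847541461) (nat_lit 1672) (nat_lit 4262264251) (nat_lit 559) (nat_lit 5) (nat_lit 580) (nat_lit 5) (nat_lit 581) (nat_lit 5) (nat_lit 567) (nat_lit 550) (nat_lit 443)) (XT.lf (nat_lit 76) (nat_lit 4294442181) (nat_lit 0) (nat_lit 1319265668) (nat_lit 1672) (nat_lit 3800295698) (nat_lit 560) (nat_lit 5) (nat_lit 559) (nat_lit 5) (nat_lit 581) (nat_lit 5) (nat_lit 568) (nat_lit 550) (nat_lit 442))))) (XT.nd (nat_lit 312) (nat_lit 1596) (nat_lit 0) (XT.nd (nat_lit 156) (nat_lit 1596) (nat_lit 0) (XT.nd (nat_lit 78) (nat_lit 0) (nat_lit 0) (XT.lf (nat_lit 76) (nat_lit 20049881) (nat_lit 0) (nat_lit 7012665934) (nat_lit 1672) (nat_lit 2464941897) (nat_lit 561) (nat_lit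 5) (nat_lit 560) (nat_lit 5) (nat_lit 582) (nat_lit 5) (nat_lit 569) (nat_lit 550) (nat_lit 441)) (XT.lf (nat_lit 76) (nat_lit 5305988909) (nat_lit 0) (nat_lit 3195013269) (nat_lit 1672) (nat_lit 1081565537) (nat_lit 561) (nat_lit 5) (nat_lit 560) (nat_lit 5) (nat_lit 582) (nat_lit 5) (nat_lit 570) (nat_lit 550) (nat_lit 440))) (XT.nd (nat_lit 78) (nat_lit 0) (nat_lit 0) (XT.lf (nat_lit 0) (nat_lit 314579429) (nat_lit 1672) (nat_lit 8651286552) (nat_lit 1748) (nat_lit 703479398) (nat_lit 539) (nat_lit 5) (nat_lit 561) (nat_lit 5) (nat_lit 562) (nat_lit 5) (nat_lit 571) (nat_lit 550) (nat_lit 439)) (XT.lf (nat_lit 0) (nat_lit 1752728650) (nat_lit 1672) (nat_lit 3326552987) (nat_lit 1748) (nat_lit 4677863384) (nat_lit 539) (nat_lit 5) (nat_lit 561) (nat_lit 5) (nat_lit 562) (nat_lit 5) (nat_lit 572) (nat_lit 550) (nat_lit 438)))) (XT.nd (nat_lit 156) (nat_lit 1596) (nat_lit 0) (XT.nd (nat_lit 78) (nat_lit 0) (nat_lit 76) (XT.lf (nat_lit 76) (nat_lit 2115443246)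 (nat_lit 0) (nat_lit 1096856787) (nat_lit 1748) (nat_lit 6634548103) (nat_lit 540) (nat_lit 5) (nat_lit 539) (nat_lit 5) (nat_lit 562) (nat_lit 5) (nat_lit 573) (nat_lit 550) (nat_lit 437)) (XT.lf (nat_lit 0) (nat_lit 4722039189) (nat_lit 1672) (nat_lit 2263233329) (nat_lit 76) (nat_lit 2952653919) (nat_lit 540) (nat_lit 5) (nat_lit 562) (nat_lit 5) (nat_lit 541) (nat_lit 5) (nat_lit 574) (nat_lit 550) (nat_lit 436))) (XT.nd (nat_lit 78) (nat_lit 0) (nat_lit 0) (XT.lf (nat_lit 0) (nat_lit 3333794166) (nat_lit 1672) (nat_lit 2936748348) (nat_lit 1748) (nat_lit 3760113039) (nat_lit 518) (nat_lit 5) (nat_lit 540) (nat_lit 5) (nat_lit 541) (nat_lit 5) (nat_lit 575) (nat_lit 550) (nat_lit 435)) (XT.lf (nat_lit 0) (nat_lit 7853018435) (nat_lit 1748) (nat_lit 1076616857) (nat_lit 76) (nat_lit 1195544535) (nat_lit 518) (nat_lit 5) (nat_lit 541) (nat_lit 5) (nat_lit 519) (nat_lit 5) (nat_lit 576) (nat_lit 550) (nat_lit 434))))))) (XT.nd (nat_lit 1170) (nat_lit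 7220) (nat_lit 0) (XT.nd (nat_lit 546) (nat_lit 4484) (nat_lit 0) (XT.nd (nat_lit 234) (nat_lit 2052) (nat_lit 0) (XT.nd (nat_lit 78) (nat_lit 1900) (nat_lit 0) (XT.lf (nat_lit 0) (nat_lit 4681037716) (nat_lit 1748) (nat_lit 4816310321) (nat_lit 1824) (nat_lit 723643080) (nat_lit 495) (nat_lit 5) (nat_lit 518) (nat_lit 5) (nat_lit 519) (nat_lit 5) (nat_lit 577) (nat_lit 550) (nat_lit 433)) (XT.nd (nat_lit 78) (nat_lit 0) (nat_lit 0) (XT.lf (nat_lit 0) (nat_lit 230192527) (nat_lit 1824) (nat_lit 603705646) (nat_lit 1900) (nat_lit 9484924372) (nat_lit 470) (nat_lit 5) (nat_lit 494) (nat_lit 5) (nat_lit 495) (nat_lit 5) (nat_lit 578) (nat_lit 550) (nat_lit 432)) (XT.lf (nat_lit 0) (nat_lit 2455106897) (nat_lit 1900) (nat_lit 4273421187) (nat_lit 76) (nat_lit 3689143305) (nat_lit 470) (nat_lit 5) (nat_lit 495) (nat_lit 5) (nat_lit 471) (nat_lit 5) (nat_lit 579) (nat_lit 550) (nat_lit 431)))) (XT.nd (nat_lit 156) (nat_lit 912) (nat_lit 0) (XT.nd (nat_lit 78)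 (nat_lit 0) (nat_lit 0) (XT.lf (nat_lit 0) (nat_lit 1658816026) (nat_lit 1140) (nat_lit 2445865070) (nat_lit 1216) (nat_lit 6413897854) (nat_lit 455) (nat_lit 5) (nat_lit 470) (nat_lit 5) (nat_lit 471) (nat_lit 5) (nat_lit 580) (nat_lit 550) (nat_lit 430)) (XT.lf (nat_lit 0) (nat_lit 5810038524) (nat_lit 1216) (nat_lit 2883281482) (nat_lit 76) (nat_lit 1927729377) (nat_lit 455) (nat_lit 5) (nat_lit 471) (nat_lit 5) (nat_lit 456) (nat_lit 5) (nat_lit 581) (nat_lit 550) (nat_lit 429))) (XT.nd (nat_lit 78) (nat_lit 0) (nat_lit 0) (XT.lf (nat_lit 0) (nat_lit 3221821925) (nat_lit 912) (nat_lit 4346604117) (nat_lit 988) (nat_lit 3156765269) (nat_lit 443) (nat_lit 5) (nat_lit 455) (nat_lit 5) (nat_lit 456) (nat_lit 5) (nat_lit 582) (nat_lit 550) (nat_lit 428)) (XT.lf (nat_lit 0) (nat_lit 9364084301) (nat_lit 988) (nat_lit 1360830954) (nat_lit 76) (nat_lit 106459297) (nat_lit 443) (nat_lit 5) (nat_lit 456) (nat_lit 5) (nat_lit 444) (nat_lit 5) (nat_lit 583) (nat_lit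 550) (nat_lit 427))))) (XT.nd (nat_lit 312) (nat_lit 1748) (nat_lit 0) (XT.nd (nat_lit 156) (nat_lit 912) (nat_lit 0) (XT.nd (nat_lit 78) (nat_lit 836) (nat_lit 0) (XT.lf (nat_lit 0) (nat_lit 296067401) (nat_lit 988) (nat_lit 6017303552) (nat_lit 76) (nat_lit 4625408772) (nat_lit 430) (nat_lit 5) (nat_lit 443) (nat_lit 5) (nat_lit 431) (nat_lit 5) (nat_lit 584) (nat_lit 550) (nat_lit 426)) (XT.lf (nat_lit 0) (nat_lit 276571650) (nat_lit 836) (nat_lit 1792013594) (nat_lit 912) (nat_lit 8979683484) (nat_lit 419) (nat_lit 5) (nat_lit 430) (nat_lit 5) (nat_lit 431) (nat_lit 5) (nat_lit 585) (nat_lit 550) (nat_lit 425))) (XT.nd (nat_lit 78) (nat_lit 912) (nat_lit 0) (XT.lf (nat_lit 0) (nat_lit 3918276616) (nat_lit 912) (nat_lit 4417063696) (nat_lit 76) (nat_lit 2823773230) (nat_lit 419) (nat_lit 5) (nat_lit 431) (nat_lit 5) (nat_lit 420) (nat_lit 5) (nat_lit 586) (nat_lit 550) (nat_lit 424)) (XT.lf (nat_lit 0) (nat_lit 2062949665) (nat_lit 912) (nat_lit 3750380356)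 (nat_lit 988) (nat_lit 5458678348) (nat_lit 407) (nat_lit 5) (nat_lit 419) (nat_lit 5) (nat_lit 420) (nat_lit 5) (nat_lit 587) (nat_lit 550) (nat_lit 423)))) (XT.nd (nat_lit 156) (nat_lit 912) (nat_lit 0) (XT.nd (nat_lit 78) (nat_lit 836) (nat_lit 0) (XT.lf (nat_lit 0) (nat_lit 7765463625) (nat_lit 988) (nat_lit 2677463781) (nat_lit 76) (nat_lit 943850580) (nat_lit 407) (nat_lit 5) (nat_lit 420) (nat_lit 5) (nat_lit 408) (nat_lit 5) (nat_lit 588) (nat_lit 550) (nat_lit 422)) (XT.lf (nat_lit 0) (nat_lit 3995541126) (nat_lit 836) (nat_lit 5795532330) (nat_lit 912) (nat_lit 1712081334) (nat_lit 396) (nat_lit 5) (nat_lit 407) (nat_lit 5) (nat_lit 408) (nat_lit 5) (nat_lit 589) (nat_lit 550) (nat_lit 421))) (XT.nd (nat_lit 78) (nat_lit 836) (nat_lit 0) (XT.lf (nat_lit 0) (nat_lit 234095877) (nat_lit 912) (nat_lit 801739901) (nat_lit 76) (nat_lit 10585956318) (nat_lit 395) (nat_lit 5) (nat_lit 407) (nat_lit 5) (nat_lit 396) (nat_lit 5) (nat_lit 590) (nat_lit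 550) (nat_lit 420)) (XT.lf (nat_lit 0) (nat_lit 2245041968) (nat_lit 912) (nat_lit 5677006392) (nat_lit 76) (nat_lit 3819552486) (nat_lit 384) (nat_lit 5) (nat_lit 396) (nat_lit 5) (nat_lit 385) (nat_lit 5) (nat_lit 591) (nat_lit 550) (nat_lit 419)))))) (XT.nd (nat_lit 624) (nat_lit 3420) (nat_lit 0) (XT.nd (nat_lit 312) (nat_lit 2280) (nat_lit 0) (XT.nd (nat_lit 156) (nat_lit 760) (nat_lit 0) (XT.nd (nat_lit 78) (nat_lit 0) (nat_lit 0) (XT.lf (nat_lit 0) (nat_lit 1207604799) (nat_lit 760) (nat_lit 3092997163) (nat_lit 836) (nat_lit 7563116341) (nat_lit 374) (nat_lit 5) (nat_lit 384) (nat_lit 5) (nat_lit 385) (nat_lit 5) (nat_lit 592) (nat_lit 550) (nat_lit 418)) (XT.lf (nat_lit 0) (nat_lit 6431991466) (nat_lit 836) (nat_lit 3709761656) (nat_lit 76) (nat_lit 1845831042) (nat_lit 374) (nat_lit 5) (nat_lit 385) (nat_lit 5) (nat_lit 375) (nat_lit 5) (nat_lit 593) (nat_lit 550) (nat_lit 417))) (XT.nd (nat_lit 78) (nat_lit 0) (nat_lit 0) (XT.lf (nat_lit 0)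 (nat_lit 3382775969) (nat_lit 760) (nat_lit 5250455552) (nat_lit 836) (nat_lit 3480151776) (nat_lit 364) (nat_lit 5) (nat_lit 374) (nat_lit 5) (nat_lit 375) (nat_lit 5) (nat_lit 594) (nat_lit 550) (nat_lit 416)) (XT.lf (nat_lit 0) (nat_lit 10650936959) (nat_lit 760) (nat_lit 237421273) (nat_lit 836) (nat_lit 1353143350) (nat_lit 364) (nat_lit 5) (nat_lit 374) (nat_lit 5) (nat_lit 375) (nat_lit 5) (nat_lit 595) (nat_lit 550) (nat_lit 415)))) (XT.nd (nat_lit 156) (nat_lit 684) (nat_lit 0) (XT.nd (nat_lit 78) (nat_lit 760) (nat_lit 0) (XT.lf (nat_lit 0) (nat_lit 860098117) (nat_lit 836) (nat_lit 6657607165) (nat_lit 76) (nat_lit 4853283323) (nat_lit 353) (nat_lit 5) (nat_lit 364) (nat_lit 5) (nat_lit 354) (nat_lit 5) (nat_lit 596) (nat_lit 550) (nat_lit 414)) (XT.lf (nat_lit 0) (nat_lit 663651811) (nat_lit 760) (nat_lit 2437815137) (nat_lit 836) (nat_lit 9401380293) (nat_lit 343) (nat_lit 5) (nat_lit 353) (nat_lit 5) (nat_lit 354) (nat_lit 5) (nat_lit 597)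 (nat_lit 550) (nat_lit 413))) (XT.nd (nat_lit 78) (nat_lit 684) (nat_lit 0) (XT.lf (nat_lit 0) (nat_lit 5435955431) (nat_lit 836) (nat_lit 4449708689) (nat_lit 76) (nat_lit 2750713460) (nat_lit 343) (nat_lit 5) (nat_lit 354) (nat_lit 5) (nat_lit 344) (nat_lit 5) (nat_lit 598) (nat_lit 550) (nat_lit 412)) (XT.lf (nat_lit 0) (nat_lit 3095619857) (nat_lit 684) (nat_lit 4743547911) (nat_lit 760) (nat_lit 4932970440) (nat_lit 334) (nat_lit 5) (nat_lit 343) (nat_lit 5) (nat_lit 344) (nat_lit 5) (nat_lit 599) (nat_lit 550) (nat_lit 411))))) (XT.nd (nat_lit 312) (nat_lit 1976) (nat_lit 0) (XT.nd (nat_lit 156) (nat_lit 760) (nat_lit 0) (XT.nd (nat_lit 78) (nat_lit 684) (nat_lit 0) (XT.lf (nat_lit 0) (nat_lit 10309706424) (nat_lit 760) (nat_lit 2077859720) (nat_lit 76) (nat_lit 522663024) (nat_lit 334) (nat_lit 5) (nat_lit 344) (nat_lit 5) (nat_lit 335) (nat_lit 5) (nat_lit 600) (nat_lit 550) (nat_lit 410)) (XT.lf (nat_lit 0) (nat_lit 5699875917) (nat_lit 684) (nat_lit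 7184425991) (nat_lit 760) (nat_lit 165687470) (nat_lit 325) (nat_lit 5) (nat_lit 334) (nat_lit 5) (nat_lit 335) (nat_lit 5) (nat_lit 601) (nat_lit 550) (nat_lit 409))) (XT.nd (nat_lit 78) (nat_lit 0) (nat_lit 0) (XT.lf (nat_lit 0) (nat_lit 443428163) (nat_lit 684) (nat_lit 1847231665) (nat_lit 760) (nat_lit 10901520038) (nat_lit 315) (nat_lit 5) (nat_lit 324) (nat_lit 5) (nat_lit 325) (nat_lit 5) (nat_lit 602) (nat_lit 550) (nat_lit 408)) (XT.lf (nat_lit 0) (nat_lit 4853365038) (nat_lit 760) (nat_lit 4884989341) (nat_lit 76) (nat_lit 3597649222) (nat_lit 315) (nat_lit 5) (nat_lit 325) (nat_lit 5) (nat_lit 316) (nat_lit 5) (nat_lit 603) (nat_lit 550) (nat_lit 407)))) (XT.nd (nat_lit 156) (nat_lit 1292) (nat_lit 0) (XT.nd (nat_lit 78) (nat_lit 0) (nat_lit 0) (XT.lf (nat_lit 0) (nat_lit 3148978217) (nat_lit 684) (nat_lit 4337735955) (nat_lit 760) (nat_lit 5995602168) (nat_lit 306) (nat_lit 5) (nat_lit 315) (nat_lit 5) (nat_lit 316) (nat_lit 5) (nat_lit 604)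 (nat_lit 550) (nat_lit 406)) (XT.lf (nat_lit 0) (nat_lit 10200179372) (nat_lit 760) (nat_lit 2245150727) (nat_lit 76) (nat_lit 1185676572) (nat_lit 306) (nat_lit 5) (nat_lit 316) (nat_lit 5) (nat_lit 307) (nat_lit 5) (nat_lit 605) (nat_lit 550) (nat_lit 405))) (XT.nd (nat_lit 78) (nat_lit 684) (nat_lit 0) (XT.lf (nat_lit 0) (nat_lit 6039325493) (nat_lit 608) (nat_lit 6983633197) (nat_lit 684) (nat_lit 758611535) (nat_lit 298) (nat_lit 5) (nat_lit 306) (nat_lit 5) (nat_lit 307) (nat_lit 5) (nat_lit 606) (nat_lit 550) (nat_lit 404)) (XT.lf (nat_lit 0) (nat_lit 563580573) (nat_lit 608) (nat_lit 1383666816) (nat_lit 684) (nat_lit 11987522593) (nat_lit 289) (nat_lit 5) (nat_lit 297) (nat_lit 5) (nat_lit 298) (nat_lit 5) (nat_lit 607) (nat_lit 550) (nat_lit 403))))))))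
noncomputable def xc121 : XT := (XT.nd (nat_lit 2418) (nat_lit 6460) (nat_lit 0) (XT.nd (nat_lit 1170) (nat_lit 4332) (nat_lit 0) (XT.nd (nat_lit 546) (nat_lit 2660) (nat_lit 0) (XT.nd (nat_lit 234) (nat_lit 1824) (nat_lit 0) (XT.nd (nat_lit 78) (nat_lit 608) (nat_lit 0) (XT.lf (nat_lit 0) (nat_lit 4764775147) (nat_lit 684) (nat_lit 4999142598) (nat_lit 76) (nat_lit 4325661808) (nat_lit 289) (nat_lit 5) (nat_lit 298) (nat_lit 5) (nat_lit 290) (nat_lit 5) (nat_lit 608) (nat_lit 550) (nat_lit 402)) (XT.nd (nat_lit 78) (nat_lit 0) (nat_lit 0) (XT.lf (nat_lit 0) (nat_lit 3562067251) (nat_lit 608) (nat_lit 4096425074) (nat_lit 684) (nat_lit 6588596499) (nat_lit 281) (nat_lit 5) (nat_lit 289) (nat_lit 5) (nat_lit 290) (nat_lit 5) (nat_lit 609) (nat_lit 550) (nat_lit 401)) (XT.lf (nat_lit 0) (nat_lit 10642457303) (nat_lit 684) (nat_lit 2071921702) (nat_lit 76) (nat_lit 1692722092) (nat_lit 281) (nat_lit 5) (nat_lit 290) (nat_lit 5) (nat_lit 282) (nat_lit 5) (nat_lit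 610) (nat_lit 550) (nat_lit 400)))) (XT.nd (nat_lit 156) (nat_lit 608) (nat_lit 0) (XT.nd (nat_lit 78) (nat_lit 608) (nat_lit 0) (XT.lf (nat_lit 0) (nat_lit 6759322205) (nat_lit 608) (nat_lit 6985703880) (nat_lit 684) (nat_lit 824109317) (nat_lit 273) (nat_lit 5) (nat_lit 281) (nat_lit 5) (nat_lit 282) (nat_lit 5) (nat_lit 611) (nat_lit 550) (nat_lit 399)) (XT.lf (nat_lit 0) (nat_lit 1044937158) (nat_lit 532) (nat_lit 1110516883) (nat_lit 608) (nat_lit 12578499221) (nat_lit 265) (nat_lit 5) (nat_lit 272) (nat_lit 5) (nat_lit 273) (nat_lit 5) (nat_lit 612) (nat_lit 550) (nat_lit 398))) (XT.nd (nat_lit 78) (nat_lit 608) (nat_lit 0) (XT.lf (nat_lit 0) (nat_lit 5256114839) (nat_lit 608) (nat_lit 4771683113) (nat_lit 76) (nat_lit 4872710024) (nat_lit 265) (nat_lit 5) (nat_lit 273) (nat_lit 5) (nat_lit 266) (nat_lit 5) (nat_lit 613) (nat_lit 550) (nat_lit 397)) (XT.lf (nat_lit 0) (nat_lit 4358304693) (nat_lit 608) (nat_lit 4084446694) (nat_lit 684) (nat_lit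 6627163401) (nat_lit 257) (nat_lit 5) (nat_lit 265) (nat_lit 5) (nat_lit 266) (nat_lit 5) (nat_lit 614) (nat_lit 550) (nat_lit 396))))) (XT.nd (nat_lit 312) (nat_lit 1520) (nat_lit 0) (XT.nd (nat_lit 156) (nat_lit 608) (nat_lit 0) (XT.nd (nat_lit 78) (nat_lit 532) (nat_lit 0) (XT.lf (nat_lit 0) (nat_lit 11726609681) (nat_lit 684) (nat_lit 1535150673) (nat_lit 76) (nat_lit 1980279855) (nat_lit 257) (nat_lit 5) (nat_lit 266) (nat_lit 5) (nat_lit 258) (nat_lit 5) (nat_lit 615) (nat_lit 550) (nat_lit 395)) (XT.lf (nat_lit 0) (nat_lit 7885917810) (nat_lit 532) (nat_lit 7257119849) (nat_lit 608) (nat_lit 273232874) (nat_lit 250) (nat_lit 5) (nat_lit 257) (nat_lit 5) (nat_lit 258) (nat_lit 5) (nat_lit 616) (nat_lit 550) (nat_lit 394))) (XT.nd (nat_lit 78) (nat_lit 0) (nat_lit 0) (XT.lf (nat_lit 0) (nat_lit 1912407527) (nat_lit 532) (nat_lit 1093090768) (nat_lit 608) (nat_lit 12587863887) (nat_lit 242) (nat_lit 5) (nat_lit 249) (nat_lit 5) (nat_lit 250) (nat_lit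 5) (nat_lit 617) (nat_lit 550) (nat_lit 393)) (XT.lf (nat_lit 0) (nat_lit 6419528903) (nat_lit 608) (nat_lit 4178197114) (nat_lit 76) (nat_lit 5174766088) (nat_lit 242) (nat_lit 5) (nat_lit 250) (nat_lit 5) (nat_lit 243) (nat_lit 5) (nat_lit 618) (nat_lit 550) (nat_lit 392)))) (XT.nd (nat_lit 156) (nat_lit 1064) (nat_lit 0) (XT.nd (nat_lit 78) (nat_lit 0) (nat_lit 0) (XT.lf (nat_lit 0) (nat_lit 5565225754) (nat_lit 456) (nat_lit 4368994739) (nat_lit 532) (nat_lit 6020336756) (nat_lit 236) (nat_lit 5) (nat_lit 242) (nat_lit 5) (nat_lit 243) (nat_lit 5) (nat_lit 619) (nat_lit 550) (nat_lit 391)) (XT.lf (nat_lit 0) (nat_lit 13549412009) (nat_lit 532) (nat_lit 607849236) (nat_lit 76) (nat_lit 1982398551) (nat_lit 236) (nat_lit 5) (nat_lit 243) (nat_lit 5) (nat_lit 237) (nat_lit 5) (nat_lit 620) (nat_lit 550) (nat_lit 390))) (XT.nd (nat_lit 78) (nat_lit 456) (nat_lit 0) (XT.lf (nat_lit 0) (nat_lit 976653312) (nat_lit 608) (nat_lit 6883971618) (nat_lit 76) (nat_lit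 8466119220) (nat_lit 228) (nat_lit 5) (nat_lit 236) (nat_lit 5) (nat_lit 229) (nat_lit 5) (nat_lit 621) (nat_lit 550) (nat_lit 389)) (XT.lf (nat_lit 0) (nat_lit 3194902853) (nat_lit 456) (nat_lit 1399543808) (nat_lit 532) (nat_lit 11922496557) (nat_lit 222) (nat_lit 5) (nat_lit 228) (nat_lit 5) (nat_lit 229) (nat_lit 5) (nat_lit 622) (nat_lit 550) (nat_lit 388)))))) (XT.nd (nat_lit 624) (nat_lit 1976) (nat_lit 0) (XT.nd (nat_lit 312) (nat_lit 1368) (nat_lit 0) (XT.nd (nat_lit 156) (nat_lit 532) (nat_lit 0) (XT.nd (nat_lit 78) (nat_lit 456) (nat_lit 0) (XT.lf (nat_lit 0) (nat_lit 8354238430) (nat_lit 532) (nat_lit 3190420977) (nat_lit 76) (nat_lit 5164894216) (nat_lit 222) (nat_lit 5) (nat_lit 229) (nat_lit 5) (nat_lit 223) (nat_lit 5) (nat_lit 623) (nat_lit 550) (nat_lit 387)) (XT.lf (nat_lit 0) (nat_lit 7214416256) (nat_lit 456) (nat_lit 5020565820) (nat_lit 532) (nat_lit 4670119241) (nat_lit 216) (nat_lit 5) (nat_lit 222) (nat_lit 5) (nat_lit 223) (nat_lit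 5) (nat_lit 624) (nat_lit 550) (nat_lit 386))) (XT.nd (nat_lit 78) (nat_lit 76) (nat_lit 0) (XT.lf (nat_lit 0) (nat_lit 750716708) (nat_lit 456) (nat_lit 15469384133) (nat_lit 532) (nat_lit 883924117) (nat_lit 210) (nat_lit 5) (nat_lit 216) (nat_lit 5) (nat_lit 217) (nat_lit 5) (nat_lit 625) (nat_lit 550) (nat_lit 385)) (XT.lf (nat_lit 0) (nat_lit 3027411018) (nat_lit 532) (nat_lit 5841216977) (nat_lit 76) (nat_lit 8436143106) (nat_lit 209) (nat_lit 5) (nat_lit 216) (nat_lit 5) (nat_lit 210) (nat_lit 5) (nat_lit 626) (nat_lit 550) (nat_lit 384)))) (XT.nd (nat_lit 156) (nat_lit 912) (nat_lit 0) (XT.nd (nat_lit 78) (nat_lit 0) (nat_lit 0) (XT.lf (nat_lit 0) (nat_lit 4925267663) (nat_lit 456) (nat_lit 2101823335) (nat_lit 532) (nat_lit 10481885421) (nat_lit 203) (nat_lit 5) (nat_lit 209) (nat_lit 5) (nat_lit 210) (nat_lit 5) (nat_lit 627) (nat_lit 550) (nat_lit 383)) (XT.lf (nat_lit 0) (nat_lit 11167426413) (nat_lit 532) (nat_lit 1776310749) (nat_lit 76)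 (nat_lit 4772315629) (nat_lit 203) (nat_lit 5) (nat_lit 210) (nat_lit 5) (nat_lit 204) (nat_lit 5) (nat_lit 628) (nat_lit 550) (nat_lit 382))) (XT.nd (nat_lit 78) (nat_lit 532) (nat_lit 0) (XT.lf (nat_lit 0) (nat_lit 9341454582) (nat_lit 380) (nat_lit 6113917333) (nat_lit 456) (nat_lit 2470602887) (nat_lit 198) (nat_lit 5) (nat_lit 203) (nat_lit 5) (nat_lit 204) (nat_lit 5) (nat_lit 629) (nat_lit 550) (nat_lit 381)) (XT.lf (nat_lit 0) (nat_lit 1691576529) (nat_lit 532) (nat_lit 15571163369) (nat_lit 76) (nat_lit 876641273) (nat_lit 191) (nat_lit 5) (nat_lit 198) (nat_lit 5) (nat_lit 192) (nat_lit 5) (nat_lit 630) (nat_lit 550) (nat_lit 380))))) (XT.nd (nat_lit 312) (nat_lit 1140) (nat_lit 0) (XT.nd (nat_lit 156) (nat_lit 456) (nat_lit 0) (XT.nd (nat_lit 78) (nat_lit 380) (nat_lit 0) (XT.lf (nat_lit 0) (nat_lit 5992761917) (nat_lit 532) (nat_lit 4367238860) (nat_lit 76) (nat_lit 7994951572) (nat_lit 191) (nat_lit 5) (nat_lit 198) (nat_lit 5) (nat_lit 192)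 (nat_lit 5) (nat_lit 631) (nat_lit 550) (nat_lit 379)) (XT.lf (nat_lit 0) (nat_lit 7140214517) (nat_lit 380) (nat_lit 3276640173) (nat_lit 456) (nat_lit 8157242751) (nat_lit 186) (nat_lit 5) (nat_lit 191) (nat_lit 5) (nat_lit 192) (nat_lit 5) (nat_lit 632) (nat_lit 550) (nat_lit 378))) (XT.nd (nat_lit 78) (nat_lit 76) (nat_lit 0) (XT.lf (nat_lit 0) (nat_lit 101215990) (nat_lit 380) (nat_lit 14874594855) (nat_lit 456) (nat_lit 3820887125) (nat_lit 181) (nat_lit 5) (nat_lit 186) (nat_lit 5) (nat_lit 187) (nat_lit 5) (nat_lit 633) (nat_lit 550) (nat_lit 377)) (XT.lf (nat_lit 0) (nat_lit 683851774) (nat_lit 456) (nat_lit 7040616957) (nat_lit 76) (nat_lit 11297412654) (nat_lit 180) (nat_lit 5) (nat_lit 186) (nat_lit 5) (nat_lit 181) (nat_lit 5) (nat_lit 634) (nat_lit 550) (nat_lit 376)))) (XT.nd (nat_lit 156) (nat_lit 760) (nat_lit 0) (XT.nd (nat_lit 78) (nat_lit 0) (nat_lit 0) (XT.lf (nat_lit 0) (nat_lit 4871928294) (nat_lit 380) (nat_lit 378077996) (nat_lit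 456) (nat_lit 14000607561) (nat_lit 175) (nat_lit 5) (nat_lit 180) (nat_lit 5) (nat_lit 181) (nat_lit 5) (nat_lit 635) (nat_lit 550) (nat_lit 375)) (XT.lf (nat_lit 0) (nat_lit 9992101540) (nat_lit 456) (nat_lit 2425392220) (nat_lit 76) (nat_lit 7064735004) (nat_lit 175) (nat_lit 5) (nat_lit 181) (nat_lit 5) (nat_lit 176) (nat_lit 5) (nat_lit 636) (nat_lit 550) (nat_lit 374))) (XT.nd (nat_lit 78) (nat_lit 380) (nat_lit 0) (XT.lf (nat_lit 0) (nat_lit 9880251992) (nat_lit 380) (nat_lit 5006480510) (nat_lit 456) (nat_lit 4830589745) (nat_lit 170) (nat_lit 5) (nat_lit 175) (nat_lit 5) (nat_lit 176) (nat_lit 5) (nat_lit 637) (nat_lit 550) (nat_lit 373)) (XT.lf (nat_lit 0) (nat_lit 2510489457) (nat_lit 380) (nat_lit 17409120185) (nat_lit 456) (nat_lit 36701030) (nat_lit 165) (nat_lit 5) (nat_lit 170) (nat_lit 5) (nat_lit 171) (nat_lit 5) (nat_lit 638) (nat_lit 550) (nat_lit 372))))))) (XT.nd (nat_lit 2184) (nat_lit 760) (nat_lit 0) (XT.nd (nat_lit 1560) (nat_lit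 1444) (nat_lit 0) (XT.nd (nat_lit 1248) (nat_lit 608) (nat_lit 0) (XT.nd (nat_lit 78) (nat_lit 3572) (nat_lit 0) (XT.lf (nat_lit 0) (nat_lit 4880144126) (nat_lit 456) (nat_lit 5039391124) (nat_lit 76) (nat_lit 10278099018) (nat_lit 164) (nat_lit 5) (nat_lit 170) (nat_lit 5) (nat_lit 165) (nat_lit 5) (nat_lit 639) (nat_lit 550) (nat_lit 371)) (XT.nd (nat_lit 1092) (nat_lit 3192) (nat_lit 0) (XT.lf (nat_lit 0) (nat_lit 7702339187) (nat_lit 380) (nat_lit 2233801698) (nat_lit 456) (nat_lit 10506812613) (nat_lit 159) (nat_lit 5) (nat_lit 164) (nat_lit 5) (nat_lit 165) (nat_lit 5) (nat_lit 640) (nat_lit 550) (nat_lit 370)) (XT.lf (nat_lit 0) (nat_lit 1058381478) (nat_lit 380) (nat_lit 19987722560) (nat_lit 76) (nat_lit 3217269345) (nat_lit 117) (nat_lit 5) (nat_lit 122) (nat_lit 5) (nat_lit 118) (nat_lit 5) (nat_lit 654) (nat_lit 550) (nat_lit 356)))) (XT.nd (nat_lit 156) (nat_lit 304) (nat_lit 0) (XT.nd (nat_lit 78) (nat_lit 304) (nat_lit 0) (XT.lf (nat_lit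 0) (nat_lit 7496497966) (nat_lit 380) (nat_lit 4761160841) (nat_lit 76) (nat_lit 12307707681) (nat_lit 117) (nat_lit 5) (nat_lit 122) (nat_lit 5) (nat_lit 118) (nat_lit 5) (nat_lit 655) (nat_lit 550) (nat_lit 355)) (XT.lf (nat_lit 0) (nat_lit 10900496503) (nat_lit 304) (nat_lit 3226242631) (nat_lit 380) (nat_lit 10745393166) (nat_lit 113) (nat_lit 5) (nat_lit 117) (nat_lit 5) (nat_lit 118) (nat_lit 5) (nat_lit 656) (nat_lit 550) (nat_lit 354))) (XT.nd (nat_lit 78) (nat_lit 76) (nat_lit 0) (XT.lf (nat_lit 0) (nat_lit 1726670819) (nat_lit 228) (nat_lit 19237772452) (nat_lit 304) (nat_lit 4219093083) (nat_lit 110) (nat_lit 5) (nat_lit 113) (nat_lit 5) (nat_lit 114) (nat_lit 5) (nat_lit 657) (nat_lit 550) (nat_lit 353)) (XT.lf (nat_lit 0) (nat_lit 2514143617) (nat_lit 304) (nat_lit 7621221601) (nat_lit 76) (nat_lit 15363319172) (nat_lit 109) (nat_lit 5) (nat_lit 113) (nat_lit 5) (nat_lit 110) (nat_lit 5) (nat_lit 658) (nat_lit 550) (nat_lit 352))))) (XT.nd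 (nat_lit 312) (nat_lit 532) (nat_lit 0) (XT.nd (nat_lit 156) (nat_lit 608) (nat_lit 0) (XT.nd (nat_lit 78) (nat_lit 0) (nat_lit 0) (XT.lf (nat_lit 0) (nat_lit 8603832173) (nat_lit 304) (nat_lit 770416305) (nat_lit 380) (nat_lit 16444355288) (nat_lit 105) (nat_lit 5) (nat_lit 109) (nat_lit 5) (nat_lit 110) (nat_lit 5) (nat_lit 659) (nat_lit 550) (nat_lit 351)) (XT.lf (nat_lit 0) (nat_lit 16472867059) (nat_lit 380) (nat_lit 956793631) (nat_lit 76) (nat_lit 8713234688) (nat_lit 105) (nat_lit 5) (nat_lit 110) (nat_lit 5) (nat_lit 106) (nat_lit 5) (nat_lit 660) (nat_lit 550) (nat_lit 350))) (XT.nd (nat_lit 78) (nat_lit 380) (nat_lit 0) (XT.lf (nat_lit 0) (nat_lit 15816686887) (nat_lit 228) (nat_lit 7997519610) (nat_lit 304) (nat_lit 2657451440) (nat_lit 102) (nat_lit 5) (nat_lit 105) (nat_lit 5) (nat_lit 106) (nat_lit 5) (nat_lit 661) (nat_lit 550) (nat_lit 349)) (XT.lf (nat_lit 0) (nat_lit 4486928376) (nat_lit 380) (nat_lit 20645189396) (nat_lit 76) (nat_lit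 1673284131) (nat_lit 97) (nat_lit 5) (nat_lit 102) (nat_lit 5) (nat_lit 98) (nat_lit 5) (nat_lit 662) (nat_lit 550) (nat_lit 348)))) (XT.nd (nat_lit 156) (nat_lit 304) (nat_lit 0) (XT.nd (nat_lit 78) (nat_lit 228) (nat_lit 0) (XT.lf (nat_lit 0) (nat_lit 11856580118) (nat_lit 380) (nat_lit 3771332827) (nat_lit 76) (nat_lit 11515197213) (nat_lit 97) (nat_lit 5) (nat_lit 102) (nat_lit 5) (nat_lit 98) (nat_lit 5) (nat_lit 663) (nat_lit 550) (nat_lit 347)) (XT.lf (nat_lit 0) (nat_lit 13606654073) (nat_lit 228) (nat_lit 5848448225) (nat_lit 304) (nat_lit 8030840807) (nat_lit 94) (nat_lit 5) (nat_lit 97) (nat_lit 5) (nat_lit 98) (nat_lit 5) (nat_lit 664) (nat_lit 550) (nat_lit 346))) (XT.nd (nat_lit 78) (nat_lit 76) (nat_lit 0) (XT.lf (nat_lit 0) (nat_lit 3556046296) (nat_lit 228) (nat_lit 23718065308) (nat_lit 304) (nat_lit 560150846) (nat_lit 91) (nat_lit 5) (nat_lit 94) (nat_lit 5) (nat_lit 95) (nat_lit 5) (nat_lit 665) (nat_lit 550) (nat_lit 345)) (XT.lf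 (nat_lit 0) (nat_lit 7093019363) (nat_lit 304) (nat_lit 6756486008) (nat_lit 76) (nat_lit 14336612945) (nat_lit 90) (nat_lit 5) (nat_lit 94) (nat_lit 5) (nat_lit 91) (nat_lit 5) (nat_lit 666) (nat_lit 550) (nat_lit 344)))))) (XT.nd (nat_lit 72462) (nat_lit 0) (nat_lit 37620) (XT.nd (nat_lit 72150) (nat_lit 0) (nat_lit 39064) (XT.nd (nat_lit 156) (nat_lit 304) (nat_lit 0) (XT.nd (nat_lit 78) (nat_lit 228) (nat_lit 0) (XT.lf (nat_lit 0) (nat_lit 11247879078) (nat_lit 228) (nat_lit 3710216458) (nat_lit 304) (nat_lit 13585514922) (nat_lit 87) (nat_lit 5) (nat_lit 90) (nat_lit 5) (nat_lit 91) (nat_lit 5) (nat_lit 667) (nat_lit 550) (nat_lit 343)) (XT.lf (nat_lit 0) (nat_lit 751435634) (nat_lit 228) (nat_lit 22315946527) (nat_lit 304) (nat_lit 5839132169) (nat_lit 84) (nat_lit 5) (nat_lit 87) (nat_lit 5) (nat_lit 88) (nat_lit 5) (nat_lit 668) (nat_lit 550) (nat_lit 342))) (XT.nd (nat_lit 78) (nat_lit 228) (nat_lit 0) (XT.lf (nat_lit 0) (nat_lit 2169879173) (nat_lit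 304) (nat_lit 9930734112) (nat_lit 76) (nat_lit 17173100346) (nat_lit 83) (nat_lit 5) (nat_lit 87) (nat_lit 5) (nat_lit 84) (nat_lit 5) (nat_lit 669) (nat_lit 550) (nat_lit 341)) (XT.lf (nat_lit 0) (nat_lit 8722407232) (nat_lit 228) (nat_lit 1588656497) (nat_lit 304) (nat_lit 19335417739) (nat_lit 80) (nat_lit 5) (nat_lit 83) (nat_lit 5) (nat_lit 84) (nat_lit 5) (nat_lit 670) (nat_lit 550) (nat_lit 340)))) (XT.nd (nat_lit 156) (nat_lit 0) (nat_lit 0) (XT.nd (nat_lit 78) (nat_lit 0) (nat_lit 0) (XT.lf (nat_lit 0) (nat_lit 676574819) (nat_lit 0) (nat_lit 676574819) (nat_lit 1444) (nat_lit 2783279703) (nat_lit 594) (nat_lit 5) (nat_lit 594) (nat_lit 3) (nat_lit 613) (nat_lit 3) (nat_lit 551) (nat_lit 551) (nat_lit 458)) (XT.lf (nat_lit 0) (nat_lit 3862236235) (nat_lit 1444) (nat_lit 2801999428) (nat_lit 1520) (nat_lit 1668735004) (nat_lit 594) (nat_lit 5) (nat_lit 613) (nat_lit 3) (nat_lit 614) (nat_lit 5) (nat_lit 552) (nat_lit 551) (nat_lit 457))) (XT.nd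 (nat_lit 78) (nat_lit 0) (nat_lit 0) (XT.lf (nat_lit 76) (nat_lit 1392015587) (nat_lit 0) (nat_lit 3638047882) (nat_lit 1520) (nat_lit 3364447016) (nat_lit 595) (nat_lit 5) (nat_lit 594) (nat_lit 5) (nat_lit 614) (nat_lit 5) (nat_lit 553) (nat_lit 551) (nat_lit 456)) (XT.lf (nat_lit 76) (nat_lit 5692649616) (nat_lit 0) (nat_lit 518647036) (nat_lit 1520) (nat_lit 2246184465) (nat_lit 595) (nat_lit 5) (nat_lit 594) (nat_lit 5) (nat_lit 614) (nat_lit 5) (nat_lit 554) (nat_lit 551) (nat_lit 455))))) (XT.nd (nat_lit 312) (nat_lit 0) (nat_lit 76) (XT.nd (nat_lit 156) (nat_lit 0) (nat_lit 76) (XT.nd (nat_lit 78) (nat_lit 1520) (nat_lit 0) (XT.lf (nat_lit 76) (nat_lit 1544961710) (nat_lit 0) (nat_lit 5870410896) (nat_lit 1520) (nat_lit 1106355182) (nat_lit 596) (nat_lit 5) (nat_lit 595) (nat_lit 5) (nat_lit 615) (nat_lit 5) (nat_lit 555) (nat_lit 551) (nat_lit 454)) (XT.lf (nat_lit 0) (nat_lit 49806462) (nat_lit 1520) (nat_lit 2628245795) (nat_lit 1596) (nat_lit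 5909315300) (nat_lit 575) (nat_lit 5) (nat_lit 595) (nat_lit 5) (nat_lit 596) (nat_lit 5) (nat_lit 556) (nat_lit 551) (nat_lit 453))) (XT.nd (nat_lit 78) (nat_lit 0) (nat_lit 0) (XT.lf (nat_lit 0) (nat_lit 1202695094) (nat_lit 1520) (nat_lit 6850362746) (nat_lit 1596) (nat_lit 601348593) (nat_lit 576) (nat_lit 5) (nat_lit 596) (nat_lit 5) (nat_lit 597) (nat_lit 5) (nat_lit 557) (nat_lit 551) (nat_lit 452)) (XT.lf (nat_lit 0) (nat_lit 2387348047) (nat_lit 1520) (nat_lit 2395742125) (nat_lit 1596) (nat_lit 3939522695) (nat_lit 576) (nat_lit 5) (nat_lit 596) (nat_lit 5) (nat_lit 597) (nat_lit 5) (nat_lit 558) (nat_lit 551) (nat_lit 451)))) (XT.nd (nat_lit 156) (nat_lit 0) (nat_lit 76) (XT.nd (nat_lit 78) (nat_lit 0) (nat_lit 76) (XT.lf (nat_lit 76) (nat_lit 2160559927) (nat_lit 0) (nat_lit 1422904457) (nat_lit 1596) (nat_lit 5208964533) (nat_lit 577) (nat_lit 5) (nat_lit 576) (nat_lit 5) (nat_lit 597) (nat_lit 5) (nat_lit 559) (nat_lit 551) (nat_lit 450))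 (XT.lf (nat_lit 0) (nat_lit 4806922706) (nat_lit 1520) (nat_lit 2052205234) (nat_lit 1596) (nat_lit 2004445831) (nat_lit 577) (nat_lit 5) (nat_lit 597) (nat_lit 5) (nat_lit 598) (nat_lit 5) (nat_lit 560) (nat_lit 551) (nat_lit 449))) (XT.nd (nat_lit 78) (nat_lit 0) (nat_lit 76) (XT.lf (nat_lit 76) (nat_lit 2628188438) (nat_lit 0) (nat_lit 3427876408) (nat_lit 1596) (nat_lit 2880053242) (nat_lit 578) (nat_lit 5) (nat_lit 577) (nat_lit 5) (nat_lit 598) (nat_lit 5) (nat_lit 561) (nat_lit 551) (nat_lit 448)) (XT.lf (nat_lit 0) (nat_lit 7319699228) (nat_lit 1520) (nat_lit 1596750373) (nat_lit 1596) (nat_lit 93874344) (nat_lit 578) (nat_lit 5) (nat_lit 598) (nat_lit 5) (nat_lit 599) (nat_lit 5) (nat_lit 562) (nat_lit 551) (nat_lit 447))))))))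
noncomputable def xc122 : XT := (XT.nd (nat_lit 2418) (nat_lit 11552) (nat_lit 0) (XT.nd (nat_lit 1170) (nat_lit 9196) (nat_lit 0) (XT.nd (nat_lit 546) (nat_lit 4712) (nat_lit 0) (XT.nd (nat_lit 234) (nat_lit 0) (nat_lit 76) (XT.nd (nat_lit 78) (nat_lit 1596) (nat_lit 0) (XT.lf (nat_lit 76) (nat_lit 3212036579) (nat_lit 0) (nat_lit 5415791584) (nat_lit 1596) (nat_lit 457802144) (nat_lit 579) (nat_lit 5) (nat_lit 578) (nat_lit 5) (nat_lit 599) (nat_lit 5) (nat_lit 563) (nat_lit 551) (nat_lit 446)) (XT.nd (nat_lit 78) (nat_lit 0) (nat_lit 76) (XT.lf (nat_lit 0) (nat_lit 775855193) (nat_lit 1596) (nat_lit 1045104823) (nat_lit 1672) (nat_lit 7341646409) (nat_lit 557) (nat_lit 5) (nat_lit 578) (nat_lit 5) (nat_lit 579) (nat_lit 5) (nat_lit 564) (nat_lit 551) (nat_lit 445)) (XT.lf (nat_lit 0) (nat_lit 2042038104) (nat_lit 1596) (nat_lit 5340955130) (nat_lit 1672) (nat_lit 1857789439) (nat_lit 558) (nat_lit 5) (nat_lit 579) (nat_lit 5) (nat_lit 580) (nat_lit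 5) (nat_lit 565) (nat_lit 551) (nat_lit 444)))) (XT.nd (nat_lit 156) (nat_lit 0) (nat_lit 76) (XT.nd (nat_lit 78) (nat_lit 0) (nat_lit 76) (XT.lf (nat_lit 0) (nat_lit 3329426070) (nat_lit 1596) (nat_lit 391010962) (nat_lit 1672) (nat_lit 5600168549) (nat_lit 558) (nat_lit 5) (nat_lit 579) (nat_lit 5) (nat_lit 580) (nat_lit 5) (nat_lit 566) (nat_lit 551) (nat_lit 443)) (XT.lf (nat_lit 0) (nat_lit 4650664579) (nat_lit 1596) (nat_lit 4698623565) (nat_lit 1672) (nat_lit 52575494) (nat_lit 559) (nat_lit 5) (nat_lit 580) (nat_lit 5) (nat_lit 581) (nat_lit 5) (nat_lit 567) (nat_lit 551) (nat_lit 442))) (XT.nd (nat_lit 78) (nat_lit 0) (nat_lit 0) (XT.lf (nat_lit 76) (nat_lit 383947473) (nat_lit 0) (nat_lit 5621756834) (nat_lit 1672) (nat_lit 3478895755) (nat_lit 560) (nat_lit 5) (nat_lit 559) (nat_lit 5) (nat_lit 581) (nat_lit 5) (nat_lit 568) (nat_lit 551) (nat_lit 441)) (XT.lf (nat_lit 76) (nat_lit 5615554958) (nat_lit 0) (nat_lit 1781757066) (nat_lit 1672)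 (nat_lit 2171490563) (nat_lit 560) (nat_lit 5) (nat_lit 559) (nat_lit 5) (nat_lit 581) (nat_lit 5) (nat_lit 569) (nat_lit 551) (nat_lit 440))))) (XT.nd (nat_lit 312) (nat_lit 3268) (nat_lit 0) (XT.nd (nat_lit 156) (nat_lit 0) (nat_lit 76) (XT.nd (nat_lit 78) (nat_lit 1672) (nat_lit 0) (XT.lf (nat_lit 76) (nat_lit 1283621962) (nat_lit 0) (nat_lit 7533732386) (nat_lit 1672) (nat_lit 837323472) (nat_lit 561) (nat_lit 5) (nat_lit 560) (nat_lit 5) (nat_lit 582) (nat_lit 5) (nat_lit 570) (nat_lit 551) (nat_lit 439)) (XT.lf (nat_lit 0) (nat_lit 533746475) (nat_lit 1672) (nat_lit 3094931548) (nat_lit 1748) (nat_lit 6113183515) (nat_lit 538) (nat_lit 5) (nat_lit 560) (nat_lit 5) (nat_lit 561) (nat_lit 5) (nat_lit 571) (nat_lit 551) (nat_lit 438))) (XT.nd (nat_lit 78) (nat_lit 0) (nat_lit 0) (XT.lf (nat_lit 0) (nat_lit 1917406169) (nat_lit 1672) (nat_lit 7538306303) (nat_lit 1748) (nat_lit 375038827) (nat_lit 539) (nat_lit 5) (nat_lit 561) (nat_lit 5) (nat_lit 562)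 (nat_lit 5) (nat_lit 572) (nat_lit 551) (nat_lit 437)) (XT.lf (nat_lit 0) (nat_lit 3353013764) (nat_lit 1672) (nat_lit 2132293870) (nat_lit 1748) (nat_lit 4435626378) (nat_lit 539) (nat_lit 5) (nat_lit 561) (nat_lit 5) (nat_lit 562) (nat_lit 5) (nat_lit 573) (nat_lit 551) (nat_lit 436)))) (XT.nd (nat_lit 156) (nat_lit 3344) (nat_lit 0) (XT.nd (nat_lit 78) (nat_lit 0) (nat_lit 76) (XT.lf (nat_lit 76) (nat_lit 3410247615) (nat_lit 0) (nat_lit 1408970196) (nat_lit 1748) (nat_lit 5193665519) (nat_lit 540) (nat_lit 5) (nat_lit 539) (nat_lit 5) (nat_lit 562) (nat_lit 5) (nat_lit 574) (nat_lit 551) (nat_lit 435)) (XT.lf (nat_lit 0) (nat_lit 6327056208) (nat_lit 1672) (nat_lit 1048418299) (nat_lit 76) (nat_lit 2730951547) (nat_lit 540) (nat_lit 5) (nat_lit 562) (nat_lit 5) (nat_lit 541) (nat_lit 5) (nat_lit 575) (nat_lit 551) (nat_lit 434))) (XT.nd (nat_lit 78) (nat_lit 1748) (nat_lit 0) (XT.lf (nat_lit 0) (nat_lit 4652259747) (nat_lit 1672) (nat_lit 3232778160)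 (nat_lit 1748) (nat_lit 2316402610) (nat_lit 518) (nat_lit 5) (nat_lit 540) (nat_lit 5) (nat_lit 541) (nat_lit 5) (nat_lit 576) (nat_lit 551) (nat_lit 433)) (XT.lf (nat_lit 0) (nat_lit 161973667) (nat_lit 1748) (nat_lit 9307533116) (nat_lit 1824) (nat_lit 828942536) (nat_lit 495) (nat_lit 5) (nat_lit 518) (nat_lit 5) (nat_lit 519) (nat_lit 5) (nat_lit 577) (nat_lit 551) (nat_lit 432)))))) (XT.nd (nat_lit 624) (nat_lit 4256) (nat_lit 0) (XT.nd (nat_lit 312) (nat_lit 1900) (nat_lit 0) (XT.nd (nat_lit 156) (nat_lit 1140) (nat_lit 0) (XT.nd (nat_lit 78) (nat_lit 1824) (nat_lit 0) (XT.lf (nat_lit 0) (nat_lit 719025881) (nat_lit 1824) (nat_lit 4376958113) (nat_lit 76) (nat_lit 5300529790) (nat_lit 494) (nat_lit 5) (nat_lit 518) (nat_lit 5) (nat_lit 495) (nat_lit 5) (nat_lit 578) (nat_lit 551) (nat_lit 431)) (XT.lf (nat_lit 0) (nat_lit 1495449698) (nat_lit 1824) (nat_lit 782391141) (nat_lit 1900) (nat_lit 8218769944) (nat_lit 470) (nat_lit 5) (nat_lit 494) (nat_lit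 5) (nat_lit 495) (nat_lit 5) (nat_lit 579) (nat_lit 551) (nat_lit 430))) (XT.nd (nat_lit 78) (nat_lit 1140) (nat_lit 0) (XT.lf (nat_lit 0) (nat_lit 3902427615) (nat_lit 1900) (nat_lit 3093866783) (nat_lit 76) (nat_lit 3601723971) (nat_lit 470) (nat_lit 5) (nat_lit 495) (nat_lit 5) (nat_lit 471) (nat_lit 5) (nat_lit 580) (nat_lit 551) (nat_lit 429)) (XT.lf (nat_lit 0) (nat_lit 2948692656) (nat_lit 1140) (nat_lit 2617043924) (nat_lit 1216) (nat_lit 5135593461) (nat_lit 455) (nat_lit 5) (nat_lit 470) (nat_lit 5) (nat_lit 471) (nat_lit 5) (nat_lit 581) (nat_lit 551) (nat_lit 428)))) (XT.nd (nat_lit 156) (nat_lit 988) (nat_lit 0) (XT.nd (nat_lit 78) (nat_lit 912) (nat_lit 0) (XT.lf (nat_lit 0) (nat_lit 7277384449) (nat_lit 1216) (nat_lit 1681030836) (nat_lit 76) (nat_lit 1847991739) (nat_lit 455) (nat_lit 5) (nat_lit 471) (nat_lit 5) (nat_lit 456) (nat_lit 5) (nat_lit 582) (nat_lit 551) (nat_lit 427)) (XT.lf (nat_lit 0) (nat_lit 4537885716) (nat_lit 912) (nat_lit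 4514687355) (nat_lit 988) (nat_lit 1860426846) (nat_lit 443) (nat_lit 5) (nat_lit 455) (nat_lit 5) (nat_lit 456) (nat_lit 5) (nat_lit 583) (nat_lit 551) (nat_lit 426))) (XT.nd (nat_lit 78) (nat_lit 988) (nat_lit 0) (XT.lf (nat_lit 0) (nat_lit 10857495027) (nat_lit 988) (nat_lit 134273593) (nat_lit 76) (nat_lit 30071970) (nat_lit 443) (nat_lit 5) (nat_lit 456) (nat_lit 5) (nat_lit 444) (nat_lit 5) (nat_lit 584) (nat_lit 551) (nat_lit 425)) (XT.lf (nat_lit 0) (nat_lit 1599165614) (nat_lit 988) (nat_lit 4874847996) (nat_lit 76) (nat_lit 4657560809) (nat_lit 430) (nat_lit 5) (nat_lit 443) (nat_lit 5) (nat_lit 431) (nat_lit 5) (nat_lit 585) (nat_lit 551) (nat_lit 424))))) (XT.nd (nat_lit 312) (nat_lit 2508) (nat_lit 0) (XT.nd (nat_lit 156) (nat_lit 912) (nat_lit 0) (XT.nd (nat_lit 78) (nat_lit 0) (nat_lit 0) (XT.lf (nat_lit 0) (nat_lit 1536596805) (nat_lit 836) (nat_lit 1853247174) (nat_lit 912) (nat_lit 7853755753) (nat_lit 419) (nat_lit 5) (nat_lit 430) (nat_lit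 5) (nat_lit 431) (nat_lit 5) (nat_lit 586) (nat_lit 551) (nat_lit 423)) (XT.lf (nat_lit 0) (nat_lit 5251271717) (nat_lit 912) (nat_lit 3250215790) (nat_lit 76) (nat_lit 2855679802) (nat_lit 419) (nat_lit 5) (nat_lit 431) (nat_lit 5) (nat_lit 420) (nat_lit 5) (nat_lit 587) (nat_lit 551) (nat_lit 422))) (XT.nd (nat_lit 78) (nat_lit 0) (nat_lit 0) (XT.lf (nat_lit 0) (nat_lit 3351140014) (nat_lit 912) (nat_lit 3816581502) (nat_lit 988) (nat_lit 4304929316) (nat_lit 407) (nat_lit 5) (nat_lit 419) (nat_lit 5) (nat_lit 420) (nat_lit 5) (nat_lit 588) (nat_lit 551) (nat_lit 421)) (XT.lf (nat_lit 0) (nat_lit 9134676890) (nat_lit 988) (nat_lit 1484275915) (nat_lit 76) (nat_lit 971248144) (nat_lit 407) (nat_lit 5) (nat_lit 420) (nat_lit 5) (nat_lit 408) (nat_lit 5) (nat_lit 589) (nat_lit 551) (nat_lit 420)))) (XT.nd (nat_lit 156) (nat_lit 760) (nat_lit 0) (XT.nd (nat_lit 78) (nat_lit 912) (nat_lit 0) (XT.lf (nat_lit 0) (nat_lit 5313986872) (nat_lit 836) (nat_lit 5871051396)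 (nat_lit 912) (nat_lit 524182910) (nat_lit 396) (nat_lit 5) (nat_lit 407) (nat_lit 5) (nat_lit 408) (nat_lit 5) (nat_lit 590) (nat_lit 551) (nat_lit 419)) (XT.lf (nat_lit 0) (nat_lit 417700266) (nat_lit 836) (nat_lit 1006251734) (nat_lit 912) (nat_lit 10406539927) (nat_lit 384) (nat_lit 5) (nat_lit 395) (nat_lit 5) (nat_lit 396) (nat_lit 5) (nat_lit 591) (nat_lit 551) (nat_lit 418))) (XT.nd (nat_lit 78) (nat_lit 760) (nat_lit 0) (XT.lf (nat_lit 0) (nat_lit 3457508022) (nat_lit 912) (nat_lit 4545620875) (nat_lit 76) (nat_lit 3949920774) (nat_lit 384) (nat_lit 5) (nat_lit 396) (nat_lit 5) (nat_lit 385) (nat_lit 5) (nat_lit 592) (nat_lit 551) (nat_lit 417)) (XT.lf (nat_lit 0) (nat_lit 2468492240) (nat_lit 760) (nat_lit 3070823247) (nat_lit 836) (nat_lit 6538591889) (nat_lit 374) (nat_lit 5) (nat_lit 384) (nat_lit 5) (nat_lit 385) (nat_lit 5) (nat_lit 593) (nat_lit 551) (nat_lit 416))))))) (XT.nd (nat_lit 1170) (nat_lit 5092) (nat_lit 0) (XT.nd (nat_lit 546)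 (nat_lit 3420) (nat_lit 0) (XT.nd (nat_lit 234) (nat_lit 2280) (nat_lit 0) (XT.nd (nat_lit 78) (nat_lit 760) (nat_lit 0) (XT.lf (nat_lit 0) (nat_lit 7691265696) (nat_lit 836) (nat_lit 2549373521) (nat_lit 76) (nat_lit 1964053290) (nat_lit 374) (nat_lit 5) (nat_lit 385) (nat_lit 5) (nat_lit 375) (nat_lit 5) (nat_lit 594) (nat_lit 551) (nat_lit 415)) (XT.nd (nat_lit 78) (nat_lit 0) (nat_lit 0) (XT.lf (nat_lit 0) (nat_lit 4676892597) (nat_lit 760) (nat_lit 5245431653) (nat_lit 836) (nat_lit 2410968102) (nat_lit 364) (nat_lit 5) (nat_lit 374) (nat_lit 5) (nat_lit 375) (nat_lit 5) (nat_lit 595) (nat_lit 551) (nat_lit 414)) (XT.lf (nat_lit 0) (nat_lit 12066368550) (nat_lit 760) (nat_lit 134294198) (nat_lit 836) (nat_lit 263748659) (nat_lit 364) (nat_lit 5) (nat_lit 374) (nat_lit 5) (nat_lit 375) (nat_lit 5) (nat_lit 596) (nat_lit 551) (nat_lit 413)))) (XT.nd (nat_lit 156) (nat_lit 684) (nat_lit 0) (XT.nd (nat_lit 78) (nat_lit 760) (nat_lit 0) (XT.lf (nat_lit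 0) (nat_lit 1966146728) (nat_lit 836) (nat_lit 5560678349) (nat_lit 76) (nat_lit 5069778051) (nat_lit 353) (nat_lit 5) (nat_lit 364) (nat_lit 5) (nat_lit 354) (nat_lit 5) (nat_lit 597) (nat_lit 551) (nat_lit 412)) (XT.lf (nat_lit 0) (nat_lit 1898913169) (nat_lit 760) (nat_lit 2340013791) (nat_lit 836) (nat_lit 8492440852) (nat_lit 343) (nat_lit 5) (nat_lit 353) (nat_lit 5) (nat_lit 354) (nat_lit 5) (nat_lit 598) (nat_lit 551) (nat_lit 411))) (XT.nd (nat_lit 78) (nat_lit 684) (nat_lit 0) (XT.lf (nat_lit 0) (nat_lit 6599951228) (nat_lit 836) (nat_lit 3320493895) (nat_lit 76) (nat_lit 2947527257) (nat_lit 343) (nat_lit 5) (nat_lit 354) (nat_lit 5) (nat_lit 344) (nat_lit 5) (nat_lit 599) (nat_lit 551) (nat_lit 410)) (XT.lf (nat_lit 0) (nat_lit 4367726689) (nat_lit 684) (nat_lit 4670666808) (nat_lit 760) (nat_lit 3968311945) (nat_lit 334) (nat_lit 5) (nat_lit 343) (nat_lit 5) (nat_lit 344) (nat_lit 5) (nat_lit 600) (nat_lit 551) (nat_lit 409))))) (XT.nd (nat_lit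 312) (nat_lit 1976) (nat_lit 0) (XT.nd (nat_lit 156) (nat_lit 684) (nat_lit 0) (XT.nd (nat_lit 78) (nat_lit 760) (nat_lit 0) (XT.lf (nat_lit 0) (nat_lit 11538970682) (nat_lit 760) (nat_lit 913553378) (nat_lit 76) (nat_lit 695422130) (nat_lit 334) (nat_lit 5) (nat_lit 344) (nat_lit 5) (nat_lit 335) (nat_lit 5) (nat_lit 601) (nat_lit 551) (nat_lit 408)) (XT.lf (nat_lit 0) (nat_lit 850722218) (nat_lit 760) (nat_lit 6284540963) (nat_lit 76) (nat_lit 6155372647) (nat_lit 324) (nat_lit 5) (nat_lit 334) (nat_lit 5) (nat_lit 325) (nat_lit 5) (nat_lit 602) (nat_lit 551) (nat_lit 407))) (XT.nd (nat_lit 78) (nat_lit 0) (nat_lit 0) (XT.lf (nat_lit 0) (nat_lit 1655803979) (nat_lit 684) (nat_lit 1686038853) (nat_lit 760) (nat_lit 10094048584) (nat_lit 315) (nat_lit 5) (nat_lit 324) (nat_lit 5) (nat_lit 325) (nat_lit 5) (nat_lit 603) (nat_lit 551) (nat_lit 406)) (XT.lf (nat_lit 0) (nat_lit 5937350228) (nat_lit 760) (nat_lit 3784303970) (nat_lit 76) (nat_lit 3861306949)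 (nat_lit 315) (nat_lit 5) (nat_lit 325) (nat_lit 5) (nat_lit 316) (nat_lit 5) (nat_lit 604) (nat_lit 551) (nat_lit 405)))) (XT.nd (nat_lit 156) (nat_lit 1292) (nat_lit 0) (XT.nd (nat_lit 78) (nat_lit 0) (nat_lit 0) (XT.lf (nat_lit 0) (nat_lit 4402458826) (nat_lit 684) (nat_lit 4209285710) (nat_lit 760) (nat_lit 5120688516) (nat_lit 306) (nat_lit 5) (nat_lit 315) (nat_lit 5) (nat_lit 316) (nat_lit 5) (nat_lit 605) (nat_lit 551) (nat_lit 404)) (XT.lf (nat_lit 0) (nat_lit 11361725444) (nat_lit 760) (nat_lit 1105119029) (nat_lit 76) (nat_lit 1417608253) (nat_lit 306) (nat_lit 5) (nat_lit 316) (nat_lit 5) (nat_lit 307) (nat_lit 5) (nat_lit 606) (nat_lit 551) (nat_lit 403))) (XT.nd (nat_lit 78) (nat_lit 608) (nat_lit 0) (XT.lf (nat_lit 0) (nat_lit 189064546) (nat_lit 684) (nat_lit 6702243412) (nat_lit 76) (nat_lit 7146917823) (nat_lit 297) (nat_lit 5) (nat_lit 306) (nat_lit 5) (nat_lit 298) (nat_lit 5) (nat_lit 607) (nat_lit 551) (nat_lit 402)) (XT.lf (nat_lit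 0) (nat_lit 1756846704) (nat_lit 608) (nat_lit 1171039532) (nat_lit 684) (nat_lit 11266723378) (nat_lit 289) (nat_lit 5) (nat_lit 297) (nat_lit 5) (nat_lit 298) (nat_lit 5) (nat_lit 608) (nat_lit 551) (nat_lit 401)))))) (XT.nd (nat_lit 624) (nat_lit 2660) (nat_lit 0) (XT.nd (nat_lit 312) (nat_lit 1140) (nat_lit 0) (XT.nd (nat_lit 156) (nat_lit 684) (nat_lit 0) (XT.nd (nat_lit 78) (nat_lit 608) (nat_lit 0) (XT.lf (nat_lit 0) (nat_lit 5784829562) (nat_lit 684) (nat_lit 3923350845) (nat_lit 76) (nat_lit 4644674097) (nat_lit 289) (nat_lit 5) (nat_lit 298) (nat_lit 5) (nat_lit 290) (nat_lit 5) (nat_lit 609) (nat_lit 551) (nat_lit 400)) (XT.lf (nat_lit 0) (nat_lit 4801347841) (nat_lit 608) (nat_lit 3924524401) (nat_lit 684) (nat_lit 5787853118) (nat_lit 281) (nat_lit 5) (nat_lit 289) (nat_lit 5) (nat_lit 290) (nat_lit 5) (nat_lit 610) (nat_lit 551) (nat_lit 399))) (XT.nd (nat_lit 78) (nat_lit 684) (nat_lit 0) (XT.lf (nat_lit 0) (nat_lit 11753206545) (nat_lit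 684) (nat_lit 951893019) (nat_lit 76) (nat_lit 1972164925) (nat_lit 281) (nat_lit 5) (nat_lit 290) (nat_lit 5) (nat_lit 282) (nat_lit 5) (nat_lit 611) (nat_lit 551) (nat_lit 398)) (XT.lf (nat_lit 0) (nat_lit 64117951) (nat_lit 684) (nat_lit 6794829470) (nat_lit 76) (nat_lit 7983786317) (nat_lit 272) (nat_lit 5) (nat_lit 281) (nat_lit 5) (nat_lit 273) (nat_lit 5) (nat_lit 612) (nat_lit 551) (nat_lit 397)))) (XT.nd (nat_lit 156) (nat_lit 608) (nat_lit 0) (XT.nd (nat_lit 78) (nat_lit 0) (nat_lit 0) (XT.lf (nat_lit 0) (nat_lit 2223888989) (nat_lit 532) (nat_lit 858354694) (nat_lit 608) (nat_lit 11928695596) (nat_lit 265) (nat_lit 5) (nat_lit 272) (nat_lit 5) (nat_lit 273) (nat_lit 5) (nat_lit 613) (nat_lit 551) (nat_lit 396)) (XT.lf (nat_lit 0) (nat_lit 6229337106) (nat_lit 608) (nat_lit 3716170964) (nat_lit 76) (nat_lit 5235629010) (nat_lit 265) (nat_lit 5) (nat_lit 273) (nat_lit 5) (nat_lit 266) (nat_lit 5) (nat_lit 614) (nat_lit 551) (nat_lit 395))) (XT.nd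 (nat_lit 78) (nat_lit 0) (nat_lit 0) (XT.lf (nat_lit 0) (nat_lit 5588844587) (nat_lit 608) (nat_lit 3881263771) (nat_lit 684) (nat_lit 5884016005) (nat_lit 257) (nat_lit 5) (nat_lit 265) (nat_lit 5) (nat_lit 266) (nat_lit 5) (nat_lit 615) (nat_lit 551) (nat_lit 394)) (XT.lf (nat_lit 0) (nat_lit 12804623757) (nat_lit 684) (nat_lit 429860604) (nat_lit 76) (nat_lit 2295508698) (nat_lit 257) (nat_lit 5) (nat_lit 266) (nat_lit 5) (nat_lit 258) (nat_lit 5) (nat_lit 616) (nat_lit 551) (nat_lit 393))))) (XT.nd (nat_lit 312) (nat_lit 1064) (nat_lit 0) (XT.nd (nat_lit 156) (nat_lit 456) (nat_lit 0) (XT.nd (nat_lit 78) (nat_lit 532) (nat_lit 0) (XT.lf (nat_lit 0) (nat_lit 564770444) (nat_lit 608) (nat_lit 6539452570) (nat_lit 76) (nat_lit 8603595258) (nat_lit 249) (nat_lit 5) (nat_lit 257) (nat_lit 5) (nat_lit 250) (nat_lit 5) (nat_lit 617) (nat_lit 551) (nat_lit 392)) (XT.lf (nat_lit 0) (nat_lit 3082855385) (nat_lit 532) (nat_lit 813449758) (nat_lit 608) (nat_lit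 11992293086) (nat_lit 242) (nat_lit 5) (nat_lit 249) (nat_lit 5) (nat_lit 250) (nat_lit 5) (nat_lit 618) (nat_lit 551) (nat_lit 391))) (XT.nd (nat_lit 78) (nat_lit 456) (nat_lit 0) (XT.lf (nat_lit 0) (nat_lit 7364247362) (nat_lit 608) (nat_lit 3137375421) (nat_lit 76) (nat_lit 5569975686) (nat_lit 242) (nat_lit 5) (nat_lit 250) (nat_lit 5) (nat_lit 243) (nat_lit 5) (nat_lit 619) (nat_lit 551) (nat_lit 390)) (XT.lf (nat_lit 0) (nat_lit 6793518631) (nat_lit 456) (nat_lit 4146959953) (nat_lit 532) (nat_lit 5317001747) (nat_lit 236) (nat_lit 5) (nat_lit 242) (nat_lit 5) (nat_lit 243) (nat_lit 5) (nat_lit 620) (nat_lit 551) (nat_lit 389)))) (XT.nd (nat_lit 156) (nat_lit 456) (nat_lit 0) (XT.nd (nat_lit 78) (nat_lit 76) (nat_lit 0) (XT.lf (nat_lit 0) (nat_lit 495459962) (nat_lit 532) (nat_lit 14121865579) (nat_lit 608) (nat_lit 1829172681) (nat_lit 229) (nat_lit 5) (nat_lit 236) (nat_lit 5) (nat_lit 237) (nat_lit 5) (nat_lit 621) (nat_lit 551) (nat_lit 388))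 (XT.lf (nat_lit 0) (nat_lit 1786701080) (nat_lit 608) (nat_lit 5909457600) (nat_lit 76) (nat_lit 8941294427) (nat_lit 228) (nat_lit 5) (nat_lit 236) (nat_lit 5) (nat_lit 229) (nat_lit 5) (nat_lit 622) (nat_lit 551) (nat_lit 387))) (XT.nd (nat_lit 78) (nat_lit 0) (nat_lit 0) (XT.lf (nat_lit 0) (nat_lit 4363677299) (nat_lit 456) (nat_lit 1104846299) (nat_lit 532) (nat_lit 11363099398) (nat_lit 222) (nat_lit 5) (nat_lit 228) (nat_lit 5) (nat_lit 229) (nat_lit 5) (nat_lit 623) (nat_lit 551) (nat_lit 386)) (XT.lf (nat_lit 0) (nat_lit 9290228209) (nat_lit 532) (nat_lit 2157719232) (nat_lit 76) (nat_lit 5580404129) (nat_lit 222) (nat_lit 5) (nat_lit 229) (nat_lit 5) (nat_lit 223) (nat_lit 5) (nat_lit 624) (nat_lit 551) (nat_lit 385))))))))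
noncomputable def xc123 : XT := (XT.nd (nat_lit 3198) (nat_lit 1064) (nat_lit 0) (XT.nd (nat_lit 1170) (nat_lit 5320) (nat_lit 0) (XT.nd (nat_lit 546) (nat_lit 2052) (nat_lit 0) (XT.nd (nat_lit 234) (nat_lit 1368) (nat_lit 0) (XT.nd (nat_lit 78) (nat_lit 532) (nat_lit 0) (XT.lf (nat_lit 0) (nat_lit 8448000863) (nat_lit 456) (nat_lit 4792581731) (nat_lit 532) (nat_lit 3987388001) (nat_lit 216) (nat_lit 5) (nat_lit 222) (nat_lit 5) (nat_lit 223) (nat_lit 5) (nat_lit 625) (nat_lit 551) (nat_lit 384)) (XT.nd (nat_lit 78) (nat_lit 76) (nat_lit 0) (XT.lf (nat_lit 0) (nat_lit 1860875300) (nat_lit 456) (nat_lit 15438809565) (nat_lit 532) (nat_lit 131302510) (nat_lit 210) (nat_lit 5) (nat_lit 216) (nat_lit 5) (nat_lit 217) (nat_lit 5) (nat_lit 626) (nat_lit 551) (nat_lit 383)) (XT.lf (nat_lit 0) (nat_lit 3833250871) (nat_lit 532) (nat_lit 4874452060) (nat_lit 76) (nat_lit 8928243878) (nat_lit 209) (nat_lit 5) (nat_lit 216) (nat_lit 5) (nat_lit 210) (nat_lit 5)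 (nat_lit 627) (nat_lit 551) (nat_lit 382)))) (XT.nd (nat_lit 156) (nat_lit 912) (nat_lit 0) (XT.nd (nat_lit 78) (nat_lit 0) (nat_lit 0) (XT.lf (nat_lit 0) (nat_lit 6100233396) (nat_lit 456) (nat_lit 1805066588) (nat_lit 532) (nat_lit 9939089011) (nat_lit 203) (nat_lit 5) (nat_lit 209) (nat_lit 5) (nat_lit 210) (nat_lit 5) (nat_lit 628) (nat_lit 551) (nat_lit 381)) (XT.lf (nat_lit 0) (nat_lit 12116134585) (nat_lit 532) (nat_lit 744162785) (nat_lit 76) (nat_lit 5195555941) (nat_lit 203) (nat_lit 5) (nat_lit 210) (nat_lit 5) (nat_lit 204) (nat_lit 5) (nat_lit 629) (nat_lit 551) (nat_lit 380))) (XT.nd (nat_lit 78) (nat_lit 532) (nat_lit 0) (XT.lf (nat_lit 0) (nat_lit 10588933680) (nat_lit 380) (nat_lit 5893569022) (nat_lit 456) (nat_lit 1787618049) (nat_lit 198) (nat_lit 5) (nat_lit 203) (nat_lit 5) (nat_lit 204) (nat_lit 5) (nat_lit 630) (nat_lit 551) (nat_lit 379)) (XT.lf (nat_lit 0) (nat_lit 2443187765) (nat_lit 532) (nat_lit 14807294043) (nat_lit 76) (nat_lit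 1237318819) (nat_lit 191) (nat_lit 5) (nat_lit 198) (nat_lit 5) (nat_lit 192) (nat_lit 5) (nat_lit 631) (nat_lit 551) (nat_lit 378))))) (XT.nd (nat_lit 312) (nat_lit 1216) (nat_lit 0) (XT.nd (nat_lit 156) (nat_lit 456) (nat_lit 0) (XT.nd (nat_lit 78) (nat_lit 380) (nat_lit 0) (XT.lf (nat_lit 0) (nat_lit 6816322749) (nat_lit 532) (nat_lit 3400375213) (nat_lit 76) (nat_lit 8491266996) (nat_lit 191) (nat_lit 5) (nat_lit 198) (nat_lit 5) (nat_lit 192) (nat_lit 5) (nat_lit 632) (nat_lit 551) (nat_lit 377)) (XT.lf (nat_lit 0) (nat_lit 8330291651) (nat_lit 380) (nat_lit 2991607169) (nat_lit 456) (nat_lit 7609734346) (nat_lit 186) (nat_lit 5) (nat_lit 191) (nat_lit 5) (nat_lit 192) (nat_lit 5) (nat_lit 633) (nat_lit 551) (nat_lit 376))) (XT.nd (nat_lit 78) (nat_lit 76) (nat_lit 0) (XT.lf (nat_lit 0) (nat_lit 1155216542) (nat_lit 380) (nat_lit 14812218236) (nat_lit 456) (nat_lit 3191343149) (nat_lit 181) (nat_lit 5) (nat_lit 186) (nat_lit 5) (nat_lit 187) (nat_lit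 5) (nat_lit 634) (nat_lit 551) (nat_lit 375)) (XT.lf (nat_lit 0) (nat_lit 1380570872) (nat_lit 456) (nat_lit 6140991391) (nat_lit 76) (nat_lit 11867084521) (nat_lit 180) (nat_lit 5) (nat_lit 186) (nat_lit 5) (nat_lit 181) (nat_lit 5) (nat_lit 635) (nat_lit 551) (nat_lit 374)))) (XT.nd (nat_lit 156) (nat_lit 836) (nat_lit 0) (XT.nd (nat_lit 78) (nat_lit 0) (nat_lit 0) (XT.lf (nat_lit 0) (nat_lit 6002959779) (nat_lit 380) (nat_lit 28406489) (nat_lit 456) (nat_lit 13590721500) (nat_lit 175) (nat_lit 5) (nat_lit 180) (nat_lit 5) (nat_lit 181) (nat_lit 5) (nat_lit 636) (nat_lit 551) (nat_lit 373)) (XT.lf (nat_lit 0) (nat_lit 10857315380) (nat_lit 456) (nat_lit 1449574686) (nat_lit 76) (nat_lit 7551664892) (nat_lit 175) (nat_lit 5) (nat_lit 181) (nat_lit 5) (nat_lit 176) (nat_lit 5) (nat_lit 637) (nat_lit 551) (nat_lit 372))) (XT.nd (nat_lit 78) (nat_lit 456) (nat_lit 0) (XT.lf (nat_lit 0) (nat_lit 11095443427) (nat_lit 380) (nat_lit 4747955874) (nat_lit 456)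 (nat_lit 4255080017) (nat_lit 170) (nat_lit 5) (nat_lit 175) (nat_lit 5) (nat_lit 176) (nat_lit 5) (nat_lit 638) (nat_lit 551) (nat_lit 371)) (XT.lf (nat_lit 0) (nat_lit 622331876) (nat_lit 456) (nat_lit 16764041794) (nat_lit 76) (nat_lit 2955872243) (nat_lit 164) (nat_lit 5) (nat_lit 170) (nat_lit 5) (nat_lit 165) (nat_lit 5) (nat_lit 639) (nat_lit 551) (nat_lit 370)))))) (XT.nd (nat_lit 1404) (nat_lit 1444) (nat_lit 0) (XT.nd (nat_lit 1092) (nat_lit 988) (nat_lit 0) (XT.nd (nat_lit 936) (nat_lit 304) (nat_lit 0) (XT.nd (nat_lit 858) (nat_lit 2584) (nat_lit 0) (XT.lf (nat_lit 0) (nat_lit 5624095989) (nat_lit 456) (nat_lit 4129931110) (nat_lit 76) (nat_lit 10834622763) (nat_lit 164) (nat_lit 5) (nat_lit 170) (nat_lit 5) (nat_lit 165) (nat_lit 5) (nat_lit 640) (nat_lit 551) (nat_lit 369)) (XT.lf (nat_lit 0) (nat_lit 722304993) (nat_lit 380) (nat_lit 7159542028) (nat_lit 76) (nat_lit 15662872736) (nat_lit 130) (nat_lit 5) (nat_lit 135) (nat_lit 5) (nat_lit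 131) (nat_lit 5) (nat_lit 651) (nat_lit 551) (nat_lit 358))) (XT.nd (nat_lit 78) (nat_lit 0) (nat_lit 0) (XT.lf (nat_lit 0) (nat_lit 6827265881) (nat_lit 380) (nat_lit 16088891820) (nat_lit 76) (nat_lit 920491283) (nat_lit 126) (nat_lit 5) (nat_lit 131) (nat_lit 5) (nat_lit 127) (nat_lit 5) (nat_lit 652) (nat_lit 551) (nat_lit 357)) (XT.lf (nat_lit 0) (nat_lit 13147423171) (nat_lit 380) (nat_lit 1148065184) (nat_lit 76) (nat_lit 9837066594) (nat_lit 126) (nat_lit 5) (nat_lit 131) (nat_lit 5) (nat_lit 127) (nat_lit 5) (nat_lit 653) (nat_lit 551) (nat_lit 356)))) (XT.nd (nat_lit 156) (nat_lit 304) (nat_lit 0) (XT.nd (nat_lit 78) (nat_lit 380) (nat_lit 0) (XT.lf (nat_lit 0) (nat_lit 14266583601) (nat_lit 304) (nat_lit 5412711514) (nat_lit 380) (nat_lit 4753377782) (nat_lit 122) (nat_lit 5) (nat_lit 126) (nat_lit 5) (nat_lit 127) (nat_lit 5) (nat_lit 654) (nat_lit 551) (nat_lit 355)) (XT.lf (nat_lit 0) (nat_lit 1640943337) (nat_lit 380) (nat_lit 19448329590)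 (nat_lit 76) (nat_lit 3648133098) (nat_lit 117) (nat_lit 5) (nat_lit 122) (nat_lit 5) (nat_lit 118) (nat_lit 5) (nat_lit 655) (nat_lit 551) (nat_lit 354))) (XT.nd (nat_lit 78) (nat_lit 304) (nat_lit 0) (XT.lf (nat_lit 0) (nat_lit 8196814425) (nat_lit 380) (nat_lit 3935651292) (nat_lit 76) (nat_lit 12913193566) (nat_lit 117) (nat_lit 5) (nat_lit 122) (nat_lit 5) (nat_lit 118) (nat_lit 5) (nat_lit 656) (nat_lit 551) (nat_lit 353)) (XT.lf (nat_lit 0) (nat_lit 12033181747) (nat_lit 304) (nat_lit 2921625457) (nat_lit 380) (nat_lit 10403850405) (nat_lit 113) (nat_lit 5) (nat_lit 117) (nat_lit 5) (nat_lit 118) (nat_lit 5) (nat_lit 657) (nat_lit 551) (nat_lit 352))))) (XT.nd (nat_lit 312) (nat_lit 836) (nat_lit 0) (XT.nd (nat_lit 156) (nat_lit 304) (nat_lit 0) (XT.nd (nat_lit 78) (nat_lit 76) (nat_lit 0) (XT.lf (nat_lit 0) (nat_lit 2678326514) (nat_lit 228) (nat_lit 19248546465) (nat_lit 304) (nat_lit 3749464744) (nat_lit 110) (nat_lit 5) (nat_lit 113) (nat_lit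 5) (nat_lit 114) (nat_lit 5) (nat_lit 658) (nat_lit 551) (nat_lit 351)) (XT.lf (nat_lit 0) (nat_lit 3100450270) (nat_lit 304) (nat_lit 6867376784) (nat_lit 76) (nat_lit 16030104262) (nat_lit 109) (nat_lit 5) (nat_lit 113) (nat_lit 5) (nat_lit 110) (nat_lit 5) (nat_lit 659) (nat_lit 551) (nat_lit 350))) (XT.nd (nat_lit 78) (nat_lit 0) (nat_lit 0) (XT.lf (nat_lit 0) (nat_lit 9676215768) (nat_lit 304) (nat_lit 416876580) (nat_lit 380) (nat_lit 16231250152) (nat_lit 105) (nat_lit 5) (nat_lit 109) (nat_lit 5) (nat_lit 110) (nat_lit 5) (nat_lit 660) (nat_lit 551) (nat_lit 349)) (XT.lf (nat_lit 0) (nat_lit 17325612985) (nat_lit 380) (nat_lit 85199271) (nat_lit 76) (nat_lit 9244469216) (nat_lit 105) (nat_lit 5) (nat_lit 110) (nat_lit 5) (nat_lit 106) (nat_lit 5) (nat_lit 661) (nat_lit 551) (nat_lit 348)))) (XT.nd (nat_lit 156) (nat_lit 228) (nat_lit 0) (XT.nd (nat_lit 78) (nat_lit 380) (nat_lit 0) (XT.lf (nat_lit 0) (nat_lit 17017890791) (nat_lit 228) (nat_lit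 7791373024) (nat_lit 304) (nat_lit 2181445893) (nat_lit 102) (nat_lit 5) (nat_lit 105) (nat_lit 5) (nat_lit 106) (nat_lit 5) (nat_lit 662) (nat_lit 551) (nat_lit 347)) (XT.lf (nat_lit 0) (nat_lit 5096784964) (nat_lit 380) (nat_lit 20164174961) (nat_lit 76) (nat_lit 2070141961) (nat_lit 97) (nat_lit 5) (nat_lit 102) (nat_lit 5) (nat_lit 98) (nat_lit 5) (nat_lit 663) (nat_lit 551) (nat_lit 346))) (XT.nd (nat_lit 78) (nat_lit 228) (nat_lit 0) (XT.lf (nat_lit 0) (nat_lit 12603631348) (nat_lit 380) (nat_lit 2970369069) (nat_lit 76) (nat_lit 12101767969) (nat_lit 97) (nat_lit 5) (nat_lit 102) (nat_lit 5) (nat_lit 98) (nat_lit 5) (nat_lit 664) (nat_lit 551) (nat_lit 345)) (XT.lf (nat_lit 0) (nat_lit 14749411843) (nat_lit 228) (nat_lit 5600366378) (nat_lit 304) (nat_lit 7675766795) (nat_lit 94) (nat_lit 5) (nat_lit 97) (nat_lit 5) (nat_lit 98) (nat_lit 5) (nat_lit 665) (nat_lit 551) (nat_lit 344))))))) (XT.nd (nat_lit 73008) (nat_lit 0) (nat_lit 33288) (XT.nd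 (nat_lit 72384) (nat_lit 0) (nat_lit 37620) (XT.nd (nat_lit 234) (nat_lit 532) (nat_lit 0) (XT.nd (nat_lit 78) (nat_lit 304) (nat_lit 0) (XT.lf (nat_lit 0) (nat_lit 4499759949) (nat_lit 228) (nat_lit 23823483680) (nat_lit 304) (nat_lit 57625709) (nat_lit 91) (nat_lit 5) (nat_lit 94) (nat_lit 5) (nat_lit 95) (nat_lit 5) (nat_lit 666) (nat_lit 551) (nat_lit 343)) (XT.nd (nat_lit 78) (nat_lit 228) (nat_lit 0) (XT.lf (nat_lit 0) (nat_lit 7731929277) (nat_lit 304) (nat_lit 6029521979) (nat_lit 76) (nat_lit 14978443278) (nat_lit 90) (nat_lit 5) (nat_lit 94) (nat_lit 5) (nat_lit 91) (nat_lit 5) (nat_lit 667) (nat_lit 551) (nat_lit 342)) (XT.lf (nat_lit 0) (nat_lit 12329258739) (nat_lit 228) (nat_lit 3420862625) (nat_lit 304) (nat_lit 13354498968) (nat_lit 87) (nat_lit 5) (nat_lit 90) (nat_lit 5) (nat_lit 91) (nat_lit 5) (nat_lit 668) (nat_lit 551) (nat_lit 341)))) (XT.nd (nat_lit 156) (nat_lit 228) (nat_lit 0) (XT.nd (nat_lit 78) (nat_lit 76) (nat_lit 0) (XT.lf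 (nat_lit 0) (nat_lit 1624704591) (nat_lit 228) (nat_lit 22395111576) (nat_lit 304) (nat_lit 5455001767) (nat_lit 84) (nat_lit 5) (nat_lit 87) (nat_lit 5) (nat_lit 88) (nat_lit 5) (nat_lit 669) (nat_lit 551) (nat_lit 340)) (XT.lf (nat_lit 0) (nat_lit 2697927228) (nat_lit 304) (nat_lit 9281491276) (nat_lit 76) (nat_lit 17870071625) (nat_lit 83) (nat_lit 5) (nat_lit 87) (nat_lit 5) (nat_lit 84) (nat_lit 5) (nat_lit 670) (nat_lit 551) (nat_lit 339))) (XT.nd (nat_lit 71916) (nat_lit 0) (nat_lit 39064) (XT.lf (nat_lit 0) (nat_lit 9739134884) (nat_lit 228) (nat_lit 1258766278) (nat_lit 304) (nat_lit 19231892942) (nat_lit 80) (nat_lit 5) (nat_lit 83) (nat_lit 5) (nat_lit 84) (nat_lit 5) (nat_lit 671) (nat_lit 551) (nat_lit 338)) (XT.lf (nat_lit 0) (nat_lit 1245424979) (nat_lit 0) (nat_lit 1245424979) (nat_lit 1444) (nat_lit 1706056353) (nat_lit 594) (nat_lit 5) (nat_lit 594) (nat_lit 3) (nat_lit 613) (nat_lit 3) (nat_lit 552) (nat_lit 552) (nat_lit 456))))) (XT.nd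 (nat_lit 312) (nat_lit 0) (nat_lit 0) (XT.nd (nat_lit 156) (nat_lit 1444) (nat_lit 0) (XT.nd (nat_lit 78) (nat_lit 0) (nat_lit 0) (XT.lf (nat_lit 0) (nat_lit 6110131608) (nat_lit 1444) (nat_lit 1718479068) (nat_lit 1520) (nat_lit 627530175) (nat_lit 594) (nat_lit 5) (nat_lit 613) (nat_lit 3) (nat_lit 614) (nat_lit 5) (nat_lit 553) (nat_lit 552) (nat_lit 455)) (XT.lf (nat_lit 76) (nat_lit 2551919139) (nat_lit 0) (nat_lit 4714184576) (nat_lit 1520) (nat_lit 1253513479) (nat_lit 595) (nat_lit 5) (nat_lit 594) (nat_lit 5) (nat_lit 614) (nat_lit 5) (nat_lit 554) (nat_lit 552) (nat_lit 454))) (XT.nd (nat_lit 78) (nat_lit 1444) (nat_lit 0) (XT.lf (nat_lit 76) (nat_lit 6916368531) (nat_lit 0) (nat_lit 1512721679) (nat_lit 1520) (nat_lit 155595922) (nat_lit 595) (nat_lit 5) (nat_lit 594) (nat_lit 5) (nat_lit 614) (nat_lit 5) (nat_lit 555) (nat_lit 552) (nat_lit 453)) (XT.lf (nat_lit 0) (nat_lit 953715654) (nat_lit 1520) (nat_lit 5930851850) (nat_lit 1596) (nat_lit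 1766323011) (nat_lit 575) (nat_lit 5) (nat_lit 595) (nat_lit 5) (nat_lit 596) (nat_lit 5) (nat_lit 556) (nat_lit 552) (nat_lit 452)))) (XT.nd (nat_lit 156) (nat_lit 0) (nat_lit 76) (XT.nd (nat_lit 78) (nat_lit 0) (nat_lit 0) (XT.lf (nat_lit 0) (nat_lit 2077663074) (nat_lit 1520) (nat_lit 1525788461) (nat_lit 1596) (nat_lit 5115057132) (nat_lit 575) (nat_lit 5) (nat_lit 595) (nat_lit 5) (nat_lit 596) (nat_lit 5) (nat_lit 557) (nat_lit 552) (nat_lit 451)) (XT.lf (nat_lit 76) (nat_lit 2991664053) (nat_lit 0) (nat_lit 225617531) (nat_lit 1596) (nat_lit 5570334648) (nat_lit 576) (nat_lit 5) (nat_lit 575) (nat_lit 5) (nat_lit 596) (nat_lit 5) (nat_lit 558) (nat_lit 552) (nat_lit 450))) (XT.nd (nat_lit 78) (nat_lit 0) (nat_lit 0) (XT.lf (nat_lit 0) (nat_lit 4385161410) (nat_lit 1520) (nat_lit 1274164145) (nat_lit 1596) (nat_lit 3198671892) (nat_lit 576) (nat_lit 5) (nat_lit 596) (nat_lit 5) (nat_lit 597) (nat_lit 5) (nat_lit 559) (nat_lit 552) (nat_lit 449))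 (XT.lf (nat_lit 76) (nat_lit 3365569917) (nat_lit 0) (nat_lit 2208936729) (nat_lit 1596) (nat_lit 3355318341) (nat_lit 577) (nat_lit 5) (nat_lit 576) (nat_lit 5) (nat_lit 597) (nat_lit 5) (nat_lit 560) (nat_lit 552) (nat_lit 448)))))) (XT.nd (nat_lit 624) (nat_lit 2888) (nat_lit 0) (XT.nd (nat_lit 312) (nat_lit 0) (nat_lit 76) (XT.nd (nat_lit 156) (nat_lit 1596) (nat_lit 0) (XT.nd (nat_lit 78) (nat_lit 0) (nat_lit 0) (XT.lf (nat_lit 0) (nat_lit 6779977141) (nat_lit 1520) (nat_lit 911710148) (nat_lit 1596) (nat_lit 1311555865) (nat_lit 577) (nat_lit 5) (nat_lit 597) (nat_lit 5) (nat_lit 598) (nat_lit 5) (nat_lit 561) (nat_lit 552) (nat_lit 447)) (XT.lf (nat_lit 76) (nat_lit 3854518113) (nat_lit 0) (nat_lit 4170402603) (nat_lit 1596) (nat_lit 1052902519) (nat_lit 578) (nat_lit 5) (nat_lit 577) (nat_lit 5) (nat_lit 598) (nat_lit 5) (nat_lit 562) (nat_lit 552) (nat_lit 446))) (XT.nd (nat_lit 78) (nat_lit 0) (nat_lit 76) (XT.lf (nat_lit 0) (nat_lit 121106669)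 (nat_lit 1596) (nat_lit 441809913) (nat_lit 1672) (nat_lit 8591319119) (nat_lit 556) (nat_lit 5) (nat_lit 577) (nat_lit 5) (nat_lit 578) (nat_lit 5) (nat_lit 563) (nat_lit 552) (nat_lit 445)) (XT.lf (nat_lit 0) (nat_lit 1330472771) (nat_lit 1596) (nat_lit 4780674746) (nat_lit 1672) (nat_lit 3120370981) (nat_lit 557) (nat_lit 5) (nat_lit 578) (nat_lit 5) (nat_lit 579) (nat_lit 5) (nat_lit 564) (nat_lit 552) (nat_lit 444)))) (XT.nd (nat_lit 156) (nat_lit 0) (nat_lit 76) (XT.nd (nat_lit 78) (nat_lit 0) (nat_lit 76) (XT.lf (nat_lit 76) (nat_lit 119242312) (nat_lit 0) (nat_lit 2429087241) (nat_lit 1672) (nat_lit 6762332093) (nat_lit 558) (nat_lit 5) (nat_lit 557) (nat_lit 5) (nat_lit 579) (nat_lit 5) (nat_lit 565) (nat_lit 552) (nat_lit 443)) (XT.lf (nat_lit 0) (nat_lit 3808668080) (nat_lit 1596) (nat_lit 4233638412) (nat_lit 1672) (nat_lit 1348719421) (nat_lit 558) (nat_lit 5) (nat_lit 579) (nat_lit 5) (nat_lit 580) (nat_lit 5) (nat_lit 566) (nat_lit 552)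 (nat_lit 442))) (XT.nd (nat_lit 78) (nat_lit 0) (nat_lit 0) (XT.lf (nat_lit 76) (nat_lit 802016646) (nat_lit 0) (nat_lit 4291155378) (nat_lit 1672) (nat_lit 4379847001) (nat_lit 559) (nat_lit 5) (nat_lit 558) (nat_lit 5) (nat_lit 580) (nat_lit 5) (nat_lit 567) (nat_lit 552) (nat_lit 441)) (XT.lf (nat_lit 76) (nat_lit 5980162863) (nat_lit 0) (nat_lit 429614475) (nat_lit 1672) (nat_lit 3146747154) (nat_lit 559) (nat_lit 5) (nat_lit 558) (nat_lit 5) (nat_lit 580) (nat_lit 5) (nat_lit 568) (nat_lit 552) (nat_lit 440))))) (XT.nd (nat_lit 312) (nat_lit 1520) (nat_lit 0) (XT.nd (nat_lit 156) (nat_lit 1596) (nat_lit 0) (XT.nd (nat_lit 78) (nat_lit 0) (nat_lit 0) (XT.lf (nat_lit 76) (nat_lit 1602630279) (nat_lit 0) (nat_lit 6161746956) (nat_lit 1672) (nat_lit 1877090288) (nat_lit 560) (nat_lit 5) (nat_lit 559) (nat_lit 5) (nat_lit 581) (nat_lit 5) (nat_lit 569) (nat_lit 552) (nat_lit 439)) (XT.lf (nat_lit 76) (nat_lit 6915124741) (nat_lit 0) (nat_lit 2236563762)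 (nat_lit 1672) (nat_lit 576309215) (nat_lit 560) (nat_lit 5) (nat_lit 559) (nat_lit 5) (nat_lit 581) (nat_lit 5) (nat_lit 570) (nat_lit 552) (nat_lit 438))) (XT.nd (nat_lit 78) (nat_lit 0) (nat_lit 0) (XT.lf (nat_lit 0) (nat_lit 747792807) (nat_lit 1672) (nat_lit 7297621837) (nat_lit 1748) (nat_lit 1770604121) (nat_lit 538) (nat_lit 5) (nat_lit 560) (nat_lit 5) (nat_lit 561) (nat_lit 5) (nat_lit 571) (nat_lit 552) (nat_lit 437)) (XT.lf (nat_lit 0) (nat_lit 2103893432) (nat_lit 1672) (nat_lit 1945741993) (nat_lit 1748) (nat_lit 5855824604) (nat_lit 538) (nat_lit 5) (nat_lit 560) (nat_lit 5) (nat_lit 561) (nat_lit 5) (nat_lit 572) (nat_lit 552) (nat_lit 436)))) (XT.nd (nat_lit 156) (nat_lit 1596) (nat_lit 0) (XT.nd (nat_lit 78) (nat_lit 0) (nat_lit 0) (XT.lf (nat_lit 0) (nat_lit 3490294038) (nat_lit 1672) (nat_lit 6453003628) (nat_lit 1748) (nat_lit 53329531) (nat_lit 539) (nat_lit 5) (nat_lit 561) (nat_lit 5) (nat_lit 562) (nat_lit 5) (nat_lit 573) (nat_lit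 552) (nat_lit 435)) (XT.lf (nat_lit 0) (nat_lit 4924524770) (nat_lit 1672) (nat_lit 963107590) (nat_lit 1748) (nat_lit 4201583932) (nat_lit 539) (nat_lit 5) (nat_lit 561) (nat_lit 5) (nat_lit 562) (nat_lit 5) (nat_lit 574) (nat_lit 552) (nat_lit 434))) (XT.nd (nat_lit 78) (nat_lit 1596) (nat_lit 0) (XT.lf (nat_lit 76) (nat_lit 4682312145) (nat_lit 0) (nat_lit 1716057974) (nat_lit 1748) (nat_lit 3785069063) (nat_lit 540) (nat_lit 5) (nat_lit 539) (nat_lit 5) (nat_lit 562) (nat_lit 5) (nat_lit 575) (nat_lit 552) (nat_lit 433)) (XT.lf (nat_lit 0) (nat_lit 143646549) (nat_lit 1672) (nat_lit 7762802150) (nat_lit 1748) (nat_lit 2373003304) (nat_lit 518) (nat_lit 5) (nat_lit 540) (nat_lit 5) (nat_lit 541) (nat_lit 5) (nat_lit 576) (nat_lit 552) (nat_lit 432))))))))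
noncomputable def xc124 : XT := (XT.nd (nat_lit 2418) (nat_lit 9348) (nat_lit 0) (XT.nd (nat_lit 1170) (nat_lit 7372) (nat_lit 0) (XT.nd (nat_lit 546) (nat_lit 4560) (nat_lit 0) (XT.nd (nat_lit 234) (nat_lit 2964) (nat_lit 0) (XT.nd (nat_lit 78) (nat_lit 1824) (nat_lit 0) (XT.lf (nat_lit 0) (nat_lit 5948486120) (nat_lit 1672) (nat_lit 3525514120) (nat_lit 1748) (nat_lit 902799204) (nat_lit 518) (nat_lit 5) (nat_lit 540) (nat_lit 5) (nat_lit 541) (nat_lit 5) (nat_lit 577) (nat_lit 552) (nat_lit 431)) (XT.nd (nat_lit 78) (nat_lit 0) (nat_lit 0) (XT.lf (nat_lit 0) (nat_lit 584647483) (nat_lit 1824) (nat_lit 9089595854) (nat_lit 76) (nat_lit 801860250) (nat_lit 494) (nat_lit 5) (nat_lit 518) (nat_lit 5) (nat_lit 495) (nat_lit 5) (nat_lit 578) (nat_lit 552) (nat_lit 430)) (XT.lf (nat_lit 0) (nat_lit 2124661012) (nat_lit 1824) (nat_lit 3244772152) (nat_lit 76) (nat_lit 5207143727) (nat_lit 494) (nat_lit 5) (nat_lit 518) (nat_lit 5) (nat_lit 495) (nat_lit 5)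 (nat_lit 579) (nat_lit 552) (nat_lit 429)))) (XT.nd (nat_lit 156) (nat_lit 1140) (nat_lit 0) (XT.nd (nat_lit 78) (nat_lit 0) (nat_lit 0) (XT.lf (nat_lit 0) (nat_lit 2737059308) (nat_lit 1824) (nat_lit 958180623) (nat_lit 1900) (nat_lit 6983824971) (nat_lit 470) (nat_lit 5) (nat_lit 494) (nat_lit 5) (nat_lit 495) (nat_lit 5) (nat_lit 580) (nat_lit 552) (nat_lit 428)) (XT.lf (nat_lit 0) (nat_lit 5324400215) (nat_lit 1900) (nat_lit 1939843669) (nat_lit 76) (nat_lit 3518815928) (nat_lit 470) (nat_lit 5) (nat_lit 495) (nat_lit 5) (nat_lit 471) (nat_lit 5) (nat_lit 581) (nat_lit 552) (nat_lit 427))) (XT.nd (nat_lit 78) (nat_lit 0) (nat_lit 0) (XT.lf (nat_lit 0) (nat_lit 4215567613) (nat_lit 1140) (nat_lit 2786898790) (nat_lit 1216) (nat_lit 3886342287) (nat_lit 455) (nat_lit 5) (nat_lit 470) (nat_lit 5) (nat_lit 471) (nat_lit 5) (nat_lit 582) (nat_lit 552) (nat_lit 426)) (XT.lf (nat_lit 0) (nat_lit 8721610681) (nat_lit 1216) (nat_lit 503659262) (nat_lit 76)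 (nat_lit 1771252780) (nat_lit 455) (nat_lit 5) (nat_lit 471) (nat_lit 5) (nat_lit 456) (nat_lit 5) (nat_lit 583) (nat_lit 552) (nat_lit 425))))) (XT.nd (nat_lit 312) (nat_lit 1824) (nat_lit 0) (XT.nd (nat_lit 156) (nat_lit 836) (nat_lit 0) (XT.nd (nat_lit 78) (nat_lit 988) (nat_lit 0) (XT.lf (nat_lit 0) (nat_lit 5831668568) (nat_lit 912) (nat_lit 4682981059) (nat_lit 988) (nat_lit 590951677) (nat_lit 443) (nat_lit 5) (nat_lit 455) (nat_lit 5) (nat_lit 456) (nat_lit 5) (nat_lit 584) (nat_lit 552) (nat_lit 424)) (XT.lf (nat_lit 0) (nat_lit 1074701761) (nat_lit 912) (nat_lit 30899927) (nat_lit 988) (nat_lit 10111240138) (nat_lit 430) (nat_lit 5) (nat_lit 442) (nat_lit 5) (nat_lit 443) (nat_lit 5) (nat_lit 585) (nat_lit 552) (nat_lit 423))) (XT.nd (nat_lit 78) (nat_lit 836) (nat_lit 0) (XT.lf (nat_lit 0) (nat_lit 2877954833) (nat_lit 988) (nat_lit 3758579455) (nat_lit 76) (nat_lit 4692699590) (nat_lit 430) (nat_lit 5) (nat_lit 443) (nat_lit 5) (nat_lit 431)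 (nat_lit 5) (nat_lit 586) (nat_lit 552) (nat_lit 422)) (XT.lf (nat_lit 0) (nat_lit 2773108943) (nat_lit 836) (nat_lit 1914719372) (nat_lit 912) (nat_lit 6756004454) (nat_lit 419) (nat_lit 5) (nat_lit 430) (nat_lit 5) (nat_lit 431) (nat_lit 5) (nat_lit 587) (nat_lit 552) (nat_lit 421)))) (XT.nd (nat_lit 156) (nat_lit 912) (nat_lit 0) (XT.nd (nat_lit 78) (nat_lit 912) (nat_lit 0) (XT.lf (nat_lit 0) (nat_lit 6562207924) (nat_lit 912) (nat_lit 2108771452) (nat_lit 76) (nat_lit 2889178546) (nat_lit 419) (nat_lit 5) (nat_lit 431) (nat_lit 5) (nat_lit 420) (nat_lit 5) (nat_lit 588) (nat_lit 552) (nat_lit 420)) (XT.lf (nat_lit 0) (nat_lit 4616674306) (nat_lit 912) (nat_lit 3884448636) (nat_lit 988) (nat_lit 3177146126) (nat_lit 407) (nat_lit 5) (nat_lit 419) (nat_lit 5) (nat_lit 420) (nat_lit 5) (nat_lit 589) (nat_lit 552) (nat_lit 419))) (XT.nd (nat_lit 78) (nat_lit 912) (nat_lit 0) (XT.lf (nat_lit 0) (nat_lit 10484137048) (nat_lit 988) (nat_lit 315636615) (nat_lit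 76) (nat_lit 998862796) (nat_lit 407) (nat_lit 5) (nat_lit 420) (nat_lit 5) (nat_lit 408) (nat_lit 5) (nat_lit 590) (nat_lit 552) (nat_lit 418)) (XT.lf (nat_lit 0) (nat_lit 631622365) (nat_lit 912) (nat_lit 5313788414) (nat_lit 76) (nat_lit 5974846829) (nat_lit 395) (nat_lit 5) (nat_lit 407) (nat_lit 5) (nat_lit 396) (nat_lit 5) (nat_lit 591) (nat_lit 552) (nat_lit 417)))))) (XT.nd (nat_lit 624) (nat_lit 3420) (nat_lit 0) (XT.nd (nat_lit 312) (nat_lit 2356) (nat_lit 0) (XT.nd (nat_lit 156) (nat_lit 760) (nat_lit 0) (XT.nd (nat_lit 78) (nat_lit 0) (nat_lit 0) (XT.lf (nat_lit 0) (nat_lit 1624000024) (nat_lit 836) (nat_lit 972754645) (nat_lit 912) (nat_lit 9447429361) (nat_lit 384) (nat_lit 5) (nat_lit 395) (nat_lit 5) (nat_lit 396) (nat_lit 5) (nat_lit 592) (nat_lit 552) (nat_lit 416)) (XT.lf (nat_lit 0) (nat_lit 4648885417) (nat_lit 912) (nat_lit 3439949627) (nat_lit 76) (nat_lit 4080800425) (nat_lit 384) (nat_lit 5) (nat_lit 396) (nat_lit 5) (nat_lit 385)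 (nat_lit 5) (nat_lit 593) (nat_lit 552) (nat_lit 415))) (XT.nd (nat_lit 78) (nat_lit 0) (nat_lit 0) (XT.lf (nat_lit 0) (nat_lit 3706573489) (nat_lit 760) (nat_lit 3051468989) (nat_lit 836) (nat_lit 5539234182) (nat_lit 374) (nat_lit 5) (nat_lit 384) (nat_lit 5) (nat_lit 385) (nat_lit 5) (nat_lit 594) (nat_lit 552) (nat_lit 414)) (XT.lf (nat_lit 0) (nat_lit 8931821499) (nat_lit 836) (nat_lit 1413718001) (nat_lit 76) (nat_lit 2081482788) (nat_lit 374) (nat_lit 5) (nat_lit 385) (nat_lit 5) (nat_lit 375) (nat_lit 5) (nat_lit 595) (nat_lit 552) (nat_lit 413)))) (XT.nd (nat_lit 156) (nat_lit 760) (nat_lit 0) (XT.nd (nat_lit 78) (nat_lit 836) (nat_lit 0) (XT.lf (nat_lit 0) (nat_lit 5949266578) (nat_lit 760) (nat_lit 5244579991) (nat_lit 836) (nat_lit 1364621231) (nat_lit 364) (nat_lit 5) (nat_lit 374) (nat_lit 5) (nat_lit 375) (nat_lit 5) (nat_lit 596) (nat_lit 552) (nat_lit 412)) (XT.lf (nat_lit 0) (nat_lit 775740349) (nat_lit 760) (nat_lit 22831129) (nat_lit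 836) (nat_lit 11893853993) (nat_lit 353) (nat_lit 5) (nat_lit 363) (nat_lit 5) (nat_lit 364) (nat_lit 5) (nat_lit 597) (nat_lit 552) (nat_lit 411))) (XT.nd (nat_lit 78) (nat_lit 760) (nat_lit 0) (XT.lf (nat_lit 0) (nat_lit 3052035069) (nat_lit 836) (nat_lit 4489576499) (nat_lit 76) (nat_lit 5285965098) (nat_lit 353) (nat_lit 5) (nat_lit 364) (nat_lit 5) (nat_lit 354) (nat_lit 5) (nat_lit 598) (nat_lit 552) (nat_lit 410)) (XT.lf (nat_lit 0) (nat_lit 3111428458) (nat_lit 760) (nat_lit 2245947431) (nat_lit 836) (nat_lit 7607919188) (nat_lit 343) (nat_lit 5) (nat_lit 353) (nat_lit 5) (nat_lit 354) (nat_lit 5) (nat_lit 599) (nat_lit 552) (nat_lit 409))))) (XT.nd (nat_lit 312) (nat_lit 1976) (nat_lit 0) (XT.nd (nat_lit 156) (nat_lit 760) (nat_lit 0) (XT.nd (nat_lit 78) (nat_lit 684) (nat_lit 0) (XT.lf (nat_lit 0) (nat_lit 7746249261) (nat_lit 836) (nat_lit 2215999345) (nat_lit 76) (nat_lit 3142771082) (nat_lit 343) (nat_lit 5) (nat_lit 354) (nat_lit 5) (nat_lit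 344) (nat_lit 5) (nat_lit 600) (nat_lit 552) (nat_lit 408)) (XT.lf (nat_lit 0) (nat_lit 5618282333) (nat_lit 684) (nat_lit 4602842101) (nat_lit 760) (nat_lit 3025650209) (nat_lit 334) (nat_lit 5) (nat_lit 343) (nat_lit 5) (nat_lit 344) (nat_lit 5) (nat_lit 601) (nat_lit 552) (nat_lit 407))) (XT.nd (nat_lit 78) (nat_lit 76) (nat_lit 0) (XT.lf (nat_lit 0) (nat_lit 230233494) (nat_lit 684) (nat_lit 12524354499) (nat_lit 760) (nat_lit 636595219) (nat_lit 325) (nat_lit 5) (nat_lit 334) (nat_lit 5) (nat_lit 335) (nat_lit 5) (nat_lit 602) (nat_lit 552) (nat_lit 406)) (XT.lf (nat_lit 0) (nat_lit 1845732584) (nat_lit 760) (nat_lit 5245797430) (nat_lit 76) (nat_lit 6445334445) (nat_lit 324) (nat_lit 5) (nat_lit 334) (nat_lit 5) (nat_lit 325) (nat_lit 5) (nat_lit 603) (nat_lit 552) (nat_lit 405)))) (XT.nd (nat_lit 156) (nat_lit 1292) (nat_lit 0) (XT.nd (nat_lit 78) (nat_lit 0) (nat_lit 0) (XT.lf (nat_lit 0) (nat_lit 2845693659) (nat_lit 684) (nat_lit 1529316102)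 (nat_lit 760) (nat_lit 9310249188) (nat_lit 315) (nat_lit 5) (nat_lit 324) (nat_lit 5) (nat_lit 325) (nat_lit 5) (nat_lit 604) (nat_lit 552) (nat_lit 404)) (XT.lf (nat_lit 0) (nat_lit 7004691898) (nat_lit 760) (nat_lit 2708139648) (nat_lit 76) (nat_lit 4122793702) (nat_lit 315) (nat_lit 5) (nat_lit 325) (nat_lit 5) (nat_lit 316) (nat_lit 5) (nat_lit 605) (nat_lit 552) (nat_lit 403))) (XT.nd (nat_lit 78) (nat_lit 608) (nat_lit 0) (XT.lf (nat_lit 0) (nat_lit 5634780441) (nat_lit 684) (nat_lit 4086623131) (nat_lit 760) (nat_lit 4266906884) (nat_lit 306) (nat_lit 5) (nat_lit 315) (nat_lit 5) (nat_lit 316) (nat_lit 5) (nat_lit 606) (nat_lit 552) (nat_lit 402)) (XT.lf (nat_lit 0) (nat_lit 11856341) (nat_lit 608) (nat_lit 12497540533) (nat_lit 684) (nat_lit 1634313841) (nat_lit 298) (nat_lit 5) (nat_lit 306) (nat_lit 5) (nat_lit 307) (nat_lit 5) (nat_lit 607) (nat_lit 552) (nat_lit 401))))))) (XT.nd (nat_lit 1170) (nat_lit 4104) (nat_lit 0) (XT.nd (nat_lit 546)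 (nat_lit 2736) (nat_lit 0) (XT.nd (nat_lit 234) (nat_lit 1824) (nat_lit 0) (XT.nd (nat_lit 78) (nat_lit 608) (nat_lit 0) (XT.lf (nat_lit 0) (nat_lit 1108551335) (nat_lit 684) (nat_lit 5692668232) (nat_lit 76) (nat_lit 7499435160) (nat_lit 297) (nat_lit 5) (nat_lit 306) (nat_lit 5) (nat_lit 298) (nat_lit 5) (nat_lit 608) (nat_lit 552) (nat_lit 400)) (XT.nd (nat_lit 78) (nat_lit 0) (nat_lit 0) (XT.lf (nat_lit 0) (nat_lit 2928079871) (nat_lit 608) (nat_lit 963490869) (nat_lit 684) (nat_lit 10568807492) (nat_lit 289) (nat_lit 5) (nat_lit 297) (nat_lit 5) (nat_lit 298) (nat_lit 5) (nat_lit 609) (nat_lit 552) (nat_lit 399)) (XT.lf (nat_lit 0) (nat_lit 6789375550) (nat_lit 684) (nat_lit 2871700019) (nat_lit 76) (nat_lit 4961038411) (nat_lit 289) (nat_lit 5) (nat_lit 298) (nat_lit 5) (nat_lit 290) (nat_lit 5) (nat_lit 610) (nat_lit 552) (nat_lit 398)))) (XT.nd (nat_lit 156) (nat_lit 608) (nat_lit 0) (XT.nd (nat_lit 78) (nat_lit 608) (nat_lit 0) (XT.lf (nat_lit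 0) (nat_lit 6020057656) (nat_lit 608) (nat_lit 3759042211) (nat_lit 684) (nat_lit 5007305575) (nat_lit 281) (nat_lit 5) (nat_lit 289) (nat_lit 5) (nat_lit 290) (nat_lit 5) (nat_lit 611) (nat_lit 552) (nat_lit 397)) (XT.lf (nat_lit 0) (nat_lit 147367807) (nat_lit 608) (nat_lit 12704893219) (nat_lit 684) (nat_lit 2101249121) (nat_lit 273) (nat_lit 5) (nat_lit 281) (nat_lit 5) (nat_lit 282) (nat_lit 5) (nat_lit 612) (nat_lit 552) (nat_lit 396))) (XT.nd (nat_lit 78) (nat_lit 532) (nat_lit 0) (XT.lf (nat_lit 0) (nat_lit 924382381) (nat_lit 684) (nat_lit 5810270164) (nat_lit 76) (nat_lit 8387737171) (nat_lit 272) (nat_lit 5) (nat_lit 281) (nat_lit 5) (nat_lit 273) (nat_lit 5) (nat_lit 613) (nat_lit 552) (nat_lit 395)) (XT.lf (nat_lit 0) (nat_lit 3381451244) (nat_lit 532) (nat_lit 611803481) (nat_lit 608) (nat_lit 11300897334) (nat_lit 265) (nat_lit 5) (nat_lit 272) (nat_lit 5) (nat_lit 273) (nat_lit 5) (nat_lit 614) (nat_lit 552) (nat_lit 394))))) (XT.nd (nat_lit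 312) (nat_lit 1520) (nat_lit 0) (XT.nd (nat_lit 156) (nat_lit 608) (nat_lit 0) (XT.nd (nat_lit 78) (nat_lit 608) (nat_lit 0) (XT.lf (nat_lit 0) (nat_lit 7188314438) (nat_lit 608) (nat_lit 2684241200) (nat_lit 76) (nat_lit 5595498055) (nat_lit 265) (nat_lit 5) (nat_lit 273) (nat_lit 5) (nat_lit 266) (nat_lit 5) (nat_lit 615) (nat_lit 552) (nat_lit 393)) (XT.lf (nat_lit 0) (nat_lit 6799596680) (nat_lit 608) (nat_lit 3685079111) (nat_lit 684) (nat_lit 5160009796) (nat_lit 257) (nat_lit 5) (nat_lit 265) (nat_lit 5) (nat_lit 266) (nat_lit 5) (nat_lit 616) (nat_lit 552) (nat_lit 392))) (XT.nd (nat_lit 78) (nat_lit 76) (nat_lit 0) (XT.lf (nat_lit 0) (nat_lit 662106921) (nat_lit 532) (nat_lit 13213636602) (nat_lit 608) (nat_lit 1948531247) (nat_lit 250) (nat_lit 5) (nat_lit 257) (nat_lit 5) (nat_lit 258) (nat_lit 5) (nat_lit 617) (nat_lit 552) (nat_lit 391)) (XT.lf (nat_lit 0) (nat_lit 1383267707) (nat_lit 608) (nat_lit 5574799754) (nat_lit 76) (nat_lit 9047746219)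 (nat_lit 249) (nat_lit 5) (nat_lit 257) (nat_lit 5) (nat_lit 250) (nat_lit 5) (nat_lit 618) (nat_lit 552) (nat_lit 390)))) (XT.nd (nat_lit 156) (nat_lit 988) (nat_lit 0) (XT.nd (nat_lit 78) (nat_lit 0) (nat_lit 0) (XT.lf (nat_lit 0) (nat_lit 4232747505) (nat_lit 532) (nat_lit 539923649) (nat_lit 608) (nat_lit 11417713650) (nat_lit 242) (nat_lit 5) (nat_lit 249) (nat_lit 5) (nat_lit 250) (nat_lit 5) (nat_lit 619) (nat_lit 552) (nat_lit 389)) (XT.lf (nat_lit 0) (nat_lit 8296161183) (nat_lit 608) (nat_lit 2119398558) (nat_lit 76) (nat_lit 5961761856) (nat_lit 242) (nat_lit 5) (nat_lit 250) (nat_lit 5) (nat_lit 243) (nat_lit 5) (nat_lit 620) (nat_lit 552) (nat_lit 388))) (XT.nd (nat_lit 78) (nat_lit 532) (nat_lit 0) (XT.lf (nat_lit 0) (nat_lit 8003003346) (nat_lit 456) (nat_lit 3932499420) (nat_lit 532) (nat_lit 4631586934) (nat_lit 236) (nat_lit 5) (nat_lit 242) (nat_lit 5) (nat_lit 243) (nat_lit 5) (nat_lit 621) (nat_lit 552) (nat_lit 387)) (XT.lf (nat_lit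 0) (nat_lit 1585440037) (nat_lit 532) (nat_lit 14094132323) (nat_lit 608) (nat_lit 1080442188) (nat_lit 229) (nat_lit 5) (nat_lit 236) (nat_lit 5) (nat_lit 237) (nat_lit 5) (nat_lit 622) (nat_lit 552) (nat_lit 386)))))) (XT.nd (nat_lit 624) (nat_lit 1748) (nat_lit 0) (XT.nd (nat_lit 312) (nat_lit 1368) (nat_lit 0) (XT.nd (nat_lit 156) (nat_lit 456) (nat_lit 0) (XT.nd (nat_lit 78) (nat_lit 456) (nat_lit 0) (XT.lf (nat_lit 0) (nat_lit 2582253154) (nat_lit 608) (nat_lit 4958641128) (nat_lit 76) (nat_lit 9414096500) (nat_lit 228) (nat_lit 5) (nat_lit 236) (nat_lit 5) (nat_lit 229) (nat_lit 5) (nat_lit 623) (nat_lit 552) (nat_lit 385)) (XT.lf (nat_lit 0) (nat_lit 5512923537) (nat_lit 456) (nat_lit 816785223) (nat_lit 532) (nat_lit 10823495672) (nat_lit 222) (nat_lit 5) (nat_lit 228) (nat_lit 5) (nat_lit 229) (nat_lit 5) (nat_lit 624) (nat_lit 552) (nat_lit 384))) (XT.nd (nat_lit 78) (nat_lit 456) (nat_lit 0) (XT.lf (nat_lit 0) (nat_lit 10215080265) (nat_lit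 532) (nat_lit 1146942279) (nat_lit 76) (nat_lit 5992100666) (nat_lit 222) (nat_lit 5) (nat_lit 229) (nat_lit 5) (nat_lit 223) (nat_lit 5) (nat_lit 625) (nat_lit 552) (nat_lit 383)) (XT.lf (nat_lit 0) (nat_lit 9663958460) (nat_lit 456) (nat_lit 4572789953) (nat_lit 532) (nat_lit 3321140352) (nat_lit 216) (nat_lit 5) (nat_lit 222) (nat_lit 5) (nat_lit 223) (nat_lit 5) (nat_lit 626) (nat_lit 552) (nat_lit 382)))) (XT.nd (nat_lit 156) (nat_lit 836) (nat_lit 0) (XT.nd (nat_lit 78) (nat_lit 0) (nat_lit 0) (XT.lf (nat_lit 0) (nat_lit 598506007) (nat_lit 532) (nat_lit 14818302356) (nat_lit 76) (nat_lit 2348188981) (nat_lit 209) (nat_lit 5) (nat_lit 216) (nat_lit 5) (nat_lit 210) (nat_lit 5) (nat_lit 627) (nat_lit 552) (nat_lit 381)) (XT.lf (nat_lit 0) (nat_lit 4626266938) (nat_lit 532) (nat_lit 3930428936) (nat_lit 76) (nat_lit 9417629507) (nat_lit 209) (nat_lit 5) (nat_lit 216) (nat_lit 5) (nat_lit 210) (nat_lit 5) (nat_lit 628) (nat_lit 552) (nat_lit 380)))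 (XT.nd (nat_lit 78) (nat_lit 380) (nat_lit 0) (XT.lf (nat_lit 0) (nat_lit 7256898175) (nat_lit 456) (nat_lit 1515530459) (nat_lit 532) (nat_lit 9414654607) (nat_lit 203) (nat_lit 5) (nat_lit 209) (nat_lit 5) (nat_lit 210) (nat_lit 5) (nat_lit 629) (nat_lit 552) (nat_lit 379)) (XT.lf (nat_lit 0) (nat_lit 270719583) (nat_lit 380) (nat_lit 12786688428) (nat_lit 456) (nat_lit 5345570527) (nat_lit 198) (nat_lit 5) (nat_lit 203) (nat_lit 5) (nat_lit 204) (nat_lit 5) (nat_lit 630) (nat_lit 552) (nat_lit 378))))) (XT.nd (nat_lit 312) (nat_lit 836) (nat_lit 0) (XT.nd (nat_lit 156) (nat_lit 380) (nat_lit 0) (XT.nd (nat_lit 78) (nat_lit 532) (nat_lit 0) (XT.lf (nat_lit 0) (nat_lit 11820176027) (nat_lit 380) (nat_lit 5682118355) (nat_lit 456) (nat_lit 1119413378) (nat_lit 198) (nat_lit 5) (nat_lit 203) (nat_lit 5) (nat_lit 204) (nat_lit 5) (nat_lit 631) (nat_lit 552) (nat_lit 377)) (XT.lf (nat_lit 0) (nat_lit 3181958966) (nat_lit 532) (nat_lit 14069902253) (nat_lit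 76) (nat_lit 1591885189) (nat_lit 191) (nat_lit 5) (nat_lit 198) (nat_lit 5) (nat_lit 192) (nat_lit 5) (nat_lit 632) (nat_lit 552) (nat_lit 376))) (XT.nd (nat_lit 78) (nat_lit 380) (nat_lit 0) (XT.lf (nat_lit 0) (nat_lit 7629029052) (nat_lit 532) (nat_lit 2455110490) (nat_lit 76) (nat_lit 8984445270) (nat_lit 191) (nat_lit 5) (nat_lit 198) (nat_lit 5) (nat_lit 192) (nat_lit 5) (nat_lit 633) (nat_lit 552) (nat_lit 375)) (XT.lf (nat_lit 0) (nat_lit 9503503446) (nat_lit 380) (nat_lit 2714486402) (nat_lit 456) (nat_lit 7078871305) (nat_lit 186) (nat_lit 5) (nat_lit 191) (nat_lit 5) (nat_lit 192) (nat_lit 5) (nat_lit 634) (nat_lit 552) (nat_lit 374)))) (XT.nd (nat_lit 156) (nat_lit 380) (nat_lit 0) (XT.nd (nat_lit 78) (nat_lit 76) (nat_lit 0) (XT.lf (nat_lit 0) (nat_lit 2189447586) (nat_lit 380) (nat_lit 14762568218) (nat_lit 456) (nat_lit 2576621648) (nat_lit 181) (nat_lit 5) (nat_lit 186) (nat_lit 5) (nat_lit 187) (nat_lit 5) (nat_lit 635) (nat_lit 552) (nat_lit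 373)) (XT.lf (nat_lit 0) (nat_lit 2064700996) (nat_lit 456) (nat_lit 5263774787) (nat_lit 76) (nat_lit 12434802618) (nat_lit 180) (nat_lit 5) (nat_lit 186) (nat_lit 5) (nat_lit 181) (nat_lit 5) (nat_lit 636) (nat_lit 552) (nat_lit 372))) (XT.nd (nat_lit 78) (nat_lit 0) (nat_lit 0) (XT.lf (nat_lit 0) (nat_lit 6804130774) (nat_lit 456) (nat_lit 12887081860) (nat_lit 76) (nat_lit 310263415) (nat_lit 175) (nat_lit 5) (nat_lit 181) (nat_lit 5) (nat_lit 176) (nat_lit 5) (nat_lit 637) (nat_lit 552) (nat_lit 371)) (XT.lf (nat_lit 0) (nat_lit 11713996299) (nat_lit 456) (nat_lit 494016605) (nat_lit 76) (nat_lit 8034911941) (nat_lit 175) (nat_lit 5) (nat_lit 181) (nat_lit 5) (nat_lit 176) (nat_lit 5) (nat_lit 638) (nat_lit 552) (nat_lit 370))))))))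
noncomputable def xc125 : XT := (XT.nd (nat_lit 74802) (nat_lit 0) (nat_lit 26600) (XT.nd (nat_lit 1716) (nat_lit 2204) (nat_lit 0) (XT.nd (nat_lit 1092) (nat_lit 1596) (nat_lit 0) (XT.nd (nat_lit 780) (nat_lit 684) (nat_lit 0) (XT.nd (nat_lit 78) (nat_lit 2356) (nat_lit 0) (XT.lf (nat_lit 0) (nat_lit 12295424571) (nat_lit 380) (nat_lit 4498187727) (nat_lit 456) (nat_lit 3694159392) (nat_lit 170) (nat_lit 5) (nat_lit 175) (nat_lit 5) (nat_lit 176) (nat_lit 5) (nat_lit 639) (nat_lit 552) (nat_lit 369)) (XT.nd (nat_lit 624) (nat_lit 1900) (nat_lit 0) (XT.lf (nat_lit 0) (nat_lit 1268453984) (nat_lit 456) (nat_lit 16108883575) (nat_lit 76) (nat_lit 3359069849) (nat_lit 164) (nat_lit 5) (nat_lit 170) (nat_lit 5) (nat_lit 165) (nat_lit 5) (nat_lit 640) (nat_lit 552) (nat_lit 368)) (XT.lf (nat_lit 0) (nat_lit 847106602) (nat_lit 456) (nat_lit 17734594045) (nat_lit 76) (nat_lit 4272107346) (nat_lit 139) (nat_lit 5) (nat_lit 145) (nat_lit 5) (nat_lit 140) (nat_lit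 5) (nat_lit 648) (nat_lit 552) (nat_lit 360)))) (XT.nd (nat_lit 156) (nat_lit 380) (nat_lit 0) (XT.nd (nat_lit 78) (nat_lit 304) (nat_lit 0) (XT.lf (nat_lit 0) (nat_lit 6675510944) (nat_lit 456) (nat_lit 3475278483) (nat_lit 76) (nat_lit 12984401448) (nat_lit 139) (nat_lit 5) (nat_lit 145) (nat_lit 5) (nat_lit 140) (nat_lit 5) (nat_lit 649) (nat_lit 552) (nat_lit 359)) (XT.lf (nat_lit 0) (nat_lit 11204157269) (nat_lit 304) (nat_lit 1481662166) (nat_lit 380) (nat_lit 10735075362) (nat_lit 135) (nat_lit 5) (nat_lit 139) (nat_lit 5) (nat_lit 140) (nat_lit 5) (nat_lit 650) (nat_lit 552) (nat_lit 358))) (XT.nd (nat_lit 78) (nat_lit 76) (nat_lit 0) (XT.lf (nat_lit 0) (nat_lit 2485040725) (nat_lit 304) (nat_lit 16411324040) (nat_lit 380) (nat_lit 4814347522) (nat_lit 131) (nat_lit 5) (nat_lit 135) (nat_lit 5) (nat_lit 136) (nat_lit 5) (nat_lit 651) (nat_lit 552) (nat_lit 357)) (XT.lf (nat_lit 0) (nat_lit 1293715040) (nat_lit 380) (nat_lit 6388605598) (nat_lit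 76) (nat_lit 16322146869) (nat_lit 130) (nat_lit 5) (nat_lit 135) (nat_lit 5) (nat_lit 131) (nat_lit 5) (nat_lit 652) (nat_lit 552) (nat_lit 356))))) (XT.nd (nat_lit 312) (nat_lit 608) (nat_lit 0) (XT.nd (nat_lit 156) (nat_lit 684) (nat_lit 0) (XT.nd (nat_lit 78) (nat_lit 0) (nat_lit 0) (XT.lf (nat_lit 0) (nat_lit 7518062877) (nat_lit 380) (nat_lit 15493822895) (nat_lit 76) (nat_lit 1290403937) (nat_lit 126) (nat_lit 5) (nat_lit 131) (nat_lit 5) (nat_lit 127) (nat_lit 5) (nat_lit 653) (nat_lit 552) (nat_lit 355)) (XT.lf (nat_lit 0) (nat_lit 13953755633) (nat_lit 380) (nat_lit 272157113) (nat_lit 76) (nat_lit 10378418542) (nat_lit 126) (nat_lit 5) (nat_lit 131) (nat_lit 5) (nat_lit 127) (nat_lit 5) (nat_lit 654) (nat_lit 552) (nat_lit 354))) (XT.nd (nat_lit 78) (nat_lit 380) (nat_lit 0) (XT.lf (nat_lit 0) (nat_lit 15444871033) (nat_lit 304) (nat_lit 5166537056) (nat_lit 380) (nat_lit 4299140784) (nat_lit 122) (nat_lit 5) (nat_lit 126) (nat_lit 5) (nat_lit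 127) (nat_lit 5) (nat_lit 655) (nat_lit 552) (nat_lit 353)) (XT.lf (nat_lit 0) (nat_lit 2213356812) (nat_lit 380) (nat_lit 18934617000) (nat_lit 76) (nat_lit 4073381770) (nat_lit 117) (nat_lit 5) (nat_lit 122) (nat_lit 5) (nat_lit 118) (nat_lit 5) (nat_lit 656) (nat_lit 552) (nat_lit 352)))) (XT.nd (nat_lit 156) (nat_lit 304) (nat_lit 0) (XT.nd (nat_lit 78) (nat_lit 304) (nat_lit 0) (XT.lf (nat_lit 0) (nat_lit 8889765035) (nat_lit 380) (nat_lit 3129384727) (nat_lit 76) (nat_lit 13516835878) (nat_lit 117) (nat_lit 5) (nat_lit 122) (nat_lit 5) (nat_lit 118) (nat_lit 5) (nat_lit 657) (nat_lit 552) (nat_lit 351)) (XT.lf (nat_lit 0) (nat_lit 13153002738) (nat_lit 304) (nat_lit 2625250174) (nat_lit 380) (nat_lit 10077084445) (nat_lit 113) (nat_lit 5) (nat_lit 117) (nat_lit 5) (nat_lit 118) (nat_lit 5) (nat_lit 658) (nat_lit 552) (nat_lit 350))) (XT.nd (nat_lit 78) (nat_lit 76) (nat_lit 0) (XT.lf (nat_lit 0) (nat_lit 3613402346) (nat_lit 228) (nat_lit 19274058114)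 (nat_lit 304) (nat_lit 3291956730) (nat_lit 110) (nat_lit 5) (nat_lit 113) (nat_lit 5) (nat_lit 114) (nat_lit 5) (nat_lit 659) (nat_lit 552) (nat_lit 349)) (XT.lf (nat_lit 0) (nat_lit 3677668600) (nat_lit 304) (nat_lit 6133646610) (nat_lit 76) (nat_lit 16696264503) (nat_lit 109) (nat_lit 5) (nat_lit 113) (nat_lit 5) (nat_lit 110) (nat_lit 5) (nat_lit 660) (nat_lit 552) (nat_lit 348)))))) (XT.nd (nat_lit 624) (nat_lit 760) (nat_lit 0) (XT.nd (nat_lit 312) (nat_lit 532) (nat_lit 0) (XT.nd (nat_lit 156) (nat_lit 380) (nat_lit 0) (XT.nd (nat_lit 78) (nat_lit 228) (nat_lit 0) (XT.lf (nat_lit 0) (nat_lit 10735087019) (nat_lit 304) (nat_lit 70592763) (nat_lit 380) (nat_lit 16034929132) (nat_lit 105) (nat_lit 5) (nat_lit 109) (nat_lit 5) (nat_lit 110) (nat_lit 5) (nat_lit 661) (nat_lit 552) (nat_lit 347)) (XT.lf (nat_lit 0) (nat_lit 779461614) (nat_lit 228) (nat_lit 17400693063) (nat_lit 304) (nat_lit 8998066028) (nat_lit 102) (nat_lit 5) (nat_lit 105) (nat_lit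 5) (nat_lit 106) (nat_lit 5) (nat_lit 662) (nat_lit 552) (nat_lit 346))) (XT.nd (nat_lit 78) (nat_lit 380) (nat_lit 0) (XT.lf (nat_lit 0) (nat_lit 18208758185) (nat_lit 228) (nat_lit 7595319499) (nat_lit 304) (nat_lit 1716467952) (nat_lit 102) (nat_lit 5) (nat_lit 105) (nat_lit 5) (nat_lit 106) (nat_lit 5) (nat_lit 663) (nat_lit 552) (nat_lit 345)) (XT.lf (nat_lit 0) (nat_lit 5698641867) (nat_lit 380) (nat_lit 19708252172) (nat_lit 76) (nat_lit 2460825988) (nat_lit 97) (nat_lit 5) (nat_lit 102) (nat_lit 5) (nat_lit 98) (nat_lit 5) (nat_lit 664) (nat_lit 552) (nat_lit 344)))) (XT.nd (nat_lit 156) (nat_lit 304) (nat_lit 0) (XT.nd (nat_lit 78) (nat_lit 228) (nat_lit 0) (XT.lf (nat_lit 0) (nat_lit 13345822803) (nat_lit 380) (nat_lit 2187417344) (nat_lit 76) (nat_lit 12686235865) (nat_lit 97) (nat_lit 5) (nat_lit 102) (nat_lit 5) (nat_lit 98) (nat_lit 5) (nat_lit 665) (nat_lit 552) (nat_lit 343)) (XT.lf (nat_lit 0) (nat_lit 15881217350) (nat_lit 228) (nat_lit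 5361498262) (nat_lit 304) (nat_lit 7333616207) (nat_lit 94) (nat_lit 5) (nat_lit 97) (nat_lit 5) (nat_lit 98) (nat_lit 5) (nat_lit 666) (nat_lit 552) (nat_lit 342))) (XT.nd (nat_lit 78) (nat_lit 0) (nat_lit 0) (XT.lf (nat_lit 0) (nat_lit 429296121) (nat_lit 304) (nat_lit 23513160000) (nat_lit 76) (nat_lit 4996287112) (nat_lit 90) (nat_lit 5) (nat_lit 94) (nat_lit 5) (nat_lit 91) (nat_lit 5) (nat_lit 667) (nat_lit 552) (nat_lit 341)) (XT.lf (nat_lit 0) (nat_lit 8364316351) (nat_lit 304) (nat_lit 5321494820) (nat_lit 76) (nat_lit 15619321328) (nat_lit 90) (nat_lit 5) (nat_lit 94) (nat_lit 5) (nat_lit 91) (nat_lit 5) (nat_lit 668) (nat_lit 552) (nat_lit 340))))) (XT.nd (nat_lit 72150) (nat_lit 0) (nat_lit 37544) (XT.nd (nat_lit 156) (nat_lit 304) (nat_lit 0) (XT.nd (nat_lit 78) (nat_lit 228) (nat_lit 0) (XT.lf (nat_lit 0) (nat_lit 13399010081) (nat_lit 228) (nat_lit 3139839122) (nat_lit 304) (nat_lit 13138384168) (nat_lit 87) (nat_lit 5) (nat_lit 90) (nat_lit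 5) (nat_lit 91) (nat_lit 5) (nat_lit 669) (nat_lit 552) (nat_lit 339)) (XT.lf (nat_lit 0) (nat_lit 2482112411) (nat_lit 228) (nat_lit 22490116958) (nat_lit 304) (nat_lit 5082639820) (nat_lit 84) (nat_lit 5) (nat_lit 87) (nat_lit 5) (nat_lit 88) (nat_lit 5) (nat_lit 670) (nat_lit 552) (nat_lit 338))) (XT.nd (nat_lit 78) (nat_lit 228) (nat_lit 0) (XT.lf (nat_lit 0) (nat_lit 3217716676) (nat_lit 304) (nat_lit 8652186925) (nat_lit 76) (nat_lit 18567255133) (nat_lit 83) (nat_lit 5) (nat_lit 87) (nat_lit 5) (nat_lit 84) (nat_lit 5) (nat_lit 671) (nat_lit 552) (nat_lit 337)) (XT.lf (nat_lit 0) (nat_lit 10743490349) (nat_lit 228) (nat_lit 936322083) (nat_lit 304) (nat_lit 19145333999) (nat_lit 80) (nat_lit 5) (nat_lit 83) (nat_lit 5) (nat_lit 84) (nat_lit 5) (nat_lit 672) (nat_lit 552) (nat_lit 336)))) (XT.nd (nat_lit 156) (nat_lit 1520) (nat_lit 0) (XT.nd (nat_lit 78) (nat_lit 0) (nat_lit 0) (XT.lf (nat_lit 0) (nat_lit 1804088442) (nat_lit 0) (nat_lit 1804088442)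 (nat_lit 1444) (nat_lit 651279994) (nat_lit 594) (nat_lit 5) (nat_lit 594) (nat_lit 3) (nat_lit 613) (nat_lit 3) (nat_lit 553) (nat_lit 553) (nat_lit 454)) (XT.lf (nat_lit 0) (nat_lit 7923288657) (nat_lit 0) (nat_lit 397991244) (nat_lit 1444) (nat_lit 262131597) (nat_lit 594) (nat_lit 5) (nat_lit 594) (nat_lit 3) (nat_lit 613) (nat_lit 3) (nat_lit 554) (nat_lit 553) (nat_lit 453))) (XT.nd (nat_lit 78) (nat_lit 0) (nat_lit 0) (XT.lf (nat_lit 0) (nat_lit 804366092) (nat_lit 1520) (nat_lit 4963117887) (nat_lit 1596) (nat_lit 2881297554) (nat_lit 574) (nat_lit 5) (nat_lit 594) (nat_lit 5) (nat_lit 595) (nat_lit 5) (nat_lit 555) (nat_lit 553) (nat_lit 452)) (XT.lf (nat_lit 0) (nat_lit 1869041274) (nat_lit 1520) (nat_lit 606895953) (nat_lit 1596) (nat_lit 6239880852) (nat_lit 574) (nat_lit 5) (nat_lit 594) (nat_lit 5) (nat_lit 595) (nat_lit 5) (nat_lit 556) (nat_lit 553) (nat_lit 451))))))) (XT.nd (nat_lit 1170) (nat_lit 8132) (nat_lit 0) (XT.nd (nat_lit 546)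 (nat_lit 1444) (nat_lit 0) (XT.nd (nat_lit 234) (nat_lit 1444) (nat_lit 0) (XT.nd (nat_lit 78) (nat_lit 0) (nat_lit 0) (XT.lf (nat_lit 0) (nat_lit 2959908087) (nat_lit 1520) (nat_lit 4917094133) (nat_lit 1596) (nat_lit 907096065) (nat_lit 575) (nat_lit 5) (nat_lit 595) (nat_lit 5) (nat_lit 596) (nat_lit 5) (nat_lit 557) (nat_lit 553) (nat_lit 450)) (XT.nd (nat_lit 78) (nat_lit 0) (nat_lit 0) (XT.lf (nat_lit 0) (nat_lit 4067371355) (nat_lit 1520) (nat_lit 446132903) (nat_lit 1596) (nat_lit 4340345131) (nat_lit 575) (nat_lit 5) (nat_lit 595) (nat_lit 5) (nat_lit 596) (nat_lit 5) (nat_lit 558) (nat_lit 553) (nat_lit 449)) (XT.lf (nat_lit 76) (nat_lit 4154364903) (nat_lit 0) (nat_lit 1044378763) (nat_lit 1596) (nat_lit 3726217513) (nat_lit 576) (nat_lit 5) (nat_lit 575) (nat_lit 5) (nat_lit 596) (nat_lit 5) (nat_lit 559) (nat_lit 553) (nat_lit 448)))) (XT.nd (nat_lit 156) (nat_lit 1520) (nat_lit 0) (XT.nd (nat_lit 78) (nat_lit 0) (nat_lit 0) (XT.lf (nat_lit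 0) (nat_lit 6347207585) (nat_lit 1520) (nat_lit 175567436) (nat_lit 1596) (nat_lit 2474831741) (nat_lit 576) (nat_lit 5) (nat_lit 596) (nat_lit 5) (nat_lit 597) (nat_lit 5) (nat_lit 560) (nat_lit 553) (nat_lit 447)) (XT.lf (nat_lit 76) (nat_lit 4549566044) (nat_lit 0) (nat_lit 2981272118) (nat_lit 1596) (nat_lit 1540623974) (nat_lit 577) (nat_lit 5) (nat_lit 576) (nat_lit 5) (nat_lit 597) (nat_lit 5) (nat_lit 561) (nat_lit 553) (nat_lit 446))) (XT.nd (nat_lit 78) (nat_lit 1596) (nat_lit 0) (XT.lf (nat_lit 76) (nat_lit 208448066) (nat_lit 0) (nat_lit 8512515046) (nat_lit 1596) (nat_lit 426175879) (nat_lit 578) (nat_lit 5) (nat_lit 577) (nat_lit 5) (nat_lit 598) (nat_lit 5) (nat_lit 562) (nat_lit 553) (nat_lit 445)) (XT.lf (nat_lit 0) (nat_lit 727930200) (nat_lit 1596) (nat_lit 4168793302) (nat_lit 1672) (nat_lit 4326980626) (nat_lit 556) (nat_lit 5) (nat_lit 577) (nat_lit 5) (nat_lit 578) (nat_lit 5) (nat_lit 563) (nat_lit 553) (nat_lit 444))))) (XT.nd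 (nat_lit 312) (nat_lit 1444) (nat_lit 0) (XT.nd (nat_lit 156) (nat_lit 0) (nat_lit 76) (XT.nd (nat_lit 78) (nat_lit 0) (nat_lit 76) (XT.lf (nat_lit 76) (nat_lit 687791116) (nat_lit 0) (nat_lit 1192953854) (nat_lit 1672) (nat_lit 7421373359) (nat_lit 557) (nat_lit 5) (nat_lit 556) (nat_lit 5) (nat_lit 578) (nat_lit 5) (nat_lit 564) (nat_lit 553) (nat_lit 443)) (XT.lf (nat_lit 0) (nat_lit 3078830321) (nat_lit 1596) (nat_lit 3715812410) (nat_lit 1672) (nat_lit 2587014546) (nat_lit 557) (nat_lit 5) (nat_lit 578) (nat_lit 5) (nat_lit 579) (nat_lit 5) (nat_lit 565) (nat_lit 553) (nat_lit 442))) (XT.nd (nat_lit 78) (nat_lit 0) (nat_lit 76) (XT.lf (nat_lit 76) (nat_lit 1274468280) (nat_lit 0) (nat_lit 3020301202) (nat_lit 1672) (nat_lit 5168140412) (nat_lit 558) (nat_lit 5) (nat_lit 557) (nat_lit 5) (nat_lit 579) (nat_lit 5) (nat_lit 566) (nat_lit 553) (nat_lit 441)) (XT.lf (nat_lit 0) (nat_lit 5543616156) (nat_lit 1596) (nat_lit 3151321734) (nat_lit 1672) (nat_lit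 850678616) (nat_lit 558) (nat_lit 5) (nat_lit 579) (nat_lit 5) (nat_lit 580) (nat_lit 5) (nat_lit 567) (nat_lit 553) (nat_lit 440)))) (XT.nd (nat_lit 156) (nat_lit 1596) (nat_lit 0) (XT.nd (nat_lit 78) (nat_lit 0) (nat_lit 0) (XT.lf (nat_lit 76) (nat_lit 1977368863) (nat_lit 0) (nat_lit 4851443343) (nat_lit 1672) (nat_lit 2800938301) (nat_lit 559) (nat_lit 5) (nat_lit 558) (nat_lit 5) (nat_lit 580) (nat_lit 5) (nat_lit 568) (nat_lit 553) (nat_lit 439)) (XT.lf (nat_lit 76) (nat_lit 7236346399) (nat_lit 0) (nat_lit 903368390) (nat_lit 1672) (nat_lit 1575853038) (nat_lit 559) (nat_lit 5) (nat_lit 558) (nat_lit 5) (nat_lit 580) (nat_lit 5) (nat_lit 569) (nat_lit 553) (nat_lit 438))) (XT.nd (nat_lit 78) (nat_lit 1672) (nat_lit 0) (XT.lf (nat_lit 76) (nat_lit 2798661986) (nat_lit 0) (nat_lit 6695934399) (nat_lit 1672) (nat_lit 308150566) (nat_lit 560) (nat_lit 5) (nat_lit 559) (nat_lit 5) (nat_lit 581) (nat_lit 5) (nat_lit 570) (nat_lit 553) (nat_lit 437)) (XT.lf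 (nat_lit 0) (nat_lit 974199886) (nat_lit 1672) (nat_lit 1703452369) (nat_lit 1748) (nat_lit 7213845936) (nat_lit 537) (nat_lit 5) (nat_lit 559) (nat_lit 5) (nat_lit 560) (nat_lit 5) (nat_lit 571) (nat_lit 553) (nat_lit 436)))))) (XT.nd (nat_lit 624) (nat_lit 4864) (nat_lit 0) (XT.nd (nat_lit 312) (nat_lit 3344) (nat_lit 0) (XT.nd (nat_lit 156) (nat_lit 0) (nat_lit 0) (XT.nd (nat_lit 78) (nat_lit 0) (nat_lit 0) (XT.lf (nat_lit 0) (nat_lit 2291642808) (nat_lit 1672) (nat_lit 6256232915) (nat_lit 1748) (nat_lit 1433837201) (nat_lit 538) (nat_lit 5) (nat_lit 560) (nat_lit 5) (nat_lit 561) (nat_lit 5) (nat_lit 572) (nat_lit 553) (nat_lit 435)) (XT.lf (nat_lit 0) (nat_lit 3644887129) (nat_lit 1672) (nat_lit 820596678) (nat_lit 1748) (nat_lit 5608059721) (nat_lit 538) (nat_lit 5) (nat_lit 560) (nat_lit 5) (nat_lit 561) (nat_lit 5) (nat_lit 573) (nat_lit 553) (nat_lit 434))) (XT.nd (nat_lit 78) (nat_lit 0) (nat_lit 76) (XT.lf (nat_lit 76) (nat_lit 4771262932)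 (nat_lit 0) (nat_lit 265512567) (nat_lit 1748) (nat_lit 5130204275) (nat_lit 539) (nat_lit 5) (nat_lit 538) (nat_lit 5) (nat_lit 561) (nat_lit 5) (nat_lit 574) (nat_lit 553) (nat_lit 433)) (XT.lf (nat_lit 76) (nat_lit 184829569) (nat_lit 0) (nat_lit 6285416808) (nat_lit 1748) (nat_lit 3791764074) (nat_lit 540) (nat_lit 5) (nat_lit 539) (nat_lit 5) (nat_lit 562) (nat_lit 5) (nat_lit 575) (nat_lit 553) (nat_lit 432)))) (XT.nd (nat_lit 156) (nat_lit 1824) (nat_lit 0) (XT.nd (nat_lit 78) (nat_lit 1596) (nat_lit 0) (XT.lf (nat_lit 76) (nat_lit 5933070631) (nat_lit 0) (nat_lit 2018457155) (nat_lit 1748) (nat_lit 2407031722) (nat_lit 540) (nat_lit 5) (nat_lit 539) (nat_lit 5) (nat_lit 562) (nat_lit 5) (nat_lit 576) (nat_lit 553) (nat_lit 431)) (XT.lf (nat_lit 0) (nat_lit 1326108871) (nat_lit 1672) (nat_lit 8141666426) (nat_lit 1748) (nat_lit 989158018) (nat_lit 518) (nat_lit 5) (nat_lit 540) (nat_lit 5) (nat_lit 541) (nat_lit 5) (nat_lit 577) (nat_lit 553) (nat_lit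 430))) (XT.nd (nat_lit 78) (nat_lit 1748) (nat_lit 0) (XT.lf (nat_lit 0) (nat_lit 476058781) (nat_lit 1748) (nat_lit 3335994773) (nat_lit 76) (nat_lit 6744662642) (nat_lit 517) (nat_lit 5) (nat_lit 540) (nat_lit 5) (nat_lit 518) (nat_lit 5) (nat_lit 578) (nat_lit 553) (nat_lit 429)) (XT.lf (nat_lit 0) (nat_lit 1960315544) (nat_lit 1824) (nat_lit 8075578827) (nat_lit 76) (nat_lit 622410534) (nat_lit 494) (nat_lit 5) (nat_lit 518) (nat_lit 5) (nat_lit 495) (nat_lit 5) (nat_lit 579) (nat_lit 553) (nat_lit 428))))) (XT.nd (nat_lit 312) (nat_lit 1900) (nat_lit 0) (XT.nd (nat_lit 156) (nat_lit 1140) (nat_lit 0) (XT.nd (nat_lit 78) (nat_lit 1824) (nat_lit 0) (XT.lf (nat_lit 0) (nat_lit 3504384733) (nat_lit 1824) (nat_lit 2137305885) (nat_lit 76) (nat_lit 5119632758) (nat_lit 494) (nat_lit 5) (nat_lit 518) (nat_lit 5) (nat_lit 495) (nat_lit 5) (nat_lit 580) (nat_lit 553) (nat_lit 427)) (XT.lf (nat_lit 0) (nat_lit 3956449298) (nat_lit 1824) (nat_lit 1131267400)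 (nat_lit 1900) (nat_lit 5778518414) (nat_lit 470) (nat_lit 5) (nat_lit 494) (nat_lit 5) (nat_lit 495) (nat_lit 5) (nat_lit 581) (nat_lit 553) (nat_lit 426))) (XT.nd (nat_lit 78) (nat_lit 1140) (nat_lit 0) (XT.lf (nat_lit 0) (nat_lit 6722626059) (nat_lit 1900) (nat_lit 809954989) (nat_lit 76) (nat_lit 3440266331) (nat_lit 470) (nat_lit 5) (nat_lit 495) (nat_lit 5) (nat_lit 471) (nat_lit 5) (nat_lit 582) (nat_lit 553) (nat_lit 425)) (XT.lf (nat_lit 0) (nat_lit 5460875798) (nat_lit 1140) (nat_lit 2955587541) (nat_lit 1216) (nat_lit 2664604462) (nat_lit 455) (nat_lit 5) (nat_lit 470) (nat_lit 5) (nat_lit 471) (nat_lit 5) (nat_lit 583) (nat_lit 553) (nat_lit 424)))) (XT.nd (nat_lit 156) (nat_lit 912) (nat_lit 0) (XT.nd (nat_lit 78) (nat_lit 76) (nat_lit 0) (XT.lf (nat_lit 0) (nat_lit 658876727) (nat_lit 912) (nat_lit 9489693303) (nat_lit 988) (nat_lit 1042795242) (nat_lit 443) (nat_lit 5) (nat_lit 455) (nat_lit 5) (nat_lit 456) (nat_lit 5) (nat_lit 584) (nat_lit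 553) (nat_lit 423)) (XT.lf (nat_lit 0) (nat_lit 644606394) (nat_lit 988) (nat_lit 4202679761) (nat_lit 76) (nat_lit 6455680102) (nat_lit 442) (nat_lit 5) (nat_lit 455) (nat_lit 5) (nat_lit 443) (nat_lit 5) (nat_lit 585) (nat_lit 553) (nat_lit 422))) (XT.nd (nat_lit 78) (nat_lit 0) (nat_lit 0) (XT.lf (nat_lit 0) (nat_lit 2261297931) (nat_lit 912) (nat_lit 89148700) (nat_lit 988) (nat_lit 9066242166) (nat_lit 430) (nat_lit 5) (nat_lit 442) (nat_lit 5) (nat_lit 443) (nat_lit 5) (nat_lit 586) (nat_lit 553) (nat_lit 421)) (XT.lf (nat_lit 0) (nat_lit 4133904843) (nat_lit 988) (nat_lit 2667117536) (nat_lit 76) (nat_lit 4730793840) (nat_lit 430) (nat_lit 5) (nat_lit 443) (nat_lit 5) (nat_lit 431) (nat_lit 5) (nat_lit 587) (nat_lit 553) (nat_lit 420))))))))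
noncomputable def xc126 : XT := (XT.nd (nat_lit 2418) (nat_lit 9044) (nat_lit 0) (XT.nd (nat_lit 1170) (nat_lit 6384) (nat_lit 0) (XT.nd (nat_lit 546) (nat_lit 3800) (nat_lit 0) (XT.nd (nat_lit 234) (nat_lit 1748) (nat_lit 0) (XT.nd (nat_lit 78) (nat_lit 912) (nat_lit 0) (XT.lf (nat_lit 0) (nat_lit 3987529409) (nat_lit 836) (nat_lit 1976473251) (nat_lit 912) (nat_lit 5685024568) (nat_lit 419) (nat_lit 5) (nat_lit 430) (nat_lit 5) (nat_lit 431) (nat_lit 5) (nat_lit 588) (nat_lit 553) (nat_lit 419)) (XT.nd (nat_lit 78) (nat_lit 912) (nat_lit 0) (XT.lf (nat_lit 0) (nat_lit 7852535871) (nat_lit 912) (nat_lit 991346099) (nat_lit 76) (nat_lit 2924264258) (nat_lit 419) (nat_lit 5) (nat_lit 431) (nat_lit 5) (nat_lit 420) (nat_lit 5) (nat_lit 589) (nat_lit 553) (nat_lit 418)) (XT.lf (nat_lit 0) (nat_lit 5860979622) (nat_lit 912) (nat_lit 3954001799) (nat_lit 988) (nat_lit 2073943781) (nat_lit 407) (nat_lit 5) (nat_lit 419) (nat_lit 5) (nat_lit 420) (nat_lit 5)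 (nat_lit 590) (nat_lit 553) (nat_lit 417)))) (XT.nd (nat_lit 156) (nat_lit 836) (nat_lit 0) (XT.nd (nat_lit 78) (nat_lit 76) (nat_lit 0) (XT.lf (nat_lit 0) (nat_lit 840871235) (nat_lit 836) (nat_lit 10979867698) (nat_lit 912) (nat_lit 191299984) (nat_lit 396) (nat_lit 5) (nat_lit 407) (nat_lit 5) (nat_lit 408) (nat_lit 5) (nat_lit 591) (nat_lit 553) (nat_lit 416)) (XT.lf (nat_lit 0) (nat_lit 1758515371) (nat_lit 912) (nat_lit 4261010771) (nat_lit 76) (nat_lit 6116820755) (nat_lit 395) (nat_lit 5) (nat_lit 407) (nat_lit 5) (nat_lit 396) (nat_lit 5) (nat_lit 592) (nat_lit 553) (nat_lit 415))) (XT.nd (nat_lit 78) (nat_lit 0) (nat_lit 0) (XT.lf (nat_lit 0) (nat_lit 2807908084) (nat_lit 836) (nat_lit 940669826) (nat_lit 912) (nat_lit 8514461988) (nat_lit 384) (nat_lit 5) (nat_lit 395) (nat_lit 5) (nat_lit 396) (nat_lit 5) (nat_lit 593) (nat_lit 553) (nat_lit 414)) (XT.lf (nat_lit 0) (nat_lit 5820512909) (nat_lit 912) (nat_lit 2358629757) (nat_lit 76) (nat_lit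 4212283057) (nat_lit 384) (nat_lit 5) (nat_lit 396) (nat_lit 5) (nat_lit 385) (nat_lit 5) (nat_lit 594) (nat_lit 553) (nat_lit 413))))) (XT.nd (nat_lit 312) (nat_lit 1444) (nat_lit 0) (XT.nd (nat_lit 156) (nat_lit 1596) (nat_lit 0) (XT.nd (nat_lit 78) (nat_lit 0) (nat_lit 0) (XT.lf (nat_lit 0) (nat_lit 4923257251) (nat_lit 760) (nat_lit 3034864072) (nat_lit 836) (nat_lit 4563773628) (nat_lit 374) (nat_lit 5) (nat_lit 384) (nat_lit 5) (nat_lit 385) (nat_lit 5) (nat_lit 595) (nat_lit 553) (nat_lit 412)) (XT.lf (nat_lit 0) (nat_lit 10154989348) (nat_lit 836) (nat_lit 301428165) (nat_lit 76) (nat_lit 2198226276) (nat_lit 374) (nat_lit 5) (nat_lit 385) (nat_lit 5) (nat_lit 375) (nat_lit 5) (nat_lit 596) (nat_lit 553) (nat_lit 411))) (XT.nd (nat_lit 78) (nat_lit 836) (nat_lit 0) (XT.lf (nat_lit 0) (nat_lit 7201312394) (nat_lit 760) (nat_lit 5247818097) (nat_lit 836) (nat_lit 339850763) (nat_lit 364) (nat_lit 5) (nat_lit 374) (nat_lit 5) (nat_lit 375) (nat_lit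 5) (nat_lit 597) (nat_lit 553) (nat_lit 410)) (XT.lf (nat_lit 0) (nat_lit 1840436224) (nat_lit 836) (nat_lit 10995734864) (nat_lit 76) (nat_lit 89558343) (nat_lit 353) (nat_lit 5) (nat_lit 364) (nat_lit 5) (nat_lit 354) (nat_lit 5) (nat_lit 598) (nat_lit 553) (nat_lit 409)))) (XT.nd (nat_lit 156) (nat_lit 684) (nat_lit 0) (XT.nd (nat_lit 78) (nat_lit 760) (nat_lit 0) (XT.lf (nat_lit 0) (nat_lit 4119001767) (nat_lit 836) (nat_lit 3442963361) (nat_lit 76) (nat_lit 5502018392) (nat_lit 353) (nat_lit 5) (nat_lit 364) (nat_lit 5) (nat_lit 354) (nat_lit 5) (nat_lit 599) (nat_lit 553) (nat_lit 408)) (XT.lf (nat_lit 0) (nat_lit 4302585349) (nat_lit 760) (nat_lit 2155469766) (nat_lit 836) (nat_lit 6746649583) (nat_lit 343) (nat_lit 5) (nat_lit 353) (nat_lit 5) (nat_lit 354) (nat_lit 5) (nat_lit 600) (nat_lit 553) (nat_lit 407))) (XT.nd (nat_lit 78) (nat_lit 684) (nat_lit 0) (XT.lf (nat_lit 0) (nat_lit 8876086789) (nat_lit 836) (nat_lit 1134882549) (nat_lit 76)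 (nat_lit 3336627349) (nat_lit 343) (nat_lit 5) (nat_lit 354) (nat_lit 5) (nat_lit 344) (nat_lit 5) (nat_lit 601) (nat_lit 553) (nat_lit 406)) (XT.lf (nat_lit 0) (nat_lit 6848680573) (nat_lit 684) (nat_lit 4539921969) (nat_lit 760) (nat_lit 2103821831) (nat_lit 334) (nat_lit 5) (nat_lit 343) (nat_lit 5) (nat_lit 344) (nat_lit 5) (nat_lit 602) (nat_lit 553) (nat_lit 405)))))) (XT.nd (nat_lit 624) (nat_lit 2964) (nat_lit 0) (XT.nd (nat_lit 312) (nat_lit 1976) (nat_lit 0) (XT.nd (nat_lit 156) (nat_lit 684) (nat_lit 0) (XT.nd (nat_lit 78) (nat_lit 0) (nat_lit 0) (XT.lf (nat_lit 0) (nat_lit 318008449) (nat_lit 760) (nat_lit 12278350544) (nat_lit 76) (nat_lit 1043532115) (nat_lit 324) (nat_lit 5) (nat_lit 334) (nat_lit 5) (nat_lit 325) (nat_lit 5) (nat_lit 603) (nat_lit 553) (nat_lit 404)) (XT.lf (nat_lit 0) (nat_lit 2822666383) (nat_lit 760) (nat_lit 4231495432) (nat_lit 76) (nat_lit 6734616321) (nat_lit 324) (nat_lit 5) (nat_lit 334) (nat_lit 5) (nat_lit 325)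 (nat_lit 5) (nat_lit 604) (nat_lit 553) (nat_lit 403))) (XT.nd (nat_lit 78) (nat_lit 0) (nat_lit 0) (XT.lf (nat_lit 0) (nat_lit 4014462203) (nat_lit 684) (nat_lit 1376854051) (nat_lit 760) (nat_lit 8549048974) (nat_lit 315) (nat_lit 5) (nat_lit 324) (nat_lit 5) (nat_lit 325) (nat_lit 5) (nat_lit 605) (nat_lit 553) (nat_lit 402)) (XT.lf (nat_lit 0) (nat_lit 8056545314) (nat_lit 760) (nat_lit 1655179795) (nat_lit 76) (nat_lit 4382355126) (nat_lit 315) (nat_lit 5) (nat_lit 325) (nat_lit 5) (nat_lit 316) (nat_lit 5) (nat_lit 606) (nat_lit 553) (nat_lit 401)))) (XT.nd (nat_lit 156) (nat_lit 684) (nat_lit 0) (XT.nd (nat_lit 78) (nat_lit 608) (nat_lit 0) (XT.lf (nat_lit 0) (nat_lit 6847314995) (nat_lit 684) (nat_lit 3969539471) (nat_lit 760) (nat_lit 3433179853) (nat_lit 306) (nat_lit 5) (nat_lit 315) (nat_lit 5) (nat_lit 316) (nat_lit 5) (nat_lit 607) (nat_lit 553) (nat_lit 400)) (XT.lf (nat_lit 0) (nat_lit 1121337923) (nat_lit 608) (nat_lit 12530070084) (nat_lit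 684) (nat_lit 757318998) (nat_lit 298) (nat_lit 5) (nat_lit 306) (nat_lit 5) (nat_lit 307) (nat_lit 5) (nat_lit 608) (nat_lit 553) (nat_lit 399))) (XT.nd (nat_lit 78) (nat_lit 608) (nat_lit 0) (XT.lf (nat_lit 0) (nat_lit 2010869898) (nat_lit 684) (nat_lit 4707309708) (nat_lit 76) (nat_lit 7850864637) (nat_lit 297) (nat_lit 5) (nat_lit 306) (nat_lit 5) (nat_lit 298) (nat_lit 5) (nat_lit 609) (nat_lit 553) (nat_lit 398)) (XT.lf (nat_lit 0) (nat_lit 4078621699) (nat_lit 608) (nat_lit 760760057) (nat_lit 684) (nat_lit 9892784226) (nat_lit 289) (nat_lit 5) (nat_lit 297) (nat_lit 5) (nat_lit 298) (nat_lit 5) (nat_lit 610) (nat_lit 553) (nat_lit 397))))) (XT.nd (nat_lit 312) (nat_lit 1672) (nat_lit 0) (XT.nd (nat_lit 156) (nat_lit 684) (nat_lit 0) (XT.nd (nat_lit 78) (nat_lit 608) (nat_lit 0) (XT.lf (nat_lit 0) (nat_lit 7779497353) (nat_lit 684) (nat_lit 1842900029) (nat_lit 76) (nat_lit 5275052366) (nat_lit 289) (nat_lit 5) (nat_lit 298) (nat_lit 5) (nat_lit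 290) (nat_lit 5) (nat_lit 611) (nat_lit 553) (nat_lit 396)) (XT.lf (nat_lit 0) (nat_lit 7219546523) (nat_lit 608) (nat_lit 3599724133) (nat_lit 684) (nat_lit 4245951681) (nat_lit 281) (nat_lit 5) (nat_lit 289) (nat_lit 5) (nat_lit 290) (nat_lit 5) (nat_lit 612) (nat_lit 553) (nat_lit 395))) (XT.nd (nat_lit 78) (nat_lit 76) (nat_lit 0) (XT.lf (nat_lit 0) (nat_lit 1237591065) (nat_lit 608) (nat_lit 12708295394) (nat_lit 684) (nat_lit 1289943230) (nat_lit 273) (nat_lit 5) (nat_lit 281) (nat_lit 5) (nat_lit 282) (nat_lit 5) (nat_lit 613) (nat_lit 553) (nat_lit 394)) (XT.lf (nat_lit 0) (nat_lit 1768496779) (nat_lit 684) (nat_lit 4849528340) (nat_lit 76) (nat_lit 8790281540) (nat_lit 272) (nat_lit 5) (nat_lit 281) (nat_lit 5) (nat_lit 273) (nat_lit 5) (nat_lit 614) (nat_lit 553) (nat_lit 393)))) (XT.nd (nat_lit 156) (nat_lit 1140) (nat_lit 0) (XT.nd (nat_lit 78) (nat_lit 0) (nat_lit 0) (XT.lf (nat_lit 0) (nat_lit 4518942318) (nat_lit 532) (nat_lit 370561747)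 (nat_lit 608) (nat_lit 10694185394) (nat_lit 265) (nat_lit 5) (nat_lit 272) (nat_lit 5) (nat_lit 273) (nat_lit 5) (nat_lit 615) (nat_lit 553) (nat_lit 392)) (XT.lf (nat_lit 0) (nat_lit 8134070914) (nat_lit 608) (nat_lit 1674630000) (nat_lit 76) (nat_lit 5952656445) (nat_lit 265) (nat_lit 5) (nat_lit 273) (nat_lit 5) (nat_lit 266) (nat_lit 5) (nat_lit 616) (nat_lit 553) (nat_lit 391))) (XT.nd (nat_lit 78) (nat_lit 532) (nat_lit 0) (XT.lf (nat_lit 0) (nat_lit 7991889269) (nat_lit 608) (nat_lit 3495603132) (nat_lit 684) (nat_lit 4454207177) (nat_lit 257) (nat_lit 5) (nat_lit 265) (nat_lit 5) (nat_lit 266) (nat_lit 5) (nat_lit 617) (nat_lit 553) (nat_lit 390)) (XT.lf (nat_lit 0) (nat_lit 1738778136) (nat_lit 532) (nat_lit 13200631623) (nat_lit 608) (nat_lit 1185610557) (nat_lit 250) (nat_lit 5) (nat_lit 257) (nat_lit 5) (nat_lit 258) (nat_lit 5) (nat_lit 618) (nat_lit 553) (nat_lit 389))))))) (XT.nd (nat_lit 1170) (nat_lit 4560) (nat_lit 0) (XT.nd (nat_lit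 546) (nat_lit 2356) (nat_lit 0) (XT.nd (nat_lit 234) (nat_lit 1520) (nat_lit 0) (XT.nd (nat_lit 78) (nat_lit 532) (nat_lit 0) (XT.lf (nat_lit 0) (nat_lit 2186790282) (nat_lit 608) (nat_lit 4633391225) (nat_lit 76) (nat_lit 9490215038) (nat_lit 249) (nat_lit 5) (nat_lit 257) (nat_lit 5) (nat_lit 250) (nat_lit 5) (nat_lit 619) (nat_lit 553) (nat_lit 388)) (XT.nd (nat_lit 78) (nat_lit 0) (nat_lit 0) (XT.lf (nat_lit 0) (nat_lit 5363379977) (nat_lit 532) (nat_lit 272180116) (nat_lit 608) (nat_lit 10863267753) (nat_lit 242) (nat_lit 5) (nat_lit 249) (nat_lit 5) (nat_lit 250) (nat_lit 5) (nat_lit 620) (nat_lit 553) (nat_lit 387)) (XT.lf (nat_lit 0) (nat_lit 9216245186) (nat_lit 608) (nat_lit 1123028003) (nat_lit 76) (nat_lit 6350495993) (nat_lit 242) (nat_lit 5) (nat_lit 250) (nat_lit 5) (nat_lit 243) (nat_lit 5) (nat_lit 621) (nat_lit 553) (nat_lit 386)))) (XT.nd (nat_lit 156) (nat_lit 532) (nat_lit 0) (XT.nd (nat_lit 78) (nat_lit 532) (nat_lit 0) (XT.lf (nat_lit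 0) (nat_lit 9194988002) (nat_lit 456) (nat_lit 3725298071) (nat_lit 532) (nat_lit 3963208630) (nat_lit 236) (nat_lit 5) (nat_lit 242) (nat_lit 5) (nat_lit 243) (nat_lit 5) (nat_lit 622) (nat_lit 553) (nat_lit 385)) (XT.lf (nat_lit 0) (nat_lit 2655279246) (nat_lit 532) (nat_lit 14077888702) (nat_lit 608) (nat_lit 347231783) (nat_lit 229) (nat_lit 5) (nat_lit 236) (nat_lit 5) (nat_lit 237) (nat_lit 5) (nat_lit 623) (nat_lit 553) (nat_lit 384))) (XT.nd (nat_lit 78) (nat_lit 456) (nat_lit 0) (XT.lf (nat_lit 0) (nat_lit 3364211608) (nat_lit 608) (nat_lit 4030319119) (nat_lit 76) (nat_lit 9884939161) (nat_lit 228) (nat_lit 5) (nat_lit 236) (nat_lit 5) (nat_lit 229) (nat_lit 5) (nat_lit 624) (nat_lit 553) (nat_lit 383)) (XT.lf (nat_lit 0) (nat_lit 6643917005) (nat_lit 456) (nat_lit 535006739) (nat_lit 532) (nat_lit 10302878201) (nat_lit 222) (nat_lit 5) (nat_lit 228) (nat_lit 5) (nat_lit 229) (nat_lit 5) (nat_lit 625) (nat_lit 553) (nat_lit 382))))) (XT.nd (nat_lit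 312) (nat_lit 1368) (nat_lit 0) (XT.nd (nat_lit 156) (nat_lit 532) (nat_lit 0) (XT.nd (nat_lit 78) (nat_lit 456) (nat_lit 0) (XT.lf (nat_lit 0) (nat_lit 11129731247) (nat_lit 532) (nat_lit 156875224) (nat_lit 76) (nat_lit 6400378333) (nat_lit 222) (nat_lit 5) (nat_lit 229) (nat_lit 5) (nat_lit 223) (nat_lit 5) (nat_lit 626) (nat_lit 553) (nat_lit 381)) (XT.lf (nat_lit 0) (nat_lit 10863579016) (nat_lit 456) (nat_lit 4360859158) (nat_lit 532) (nat_lit 2670535661) (nat_lit 216) (nat_lit 5) (nat_lit 222) (nat_lit 5) (nat_lit 223) (nat_lit 5) (nat_lit 627) (nat_lit 553) (nat_lit 380))) (XT.nd (nat_lit 78) (nat_lit 0) (nat_lit 0) (XT.lf (nat_lit 0) (nat_lit 1312781078) (nat_lit 532) (nat_lit 14093578045) (nat_lit 76) (nat_lit 2699878987) (nat_lit 209) (nat_lit 5) (nat_lit 216) (nat_lit 5) (nat_lit 210) (nat_lit 5) (nat_lit 628) (nat_lit 553) (nat_lit 379)) (XT.lf (nat_lit 0) (nat_lit 5407326543) (nat_lit 532) (nat_lit 3007968537) (nat_lit 76) (nat_lit 9904733300)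 (nat_lit 209) (nat_lit 5) (nat_lit 216) (nat_lit 5) (nat_lit 210) (nat_lit 5) (nat_lit 629) (nat_lit 553) (nat_lit 378)))) (XT.nd (nat_lit 156) (nat_lit 532) (nat_lit 0) (XT.nd (nat_lit 78) (nat_lit 380) (nat_lit 0) (XT.lf (nat_lit 0) (nat_lit 8396519137) (nat_lit 456) (nat_lit 1232848507) (nat_lit 532) (nat_lit 8907814880) (nat_lit 203) (nat_lit 5) (nat_lit 209) (nat_lit 5) (nat_lit 210) (nat_lit 5) (nat_lit 630) (nat_lit 553) (nat_lit 377)) (XT.lf (nat_lit 0) (nat_lit 1275608164) (nat_lit 380) (nat_lit 12719557445) (nat_lit 456) (nat_lit 4762327985) (nat_lit 198) (nat_lit 5) (nat_lit 203) (nat_lit 5) (nat_lit 204) (nat_lit 5) (nat_lit 631) (nat_lit 553) (nat_lit 376))) (XT.nd (nat_lit 78) (nat_lit 532) (nat_lit 0) (XT.lf (nat_lit 0) (nat_lit 13036456204) (nat_lit 380) (nat_lit 5479226652) (nat_lit 456) (nat_lit 465180122) (nat_lit 198) (nat_lit 5) (nat_lit 203) (nat_lit 5) (nat_lit 204) (nat_lit 5) (nat_lit 632) (nat_lit 553) (nat_lit 375)) (XT.lf (nat_lit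 0) (nat_lit 3908715643) (nat_lit 532) (nat_lit 13357896154) (nat_lit 76) (nat_lit 1940735573) (nat_lit 191) (nat_lit 5) (nat_lit 198) (nat_lit 5) (nat_lit 192) (nat_lit 5) (nat_lit 633) (nat_lit 553) (nat_lit 374)))))) (XT.nd (nat_lit 858) (nat_lit 1824) (nat_lit 0) (XT.nd (nat_lit 312) (nat_lit 1900) (nat_lit 0) (XT.nd (nat_lit 156) (nat_lit 456) (nat_lit 0) (XT.nd (nat_lit 78) (nat_lit 380) (nat_lit 0) (XT.lf (nat_lit 0) (nat_lit 8431724828) (nat_lit 532) (nat_lit 1530287069) (nat_lit 76) (nat_lit 9474930921) (nat_lit 191) (nat_lit 5) (nat_lit 198) (nat_lit 5) (nat_lit 192) (nat_lit 5) (nat_lit 634) (nat_lit 553) (nat_lit 373)) (XT.lf (nat_lit 0) (nat_lit 10661091741) (nat_lit 380) (nat_lit 2444907512) (nat_lit 456) (nat_lit 6563914967) (nat_lit 186) (nat_lit 5) (nat_lit 191) (nat_lit 5) (nat_lit 192) (nat_lit 5) (nat_lit 635) (nat_lit 553) (nat_lit 372))) (XT.nd (nat_lit 78) (nat_lit 76) (nat_lit 0) (XT.lf (nat_lit 0) (nat_lit 3205099969) (nat_lit 380)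 (nat_lit 14725356699) (nat_lit 456) (nat_lit 1975954576) (nat_lit 181) (nat_lit 5) (nat_lit 186) (nat_lit 5) (nat_lit 187) (nat_lit 5) (nat_lit 636) (nat_lit 553) (nat_lit 371)) (XT.lf (nat_lit 0) (nat_lit 2737020301) (nat_lit 456) (nat_lit 4407846483) (nat_lit 76) (nat_lit 13001046159) (nat_lit 180) (nat_lit 5) (nat_lit 186) (nat_lit 5) (nat_lit 181) (nat_lit 5) (nat_lit 637) (nat_lit 553) (nat_lit 370)))) (XT.nd (nat_lit 156) (nat_lit 1140) (nat_lit 0) (XT.nd (nat_lit 78) (nat_lit 380) (nat_lit 0) (XT.lf (nat_lit 0) (nat_lit 7567208106) (nat_lit 456) (nat_lit 12179578816) (nat_lit 76) (nat_lit 642168440) (nat_lit 175) (nat_lit 5) (nat_lit 181) (nat_lit 5) (nat_lit 176) (nat_lit 5) (nat_lit 638) (nat_lit 553) (nat_lit 369)) (XT.lf (nat_lit 0) (nat_lit 448300925) (nat_lit 380) (nat_lit 12117586669) (nat_lit 456) (nat_lit 8069533409) (nat_lit 170) (nat_lit 5) (nat_lit 175) (nat_lit 5) (nat_lit 176) (nat_lit 5) (nat_lit 639) (nat_lit 553) (nat_lit 368)))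 (XT.nd (nat_lit 312) (nat_lit 1140) (nat_lit 0) (XT.lf (nat_lit 0) (nat_lit 13481425599) (nat_lit 380) (nat_lit 4256810396) (nat_lit 456) (nat_lit 3147106186) (nat_lit 170) (nat_lit 5) (nat_lit 175) (nat_lit 5) (nat_lit 176) (nat_lit 5) (nat_lit 640) (nat_lit 553) (nat_lit 367)) (XT.lf (nat_lit 0) (nat_lit 2992660004) (nat_lit 304) (nat_lit 14964402602) (nat_lit 380) (nat_lit 3963876598) (nat_lit 155) (nat_lit 5) (nat_lit 159) (nat_lit 5) (nat_lit 160) (nat_lit 5) (nat_lit 644) (nat_lit 553) (nat_lit 363))))) (XT.nd (nat_lit 312) (nat_lit 1064) (nat_lit 0) (XT.nd (nat_lit 156) (nat_lit 304) (nat_lit 0) (XT.nd (nat_lit 78) (nat_lit 380) (nat_lit 0) (XT.lf (nat_lit 0) (nat_lit 1458202999) (nat_lit 380) (nat_lit 5293713788) (nat_lit 76) (nat_lit 15437133008) (nat_lit 154) (nat_lit 5) (nat_lit 159) (nat_lit 5) (nat_lit 155) (nat_lit 5) (nat_lit 645) (nat_lit 553) (nat_lit 362)) (XT.lf (nat_lit 0) (nat_lit 6995672313) (nat_lit 456) (nat_lit 13782741944) (nat_lit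 76) (nat_lit 1682383941) (nat_lit 149) (nat_lit 5) (nat_lit 155) (nat_lit 5) (nat_lit 150) (nat_lit 5) (nat_lit 646) (nat_lit 553) (nat_lit 361))) (XT.nd (nat_lit 78) (nat_lit 0) (nat_lit 0) (XT.lf (nat_lit 0) (nat_lit 209596693) (nat_lit 304) (nat_lit 12508660158) (nat_lit 380) (nat_lit 10018237509) (nat_lit 145) (nat_lit 5) (nat_lit 149) (nat_lit 5) (nat_lit 150) (nat_lit 5) (nat_lit 647) (nat_lit 553) (nat_lit 360)) (XT.lf (nat_lit 0) (nat_lit 14656738867) (nat_lit 304) (nat_lit 3983644484) (nat_lit 380) (nat_lit 4375619397) (nat_lit 145) (nat_lit 5) (nat_lit 149) (nat_lit 5) (nat_lit 150) (nat_lit 5) (nat_lit 648) (nat_lit 553) (nat_lit 359)))) (XT.nd (nat_lit 156) (nat_lit 608) (nat_lit 0) (XT.nd (nat_lit 78) (nat_lit 0) (nat_lit 0) (XT.lf (nat_lit 0) (nat_lit 1425280452) (nat_lit 456) (nat_lit 17179448968) (nat_lit 76) (nat_lit 4694922281) (nat_lit 139) (nat_lit 5) (nat_lit 145) (nat_lit 5) (nat_lit 140) (nat_lit 5) (nat_lit 649) (nat_lit 553) (nat_lit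 358)) (XT.lf (nat_lit 0) (nat_lit 7359248338) (nat_lit 456) (nat_lit 2652787036) (nat_lit 76) (nat_lit 13574847113) (nat_lit 139) (nat_lit 5) (nat_lit 145) (nat_lit 5) (nat_lit 140) (nat_lit 5) (nat_lit 650) (nat_lit 553) (nat_lit 357))) (XT.nd (nat_lit 78) (nat_lit 304) (nat_lit 0) (XT.lf (nat_lit 0) (nat_lit 12314369031) (nat_lit 304) (nat_lit 1170358535) (nat_lit 380) (nat_lit 10393673780) (nat_lit 135) (nat_lit 5) (nat_lit 139) (nat_lit 5) (nat_lit 140) (nat_lit 5) (nat_lit 651) (nat_lit 553) (nat_lit 356)) (XT.lf (nat_lit 0) (nat_lit 3423680900) (nat_lit 304) (nat_lit 16393054636) (nat_lit 380) (nat_lit 4357334761) (nat_lit 131) (nat_lit 5) (nat_lit 135) (nat_lit 5) (nat_lit 136) (nat_lit 5) (nat_lit 652) (nat_lit 553) (nat_lit 355))))))))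
noncomputable def xc127 : XT := (XT.nd (nat_lit 74256) (nat_lit 0) (nat_lit 23104) (XT.nd (nat_lit 1170) (nat_lit 1064) (nat_lit 0) (XT.nd (nat_lit 546) (nat_lit 1444) (nat_lit 0) (XT.nd (nat_lit 234) (nat_lit 684) (nat_lit 0) (XT.nd (nat_lit 78) (nat_lit 608) (nat_lit 0) (XT.lf (nat_lit 0) (nat_lit 1854925700) (nat_lit 380) (nat_lit 5637747115) (nat_lit 76) (nat_lit 16981170236) (nat_lit 130) (nat_lit 5) (nat_lit 135) (nat_lit 5) (nat_lit 131) (nat_lit 5) (nat_lit 653) (nat_lit 553) (nat_lit 354)) (XT.nd (nat_lit 78) (nat_lit 304) (nat_lit 0) (XT.lf (nat_lit 0) (nat_lit 8201153544) (nat_lit 380) (nat_lit 14922454868) (nat_lit 76) (nat_lit 1654065561) (nat_lit 126) (nat_lit 5) (nat_lit 131) (nat_lit 5) (nat_lit 127) (nat_lit 5) (nat_lit 654) (nat_lit 553) (nat_lit 353)) (XT.lf (nat_lit 0) (nat_lit 594157406) (nat_lit 304) (nat_lit 14164814739) (nat_lit 380) (nat_lit 10326916136) (nat_lit 122) (nat_lit 5) (nat_lit 126) (nat_lit 5) (nat_lit 127) (nat_lit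 5) (nat_lit 655) (nat_lit 553) (nat_lit 352)))) (XT.nd (nat_lit 156) (nat_lit 304) (nat_lit 0) (XT.nd (nat_lit 78) (nat_lit 380) (nat_lit 0) (XT.lf (nat_lit 0) (nat_lit 16612049654) (nat_lit 304) (nat_lit 4929202006) (nat_lit 380) (nat_lit 3857149211) (nat_lit 122) (nat_lit 5) (nat_lit 126) (nat_lit 5) (nat_lit 127) (nat_lit 5) (nat_lit 656) (nat_lit 553) (nat_lit 351)) (XT.lf (nat_lit 0) (nat_lit 2776265440) (nat_lit 380) (nat_lit 18445682291) (nat_lit 76) (nat_lit 4493455721) (nat_lit 117) (nat_lit 5) (nat_lit 122) (nat_lit 5) (nat_lit 118) (nat_lit 5) (nat_lit 657) (nat_lit 553) (nat_lit 350))) (XT.nd (nat_lit 78) (nat_lit 304) (nat_lit 0) (XT.lf (nat_lit 0) (nat_lit 9576032387) (nat_lit 380) (nat_lit 2341357668) (nat_lit 76) (nat_lit 14119139572) (nat_lit 117) (nat_lit 5) (nat_lit 122) (nat_lit 5) (nat_lit 118) (nat_lit 5) (nat_lit 658) (nat_lit 553) (nat_lit 349)) (XT.lf (nat_lit 0) (nat_lit 14261081397) (nat_lit 304) (nat_lit 2336725005) (nat_lit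 380) (nat_lit 9764551770) (nat_lit 113) (nat_lit 5) (nat_lit 117) (nat_lit 5) (nat_lit 118) (nat_lit 5) (nat_lit 659) (nat_lit 553) (nat_lit 348))))) (XT.nd (nat_lit 312) (nat_lit 608) (nat_lit 0) (XT.nd (nat_lit 156) (nat_lit 532) (nat_lit 0) (XT.nd (nat_lit 78) (nat_lit 76) (nat_lit 0) (XT.lf (nat_lit 0) (nat_lit 4532949615) (nat_lit 228) (nat_lit 19314038237) (nat_lit 304) (nat_lit 2845976076) (nat_lit 110) (nat_lit 5) (nat_lit 113) (nat_lit 5) (nat_lit 114) (nat_lit 5) (nat_lit 660) (nat_lit 553) (nat_lit 347)) (XT.lf (nat_lit 0) (nat_lit 4246425090) (nat_lit 304) (nat_lit 5419066841) (nat_lit 76) (nat_lit 17362329505) (nat_lit 109) (nat_lit 5) (nat_lit 113) (nat_lit 5) (nat_lit 110) (nat_lit 5) (nat_lit 661) (nat_lit 553) (nat_lit 346))) (XT.nd (nat_lit 78) (nat_lit 228) (nat_lit 0) (XT.lf (nat_lit 0) (nat_lit 11514432397) (nat_lit 380) (nat_lit 15587809839) (nat_lit 76) (nat_lit 265320382) (nat_lit 105) (nat_lit 5) (nat_lit 110) (nat_lit 5) (nat_lit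 106) (nat_lit 5) (nat_lit 662) (nat_lit 553) (nat_lit 345)) (XT.lf (nat_lit 0) (nat_lit 1628883766) (nat_lit 228) (nat_lit 17403725566) (nat_lit 304) (nat_lit 8679393174) (nat_lit 102) (nat_lit 5) (nat_lit 105) (nat_lit 5) (nat_lit 106) (nat_lit 5) (nat_lit 663) (nat_lit 553) (nat_lit 344)))) (XT.nd (nat_lit 156) (nat_lit 228) (nat_lit 0) (XT.nd (nat_lit 78) (nat_lit 380) (nat_lit 0) (XT.lf (nat_lit 0) (nat_lit 19390416604) (nat_lit 228) (nat_lit 7409008871) (nat_lit 304) (nat_lit 1261940276) (nat_lit 102) (nat_lit 5) (nat_lit 105) (nat_lit 5) (nat_lit 106) (nat_lit 5) (nat_lit 664) (nat_lit 553) (nat_lit 343)) (XT.lf (nat_lit 0) (nat_lit 6293123359) (nat_lit 380) (nat_lit 19276574954) (nat_lit 76) (nat_lit 2845760681) (nat_lit 97) (nat_lit 5) (nat_lit 102) (nat_lit 5) (nat_lit 98) (nat_lit 5) (nat_lit 665) (nat_lit 553) (nat_lit 342))) (XT.nd (nat_lit 78) (nat_lit 228) (nat_lit 0) (XT.lf (nat_lit 0) (nat_lit 14083826175) (nat_lit 380) (nat_lit 1421516415)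 (nat_lit 76) (nat_lit 13269096046) (nat_lit 97) (nat_lit 5) (nat_lit 102) (nat_lit 5) (nat_lit 98) (nat_lit 5) (nat_lit 666) (nat_lit 553) (nat_lit 341)) (XT.lf (nat_lit 0) (nat_lit 17003164333) (nat_lit 228) (nat_lit 5131477706) (nat_lit 304) (nat_lit 7003869919) (nat_lit 94) (nat_lit 5) (nat_lit 97) (nat_lit 5) (nat_lit 98) (nat_lit 5) (nat_lit 667) (nat_lit 553) (nat_lit 340)))))) (XT.nd (nat_lit 72462) (nat_lit 0) (nat_lit 36100) (XT.nd (nat_lit 312) (nat_lit 304) (nat_lit 0) (XT.nd (nat_lit 156) (nat_lit 456) (nat_lit 0) (XT.nd (nat_lit 78) (nat_lit 0) (nat_lit 0) (XT.lf (nat_lit 0) (nat_lit 906262913) (nat_lit 304) (nat_lit 23171053006) (nat_lit 76) (nat_lit 5430829701) (nat_lit 90) (nat_lit 5) (nat_lit 94) (nat_lit 5) (nat_lit 91) (nat_lit 5) (nat_lit 668) (nat_lit 553) (nat_lit 339)) (XT.lf (nat_lit 0) (nat_lit 8990799610) (nat_lit 304) (nat_lit 4631483350) (nat_lit 76) (nat_lit 16259763487) (nat_lit 90) (nat_lit 5) (nat_lit 94) (nat_lit 5) (nat_lit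 91) (nat_lit 5) (nat_lit 669) (nat_lit 553) (nat_lit 338))) (XT.nd (nat_lit 78) (nat_lit 228) (nat_lit 0) (XT.lf (nat_lit 0) (nat_lit 14458191904) (nat_lit 228) (nat_lit 2866764359) (nat_lit 304) (nat_lit 12936710503) (nat_lit 87) (nat_lit 5) (nat_lit 90) (nat_lit 5) (nat_lit 91) (nat_lit 5) (nat_lit 670) (nat_lit 553) (nat_lit 337)) (XT.lf (nat_lit 0) (nat_lit 3324635983) (nat_lit 228) (nat_lit 22600725863) (nat_lit 304) (nat_lit 4721526391) (nat_lit 84) (nat_lit 5) (nat_lit 87) (nat_lit 5) (nat_lit 88) (nat_lit 5) (nat_lit 671) (nat_lit 553) (nat_lit 336)))) (XT.nd (nat_lit 71994) (nat_lit 0) (nat_lit 37468) (XT.nd (nat_lit 78) (nat_lit 228) (nat_lit 0) (XT.lf (nat_lit 0) (nat_lit 3729813131) (nat_lit 304) (nat_lit 8041941374) (nat_lit 76) (nat_lit 19265188160) (nat_lit 83) (nat_lit 5) (nat_lit 87) (nat_lit 5) (nat_lit 84) (nat_lit 5) (nat_lit 672) (nat_lit 553) (nat_lit 335)) (XT.lf (nat_lit 0) (nat_lit 11736496227) (nat_lit 228) (nat_lit 620927494)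 (nat_lit 304) (nat_lit 19075341023) (nat_lit 80) (nat_lit 5) (nat_lit 83) (nat_lit 5) (nat_lit 84) (nat_lit 5) (nat_lit 673) (nat_lit 553) (nat_lit 334))) (XT.nd (nat_lit 78) (nat_lit 0) (nat_lit 0) (XT.lf (nat_lit 0) (nat_lit 377294627) (nat_lit 1596) (nat_lit 1973372345) (nat_lit 1596) (nat_lit 1973372345) (nat_lit 573) (nat_lit 3) (nat_lit 594) (nat_lit 3) (nat_lit 594) (nat_lit 5) (nat_lit 554) (nat_lit 554) (nat_lit 452)) (XT.lf (nat_lit 76) (nat_lit 366134847) (nat_lit 0) (nat_lit 1397644843) (nat_lit 1596) (nat_lit 6950712782) (nat_lit 574) (nat_lit 5) (nat_lit 573) (nat_lit 3) (nat_lit 594) (nat_lit 5) (nat_lit 555) (nat_lit 554) (nat_lit 451))))) (XT.nd (nat_lit 312) (nat_lit 1444) (nat_lit 0) (XT.nd (nat_lit 156) (nat_lit 0) (nat_lit 76) (XT.nd (nat_lit 78) (nat_lit 0) (nat_lit 0) (XT.lf (nat_lit 0) (nat_lit 2806402075) (nat_lit 1520) (nat_lit 3990068908) (nat_lit 1596) (nat_lit 1985499532) (nat_lit 574) (nat_lit 5) (nat_lit 594) (nat_lit 5)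 (nat_lit 595) (nat_lit 5) (nat_lit 556) (nat_lit 554) (nat_lit 450)) (XT.lf (nat_lit 76) (nat_lit 437996150) (nat_lit 0) (nat_lit 3418278201) (nat_lit 1596) (nat_lit 4994796694) (nat_lit 575) (nat_lit 5) (nat_lit 574) (nat_lit 5) (nat_lit 595) (nat_lit 5) (nat_lit 557) (nat_lit 554) (nat_lit 449))) (XT.nd (nat_lit 78) (nat_lit 0) (nat_lit 0) (XT.lf (nat_lit 0) (nat_lit 4929062150) (nat_lit 1520) (nat_lit 3927032753) (nat_lit 1596) (nat_lit 65421180) (nat_lit 575) (nat_lit 5) (nat_lit 595) (nat_lit 5) (nat_lit 596) (nat_lit 5) (nat_lit 558) (nat_lit 554) (nat_lit 448)) (XT.lf (nat_lit 76) (nat_lit 620139704) (nat_lit 0) (nat_lit 5405111223) (nat_lit 1596) (nat_lit 2968081034) (nat_lit 576) (nat_lit 5) (nat_lit 575) (nat_lit 5) (nat_lit 596) (nat_lit 5) (nat_lit 559) (nat_lit 554) (nat_lit 447)))) (XT.nd (nat_lit 156) (nat_lit 1520) (nat_lit 0) (XT.nd (nat_lit 78) (nat_lit 0) (nat_lit 76) (XT.lf (nat_lit 76) (nat_lit 5297494078) (nat_lit 0) (nat_lit 1847896942)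 (nat_lit 1596) (nat_lit 1921153409) (nat_lit 576) (nat_lit 5) (nat_lit 575) (nat_lit 5) (nat_lit 596) (nat_lit 5) (nat_lit 560) (nat_lit 554) (nat_lit 446)) (XT.lf (nat_lit 76) (nat_lit 913330300) (nat_lit 0) (nat_lit 7368311308) (nat_lit 1596) (nat_lit 859706195) (nat_lit 577) (nat_lit 5) (nat_lit 576) (nat_lit 5) (nat_lit 597) (nat_lit 5) (nat_lit 561) (nat_lit 554) (nat_lit 445))) (XT.nd (nat_lit 78) (nat_lit 0) (nat_lit 0) (XT.lf (nat_lit 0) (nat_lit 234179540) (nat_lit 1596) (nat_lit 3505027996) (nat_lit 1672) (nat_lit 5478128855) (nat_lit 555) (nat_lit 5) (nat_lit 576) (nat_lit 5) (nat_lit 577) (nat_lit 5) (nat_lit 562) (nat_lit 554) (nat_lit 444)) (XT.lf (nat_lit 76) (nat_lit 1309706152) (nat_lit 0) (nat_lit 14137976) (nat_lit 1672) (nat_lit 7971179480) (nat_lit 556) (nat_lit 5) (nat_lit 555) (nat_lit 5) (nat_lit 577) (nat_lit 5) (nat_lit 563) (nat_lit 554) (nat_lit 443))))))) (XT.nd (nat_lit 1248) (nat_lit 10108) (nat_lit 0) (XT.nd (nat_lit 624)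 (nat_lit 1520) (nat_lit 0) (XT.nd (nat_lit 312) (nat_lit 1444) (nat_lit 0) (XT.nd (nat_lit 156) (nat_lit 0) (nat_lit 76) (XT.nd (nat_lit 78) (nat_lit 0) (nat_lit 0) (XT.lf (nat_lit 0) (nat_lit 2460871718) (nat_lit 1596) (nat_lit 3144897870) (nat_lit 1672) (nat_lit 3767984335) (nat_lit 556) (nat_lit 5) (nat_lit 577) (nat_lit 5) (nat_lit 578) (nat_lit 5) (nat_lit 564) (nat_lit 554) (nat_lit 442)) (XT.lf (nat_lit 76) (nat_lit 1801533556) (nat_lit 0) (nat_lit 1808657288) (nat_lit 1672) (nat_lit 5844077714) (nat_lit 557) (nat_lit 5) (nat_lit 556) (nat_lit 5) (nat_lit 578) (nat_lit 5) (nat_lit 565) (nat_lit 554) (nat_lit 441))) (XT.nd (nat_lit 78) (nat_lit 0) (nat_lit 0) (XT.lf (nat_lit 0) (nat_lit 4795297445) (nat_lit 1596) (nat_lit 2674715518) (nat_lit 1672) (nat_lit 2066125218) (nat_lit 557) (nat_lit 5) (nat_lit 578) (nat_lit 5) (nat_lit 579) (nat_lit 5) (nat_lit 566) (nat_lit 554) (nat_lit 440)) (XT.lf (nat_lit 76) (nat_lit 2408032541) (nat_lit 0) (nat_lit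 3602268371) (nat_lit 1672) (nat_lit 3609221095) (nat_lit 558) (nat_lit 5) (nat_lit 557) (nat_lit 5) (nat_lit 579) (nat_lit 5) (nat_lit 567) (nat_lit 554) (nat_lit 439)))) (XT.nd (nat_lit 156) (nat_lit 1596) (nat_lit 0) (XT.nd (nat_lit 78) (nat_lit 0) (nat_lit 0) (XT.lf (nat_lit 0) (nat_lit 7248850950) (nat_lit 1596) (nat_lit 2092674344) (nat_lit 1672) (nat_lit 363063976) (nat_lit 558) (nat_lit 5) (nat_lit 579) (nat_lit 5) (nat_lit 580) (nat_lit 5) (nat_lit 568) (nat_lit 554) (nat_lit 438)) (XT.lf (nat_lit 76) (nat_lit 3131210632) (nat_lit 0) (nat_lit 5404513019) (nat_lit 1672) (nat_lit 1255163872) (nat_lit 559) (nat_lit 5) (nat_lit 558) (nat_lit 5) (nat_lit 580) (nat_lit 5) (nat_lit 569) (nat_lit 554) (nat_lit 437))) (XT.nd (nat_lit 78) (nat_lit 1596) (nat_lit 0) (XT.lf (nat_lit 76) (nat_lit 8473518809) (nat_lit 0) (nat_lit 1368534590) (nat_lit 1672) (nat_lit 36984613) (nat_lit 559) (nat_lit 5) (nat_lit 558) (nat_lit 5) (nat_lit 580) (nat_lit 5) (nat_lit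 570) (nat_lit 554) (nat_lit 436)) (XT.lf (nat_lit 0) (nat_lit 1213657446) (nat_lit 1672) (nat_lit 6003046078) (nat_lit 1748) (nat_lit 2751613872) (nat_lit 537) (nat_lit 5) (nat_lit 559) (nat_lit 5) (nat_lit 560) (nat_lit 5) (nat_lit 571) (nat_lit 554) (nat_lit 435))))) (XT.nd (nat_lit 312) (nat_lit 1520) (nat_lit 0) (XT.nd (nat_lit 156) (nat_lit 0) (nat_lit 76) (XT.nd (nat_lit 78) (nat_lit 0) (nat_lit 76) (XT.lf (nat_lit 0) (nat_lit 2487653241) (nat_lit 1672) (nat_lit 620776461) (nat_lit 1748) (nat_lit 6950971680) (nat_lit 537) (nat_lit 5) (nat_lit 559) (nat_lit 5) (nat_lit 560) (nat_lit 5) (nat_lit 572) (nat_lit 554) (nat_lit 434)) (XT.lf (nat_lit 0) (nat_lit 3807000987) (nat_lit 1672) (nat_lit 5240122127) (nat_lit 1748) (nat_lit 1104787107) (nat_lit 538) (nat_lit 5) (nat_lit 560) (nat_lit 5) (nat_lit 561) (nat_lit 5) (nat_lit 573) (nat_lit 554) (nat_lit 433))) (XT.nd (nat_lit 78) (nat_lit 0) (nat_lit 0) (XT.lf (nat_lit 76) (nat_lit 285595302) (nat_lit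 0) (nat_lit 4874754943) (nat_lit 1748) (nat_lit 5085767301) (nat_lit 539) (nat_lit 5) (nat_lit 538) (nat_lit 5) (nat_lit 561) (nat_lit 5) (nat_lit 574) (nat_lit 554) (nat_lit 432)) (XT.lf (nat_lit 76) (nat_lit 5978185562) (nat_lit 0) (nat_lit 579003888) (nat_lit 1748) (nat_lit 3784691698) (nat_lit 539) (nat_lit 5) (nat_lit 538) (nat_lit 5) (nat_lit 561) (nat_lit 5) (nat_lit 575) (nat_lit 554) (nat_lit 431)))) (XT.nd (nat_lit 156) (nat_lit 1672) (nat_lit 0) (XT.nd (nat_lit 78) (nat_lit 0) (nat_lit 0) (XT.lf (nat_lit 76) (nat_lit 1322949928) (nat_lit 0) (nat_lit 6673946734) (nat_lit 1748) (nat_lit 2442365314) (nat_lit 540) (nat_lit 5) (nat_lit 539) (nat_lit 5) (nat_lit 562) (nat_lit 5) (nat_lit 576) (nat_lit 554) (nat_lit 430)) (XT.lf (nat_lit 76) (nat_lit 7163912208) (nat_lit 0) (nat_lit 2316494524) (nat_lit 1748) (nat_lit 1057884080) (nat_lit 540) (nat_lit 5) (nat_lit 539) (nat_lit 5) (nat_lit 562) (nat_lit 5) (nat_lit 577) (nat_lit 554) (nat_lit 429)))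 (XT.nd (nat_lit 78) (nat_lit 0) (nat_lit 0) (XT.lf (nat_lit 0) (nat_lit 361974391) (nat_lit 1748) (nat_lit 8155021576) (nat_lit 76) (nat_lit 2122012114) (nat_lit 517) (nat_lit 5) (nat_lit 540) (nat_lit 5) (nat_lit 518) (nat_lit 5) (nat_lit 578) (nat_lit 554) (nat_lit 428)) (XT.lf (nat_lit 0) (nat_lit 1816641845) (nat_lit 1748) (nat_lit 2273431686) (nat_lit 76) (nat_lit 6651115309) (nat_lit 517) (nat_lit 5) (nat_lit 540) (nat_lit 5) (nat_lit 518) (nat_lit 5) (nat_lit 579) (nat_lit 554) (nat_lit 427)))))) (XT.nd (nat_lit 624) (nat_lit 3496) (nat_lit 0) (XT.nd (nat_lit 312) (nat_lit 1900) (nat_lit 0) (XT.nd (nat_lit 156) (nat_lit 2964) (nat_lit 0) (XT.nd (nat_lit 78) (nat_lit 0) (nat_lit 0) (XT.lf (nat_lit 0) (nat_lit 3310532150) (nat_lit 1824) (nat_lit 7087716178) (nat_lit 76) (nat_lit 446962819) (nat_lit 494) (nat_lit 5) (nat_lit 518) (nat_lit 5) (nat_lit 495) (nat_lit 5) (nat_lit 580) (nat_lit 554) (nat_lit 426)) (XT.lf (nat_lit 0) (nat_lit 4859776639)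 (nat_lit 1824) (nat_lit 1053214527) (nat_lit 76) (nat_lit 5037813721) (nat_lit 494) (nat_lit 5) (nat_lit 518) (nat_lit 5) (nat_lit 495) (nat_lit 5) (nat_lit 581) (nat_lit 554) (nat_lit 425))) (XT.nd (nat_lit 78) (nat_lit 1140) (nat_lit 0) (XT.lf (nat_lit 0) (nat_lit 5155002356) (nat_lit 1824) (nat_lit 1301838887) (nat_lit 1900) (nat_lit 4601333056) (nat_lit 470) (nat_lit 5) (nat_lit 494) (nat_lit 5) (nat_lit 495) (nat_lit 5) (nat_lit 582) (nat_lit 554) (nat_lit 424)) (XT.lf (nat_lit 0) (nat_lit 301098946) (nat_lit 1140) (nat_lit 7799512653) (nat_lit 1216) (nat_lit 3066784705) (nat_lit 455) (nat_lit 5) (nat_lit 470) (nat_lit 5) (nat_lit 471) (nat_lit 5) (nat_lit 583) (nat_lit 554) (nat_lit 423)))) (XT.nd (nat_lit 156) (nat_lit 912) (nat_lit 0) (XT.nd (nat_lit 78) (nat_lit 988) (nat_lit 0) (XT.lf (nat_lit 0) (nat_lit 6686007225) (nat_lit 1140) (nat_lit 3123264052) (nat_lit 1216) (nat_lit 1468891678) (nat_lit 455) (nat_lit 5) (nat_lit 470) (nat_lit 5) (nat_lit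 471) (nat_lit 5) (nat_lit 584) (nat_lit 554) (nat_lit 422)) (XT.lf (nat_lit 0) (nat_lit 165467121) (nat_lit 988) (nat_lit 9586410777) (nat_lit 76) (nat_lit 1639114223) (nat_lit 442) (nat_lit 5) (nat_lit 455) (nat_lit 5) (nat_lit 443) (nat_lit 5) (nat_lit 585) (nat_lit 554) (nat_lit 421))) (XT.nd (nat_lit 78) (nat_lit 912) (nat_lit 0) (XT.lf (nat_lit 0) (nat_lit 1848839985) (nat_lit 988) (nat_lit 3159457268) (nat_lit 76) (nat_lit 6496866982) (nat_lit 442) (nat_lit 5) (nat_lit 455) (nat_lit 5) (nat_lit 443) (nat_lit 5) (nat_lit 586) (nat_lit 554) (nat_lit 420)) (XT.lf (nat_lit 0) (nat_lit 3426383688) (nat_lit 912) (nat_lit 146324576) (nat_lit 988) (nat_lit 8048775414) (nat_lit 430) (nat_lit 5) (nat_lit 442) (nat_lit 5) (nat_lit 443) (nat_lit 5) (nat_lit 587) (nat_lit 554) (nat_lit 419))))) (XT.nd (nat_lit 312) (nat_lit 1748) (nat_lit 0) (XT.nd (nat_lit 156) (nat_lit 912) (nat_lit 0) (XT.nd (nat_lit 78) (nat_lit 836) (nat_lit 0) (XT.lf (nat_lit 0) (nat_lit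 5368438874) (nat_lit 988) (nat_lit 1599128180) (nat_lit 76) (nat_lit 4771815194) (nat_lit 430) (nat_lit 5) (nat_lit 443) (nat_lit 5) (nat_lit 431) (nat_lit 5) (nat_lit 588) (nat_lit 554) (nat_lit 418)) (XT.lf (nat_lit 0) (nat_lit 5181234522) (nat_lit 836) (nat_lit 2038551247) (nat_lit 912) (nat_lit 4639459417) (nat_lit 419) (nat_lit 5) (nat_lit 430) (nat_lit 5) (nat_lit 431) (nat_lit 5) (nat_lit 589) (nat_lit 554) (nat_lit 417))) (XT.nd (nat_lit 78) (nat_lit 0) (nat_lit 0) (XT.lf (nat_lit 0) (nat_lit 104773168) (nat_lit 912) (nat_lit 9019568829) (nat_lit 988) (nat_lit 2856840158) (nat_lit 407) (nat_lit 5) (nat_lit 419) (nat_lit 5) (nat_lit 420) (nat_lit 5) (nat_lit 590) (nat_lit 554) (nat_lit 416)) (XT.lf (nat_lit 0) (nat_lit 7085438574) (nat_lit 912) (nat_lit 4025261949) (nat_lit 988) (nat_lit 993983530) (nat_lit 407) (nat_lit 5) (nat_lit 419) (nat_lit 5) (nat_lit 420) (nat_lit 5) (nat_lit 591) (nat_lit 554) (nat_lit 415)))) (XT.nd (nat_lit 156) (nat_lit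 836) (nat_lit 0) (XT.nd (nat_lit 78) (nat_lit 0) (nat_lit 0) (XT.lf (nat_lit 0) (nat_lit 899845440) (nat_lit 912) (nat_lit 10256997275) (nat_lit 76) (nat_lit 1073584021) (nat_lit 395) (nat_lit 5) (nat_lit 407) (nat_lit 5) (nat_lit 396) (nat_lit 5) (nat_lit 592) (nat_lit 554) (nat_lit 414)) (XT.lf (nat_lit 0) (nat_lit 2864678142) (nat_lit 912) (nat_lit 3232185033) (nat_lit 76) (nat_lit 6260761351) (nat_lit 395) (nat_lit 5) (nat_lit 407) (nat_lit 5) (nat_lit 396) (nat_lit 5) (nat_lit 593) (nat_lit 554) (nat_lit 413))) (XT.nd (nat_lit 78) (nat_lit 0) (nat_lit 0) (XT.lf (nat_lit 0) (nat_lit 3970782950) (nat_lit 836) (nat_lit 909944668) (nat_lit 912) (nat_lit 7606400632) (nat_lit 384) (nat_lit 5) (nat_lit 395) (nat_lit 5) (nat_lit 396) (nat_lit 5) (nat_lit 594) (nat_lit 554) (nat_lit 412)) (XT.lf (nat_lit 0) (nat_lit 6973687664) (nat_lit 912) (nat_lit 1300344006) (nat_lit 76) (nat_lit 4344458961) (nat_lit 384) (nat_lit 5) (nat_lit 396) (nat_lit 5) (nat_lit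 385) (nat_lit 5) (nat_lit 595) (nat_lit 554) (nat_lit 411))))))))
noncomputable def xc128 : XT := (XT.nd (nat_lit 2418) (nat_lit 8284) (nat_lit 0) (XT.nd (nat_lit 1170) (nat_lit 5700) (nat_lit 0) (XT.nd (nat_lit 546) (nat_lit 3496) (nat_lit 0) (XT.nd (nat_lit 234) (nat_lit 1520) (nat_lit 0) (XT.nd (nat_lit 78) (nat_lit 836) (nat_lit 0) (XT.lf (nat_lit 0) (nat_lit 6119907990) (nat_lit 760) (nat_lit 3020941691) (nat_lit 836) (nat_lit 3610984090) (nat_lit 374) (nat_lit 5) (nat_lit 384) (nat_lit 5) (nat_lit 385) (nat_lit 5) (nat_lit 596) (nat_lit 554) (nat_lit 410)) (XT.nd (nat_lit 78) (nat_lit 76) (nat_lit 0) (XT.lf (nat_lit 0) (nat_lit 799300946) (nat_lit 760) (nat_lit 10567948772) (nat_lit 836) (nat_lit 1520276518) (nat_lit 364) (nat_lit 5) (nat_lit 374) (nat_lit 5) (nat_lit 375) (nat_lit 5) (nat_lit 597) (nat_lit 554) (nat_lit 409)) (XT.lf (nat_lit 0) (nat_lit 655846376) (nat_lit 836) (nat_lit 4594820844) (nat_lit 76) (nat_lit 7774153557) (nat_lit 363)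 (nat_lit 5) (nat_lit 374) (nat_lit 5) (nat_lit 364) (nat_lit 5) (nat_lit 598) (nat_lit 554) (nat_lit 408)))) (XT.nd (nat_lit 156) (nat_lit 760) (nat_lit 0) (XT.nd (nat_lit 78) (nat_lit 0) (nat_lit 0) (XT.lf (nat_lit 0) (nat_lit 2863446905) (nat_lit 836) (nat_lit 10101527338) (nat_lit 76) (nat_lit 199520090) (nat_lit 353) (nat_lit 5) (nat_lit 364) (nat_lit 5) (nat_lit 354) (nat_lit 5) (nat_lit 599) (nat_lit 554) (nat_lit 407)) (XT.lf (nat_lit 0) (nat_lit 5168246466) (nat_lit 836) (nat_lit 2419545938) (nat_lit 76) (nat_lit 5718108349) (nat_lit 353) (nat_lit 5) (nat_lit 364) (nat_lit 5) (nat_lit 354) (nat_lit 5) (nat_lit 600) (nat_lit 554) (nat_lit 406))) (XT.nd (nat_lit 78) (nat_lit 0) (nat_lit 0) (XT.lf (nat_lit 0) (nat_lit 5473727715) (nat_lit 760) (nat_lit 2068440164) (nat_lit 836) (nat_lit 5907507229) (nat_lit 343) (nat_lit 5) (nat_lit 353) (nat_lit 5) (nat_lit 354) (nat_lit 5) (nat_lit 601) (nat_lit 554) (nat_lit 405)) (XT.lf (nat_lit 0) (nat_lit 9990664025)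 (nat_lit 836) (nat_lit 75845500) (nat_lit 76) (nat_lit 3529273819) (nat_lit 343) (nat_lit 5) (nat_lit 354) (nat_lit 5) (nat_lit 344) (nat_lit 5) (nat_lit 602) (nat_lit 554) (nat_lit 404))))) (XT.nd (nat_lit 312) (nat_lit 1368) (nat_lit 0) (XT.nd (nat_lit 156) (nat_lit 684) (nat_lit 0) (XT.nd (nat_lit 78) (nat_lit 760) (nat_lit 0) (XT.lf (nat_lit 0) (nat_lit 8060272209) (nat_lit 684) (nat_lit 4481761379) (nat_lit 760) (nat_lit 1201702398) (nat_lit 334) (nat_lit 5) (nat_lit 343) (nat_lit 5) (nat_lit 344) (nat_lit 5) (nat_lit 603) (nat_lit 554) (nat_lit 403)) (XT.lf (nat_lit 0) (nat_lit 1245956018) (nat_lit 760) (nat_lit 11426645057) (nat_lit 76) (nat_lit 1221633333) (nat_lit 324) (nat_lit 5) (nat_lit 334) (nat_lit 5) (nat_lit 325) (nat_lit 5) (nat_lit 604) (nat_lit 554) (nat_lit 402))) (XT.nd (nat_lit 78) (nat_lit 684) (nat_lit 0) (XT.lf (nat_lit 0) (nat_lit 3782636770) (nat_lit 760) (nat_lit 3240367990) (nat_lit 76) (nat_lit 7023456270) (nat_lit 324) (nat_lit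 5) (nat_lit 334) (nat_lit 5) (nat_lit 325) (nat_lit 5) (nat_lit 605) (nat_lit 554) (nat_lit 401)) (XT.lf (nat_lit 0) (nat_lit 5163431447) (nat_lit 684) (nat_lit 1228450750) (nat_lit 760) (nat_lit 7809413654) (nat_lit 315) (nat_lit 5) (nat_lit 324) (nat_lit 5) (nat_lit 325) (nat_lit 5) (nat_lit 606) (nat_lit 554) (nat_lit 400)))) (XT.nd (nat_lit 156) (nat_lit 684) (nat_lit 0) (XT.nd (nat_lit 78) (nat_lit 684) (nat_lit 0) (XT.lf (nat_lit 0) (nat_lit 9094031062) (nat_lit 760) (nat_lit 624151665) (nat_lit 76) (nat_lit 4640230554) (nat_lit 315) (nat_lit 5) (nat_lit 325) (nat_lit 5) (nat_lit 316) (nat_lit 5) (nat_lit 607) (nat_lit 554) (nat_lit 399)) (XT.lf (nat_lit 0) (nat_lit 8041392153) (nat_lit 684) (nat_lit 3857834411) (nat_lit 760) (nat_lit 2618466702) (nat_lit 306) (nat_lit 5) (nat_lit 315) (nat_lit 5) (nat_lit 316) (nat_lit 5) (nat_lit 608) (nat_lit 554) (nat_lit 398))) (XT.nd (nat_lit 78) (nat_lit 0) (nat_lit 0) (XT.lf (nat_lit 0) (nat_lit 100555385)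 (nat_lit 684) (nat_lit 12470462792) (nat_lit 76) (nat_lit 2108705657) (nat_lit 297) (nat_lit 5) (nat_lit 306) (nat_lit 5) (nat_lit 298) (nat_lit 5) (nat_lit 609) (nat_lit 554) (nat_lit 397)) (XT.lf (nat_lit 0) (nat_lit 2897057632) (nat_lit 684) (nat_lit 3744927751) (nat_lit 76) (nat_lit 8201500512) (nat_lit 297) (nat_lit 5) (nat_lit 306) (nat_lit 5) (nat_lit 298) (nat_lit 5) (nat_lit 610) (nat_lit 554) (nat_lit 396)))))) (XT.nd (nat_lit 624) (nat_lit 2660) (nat_lit 0) (XT.nd (nat_lit 312) (nat_lit 1216) (nat_lit 0) (XT.nd (nat_lit 156) (nat_lit 1216) (nat_lit 0) (XT.nd (nat_lit 78) (nat_lit 0) (nat_lit 0) (XT.lf (nat_lit 0) (nat_lit 5209771441) (nat_lit 608) (nat_lit 562595185) (nat_lit 684) (nat_lit 9237699294) (nat_lit 289) (nat_lit 5) (nat_lit 297) (nat_lit 5) (nat_lit 298) (nat_lit 5) (nat_lit 611) (nat_lit 554) (nat_lit 395)) (XT.lf (nat_lit 0) (nat_lit 8756246750) (nat_lit 684) (nat_lit 835703829) (nat_lit 76) (nat_lit 5587005919) (nat_lit 289) (nat_lit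 5) (nat_lit 298) (nat_lit 5) (nat_lit 290) (nat_lit 5) (nat_lit 612) (nat_lit 554) (nat_lit 394))) (XT.nd (nat_lit 78) (nat_lit 608) (nat_lit 0) (XT.lf (nat_lit 0) (nat_lit 8401122876) (nat_lit 608) (nat_lit 3446325573) (nat_lit 684) (nat_lit 3502823805) (nat_lit 281) (nat_lit 5) (nat_lit 289) (nat_lit 5) (nat_lit 290) (nat_lit 5) (nat_lit 613) (nat_lit 554) (nat_lit 393)) (XT.lf (nat_lit 0) (nat_lit 2307398540) (nat_lit 608) (nat_lit 12721500433) (nat_lit 684) (nat_lit 495547099) (nat_lit 273) (nat_lit 5) (nat_lit 281) (nat_lit 5) (nat_lit 282) (nat_lit 5) (nat_lit 614) (nat_lit 554) (nat_lit 392)))) (XT.nd (nat_lit 156) (nat_lit 608) (nat_lit 0) (XT.nd (nat_lit 78) (nat_lit 532) (nat_lit 0) (XT.lf (nat_lit 0) (nat_lit 2597433372) (nat_lit 684) (nat_lit 3911390853) (nat_lit 76) (nat_lit 9191759630) (nat_lit 272) (nat_lit 5) (nat_lit 281) (nat_lit 5) (nat_lit 273) (nat_lit 5) (nat_lit 615) (nat_lit 554) (nat_lit 391)) (XT.lf (nat_lit 0) (nat_lit 5637639165)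 (nat_lit 532) (nat_lit 134338030) (nat_lit 608) (nat_lit 10107675132) (nat_lit 265) (nat_lit 5) (nat_lit 272) (nat_lit 5) (nat_lit 273) (nat_lit 5) (nat_lit 616) (nat_lit 554) (nat_lit 390))) (XT.nd (nat_lit 78) (nat_lit 608) (nat_lit 0) (XT.lf (nat_lit 0) (nat_lit 9067600263) (nat_lit 608) (nat_lit 686115657) (nat_lit 76) (nat_lit 6307434706) (nat_lit 265) (nat_lit 5) (nat_lit 273) (nat_lit 5) (nat_lit 266) (nat_lit 5) (nat_lit 617) (nat_lit 554) (nat_lit 389)) (XT.lf (nat_lit 0) (nat_lit 9167010268) (nat_lit 608) (nat_lit 3312557139) (nat_lit 684) (nat_lit 3765703070) (nat_lit 257) (nat_lit 5) (nat_lit 265) (nat_lit 5) (nat_lit 266) (nat_lit 5) (nat_lit 618) (nat_lit 554) (nat_lit 388))))) (XT.nd (nat_lit 312) (nat_lit 1520) (nat_lit 0) (XT.nd (nat_lit 156) (nat_lit 532) (nat_lit 0) (XT.nd (nat_lit 78) (nat_lit 76) (nat_lit 0) (XT.lf (nat_lit 0) (nat_lit 2795688528) (nat_lit 532) (nat_lit 13198133577) (nat_lit 608) (nat_lit 438569871) (nat_lit 250) (nat_lit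 5) (nat_lit 257) (nat_lit 5) (nat_lit 258) (nat_lit 5) (nat_lit 619) (nat_lit 554) (nat_lit 387)) (XT.lf (nat_lit 0) (nat_lit 2976255828) (nat_lit 608) (nat_lit 3714040091) (nat_lit 76) (nat_lit 9931378330) (nat_lit 249) (nat_lit 5) (nat_lit 257) (nat_lit 5) (nat_lit 250) (nat_lit 5) (nat_lit 620) (nat_lit 554) (nat_lit 386))) (XT.nd (nat_lit 78) (nat_lit 0) (nat_lit 0) (XT.lf (nat_lit 0) (nat_lit 6476008515) (nat_lit 532) (nat_lit 9897838) (nat_lit 608) (nat_lit 10328130022) (nat_lit 242) (nat_lit 5) (nat_lit 249) (nat_lit 5) (nat_lit 250) (nat_lit 5) (nat_lit 621) (nat_lit 554) (nat_lit 385)) (XT.lf (nat_lit 0) (nat_lit 10125445886) (nat_lit 608) (nat_lit 147066296) (nat_lit 76) (nat_lit 6736539842) (nat_lit 242) (nat_lit 5) (nat_lit 250) (nat_lit 5) (nat_lit 243) (nat_lit 5) (nat_lit 622) (nat_lit 554) (nat_lit 384)))) (XT.nd (nat_lit 156) (nat_lit 456) (nat_lit 0) (XT.nd (nat_lit 78) (nat_lit 608) (nat_lit 0) (XT.lf (nat_lit 0) (nat_lit 10370741462)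 (nat_lit 456) (nat_lit 3525052650) (nat_lit 532) (nat_lit 3311013708) (nat_lit 236) (nat_lit 5) (nat_lit 242) (nat_lit 5) (nat_lit 243) (nat_lit 5) (nat_lit 623) (nat_lit 554) (nat_lit 383)) (XT.lf (nat_lit 0) (nat_lit 366462189) (nat_lit 608) (nat_lit 13703975472) (nat_lit 76) (nat_lit 3337282026) (nat_lit 228) (nat_lit 5) (nat_lit 236) (nat_lit 5) (nat_lit 229) (nat_lit 5) (nat_lit 624) (nat_lit 554) (nat_lit 382))) (XT.nd (nat_lit 78) (nat_lit 456) (nat_lit 0) (XT.lf (nat_lit 0) (nat_lit 4133450272) (nat_lit 608) (nat_lit 3123329545) (nat_lit 76) (nat_lit 10354226498) (nat_lit 228) (nat_lit 5) (nat_lit 236) (nat_lit 5) (nat_lit 229) (nat_lit 5) (nat_lit 625) (nat_lit 554) (nat_lit 381)) (XT.lf (nat_lit 0) (nat_lit 7757893959) (nat_lit 456) (nat_lit 259168823) (nat_lit 532) (nat_lit 9800470382) (nat_lit 222) (nat_lit 5) (nat_lit 228) (nat_lit 5) (nat_lit 229) (nat_lit 5) (nat_lit 626) (nat_lit 554) (nat_lit 380))))))) (XT.nd (nat_lit 1404) (nat_lit 3496)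 (nat_lit 0) (XT.nd (nat_lit 546) (nat_lit 2888) (nat_lit 0) (XT.nd (nat_lit 234) (nat_lit 912) (nat_lit 0) (XT.nd (nat_lit 78) (nat_lit 532) (nat_lit 0) (XT.lf (nat_lit 0) (nat_lit 824469989) (nat_lit 456) (nat_lit 11215974533) (nat_lit 532) (nat_lit 5986504263) (nat_lit 216) (nat_lit 5) (nat_lit 222) (nat_lit 5) (nat_lit 223) (nat_lit 5) (nat_lit 627) (nat_lit 554) (nat_lit 379)) (XT.nd (nat_lit 78) (nat_lit 532) (nat_lit 0) (XT.lf (nat_lit 0) (nat_lit 12048114521) (nat_lit 456) (nat_lit 4156470618) (nat_lit 532) (nat_lit 2034761927) (nat_lit 216) (nat_lit 5) (nat_lit 222) (nat_lit 5) (nat_lit 223) (nat_lit 5) (nat_lit 628) (nat_lit 554) (nat_lit 378)) (XT.lf (nat_lit 0) (nat_lit 2014070293) (nat_lit 532) (nat_lit 13394009432) (nat_lit 76) (nat_lit 3046769903) (nat_lit 209) (nat_lit 5) (nat_lit 216) (nat_lit 5) (nat_lit 210) (nat_lit 5) (nat_lit 629) (nat_lit 554) (nat_lit 377)))) (XT.nd (nat_lit 156) (nat_lit 456) (nat_lit 0) (XT.nd (nat_lit 78) (nat_lit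 456) (nat_lit 0) (XT.lf (nat_lit 0) (nat_lit 6177270714) (nat_lit 532) (nat_lit 2105931658) (nat_lit 76) (nat_lit 10389978295) (nat_lit 209) (nat_lit 5) (nat_lit 216) (nat_lit 5) (nat_lit 210) (nat_lit 5) (nat_lit 630) (nat_lit 554) (nat_lit 376)) (XT.lf (nat_lit 0) (nat_lit 9520315531) (nat_lit 456) (nat_lit 956666799) (nat_lit 532) (nat_lit 8417831214) (nat_lit 203) (nat_lit 5) (nat_lit 209) (nat_lit 5) (nat_lit 210) (nat_lit 5) (nat_lit 631) (nat_lit 554) (nat_lit 375))) (XT.nd (nat_lit 78) (nat_lit 76) (nat_lit 0) (XT.lf (nat_lit 0) (nat_lit 2261783717) (nat_lit 380) (nat_lit 12663621074) (nat_lit 456) (nat_lit 4194220111) (nat_lit 198) (nat_lit 5) (nat_lit 203) (nat_lit 5) (nat_lit 204) (nat_lit 5) (nat_lit 632) (nat_lit 554) (nat_lit 374)) (XT.lf (nat_lit 0) (nat_lit 173557273) (nat_lit 456) (nat_lit 5109846584) (nat_lit 76) (nat_lit 14064290246) (nat_lit 197) (nat_lit 5) (nat_lit 203) (nat_lit 5) (nat_lit 198) (nat_lit 5) (nat_lit 633) (nat_lit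 554) (nat_lit 373))))) (XT.nd (nat_lit 312) (nat_lit 1672) (nat_lit 0) (XT.nd (nat_lit 156) (nat_lit 760) (nat_lit 0) (XT.nd (nat_lit 78) (nat_lit 0) (nat_lit 0) (XT.lf (nat_lit 0) (nat_lit 4624257794) (nat_lit 532) (nat_lit 12670225026) (nat_lit 76) (nat_lit 2284252977) (nat_lit 191) (nat_lit 5) (nat_lit 198) (nat_lit 5) (nat_lit 192) (nat_lit 5) (nat_lit 634) (nat_lit 554) (nat_lit 372)) (XT.lf (nat_lit 0) (nat_lit 9225229753) (nat_lit 532) (nat_lit 624785898) (nat_lit 76) (nat_lit 9963157669) (nat_lit 191) (nat_lit 5) (nat_lit 198) (nat_lit 5) (nat_lit 192) (nat_lit 5) (nat_lit 635) (nat_lit 554) (nat_lit 371))) (XT.nd (nat_lit 78) (nat_lit 380) (nat_lit 0) (XT.lf (nat_lit 0) (nat_lit 11804261889) (nat_lit 380) (nat_lit 2182513257) (nat_lit 456) (nat_lit 6064153509) (nat_lit 186) (nat_lit 5) (nat_lit 191) (nat_lit 5) (nat_lit 192) (nat_lit 5) (nat_lit 636) (nat_lit 554) (nat_lit 370)) (XT.lf (nat_lit 0) (nat_lit 4203326757) (nat_lit 380) (nat_lit 14700310890)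 (nat_lit 456) (nat_lit 1388599865) (nat_lit 181) (nat_lit 5) (nat_lit 186) (nat_lit 5) (nat_lit 187) (nat_lit 5) (nat_lit 637) (nat_lit 554) (nat_lit 369)))) (XT.nd (nat_lit 156) (nat_lit 1216) (nat_lit 0) (XT.nd (nat_lit 78) (nat_lit 380) (nat_lit 0) (XT.lf (nat_lit 0) (nat_lit 3398282511) (nat_lit 456) (nat_lit 3572124329) (nat_lit 76) (nat_lit 13566283814) (nat_lit 180) (nat_lit 5) (nat_lit 186) (nat_lit 5) (nat_lit 181) (nat_lit 5) (nat_lit 638) (nat_lit 554) (nat_lit 368)) (XT.lf (nat_lit 0) (nat_lit 8321200016) (nat_lit 456) (nat_lit 11495407338) (nat_lit 76) (nat_lit 968064246) (nat_lit 175) (nat_lit 5) (nat_lit 181) (nat_lit 5) (nat_lit 176) (nat_lit 5) (nat_lit 639) (nat_lit 554) (nat_lit 367))) (XT.nd (nat_lit 312) (nat_lit 836) (nat_lit 0) (XT.lf (nat_lit 0) (nat_lit 1378926293) (nat_lit 380) (nat_lit 12035094202) (nat_lit 456) (nat_lit 7622162906) (nat_lit 170) (nat_lit 5) (nat_lit 175) (nat_lit 5) (nat_lit 176) (nat_lit 5) (nat_lit 640) (nat_lit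 554) (nat_lit 366)) (XT.lf (nat_lit 0) (nat_lit 12242776481) (nat_lit 380) (nat_lit 1003728347) (nat_lit 456) (nat_lit 8831740778) (nat_lit 159) (nat_lit 5) (nat_lit 164) (nat_lit 5) (nat_lit 165) (nat_lit 5) (nat_lit 644) (nat_lit 554) (nat_lit 362)))))) (XT.nd (nat_lit 624) (nat_lit 1672) (nat_lit 0) (XT.nd (nat_lit 312) (nat_lit 760) (nat_lit 0) (XT.nd (nat_lit 156) (nat_lit 684) (nat_lit 0) (XT.nd (nat_lit 78) (nat_lit 76) (nat_lit 0) (XT.lf (nat_lit 0) (nat_lit 3947041628) (nat_lit 304) (nat_lit 14934349428) (nat_lit 380) (nat_lit 3466654557) (nat_lit 155) (nat_lit 5) (nat_lit 159) (nat_lit 5) (nat_lit 160) (nat_lit 5) (nat_lit 645) (nat_lit 554) (nat_lit 361)) (XT.lf (nat_lit 0) (nat_lit 2045150076) (nat_lit 380) (nat_lit 4515178474) (nat_lit 76) (nat_lit 16061338285) (nat_lit 154) (nat_lit 5) (nat_lit 159) (nat_lit 5) (nat_lit 155) (nat_lit 5) (nat_lit 646) (nat_lit 554) (nat_lit 360))) (XT.nd (nat_lit 78) (nat_lit 304) (nat_lit 0) (XT.lf (nat_lit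 0) (nat_lit 7690253123) (nat_lit 456) (nat_lit 13170863407) (nat_lit 76) (nat_lit 2037796152) (nat_lit 149) (nat_lit 5) (nat_lit 155) (nat_lit 5) (nat_lit 150) (nat_lit 5) (nat_lit 647) (nat_lit 554) (nat_lit 359)) (XT.lf (nat_lit 0) (nat_lit 1095482968) (nat_lit 304) (nat_lit 12426655098) (nat_lit 380) (nat_lit 9658087887) (nat_lit 145) (nat_lit 5) (nat_lit 149) (nat_lit 5) (nat_lit 150) (nat_lit 5) (nat_lit 648) (nat_lit 554) (nat_lit 358)))) (XT.nd (nat_lit 156) (nat_lit 304) (nat_lit 0) (XT.nd (nat_lit 78) (nat_lit 456) (nat_lit 0) (XT.lf (nat_lit 0) (nat_lit 15814279860) (nat_lit 304) (nat_lit 3737652410) (nat_lit 380) (nat_lit 3913607891) (nat_lit 145) (nat_lit 5) (nat_lit 149) (nat_lit 5) (nat_lit 150) (nat_lit 5) (nat_lit 649) (nat_lit 554) (nat_lit 357)) (XT.lf (nat_lit 0) (nat_lit 1993224468) (nat_lit 456) (nat_lit 16648531067) (nat_lit 76) (nat_lit 5113092919) (nat_lit 139) (nat_lit 5) (nat_lit 145) (nat_lit 5) (nat_lit 140) (nat_lit 5) (nat_lit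 650) (nat_lit 554) (nat_lit 356))) (XT.nd (nat_lit 78) (nat_lit 304) (nat_lit 0) (XT.lf (nat_lit 0) (nat_lit 8035294487) (nat_lit 456) (nat_lit 1848483090) (nat_lit 76) (nat_lit 14164257969) (nat_lit 139) (nat_lit 5) (nat_lit 145) (nat_lit 5) (nat_lit 140) (nat_lit 5) (nat_lit 651) (nat_lit 554) (nat_lit 355)) (XT.lf (nat_lit 0) (nat_lit 13412375573) (nat_lit 304) (nat_lit 866067825) (nat_lit 380) (nat_lit 10067038327) (nat_lit 135) (nat_lit 5) (nat_lit 139) (nat_lit 5) (nat_lit 140) (nat_lit 5) (nat_lit 652) (nat_lit 554) (nat_lit 354))))) (XT.nd (nat_lit 312) (nat_lit 684) (nat_lit 0) (XT.nd (nat_lit 156) (nat_lit 608) (nat_lit 0) (XT.nd (nat_lit 78) (nat_lit 76) (nat_lit 0) (XT.lf (nat_lit 0) (nat_lit 4346575279) (nat_lit 304) (nat_lit 16387874702) (nat_lit 380) (nat_lit 3912667047) (nat_lit 131) (nat_lit 5) (nat_lit 135) (nat_lit 5) (nat_lit 136) (nat_lit 5) (nat_lit 653) (nat_lit 554) (nat_lit 353)) (XT.lf (nat_lit 0) (nat_lit 2406572810) (nat_lit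 380) (nat_lit 4905989759) (nat_lit 76) (nat_lit 17640459566) (nat_lit 130) (nat_lit 5) (nat_lit 135) (nat_lit 5) (nat_lit 131) (nat_lit 5) (nat_lit 654) (nat_lit 554) (nat_lit 352))) (XT.nd (nat_lit 78) (nat_lit 304) (nat_lit 0) (XT.lf (nat_lit 0) (nat_lit 8877219493) (nat_lit 380) (nat_lit 14373879278) (nat_lit 76) (nat_lit 2011881153) (nat_lit 126) (nat_lit 5) (nat_lit 131) (nat_lit 5) (nat_lit 127) (nat_lit 5) (nat_lit 655) (nat_lit 554) (nat_lit 351)) (XT.lf (nat_lit 0) (nat_lit 1447492710) (nat_lit 304) (nat_lit 14114124964) (nat_lit 380) (nat_lit 10015832509) (nat_lit 122) (nat_lit 5) (nat_lit 126) (nat_lit 5) (nat_lit 127) (nat_lit 5) (nat_lit 656) (nat_lit 554) (nat_lit 350)))) (XT.nd (nat_lit 156) (nat_lit 304) (nat_lit 0) (XT.nd (nat_lit 78) (nat_lit 380) (nat_lit 0) (XT.lf (nat_lit 0) (nat_lit 17769243741) (nat_lit 304) (nat_lit 4700348724) (nat_lit 380) (nat_lit 3426819696) (nat_lit 122) (nat_lit 5) (nat_lit 126) (nat_lit 5) (nat_lit 127) (nat_lit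 5) (nat_lit 657) (nat_lit 554) (nat_lit 349)) (XT.lf (nat_lit 0) (nat_lit 3330292760) (nat_lit 380) (nat_lit 17980659903) (nat_lit 76) (nat_lit 4908782654) (nat_lit 117) (nat_lit 5) (nat_lit 122) (nat_lit 5) (nat_lit 118) (nat_lit 5) (nat_lit 658) (nat_lit 554) (nat_lit 348))) (XT.nd (nat_lit 78) (nat_lit 304) (nat_lit 0) (XT.lf (nat_lit 0) (nat_lit 10256280496) (nat_lit 380) (nat_lit 1570600474) (nat_lit 76) (nat_lit 14720598657) (nat_lit 117) (nat_lit 5) (nat_lit 122) (nat_lit 5) (nat_lit 118) (nat_lit 5) (nat_lit 659) (nat_lit 554) (nat_lit 347)) (XT.lf (nat_lit 0) (nat_lit 15358508527) (nat_lit 304) (nat_lit 2055671950) (nat_lit 380) (nat_lit 9465730575) (nat_lit 113) (nat_lit 5) (nat_lit 117) (nat_lit 5) (nat_lit 118) (nat_lit 5) (nat_lit 660) (nat_lit 554) (nat_lit 346))))))))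
noncomputable def xc129 : XT := (XT.nd (nat_lit 74256) (nat_lit 0) (nat_lit 19988) (XT.nd (nat_lit 73008) (nat_lit 0) (nat_lit 34656) (XT.nd (nat_lit 546) (nat_lit 1292) (nat_lit 0) (XT.nd (nat_lit 234) (nat_lit 608) (nat_lit 0) (XT.nd (nat_lit 78) (nat_lit 380) (nat_lit 0) (XT.lf (nat_lit 0) (nat_lit 5437986945) (nat_lit 228) (nat_lit 19368234190) (nat_lit 304) (nat_lit 2410950394) (nat_lit 110) (nat_lit 5) (nat_lit 113) (nat_lit 5) (nat_lit 114) (nat_lit 5) (nat_lit 661) (nat_lit 554) (nat_lit 345)) (XT.nd (nat_lit 78) (nat_lit 304) (nat_lit 0) (XT.lf (nat_lit 0) (nat_lit 4807327369) (nat_lit 304) (nat_lit 4722707021) (nat_lit 76) (nat_lit 18028818418) (nat_lit 109) (nat_lit 5) (nat_lit 113) (nat_lit 5) (nat_lit 110) (nat_lit 5) (nat_lit 662) (nat_lit 554) (nat_lit 344)) (XT.lf (nat_lit 0) (nat_lit 12218679638) (nat_lit 380) (nat_lit 15092804221) (nat_lit 76) (nat_lit 593945366) (nat_lit 105) (nat_lit 5) (nat_lit 110) (nat_lit 5) (nat_lit 106) (nat_lit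 5) (nat_lit 663) (nat_lit 554) (nat_lit 343)))) (XT.nd (nat_lit 156) (nat_lit 380) (nat_lit 0) (XT.nd (nat_lit 78) (nat_lit 0) (nat_lit 0) (XT.lf (nat_lit 0) (nat_lit 2462915613) (nat_lit 228) (nat_lit 17420214765) (nat_lit 304) (nat_lit 8373709435) (nat_lit 102) (nat_lit 5) (nat_lit 105) (nat_lit 5) (nat_lit 106) (nat_lit 5) (nat_lit 664) (nat_lit 554) (nat_lit 342)) (XT.lf (nat_lit 0) (nat_lit 20563964320) (nat_lit 228) (nat_lit 7232105409) (nat_lit 304) (nat_lit 817304962) (nat_lit 102) (nat_lit 5) (nat_lit 105) (nat_lit 5) (nat_lit 106) (nat_lit 5) (nat_lit 665) (nat_lit 554) (nat_lit 341))) (XT.nd (nat_lit 78) (nat_lit 0) (nat_lit 0) (XT.lf (nat_lit 0) (nat_lit 6880835744) (nat_lit 380) (nat_lit 18868332653) (nat_lit 76) (nat_lit 3225357722) (nat_lit 97) (nat_lit 5) (nat_lit 102) (nat_lit 5) (nat_lit 98) (nat_lit 5) (nat_lit 666) (nat_lit 554) (nat_lit 340)) (XT.lf (nat_lit 0) (nat_lit 14818296735) (nat_lit 380) (nat_lit 671737136) (nat_lit 76) (nat_lit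 13850832700) (nat_lit 97) (nat_lit 5) (nat_lit 102) (nat_lit 5) (nat_lit 98) (nat_lit 5) (nat_lit 667) (nat_lit 554) (nat_lit 339))))) (XT.nd (nat_lit 312) (nat_lit 532) (nat_lit 0) (XT.nd (nat_lit 156) (nat_lit 228) (nat_lit 0) (XT.nd (nat_lit 78) (nat_lit 304) (nat_lit 0) (XT.lf (nat_lit 0) (nat_lit 18116317427) (nat_lit 228) (nat_lit 4909952586) (nat_lit 304) (nat_lit 6686028621) (nat_lit 94) (nat_lit 5) (nat_lit 97) (nat_lit 5) (nat_lit 98) (nat_lit 5) (nat_lit 668) (nat_lit 554) (nat_lit 338)) (XT.lf (nat_lit 0) (nat_lit 1374581242) (nat_lit 304) (nat_lit 22853649196) (nat_lit 76) (nat_lit 5861069561) (nat_lit 90) (nat_lit 5) (nat_lit 94) (nat_lit 5) (nat_lit 91) (nat_lit 5) (nat_lit 669) (nat_lit 554) (nat_lit 337))) (XT.nd (nat_lit 78) (nat_lit 228) (nat_lit 0) (XT.lf (nat_lit 0) (nat_lit 9611981357) (nat_lit 304) (nat_lit 3958598438) (nat_lit 76) (nat_lit 16900275685) (nat_lit 90) (nat_lit 5) (nat_lit 94) (nat_lit 5) (nat_lit 91) (nat_lit 5) (nat_lit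 670) (nat_lit 554) (nat_lit 336)) (XT.lf (nat_lit 0) (nat_lit 15507834040) (nat_lit 228) (nat_lit 2601270402) (nat_lit 304) (nat_lit 12749038188) (nat_lit 87) (nat_lit 5) (nat_lit 90) (nat_lit 5) (nat_lit 91) (nat_lit 5) (nat_lit 671) (nat_lit 554) (nat_lit 335)))) (XT.nd (nat_lit 156) (nat_lit 228) (nat_lit 0) (XT.nd (nat_lit 78) (nat_lit 76) (nat_lit 0) (XT.lf (nat_lit 0) (nat_lit 4153221478) (nat_lit 228) (nat_lit 22726718240) (nat_lit 304) (nat_lit 4371160469) (nat_lit 84) (nat_lit 5) (nat_lit 87) (nat_lit 5) (nat_lit 88) (nat_lit 5) (nat_lit 672) (nat_lit 554) (nat_lit 334)) (XT.lf (nat_lit 0) (nat_lit 4234765143) (nat_lit 304) (nat_lit 7449906990) (nat_lit 76) (nat_lit 19964398040) (nat_lit 83) (nat_lit 5) (nat_lit 87) (nat_lit 5) (nat_lit 84) (nat_lit 5) (nat_lit 673) (nat_lit 554) (nat_lit 333))) (XT.nd (nat_lit 71916) (nat_lit 0) (nat_lit 37468) (XT.lf (nat_lit 0) (nat_lit 12719146250) (nat_lit 228) (nat_lit 312199340) (nat_lit 304) (nat_lit 19021534833)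 (nat_lit 80) (nat_lit 5) (nat_lit 83) (nat_lit 5) (nat_lit 84) (nat_lit 5) (nat_lit 674) (nat_lit 554) (nat_lit 332)) (XT.lf (nat_lit 0) (nat_lit 1377619966) (nat_lit 1596) (nat_lit 1506505355) (nat_lit 1596) (nat_lit 1506505355) (nat_lit 573) (nat_lit 3) (nat_lit 594) (nat_lit 3) (nat_lit 594) (nat_lit 5) (nat_lit 555) (nat_lit 555) (nat_lit 450)))))) (XT.nd (nat_lit 624) (nat_lit 1444) (nat_lit 0) (XT.nd (nat_lit 312) (nat_lit 1368) (nat_lit 0) (XT.nd (nat_lit 156) (nat_lit 0) (nat_lit 76) (XT.nd (nat_lit 78) (nat_lit 0) (nat_lit 76) (XT.lf (nat_lit 76) (nat_lit 1379464122) (nat_lit 0) (nat_lit 2372749188) (nat_lit 1596) (nat_lit 5097439500) (nat_lit 574) (nat_lit 5) (nat_lit 573) (nat_lit 3) (nat_lit 594) (nat_lit 5) (nat_lit 556) (nat_lit 555) (nat_lit 449)) (XT.lf (nat_lit 0) (nat_lit 4771361969) (nat_lit 1520) (nat_lit 3039198106) (nat_lit 1596) (nat_lit 1108808163) (nat_lit 574) (nat_lit 5) (nat_lit 594) (nat_lit 5) (nat_lit 595) (nat_lit 5) (nat_lit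 557) (nat_lit 555) (nat_lit 448))) (XT.nd (nat_lit 78) (nat_lit 0) (nat_lit 0) (XT.lf (nat_lit 76) (nat_lit 1470647515) (nat_lit 0) (nat_lit 4340803883) (nat_lit 1596) (nat_lit 3179016263) (nat_lit 575) (nat_lit 5) (nat_lit 574) (nat_lit 5) (nat_lit 595) (nat_lit 5) (nat_lit 558) (nat_lit 555) (nat_lit 447)) (XT.lf (nat_lit 76) (nat_lit 6098635928) (nat_lit 0) (nat_lit 769795474) (nat_lit 1596) (nat_lit 2194636720) (nat_lit 575) (nat_lit 5) (nat_lit 574) (nat_lit 5) (nat_lit 595) (nat_lit 5) (nat_lit 559) (nat_lit 555) (nat_lit 446)))) (XT.nd (nat_lit 156) (nat_lit 1520) (nat_lit 0) (XT.nd (nat_lit 78) (nat_lit 0) (nat_lit 0) (XT.lf (nat_lit 76) (nat_lit 1671799240) (nat_lit 0) (nat_lit 6280498353) (nat_lit 1596) (nat_lit 1184708876) (nat_lit 576) (nat_lit 5) (nat_lit 575) (nat_lit 5) (nat_lit 596) (nat_lit 5) (nat_lit 560) (nat_lit 555) (nat_lit 445)) (XT.lf (nat_lit 76) (nat_lit 6422323119) (nat_lit 0) (nat_lit 2637094985) (nat_lit 1596) (nat_lit 152974733)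 (nat_lit 576) (nat_lit 5) (nat_lit 575) (nat_lit 5) (nat_lit 596) (nat_lit 5) (nat_lit 561) (nat_lit 555) (nat_lit 444))) (XT.nd (nat_lit 78) (nat_lit 0) (nat_lit 0) (XT.lf (nat_lit 0) (nat_lit 884606585) (nat_lit 1596) (nat_lit 7311293051) (nat_lit 1672) (nat_lit 1093331105) (nat_lit 555) (nat_lit 5) (nat_lit 576) (nat_lit 5) (nat_lit 577) (nat_lit 5) (nat_lit 562) (nat_lit 555) (nat_lit 443)) (XT.lf (nat_lit 0) (nat_lit 1954555483) (nat_lit 1596) (nat_lit 2520627199) (nat_lit 1672) (nat_lit 4892129960) (nat_lit 555) (nat_lit 5) (nat_lit 576) (nat_lit 5) (nat_lit 577) (nat_lit 5) (nat_lit 563) (nat_lit 555) (nat_lit 442))))) (XT.nd (nat_lit 312) (nat_lit 1444) (nat_lit 0) (XT.nd (nat_lit 156) (nat_lit 0) (nat_lit 76) (XT.nd (nat_lit 78) (nat_lit 0) (nat_lit 76) (XT.lf (nat_lit 76) (nat_lit 2383464122) (nat_lit 0) (nat_lit 655709693) (nat_lit 1672) (nat_lit 6407917689) (nat_lit 556) (nat_lit 5) (nat_lit 555) (nat_lit 5) (nat_lit 577) (nat_lit 5) (nat_lit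 564) (nat_lit 555) (nat_lit 441)) (XT.lf (nat_lit 0) (nat_lit 4161745163) (nat_lit 1596) (nat_lit 2143521224) (nat_lit 1672) (nat_lit 3222875063) (nat_lit 556) (nat_lit 5) (nat_lit 577) (nat_lit 5) (nat_lit 578) (nat_lit 5) (nat_lit 565) (nat_lit 555) (nat_lit 440))) (XT.nd (nat_lit 78) (nat_lit 0) (nat_lit 76) (XT.lf (nat_lit 76) (nat_lit 2894837024) (nat_lit 0) (nat_lit 2413692752) (nat_lit 1672) (nat_lit 4302248087) (nat_lit 557) (nat_lit 5) (nat_lit 556) (nat_lit 5) (nat_lit 578) (nat_lit 5) (nat_lit 566) (nat_lit 555) (nat_lit 439)) (XT.lf (nat_lit 0) (nat_lit 6481832496) (nat_lit 1596) (nat_lit 1656109540) (nat_lit 1672) (nat_lit 1557054010) (nat_lit 557) (nat_lit 5) (nat_lit 578) (nat_lit 5) (nat_lit 579) (nat_lit 5) (nat_lit 567) (nat_lit 555) (nat_lit 438)))) (XT.nd (nat_lit 156) (nat_lit 1596) (nat_lit 0) (XT.nd (nat_lit 78) (nat_lit 0) (nat_lit 0) (XT.lf (nat_lit 76) (nat_lit 3521240189) (nat_lit 0) (nat_lit 4175622029) (nat_lit 1672) (nat_lit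 2083671832) (nat_lit 558) (nat_lit 5) (nat_lit 557) (nat_lit 5) (nat_lit 579) (nat_lit 5) (nat_lit 568) (nat_lit 555) (nat_lit 437)) (XT.lf (nat_lit 76) (nat_lit 8810802025) (nat_lit 0) (nat_lit 116232032) (nat_lit 1672) (nat_lit 940932591) (nat_lit 558) (nat_lit 5) (nat_lit 557) (nat_lit 5) (nat_lit 579) (nat_lit 5) (nat_lit 569) (nat_lit 555) (nat_lit 436))) (XT.nd (nat_lit 78) (nat_lit 0) (nat_lit 0) (XT.lf (nat_lit 0) (nat_lit 255925350) (nat_lit 1672) (nat_lit 5693292724) (nat_lit 1748) (nat_lit 4007217082) (nat_lit 536) (nat_lit 5) (nat_lit 558) (nat_lit 5) (nat_lit 559) (nat_lit 5) (nat_lit 570) (nat_lit 555) (nat_lit 435)) (XT.lf (nat_lit 0) (nat_lit 1452379833) (nat_lit 1672) (nat_lit 363516655) (nat_lit 1748) (nat_lit 8230887610) (nat_lit 536) (nat_lit 5) (nat_lit 558) (nat_lit 5) (nat_lit 559) (nat_lit 5) (nat_lit 571) (nat_lit 555) (nat_lit 434))))))) (XT.nd (nat_lit 1170) (nat_lit 7524) (nat_lit 0) (XT.nd (nat_lit 546) (nat_lit 5624) (nat_lit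 0) (XT.nd (nat_lit 234) (nat_lit 1596) (nat_lit 0) (XT.nd (nat_lit 78) (nat_lit 0) (nat_lit 0) (XT.lf (nat_lit 0) (nat_lit 2702606435) (nat_lit 1672) (nat_lit 5028259004) (nat_lit 1748) (nat_lit 2407478332) (nat_lit 537) (nat_lit 5) (nat_lit 559) (nat_lit 5) (nat_lit 560) (nat_lit 5) (nat_lit 572) (nat_lit 555) (nat_lit 433)) (XT.nd (nat_lit 78) (nat_lit 0) (nat_lit 76) (XT.lf (nat_lit 76) (nat_lit 446038269) (nat_lit 0) (nat_lit 3530220720) (nat_lit 1748) (nat_lit 6255507823) (nat_lit 538) (nat_lit 5) (nat_lit 537) (nat_lit 5) (nat_lit 560) (nat_lit 5) (nat_lit 573) (nat_lit 555) (nat_lit 432)) (XT.lf (nat_lit 0) (nat_lit 5295602869) (nat_lit 1672) (nat_lit 4248004686) (nat_lit 1748) (nat_lit 783046981) (nat_lit 538) (nat_lit 5) (nat_lit 560) (nat_lit 5) (nat_lit 561) (nat_lit 5) (nat_lit 574) (nat_lit 555) (nat_lit 431)))) (XT.nd (nat_lit 156) (nat_lit 1672) (nat_lit 0) (XT.nd (nat_lit 78) (nat_lit 0) (nat_lit 0) (XT.lf (nat_lit 76) (nat_lit 1381010513)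 (nat_lit 0) (nat_lit 5274388346) (nat_lit 1748) (nat_lit 3767760430) (nat_lit 539) (nat_lit 5) (nat_lit 538) (nat_lit 5) (nat_lit 561) (nat_lit 5) (nat_lit 575) (nat_lit 555) (nat_lit 430)) (XT.lf (nat_lit 76) (nat_lit 7166085847) (nat_lit 0) (nat_lit 886797989) (nat_lit 1748) (nat_lit 2468501005) (nat_lit 539) (nat_lit 5) (nat_lit 538) (nat_lit 5) (nat_lit 561) (nat_lit 5) (nat_lit 576) (nat_lit 555) (nat_lit 429))) (XT.nd (nat_lit 78) (nat_lit 1748) (nat_lit 0) (XT.lf (nat_lit 76) (nat_lit 2439781637) (nat_lit 0) (nat_lit 7060041577) (nat_lit 1748) (nat_lit 1121322153) (nat_lit 540) (nat_lit 5) (nat_lit 539) (nat_lit 5) (nat_lit 562) (nat_lit 5) (nat_lit 577) (nat_lit 555) (nat_lit 428)) (XT.lf (nat_lit 0) (nat_lit 260525855) (nat_lit 1748) (nat_lit 2348212948) (nat_lit 1824) (nat_lit 8113909184) (nat_lit 516) (nat_lit 5) (nat_lit 539) (nat_lit 5) (nat_lit 540) (nat_lit 5) (nat_lit 578) (nat_lit 555) (nat_lit 427))))) (XT.nd (nat_lit 312) (nat_lit 2128)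 (nat_lit 0) (XT.nd (nat_lit 156) (nat_lit 3572) (nat_lit 0) (XT.nd (nat_lit 78) (nat_lit 0) (nat_lit 0) (XT.lf (nat_lit 0) (nat_lit 1674176515) (nat_lit 1748) (nat_lit 7210981828) (nat_lit 76) (nat_lit 1940490998) (nat_lit 517) (nat_lit 5) (nat_lit 540) (nat_lit 5) (nat_lit 518) (nat_lit 5) (nat_lit 579) (nat_lit 555) (nat_lit 426)) (XT.lf (nat_lit 0) (nat_lit 3132349815) (nat_lit 1748) (nat_lit 1233468771) (nat_lit 76) (nat_lit 6564567656) (nat_lit 517) (nat_lit 5) (nat_lit 540) (nat_lit 5) (nat_lit 518) (nat_lit 5) (nat_lit 580) (nat_lit 555) (nat_lit 425))) (XT.nd (nat_lit 78) (nat_lit 1824) (nat_lit 0) (XT.lf (nat_lit 0) (nat_lit 4636844961) (nat_lit 1824) (nat_lit 6124727878) (nat_lit 76) (nat_lit 275302378) (nat_lit 494) (nat_lit 5) (nat_lit 518) (nat_lit 5) (nat_lit 495) (nat_lit 5) (nat_lit 581) (nat_lit 555) (nat_lit 424)) (XT.lf (nat_lit 0) (nat_lit 8919162) (nat_lit 1824) (nat_lit 6183505201) (nat_lit 1900) (nat_lit 4952650216) (nat_lit 470)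 (nat_lit 5) (nat_lit 494) (nat_lit 5) (nat_lit 495) (nat_lit 5) (nat_lit 582) (nat_lit 555) (nat_lit 423)))) (XT.nd (nat_lit 156) (nat_lit 988) (nat_lit 0) (XT.nd (nat_lit 78) (nat_lit 1140) (nat_lit 0) (XT.lf (nat_lit 0) (nat_lit 6334057873) (nat_lit 1824) (nat_lit 1470076876) (nat_lit 1900) (nat_lit 3450803272) (nat_lit 470) (nat_lit 5) (nat_lit 494) (nat_lit 5) (nat_lit 495) (nat_lit 5) (nat_lit 583) (nat_lit 555) (nat_lit 422)) (XT.lf (nat_lit 0) (nat_lit 1401154170) (nat_lit 1140) (nat_lit 8061938945) (nat_lit 1216) (nat_lit 1903605817) (nat_lit 455) (nat_lit 5) (nat_lit 470) (nat_lit 5) (nat_lit 471) (nat_lit 5) (nat_lit 584) (nat_lit 555) (nat_lit 421))) (XT.nd (nat_lit 78) (nat_lit 988) (nat_lit 0) (XT.lf (nat_lit 0) (nat_lit 7892308982) (nat_lit 1140) (nat_lit 3290078390) (nat_lit 1216) (nat_lit 297765019) (nat_lit 455) (nat_lit 5) (nat_lit 470) (nat_lit 5) (nat_lit 471) (nat_lit 5) (nat_lit 585) (nat_lit 555) (nat_lit 420)) (XT.lf (nat_lit 0)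 (nat_lit 1336758291) (nat_lit 988) (nat_lit 8672966357) (nat_lit 76) (nat_lit 1585693839) (nat_lit 442) (nat_lit 5) (nat_lit 455) (nat_lit 5) (nat_lit 443) (nat_lit 5) (nat_lit 586) (nat_lit 555) (nat_lit 419)))))) (XT.nd (nat_lit 624) (nat_lit 3952) (nat_lit 0) (XT.nd (nat_lit 312) (nat_lit 1824) (nat_lit 0) (XT.nd (nat_lit 156) (nat_lit 836) (nat_lit 0) (XT.nd (nat_lit 78) (nat_lit 912) (nat_lit 0) (XT.lf (nat_lit 0) (nat_lit 3030897008) (nat_lit 988) (nat_lit 2139143829) (nat_lit 76) (nat_lit 6542291901) (nat_lit 442) (nat_lit 5) (nat_lit 455) (nat_lit 5) (nat_lit 443) (nat_lit 5) (nat_lit 587) (nat_lit 555) (nat_lit 418)) (XT.lf (nat_lit 0) (nat_lit 4571285640) (nat_lit 912) (nat_lit 202492995) (nat_lit 988) (nat_lit 7057509867) (nat_lit 430) (nat_lit 5) (nat_lit 442) (nat_lit 5) (nat_lit 443) (nat_lit 5) (nat_lit 588) (nat_lit 555) (nat_lit 417))) (XT.nd (nat_lit 78) (nat_lit 836) (nat_lit 0) (XT.lf (nat_lit 0) (nat_lit 6582935616) (nat_lit 988) (nat_lit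 553321714) (nat_lit 76) (nat_lit 4815738115) (nat_lit 430) (nat_lit 5) (nat_lit 443) (nat_lit 5) (nat_lit 431) (nat_lit 5) (nat_lit 589) (nat_lit 555) (nat_lit 416)) (XT.lf (nat_lit 0) (nat_lit 6355557525) (nat_lit 836) (nat_lit 2100995216) (nat_lit 912) (nat_lit 3617998660) (nat_lit 419) (nat_lit 5) (nat_lit 430) (nat_lit 5) (nat_lit 431) (nat_lit 5) (nat_lit 590) (nat_lit 555) (nat_lit 415)))) (XT.nd (nat_lit 156) (nat_lit 836) (nat_lit 0) (XT.nd (nat_lit 78) (nat_lit 76) (nat_lit 0) (XT.lf (nat_lit 0) (nat_lit 1192397415) (nat_lit 912) (nat_lit 9192293651) (nat_lit 988) (nat_lit 1814526838) (nat_lit 407) (nat_lit 5) (nat_lit 419) (nat_lit 5) (nat_lit 420) (nat_lit 5) (nat_lit 591) (nat_lit 555) (nat_lit 414)) (XT.lf (nat_lit 0) (nat_lit 63189324) (nat_lit 988) (nat_lit 4034637600) (nat_lit 76) (nat_lit 8227777893) (nat_lit 406) (nat_lit 5) (nat_lit 419) (nat_lit 5) (nat_lit 407) (nat_lit 5) (nat_lit 592) (nat_lit 555) (nat_lit 413))) (XT.nd (nat_lit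 78) (nat_lit 0) (nat_lit 0) (XT.lf (nat_lit 0) (nat_lit 1967834961) (nat_lit 912) (nat_lit 9369935305) (nat_lit 76) (nat_lit 1116236271) (nat_lit 395) (nat_lit 5) (nat_lit 407) (nat_lit 5) (nat_lit 396) (nat_lit 5) (nat_lit 593) (nat_lit 555) (nat_lit 412)) (XT.lf (nat_lit 0) (nat_lit 3951376226) (nat_lit 912) (nat_lit 2226042542) (nat_lit 76) (nat_lit 6406741843) (nat_lit 395) (nat_lit 5) (nat_lit 407) (nat_lit 5) (nat_lit 396) (nat_lit 5) (nat_lit 594) (nat_lit 555) (nat_lit 411))))) (XT.nd (nat_lit 312) (nat_lit 1596) (nat_lit 0) (XT.nd (nat_lit 156) (nat_lit 1520) (nat_lit 0) (XT.nd (nat_lit 78) (nat_lit 0) (nat_lit 0) (XT.lf (nat_lit 0) (nat_lit 5113940155) (nat_lit 836) (nat_lit 880528650) (nat_lit 912) (nat_lit 6722051717) (nat_lit 384) (nat_lit 5) (nat_lit 395) (nat_lit 5) (nat_lit 396) (nat_lit 5) (nat_lit 595) (nat_lit 555) (nat_lit 410)) (XT.lf (nat_lit 0) (nat_lit 8109667086) (nat_lit 912) (nat_lit 263818835) (nat_lit 76) (nat_lit 4477417193)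 (nat_lit 384) (nat_lit 5) (nat_lit 396) (nat_lit 5) (nat_lit 385) (nat_lit 5) (nat_lit 596) (nat_lit 555) (nat_lit 409))) (XT.nd (nat_lit 78) (nat_lit 760) (nat_lit 0) (XT.lf (nat_lit 0) (nat_lit 7297847858) (nat_lit 760) (nat_lit 3009638434) (nat_lit 836) (nat_lit 2679681078) (nat_lit 374) (nat_lit 5) (nat_lit 384) (nat_lit 5) (nat_lit 385) (nat_lit 5) (nat_lit 597) (nat_lit 555) (nat_lit 408)) (XT.lf (nat_lit 0) (nat_lit 1882995166) (nat_lit 760) (nat_lit 10683517391) (nat_lit 836) (nat_lit 559299687) (nat_lit 364) (nat_lit 5) (nat_lit 374) (nat_lit 5) (nat_lit 375) (nat_lit 5) (nat_lit 598) (nat_lit 555) (nat_lit 407)))) (XT.nd (nat_lit 156) (nat_lit 760) (nat_lit 0) (XT.nd (nat_lit 78) (nat_lit 760) (nat_lit 0) (XT.lf (nat_lit 0) (nat_lit 1628159581) (nat_lit 836) (nat_lit 3627172157) (nat_lit 76) (nat_lit 8010776385) (nat_lit 363) (nat_lit 5) (nat_lit 374) (nat_lit 5) (nat_lit 364) (nat_lit 5) (nat_lit 599) (nat_lit 555) (nat_lit 406)) (XT.lf (nat_lit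 0) (nat_lit 3868622376) (nat_lit 836) (nat_lit 9232698385) (nat_lit 76) (nat_lit 307480677) (nat_lit 353) (nat_lit 5) (nat_lit 364) (nat_lit 5) (nat_lit 354) (nat_lit 5) (nat_lit 600) (nat_lit 555) (nat_lit 405))) (XT.nd (nat_lit 78) (nat_lit 760) (nat_lit 0) (XT.lf (nat_lit 0) (nat_lit 6200931525) (nat_lit 836) (nat_lit 1418074602) (nat_lit 76) (nat_lit 5934402070) (nat_lit 353) (nat_lit 5) (nat_lit 364) (nat_lit 5) (nat_lit 354) (nat_lit 5) (nat_lit 601) (nat_lit 555) (nat_lit 404)) (XT.lf (nat_lit 0) (nat_lit 6626157536) (nat_lit 760) (nat_lit 1984723425) (nat_lit 836) (nat_lit 5089406561) (nat_lit 343) (nat_lit 5) (nat_lit 353) (nat_lit 5) (nat_lit 354) (nat_lit 5) (nat_lit 602) (nat_lit 555) (nat_lit 403))))))))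
noncomputable def xc130 : XT := (XT.nd (nat_lit 2418) (nat_lit 7676) (nat_lit 0) (XT.nd (nat_lit 1170) (nat_lit 5092) (nat_lit 0) (XT.nd (nat_lit 546) (nat_lit 3116) (nat_lit 0) (XT.nd (nat_lit 234) (nat_lit 1368) (nat_lit 0) (XT.nd (nat_lit 78) (nat_lit 760) (nat_lit 0) (XT.lf (nat_lit 0) (nat_lit 975156567) (nat_lit 684) (nat_lit 10122320594) (nat_lit 760) (nat_lit 2752058623) (nat_lit 334) (nat_lit 5) (nat_lit 343) (nat_lit 5) (nat_lit 344) (nat_lit 5) (nat_lit 603) (nat_lit 555) (nat_lit 402)) (XT.nd (nat_lit 78) (nat_lit 760) (nat_lit 0) (XT.lf (nat_lit 0) (nat_lit 9254366950) (nat_lit 684) (nat_lit 4428221838) (nat_lit 760) (nat_lit 318204853) (nat_lit 334) (nat_lit 5) (nat_lit 343) (nat_lit 5) (nat_lit 344) (nat_lit 5) (nat_lit 604) (nat_lit 555) (nat_lit 401)) (XT.lf (nat_lit 0) (nat_lit 2156676176) (nat_lit 760) (nat_lit 10600513890) (nat_lit 76) (nat_lit 1397191121) (nat_lit 324) (nat_lit 5) (nat_lit 334) (nat_lit 5) (nat_lit 325) (nat_lit 5)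 (nat_lit 605) (nat_lit 555) (nat_lit 400)))) (XT.nd (nat_lit 156) (nat_lit 684) (nat_lit 0) (XT.nd (nat_lit 78) (nat_lit 684) (nat_lit 0) (XT.lf (nat_lit 0) (nat_lit 4726721895) (nat_lit 760) (nat_lit 2271190969) (nat_lit 76) (nat_lit 7312087279) (nat_lit 324) (nat_lit 5) (nat_lit 334) (nat_lit 5) (nat_lit 325) (nat_lit 5) (nat_lit 606) (nat_lit 555) (nat_lit 399)) (XT.lf (nat_lit 0) (nat_lit 6293881928) (nat_lit 684) (nat_lit 1083911363) (nat_lit 760) (nat_lit 7090345969) (nat_lit 315) (nat_lit 5) (nat_lit 324) (nat_lit 5) (nat_lit 325) (nat_lit 5) (nat_lit 607) (nat_lit 555) (nat_lit 398))) (XT.nd (nat_lit 78) (nat_lit 0) (nat_lit 0) (XT.lf (nat_lit 0) (nat_lit 391307562) (nat_lit 684) (nat_lit 9729469664) (nat_lit 760) (nat_lit 4507886383) (nat_lit 306) (nat_lit 5) (nat_lit 315) (nat_lit 5) (nat_lit 316) (nat_lit 5) (nat_lit 608) (nat_lit 555) (nat_lit 397)) (XT.lf (nat_lit 0) (nat_lit 9218301175) (nat_lit 684) (nat_lit 3751315735) (nat_lit 760) (nat_lit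 1821761883) (nat_lit 306) (nat_lit 5) (nat_lit 315) (nat_lit 5) (nat_lit 316) (nat_lit 5) (nat_lit 609) (nat_lit 555) (nat_lit 396))))) (XT.nd (nat_lit 312) (nat_lit 1216) (nat_lit 0) (XT.nd (nat_lit 156) (nat_lit 1216) (nat_lit 0) (XT.nd (nat_lit 78) (nat_lit 0) (nat_lit 0) (XT.lf (nat_lit 0) (nat_lit 931949175) (nat_lit 684) (nat_lit 11684060136) (nat_lit 76) (nat_lit 2340701910) (nat_lit 297) (nat_lit 5) (nat_lit 306) (nat_lit 5) (nat_lit 298) (nat_lit 5) (nat_lit 610) (nat_lit 555) (nat_lit 395)) (XT.lf (nat_lit 0) (nat_lit 3768119061) (nat_lit 684) (nat_lit 2804324431) (nat_lit 76) (nat_lit 8551630660) (nat_lit 297) (nat_lit 5) (nat_lit 306) (nat_lit 5) (nat_lit 298) (nat_lit 5) (nat_lit 611) (nat_lit 555) (nat_lit 394))) (XT.nd (nat_lit 78) (nat_lit 608) (nat_lit 0) (XT.lf (nat_lit 0) (nat_lit 6322787811) (nat_lit 608) (nat_lit 368752823) (nat_lit 684) (nat_lit 8602633388) (nat_lit 289) (nat_lit 5) (nat_lit 297) (nat_lit 5) (nat_lit 298) (nat_lit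 5) (nat_lit 612) (nat_lit 555) (nat_lit 393)) (XT.lf (nat_lit 0) (nat_lit 153102362) (nat_lit 608) (nat_lit 9568536192) (nat_lit 684) (nat_lit 5745073420) (nat_lit 281) (nat_lit 5) (nat_lit 289) (nat_lit 5) (nat_lit 290) (nat_lit 5) (nat_lit 613) (nat_lit 555) (nat_lit 392)))) (XT.nd (nat_lit 156) (nat_lit 532) (nat_lit 0) (XT.nd (nat_lit 78) (nat_lit 684) (nat_lit 0) (XT.lf (nat_lit 0) (nat_lit 9566055583) (nat_lit 608) (nat_lit 3298611328) (nat_lit 684) (nat_lit 2776987442) (nat_lit 281) (nat_lit 5) (nat_lit 289) (nat_lit 5) (nat_lit 290) (nat_lit 5) (nat_lit 614) (nat_lit 555) (nat_lit 391)) (XT.lf (nat_lit 0) (nat_lit 279177658) (nat_lit 684) (nat_lit 12463275288) (nat_lit 76) (nat_lit 3076970292) (nat_lit 272) (nat_lit 5) (nat_lit 281) (nat_lit 5) (nat_lit 273) (nat_lit 5) (nat_lit 615) (nat_lit 555) (nat_lit 390))) (XT.nd (nat_lit 78) (nat_lit 532) (nat_lit 0) (XT.lf (nat_lit 0) (nat_lit 3412133537) (nat_lit 684) (nat_lit 2994685899) (nat_lit 76)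 (nat_lit 9592504145) (nat_lit 272) (nat_lit 5) (nat_lit 281) (nat_lit 5) (nat_lit 273) (nat_lit 5) (nat_lit 616) (nat_lit 555) (nat_lit 389)) (XT.lf (nat_lit 0) (nat_lit 6642260349) (nat_lit 608) (nat_lit 9443996179) (nat_lit 76) (nat_lit 95875385) (nat_lit 265) (nat_lit 5) (nat_lit 273) (nat_lit 5) (nat_lit 266) (nat_lit 5) (nat_lit 617) (nat_lit 555) (nat_lit 388)))))) (XT.nd (nat_lit 624) (nat_lit 2280) (nat_lit 0) (XT.nd (nat_lit 312) (nat_lit 1596) (nat_lit 0) (XT.nd (nat_lit 156) (nat_lit 608) (nat_lit 0) (XT.nd (nat_lit 78) (nat_lit 0) (nat_lit 0) (XT.lf (nat_lit 0) (nat_lit 286237250) (nat_lit 608) (nat_lit 9705488425) (nat_lit 684) (nat_lit 6375776231) (nat_lit 257) (nat_lit 5) (nat_lit 265) (nat_lit 5) (nat_lit 266) (nat_lit 5) (nat_lit 618) (nat_lit 555) (nat_lit 387)) (XT.lf (nat_lit 0) (nat_lit 10326209002) (nat_lit 608) (nat_lit 3135672895) (nat_lit 684) (nat_lit 3093623581) (nat_lit 257) (nat_lit 5) (nat_lit 265) (nat_lit 5) (nat_lit 266)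 (nat_lit 5) (nat_lit 619) (nat_lit 555) (nat_lit 386))) (XT.nd (nat_lit 78) (nat_lit 0) (nat_lit 0) (XT.lf (nat_lit 0) (nat_lit 289633280) (nat_lit 608) (nat_lit 12914357631) (nat_lit 76) (nat_lit 3542469514) (nat_lit 249) (nat_lit 5) (nat_lit 257) (nat_lit 5) (nat_lit 250) (nat_lit 5) (nat_lit 620) (nat_lit 555) (nat_lit 385)) (XT.lf (nat_lit 0) (nat_lit 3752553090) (nat_lit 608) (nat_lit 2815599863) (nat_lit 76) (nat_lit 10371604312) (nat_lit 249) (nat_lit 5) (nat_lit 257) (nat_lit 5) (nat_lit 250) (nat_lit 5) (nat_lit 621) (nat_lit 555) (nat_lit 384)))) (XT.nd (nat_lit 156) (nat_lit 608) (nat_lit 0) (XT.nd (nat_lit 78) (nat_lit 456) (nat_lit 0) (XT.lf (nat_lit 0) (nat_lit 7326221477) (nat_lit 608) (nat_lit 9565877509) (nat_lit 76) (nat_lit 243991445) (nat_lit 242) (nat_lit 5) (nat_lit 250) (nat_lit 5) (nat_lit 243) (nat_lit 5) (nat_lit 622) (nat_lit 555) (nat_lit 383)) (XT.lf (nat_lit 0) (nat_lit 820404443) (nat_lit 456) (nat_lit 10209604956) (nat_lit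 532) (nat_lit 6305168131) (nat_lit 236) (nat_lit 5) (nat_lit 242) (nat_lit 5) (nat_lit 243) (nat_lit 5) (nat_lit 623) (nat_lit 555) (nat_lit 382))) (XT.nd (nat_lit 78) (nat_lit 608) (nat_lit 0) (XT.lf (nat_lit 0) (nat_lit 11531495103) (nat_lit 456) (nat_lit 3331471252) (nat_lit 532) (nat_lit 2674178335) (nat_lit 236) (nat_lit 5) (nat_lit 242) (nat_lit 5) (nat_lit 243) (nat_lit 5) (nat_lit 624) (nat_lit 555) (nat_lit 381)) (XT.lf (nat_lit 0) (nat_lit 1061982052) (nat_lit 608) (nat_lit 13009823652) (nat_lit 76) (nat_lit 3670290955) (nat_lit 228) (nat_lit 5) (nat_lit 236) (nat_lit 5) (nat_lit 229) (nat_lit 5) (nat_lit 625) (nat_lit 555) (nat_lit 380))))) (XT.nd (nat_lit 312) (nat_lit 1368) (nat_lit 0) (XT.nd (nat_lit 156) (nat_lit 456) (nat_lit 0) (XT.nd (nat_lit 78) (nat_lit 456) (nat_lit 0) (XT.lf (nat_lit 0) (nat_lit 4890815964) (nat_lit 608) (nat_lit 2236549735) (nat_lit 76) (nat_lit 10822353468) (nat_lit 228) (nat_lit 5) (nat_lit 236) (nat_lit 5) (nat_lit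 229) (nat_lit 5) (nat_lit 626) (nat_lit 555) (nat_lit 379)) (XT.lf (nat_lit 0) (nat_lit 8845065772) (nat_lit 532) (nat_lit 9304537555) (nat_lit 76) (nat_lit 10914185) (nat_lit 222) (nat_lit 5) (nat_lit 229) (nat_lit 5) (nat_lit 223) (nat_lit 5) (nat_lit 627) (nat_lit 555) (nat_lit 378))) (XT.nd (nat_lit 78) (nat_lit 0) (nat_lit 0) (XT.lf (nat_lit 0) (nat_lit 1789257354) (nat_lit 456) (nat_lit 11154406061) (nat_lit 532) (nat_lit 5430563322) (nat_lit 216) (nat_lit 5) (nat_lit 222) (nat_lit 5) (nat_lit 223) (nat_lit 5) (nat_lit 628) (nat_lit 555) (nat_lit 377)) (XT.lf (nat_lit 0) (nat_lit 13218780700) (nat_lit 456) (nat_lit 3959317714) (nat_lit 532) (nat_lit 1413034591) (nat_lit 216) (nat_lit 5) (nat_lit 222) (nat_lit 5) (nat_lit 223) (nat_lit 5) (nat_lit 629) (nat_lit 555) (nat_lit 376)))) (XT.nd (nat_lit 156) (nat_lit 836) (nat_lit 0) (XT.nd (nat_lit 78) (nat_lit 0) (nat_lit 0) (XT.lf (nat_lit 0) (nat_lit 2703172916) (nat_lit 532) (nat_lit 12718559964)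 (nat_lit 76) (nat_lit 3389225232) (nat_lit 209) (nat_lit 5) (nat_lit 216) (nat_lit 5) (nat_lit 210) (nat_lit 5) (nat_lit 630) (nat_lit 555) (nat_lit 375)) (XT.lf (nat_lit 0) (nat_lit 6936915361) (nat_lit 532) (nat_lit 1223217294) (nat_lit 76) (nat_lit 10873777794) (nat_lit 209) (nat_lit 5) (nat_lit 216) (nat_lit 5) (nat_lit 210) (nat_lit 5) (nat_lit 631) (nat_lit 555) (nat_lit 374))) (XT.nd (nat_lit 78) (nat_lit 380) (nat_lit 0) (XT.lf (nat_lit 0) (nat_lit 10629470411) (nat_lit 456) (nat_lit 686643389) (nat_lit 532) (nat_lit 7943992563) (nat_lit 203) (nat_lit 5) (nat_lit 209) (nat_lit 5) (nat_lit 210) (nat_lit 5) (nat_lit 632) (nat_lit 555) (nat_lit 373)) (XT.lf (nat_lit 0) (nat_lit 3230379050) (nat_lit 380) (nat_lit 12618616371) (nat_lit 456) (nat_lit 3640508940) (nat_lit 198) (nat_lit 5) (nat_lit 203) (nat_lit 5) (nat_lit 204) (nat_lit 5) (nat_lit 633) (nat_lit 555) (nat_lit 372))))))) (XT.nd (nat_lit 1404) (nat_lit 3192) (nat_lit 0) (XT.nd (nat_lit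 780) (nat_lit 2736) (nat_lit 0) (XT.nd (nat_lit 234) (nat_lit 836) (nat_lit 0) (XT.nd (nat_lit 78) (nat_lit 836) (nat_lit 0) (XT.lf (nat_lit 0) (nat_lit 793923901) (nat_lit 456) (nat_lit 4298579787) (nat_lit 76) (nat_lit 14629795442) (nat_lit 197) (nat_lit 5) (nat_lit 203) (nat_lit 5) (nat_lit 198) (nat_lit 5) (nat_lit 634) (nat_lit 555) (nat_lit 371)) (XT.nd (nat_lit 78) (nat_lit 380) (nat_lit 0) (XT.lf (nat_lit 0) (nat_lit 5329361017) (nat_lit 532) (nat_lit 12005877652) (nat_lit 76) (nat_lit 2622808751) (nat_lit 191) (nat_lit 5) (nat_lit 198) (nat_lit 5) (nat_lit 192) (nat_lit 5) (nat_lit 635) (nat_lit 555) (nat_lit 370)) (XT.lf (nat_lit 0) (nat_lit 265963279) (nat_lit 380) (nat_lit 9746103827) (nat_lit 456) (nat_lit 10185312504) (nat_lit 186) (nat_lit 5) (nat_lit 191) (nat_lit 5) (nat_lit 192) (nat_lit 5) (nat_lit 636) (nat_lit 555) (nat_lit 369)))) (XT.nd (nat_lit 156) (nat_lit 456) (nat_lit 0) (XT.nd (nat_lit 78) (nat_lit 380) (nat_lit 0) (XT.lf (nat_lit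 0) (nat_lit 12934184415) (nat_lit 380) (nat_lit 1926958980) (nat_lit 456) (nat_lit 5578900864) (nat_lit 186) (nat_lit 5) (nat_lit 191) (nat_lit 5) (nat_lit 192) (nat_lit 5) (nat_lit 637) (nat_lit 555) (nat_lit 368)) (XT.lf (nat_lit 0) (nat_lit 5185244878) (nat_lit 380) (nat_lit 14687172794) (nat_lit 456) (nat_lit 813840333) (nat_lit 181) (nat_lit 5) (nat_lit 186) (nat_lit 5) (nat_lit 187) (nat_lit 5) (nat_lit 638) (nat_lit 555) (nat_lit 367))) (XT.nd (nat_lit 78) (nat_lit 380) (nat_lit 0) (XT.lf (nat_lit 0) (nat_lit 4049217984) (nat_lit 456) (nat_lit 2755563082) (nat_lit 76) (nat_lit 14130974285) (nat_lit 180) (nat_lit 5) (nat_lit 186) (nat_lit 5) (nat_lit 181) (nat_lit 5) (nat_lit 639) (nat_lit 555) (nat_lit 366)) (XT.lf (nat_lit 0) (nat_lit 9066870217) (nat_lit 456) (nat_lit 10833578600) (nat_lit 76) (nat_lit 1288321762) (nat_lit 175) (nat_lit 5) (nat_lit 181) (nat_lit 5) (nat_lit 176) (nat_lit 5) (nat_lit 640) (nat_lit 555) (nat_lit 365))))) (XT.nd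 (nat_lit 312) (nat_lit 1140) (nat_lit 0) (XT.nd (nat_lit 156) (nat_lit 380) (nat_lit 0) (XT.nd (nat_lit 78) (nat_lit 380) (nat_lit 0) (XT.lf (nat_lit 0) (nat_lit 8505299607) (nat_lit 456) (nat_lit 691649388) (nat_lit 76) (nat_lit 13040477981) (nat_lit 164) (nat_lit 5) (nat_lit 170) (nat_lit 5) (nat_lit 165) (nat_lit 5) (nat_lit 644) (nat_lit 555) (nat_lit 361)) (XT.lf (nat_lit 0) (nat_lit 13344196200) (nat_lit 380) (nat_lit 713636020) (nat_lit 456) (nat_lit 8451041891) (nat_lit 159) (nat_lit 5) (nat_lit 164) (nat_lit 5) (nat_lit 165) (nat_lit 5) (nat_lit 645) (nat_lit 555) (nat_lit 360))) (XT.nd (nat_lit 78) (nat_lit 76) (nat_lit 0) (XT.lf (nat_lit 0) (nat_lit 4885775257) (nat_lit 304) (nat_lit 14916483912) (nat_lit 380) (nat_lit 2981874257) (nat_lit 155) (nat_lit 5) (nat_lit 159) (nat_lit 5) (nat_lit 160) (nat_lit 5) (nat_lit 646) (nat_lit 555) (nat_lit 359)) (XT.lf (nat_lit 0) (nat_lit 2622176701) (nat_lit 380) (nat_lit 3755415157) (nat_lit 76) (nat_lit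 16685777870) (nat_lit 154) (nat_lit 5) (nat_lit 159) (nat_lit 5) (nat_lit 155) (nat_lit 5) (nat_lit 647) (nat_lit 555) (nat_lit 358)))) (XT.nd (nat_lit 156) (nat_lit 456) (nat_lit 0) (XT.nd (nat_lit 78) (nat_lit 304) (nat_lit 0) (XT.lf (nat_lit 0) (nat_lit 8377187139) (nat_lit 456) (nat_lit 12581211302) (nat_lit 76) (nat_lit 2387822099) (nat_lit 149) (nat_lit 5) (nat_lit 155) (nat_lit 5) (nat_lit 150) (nat_lit 5) (nat_lit 648) (nat_lit 555) (nat_lit 357)) (XT.lf (nat_lit 0) (nat_lit 1964849702) (nat_lit 304) (nat_lit 12355908823) (nat_lit 380) (nat_lit 9312500729) (nat_lit 145) (nat_lit 5) (nat_lit 149) (nat_lit 5) (nat_lit 150) (nat_lit 5) (nat_lit 649) (nat_lit 555) (nat_lit 356))) (XT.nd (nat_lit 78) (nat_lit 456) (nat_lit 0) (XT.lf (nat_lit 0) (nat_lit 16961405726) (nat_lit 304) (nat_lit 3499386462) (nat_lit 380) (nat_lit 3463694838) (nat_lit 145) (nat_lit 5) (nat_lit 149) (nat_lit 5) (nat_lit 150) (nat_lit 5) (nat_lit 650) (nat_lit 555) (nat_lit 355))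 (XT.lf (nat_lit 0) (nat_lit 2551580313) (nat_lit 456) (nat_lit 16140952977) (nat_lit 76) (nat_lit 5527035085) (nat_lit 139) (nat_lit 5) (nat_lit 145) (nat_lit 5) (nat_lit 140) (nat_lit 5) (nat_lit 651) (nat_lit 555) (nat_lit 354)))))) (XT.nd (nat_lit 624) (nat_lit 1520) (nat_lit 0) (XT.nd (nat_lit 312) (nat_lit 988) (nat_lit 0) (XT.nd (nat_lit 156) (nat_lit 380) (nat_lit 0) (XT.nd (nat_lit 78) (nat_lit 304) (nat_lit 0) (XT.lf (nat_lit 0) (nat_lit 8704325236) (nat_lit 456) (nat_lit 1061385387) (nat_lit 76) (nat_lit 14753112057) (nat_lit 139) (nat_lit 5) (nat_lit 145) (nat_lit 5) (nat_lit 140) (nat_lit 5) (nat_lit 652) (nat_lit 555) (nat_lit 353)) (XT.lf (nat_lit 0) (nat_lit 14499268954) (nat_lit 304) (nat_lit 568416210) (nat_lit 380) (nat_lit 9754625798) (nat_lit 135) (nat_lit 5) (nat_lit 139) (nat_lit 5) (nat_lit 140) (nat_lit 5) (nat_lit 653) (nat_lit 555) (nat_lit 352))) (XT.nd (nat_lit 78) (nat_lit 76) (nat_lit 0) (XT.lf (nat_lit 0) (nat_lit 5254749347)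 (nat_lit 304) (nat_lit 16395523559) (nat_lit 380) (nat_lit 3479756980) (nat_lit 131) (nat_lit 5) (nat_lit 135) (nat_lit 5) (nat_lit 136) (nat_lit 5) (nat_lit 654) (nat_lit 555) (nat_lit 351)) (XT.lf (nat_lit 0) (nat_lit 2949272312) (nat_lit 380) (nat_lit 4192390698) (nat_lit 76) (nat_lit 18300521666) (nat_lit 130) (nat_lit 5) (nat_lit 135) (nat_lit 5) (nat_lit 131) (nat_lit 5) (nat_lit 655) (nat_lit 555) (nat_lit 350)))) (XT.nd (nat_lit 156) (nat_lit 380) (nat_lit 0) (XT.nd (nat_lit 78) (nat_lit 304) (nat_lit 0) (XT.lf (nat_lit 0) (nat_lit 9546923512) (nat_lit 380) (nat_lit 13847223177) (nat_lit 76) (nat_lit 2364243228) (nat_lit 126) (nat_lit 5) (nat_lit 131) (nat_lit 5) (nat_lit 127) (nat_lit 5) (nat_lit 656) (nat_lit 555) (nat_lit 349)) (XT.lf (nat_lit 0) (nat_lit 2285220108) (nat_lit 304) (nat_lit 14075390480) (nat_lit 380) (nat_lit 9718627101) (nat_lit 122) (nat_lit 5) (nat_lit 126) (nat_lit 5) (nat_lit 127) (nat_lit 5) (nat_lit 657) (nat_lit 555)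 (nat_lit 348))) (XT.nd (nat_lit 78) (nat_lit 380) (nat_lit 0) (XT.lf (nat_lit 0) (nat_lit 18917547777) (nat_lit 304) (nat_lit 4479633166) (nat_lit 380) (nat_lit 3007589366) (nat_lit 122) (nat_lit 5) (nat_lit 126) (nat_lit 5) (nat_lit 127) (nat_lit 5) (nat_lit 658) (nat_lit 555) (nat_lit 347)) (XT.lf (nat_lit 0) (nat_lit 3876043185) (nat_lit 380) (nat_lit 17538719820) (nat_lit 76) (nat_lit 5319778203) (nat_lit 117) (nat_lit 5) (nat_lit 122) (nat_lit 5) (nat_lit 118) (nat_lit 5) (nat_lit 659) (nat_lit 555) (nat_lit 346))))) (XT.nd (nat_lit 312) (nat_lit 912) (nat_lit 0) (XT.nd (nat_lit 156) (nat_lit 304) (nat_lit 0) (XT.nd (nat_lit 78) (nat_lit 304) (nat_lit 0) (XT.lf (nat_lit 0) (nat_lit 10931155684) (nat_lit 380) (nat_lit 816175934) (nat_lit 76) (nat_lit 15321696802) (nat_lit 117) (nat_lit 5) (nat_lit 122) (nat_lit 5) (nat_lit 118) (nat_lit 5) (nat_lit 660) (nat_lit 555) (nat_lit 345)) (XT.lf (nat_lit 0) (nat_lit 16446345270) (nat_lit 304) (nat_lit 1781726223)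 (nat_lit 380) (nat_lit 9180119937) (nat_lit 113) (nat_lit 5) (nat_lit 117) (nat_lit 5) (nat_lit 118) (nat_lit 5) (nat_lit 661) (nat_lit 555) (nat_lit 344))) (XT.nd (nat_lit 78) (nat_lit 76) (nat_lit 0) (XT.lf (nat_lit 0) (nat_lit 6329501717) (nat_lit 228) (nat_lit 19436409319) (nat_lit 304) (nat_lit 1986327031) (nat_lit 110) (nat_lit 5) (nat_lit 113) (nat_lit 5) (nat_lit 114) (nat_lit 5) (nat_lit 662) (nat_lit 555) (nat_lit 343)) (XT.lf (nat_lit 0) (nat_lit 5360965052) (nat_lit 304) (nat_lit 4043669083) (nat_lit 76) (nat_lit 18696240540) (nat_lit 109) (nat_lit 5) (nat_lit 113) (nat_lit 5) (nat_lit 110) (nat_lit 5) (nat_lit 663) (nat_lit 555) (nat_lit 342)))) (XT.nd (nat_lit 156) (nat_lit 380) (nat_lit 0) (XT.nd (nat_lit 78) (nat_lit 228) (nat_lit 0) (XT.lf (nat_lit 0) (nat_lit 12918607434) (nat_lit 380) (nat_lit 14619226035) (nat_lit 76) (nat_lit 916587996) (nat_lit 105) (nat_lit 5) (nat_lit 110) (nat_lit 5) (nat_lit 106) (nat_lit 5) (nat_lit 664) (nat_lit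 555) (nat_lit 341)) (XT.lf (nat_lit 0) (nat_lit 3282506655) (nat_lit 228) (nat_lit 17449909611) (nat_lit 304) (nat_lit 8080522721) (nat_lit 102) (nat_lit 5) (nat_lit 105) (nat_lit 5) (nat_lit 106) (nat_lit 5) (nat_lit 665) (nat_lit 555) (nat_lit 340))) (XT.nd (nat_lit 78) (nat_lit 380) (nat_lit 0) (XT.lf (nat_lit 0) (nat_lit 21730471772) (nat_lit 228) (nat_lit 7064287272) (nat_lit 304) (nat_lit 382022726) (nat_lit 102) (nat_lit 5) (nat_lit 105) (nat_lit 5) (nat_lit 106) (nat_lit 5) (nat_lit 666) (nat_lit 555) (nat_lit 339)) (XT.lf (nat_lit 0) (nat_lit 7462368181) (nat_lit 380) (nat_lit 18482748711) (nat_lit 76) (nat_lit 3600016576) (nat_lit 97) (nat_lit 5) (nat_lit 102) (nat_lit 5) (nat_lit 98) (nat_lit 5) (nat_lit 667) (nat_lit 555) (nat_lit 338))))))))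
noncomputable def xc131 : XT := (XT.nd (nat_lit 74334) (nat_lit 0) (nat_lit 16948) (XT.nd (nat_lit 73086) (nat_lit 0) (nat_lit 32908) (XT.nd (nat_lit 72462) (nat_lit 0) (nat_lit 35796) (XT.nd (nat_lit 234) (nat_lit 532) (nat_lit 0) (XT.nd (nat_lit 78) (nat_lit 304) (nat_lit 0) (XT.lf (nat_lit 0) (nat_lit 63653731) (nat_lit 228) (nat_lit 15486633713) (nat_lit 304) (nat_lit 14368679198) (nat_lit 94) (nat_lit 5) (nat_lit 97) (nat_lit 5) (nat_lit 98) (nat_lit 5) (nat_lit 668) (nat_lit 555) (nat_lit 337)) (XT.nd (nat_lit 78) (nat_lit 304) (nat_lit 0) (XT.lf (nat_lit 0) (nat_lit 19221713563) (nat_lit 228) (nat_lit 4696584286) (nat_lit 304) (nat_lit 6379612038) (nat_lit 94) (nat_lit 5) (nat_lit 97) (nat_lit 5) (nat_lit 98) (nat_lit 5) (nat_lit 669) (nat_lit 555) (nat_lit 336)) (XT.lf (nat_lit 0) (nat_lit 1834784392) (nat_lit 304) (nat_lit 22560217692) (nat_lit 76) (nat_lit 6287425196) (nat_lit 90) (nat_lit 5) (nat_lit 94) (nat_lit 5) (nat_lit 91) (nat_lit 5)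 (nat_lit 670) (nat_lit 555) (nat_lit 335)))) (XT.nd (nat_lit 156) (nat_lit 304) (nat_lit 0) (XT.nd (nat_lit 78) (nat_lit 228) (nat_lit 0) (XT.lf (nat_lit 0) (nat_lit 10228447969) (nat_lit 304) (nat_lit 3301981693) (nat_lit 76) (nat_lit 17541353986) (nat_lit 90) (nat_lit 5) (nat_lit 94) (nat_lit 5) (nat_lit 91) (nat_lit 5) (nat_lit 671) (nat_lit 555) (nat_lit 334)) (XT.lf (nat_lit 0) (nat_lit 16548938719) (nat_lit 228) (nat_lit 2343002420) (nat_lit 304) (nat_lit 12574946936) (nat_lit 87) (nat_lit 5) (nat_lit 90) (nat_lit 5) (nat_lit 91) (nat_lit 5) (nat_lit 672) (nat_lit 555) (nat_lit 333))) (XT.nd (nat_lit 78) (nat_lit 76) (nat_lit 0) (XT.lf (nat_lit 0) (nat_lit 4968785691) (nat_lit 228) (nat_lit 22867890302) (nat_lit 304) (nat_lit 4031059217) (nat_lit 84) (nat_lit 5) (nat_lit 87) (nat_lit 5) (nat_lit 88) (nat_lit 5) (nat_lit 673) (nat_lit 555) (nat_lit 332)) (XT.lf (nat_lit 0) (nat_lit 4733104957) (nat_lit 304) (nat_lit 6875266902) (nat_lit 76) (nat_lit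 20665402761) (nat_lit 83) (nat_lit 5) (nat_lit 87) (nat_lit 5) (nat_lit 84) (nat_lit 5) (nat_lit 674) (nat_lit 555) (nat_lit 331))))) (XT.nd (nat_lit 312) (nat_lit 1444) (nat_lit 0) (XT.nd (nat_lit 156) (nat_lit 0) (nat_lit 76) (XT.nd (nat_lit 78) (nat_lit 0) (nat_lit 0) (XT.lf (nat_lit 0) (nat_lit 2359400975) (nat_lit 1596) (nat_lit 1049962609) (nat_lit 1596) (nat_lit 1049962609) (nat_lit 573) (nat_lit 3) (nat_lit 594) (nat_lit 3) (nat_lit 594) (nat_lit 5) (nat_lit 556) (nat_lit 556) (nat_lit 448)) (XT.lf (nat_lit 76) (nat_lit 2373995520) (nat_lit 0) (nat_lit 3330576574) (nat_lit 1596) (nat_lit 3284463707) (nat_lit 574) (nat_lit 5) (nat_lit 573) (nat_lit 3) (nat_lit 594) (nat_lit 5) (nat_lit 557) (nat_lit 556) (nat_lit 447))) (XT.nd (nat_lit 78) (nat_lit 0) (nat_lit 0) (XT.lf (nat_lit 0) (nat_lit 6701498795) (nat_lit 1520) (nat_lit 2109332144) (nat_lit 1596) (nat_lit 250167949) (nat_lit 574) (nat_lit 5) (nat_lit 594) (nat_lit 5) (nat_lit 595) (nat_lit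 5) (nat_lit 558) (nat_lit 556) (nat_lit 446)) (XT.lf (nat_lit 76) (nat_lit 2484192956) (nat_lit 0) (nat_lit 5248612000) (nat_lit 1596) (nat_lit 1401308271) (nat_lit 575) (nat_lit 5) (nat_lit 574) (nat_lit 5) (nat_lit 595) (nat_lit 5) (nat_lit 559) (nat_lit 556) (nat_lit 445)))) (XT.nd (nat_lit 156) (nat_lit 0) (nat_lit 0) (XT.nd (nat_lit 78) (nat_lit 1520) (nat_lit 0) (XT.lf (nat_lit 76) (nat_lit 7185444421) (nat_lit 0) (nat_lit 1590085539) (nat_lit 1596) (nat_lit 433344829) (nat_lit 575) (nat_lit 5) (nat_lit 574) (nat_lit 5) (nat_lit 595) (nat_lit 5) (nat_lit 560) (nat_lit 556) (nat_lit 444)) (XT.lf (nat_lit 0) (nat_lit 555394229) (nat_lit 1596) (nat_lit 6584477402) (nat_lit 1672) (nat_lit 2145015144) (nat_lit 554) (nat_lit 5) (nat_lit 575) (nat_lit 5) (nat_lit 576) (nat_lit 5) (nat_lit 561) (nat_lit 556) (nat_lit 443))) (XT.nd (nat_lit 78) (nat_lit 0) (nat_lit 76) (XT.lf (nat_lit 0) (nat_lit 1559687541) (nat_lit 1596) (nat_lit 1842712723) (nat_lit 1672)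 (nat_lit 5959930555) (nat_lit 554) (nat_lit 5) (nat_lit 575) (nat_lit 5) (nat_lit 576) (nat_lit 5) (nat_lit 562) (nat_lit 556) (nat_lit 442)) (XT.lf (nat_lit 0) (nat_lit 2584350042) (nat_lit 1596) (nat_lit 6423694053) (nat_lit 1672) (nat_lit 433274716) (nat_lit 555) (nat_lit 5) (nat_lit 576) (nat_lit 5) (nat_lit 577) (nat_lit 5) (nat_lit 563) (nat_lit 556) (nat_lit 441)))))) (XT.nd (nat_lit 624) (nat_lit 1444) (nat_lit 0) (XT.nd (nat_lit 312) (nat_lit 1520) (nat_lit 0) (XT.nd (nat_lit 156) (nat_lit 0) (nat_lit 76) (XT.nd (nat_lit 78) (nat_lit 0) (nat_lit 0) (XT.lf (nat_lit 0) (nat_lit 3642716519) (nat_lit 1596) (nat_lit 1557485960) (nat_lit 1672) (nat_lit 4321420587) (nat_lit 555) (nat_lit 5) (nat_lit 576) (nat_lit 5) (nat_lit 577) (nat_lit 5) (nat_lit 564) (nat_lit 556) (nat_lit 440)) (XT.lf (nat_lit 76) (nat_lit 3438019071) (nat_lit 0) (nat_lit 1285210813) (nat_lit 1672) (nat_lit 4880284636) (nat_lit 556) (nat_lit 5) (nat_lit 555) (nat_lit 5) (nat_lit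 577) (nat_lit 5) (nat_lit 565) (nat_lit 556) (nat_lit 439))) (XT.nd (nat_lit 78) (nat_lit 0) (nat_lit 0) (XT.lf (nat_lit 0) (nat_lit 5832500262) (nat_lit 1596) (nat_lit 1163444125) (nat_lit 1672) (nat_lit 2690957172) (nat_lit 556) (nat_lit 5) (nat_lit 577) (nat_lit 5) (nat_lit 578) (nat_lit 5) (nat_lit 566) (nat_lit 556) (nat_lit 438)) (XT.lf (nat_lit 76) (nat_lit 3968951371) (nat_lit 0) (nat_lit 3008739308) (nat_lit 1672) (nat_lit 2793991644) (nat_lit 557) (nat_lit 5) (nat_lit 556) (nat_lit 5) (nat_lit 578) (nat_lit 5) (nat_lit 567) (nat_lit 556) (nat_lit 437)))) (XT.nd (nat_lit 156) (nat_lit 1672) (nat_lit 0) (XT.nd (nat_lit 78) (nat_lit 0) (nat_lit 0) (XT.lf (nat_lit 0) (nat_lit 8140332181) (nat_lit 1596) (nat_lit 658762403) (nat_lit 1672) (nat_lit 1059173836) (nat_lit 557) (nat_lit 5) (nat_lit 578) (nat_lit 5) (nat_lit 579) (nat_lit 5) (nat_lit 568) (nat_lit 556) (nat_lit 436)) (XT.lf (nat_lit 76) (nat_lit 4615354917) (nat_lit 0) (nat_lit 4740976349)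 (nat_lit 1672) (nat_lit 589653531) (nat_lit 558) (nat_lit 5) (nat_lit 557) (nat_lit 5) (nat_lit 579) (nat_lit 5) (nat_lit 569) (nat_lit 556) (nat_lit 435))) (XT.nd (nat_lit 78) (nat_lit 0) (nat_lit 76) (XT.lf (nat_lit 0) (nat_lit 538670247) (nat_lit 1672) (nat_lit 48665663) (nat_lit 1748) (nat_lit 9448350629) (nat_lit 535) (nat_lit 5) (nat_lit 557) (nat_lit 5) (nat_lit 558) (nat_lit 5) (nat_lit 570) (nat_lit 556) (nat_lit 434)) (XT.lf (nat_lit 0) (nat_lit 1721445208) (nat_lit 1672) (nat_lit 4758268380) (nat_lit 1748) (nat_lit 3646595787) (nat_lit 536) (nat_lit 5) (nat_lit 558) (nat_lit 5) (nat_lit 559) (nat_lit 5) (nat_lit 571) (nat_lit 556) (nat_lit 433))))) (XT.nd (nat_lit 312) (nat_lit 1520) (nat_lit 0) (XT.nd (nat_lit 156) (nat_lit 0) (nat_lit 76) (XT.nd (nat_lit 78) (nat_lit 0) (nat_lit 76) (XT.lf (nat_lit 76) (nat_lit 666275052) (nat_lit 0) (nat_lit 2251244308) (nat_lit 1748) (nat_lit 7301433036) (nat_lit 537) (nat_lit 5) (nat_lit 536) (nat_lit 5)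 (nat_lit 559) (nat_lit 5) (nat_lit 572) (nat_lit 556) (nat_lit 432)) (XT.lf (nat_lit 0) (nat_lit 4164459257) (nat_lit 1672) (nat_lit 4076490471) (nat_lit 1748) (nat_lit 2071960253) (nat_lit 537) (nat_lit 5) (nat_lit 559) (nat_lit 5) (nat_lit 560) (nat_lit 5) (nat_lit 573) (nat_lit 556) (nat_lit 431))) (XT.nd (nat_lit 78) (nat_lit 0) (nat_lit 76) (XT.lf (nat_lit 76) (nat_lit 1500369499) (nat_lit 0) (nat_lit 3942398925) (nat_lit 1748) (nat_lit 4965850262) (nat_lit 538) (nat_lit 5) (nat_lit 537) (nat_lit 5) (nat_lit 560) (nat_lit 5) (nat_lit 574) (nat_lit 556) (nat_lit 430)) (XT.lf (nat_lit 0) (nat_lit 6759129174) (nat_lit 1672) (nat_lit 3278639633) (nat_lit 1748) (nat_lit 468223617) (nat_lit 538) (nat_lit 5) (nat_lit 560) (nat_lit 5) (nat_lit 561) (nat_lit 5) (nat_lit 575) (nat_lit 556) (nat_lit 429)))) (XT.nd (nat_lit 156) (nat_lit 1672) (nat_lit 0) (XT.nd (nat_lit 78) (nat_lit 0) (nat_lit 0) (XT.lf (nat_lit 76) (nat_lit 2456019521) (nat_lit 0) (nat_lit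 5670282018) (nat_lit 1748) (nat_lit 2478522965) (nat_lit 539) (nat_lit 5) (nat_lit 538) (nat_lit 5) (nat_lit 561) (nat_lit 5) (nat_lit 576) (nat_lit 556) (nat_lit 428)) (XT.lf (nat_lit 76) (nat_lit 8336259327) (nat_lit 0) (nat_lit 1189245620) (nat_lit 1748) (nat_lit 1180035071) (nat_lit 539) (nat_lit 5) (nat_lit 538) (nat_lit 5) (nat_lit 561) (nat_lit 5) (nat_lit 577) (nat_lit 556) (nat_lit 427))) (XT.nd (nat_lit 78) (nat_lit 0) (nat_lit 0) (XT.lf (nat_lit 0) (nat_lit 170679117) (nat_lit 1748) (nat_lit 7272224468) (nat_lit 1824) (nat_lit 3364785014) (nat_lit 516) (nat_lit 5) (nat_lit 539) (nat_lit 5) (nat_lit 540) (nat_lit 5) (nat_lit 578) (nat_lit 556) (nat_lit 426)) (XT.lf (nat_lit 0) (nat_lit 1539684653) (nat_lit 1748) (nat_lit 1350725675) (nat_lit 1824) (nat_lit 8021172781) (nat_lit 516) (nat_lit 5) (nat_lit 539) (nat_lit 5) (nat_lit 540) (nat_lit 5) (nat_lit 579) (nat_lit 556) (nat_lit 425))))))) (XT.nd (nat_lit 1170) (nat_lit 6764) (nat_lit 0) (XT.nd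 (nat_lit 546) (nat_lit 4484) (nat_lit 0) (XT.nd (nat_lit 234) (nat_lit 3040) (nat_lit 0) (XT.nd (nat_lit 78) (nat_lit 1748) (nat_lit 0) (XT.lf (nat_lit 0) (nat_lit 2961949391) (nat_lit 1748) (nat_lit 6291052888) (nat_lit 76) (nat_lit 1764036151) (nat_lit 517) (nat_lit 5) (nat_lit 540) (nat_lit 5) (nat_lit 518) (nat_lit 5) (nat_lit 580) (nat_lit 556) (nat_lit 424)) (XT.nd (nat_lit 78) (nat_lit 1748) (nat_lit 0) (XT.lf (nat_lit 0) (nat_lit 4424692249) (nat_lit 1748) (nat_lit 214855229) (nat_lit 76) (nat_lit 6484815218) (nat_lit 517) (nat_lit 5) (nat_lit 540) (nat_lit 5) (nat_lit 518) (nat_lit 5) (nat_lit 581) (nat_lit 556) (nat_lit 423)) (XT.lf (nat_lit 0) (nat_lit 5940752725) (nat_lit 1824) (nat_lit 5185378315) (nat_lit 76) (nat_lit 107221635) (nat_lit 494) (nat_lit 5) (nat_lit 518) (nat_lit 5) (nat_lit 495) (nat_lit 5) (nat_lit 582) (nat_lit 556) (nat_lit 422)))) (XT.nd (nat_lit 156) (nat_lit 1216) (nat_lit 0) (XT.nd (nat_lit 78) (nat_lit 0) (nat_lit 0)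 (XT.lf (nat_lit 0) (nat_lit 1063955849) (nat_lit 1824) (nat_lit 6446588256) (nat_lit 1900) (nat_lit 3833510627) (nat_lit 470) (nat_lit 5) (nat_lit 494) (nat_lit 5) (nat_lit 495) (nat_lit 5) (nat_lit 583) (nat_lit 556) (nat_lit 421)) (XT.lf (nat_lit 0) (nat_lit 7494913839) (nat_lit 1824) (nat_lit 1636157778) (nat_lit 1900) (nat_lit 2325512874) (nat_lit 470) (nat_lit 5) (nat_lit 494) (nat_lit 5) (nat_lit 495) (nat_lit 5) (nat_lit 584) (nat_lit 556) (nat_lit 420))) (XT.nd (nat_lit 78) (nat_lit 76) (nat_lit 0) (XT.lf (nat_lit 0) (nat_lit 2480727855) (nat_lit 1140) (nat_lit 8325480721) (nat_lit 1216) (nat_lit 764712745) (nat_lit 455) (nat_lit 5) (nat_lit 470) (nat_lit 5) (nat_lit 471) (nat_lit 5) (nat_lit 585) (nat_lit 556) (nat_lit 419)) (XT.lf (nat_lit 0) (nat_lit 839017024) (nat_lit 1216) (nat_lit 2611529744) (nat_lit 76) (nat_lit 8236439854) (nat_lit 454) (nat_lit 5) (nat_lit 470) (nat_lit 5) (nat_lit 455) (nat_lit 5) (nat_lit 586) (nat_lit 556) (nat_lit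 418))))) (XT.nd (nat_lit 312) (nat_lit 1824) (nat_lit 0) (XT.nd (nat_lit 156) (nat_lit 1748) (nat_lit 0) (XT.nd (nat_lit 78) (nat_lit 0) (nat_lit 0) (XT.lf (nat_lit 0) (nat_lit 2486121127) (nat_lit 988) (nat_lit 7784168249) (nat_lit 76) (nat_lit 1534552402) (nat_lit 442) (nat_lit 5) (nat_lit 455) (nat_lit 5) (nat_lit 443) (nat_lit 5) (nat_lit 587) (nat_lit 556) (nat_lit 417)) (XT.lf (nat_lit 0) (nat_lit 4192130311) (nat_lit 988) (nat_lit 1140497847) (nat_lit 76) (nat_lit 6591907039) (nat_lit 442) (nat_lit 5) (nat_lit 455) (nat_lit 5) (nat_lit 443) (nat_lit 5) (nat_lit 588) (nat_lit 556) (nat_lit 416))) (XT.nd (nat_lit 78) (nat_lit 836) (nat_lit 0) (XT.lf (nat_lit 0) (nat_lit 5697288705) (nat_lit 912) (nat_lit 257717333) (nat_lit 988) (nat_lit 6091161933) (nat_lit 430) (nat_lit 5) (nat_lit 442) (nat_lit 5) (nat_lit 443) (nat_lit 5) (nat_lit 589) (nat_lit 556) (nat_lit 415)) (XT.lf (nat_lit 0) (nat_lit 477815657) (nat_lit 836) (nat_lit 7304017803) (nat_lit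 912) (nat_lit 4387826462) (nat_lit 419) (nat_lit 5) (nat_lit 430) (nat_lit 5) (nat_lit 431) (nat_lit 5) (nat_lit 590) (nat_lit 556) (nat_lit 414)))) (XT.nd (nat_lit 156) (nat_lit 912) (nat_lit 0) (XT.nd (nat_lit 78) (nat_lit 912) (nat_lit 0) (XT.lf (nat_lit 0) (nat_lit 7511790467) (nat_lit 836) (nat_lit 2163846477) (nat_lit 912) (nat_lit 2619376372) (nat_lit 419) (nat_lit 5) (nat_lit 430) (nat_lit 5) (nat_lit 431) (nat_lit 5) (nat_lit 591) (nat_lit 556) (nat_lit 413)) (XT.lf (nat_lit 0) (nat_lit 2259621741) (nat_lit 912) (nat_lit 9368770671) (nat_lit 988) (nat_lit 794060239) (nat_lit 407) (nat_lit 5) (nat_lit 419) (nat_lit 5) (nat_lit 420) (nat_lit 5) (nat_lit 592) (nat_lit 556) (nat_lit 412))) (XT.nd (nat_lit 78) (nat_lit 836) (nat_lit 0) (XT.lf (nat_lit 0) (nat_lit 1086901714) (nat_lit 988) (nat_lit 3078796214) (nat_lit 76) (nat_lit 8385941697) (nat_lit 406) (nat_lit 5) (nat_lit 419) (nat_lit 5) (nat_lit 407) (nat_lit 5) (nat_lit 593) (nat_lit 556) (nat_lit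 411)) (XT.lf (nat_lit 0) (nat_lit 3016411778) (nat_lit 912) (nat_lit 8507543627) (nat_lit 76) (nat_lit 1158919099) (nat_lit 395) (nat_lit 5) (nat_lit 407) (nat_lit 5) (nat_lit 396) (nat_lit 5) (nat_lit 594) (nat_lit 556) (nat_lit 410)))))) (XT.nd (nat_lit 624) (nat_lit 3572) (nat_lit 0) (XT.nd (nat_lit 312) (nat_lit 1596) (nat_lit 0) (XT.nd (nat_lit 156) (nat_lit 760) (nat_lit 0) (XT.nd (nat_lit 78) (nat_lit 836) (nat_lit 0) (XT.lf (nat_lit 0) (nat_lit 5019835239) (nat_lit 912) (nat_lit 1241357133) (nat_lit 76) (nat_lit 6554835603) (nat_lit 395) (nat_lit 5) (nat_lit 407) (nat_lit 5) (nat_lit 396) (nat_lit 5) (nat_lit 595) (nat_lit 556) (nat_lit 409)) (XT.lf (nat_lit 0) (nat_lit 6238654123) (nat_lit 836) (nat_lit 852373256) (nat_lit 912) (nat_lit 5860263485) (nat_lit 384) (nat_lit 5) (nat_lit 395) (nat_lit 5) (nat_lit 396) (nat_lit 5) (nat_lit 596) (nat_lit 556) (nat_lit 408))) (XT.nd (nat_lit 78) (nat_lit 0) (nat_lit 0) (XT.lf (nat_lit 0) (nat_lit 762173466)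 (nat_lit 760) (nat_lit 8472445635) (nat_lit 836) (nat_lit 3854020741) (nat_lit 374) (nat_lit 5) (nat_lit 384) (nat_lit 5) (nat_lit 385) (nat_lit 5) (nat_lit 597) (nat_lit 556) (nat_lit 407)) (XT.lf (nat_lit 0) (nat_lit 8458358553) (nat_lit 760) (nat_lit 3000894169) (nat_lit 836) (nat_lit 1768720015) (nat_lit 374) (nat_lit 5) (nat_lit 384) (nat_lit 5) (nat_lit 385) (nat_lit 5) (nat_lit 598) (nat_lit 556) (nat_lit 406)))) (XT.nd (nat_lit 156) (nat_lit 760) (nat_lit 0) (XT.nd (nat_lit 78) (nat_lit 0) (nat_lit 0) (XT.lf (nat_lit 0) (nat_lit 377384847) (nat_lit 836) (nat_lit 10425199738) (nat_lit 76) (nat_lit 2566985561) (nat_lit 363) (nat_lit 5) (nat_lit 374) (nat_lit 5) (nat_lit 364) (nat_lit 5) (nat_lit 599) (nat_lit 556) (nat_lit 405)) (XT.lf (nat_lit 0) (nat_lit 2582672290) (nat_lit 836) (nat_lit 2681313923) (nat_lit 76) (nat_lit 8248980915) (nat_lit 363) (nat_lit 5) (nat_lit 374) (nat_lit 5) (nat_lit 364) (nat_lit 5) (nat_lit 600) (nat_lit 556) (nat_lit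 404))) (XT.nd (nat_lit 78) (nat_lit 0) (nat_lit 0) (XT.lf (nat_lit 0) (nat_lit 4857092991) (nat_lit 836) (nat_lit 8388075632) (nat_lit 76) (nat_lit 413563187) (nat_lit 353) (nat_lit 5) (nat_lit 364) (nat_lit 5) (nat_lit 354) (nat_lit 5) (nat_lit 601) (nat_lit 556) (nat_lit 403)) (XT.lf (nat_lit 0) (nat_lit 7218183653) (nat_lit 836) (nat_lit 437341270) (nat_lit 76) (nat_lit 6151063539) (nat_lit 353) (nat_lit 5) (nat_lit 364) (nat_lit 5) (nat_lit 354) (nat_lit 5) (nat_lit 602) (nat_lit 556) (nat_lit 402))))) (XT.nd (nat_lit 312) (nat_lit 1368) (nat_lit 0) (XT.nd (nat_lit 156) (nat_lit 760) (nat_lit 0) (XT.nd (nat_lit 78) (nat_lit 684) (nat_lit 0) (XT.lf (nat_lit 0) (nat_lit 7761136728) (nat_lit 760) (nat_lit 1904189576) (nat_lit 836) (nat_lit 4291299639) (nat_lit 343) (nat_lit 5) (nat_lit 353) (nat_lit 5) (nat_lit 354) (nat_lit 5) (nat_lit 603) (nat_lit 556) (nat_lit 401)) (XT.lf (nat_lit 0) (nat_lit 2007296264) (nat_lit 684) (nat_lit 10184399585) (nat_lit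 760) (nat_lit 1917362939) (nat_lit 334) (nat_lit 5) (nat_lit 343) (nat_lit 5) (nat_lit 344) (nat_lit 5) (nat_lit 604) (nat_lit 556) (nat_lit 400))) (XT.nd (nat_lit 78) (nat_lit 684) (nat_lit 0) (XT.lf (nat_lit 0) (nat_lit 540538610) (nat_lit 760) (nat_lit 3835005247) (nat_lit 76) (nat_lit 9888069327) (nat_lit 333) (nat_lit 5) (nat_lit 343) (nat_lit 5) (nat_lit 334) (nat_lit 5) (nat_lit 605) (nat_lit 556) (nat_lit 399)) (XT.lf (nat_lit 0) (nat_lit 3051214004) (nat_lit 760) (nat_lit 9798813990) (nat_lit 76) (nat_lit 1570391691) (nat_lit 324) (nat_lit 5) (nat_lit 334) (nat_lit 5) (nat_lit 325) (nat_lit 5) (nat_lit 606) (nat_lit 556) (nat_lit 398)))) (XT.nd (nat_lit 156) (nat_lit 684) (nat_lit 0) (XT.nd (nat_lit 78) (nat_lit 684) (nat_lit 0) (XT.lf (nat_lit 0) (nat_lit 5655966435) (nat_lit 760) (nat_lit 1322781280) (nat_lit 76) (nat_lit 7600737601) (nat_lit 324) (nat_lit 5) (nat_lit 334) (nat_lit 5) (nat_lit 325) (nat_lit 5) (nat_lit 607) (nat_lit 556) (nat_lit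 397)) (XT.lf (nat_lit 0) (nat_lit 7407054696) (nat_lit 684) (nat_lit 943047873) (nat_lit 760) (nat_lit 6390884186) (nat_lit 315) (nat_lit 5) (nat_lit 324) (nat_lit 5) (nat_lit 325) (nat_lit 5) (nat_lit 608) (nat_lit 556) (nat_lit 396))) (XT.nd (nat_lit 78) (nat_lit 0) (nat_lit 0) (XT.lf (nat_lit 0) (nat_lit 1395291732) (nat_lit 684) (nat_lit 9743985171) (nat_lit 760) (nat_lit 3765618471) (nat_lit 306) (nat_lit 5) (nat_lit 315) (nat_lit 5) (nat_lit 316) (nat_lit 5) (nat_lit 609) (nat_lit 556) (nat_lit 395)) (XT.lf (nat_lit 0) (nat_lit 10379292707) (nat_lit 684) (nat_lit 3649799023) (nat_lit 760) (nat_lit 1042093552) (nat_lit 306) (nat_lit 5) (nat_lit 315) (nat_lit 5) (nat_lit 316) (nat_lit 5) (nat_lit 610) (nat_lit 556) (nat_lit 394))))))))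
noncomputable def xc132 : XT := (XT.nd (nat_lit 2652) (nat_lit 6156) (nat_lit 0) (XT.nd (nat_lit 1170) (nat_lit 5472) (nat_lit 0) (XT.nd (nat_lit 546) (nat_lit 2736) (nat_lit 0) (XT.nd (nat_lit 234) (nat_lit 1292) (nat_lit 0) (XT.nd (nat_lit 78) (nat_lit 608) (nat_lit 0) (XT.lf (nat_lit 0) (nat_lit 1747764900) (nat_lit 684) (nat_lit 10922151265) (nat_lit 76) (nat_lit 2569967063) (nat_lit 297) (nat_lit 5) (nat_lit 306) (nat_lit 5) (nat_lit 298) (nat_lit 5) (nat_lit 611) (nat_lit 556) (nat_lit 393)) (XT.nd (nat_lit 78) (nat_lit 608) (nat_lit 0) (XT.lf (nat_lit 0) (nat_lit 4625027267) (nat_lit 684) (nat_lit 1884342221) (nat_lit 76) (nat_lit 8901536915) (nat_lit 297) (nat_lit 5) (nat_lit 306) (nat_lit 5) (nat_lit 298) (nat_lit 5) (nat_lit 612) (nat_lit 556) (nat_lit 392)) (XT.lf (nat_lit 0) (nat_lit 7418890763) (nat_lit 608) (nat_lit 178997674) (nat_lit 684) (nat_lit 7986700770) (nat_lit 289) (nat_lit 5) (nat_lit 297) (nat_lit 5) (nat_lit 298) (nat_lit 5)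 (nat_lit 613) (nat_lit 556) (nat_lit 391)))) (XT.nd (nat_lit 156) (nat_lit 684) (nat_lit 0) (XT.nd (nat_lit 78) (nat_lit 0) (nat_lit 0) (XT.lf (nat_lit 0) (nat_lit 1133527399) (nat_lit 608) (nat_lit 9547514017) (nat_lit 684) (nat_lit 5079687791) (nat_lit 281) (nat_lit 5) (nat_lit 289) (nat_lit 5) (nat_lit 290) (nat_lit 5) (nat_lit 614) (nat_lit 556) (nat_lit 390)) (XT.lf (nat_lit 0) (nat_lit 10715575703) (nat_lit 608) (nat_lit 3156355222) (nat_lit 684) (nat_lit 2067539841) (nat_lit 281) (nat_lit 5) (nat_lit 289) (nat_lit 5) (nat_lit 290) (nat_lit 5) (nat_lit 615) (nat_lit 556) (nat_lit 389))) (XT.nd (nat_lit 78) (nat_lit 0) (nat_lit 0) (XT.lf (nat_lit 0) (nat_lit 1032556796) (nat_lit 684) (nat_lit 11737116509) (nat_lit 76) (nat_lit 3351165896) (nat_lit 272) (nat_lit 5) (nat_lit 281) (nat_lit 5) (nat_lit 273) (nat_lit 5) (nat_lit 616) (nat_lit 556) (nat_lit 388)) (XT.lf (nat_lit 0) (nat_lit 4213509134) (nat_lit 684) (nat_lit 2098281299) (nat_lit 76) (nat_lit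 9992840696) (nat_lit 272) (nat_lit 5) (nat_lit 281) (nat_lit 5) (nat_lit 273) (nat_lit 5) (nat_lit 617) (nat_lit 556) (nat_lit 387))))) (XT.nd (nat_lit 312) (nat_lit 988) (nat_lit 0) (XT.nd (nat_lit 156) (nat_lit 608) (nat_lit 0) (XT.nd (nat_lit 78) (nat_lit 608) (nat_lit 0) (XT.lf (nat_lit 0) (nat_lit 7501492778) (nat_lit 608) (nat_lit 8669816134) (nat_lit 76) (nat_lit 319921950) (nat_lit 265) (nat_lit 5) (nat_lit 273) (nat_lit 5) (nat_lit 266) (nat_lit 5) (nat_lit 618) (nat_lit 556) (nat_lit 386)) (XT.lf (nat_lit 0) (nat_lit 1248686043) (nat_lit 608) (nat_lit 9661230168) (nat_lit 684) (nat_lit 5770552980) (nat_lit 257) (nat_lit 5) (nat_lit 265) (nat_lit 5) (nat_lit 266) (nat_lit 5) (nat_lit 619) (nat_lit 556) (nat_lit 385))) (XT.nd (nat_lit 78) (nat_lit 608) (nat_lit 0) (XT.lf (nat_lit 0) (nat_lit 11470697935) (nat_lit 608) (nat_lit 2964692210) (nat_lit 684) (nat_lit 2437124705) (nat_lit 257) (nat_lit 5) (nat_lit 265) (nat_lit 5) (nat_lit 266) (nat_lit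 5) (nat_lit 620) (nat_lit 556) (nat_lit 384)) (XT.lf (nat_lit 0) (nat_lit 998143736) (nat_lit 608) (nat_lit 12218996716) (nat_lit 76) (nat_lit 3850180096) (nat_lit 249) (nat_lit 5) (nat_lit 257) (nat_lit 5) (nat_lit 250) (nat_lit 5) (nat_lit 621) (nat_lit 556) (nat_lit 383)))) (XT.nd (nat_lit 156) (nat_lit 456) (nat_lit 0) (XT.nd (nat_lit 78) (nat_lit 532) (nat_lit 0) (XT.lf (nat_lit 0) (nat_lit 4516543161) (nat_lit 608) (nat_lit 1936962775) (nat_lit 76) (nat_lit 10811253252) (nat_lit 249) (nat_lit 5) (nat_lit 257) (nat_lit 5) (nat_lit 250) (nat_lit 5) (nat_lit 622) (nat_lit 556) (nat_lit 382)) (XT.lf (nat_lit 0) (nat_lit 8155812560) (nat_lit 608) (nat_lit 8816359458) (nat_lit 76) (nat_lit 492964731) (nat_lit 242) (nat_lit 5) (nat_lit 250) (nat_lit 5) (nat_lit 243) (nat_lit 5) (nat_lit 623) (nat_lit 556) (nat_lit 381))) (XT.nd (nat_lit 78) (nat_lit 0) (nat_lit 0) (XT.lf (nat_lit 0) (nat_lit 1771458425) (nat_lit 456) (nat_lit 10154892691) (nat_lit 532)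 (nat_lit 5742001251) (nat_lit 236) (nat_lit 5) (nat_lit 242) (nat_lit 5) (nat_lit 243) (nat_lit 5) (nat_lit 624) (nat_lit 556) (nat_lit 380)) (XT.lf (nat_lit 0) (nat_lit 12678444508) (nat_lit 456) (nat_lit 3144272870) (nat_lit 532) (nat_lit 2051906763) (nat_lit 236) (nat_lit 5) (nat_lit 242) (nat_lit 5) (nat_lit 243) (nat_lit 5) (nat_lit 625) (nat_lit 556) (nat_lit 379)))))) (XT.nd (nat_lit 624) (nat_lit 2964) (nat_lit 0) (XT.nd (nat_lit 312) (nat_lit 988) (nat_lit 0) (XT.nd (nat_lit 156) (nat_lit 912) (nat_lit 0) (XT.nd (nat_lit 78) (nat_lit 0) (nat_lit 0) (XT.lf (nat_lit 0) (nat_lit 1744689032) (nat_lit 608) (nat_lit 12339386399) (nat_lit 76) (nat_lit 3999620734) (nat_lit 228) (nat_lit 5) (nat_lit 236) (nat_lit 5) (nat_lit 229) (nat_lit 5) (nat_lit 626) (nat_lit 556) (nat_lit 378)) (XT.lf (nat_lit 0) (nat_lit 5637129674) (nat_lit 608) (nat_lit 1368894724) (nat_lit 76) (nat_lit 11289706380) (nat_lit 228) (nat_lit 5) (nat_lit 236) (nat_lit 5) (nat_lit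 229) (nat_lit 5) (nat_lit 627) (nat_lit 556) (nat_lit 377))) (XT.nd (nat_lit 78) (nat_lit 456) (nat_lit 0) (XT.lf (nat_lit 0) (nat_lit 9665352404) (nat_lit 532) (nat_lit 8573117652) (nat_lit 76) (nat_lit 272377528) (nat_lit 222) (nat_lit 5) (nat_lit 229) (nat_lit 5) (nat_lit 223) (nat_lit 5) (nat_lit 628) (nat_lit 556) (nat_lit 376)) (XT.lf (nat_lit 0) (nat_lit 2736516901) (nat_lit 456) (nat_lit 11102707596) (nat_lit 532) (nat_lit 4889740692) (nat_lit 216) (nat_lit 5) (nat_lit 222) (nat_lit 5) (nat_lit 223) (nat_lit 5) (nat_lit 629) (nat_lit 556) (nat_lit 375)))) (XT.nd (nat_lit 156) (nat_lit 456) (nat_lit 0) (XT.nd (nat_lit 78) (nat_lit 532) (nat_lit 0) (XT.lf (nat_lit 0) (nat_lit 14376758666) (nat_lit 456) (nat_lit 3769105455) (nat_lit 532) (nat_lit 804595384) (nat_lit 216) (nat_lit 5) (nat_lit 222) (nat_lit 5) (nat_lit 223) (nat_lit 5) (nat_lit 630) (nat_lit 556) (nat_lit 374)) (XT.lf (nat_lit 0) (nat_lit 3380863072) (nat_lit 532) (nat_lit 12066232147)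 (nat_lit 76) (nat_lit 3727597906) (nat_lit 209) (nat_lit 5) (nat_lit 216) (nat_lit 5) (nat_lit 210) (nat_lit 5) (nat_lit 631) (nat_lit 556) (nat_lit 373))) (XT.nd (nat_lit 78) (nat_lit 456) (nat_lit 0) (XT.lf (nat_lit 0) (nat_lit 7687052392) (nat_lit 532) (nat_lit 358761036) (nat_lit 76) (nat_lit 11356535868) (nat_lit 209) (nat_lit 5) (nat_lit 216) (nat_lit 5) (nat_lit 210) (nat_lit 5) (nat_lit 632) (nat_lit 556) (nat_lit 372)) (XT.lf (nat_lit 0) (nat_lit 11725132261) (nat_lit 456) (nat_lit 422447820) (nat_lit 532) (nat_lit 7485614365) (nat_lit 203) (nat_lit 5) (nat_lit 209) (nat_lit 5) (nat_lit 210) (nat_lit 5) (nat_lit 633) (nat_lit 556) (nat_lit 371))))) (XT.nd (nat_lit 312) (nat_lit 1672) (nat_lit 0) (XT.nd (nat_lit 156) (nat_lit 836) (nat_lit 0) (XT.nd (nat_lit 78) (nat_lit 76) (nat_lit 0) (XT.lf (nat_lit 0) (nat_lit 4182491109) (nat_lit 380) (nat_lit 12584294039) (nat_lit 456) (nat_lit 3100482159) (nat_lit 198) (nat_lit 5) (nat_lit 203) (nat_lit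 5) (nat_lit 204) (nat_lit 5) (nat_lit 634) (nat_lit 556) (nat_lit 370)) (XT.lf (nat_lit 0) (nat_lit 1402743059) (nat_lit 456) (nat_lit 3506558563) (nat_lit 76) (nat_lit 15195574157) (nat_lit 197) (nat_lit 5) (nat_lit 203) (nat_lit 5) (nat_lit 198) (nat_lit 5) (nat_lit 635) (nat_lit 556) (nat_lit 369))) (XT.nd (nat_lit 78) (nat_lit 380) (nat_lit 0) (XT.lf (nat_lit 0) (nat_lit 6024777599) (nat_lit 532) (nat_lit 11363880755) (nat_lit 76) (nat_lit 2956763114) (nat_lit 191) (nat_lit 5) (nat_lit 198) (nat_lit 5) (nat_lit 192) (nat_lit 5) (nat_lit 636) (nat_lit 556) (nat_lit 368)) (XT.lf (nat_lit 0) (nat_lit 1147593611) (nat_lit 380) (nat_lit 9647688118) (nat_lit 456) (nat_lit 9794375897) (nat_lit 186) (nat_lit 5) (nat_lit 191) (nat_lit 5) (nat_lit 192) (nat_lit 5) (nat_lit 637) (nat_lit 556) (nat_lit 367)))) (XT.nd (nat_lit 156) (nat_lit 1292) (nat_lit 0) (XT.nd (nat_lit 78) (nat_lit 380) (nat_lit 0) (XT.lf (nat_lit 0) (nat_lit 14051996599) (nat_lit 380) (nat_lit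 1677912095) (nat_lit 456) (nat_lit 5107495688) (nat_lit 186) (nat_lit 5) (nat_lit 191) (nat_lit 5) (nat_lit 192) (nat_lit 5) (nat_lit 638) (nat_lit 556) (nat_lit 366)) (XT.lf (nat_lit 0) (nat_lit 6151936689) (nat_lit 380) (nat_lit 14685698725) (nat_lit 456) (nat_lit 250982644) (nat_lit 181) (nat_lit 5) (nat_lit 186) (nat_lit 5) (nat_lit 187) (nat_lit 5) (nat_lit 639) (nat_lit 556) (nat_lit 365))) (XT.nd (nat_lit 312) (nat_lit 1216) (nat_lit 0) (XT.lf (nat_lit 0) (nat_lit 4690534738) (nat_lit 456) (nat_lit 1957152877) (nat_lit 76) (nat_lit 14695566853) (nat_lit 180) (nat_lit 5) (nat_lit 186) (nat_lit 5) (nat_lit 181) (nat_lit 5) (nat_lit 640) (nat_lit 556) (nat_lit 364)) (XT.lf (nat_lit 0) (nat_lit 3743208755) (nat_lit 456) (nat_lit 13732145345) (nat_lit 76) (nat_lit 4922959214) (nat_lit 164) (nat_lit 5) (nat_lit 170) (nat_lit 5) (nat_lit 165) (nat_lit 5) (nat_lit 644) (nat_lit 556) (nat_lit 360))))))) (XT.nd (nat_lit 1170) (nat_lit 2964) (nat_lit 0) (XT.nd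 (nat_lit 546) (nat_lit 1748) (nat_lit 0) (XT.nd (nat_lit 234) (nat_lit 760) (nat_lit 0) (XT.nd (nat_lit 78) (nat_lit 304) (nat_lit 0) (XT.lf (nat_lit 0) (nat_lit 124910948) (nat_lit 380) (nat_lit 9081536942) (nat_lit 456) (nat_lit 13465098484) (nat_lit 159) (nat_lit 5) (nat_lit 164) (nat_lit 5) (nat_lit 165) (nat_lit 5) (nat_lit 645) (nat_lit 556) (nat_lit 359)) (XT.nd (nat_lit 78) (nat_lit 304) (nat_lit 0) (XT.lf (nat_lit 0) (nat_lit 14434382883) (nat_lit 380) (nat_lit 429786005) (nat_lit 456) (nat_lit 8084370973) (nat_lit 159) (nat_lit 5) (nat_lit 164) (nat_lit 5) (nat_lit 165) (nat_lit 5) (nat_lit 646) (nat_lit 556) (nat_lit 358)) (XT.lf (nat_lit 0) (nat_lit 5809896755) (nat_lit 304) (nat_lit 14910553205) (nat_lit 380) (nat_lit 2508915248) (nat_lit 155) (nat_lit 5) (nat_lit 159) (nat_lit 5) (nat_lit 160) (nat_lit 5) (nat_lit 647) (nat_lit 556) (nat_lit 357)))) (XT.nd (nat_lit 156) (nat_lit 304) (nat_lit 0) (XT.nd (nat_lit 78) (nat_lit 380) (nat_lit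 0) (XT.lf (nat_lit 0) (nat_lit 3189925524) (nat_lit 380) (nat_lit 3013465706) (nat_lit 76) (nat_lit 17310932123) (nat_lit 154) (nat_lit 5) (nat_lit 159) (nat_lit 5) (nat_lit 155) (nat_lit 5) (nat_lit 648) (nat_lit 556) (nat_lit 356)) (XT.lf (nat_lit 0) (nat_lit 9057157788) (nat_lit 456) (nat_lit 12012891878) (nat_lit 76) (nat_lit 2732839233) (nat_lit 149) (nat_lit 5) (nat_lit 155) (nat_lit 5) (nat_lit 150) (nat_lit 5) (nat_lit 649) (nat_lit 556) (nat_lit 355))) (XT.nd (nat_lit 78) (nat_lit 0) (nat_lit 0) (XT.lf (nat_lit 0) (nat_lit 2818695979) (nat_lit 304) (nat_lit 12296145631) (nat_lit 380) (nat_lit 8980922105) (nat_lit 145) (nat_lit 5) (nat_lit 149) (nat_lit 5) (nat_lit 150) (nat_lit 5) (nat_lit 650) (nat_lit 556) (nat_lit 354)) (XT.lf (nat_lit 0) (nat_lit 18099211570) (nat_lit 304) (nat_lit 3268510103) (nat_lit 380) (nat_lit 3025293599) (nat_lit 145) (nat_lit 5) (nat_lit 149) (nat_lit 5) (nat_lit 150) (nat_lit 5) (nat_lit 651) (nat_lit 556) (nat_lit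 353))))) (XT.nd (nat_lit 312) (nat_lit 684) (nat_lit 0) (XT.nd (nat_lit 156) (nat_lit 608) (nat_lit 0) (XT.nd (nat_lit 78) (nat_lit 0) (nat_lit 0) (XT.lf (nat_lit 0) (nat_lit 3100969624) (nat_lit 456) (nat_lit 15655862855) (nat_lit 76) (nat_lit 5937153168) (nat_lit 139) (nat_lit 5) (nat_lit 145) (nat_lit 5) (nat_lit 140) (nat_lit 5) (nat_lit 652) (nat_lit 556) (nat_lit 352)) (XT.lf (nat_lit 0) (nat_lit 9366997725) (nat_lit 456) (nat_lit 290545270) (nat_lit 76) (nat_lit 15341877613) (nat_lit 139) (nat_lit 5) (nat_lit 145) (nat_lit 5) (nat_lit 140) (nat_lit 5) (nat_lit 653) (nat_lit 556) (nat_lit 351))) (XT.nd (nat_lit 78) (nat_lit 304) (nat_lit 0) (XT.lf (nat_lit 0) (nat_lit 15576111185) (nat_lit 304) (nat_lit 277042346) (nat_lit 380) (nat_lit 9455914685) (nat_lit 135) (nat_lit 5) (nat_lit 139) (nat_lit 5) (nat_lit 140) (nat_lit 5) (nat_lit 654) (nat_lit 556) (nat_lit 350)) (XT.lf (nat_lit 0) (nat_lit 6149197046) (nat_lit 304) (nat_lit 16415755600) (nat_lit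 380) (nat_lit 3058037811) (nat_lit 131) (nat_lit 5) (nat_lit 135) (nat_lit 5) (nat_lit 136) (nat_lit 5) (nat_lit 655) (nat_lit 556) (nat_lit 349)))) (XT.nd (nat_lit 156) (nat_lit 304) (nat_lit 0) (XT.nd (nat_lit 78) (nat_lit 304) (nat_lit 0) (XT.lf (nat_lit 0) (nat_lit 3483621125) (nat_lit 380) (nat_lit 3496039688) (nat_lit 76) (nat_lit 18961854002) (nat_lit 130) (nat_lit 5) (nat_lit 135) (nat_lit 5) (nat_lit 131) (nat_lit 5) (nat_lit 656) (nat_lit 556) (nat_lit 348)) (XT.lf (nat_lit 0) (nat_lit 10210910453) (nat_lit 380) (nat_lit 13341647758) (nat_lit 76) (nat_lit 2711532372) (nat_lit 126) (nat_lit 5) (nat_lit 131) (nat_lit 5) (nat_lit 127) (nat_lit 5) (nat_lit 657) (nat_lit 556) (nat_lit 347))) (XT.nd (nat_lit 78) (nat_lit 0) (nat_lit 0) (XT.lf (nat_lit 0) (nat_lit 3108296236) (nat_lit 304) (nat_lit 14048346788) (nat_lit 380) (nat_lit 9434796973) (nat_lit 122) (nat_lit 5) (nat_lit 126) (nat_lit 5) (nat_lit 127) (nat_lit 5) (nat_lit 658) (nat_lit 556)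 (nat_lit 346)) (XT.lf (nat_lit 0) (nat_lit 20058027875) (nat_lit 304) (nat_lit 4266724356) (nat_lit 380) (nat_lit 2598915006) (nat_lit 122) (nat_lit 5) (nat_lit 126) (nat_lit 5) (nat_lit 127) (nat_lit 5) (nat_lit 659) (nat_lit 556) (nat_lit 345)))))) (XT.nd (nat_lit 624) (nat_lit 1368) (nat_lit 0) (XT.nd (nat_lit 312) (nat_lit 684) (nat_lit 0) (XT.nd (nat_lit 156) (nat_lit 532) (nat_lit 0) (XT.nd (nat_lit 78) (nat_lit 0) (nat_lit 0) (XT.lf (nat_lit 0) (nat_lit 4414102851) (nat_lit 380) (nat_lit 17119066226) (nat_lit 76) (nat_lit 5726846485) (nat_lit 117) (nat_lit 5) (nat_lit 122) (nat_lit 5) (nat_lit 118) (nat_lit 5) (nat_lit 660) (nat_lit 556) (nat_lit 344)) (XT.lf (nat_lit 0) (nat_lit 11601287428) (nat_lit 380) (nat_lit 77177894) (nat_lit 76) (nat_lit 15922907912) (nat_lit 117) (nat_lit 5) (nat_lit 122) (nat_lit 5) (nat_lit 118) (nat_lit 5) (nat_lit 661) (nat_lit 556) (nat_lit 343))) (XT.nd (nat_lit 78) (nat_lit 228) (nat_lit 0) (XT.lf (nat_lit 0) (nat_lit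 17525624514) (nat_lit 304) (nat_lit 1514535714) (nat_lit 380) (nat_lit 8907239012) (nat_lit 113) (nat_lit 5) (nat_lit 117) (nat_lit 5) (nat_lit 118) (nat_lit 5) (nat_lit 662) (nat_lit 556) (nat_lit 342)) (XT.lf (nat_lit 0) (nat_lit 7208451453) (nat_lit 228) (nat_lit 19518342470) (nat_lit 304) (nat_lit 1571572246) (nat_lit 110) (nat_lit 5) (nat_lit 113) (nat_lit 5) (nat_lit 114) (nat_lit 5) (nat_lit 663) (nat_lit 556) (nat_lit 341)))) (XT.nd (nat_lit 156) (nat_lit 304) (nat_lit 0) (XT.nd (nat_lit 78) (nat_lit 304) (nat_lit 0) (XT.lf (nat_lit 0) (nat_lit 5907910551) (nat_lit 304) (nat_lit 3381086027) (nat_lit 76) (nat_lit 19365095910) (nat_lit 109) (nat_lit 5) (nat_lit 113) (nat_lit 5) (nat_lit 110) (nat_lit 5) (nat_lit 664) (nat_lit 556) (nat_lit 340)) (XT.lf (nat_lit 0) (nat_lit 13614844061) (nat_lit 380) (nat_lit 14166287343) (nat_lit 76) (nat_lit 1233616144) (nat_lit 105) (nat_lit 5) (nat_lit 110) (nat_lit 5) (nat_lit 106) (nat_lit 5) (nat_lit 665) (nat_lit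 556) (nat_lit 339))) (XT.nd (nat_lit 78) (nat_lit 76) (nat_lit 0) (XT.lf (nat_lit 0) (nat_lit 4088576558) (nat_lit 228) (nat_lit 17492574229) (nat_lit 304) (nat_lit 7799360298) (nat_lit 102) (nat_lit 5) (nat_lit 105) (nat_lit 5) (nat_lit 106) (nat_lit 5) (nat_lit 666) (nat_lit 556) (nat_lit 338)) (XT.lf (nat_lit 0) (nat_lit 43845196) (nat_lit 304) (nat_lit 6861106564) (nat_lit 76) (nat_lit 22846843522) (nat_lit 101) (nat_lit 5) (nat_lit 105) (nat_lit 5) (nat_lit 102) (nat_lit 5) (nat_lit 667) (nat_lit 556) (nat_lit 337))))) (XT.nd (nat_lit 312) (nat_lit 532) (nat_lit 0) (XT.nd (nat_lit 156) (nat_lit 304) (nat_lit 0) (XT.nd (nat_lit 78) (nat_lit 228) (nat_lit 0) (XT.lf (nat_lit 0) (nat_lit 8038293479) (nat_lit 380) (nat_lit 18119079391) (nat_lit 76) (nat_lit 3970125038) (nat_lit 97) (nat_lit 5) (nat_lit 102) (nat_lit 5) (nat_lit 98) (nat_lit 5) (nat_lit 668) (nat_lit 556) (nat_lit 336)) (XT.lf (nat_lit 0) (nat_lit 793426598) (nat_lit 228) (nat_lit 15490908199)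 (nat_lit 304) (nat_lit 14224545766) (nat_lit 94) (nat_lit 5) (nat_lit 97) (nat_lit 5) (nat_lit 98) (nat_lit 5) (nat_lit 669) (nat_lit 556) (nat_lit 335))) (XT.nd (nat_lit 78) (nat_lit 304) (nat_lit 0) (XT.lf (nat_lit 0) (nat_lit 20320363317) (nat_lit 228) (nat_lit 4491047160) (nat_lit 304) (nat_lit 6084158185) (nat_lit 94) (nat_lit 5) (nat_lit 97) (nat_lit 5) (nat_lit 98) (nat_lit 5) (nat_lit 670) (nat_lit 556) (nat_lit 334)) (XT.lf (nat_lit 0) (nat_lit 2287388888) (nat_lit 304) (nat_lit 22290060561) (nat_lit 76) (nat_lit 6710303884) (nat_lit 90) (nat_lit 5) (nat_lit 94) (nat_lit 5) (nat_lit 91) (nat_lit 5) (nat_lit 671) (nat_lit 556) (nat_lit 333)))) (XT.nd (nat_lit 156) (nat_lit 304) (nat_lit 0) (XT.nd (nat_lit 78) (nat_lit 228) (nat_lit 0) (XT.lf (nat_lit 0) (nat_lit 10840770663) (nat_lit 304) (nat_lit 2660804185) (nat_lit 76) (nat_lit 18183485168) (nat_lit 90) (nat_lit 5) (nat_lit 94) (nat_lit 5) (nat_lit 91) (nat_lit 5) (nat_lit 672) (nat_lit 556)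 (nat_lit 332)) (XT.lf (nat_lit 0) (nat_lit 17582481891) (nat_lit 228) (nat_lit 2091618148) (nat_lit 304) (nat_lit 12414035249) (nat_lit 87) (nat_lit 5) (nat_lit 90) (nat_lit 5) (nat_lit 91) (nat_lit 5) (nat_lit 673) (nat_lit 556) (nat_lit 331))) (XT.nd (nat_lit 78) (nat_lit 76) (nat_lit 0) (XT.lf (nat_lit 0) (nat_lit 5772217330) (nat_lit 228) (nat_lit 23024054045) (nat_lit 304) (nat_lit 3700757236) (nat_lit 84) (nat_lit 5) (nat_lit 87) (nat_lit 5) (nat_lit 88) (nat_lit 5) (nat_lit 674) (nat_lit 556) (nat_lit 330)) (XT.lf (nat_lit 0) (nat_lit 5225349246) (nat_lit 304) (nat_lit 6317233767) (nat_lit 76) (nat_lit 21368711546) (nat_lit 83) (nat_lit 5) (nat_lit 87) (nat_lit 5) (nat_lit 84) (nat_lit 5) (nat_lit 675) (nat_lit 556) (nat_lit 329))))))))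
noncomputable def xc133 : XT := (XT.nd (nat_lit 2418) (nat_lit 13832) (nat_lit 0) (XT.nd (nat_lit 1170) (nat_lit 6156) (nat_lit 0) (XT.nd (nat_lit 546) (nat_lit 1368) (nat_lit 0) (XT.nd (nat_lit 234) (nat_lit 1520) (nat_lit 0) (XT.nd (nat_lit 78) (nat_lit 0) (nat_lit 0) (XT.lf (nat_lit 0) (nat_lit 3323763744) (nat_lit 1596) (nat_lit 603187108) (nat_lit 1596) (nat_lit 603187108) (nat_lit 573) (nat_lit 3) (nat_lit 594) (nat_lit 3) (nat_lit 594) (nat_lit 5) (nat_lit 557) (nat_lit 557) (nat_lit 446)) (XT.nd (nat_lit 78) (nat_lit 0) (nat_lit 0) (XT.lf (nat_lit 76) (nat_lit 3350870006) (nat_lit 0) (nat_lit 4272209639) (nat_lit 1596) (nat_lit 1509587253) (nat_lit 574) (nat_lit 5) (nat_lit 573) (nat_lit 3) (nat_lit 594) (nat_lit 5) (nat_lit 558) (nat_lit 557) (nat_lit 445)) (XT.lf (nat_lit 76) (nat_lit 8003583565) (nat_lit 0) (nat_lit 599301847) (nat_lit 1596) (nat_lit 603926225) (nat_lit 574) (nat_lit 5) (nat_lit 573) (nat_lit 3) (nat_lit 594) (nat_lit 5) (nat_lit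 559) (nat_lit 557) (nat_lit 444)))) (XT.nd (nat_lit 156) (nat_lit 0) (nat_lit 76) (XT.nd (nat_lit 78) (nat_lit 0) (nat_lit 0) (XT.lf (nat_lit 0) (nat_lit 335989290) (nat_lit 1596) (nat_lit 5804452202) (nat_lit 1672) (nat_lit 3141550286) (nat_lit 553) (nat_lit 5) (nat_lit 574) (nat_lit 5) (nat_lit 575) (nat_lit 5) (nat_lit 560) (nat_lit 557) (nat_lit 443)) (XT.lf (nat_lit 0) (nat_lit 1276116463) (nat_lit 1596) (nat_lit 1110846509) (nat_lit 1672) (nat_lit 6971843459) (nat_lit 553) (nat_lit 5) (nat_lit 574) (nat_lit 5) (nat_lit 575) (nat_lit 5) (nat_lit 561) (nat_lit 557) (nat_lit 442))) (XT.nd (nat_lit 78) (nat_lit 0) (nat_lit 0) (XT.lf (nat_lit 0) (nat_lit 2246575989) (nat_lit 1596) (nat_lit 5733671545) (nat_lit 1672) (nat_lit 1456679979) (nat_lit 554) (nat_lit 5) (nat_lit 575) (nat_lit 5) (nat_lit 576) (nat_lit 5) (nat_lit 562) (nat_lit 557) (nat_lit 441)) (XT.lf (nat_lit 0) (nat_lit 3238012543) (nat_lit 1596) (nat_lit 916336189) (nat_lit 1672) (nat_lit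 5362231648) (nat_lit 554) (nat_lit 5) (nat_lit 575) (nat_lit 5) (nat_lit 576) (nat_lit 5) (nat_lit 563) (nat_lit 557) (nat_lit 440))))) (XT.nd (nat_lit 312) (nat_lit 1444) (nat_lit 0) (XT.nd (nat_lit 156) (nat_lit 0) (nat_lit 76) (XT.nd (nat_lit 78) (nat_lit 0) (nat_lit 76) (XT.lf (nat_lit 76) (nat_lit 4037836649) (nat_lit 0) (nat_lit 216340240) (nat_lit 1672) (nat_lit 5343552138) (nat_lit 555) (nat_lit 5) (nat_lit 554) (nat_lit 5) (nat_lit 576) (nat_lit 5) (nat_lit 564) (nat_lit 557) (nat_lit 439)) (XT.lf (nat_lit 0) (nat_lit 5300605382) (nat_lit 1596) (nat_lit 614439424) (nat_lit 1672) (nat_lit 3765257714) (nat_lit 555) (nat_lit 5) (nat_lit 576) (nat_lit 5) (nat_lit 577) (nat_lit 5) (nat_lit 565) (nat_lit 557) (nat_lit 438))) (XT.nd (nat_lit 78) (nat_lit 0) (nat_lit 76) (XT.lf (nat_lit 76) (nat_lit 4474566522) (nat_lit 0) (nat_lit 1903366899) (nat_lit 1672) (nat_lit 3386395320) (nat_lit 556) (nat_lit 5) (nat_lit 555) (nat_lit 5) (nat_lit 577) (nat_lit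 5) (nat_lit 566) (nat_lit 557) (nat_lit 437)) (XT.lf (nat_lit 0) (nat_lit 7475025119) (nat_lit 1596) (nat_lit 203487782) (nat_lit 1672) (nat_lit 2171558907) (nat_lit 556) (nat_lit 5) (nat_lit 577) (nat_lit 5) (nat_lit 578) (nat_lit 5) (nat_lit 567) (nat_lit 557) (nat_lit 436)))) (XT.nd (nat_lit 156) (nat_lit 1596) (nat_lit 0) (XT.nd (nat_lit 78) (nat_lit 0) (nat_lit 76) (XT.lf (nat_lit 76) (nat_lit 5025087036) (nat_lit 0) (nat_lit 3594454945) (nat_lit 1672) (nat_lit 1317478739) (nat_lit 557) (nat_lit 5) (nat_lit 556) (nat_lit 5) (nat_lit 578) (nat_lit 5) (nat_lit 568) (nat_lit 557) (nat_lit 435)) (XT.lf (nat_lit 76) (nat_lit 322750223) (nat_lit 0) (nat_lit 9451979531) (nat_lit 1672) (nat_lit 251223885) (nat_lit 558) (nat_lit 5) (nat_lit 557) (nat_lit 5) (nat_lit 579) (nat_lit 5) (nat_lit 569) (nat_lit 557) (nat_lit 434))) (XT.nd (nat_lit 78) (nat_lit 0) (nat_lit 0) (XT.lf (nat_lit 0) (nat_lit 863141656) (nat_lit 1672) (nat_lit 4429993456) (nat_lit 1748)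 (nat_lit 4822667021) (nat_lit 535) (nat_lit 5) (nat_lit 557) (nat_lit 5) (nat_lit 558) (nat_lit 5) (nat_lit 570) (nat_lit 557) (nat_lit 433)) (XT.lf (nat_lit 76) (nat_lit 946444431) (nat_lit 0) (nat_lit 1037281595) (nat_lit 1748) (nat_lit 8223943052) (nat_lit 536) (nat_lit 5) (nat_lit 535) (nat_lit 5) (nat_lit 558) (nat_lit 5) (nat_lit 571) (nat_lit 557) (nat_lit 432)))))) (XT.nd (nat_lit 624) (nat_lit 4636) (nat_lit 0) (XT.nd (nat_lit 312) (nat_lit 1596) (nat_lit 0) (XT.nd (nat_lit 156) (nat_lit 0) (nat_lit 76) (XT.nd (nat_lit 78) (nat_lit 0) (nat_lit 0) (XT.lf (nat_lit 0) (nat_lit 3159566299) (nat_lit 1672) (nat_lit 3845273235) (nat_lit 1748) (nat_lit 3295877534) (nat_lit 536) (nat_lit 5) (nat_lit 558) (nat_lit 5) (nat_lit 559) (nat_lit 5) (nat_lit 572) (nat_lit 557) (nat_lit 431)) (XT.lf (nat_lit 76) (nat_lit 1681128431) (nat_lit 0) (nat_lit 2677412710) (nat_lit 1748) (nat_lit 6037093099) (nat_lit 537) (nat_lit 5) (nat_lit 536) (nat_lit 5) (nat_lit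 559) (nat_lit 5) (nat_lit 573) (nat_lit 557) (nat_lit 430))) (XT.nd (nat_lit 78) (nat_lit 0) (nat_lit 0) (XT.lf (nat_lit 0) (nat_lit 5600882518) (nat_lit 1672) (nat_lit 3146549968) (nat_lit 1748) (nat_lit 1744630095) (nat_lit 537) (nat_lit 5) (nat_lit 559) (nat_lit 5) (nat_lit 560) (nat_lit 5) (nat_lit 574) (nat_lit 557) (nat_lit 429)) (XT.lf (nat_lit 76) (nat_lit 2535192792) (nat_lit 0) (nat_lit 4349556967) (nat_lit 1748) (nat_lit 3705336705) (nat_lit 538) (nat_lit 5) (nat_lit 537) (nat_lit 5) (nat_lit 560) (nat_lit 5) (nat_lit 575) (nat_lit 557) (nat_lit 428)))) (XT.nd (nat_lit 156) (nat_lit 1748) (nat_lit 0) (XT.nd (nat_lit 78) (nat_lit 0) (nat_lit 0) (XT.lf (nat_lit 0) (nat_lit 8199208188) (nat_lit 1672) (nat_lit 2330828008) (nat_lit 1748) (nat_lit 159936895) (nat_lit 538) (nat_lit 5) (nat_lit 560) (nat_lit 5) (nat_lit 561) (nat_lit 5) (nat_lit 576) (nat_lit 557) (nat_lit 427)) (XT.lf (nat_lit 76) (nat_lit 3511857326) (nat_lit 0) (nat_lit 6062816748)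 (nat_lit 1748) (nat_lit 1216489547) (nat_lit 539) (nat_lit 5) (nat_lit 538) (nat_lit 5) (nat_lit 561) (nat_lit 5) (nat_lit 577) (nat_lit 557) (nat_lit 426))) (XT.nd (nat_lit 78) (nat_lit 0) (nat_lit 76) (XT.lf (nat_lit 0) (nat_lit 81171651) (nat_lit 1748) (nat_lit 1404970147) (nat_lit 1824) (nat_lit 9408246014) (nat_lit 515) (nat_lit 5) (nat_lit 538) (nat_lit 5) (nat_lit 539) (nat_lit 5) (nat_lit 578) (nat_lit 557) (nat_lit 425)) (XT.lf (nat_lit 0) (nat_lit 1423061602) (nat_lit 1748) (nat_lit 6393696867) (nat_lit 1824) (nat_lit 3182066414) (nat_lit 516) (nat_lit 5) (nat_lit 539) (nat_lit 5) (nat_lit 540) (nat_lit 5) (nat_lit 579) (nat_lit 557) (nat_lit 424))))) (XT.nd (nat_lit 312) (nat_lit 3040) (nat_lit 0) (XT.nd (nat_lit 156) (nat_lit 1672) (nat_lit 0) (XT.nd (nat_lit 78) (nat_lit 0) (nat_lit 76) (XT.lf (nat_lit 0) (nat_lit 2794957662) (nat_lit 1748) (nat_lit 373845982) (nat_lit 1824) (nat_lit 7936484178) (nat_lit 516) (nat_lit 5) (nat_lit 539) (nat_lit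 5) (nat_lit 540) (nat_lit 5) (nat_lit 580) (nat_lit 557) (nat_lit 423)) (XT.lf (nat_lit 0) (nat_lit 4226772141) (nat_lit 1748) (nat_lit 5394047556) (nat_lit 76) (nat_lit 1592411197) (nat_lit 517) (nat_lit 5) (nat_lit 540) (nat_lit 5) (nat_lit 518) (nat_lit 5) (nat_lit 581) (nat_lit 557) (nat_lit 422))) (XT.nd (nat_lit 78) (nat_lit 0) (nat_lit 0) (XT.lf (nat_lit 0) (nat_lit 794032516) (nat_lit 1748) (nat_lit 4906253828) (nat_lit 1824) (nat_lit 5622785689) (nat_lit 494) (nat_lit 5) (nat_lit 517) (nat_lit 5) (nat_lit 518) (nat_lit 5) (nat_lit 582) (nat_lit 557) (nat_lit 421)) (XT.lf (nat_lit 0) (nat_lit 7165841545) (nat_lit 1748) (nat_lit 58244017) (nat_lit 1824) (nat_lit 4210608603) (nat_lit 494) (nat_lit 5) (nat_lit 517) (nat_lit 5) (nat_lit 518) (nat_lit 5) (nat_lit 583) (nat_lit 557) (nat_lit 420)))) (XT.nd (nat_lit 156) (nat_lit 1216) (nat_lit 0) (XT.nd (nat_lit 78) (nat_lit 0) (nat_lit 0) (XT.lf (nat_lit 0) (nat_lit 2099131837) (nat_lit 1824) (nat_lit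 6709519398) (nat_lit 1900) (nat_lit 2739292149) (nat_lit 470) (nat_lit 5) (nat_lit 494) (nat_lit 5) (nat_lit 495) (nat_lit 5) (nat_lit 584) (nat_lit 557) (nat_lit 419)) (XT.lf (nat_lit 0) (nat_lit 8638828656) (nat_lit 1824) (nat_lit 1800252872) (nat_lit 1900) (nat_lit 1224093043) (nat_lit 470) (nat_lit 5) (nat_lit 494) (nat_lit 5) (nat_lit 495) (nat_lit 5) (nat_lit 585) (nat_lit 557) (nat_lit 418))) (XT.nd (nat_lit 78) (nat_lit 0) (nat_lit 0) (XT.lf (nat_lit 0) (nat_lit 346648420) (nat_lit 1216) (nat_lit 8241346170) (nat_lit 76) (nat_lit 3192085409) (nat_lit 454) (nat_lit 5) (nat_lit 470) (nat_lit 5) (nat_lit 455) (nat_lit 5) (nat_lit 586) (nat_lit 557) (nat_lit 417)) (XT.lf (nat_lit 0) (nat_lit 1950332157) (nat_lit 1216) (nat_lit 1658283041) (nat_lit 76) (nat_lit 8290188571) (nat_lit 454) (nat_lit 5) (nat_lit 470) (nat_lit 5) (nat_lit 455) (nat_lit 5) (nat_lit 587) (nat_lit 557) (nat_lit 416))))))) (XT.nd (nat_lit 1170) (nat_lit 6156) (nat_lit 0) (XT.nd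 (nat_lit 546) (nat_lit 4028) (nat_lit 0) (XT.nd (nat_lit 234) (nat_lit 1824) (nat_lit 0) (XT.nd (nat_lit 78) (nat_lit 912) (nat_lit 0) (XT.lf (nat_lit 0) (nat_lit 3614878218) (nat_lit 988) (nat_lit 6918842929) (nat_lit 76) (nat_lit 1485605509) (nat_lit 442) (nat_lit 5) (nat_lit 455) (nat_lit 5) (nat_lit 443) (nat_lit 5) (nat_lit 588) (nat_lit 557) (nat_lit 415)) (XT.nd (nat_lit 78) (nat_lit 912) (nat_lit 0) (XT.lf (nat_lit 0) (nat_lit 5333850043) (nat_lit 988) (nat_lit 162318898) (nat_lit 76) (nat_lit 6645668767) (nat_lit 442) (nat_lit 5) (nat_lit 455) (nat_lit 5) (nat_lit 443) (nat_lit 5) (nat_lit 589) (nat_lit 557) (nat_lit 414)) (XT.lf (nat_lit 0) (nat_lit 6805637933) (nat_lit 912) (nat_lit 312058991) (nat_lit 988) (nat_lit 5148492542) (nat_lit 430) (nat_lit 5) (nat_lit 442) (nat_lit 5) (nat_lit 443) (nat_lit 5) (nat_lit 590) (nat_lit 557) (nat_lit 413)))) (XT.nd (nat_lit 156) (nat_lit 988) (nat_lit 0) (XT.nd (nat_lit 78) (nat_lit 0) (nat_lit 0) (XT.lf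 (nat_lit 0) (nat_lit 1496314903) (nat_lit 836) (nat_lit 7470521058) (nat_lit 912) (nat_lit 3425600381) (nat_lit 419) (nat_lit 5) (nat_lit 430) (nat_lit 5) (nat_lit 431) (nat_lit 5) (nat_lit 591) (nat_lit 557) (nat_lit 412)) (XT.lf (nat_lit 0) (nat_lit 8651186015) (nat_lit 836) (nat_lit 2227145857) (nat_lit 912) (nat_lit 1642369184) (nat_lit 419) (nat_lit 5) (nat_lit 430) (nat_lit 5) (nat_lit 431) (nat_lit 5) (nat_lit 592) (nat_lit 557) (nat_lit 411))) (XT.nd (nat_lit 78) (nat_lit 0) (nat_lit 0) (XT.lf (nat_lit 0) (nat_lit 203081675) (nat_lit 988) (nat_lit 9344618912) (nat_lit 76) (nat_lit 3103230517) (nat_lit 406) (nat_lit 5) (nat_lit 419) (nat_lit 5) (nat_lit 407) (nat_lit 5) (nat_lit 593) (nat_lit 557) (nat_lit 410)) (XT.lf (nat_lit 0) (nat_lit 2091385426) (nat_lit 988) (nat_lit 2144087884) (nat_lit 76) (nat_lit 8547516977) (nat_lit 406) (nat_lit 5) (nat_lit 419) (nat_lit 5) (nat_lit 407) (nat_lit 5) (nat_lit 594) (nat_lit 557) (nat_lit 409))))) (XT.nd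 (nat_lit 312) (nat_lit 1596) (nat_lit 0) (XT.nd (nat_lit 156) (nat_lit 1596) (nat_lit 0) (XT.nd (nat_lit 78) (nat_lit 0) (nat_lit 0) (XT.lf (nat_lit 0) (nat_lit 4046770885) (nat_lit 912) (nat_lit 7668668755) (nat_lit 76) (nat_lit 1201665053) (nat_lit 395) (nat_lit 5) (nat_lit 407) (nat_lit 5) (nat_lit 396) (nat_lit 5) (nat_lit 595) (nat_lit 557) (nat_lit 408)) (XT.lf (nat_lit 0) (nat_lit 6071242602) (nat_lit 912) (nat_lit 276943350) (nat_lit 76) (nat_lit 6705116210) (nat_lit 395) (nat_lit 5) (nat_lit 407) (nat_lit 5) (nat_lit 396) (nat_lit 5) (nat_lit 596) (nat_lit 557) (nat_lit 407))) (XT.nd (nat_lit 78) (nat_lit 760) (nat_lit 0) (XT.lf (nat_lit 0) (nat_lit 7346159968) (nat_lit 836) (nat_lit 825431903) (nat_lit 912) (nat_lit 5019924286) (nat_lit 384) (nat_lit 5) (nat_lit 395) (nat_lit 5) (nat_lit 396) (nat_lit 5) (nat_lit 597) (nat_lit 557) (nat_lit 406)) (XT.lf (nat_lit 0) (nat_lit 1772077463) (nat_lit 760) (nat_lit 8574309221) (nat_lit 836) (nat_lit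 2985459308) (nat_lit 374) (nat_lit 5) (nat_lit 384) (nat_lit 5) (nat_lit 385) (nat_lit 5) (nat_lit 598) (nat_lit 557) (nat_lit 405)))) (XT.nd (nat_lit 156) (nat_lit 760) (nat_lit 0) (XT.nd (nat_lit 78) (nat_lit 836) (nat_lit 0) (XT.lf (nat_lit 0) (nat_lit 9602683103) (nat_lit 760) (nat_lit 2994651927) (nat_lit 836) (nat_lit 876994565) (nat_lit 374) (nat_lit 5) (nat_lit 384) (nat_lit 5) (nat_lit 385) (nat_lit 5) (nat_lit 599) (nat_lit 557) (nat_lit 404)) (XT.lf (nat_lit 0) (nat_lit 1288804620) (nat_lit 836) (nat_lit 9635270717) (nat_lit 76) (nat_lit 2694785078) (nat_lit 363) (nat_lit 5) (nat_lit 374) (nat_lit 5) (nat_lit 364) (nat_lit 5) (nat_lit 600) (nat_lit 557) (nat_lit 403))) (XT.nd (nat_lit 78) (nat_lit 760) (nat_lit 0) (XT.lf (nat_lit 0) (nat_lit 3520474829) (nat_lit 836) (nat_lit 1756084303) (nat_lit 76) (nat_lit 8488921126) (nat_lit 363) (nat_lit 5) (nat_lit 374) (nat_lit 5) (nat_lit 364) (nat_lit 5) (nat_lit 601) (nat_lit 557) (nat_lit 402)) (XT.lf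 (nat_lit 0) (nat_lit 5829953966) (nat_lit 836) (nat_lit 7566528494) (nat_lit 76) (nat_lit 517886831) (nat_lit 353) (nat_lit 5) (nat_lit 364) (nat_lit 5) (nat_lit 354) (nat_lit 5) (nat_lit 602) (nat_lit 557) (nat_lit 401)))))) (XT.nd (nat_lit 624) (nat_lit 2584) (nat_lit 0) (XT.nd (nat_lit 312) (nat_lit 2052) (nat_lit 0) (XT.nd (nat_lit 156) (nat_lit 760) (nat_lit 0) (XT.nd (nat_lit 78) (nat_lit 0) (nat_lit 0) (XT.lf (nat_lit 0) (nat_lit 530783669) (nat_lit 760) (nat_lit 7693758008) (nat_lit 836) (nat_lit 5840916340) (nat_lit 343) (nat_lit 5) (nat_lit 353) (nat_lit 5) (nat_lit 354) (nat_lit 5) (nat_lit 603) (nat_lit 557) (nat_lit 400)) (XT.lf (nat_lit 0) (nat_lit 8879888915) (nat_lit 760) (nat_lit 1826713662) (nat_lit 836) (nat_lit 3512174601) (nat_lit 343) (nat_lit 5) (nat_lit 353) (nat_lit 5) (nat_lit 354) (nat_lit 5) (nat_lit 604) (nat_lit 557) (nat_lit 399))) (XT.nd (nat_lit 78) (nat_lit 76) (nat_lit 0) (XT.lf (nat_lit 0) (nat_lit 3020756844) (nat_lit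 684) (nat_lit 10253170795) (nat_lit 760) (nat_lit 1100522909) (nat_lit 334) (nat_lit 5) (nat_lit 343) (nat_lit 5) (nat_lit 344) (nat_lit 5) (nat_lit 605) (nat_lit 557) (nat_lit 398)) (XT.lf (nat_lit 0) (nat_lit 1378772279) (nat_lit 760) (nat_lit 2946458658) (nat_lit 76) (nat_lit 10207085427) (nat_lit 333) (nat_lit 5) (nat_lit 343) (nat_lit 5) (nat_lit 334) (nat_lit 5) (nat_lit 606) (nat_lit 557) (nat_lit 397)))) (XT.nd (nat_lit 156) (nat_lit 1368) (nat_lit 0) (XT.nd (nat_lit 78) (nat_lit 0) (nat_lit 0) (XT.lf (nat_lit 0) (nat_lit 3930581522) (nat_lit 760) (nat_lit 9020443693) (nat_lit 76) (nat_lit 1741415776) (nat_lit 324) (nat_lit 5) (nat_lit 334) (nat_lit 5) (nat_lit 325) (nat_lit 5) (nat_lit 607) (nat_lit 557) (nat_lit 396)) (XT.lf (nat_lit 0) (nat_lit 6571383056) (nat_lit 760) (nat_lit 393995165) (nat_lit 76) (nat_lit 7889631031) (nat_lit 324) (nat_lit 5) (nat_lit 334) (nat_lit 5) (nat_lit 325) (nat_lit 5) (nat_lit 608) (nat_lit 557) (nat_lit 395)))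 (XT.nd (nat_lit 78) (nat_lit 684) (nat_lit 0) (XT.lf (nat_lit 0) (nat_lit 8504153046) (nat_lit 684) (nat_lit 805678807) (nat_lit 760) (nat_lit 5710100655) (nat_lit 315) (nat_lit 5) (nat_lit 324) (nat_lit 5) (nat_lit 325) (nat_lit 5) (nat_lit 609) (nat_lit 557) (nat_lit 394)) (XT.lf (nat_lit 0) (nat_lit 2380673555) (nat_lit 684) (nat_lit 9765783475) (nat_lit 760) (nat_lit 3040829303) (nat_lit 306) (nat_lit 5) (nat_lit 315) (nat_lit 5) (nat_lit 316) (nat_lit 5) (nat_lit 610) (nat_lit 557) (nat_lit 393))))) (XT.nd (nat_lit 312) (nat_lit 1292) (nat_lit 0) (XT.nd (nat_lit 156) (nat_lit 608) (nat_lit 0) (XT.nd (nat_lit 78) (nat_lit 684) (nat_lit 0) (XT.lf (nat_lit 0) (nat_lit 11525580510) (nat_lit 684) (nat_lit 3553107357) (nat_lit 760) (nat_lit 278522151) (nat_lit 306) (nat_lit 5) (nat_lit 315) (nat_lit 5) (nat_lit 316) (nat_lit 5) (nat_lit 611) (nat_lit 557) (nat_lit 392)) (XT.lf (nat_lit 0) (nat_lit 2548941595) (nat_lit 684) (nat_lit 10183664193) (nat_lit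 76) (nat_lit 2796732720) (nat_lit 297) (nat_lit 5) (nat_lit 306) (nat_lit 5) (nat_lit 298) (nat_lit 5) (nat_lit 612) (nat_lit 557) (nat_lit 391))) (XT.nd (nat_lit 78) (nat_lit 608) (nat_lit 0) (XT.lf (nat_lit 0) (nat_lit 5468725260) (nat_lit 684) (nat_lit 983862303) (nat_lit 76) (nat_lit 9251495414) (nat_lit 297) (nat_lit 5) (nat_lit 306) (nat_lit 5) (nat_lit 298) (nat_lit 5) (nat_lit 613) (nat_lit 557) (nat_lit 390)) (XT.lf (nat_lit 0) (nat_lit 8492410204) (nat_lit 684) (nat_lit 7382194941) (nat_lit 76) (nat_lit 6807305) (nat_lit 289) (nat_lit 5) (nat_lit 298) (nat_lit 5) (nat_lit 290) (nat_lit 5) (nat_lit 614) (nat_lit 557) (nat_lit 389)))) (XT.nd (nat_lit 156) (nat_lit 684) (nat_lit 0) (XT.nd (nat_lit 78) (nat_lit 0) (nat_lit 0) (XT.lf (nat_lit 0) (nat_lit 2095608740) (nat_lit 608) (nat_lit 9534318874) (nat_lit 684) (nat_lit 4431293949) (nat_lit 281) (nat_lit 5) (nat_lit 289) (nat_lit 5) (nat_lit 290) (nat_lit 5) (nat_lit 615) (nat_lit 557) (nat_lit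 388)) (XT.lf (nat_lit 0) (nat_lit 11850878191) (nat_lit 608) (nat_lit 3019339755) (nat_lit 684) (nat_lit 1373608678) (nat_lit 281) (nat_lit 5) (nat_lit 289) (nat_lit 5) (nat_lit 290) (nat_lit 5) (nat_lit 616) (nat_lit 557) (nat_lit 387))) (XT.nd (nat_lit 78) (nat_lit 0) (nat_lit 0) (XT.lf (nat_lit 0) (nat_lit 1771965704) (nat_lit 684) (nat_lit 11034311469) (nat_lit 76) (nat_lit 3622587713) (nat_lit 272) (nat_lit 5) (nat_lit 281) (nat_lit 5) (nat_lit 273) (nat_lit 5) (nat_lit 617) (nat_lit 557) (nat_lit 386)) (XT.lf (nat_lit 0) (nat_lit 5002443798) (nat_lit 684) (nat_lit 1221082836) (nat_lit 76) (nat_lit 10393088195) (nat_lit 272) (nat_lit 5) (nat_lit 281) (nat_lit 5) (nat_lit 273) (nat_lit 5) (nat_lit 618) (nat_lit 557) (nat_lit 385))))))))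
noncomputable def xc134 : XT := (XT.nd (nat_lit 2418) (nat_lit 5396) (nat_lit 0) (XT.nd (nat_lit 1170) (nat_lit 3724) (nat_lit 0) (XT.nd (nat_lit 546) (nat_lit 2508) (nat_lit 0) (XT.nd (nat_lit 234) (nat_lit 1596) (nat_lit 0) (XT.nd (nat_lit 78) (nat_lit 608) (nat_lit 0) (XT.lf (nat_lit 0) (nat_lit 8349703354) (nat_lit 608) (nat_lit 7917549280) (nat_lit 76) (nat_lit 539823904) (nat_lit 265) (nat_lit 5) (nat_lit 273) (nat_lit 5) (nat_lit 266) (nat_lit 5) (nat_lit 619) (nat_lit 557) (nat_lit 384)) (XT.nd (nat_lit 78) (nat_lit 0) (nat_lit 0) (XT.lf (nat_lit 0) (nat_lit 2193233051) (nat_lit 608) (nat_lit 9625342866) (nat_lit 684) (nat_lit 5181678405) (nat_lit 257) (nat_lit 5) (nat_lit 265) (nat_lit 5) (nat_lit 266) (nat_lit 5) (nat_lit 620) (nat_lit 557) (nat_lit 383)) (XT.lf (nat_lit 0) (nat_lit 12601654332) (nat_lit 608) (nat_lit 2799366539) (nat_lit 684) (nat_lit 1795391086) (nat_lit 257) (nat_lit 5) (nat_lit 265) (nat_lit 5) (nat_lit 266) (nat_lit 5) (nat_lit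 621) (nat_lit 557) (nat_lit 382)))) (XT.nd (nat_lit 156) (nat_lit 988) (nat_lit 0) (XT.nd (nat_lit 78) (nat_lit 0) (nat_lit 0) (XT.lf (nat_lit 0) (nat_lit 1693537012) (nat_lit 608) (nat_lit 11546759899) (nat_lit 76) (nat_lit 4154847281) (nat_lit 249) (nat_lit 5) (nat_lit 257) (nat_lit 5) (nat_lit 250) (nat_lit 5) (nat_lit 622) (nat_lit 557) (nat_lit 381)) (XT.lf (nat_lit 0) (nat_lit 5269060693) (nat_lit 608) (nat_lit 1077058157) (nat_lit 76) (nat_lit 11250677908) (nat_lit 249) (nat_lit 5) (nat_lit 257) (nat_lit 5) (nat_lit 250) (nat_lit 5) (nat_lit 623) (nat_lit 557) (nat_lit 380))) (XT.nd (nat_lit 78) (nat_lit 456) (nat_lit 0) (XT.lf (nat_lit 0) (nat_lit 8975471153) (nat_lit 608) (nat_lit 8088384839) (nat_lit 76) (nat_lit 737439036) (nat_lit 242) (nat_lit 5) (nat_lit 250) (nat_lit 5) (nat_lit 243) (nat_lit 5) (nat_lit 624) (nat_lit 557) (nat_lit 379)) (XT.lf (nat_lit 0) (nat_lit 2705240048) (nat_lit 456) (nat_lit 10109139753) (nat_lit 532) (nat_lit 5194336238)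 (nat_lit 236) (nat_lit 5) (nat_lit 242) (nat_lit 5) (nat_lit 243) (nat_lit 5) (nat_lit 625) (nat_lit 557) (nat_lit 378))))) (XT.nd (nat_lit 312) (nat_lit 1444) (nat_lit 0) (XT.nd (nat_lit 156) (nat_lit 456) (nat_lit 0) (XT.nd (nat_lit 78) (nat_lit 608) (nat_lit 0) (XT.lf (nat_lit 0) (nat_lit 13812751099) (nat_lit 456) (nat_lit 2963186963) (nat_lit 532) (nat_lit 1443430154) (nat_lit 236) (nat_lit 5) (nat_lit 242) (nat_lit 5) (nat_lit 243) (nat_lit 5) (nat_lit 626) (nat_lit 557) (nat_lit 377)) (XT.lf (nat_lit 0) (nat_lit 2415364569) (nat_lit 608) (nat_lit 11691678042) (nat_lit 76) (nat_lit 4325599269) (nat_lit 228) (nat_lit 5) (nat_lit 236) (nat_lit 5) (nat_lit 229) (nat_lit 5) (nat_lit 627) (nat_lit 557) (nat_lit 376))) (XT.nd (nat_lit 78) (nat_lit 456) (nat_lit 0) (XT.lf (nat_lit 0) (nat_lit 6373187715) (nat_lit 608) (nat_lit 519315672) (nat_lit 76) (nat_lit 11756663371) (nat_lit 228) (nat_lit 5) (nat_lit 236) (nat_lit 5) (nat_lit 229) (nat_lit 5) (nat_lit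 628) (nat_lit 557) (nat_lit 375)) (XT.lf (nat_lit 0) (nat_lit 10477061332) (nat_lit 532) (nat_lit 7862697408) (nat_lit 76) (nat_lit 528925673) (nat_lit 222) (nat_lit 5) (nat_lit 229) (nat_lit 5) (nat_lit 223) (nat_lit 5) (nat_lit 629) (nat_lit 557) (nat_lit 374)))) (XT.nd (nat_lit 156) (nat_lit 988) (nat_lit 0) (XT.nd (nat_lit 78) (nat_lit 0) (nat_lit 0) (XT.lf (nat_lit 0) (nat_lit 3667327977) (nat_lit 456) (nat_lit 11060645461) (nat_lit 532) (nat_lit 4363319918) (nat_lit 216) (nat_lit 5) (nat_lit 222) (nat_lit 5) (nat_lit 223) (nat_lit 5) (nat_lit 630) (nat_lit 557) (nat_lit 373)) (XT.lf (nat_lit 0) (nat_lit 15523196524) (nat_lit 456) (nat_lit 3585550027) (nat_lit 532) (nat_lit 208711226) (nat_lit 216) (nat_lit 5) (nat_lit 222) (nat_lit 5) (nat_lit 223) (nat_lit 5) (nat_lit 631) (nat_lit 557) (nat_lit 372))) (XT.nd (nat_lit 78) (nat_lit 456) (nat_lit 0) (XT.lf (nat_lit 0) (nat_lit 4047890847) (nat_lit 532) (nat_lit 11436066001) (nat_lit 76) (nat_lit 4062230765)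 (nat_lit 209) (nat_lit 5) (nat_lit 216) (nat_lit 5) (nat_lit 210) (nat_lit 5) (nat_lit 632) (nat_lit 557) (nat_lit 371)) (XT.lf (nat_lit 0) (nat_lit 494957939) (nat_lit 456) (nat_lit 7936706462) (nat_lit 532) (nat_lit 11346903517) (nat_lit 203) (nat_lit 5) (nat_lit 209) (nat_lit 5) (nat_lit 210) (nat_lit 5) (nat_lit 633) (nat_lit 557) (nat_lit 370)))))) (XT.nd (nat_lit 624) (nat_lit 1976) (nat_lit 0) (XT.nd (nat_lit 312) (nat_lit 836) (nat_lit 0) (XT.nd (nat_lit 156) (nat_lit 532) (nat_lit 0) (XT.nd (nat_lit 78) (nat_lit 380) (nat_lit 0) (XT.lf (nat_lit 0) (nat_lit 12808416570) (nat_lit 456) (nat_lit 163760639) (nat_lit 532) (nat_lit 7042037484) (nat_lit 203) (nat_lit 5) (nat_lit 209) (nat_lit 5) (nat_lit 210) (nat_lit 5) (nat_lit 634) (nat_lit 557) (nat_lit 369)) (XT.lf (nat_lit 0) (nat_lit 5119182528) (nat_lit 380) (nat_lit 12560417963) (nat_lit 456) (nat_lit 2573452049) (nat_lit 198) (nat_lit 5) (nat_lit 203) (nat_lit 5) (nat_lit 204) (nat_lit 5) (nat_lit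 635) (nat_lit 557) (nat_lit 368))) (XT.nd (nat_lit 78) (nat_lit 456) (nat_lit 0) (XT.lf (nat_lit 0) (nat_lit 2000713990) (nat_lit 456) (nat_lit 2732790447) (nat_lit 76) (nat_lit 15762060425) (nat_lit 197) (nat_lit 5) (nat_lit 203) (nat_lit 5) (nat_lit 198) (nat_lit 5) (nat_lit 636) (nat_lit 557) (nat_lit 367)) (XT.lf (nat_lit 0) (nat_lit 6711237550) (nat_lit 532) (nat_lit 10743297498) (nat_lit 76) (nat_lit 3286465647) (nat_lit 191) (nat_lit 5) (nat_lit 198) (nat_lit 5) (nat_lit 192) (nat_lit 5) (nat_lit 637) (nat_lit 557) (nat_lit 366)))) (XT.nd (nat_lit 156) (nat_lit 456) (nat_lit 0) (XT.nd (nat_lit 78) (nat_lit 0) (nat_lit 0) (XT.lf (nat_lit 0) (nat_lit 2012828323) (nat_lit 380) (nat_lit 9558694758) (nat_lit 456) (nat_lit 9418711264) (nat_lit 186) (nat_lit 5) (nat_lit 191) (nat_lit 5) (nat_lit 192) (nat_lit 5) (nat_lit 638) (nat_lit 557) (nat_lit 365)) (XT.lf (nat_lit 0) (nat_lit 15158804021) (nat_lit 380) (nat_lit 1435051590) (nat_lit 456) (nat_lit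 4649300355) (nat_lit 186) (nat_lit 5) (nat_lit 191) (nat_lit 5) (nat_lit 192) (nat_lit 5) (nat_lit 639) (nat_lit 557) (nat_lit 364))) (XT.nd (nat_lit 78) (nat_lit 0) (nat_lit 0) (XT.lf (nat_lit 0) (nat_lit 296700703) (nat_lit 456) (nat_lit 14396967109) (nat_lit 76) (nat_lit 6805759782) (nat_lit 180) (nat_lit 5) (nat_lit 186) (nat_lit 5) (nat_lit 181) (nat_lit 5) (nat_lit 640) (nat_lit 557) (nat_lit 363)) (XT.lf (nat_lit 0) (nat_lit 5322919438) (nat_lit 456) (nat_lit 1175917747) (nat_lit 76) (nat_lit 15260501914) (nat_lit 180) (nat_lit 5) (nat_lit 186) (nat_lit 5) (nat_lit 181) (nat_lit 5) (nat_lit 641) (nat_lit 557) (nat_lit 362))))) (XT.nd (nat_lit 312) (nat_lit 760) (nat_lit 0) (XT.nd (nat_lit 156) (nat_lit 456) (nat_lit 0) (XT.nd (nat_lit 78) (nat_lit 380) (nat_lit 0) (XT.lf (nat_lit 0) (nat_lit 10536194160) (nat_lit 456) (nat_lit 9573176287) (nat_lit 76) (nat_lit 1913347871) (nat_lit 175) (nat_lit 5) (nat_lit 181) (nat_lit 5) (nat_lit 176) (nat_lit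 5) (nat_lit 642) (nat_lit 557) (nat_lit 361)) (XT.lf (nat_lit 0) (nat_lit 4071894280) (nat_lit 380) (nat_lit 11852333747) (nat_lit 456) (nat_lit 6365727336) (nat_lit 170) (nat_lit 5) (nat_lit 175) (nat_lit 5) (nat_lit 176) (nat_lit 5) (nat_lit 643) (nat_lit 557) (nat_lit 360))) (XT.nd (nat_lit 78) (nat_lit 456) (nat_lit 0) (XT.lf (nat_lit 0) (nat_lit 18109041320) (nat_lit 380) (nat_lit 3368363604) (nat_lit 456) (nat_lit 1083984689) (nat_lit 170) (nat_lit 5) (nat_lit 175) (nat_lit 5) (nat_lit 176) (nat_lit 5) (nat_lit 644) (nat_lit 557) (nat_lit 359)) (XT.lf (nat_lit 0) (nat_lit 4337907526) (nat_lit 456) (nat_lit 13194283257) (nat_lit 76) (nat_lit 5303683973) (nat_lit 164) (nat_lit 5) (nat_lit 170) (nat_lit 5) (nat_lit 165) (nat_lit 5) (nat_lit 645) (nat_lit 557) (nat_lit 358)))) (XT.nd (nat_lit 156) (nat_lit 380) (nat_lit 0) (XT.nd (nat_lit 78) (nat_lit 0) (nat_lit 0) (XT.lf (nat_lit 0) (nat_lit 934568734) (nat_lit 380) (nat_lit 8970890489) (nat_lit 456)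 (nat_lit 13209212458) (nat_lit 159) (nat_lit 5) (nat_lit 164) (nat_lit 5) (nat_lit 165) (nat_lit 5) (nat_lit 646) (nat_lit 557) (nat_lit 357)) (XT.lf (nat_lit 0) (nat_lit 15514403449) (nat_lit 380) (nat_lit 151835458) (nat_lit 456) (nat_lit 7731168200) (nat_lit 159) (nat_lit 5) (nat_lit 164) (nat_lit 5) (nat_lit 165) (nat_lit 5) (nat_lit 647) (nat_lit 557) (nat_lit 356))) (XT.nd (nat_lit 78) (nat_lit 76) (nat_lit 0) (XT.lf (nat_lit 0) (nat_lit 6720410332) (nat_lit 304) (nat_lit 14916318686) (nat_lit 380) (nat_lit 2047178430) (nat_lit 155) (nat_lit 5) (nat_lit 159) (nat_lit 5) (nat_lit 160) (nat_lit 5) (nat_lit 648) (nat_lit 557) (nat_lit 355)) (XT.lf (nat_lit 0) (nat_lit 3749019391) (nat_lit 380) (nat_lit 2288404614) (nat_lit 76) (nat_lit 17937272542) (nat_lit 154) (nat_lit 5) (nat_lit 159) (nat_lit 5) (nat_lit 155) (nat_lit 5) (nat_lit 649) (nat_lit 557) (nat_lit 354))))))) (XT.nd (nat_lit 1170) (nat_lit 2052) (nat_lit 0) (XT.nd (nat_lit 546) (nat_lit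 1596) (nat_lit 0) (XT.nd (nat_lit 234) (nat_lit 1064) (nat_lit 0) (XT.nd (nat_lit 78) (nat_lit 304) (nat_lit 0) (XT.lf (nat_lit 0) (nat_lit 9730829689) (nat_lit 456) (nat_lit 11465045477) (nat_lit 76) (nat_lit 3073213714) (nat_lit 149) (nat_lit 5) (nat_lit 155) (nat_lit 5) (nat_lit 150) (nat_lit 5) (nat_lit 650) (nat_lit 557) (nat_lit 353)) (XT.nd (nat_lit 78) (nat_lit 0) (nat_lit 0) (XT.lf (nat_lit 0) (nat_lit 3657989241) (nat_lit 304) (nat_lit 12247103752) (nat_lit 380) (nat_lit 8662819826) (nat_lit 145) (nat_lit 5) (nat_lit 149) (nat_lit 5) (nat_lit 150) (nat_lit 5) (nat_lit 651) (nat_lit 557) (nat_lit 352)) (XT.lf (nat_lit 0) (nat_lit 19228763784) (nat_lit 304) (nat_lit 3044699137) (nat_lit 380) (nat_lit 2597837979) (nat_lit 145) (nat_lit 5) (nat_lit 149) (nat_lit 5) (nat_lit 150) (nat_lit 5) (nat_lit 652) (nat_lit 557) (nat_lit 351)))) (XT.nd (nat_lit 156) (nat_lit 304) (nat_lit 0) (XT.nd (nat_lit 78) (nat_lit 304) (nat_lit 0) (XT.lf (nat_lit 0) (nat_lit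 3641994884) (nat_lit 456) (nat_lit 15192443029) (nat_lit 76) (nat_lit 6343840657) (nat_lit 139) (nat_lit 5) (nat_lit 145) (nat_lit 5) (nat_lit 140) (nat_lit 5) (nat_lit 653) (nat_lit 557) (nat_lit 350)) (XT.lf (nat_lit 0) (nat_lit 471133692) (nat_lit 304) (nat_lit 9555876496) (nat_lit 380) (nat_lit 15462938843) (nat_lit 135) (nat_lit 5) (nat_lit 139) (nat_lit 5) (nat_lit 140) (nat_lit 5) (nat_lit 654) (nat_lit 557) (nat_lit 349))) (XT.nd (nat_lit 78) (nat_lit 304) (nat_lit 0) (XT.lf (nat_lit 0) (nat_lit 16635587062) (nat_lit 380) (nat_lit 9162055759) (nat_lit 76) (nat_lit 8292937) (nat_lit 135) (nat_lit 5) (nat_lit 140) (nat_lit 5) (nat_lit 136) (nat_lit 5) (nat_lit 655) (nat_lit 557) (nat_lit 348)) (XT.lf (nat_lit 0) (nat_lit 7030882171) (nat_lit 304) (nat_lit 16448339812) (nat_lit 380) (nat_lit 2646962591) (nat_lit 131) (nat_lit 5) (nat_lit 135) (nat_lit 5) (nat_lit 136) (nat_lit 5) (nat_lit 656) (nat_lit 557) (nat_lit 347))))) (XT.nd (nat_lit 312) (nat_lit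 912) (nat_lit 0) (XT.nd (nat_lit 156) (nat_lit 304) (nat_lit 0) (XT.nd (nat_lit 78) (nat_lit 304) (nat_lit 0) (XT.lf (nat_lit 0) (nat_lit 4010197975) (nat_lit 380) (nat_lit 2816057729) (nat_lit 76) (nat_lit 19624945276) (nat_lit 130) (nat_lit 5) (nat_lit 135) (nat_lit 5) (nat_lit 131) (nat_lit 5) (nat_lit 657) (nat_lit 557) (nat_lit 346)) (XT.lf (nat_lit 0) (nat_lit 10869808084) (nat_lit 380) (nat_lit 12856347031) (nat_lit 76) (nat_lit 3054117767) (nat_lit 126) (nat_lit 5) (nat_lit 131) (nat_lit 5) (nat_lit 127) (nat_lit 5) (nat_lit 658) (nat_lit 557) (nat_lit 345))) (XT.nd (nat_lit 78) (nat_lit 0) (nat_lit 0) (XT.lf (nat_lit 0) (nat_lit 3917647595) (nat_lit 304) (nat_lit 14032743652) (nat_lit 380) (nat_lit 9163859434) (nat_lit 122) (nat_lit 5) (nat_lit 126) (nat_lit 5) (nat_lit 127) (nat_lit 5) (nat_lit 659) (nat_lit 557) (nat_lit 344)) (XT.lf (nat_lit 0) (nat_lit 21191723172) (nat_lit 304) (nat_lit 4061303871) (nat_lit 380) (nat_lit 2200272249) (nat_lit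 122) (nat_lit 5) (nat_lit 126) (nat_lit 5) (nat_lit 127) (nat_lit 5) (nat_lit 660) (nat_lit 557) (nat_lit 343)))) (XT.nd (nat_lit 156) (nat_lit 228) (nat_lit 0) (XT.nd (nat_lit 78) (nat_lit 304) (nat_lit 0) (XT.lf (nat_lit 0) (nat_lit 4945040427) (nat_lit 380) (nat_lit 16720936218) (nat_lit 76) (nat_lit 6130380644) (nat_lit 117) (nat_lit 5) (nat_lit 122) (nat_lit 5) (nat_lit 118) (nat_lit 5) (nat_lit 661) (nat_lit 557) (nat_lit 342)) (XT.lf (nat_lit 0) (nat_lit 655871928) (nat_lit 304) (nat_lit 11615675603) (nat_lit 380) (nat_lit 15873083115) (nat_lit 113) (nat_lit 5) (nat_lit 117) (nat_lit 5) (nat_lit 118) (nat_lit 5) (nat_lit 662) (nat_lit 557) (nat_lit 341))) (XT.nd (nat_lit 78) (nat_lit 228) (nat_lit 0) (XT.lf (nat_lit 0) (nat_lit 18597352247) (nat_lit 304) (nat_lit 1253760460) (nat_lit 380) (nat_lit 8646626273) (nat_lit 113) (nat_lit 5) (nat_lit 117) (nat_lit 5) (nat_lit 118) (nat_lit 5) (nat_lit 663) (nat_lit 557) (nat_lit 340)) (XT.lf (nat_lit 0)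 (nat_lit 8075765140) (nat_lit 228) (nat_lit 19613827510) (nat_lit 304) (nat_lit 1166170429) (nat_lit 110) (nat_lit 5) (nat_lit 113) (nat_lit 5) (nat_lit 114) (nat_lit 5) (nat_lit 664) (nat_lit 557) (nat_lit 339)))))) (XT.nd (nat_lit 624) (nat_lit 532) (nat_lit 0) (XT.nd (nat_lit 312) (nat_lit 836) (nat_lit 0) (XT.nd (nat_lit 156) (nat_lit 304) (nat_lit 0) (XT.nd (nat_lit 78) (nat_lit 304) (nat_lit 0) (XT.lf (nat_lit 0) (nat_lit 6448719855) (nat_lit 304) (nat_lit 2734120629) (nat_lit 76) (nat_lit 20035875874) (nat_lit 109) (nat_lit 5) (nat_lit 113) (nat_lit 5) (nat_lit 110) (nat_lit 5) (nat_lit 665) (nat_lit 557) (nat_lit 338)) (XT.lf (nat_lit 0) (nat_lit 14308002610) (nat_lit 380) (nat_lit 13733231686) (nat_lit 76) (nat_lit 1545386111) (nat_lit 105) (nat_lit 5) (nat_lit 110) (nat_lit 5) (nat_lit 106) (nat_lit 5) (nat_lit 666) (nat_lit 557) (nat_lit 337))) (XT.nd (nat_lit 78) (nat_lit 76) (nat_lit 0) (XT.lf (nat_lit 0) (nat_lit 4882016458) (nat_lit 228)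 (nat_lit 17547987446) (nat_lit 304) (nat_lit 7529768037) (nat_lit 102) (nat_lit 5) (nat_lit 105) (nat_lit 5) (nat_lit 106) (nat_lit 5) (nat_lit 667) (nat_lit 557) (nat_lit 336)) (XT.lf (nat_lit 0) (nat_lit 456484763) (nat_lit 304) (nat_lit 6295137920) (nat_lit 76) (nat_lit 23586968673) (nat_lit 101) (nat_lit 5) (nat_lit 105) (nat_lit 5) (nat_lit 102) (nat_lit 5) (nat_lit 668) (nat_lit 557) (nat_lit 335)))) (XT.nd (nat_lit 156) (nat_lit 304) (nat_lit 0) (XT.nd (nat_lit 78) (nat_lit 228) (nat_lit 0) (XT.lf (nat_lit 0) (nat_lit 8609168858) (nat_lit 380) (nat_lit 17776612560) (nat_lit 76) (nat_lit 4336059767) (nat_lit 97) (nat_lit 5) (nat_lit 102) (nat_lit 5) (nat_lit 98) (nat_lit 5) (nat_lit 669) (nat_lit 557) (nat_lit 334)) (XT.lf (nat_lit 0) (nat_lit 1509506387) (nat_lit 228) (nat_lit 15507129489) (nat_lit 304) (nat_lit 14094285610) (nat_lit 94) (nat_lit 5) (nat_lit 97) (nat_lit 5) (nat_lit 98) (nat_lit 5) (nat_lit 670) (nat_lit 557) (nat_lit 333))) (XT.nd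 (nat_lit 78) (nat_lit 304) (nat_lit 0) (XT.lf (nat_lit 0) (nat_lit 21413252209) (nat_lit 228) (nat_lit 4293028030) (nat_lit 304) (nat_lit 5799222650) (nat_lit 94) (nat_lit 5) (nat_lit 97) (nat_lit 5) (nat_lit 98) (nat_lit 5) (nat_lit 671) (nat_lit 557) (nat_lit 332)) (XT.lf (nat_lit 0) (nat_lit 2732895229) (nat_lit 304) (nat_lit 22042511634) (nat_lit 76) (nat_lit 7130102218) (nat_lit 90) (nat_lit 5) (nat_lit 94) (nat_lit 5) (nat_lit 91) (nat_lit 5) (nat_lit 672) (nat_lit 557) (nat_lit 331))))) (XT.nd (nat_lit 72228) (nat_lit 0) (nat_lit 35644) (XT.nd (nat_lit 156) (nat_lit 304) (nat_lit 0) (XT.nd (nat_lit 78) (nat_lit 228) (nat_lit 0) (XT.lf (nat_lit 0) (nat_lit 11449506236) (nat_lit 304) (nat_lit 2034265231) (nat_lit 76) (nat_lit 18827147279) (nat_lit 90) (nat_lit 5) (nat_lit 94) (nat_lit 5) (nat_lit 91) (nat_lit 5) (nat_lit 673) (nat_lit 557) (nat_lit 330)) (XT.lf (nat_lit 0) (nat_lit 18609414494) (nat_lit 228) (nat_lit 1846787381) (nat_lit 304) (nat_lit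 12265919734) (nat_lit 87) (nat_lit 5) (nat_lit 90) (nat_lit 5) (nat_lit 91) (nat_lit 5) (nat_lit 674) (nat_lit 557) (nat_lit 329))) (XT.nd (nat_lit 78) (nat_lit 76) (nat_lit 0) (XT.lf (nat_lit 0) (nat_lit 6564378251) (nat_lit 228) (nat_lit 23195036795) (nat_lit 304) (nat_lit 3379805863) (nat_lit 84) (nat_lit 5) (nat_lit 87) (nat_lit 5) (nat_lit 88) (nat_lit 5) (nat_lit 675) (nat_lit 557) (nat_lit 328)) (XT.lf (nat_lit 0) (nat_lit 5711999820) (nat_lit 304) (nat_lit 5775048576) (nat_lit 76) (nat_lit 22074825426) (nat_lit 83) (nat_lit 5) (nat_lit 87) (nat_lit 5) (nat_lit 84) (nat_lit 5) (nat_lit 676) (nat_lit 557) (nat_lit 327)))) (XT.nd (nat_lit 156) (nat_lit 0) (nat_lit 0) (XT.nd (nat_lit 78) (nat_lit 1596) (nat_lit 0) (XT.lf (nat_lit 0) (nat_lit 4271798755) (nat_lit 1596) (nat_lit 165640360) (nat_lit 1596) (nat_lit 165640360) (nat_lit 573) (nat_lit 3) (nat_lit 594) (nat_lit 3) (nat_lit 594) (nat_lit 5) (nat_lit 558) (nat_lit 558) (nat_lit 444)) (XT.lf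 (nat_lit 0) (nat_lit 226307807) (nat_lit 1596) (nat_lit 4970870760) (nat_lit 1672) (nat_lit 4083366006) (nat_lit 552) (nat_lit 5) (nat_lit 573) (nat_lit 3) (nat_lit 574) (nat_lit 5) (nat_lit 559) (nat_lit 558) (nat_lit 443))) (XT.nd (nat_lit 78) (nat_lit 0) (nat_lit 76) (XT.lf (nat_lit 0) (nat_lit 1103733407) (nat_lit 1596) (nat_lit 324700177) (nat_lit 1672) (nat_lit 7928304463) (nat_lit 552) (nat_lit 5) (nat_lit 573) (nat_lit 3) (nat_lit 574) (nat_lit 5) (nat_lit 560) (nat_lit 558) (nat_lit 442)) (XT.lf (nat_lit 0) (nat_lit 2021465082) (nat_lit 1596) (nat_lit 4988989643) (nat_lit 1672) (nat_lit 2423546248) (nat_lit 553) (nat_lit 5) (nat_lit 574) (nat_lit 5) (nat_lit 575) (nat_lit 5) (nat_lit 561) (nat_lit 558) (nat_lit 441))))))))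
noncomputable def xc135 : XT := (XT.nd (nat_lit 2418) (nat_lit 12920) (nat_lit 0) (XT.nd (nat_lit 1170) (nat_lit 8740) (nat_lit 0) (XT.nd (nat_lit 546) (nat_lit 1444) (nat_lit 0) (XT.nd (nat_lit 234) (nat_lit 0) (nat_lit 76) (XT.nd (nat_lit 78) (nat_lit 0) (nat_lit 76) (XT.lf (nat_lit 0) (nat_lit 2947478014) (nat_lit 1596) (nat_lit 219777554) (nat_lit 1672) (nat_lit 6345755776) (nat_lit 553) (nat_lit 5) (nat_lit 574) (nat_lit 5) (nat_lit 575) (nat_lit 5) (nat_lit 562) (nat_lit 558) (nat_lit 440)) (XT.nd (nat_lit 78) (nat_lit 0) (nat_lit 0) (XT.lf (nat_lit 0) (nat_lit 3906342068) (nat_lit 1596) (nat_lit 4904001066) (nat_lit 1672) (nat_lit 782972875) (nat_lit 554) (nat_lit 5) (nat_lit 575) (nat_lit 5) (nat_lit 576) (nat_lit 5) (nat_lit 563) (nat_lit 558) (nat_lit 439)) (XT.lf (nat_lit 0) (nat_lit 4885943930) (nat_lit 1596) (nat_lit 8835549) (nat_lit 1672) (nat_lit 4780416768) (nat_lit 554) (nat_lit 5) (nat_lit 575) (nat_lit 5) (nat_lit 576) (nat_lit 5) (nat_lit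 564) (nat_lit 558) (nat_lit 438)))) (XT.nd (nat_lit 156) (nat_lit 0) (nat_lit 76) (XT.nd (nat_lit 78) (nat_lit 0) (nat_lit 76) (XT.lf (nat_lit 76) (nat_lit 5038329775) (nat_lit 0) (nat_lit 859030755) (nat_lit 1672) (nat_lit 3861109783) (nat_lit 555) (nat_lit 5) (nat_lit 554) (nat_lit 5) (nat_lit 576) (nat_lit 5) (nat_lit 565) (nat_lit 558) (nat_lit 437)) (XT.lf (nat_lit 76) (nat_lit 313753750) (nat_lit 0) (nat_lit 6618386545) (nat_lit 1672) (nat_lit 2911207534) (nat_lit 556) (nat_lit 5) (nat_lit 555) (nat_lit 5) (nat_lit 577) (nat_lit 5) (nat_lit 566) (nat_lit 558) (nat_lit 436))) (XT.nd (nat_lit 78) (nat_lit 0) (nat_lit 76) (XT.lf (nat_lit 76) (nat_lit 5494264570) (nat_lit 0) (nat_lit 2510880479) (nat_lit 1672) (nat_lit 1924427909) (nat_lit 556) (nat_lit 5) (nat_lit 555) (nat_lit 5) (nat_lit 577) (nat_lit 5) (nat_lit 567) (nat_lit 558) (nat_lit 435)) (XT.lf (nat_lit 76) (nat_lit 747288677) (nat_lit 0) (nat_lit 8348712108) (nat_lit 1672) (nat_lit 921594623)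 (nat_lit 557) (nat_lit 5) (nat_lit 556) (nat_lit 5) (nat_lit 578) (nat_lit 5) (nat_lit 568) (nat_lit 558) (nat_lit 434))))) (XT.nd (nat_lit 312) (nat_lit 0) (nat_lit 152) (XT.nd (nat_lit 156) (nat_lit 0) (nat_lit 76) (XT.nd (nat_lit 78) (nat_lit 0) (nat_lit 76) (XT.lf (nat_lit 0) (nat_lit 127367103) (nat_lit 1672) (nat_lit 4043255699) (nat_lit 1748) (nat_lit 5936194960) (nat_lit 534) (nat_lit 5) (nat_lit 556) (nat_lit 5) (nat_lit 557) (nat_lit 5) (nat_lit 569) (nat_lit 558) (nat_lit 433)) (XT.lf (nat_lit 0) (nat_lit 1175249809) (nat_lit 1672) (nat_lit 8911933131) (nat_lit 1748) (nat_lit 110714752) (nat_lit 535) (nat_lit 5) (nat_lit 557) (nat_lit 5) (nat_lit 558) (nat_lit 5) (nat_lit 570) (nat_lit 558) (nat_lit 432))) (XT.nd (nat_lit 78) (nat_lit 0) (nat_lit 0) (XT.lf (nat_lit 0) (nat_lit 2280539223) (nat_lit 1672) (nat_lit 3554210365) (nat_lit 1748) (nat_lit 4455321240) (nat_lit 535) (nat_lit 5) (nat_lit 557) (nat_lit 5) (nat_lit 558) (nat_lit 5) (nat_lit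 571) (nat_lit 558) (nat_lit 431)) (XT.lf (nat_lit 76) (nat_lit 1923411654) (nat_lit 0) (nat_lit 1478890225) (nat_lit 1748) (nat_lit 6981898778) (nat_lit 536) (nat_lit 5) (nat_lit 535) (nat_lit 5) (nat_lit 558) (nat_lit 5) (nat_lit 572) (nat_lit 558) (nat_lit 430)))) (XT.nd (nat_lit 156) (nat_lit 0) (nat_lit 76) (XT.nd (nat_lit 78) (nat_lit 0) (nat_lit 0) (XT.lf (nat_lit 0) (nat_lit 4571942734) (nat_lit 1672) (nat_lit 2953166288) (nat_lit 1748) (nat_lit 2954595767) (nat_lit 536) (nat_lit 5) (nat_lit 558) (nat_lit 5) (nat_lit 559) (nat_lit 5) (nat_lit 573) (nat_lit 558) (nat_lit 429)) (XT.lf (nat_lit 76) (nat_lit 2677388329) (nat_lit 0) (nat_lit 3097304213) (nat_lit 1748) (nat_lit 4802232694) (nat_lit 537) (nat_lit 5) (nat_lit 536) (nat_lit 5) (nat_lit 559) (nat_lit 5) (nat_lit 574) (nat_lit 558) (nat_lit 428))) (XT.nd (nat_lit 78) (nat_lit 0) (nat_lit 0) (XT.lf (nat_lit 0) (nat_lit 7013490399) (nat_lit 1672) (nat_lit 2237287280) (nat_lit 1748) (nat_lit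 1425073098) (nat_lit 537) (nat_lit 5) (nat_lit 559) (nat_lit 5) (nat_lit 560) (nat_lit 5) (nat_lit 575) (nat_lit 558) (nat_lit 427)) (XT.lf (nat_lit 76) (nat_lit 3551694324) (nat_lit 0) (nat_lit 4752109491) (nat_lit 1748) (nat_lit 2472416755) (nat_lit 538) (nat_lit 5) (nat_lit 537) (nat_lit 5) (nat_lit 560) (nat_lit 5) (nat_lit 576) (nat_lit 558) (nat_lit 426)))))) (XT.nd (nat_lit 624) (nat_lit 5700) (nat_lit 0) (XT.nd (nat_lit 312) (nat_lit 1596) (nat_lit 0) (XT.nd (nat_lit 156) (nat_lit 0) (nat_lit 0) (XT.nd (nat_lit 78) (nat_lit 1672) (nat_lit 0) (XT.lf (nat_lit 76) (nat_lit 9474283179) (nat_lit 0) (nat_lit 144070285) (nat_lit 1748) (nat_lit 1260276218) (nat_lit 538) (nat_lit 5) (nat_lit 537) (nat_lit 5) (nat_lit 560) (nat_lit 5) (nat_lit 577) (nat_lit 558) (nat_lit 425)) (XT.lf (nat_lit 0) (nat_lit 19592980) (nat_lit 1748) (nat_lit 6432638790) (nat_lit 1824) (nat_lit 4529995363) (nat_lit 515) (nat_lit 5) (nat_lit 538) (nat_lit 5) (nat_lit 539) (nat_lit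 5) (nat_lit 578) (nat_lit 558) (nat_lit 424))) (XT.nd (nat_lit 78) (nat_lit 0) (nat_lit 76) (XT.lf (nat_lit 0) (nat_lit 1302538957) (nat_lit 1748) (nat_lit 468170129) (nat_lit 1824) (nat_lit 9317134242) (nat_lit 515) (nat_lit 5) (nat_lit 538) (nat_lit 5) (nat_lit 539) (nat_lit 5) (nat_lit 579) (nat_lit 558) (nat_lit 423)) (XT.lf (nat_lit 0) (nat_lit 2651992752) (nat_lit 1748) (nat_lit 5537360798) (nat_lit 1824) (nat_lit 3005401802) (nat_lit 516) (nat_lit 5) (nat_lit 539) (nat_lit 5) (nat_lit 540) (nat_lit 5) (nat_lit 580) (nat_lit 558) (nat_lit 422)))) (XT.nd (nat_lit 156) (nat_lit 1672) (nat_lit 0) (XT.nd (nat_lit 78) (nat_lit 0) (nat_lit 76) (XT.lf (nat_lit 76) (nat_lit 591344457) (nat_lit 0) (nat_lit 3440283050) (nat_lit 1824) (nat_lit 7272114746) (nat_lit 517) (nat_lit 5) (nat_lit 516) (nat_lit 5) (nat_lit 540) (nat_lit 5) (nat_lit 581) (nat_lit 558) (nat_lit 421)) (XT.lf (nat_lit 0) (nat_lit 5470077059) (nat_lit 1748) (nat_lit 4518819711) (nat_lit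 76) (nat_lit 1425388144) (nat_lit 517) (nat_lit 5) (nat_lit 540) (nat_lit 5) (nat_lit 518) (nat_lit 5) (nat_lit 582) (nat_lit 558) (nat_lit 420))) (XT.nd (nat_lit 78) (nat_lit 0) (nat_lit 0) (XT.lf (nat_lit 0) (nat_lit 1786554141) (nat_lit 1748) (nat_lit 5170127437) (nat_lit 1824) (nat_lit 4569969589) (nat_lit 494) (nat_lit 5) (nat_lit 517) (nat_lit 5) (nat_lit 518) (nat_lit 5) (nat_lit 583) (nat_lit 558) (nat_lit 419)) (XT.lf (nat_lit 0) (nat_lit 8266649527) (nat_lit 1748) (nat_lit 221907458) (nat_lit 1824) (nat_lit 3152397428) (nat_lit 494) (nat_lit 5) (nat_lit 517) (nat_lit 5) (nat_lit 518) (nat_lit 5) (nat_lit 584) (nat_lit 558) (nat_lit 418))))) (XT.nd (nat_lit 312) (nat_lit 2660) (nat_lit 0) (XT.nd (nat_lit 156) (nat_lit 1216) (nat_lit 0) (XT.nd (nat_lit 78) (nat_lit 0) (nat_lit 0) (XT.lf (nat_lit 0) (nat_lit 3115640494) (nat_lit 1824) (nat_lit 6972505804) (nat_lit 1900) (nat_lit 1668656337) (nat_lit 470) (nat_lit 5) (nat_lit 494) (nat_lit 5) (nat_lit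 495) (nat_lit 5) (nat_lit 585) (nat_lit 558) (nat_lit 417)) (XT.lf (nat_lit 0) (nat_lit 9767022895) (nat_lit 1824) (nat_lit 1962528535) (nat_lit 1900) (nat_lit 145220340) (nat_lit 470) (nat_lit 5) (nat_lit 494) (nat_lit 5) (nat_lit 495) (nat_lit 5) (nat_lit 586) (nat_lit 558) (nat_lit 416))) (XT.nd (nat_lit 78) (nat_lit 0) (nat_lit 0) (XT.lf (nat_lit 0) (nat_lit 1426654714) (nat_lit 1216) (nat_lit 7420411037) (nat_lit 76) (nat_lit 3147123117) (nat_lit 454) (nat_lit 5) (nat_lit 470) (nat_lit 5) (nat_lit 455) (nat_lit 5) (nat_lit 587) (nat_lit 558) (nat_lit 415)) (XT.lf (nat_lit 0) (nat_lit 3041371473) (nat_lit 1216) (nat_lit 725015313) (nat_lit 76) (nat_lit 8349321755) (nat_lit 454) (nat_lit 5) (nat_lit 470) (nat_lit 5) (nat_lit 455) (nat_lit 5) (nat_lit 588) (nat_lit 558) (nat_lit 414)))) (XT.nd (nat_lit 156) (nat_lit 836) (nat_lit 0) (XT.nd (nat_lit 78) (nat_lit 912) (nat_lit 0) (XT.lf (nat_lit 0) (nat_lit 4724310220) (nat_lit 988) (nat_lit 6075858114)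 (nat_lit 76) (nat_lit 1438772117) (nat_lit 442) (nat_lit 5) (nat_lit 455) (nat_lit 5) (nat_lit 443) (nat_lit 5) (nat_lit 589) (nat_lit 558) (nat_lit 413)) (XT.lf (nat_lit 0) (nat_lit 807139794) (nat_lit 912) (nat_lit 5655426204) (nat_lit 988) (nat_lit 5901638224) (nat_lit 430) (nat_lit 5) (nat_lit 442) (nat_lit 5) (nat_lit 443) (nat_lit 5) (nat_lit 590) (nat_lit 558) (nat_lit 412))) (XT.nd (nat_lit 78) (nat_lit 836) (nat_lit 0) (XT.lf (nat_lit 0) (nat_lit 7897540247) (nat_lit 912) (nat_lit 365577479) (nat_lit 988) (nat_lit 4228305310) (nat_lit 430) (nat_lit 5) (nat_lit 442) (nat_lit 5) (nat_lit 443) (nat_lit 5) (nat_lit 591) (nat_lit 558) (nat_lit 411)) (XT.lf (nat_lit 0) (nat_lit 2496005651) (nat_lit 836) (nat_lit 7639561332) (nat_lit 912) (nat_lit 2484901884) (nat_lit 419) (nat_lit 5) (nat_lit 430) (nat_lit 5) (nat_lit 431) (nat_lit 5) (nat_lit 592) (nat_lit 558) (nat_lit 410))))))) (XT.nd (nat_lit 1170) (nat_lit 6384) (nat_lit 0) (XT.nd (nat_lit 546)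 (nat_lit 3116) (nat_lit 0) (XT.nd (nat_lit 234) (nat_lit 2432) (nat_lit 0) (XT.nd (nat_lit 78) (nat_lit 988) (nat_lit 0) (XT.lf (nat_lit 0) (nat_lit 9774959196) (nat_lit 836) (nat_lit 2290933728) (nat_lit 912) (nat_lit 685794504) (nat_lit 419) (nat_lit 5) (nat_lit 430) (nat_lit 5) (nat_lit 431) (nat_lit 5) (nat_lit 593) (nat_lit 558) (nat_lit 409)) (XT.nd (nat_lit 78) (nat_lit 0) (nat_lit 0) (XT.lf (nat_lit 0) (nat_lit 1170619464) (nat_lit 988) (nat_lit 8554762021) (nat_lit 76) (nat_lit 3159272035) (nat_lit 406) (nat_lit 5) (nat_lit 419) (nat_lit 5) (nat_lit 407) (nat_lit 5) (nat_lit 594) (nat_lit 558) (nat_lit 408)) (XT.lf (nat_lit 0) (nat_lit 3077797601) (nat_lit 988) (nat_lit 1229372320) (nat_lit 76) (nat_lit 8712562323) (nat_lit 406) (nat_lit 5) (nat_lit 419) (nat_lit 5) (nat_lit 407) (nat_lit 5) (nat_lit 595) (nat_lit 558) (nat_lit 407)))) (XT.nd (nat_lit 156) (nat_lit 760) (nat_lit 0) (XT.nd (nat_lit 78) (nat_lit 836) (nat_lit 0) (XT.lf (nat_lit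 0) (nat_lit 5060069693) (nat_lit 912) (nat_lit 6852198086) (nat_lit 76) (nat_lit 1244506094) (nat_lit 395) (nat_lit 5) (nat_lit 407) (nat_lit 5) (nat_lit 396) (nat_lit 5) (nat_lit 596) (nat_lit 558) (nat_lit 406)) (XT.lf (nat_lit 0) (nat_lit 677227234) (nat_lit 836) (nat_lit 6433918983) (nat_lit 912) (nat_lit 6184827269) (nat_lit 384) (nat_lit 5) (nat_lit 395) (nat_lit 5) (nat_lit 396) (nat_lit 5) (nat_lit 597) (nat_lit 558) (nat_lit 405))) (XT.nd (nat_lit 78) (nat_lit 760) (nat_lit 0) (XT.lf (nat_lit 0) (nat_lit 8437655218) (nat_lit 836) (nat_lit 799659862) (nat_lit 912) (nat_lit 4199960921) (nat_lit 384) (nat_lit 5) (nat_lit 395) (nat_lit 5) (nat_lit 396) (nat_lit 5) (nat_lit 598) (nat_lit 558) (nat_lit 404)) (XT.lf (nat_lit 0) (nat_lit 2763555659) (nat_lit 760) (nat_lit 8680834498) (nat_lit 836) (nat_lit 2136247072) (nat_lit 374) (nat_lit 5) (nat_lit 384) (nat_lit 5) (nat_lit 385) (nat_lit 5) (nat_lit 599) (nat_lit 558) (nat_lit 403))))) (XT.nd (nat_lit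 312) (nat_lit 1520) (nat_lit 0) (XT.nd (nat_lit 156) (nat_lit 760) (nat_lit 0) (XT.nd (nat_lit 78) (nat_lit 836) (nat_lit 0) (XT.lf (nat_lit 0) (nat_lit 10732027595) (nat_lit 760) (nat_lit 2990857802) (nat_lit 836) (nat_lit 3435022) (nat_lit 374) (nat_lit 5) (nat_lit 384) (nat_lit 5) (nat_lit 385) (nat_lit 5) (nat_lit 600) (nat_lit 558) (nat_lit 402)) (XT.lf (nat_lit 0) (nat_lit 2183354334) (nat_lit 836) (nat_lit 8868313486) (nat_lit 76) (nat_lit 2822171558) (nat_lit 363) (nat_lit 5) (nat_lit 374) (nat_lit 5) (nat_lit 364) (nat_lit 5) (nat_lit 601) (nat_lit 558) (nat_lit 401))) (XT.nd (nat_lit 78) (nat_lit 760) (nat_lit 0) (XT.lf (nat_lit 0) (nat_lit 4442623170) (nat_lit 836) (nat_lit 850360259) (nat_lit 76) (nat_lit 8730749331) (nat_lit 363) (nat_lit 5) (nat_lit 374) (nat_lit 5) (nat_lit 364) (nat_lit 5) (nat_lit 602) (nat_lit 558) (nat_lit 400)) (XT.lf (nat_lit 0) (nat_lit 6788266919) (nat_lit 836) (nat_lit 6766966473) (nat_lit 76) (nat_lit 620567117)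 (nat_lit 353) (nat_lit 5) (nat_lit 364) (nat_lit 5) (nat_lit 354) (nat_lit 5) (nat_lit 603) (nat_lit 558) (nat_lit 399)))) (XT.nd (nat_lit 156) (nat_lit 760) (nat_lit 0) (XT.nd (nat_lit 78) (nat_lit 0) (nat_lit 0) (XT.lf (nat_lit 0) (nat_lit 1486036060) (nat_lit 760) (nat_lit 7734339339) (nat_lit 836) (nat_lit 5109743460) (nat_lit 343) (nat_lit 5) (nat_lit 353) (nat_lit 5) (nat_lit 354) (nat_lit 5) (nat_lit 604) (nat_lit 558) (nat_lit 398)) (XT.lf (nat_lit 0) (nat_lit 9983601123) (nat_lit 760) (nat_lit 1752175553) (nat_lit 836) (nat_lit 2751054165) (nat_lit 343) (nat_lit 5) (nat_lit 353) (nat_lit 5) (nat_lit 354) (nat_lit 5) (nat_lit 605) (nat_lit 558) (nat_lit 397))) (XT.nd (nat_lit 78) (nat_lit 76) (nat_lit 0) (XT.lf (nat_lit 0) (nat_lit 4016691640) (nat_lit 684) (nat_lit 10328556412) (nat_lit 760) (nat_lit 300554042) (nat_lit 334) (nat_lit 5) (nat_lit 343) (nat_lit 5) (nat_lit 344) (nat_lit 5) (nat_lit 606) (nat_lit 558) (nat_lit 396)) (XT.lf (nat_lit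 0) (nat_lit 2201640782) (nat_lit 760) (nat_lit 2077622842) (nat_lit 76) (nat_lit 10527773380) (nat_lit 333) (nat_lit 5) (nat_lit 343) (nat_lit 5) (nat_lit 334) (nat_lit 5) (nat_lit 607) (nat_lit 558) (nat_lit 395)))))) (XT.nd (nat_lit 624) (nat_lit 3040) (nat_lit 0) (XT.nd (nat_lit 312) (nat_lit 1292) (nat_lit 0) (XT.nd (nat_lit 156) (nat_lit 684) (nat_lit 0) (XT.nd (nat_lit 78) (nat_lit 684) (nat_lit 0) (XT.lf (nat_lit 0) (nat_lit 4795759124) (nat_lit 760) (nat_lit 8264341056) (nat_lit 76) (nat_lit 1910438874) (nat_lit 324) (nat_lit 5) (nat_lit 334) (nat_lit 5) (nat_lit 325) (nat_lit 5) (nat_lit 608) (nat_lit 558) (nat_lit 394)) (XT.lf (nat_lit 0) (nat_lit 523134474) (nat_lit 684) (nat_lit 6954215888) (nat_lit 760) (nat_lit 7659249225) (nat_lit 315) (nat_lit 5) (nat_lit 324) (nat_lit 5) (nat_lit 325) (nat_lit 5) (nat_lit 609) (nat_lit 558) (nat_lit 393))) (XT.nd (nat_lit 78) (nat_lit 684) (nat_lit 0) (XT.lf (nat_lit 0) (nat_lit 9586344196) (nat_lit 684)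 (nat_lit 671628961) (nat_lit 760) (nat_lit 5047100425) (nat_lit 315) (nat_lit 5) (nat_lit 324) (nat_lit 5) (nat_lit 325) (nat_lit 5) (nat_lit 610) (nat_lit 558) (nat_lit 392)) (XT.lf (nat_lit 0) (nat_lit 3348583055) (nat_lit 684) (nat_lit 9794738708) (nat_lit 760) (nat_lit 2332613269) (nat_lit 306) (nat_lit 5) (nat_lit 315) (nat_lit 5) (nat_lit 316) (nat_lit 5) (nat_lit 611) (nat_lit 558) (nat_lit 391)))) (XT.nd (nat_lit 156) (nat_lit 608) (nat_lit 0) (XT.nd (nat_lit 78) (nat_lit 608) (nat_lit 0) (XT.lf (nat_lit 0) (nat_lit 463698643) (nat_lit 760) (nat_lit 2994260732) (nat_lit 76) (nat_lit 12191532824) (nat_lit 305) (nat_lit 5) (nat_lit 315) (nat_lit 5) (nat_lit 306) (nat_lit 5) (nat_lit 612) (nat_lit 558) (nat_lit 390)) (XT.lf (nat_lit 0) (nat_lit 3336388513) (nat_lit 684) (nat_lit 9467566141) (nat_lit 76) (nat_lit 3021224002) (nat_lit 297) (nat_lit 5) (nat_lit 306) (nat_lit 5) (nat_lit 298) (nat_lit 5) (nat_lit 613) (nat_lit 558) (nat_lit 389))) (XT.nd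 (nat_lit 78) (nat_lit 608) (nat_lit 0) (XT.lf (nat_lit 0) (nat_lit 6300127301) (nat_lit 684) (nat_lit 101802945) (nat_lit 76) (nat_lit 9601776918) (nat_lit 297) (nat_lit 5) (nat_lit 306) (nat_lit 5) (nat_lit 298) (nat_lit 5) (nat_lit 614) (nat_lit 558) (nat_lit 388)) (XT.lf (nat_lit 0) (nat_lit 9377127126) (nat_lit 684) (nat_lit 6620926829) (nat_lit 76) (nat_lit 186672781) (nat_lit 289) (nat_lit 5) (nat_lit 298) (nat_lit 5) (nat_lit 290) (nat_lit 5) (nat_lit 615) (nat_lit 558) (nat_lit 387))))) (XT.nd (nat_lit 312) (nat_lit 1748) (nat_lit 0) (XT.nd (nat_lit 156) (nat_lit 684) (nat_lit 0) (XT.nd (nat_lit 78) (nat_lit 0) (nat_lit 0) (XT.lf (nat_lit 0) (nat_lit 3040453241) (nat_lit 608) (nat_lit 9528787044) (nat_lit 684) (nat_lit 3799055162) (nat_lit 281) (nat_lit 5) (nat_lit 289) (nat_lit 5) (nat_lit 290) (nat_lit 5) (nat_lit 616) (nat_lit 558) (nat_lit 386)) (XT.lf (nat_lit 0) (nat_lit 12973123526) (nat_lit 608) (nat_lit 2887355758) (nat_lit 684) (nat_lit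 694350788) (nat_lit 281) (nat_lit 5) (nat_lit 289) (nat_lit 5) (nat_lit 290) (nat_lit 5) (nat_lit 617) (nat_lit 558) (nat_lit 385))) (XT.nd (nat_lit 78) (nat_lit 0) (nat_lit 0) (XT.lf (nat_lit 0) (nat_lit 2498252549) (nat_lit 684) (nat_lit 10353856434) (nat_lit 76) (nat_lit 3891500923) (nat_lit 272) (nat_lit 5) (nat_lit 281) (nat_lit 5) (nat_lit 273) (nat_lit 5) (nat_lit 618) (nat_lit 558) (nat_lit 384)) (XT.lf (nat_lit 0) (nat_lit 5779794175) (nat_lit 684) (nat_lit 362032666) (nat_lit 76) (nat_lit 10793559230) (nat_lit 272) (nat_lit 5) (nat_lit 281) (nat_lit 5) (nat_lit 273) (nat_lit 5) (nat_lit 619) (nat_lit 558) (nat_lit 383)))) (XT.nd (nat_lit 156) (nat_lit 608) (nat_lit 0) (XT.nd (nat_lit 78) (nat_lit 608) (nat_lit 0) (XT.lf (nat_lit 0) (nat_lit 9187766933) (nat_lit 608) (nat_lit 7186181718) (nat_lit 76) (nat_lit 755833296) (nat_lit 265) (nat_lit 5) (nat_lit 273) (nat_lit 5) (nat_lit 266) (nat_lit 5) (nat_lit 620) (nat_lit 558) (nat_lit 382)) (XT.lf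 (nat_lit 0) (nat_lit 3120962848) (nat_lit 608) (nat_lit 9597634513) (nat_lit 684) (nat_lit 4608374607) (nat_lit 257) (nat_lit 5) (nat_lit 265) (nat_lit 5) (nat_lit 266) (nat_lit 5) (nat_lit 621) (nat_lit 558) (nat_lit 381))) (XT.nd (nat_lit 78) (nat_lit 608) (nat_lit 0) (XT.lf (nat_lit 0) (nat_lit 13720221865) (nat_lit 608) (nat_lit 2639456605) (nat_lit 684) (nat_lit 1167634824) (nat_lit 257) (nat_lit 5) (nat_lit 265) (nat_lit 5) (nat_lit 266) (nat_lit 5) (nat_lit 622) (nat_lit 558) (nat_lit 380)) (XT.lf (nat_lit 0) (nat_lit 2376610368) (nat_lit 608) (nat_lit 10896671692) (nat_lit 76) (nat_lit 4456767354) (nat_lit 249) (nat_lit 5) (nat_lit 257) (nat_lit 5) (nat_lit 250) (nat_lit 5) (nat_lit 623) (nat_lit 558) (nat_lit 379))))))))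
noncomputable def xc136 : XT := (XT.nd (nat_lit 2418) (nat_lit 4180) (nat_lit 0) (XT.nd (nat_lit 1170) (nat_lit 3952) (nat_lit 0) (XT.nd (nat_lit 546) (nat_lit 2356) (nat_lit 0) (XT.nd (nat_lit 234) (nat_lit 1064) (nat_lit 0) (XT.nd (nat_lit 78) (nat_lit 988) (nat_lit 0) (XT.lf (nat_lit 0) (nat_lit 6010915059) (nat_lit 608) (nat_lit 234850883) (nat_lit 76) (nat_lit 11690223945) (nat_lit 249) (nat_lit 5) (nat_lit 257) (nat_lit 5) (nat_lit 250) (nat_lit 5) (nat_lit 624) (nat_lit 558) (nat_lit 378)) (XT.nd (nat_lit 78) (nat_lit 456) (nat_lit 0) (XT.lf (nat_lit 0) (nat_lit 9786028579) (nat_lit 608) (nat_lit 7380965868) (nat_lit 76) (nat_lit 977692440) (nat_lit 242) (nat_lit 5) (nat_lit 250) (nat_lit 5) (nat_lit 243) (nat_lit 5) (nat_lit 625) (nat_lit 558) (nat_lit 377)) (XT.lf (nat_lit 0) (nat_lit 3622813183) (nat_lit 456) (nat_lit 10072134936) (nat_lit 532) (nat_lit 4661443802) (nat_lit 236) (nat_lit 5) (nat_lit 242) (nat_lit 5) (nat_lit 243) (nat_lit 5)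 (nat_lit 626) (nat_lit 558) (nat_lit 376)))) (XT.nd (nat_lit 156) (nat_lit 456) (nat_lit 0) (XT.nd (nat_lit 78) (nat_lit 608) (nat_lit 0) (XT.lf (nat_lit 0) (nat_lit 14935543703) (nat_lit 456) (nat_lit 2787953044) (nat_lit 532) (nat_lit 848005463) (nat_lit 236) (nat_lit 5) (nat_lit 242) (nat_lit 5) (nat_lit 243) (nat_lit 5) (nat_lit 627) (nat_lit 558) (nat_lit 375)) (XT.lf (nat_lit 0) (nat_lit 3074765436) (nat_lit 608) (nat_lit 11065749892) (nat_lit 76) (nat_lit 4648545434) (nat_lit 228) (nat_lit 5) (nat_lit 236) (nat_lit 5) (nat_lit 229) (nat_lit 5) (nat_lit 628) (nat_lit 558) (nat_lit 374))) (XT.nd (nat_lit 78) (nat_lit 0) (nat_lit 0) (XT.lf (nat_lit 0) (nat_lit 317363937) (nat_lit 456) (nat_lit 6784459417) (nat_lit 532) (nat_lit 11908291453) (nat_lit 222) (nat_lit 5) (nat_lit 228) (nat_lit 5) (nat_lit 229) (nat_lit 5) (nat_lit 629) (nat_lit 558) (nat_lit 373)) (XT.lf (nat_lit 0) (nat_lit 11280991140) (nat_lit 532) (nat_lit 7172313335) (nat_lit 76) (nat_lit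 780854239) (nat_lit 222) (nat_lit 5) (nat_lit 229) (nat_lit 5) (nat_lit 223) (nat_lit 5) (nat_lit 630) (nat_lit 558) (nat_lit 372))))) (XT.nd (nat_lit 312) (nat_lit 912) (nat_lit 0) (XT.nd (nat_lit 156) (nat_lit 912) (nat_lit 0) (XT.nd (nat_lit 78) (nat_lit 76) (nat_lit 0) (XT.lf (nat_lit 0) (nat_lit 4582735992) (nat_lit 456) (nat_lit 11027998040) (nat_lit 532) (nat_lit 3850609781) (nat_lit 216) (nat_lit 5) (nat_lit 222) (nat_lit 5) (nat_lit 223) (nat_lit 5) (nat_lit 631) (nat_lit 558) (nat_lit 371)) (XT.lf (nat_lit 0) (nat_lit 370404359) (nat_lit 532) (nat_lit 3035488383) (nat_lit 76) (nat_lit 16286320933) (nat_lit 215) (nat_lit 5) (nat_lit 222) (nat_lit 5) (nat_lit 216) (nat_lit 5) (nat_lit 632) (nat_lit 558) (nat_lit 370))) (XT.nd (nat_lit 78) (nat_lit 456) (nat_lit 0) (XT.lf (nat_lit 0) (nat_lit 4704983337) (nat_lit 532) (nat_lit 10827137582) (nat_lit 76) (nat_lit 4393457022) (nat_lit 209) (nat_lit 5) (nat_lit 216) (nat_lit 5) (nat_lit 210) (nat_lit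 5) (nat_lit 633) (nat_lit 558) (nat_lit 369)) (XT.lf (nat_lit 0) (nat_lit 1336995983) (nat_lit 456) (nat_lit 7833542418) (nat_lit 532) (nat_lit 10992185541) (nat_lit 203) (nat_lit 5) (nat_lit 209) (nat_lit 5) (nat_lit 210) (nat_lit 5) (nat_lit 634) (nat_lit 558) (nat_lit 368)))) (XT.nd (nat_lit 156) (nat_lit 532) (nat_lit 0) (XT.nd (nat_lit 78) (nat_lit 380) (nat_lit 0) (XT.lf (nat_lit 0) (nat_lit 13791262843) (nat_lit 532) (nat_lit 6523482713) (nat_lit 76) (nat_lit 88550275) (nat_lit 203) (nat_lit 5) (nat_lit 210) (nat_lit 5) (nat_lit 204) (nat_lit 5) (nat_lit 635) (nat_lit 558) (nat_lit 367)) (XT.lf (nat_lit 0) (nat_lit 6041483131) (nat_lit 380) (nat_lit 12546764772) (nat_lit 456) (nat_lit 2058754468) (nat_lit 198) (nat_lit 5) (nat_lit 203) (nat_lit 5) (nat_lit 204) (nat_lit 5) (nat_lit 636) (nat_lit 558) (nat_lit 366))) (XT.nd (nat_lit 78) (nat_lit 456) (nat_lit 0) (XT.lf (nat_lit 0) (nat_lit 2588513804) (nat_lit 456) (nat_lit 1976316606) (nat_lit 76)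 (nat_lit 16329680320) (nat_lit 197) (nat_lit 5) (nat_lit 203) (nat_lit 5) (nat_lit 198) (nat_lit 5) (nat_lit 637) (nat_lit 558) (nat_lit 365)) (XT.lf (nat_lit 0) (nat_lit 7389449614) (nat_lit 532) (nat_lit 10143226047) (nat_lit 76) (nat_lit 3612255773) (nat_lit 191) (nat_lit 5) (nat_lit 198) (nat_lit 5) (nat_lit 192) (nat_lit 5) (nat_lit 638) (nat_lit 558) (nat_lit 364)))))) (XT.nd (nat_lit 624) (nat_lit 1900) (nat_lit 0) (XT.nd (nat_lit 312) (nat_lit 1216) (nat_lit 0) (XT.nd (nat_lit 156) (nat_lit 456) (nat_lit 0) (XT.nd (nat_lit 78) (nat_lit 0) (nat_lit 0) (XT.lf (nat_lit 0) (nat_lit 2862660860) (nat_lit 380) (nat_lit 9478869881) (nat_lit 456) (nat_lit 9057727405) (nat_lit 186) (nat_lit 5) (nat_lit 191) (nat_lit 5) (nat_lit 192) (nat_lit 5) (nat_lit 639) (nat_lit 558) (nat_lit 363)) (XT.lf (nat_lit 0) (nat_lit 16255682033) (nat_lit 380) (nat_lit 1198067551) (nat_lit 456) (nat_lit 4203700005) (nat_lit 186) (nat_lit 5) (nat_lit 191) (nat_lit 5) (nat_lit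 192) (nat_lit 5) (nat_lit 640) (nat_lit 558) (nat_lit 362))) (XT.nd (nat_lit 78) (nat_lit 0) (nat_lit 0) (XT.lf (nat_lit 0) (nat_lit 830648447) (nat_lit 456) (nat_lit 13880614111) (nat_lit 76) (nat_lit 7207584511) (nat_lit 180) (nat_lit 5) (nat_lit 186) (nat_lit 5) (nat_lit 181) (nat_lit 5) (nat_lit 641) (nat_lit 558) (nat_lit 361)) (XT.lf (nat_lit 0) (nat_lit 5947038346) (nat_lit 456) (nat_lit 410914200) (nat_lit 76) (nat_lit 15826211494) (nat_lit 180) (nat_lit 5) (nat_lit 186) (nat_lit 5) (nat_lit 181) (nat_lit 5) (nat_lit 642) (nat_lit 558) (nat_lit 360)))) (XT.nd (nat_lit 156) (nat_lit 456) (nat_lit 0) (XT.nd (nat_lit 78) (nat_lit 380) (nat_lit 0) (XT.lf (nat_lit 0) (nat_lit 11261272093) (nat_lit 456) (nat_lit 8972802979) (nat_lit 76) (nat_lit 2218802070) (nat_lit 175) (nat_lit 5) (nat_lit 181) (nat_lit 5) (nat_lit 176) (nat_lit 5) (nat_lit 643) (nat_lit 558) (nat_lit 359)) (XT.lf (nat_lit 0) (nat_lit 4939959547) (nat_lit 380) (nat_lit 11812129024)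 (nat_lit 456) (nat_lit 5973470085) (nat_lit 170) (nat_lit 5) (nat_lit 175) (nat_lit 5) (nat_lit 176) (nat_lit 5) (nat_lit 644) (nat_lit 558) (nat_lit 358))) (XT.nd (nat_lit 78) (nat_lit 456) (nat_lit 0) (XT.lf (nat_lit 0) (nat_lit 19242425461) (nat_lit 380) (nat_lit 3163915780) (nat_lit 456) (nat_lit 596280268) (nat_lit 170) (nat_lit 5) (nat_lit 175) (nat_lit 5) (nat_lit 176) (nat_lit 5) (nat_lit 645) (nat_lit 558) (nat_lit 357)) (XT.lf (nat_lit 0) (nat_lit 4924314460) (nat_lit 456) (nat_lit 12677214487) (nat_lit 76) (nat_lit 5681062512) (nat_lit 164) (nat_lit 5) (nat_lit 170) (nat_lit 5) (nat_lit 165) (nat_lit 5) (nat_lit 646) (nat_lit 558) (nat_lit 356))))) (XT.nd (nat_lit 312) (nat_lit 1140) (nat_lit 0) (XT.nd (nat_lit 156) (nat_lit 380) (nat_lit 0) (XT.nd (nat_lit 78) (nat_lit 0) (nat_lit 0) (XT.lf (nat_lit 0) (nat_lit 1729076686) (nat_lit 380) (nat_lit 8869380587) (nat_lit 456) (nat_lit 12968602401) (nat_lit 159) (nat_lit 5) (nat_lit 164) (nat_lit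 5) (nat_lit 165) (nat_lit 5) (nat_lit 647) (nat_lit 558) (nat_lit 355)) (XT.lf (nat_lit 0) (nat_lit 16465531520) (nat_lit 456) (nat_lit 7271130700) (nat_lit 76) (nat_lit 118966160) (nat_lit 159) (nat_lit 5) (nat_lit 165) (nat_lit 5) (nat_lit 160) (nat_lit 5) (nat_lit 648) (nat_lit 558) (nat_lit 354))) (XT.nd (nat_lit 78) (nat_lit 76) (nat_lit 0) (XT.lf (nat_lit 0) (nat_lit 7618289936) (nat_lit 304) (nat_lit 14933555495) (nat_lit 380) (nat_lit 1596085164) (nat_lit 155) (nat_lit 5) (nat_lit 159) (nat_lit 5) (nat_lit 160) (nat_lit 5) (nat_lit 649) (nat_lit 558) (nat_lit 353)) (XT.lf (nat_lit 0) (nat_lit 4300062213) (nat_lit 380) (nat_lit 1579337638) (nat_lit 76) (nat_lit 18565262298) (nat_lit 154) (nat_lit 5) (nat_lit 159) (nat_lit 5) (nat_lit 155) (nat_lit 5) (nat_lit 650) (nat_lit 558) (nat_lit 352)))) (XT.nd (nat_lit 156) (nat_lit 456) (nat_lit 0) (XT.nd (nat_lit 78) (nat_lit 304) (nat_lit 0) (XT.lf (nat_lit 0) (nat_lit 10398849537) (nat_lit 456) (nat_lit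 10936845197) (nat_lit 76) (nat_lit 3409300919) (nat_lit 149) (nat_lit 5) (nat_lit 155) (nat_lit 5) (nat_lit 150) (nat_lit 5) (nat_lit 651) (nat_lit 558) (nat_lit 351)) (XT.lf (nat_lit 0) (nat_lit 4483666656) (nat_lit 304) (nat_lit 12208534878) (nat_lit 380) (nat_lit 8357682603) (nat_lit 145) (nat_lit 5) (nat_lit 149) (nat_lit 5) (nat_lit 150) (nat_lit 5) (nat_lit 652) (nat_lit 558) (nat_lit 350))) (XT.nd (nat_lit 78) (nat_lit 456) (nat_lit 0) (XT.lf (nat_lit 0) (nat_lit 20351101442) (nat_lit 304) (nat_lit 2827641209) (nat_lit 380) (nat_lit 2180781386) (nat_lit 145) (nat_lit 5) (nat_lit 149) (nat_lit 5) (nat_lit 150) (nat_lit 5) (nat_lit 653) (nat_lit 558) (nat_lit 349)) (XT.lf (nat_lit 0) (nat_lit 4175240268) (nat_lit 456) (nat_lit 14749908688) (nat_lit 76) (nat_lit 6747480664) (nat_lit 139) (nat_lit 5) (nat_lit 145) (nat_lit 5) (nat_lit 140) (nat_lit 5) (nat_lit 654) (nat_lit 558) (nat_lit 348))))))) (XT.nd (nat_lit 1170) (nat_lit 1292) (nat_lit 0) (XT.nd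 (nat_lit 546) (nat_lit 1596) (nat_lit 0) (XT.nd (nat_lit 234) (nat_lit 684) (nat_lit 0) (XT.nd (nat_lit 78) (nat_lit 304) (nat_lit 0) (XT.lf (nat_lit 0) (nat_lit 1222029151) (nat_lit 304) (nat_lit 9461713300) (nat_lit 380) (nat_lit 15306875431) (nat_lit 135) (nat_lit 5) (nat_lit 139) (nat_lit 5) (nat_lit 140) (nat_lit 5) (nat_lit 655) (nat_lit 558) (nat_lit 347)) (XT.nd (nat_lit 78) (nat_lit 304) (nat_lit 0) (XT.lf (nat_lit 0) (nat_lit 17417361835) (nat_lit 380) (nat_lit 8611227578) (nat_lit 76) (nat_lit 284477636) (nat_lit 135) (nat_lit 5) (nat_lit 140) (nat_lit 5) (nat_lit 136) (nat_lit 5) (nat_lit 656) (nat_lit 558) (nat_lit 346)) (XT.lf (nat_lit 0) (nat_lit 7900739707) (nat_lit 304) (nat_lit 16493059298) (nat_lit 380) (nat_lit 2246003365) (nat_lit 131) (nat_lit 5) (nat_lit 135) (nat_lit 5) (nat_lit 136) (nat_lit 5) (nat_lit 657) (nat_lit 558) (nat_lit 345)))) (XT.nd (nat_lit 156) (nat_lit 304) (nat_lit 0) (XT.nd (nat_lit 78) (nat_lit 304) (nat_lit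 0) (XT.lf (nat_lit 0) (nat_lit 4529564207) (nat_lit 380) (nat_lit 2151595769) (nat_lit 76) (nat_lit 20290275971) (nat_lit 130) (nat_lit 5) (nat_lit 135) (nat_lit 5) (nat_lit 131) (nat_lit 5) (nat_lit 658) (nat_lit 558) (nat_lit 344)) (XT.lf (nat_lit 0) (nat_lit 11524227912) (nat_lit 380) (nat_lit 12390546556) (nat_lit 76) (nat_lit 3392357704) (nat_lit 126) (nat_lit 5) (nat_lit 131) (nat_lit 5) (nat_lit 127) (nat_lit 5) (nat_lit 659) (nat_lit 558) (nat_lit 343))) (XT.nd (nat_lit 78) (nat_lit 0) (nat_lit 0) (XT.lf (nat_lit 0) (nat_lit 4714171861) (nat_lit 304) (nat_lit 14028344630) (nat_lit 380) (nat_lit 8905351273) (nat_lit 122) (nat_lit 5) (nat_lit 126) (nat_lit 5) (nat_lit 127) (nat_lit 5) (nat_lit 660) (nat_lit 558) (nat_lit 342)) (XT.lf (nat_lit 0) (nat_lit 22319647159) (nat_lit 304) (nat_lit 3863065346) (nat_lit 380) (nat_lit 1811154802) (nat_lit 122) (nat_lit 5) (nat_lit 126) (nat_lit 5) (nat_lit 127) (nat_lit 5) (nat_lit 661) (nat_lit 558) (nat_lit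 341))))) (XT.nd (nat_lit 312) (nat_lit 684) (nat_lit 0) (XT.nd (nat_lit 156) (nat_lit 228) (nat_lit 0) (XT.nd (nat_lit 78) (nat_lit 304) (nat_lit 0) (XT.lf (nat_lit 0) (nat_lit 5469407902) (nat_lit 380) (nat_lit 16343598568) (nat_lit 76) (nat_lit 6530763372) (nat_lit 117) (nat_lit 5) (nat_lit 122) (nat_lit 5) (nat_lit 118) (nat_lit 5) (nat_lit 662) (nat_lit 558) (nat_lit 340)) (XT.lf (nat_lit 0) (nat_lit 1376063134) (nat_lit 304) (nat_lit 11562630322) (nat_lit 380) (nat_lit 15760390346) (nat_lit 113) (nat_lit 5) (nat_lit 117) (nat_lit 5) (nat_lit 118) (nat_lit 5) (nat_lit 663) (nat_lit 558) (nat_lit 339))) (XT.nd (nat_lit 78) (nat_lit 228) (nat_lit 0) (XT.lf (nat_lit 0) (nat_lit 19662508867) (nat_lit 304) (nat_lit 999072147) (nat_lit 380) (nat_lit 8397838768) (nat_lit 113) (nat_lit 5) (nat_lit 117) (nat_lit 5) (nat_lit 118) (nat_lit 5) (nat_lit 664) (nat_lit 558) (nat_lit 338)) (XT.lf (nat_lit 0) (nat_lit 8932344512) (nat_lit 228) (nat_lit 19722672870)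 (nat_lit 304) (nat_lit 769623344) (nat_lit 110) (nat_lit 5) (nat_lit 113) (nat_lit 5) (nat_lit 114) (nat_lit 5) (nat_lit 665) (nat_lit 558) (nat_lit 337)))) (XT.nd (nat_lit 156) (nat_lit 304) (nat_lit 0) (XT.nd (nat_lit 78) (nat_lit 304) (nat_lit 0) (XT.lf (nat_lit 0) (nat_lit 6983933288) (nat_lit 304) (nat_lit 2101964213) (nat_lit 76) (nat_lit 20709063640) (nat_lit 109) (nat_lit 5) (nat_lit 113) (nat_lit 5) (nat_lit 110) (nat_lit 5) (nat_lit 666) (nat_lit 558) (nat_lit 336)) (XT.lf (nat_lit 0) (nat_lit 14998681758) (nat_lit 380) (nat_lit 13319332878) (nat_lit 76) (nat_lit 1852243125) (nat_lit 105) (nat_lit 5) (nat_lit 110) (nat_lit 5) (nat_lit 106) (nat_lit 5) (nat_lit 667) (nat_lit 558) (nat_lit 335))) (XT.nd (nat_lit 78) (nat_lit 76) (nat_lit 0) (XT.lf (nat_lit 0) (nat_lit 5663690205) (nat_lit 228) (nat_lit 17615942324) (nat_lit 304) (nat_lit 7271309700) (nat_lit 102) (nat_lit 5) (nat_lit 105) (nat_lit 5) (nat_lit 106) (nat_lit 5) (nat_lit 668) (nat_lit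 558) (nat_lit 334)) (XT.lf (nat_lit 0) (nat_lit 861387875) (nat_lit 304) (nat_lit 5745155658) (nat_lit 76) (nat_lit 24330899780) (nat_lit 101) (nat_lit 5) (nat_lit 105) (nat_lit 5) (nat_lit 102) (nat_lit 5) (nat_lit 669) (nat_lit 558) (nat_lit 333)))))) (XT.nd (nat_lit 72618) (nat_lit 0) (nat_lit 35568) (XT.nd (nat_lit 312) (nat_lit 456) (nat_lit 0) (XT.nd (nat_lit 156) (nat_lit 304) (nat_lit 0) (XT.nd (nat_lit 78) (nat_lit 228) (nat_lit 0) (XT.lf (nat_lit 0) (nat_lit 9175536693) (nat_lit 380) (nat_lit 17454666517) (nat_lit 76) (nat_lit 4698186795) (nat_lit 97) (nat_lit 5) (nat_lit 102) (nat_lit 5) (nat_lit 98) (nat_lit 5) (nat_lit 670) (nat_lit 558) (nat_lit 332)) (XT.lf (nat_lit 0) (nat_lit 2212717716) (nat_lit 228) (nat_lit 15535075928) (nat_lit 304) (nat_lit 13977525539) (nat_lit 94) (nat_lit 5) (nat_lit 97) (nat_lit 5) (nat_lit 98) (nat_lit 5) (nat_lit 671) (nat_lit 558) (nat_lit 331))) (XT.nd (nat_lit 78) (nat_lit 304) (nat_lit 0) (XT.lf (nat_lit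 0) (nat_lit 22501341960) (nat_lit 228) (nat_lit 4102225698) (nat_lit 304) (nat_lit 5524377905) (nat_lit 94) (nat_lit 5) (nat_lit 97) (nat_lit 5) (nat_lit 98) (nat_lit 5) (nat_lit 672) (nat_lit 558) (nat_lit 330)) (XT.lf (nat_lit 0) (nat_lit 3171788584) (nat_lit 304) (nat_lit 21816935358) (nat_lit 76) (nat_lit 7547206624) (nat_lit 90) (nat_lit 5) (nat_lit 94) (nat_lit 5) (nat_lit 91) (nat_lit 5) (nat_lit 673) (nat_lit 558) (nat_lit 329)))) (XT.nd (nat_lit 156) (nat_lit 228) (nat_lit 0) (XT.nd (nat_lit 78) (nat_lit 228) (nat_lit 0) (XT.lf (nat_lit 0) (nat_lit 12055197783) (nat_lit 304) (nat_lit 1421591214) (nat_lit 76) (nat_lit 19472810187) (nat_lit 90) (nat_lit 5) (nat_lit 94) (nat_lit 5) (nat_lit 91) (nat_lit 5) (nat_lit 674) (nat_lit 558) (nat_lit 328)) (XT.lf (nat_lit 0) (nat_lit 19630663689) (nat_lit 228) (nat_lit 1608191478) (nat_lit 304) (nat_lit 12130234458) (nat_lit 87) (nat_lit 5) (nat_lit 90) (nat_lit 5) (nat_lit 91) (nat_lit 5) (nat_lit 675)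 (nat_lit 558) (nat_lit 327))) (XT.nd (nat_lit 72072) (nat_lit 0) (nat_lit 35568) (XT.lf (nat_lit 0) (nat_lit 7346104662) (nat_lit 228) (nat_lit 23380680774) (nat_lit 304) (nat_lit 3067772493) (nat_lit 84) (nat_lit 5) (nat_lit 87) (nat_lit 5) (nat_lit 88) (nat_lit 5) (nat_lit 676) (nat_lit 558) (nat_lit 326)) (XT.lf (nat_lit 0) (nat_lit 261466829) (nat_lit 0) (nat_lit 261466829) (nat_lit 1596) (nat_lit 4155094805) (nat_lit 552) (nat_lit 5) (nat_lit 552) (nat_lit 3) (nat_lit 573) (nat_lit 3) (nat_lit 559) (nat_lit 559) (nat_lit 442))))) (XT.nd (nat_lit 312) (nat_lit 0) (nat_lit 152) (XT.nd (nat_lit 156) (nat_lit 0) (nat_lit 76) (XT.nd (nat_lit 78) (nat_lit 0) (nat_lit 0) (XT.lf (nat_lit 0) (nat_lit 1908931164) (nat_lit 1596) (nat_lit 4189314699) (nat_lit 1672) (nat_lit 3334292138) (nat_lit 552) (nat_lit 5) (nat_lit 573) (nat_lit 3) (nat_lit 574) (nat_lit 5) (nat_lit 560) (nat_lit 559) (nat_lit 441)) (XT.lf (nat_lit 76) (nat_lit 539582019) (nat_lit 0) (nat_lit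 2234922714) (nat_lit 1672) (nat_lit 6736339712) (nat_lit 553) (nat_lit 5) (nat_lit 552) (nat_lit 5) (nat_lit 574) (nat_lit 5) (nat_lit 561) (nat_lit 559) (nat_lit 440))) (XT.nd (nat_lit 78) (nat_lit 0) (nat_lit 0) (XT.lf (nat_lit 0) (nat_lit 3675462248) (nat_lit 1596) (nat_lit 4193391118) (nat_lit 1672) (nat_lit 1721502907) (nat_lit 553) (nat_lit 5) (nat_lit 574) (nat_lit 5) (nat_lit 575) (nat_lit 5) (nat_lit 562) (nat_lit 559) (nat_lit 439)) (XT.lf (nat_lit 76) (nat_lit 662335423) (nat_lit 0) (nat_lit 3930321751) (nat_lit 1672) (nat_lit 5078837489) (nat_lit 554) (nat_lit 5) (nat_lit 553) (nat_lit 5) (nat_lit 575) (nat_lit 5) (nat_lit 563) (nat_lit 559) (nat_lit 438)))) (XT.nd (nat_lit 156) (nat_lit 0) (nat_lit 0) (XT.nd (nat_lit 78) (nat_lit 0) (nat_lit 0) (XT.lf (nat_lit 0) (nat_lit 5536597475) (nat_lit 1596) (nat_lit 4094407202) (nat_lit 1672) (nat_lit 123083791) (nat_lit 554) (nat_lit 5) (nat_lit 575) (nat_lit 5) (nat_lit 576) (nat_lit 5) (nat_lit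 564) (nat_lit 559) (nat_lit 437)) (XT.lf (nat_lit 76) (nat_lit 892570317) (nat_lit 0) (nat_lit 5618582321) (nat_lit 1672) (nat_lit 3326947452) (nat_lit 555) (nat_lit 5) (nat_lit 554) (nat_lit 5) (nat_lit 576) (nat_lit 5) (nat_lit 565) (nat_lit 559) (nat_lit 436))) (XT.nd (nat_lit 78) (nat_lit 0) (nat_lit 76) (XT.lf (nat_lit 76) (nat_lit 6023118279) (nat_lit 0) (nat_lit 1489786640) (nat_lit 1672) (nat_lit 2410733558) (nat_lit 555) (nat_lit 5) (nat_lit 554) (nat_lit 5) (nat_lit 576) (nat_lit 5) (nat_lit 566) (nat_lit 559) (nat_lit 435)) (XT.lf (nat_lit 76) (nat_lit 1231996195) (nat_lit 0) (nat_lit 7309034905) (nat_lit 1672) (nat_lit 1469730392) (nat_lit 556) (nat_lit 5) (nat_lit 555) (nat_lit 5) (nat_lit 577) (nat_lit 5) (nat_lit 567) (nat_lit 559) (nat_lit 434))))))))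
noncomputable def xc137 : XT := (XT.nd (nat_lit 2418) (nat_lit 11856) (nat_lit 0) (XT.nd (nat_lit 1170) (nat_lit 9956) (nat_lit 0) (XT.nd (nat_lit 546) (nat_lit 1444) (nat_lit 0) (XT.nd (nat_lit 234) (nat_lit 0) (nat_lit 0) (XT.nd (nat_lit 78) (nat_lit 1596) (nat_lit 0) (XT.lf (nat_lit 76) (nat_lit 6498235518) (nat_lit 0) (nat_lit 3108432039) (nat_lit 1672) (nat_lit 492621082) (nat_lit 556) (nat_lit 5) (nat_lit 555) (nat_lit 5) (nat_lit 577) (nat_lit 5) (nat_lit 568) (nat_lit 559) (nat_lit 433)) (XT.nd (nat_lit 78) (nat_lit 0) (nat_lit 0) (XT.lf (nat_lit 0) (nat_lit 497371580) (nat_lit 1672) (nat_lit 8510206027) (nat_lit 1748) (nat_lit 1181944841) (nat_lit 534) (nat_lit 5) (nat_lit 556) (nat_lit 5) (nat_lit 557) (nat_lit 5) (nat_lit 569) (nat_lit 559) (nat_lit 432)) (XT.lf (nat_lit 0) (nat_lit 1527041385) (nat_lit 1672) (nat_lit 3203136927) (nat_lit 1748) (nat_lit 5550788614) (nat_lit 534) (nat_lit 5) (nat_lit 556) (nat_lit 5) (nat_lit 557) (nat_lit 5)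 (nat_lit 570) (nat_lit 559) (nat_lit 431)))) (XT.nd (nat_lit 156) (nat_lit 0) (nat_lit 76) (XT.nd (nat_lit 78) (nat_lit 0) (nat_lit 76) (XT.lf (nat_lit 76) (nat_lit 2227366447) (nat_lit 0) (nat_lit 346317996) (nat_lit 1748) (nat_lit 7800628833) (nat_lit 535) (nat_lit 5) (nat_lit 534) (nat_lit 5) (nat_lit 557) (nat_lit 5) (nat_lit 571) (nat_lit 559) (nat_lit 430)) (XT.lf (nat_lit 0) (nat_lit 3671915804) (nat_lit 1672) (nat_lit 2698359778) (nat_lit 1748) (nat_lit 4098638428) (nat_lit 535) (nat_lit 5) (nat_lit 557) (nat_lit 5) (nat_lit 558) (nat_lit 5) (nat_lit 572) (nat_lit 559) (nat_lit 429))) (XT.nd (nat_lit 78) (nat_lit 0) (nat_lit 76) (XT.lf (nat_lit 76) (nat_lit 2882716426) (nat_lit 0) (nat_lit 1912988404) (nat_lit 1748) (nat_lit 5769630625) (nat_lit 536) (nat_lit 5) (nat_lit 535) (nat_lit 5) (nat_lit 558) (nat_lit 5) (nat_lit 573) (nat_lit 559) (nat_lit 428)) (XT.lf (nat_lit 0) (nat_lit 5960176195) (nat_lit 1672) (nat_lit 2080845135) (nat_lit 1748)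 (nat_lit 2622300411) (nat_lit 536) (nat_lit 5) (nat_lit 558) (nat_lit 5) (nat_lit 559) (nat_lit 5) (nat_lit 574) (nat_lit 559) (nat_lit 427))))) (XT.nd (nat_lit 312) (nat_lit 1596) (nat_lit 0) (XT.nd (nat_lit 156) (nat_lit 0) (nat_lit 76) (XT.nd (nat_lit 78) (nat_lit 0) (nat_lit 76) (XT.lf (nat_lit 76) (nat_lit 3656193045) (nat_lit 0) (nat_lit 3511367991) (nat_lit 1748) (nat_lit 3595314769) (nat_lit 537) (nat_lit 5) (nat_lit 536) (nat_lit 5) (nat_lit 559) (nat_lit 5) (nat_lit 575) (nat_lit 559) (nat_lit 426)) (XT.lf (nat_lit 0) (nat_lit 8403846934) (nat_lit 1672) (nat_lit 1347590803) (nat_lit 1748) (nat_lit 1112888671) (nat_lit 537) (nat_lit 5) (nat_lit 559) (nat_lit 5) (nat_lit 560) (nat_lit 5) (nat_lit 576) (nat_lit 559) (nat_lit 425))) (XT.nd (nat_lit 78) (nat_lit 0) (nat_lit 0) (XT.lf (nat_lit 76) (nat_lit 4551022786) (nat_lit 0) (nat_lit 5150459431) (nat_lit 1748) (nat_lit 1265591844) (nat_lit 538) (nat_lit 5) (nat_lit 537) (nat_lit 5) (nat_lit 560)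 (nat_lit 5) (nat_lit 577) (nat_lit 559) (nat_lit 424)) (XT.lf (nat_lit 76) (nat_lit 10573861564) (nat_lit 0) (nat_lit 444312231) (nat_lit 1748) (nat_lit 53841306) (nat_lit 538) (nat_lit 5) (nat_lit 537) (nat_lit 5) (nat_lit 560) (nat_lit 5) (nat_lit 578) (nat_lit 559) (nat_lit 423)))) (XT.nd (nat_lit 156) (nat_lit 0) (nat_lit 76) (XT.nd (nat_lit 78) (nat_lit 0) (nat_lit 0) (XT.lf (nat_lit 0) (nat_lit 1215812166) (nat_lit 1748) (nat_lit 5615311742) (nat_lit 1824) (nat_lit 4346794591) (nat_lit 515) (nat_lit 5) (nat_lit 538) (nat_lit 5) (nat_lit 539) (nat_lit 5) (nat_lit 579) (nat_lit 559) (nat_lit 422)) (XT.lf (nat_lit 76) (nat_lit 455876571) (nat_lit 0) (nat_lit 2048052750) (nat_lit 1824) (nat_lit 8782128170) (nat_lit 516) (nat_lit 5) (nat_lit 515) (nat_lit 5) (nat_lit 539) (nat_lit 5) (nat_lit 580) (nat_lit 559) (nat_lit 421))) (XT.nd (nat_lit 78) (nat_lit 0) (nat_lit 0) (XT.lf (nat_lit 0) (nat_lit 3858886815) (nat_lit 1748) (nat_lit 4702116082) (nat_lit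 1824) (nat_lit 2834535270) (nat_lit 516) (nat_lit 5) (nat_lit 539) (nat_lit 5) (nat_lit 540) (nat_lit 5) (nat_lit 581) (nat_lit 559) (nat_lit 420)) (XT.lf (nat_lit 76) (nat_lit 1542939647) (nat_lit 0) (nat_lit 3706651625) (nat_lit 1824) (nat_lit 6257444684) (nat_lit 517) (nat_lit 5) (nat_lit 516) (nat_lit 5) (nat_lit 540) (nat_lit 5) (nat_lit 582) (nat_lit 559) (nat_lit 419)))))) (XT.nd (nat_lit 624) (nat_lit 4408) (nat_lit 0) (XT.nd (nat_lit 312) (nat_lit 2128) (nat_lit 0) (XT.nd (nat_lit 156) (nat_lit 1824) (nat_lit 0) (XT.nd (nat_lit 78) (nat_lit 1748) (nat_lit 0) (XT.lf (nat_lit 0) (nat_lit 6693251645) (nat_lit 1748) (nat_lit 3664262623) (nat_lit 76) (nat_lit 1262747043) (nat_lit 517) (nat_lit 5) (nat_lit 540) (nat_lit 5) (nat_lit 518) (nat_lit 5) (nat_lit 583) (nat_lit 559) (nat_lit 418)) (XT.lf (nat_lit 0) (nat_lit 2761002038) (nat_lit 1748) (nat_lit 5432842300) (nat_lit 1824) (nat_lit 3541346091) (nat_lit 494) (nat_lit 5) (nat_lit 517) (nat_lit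 5) (nat_lit 518) (nat_lit 5) (nat_lit 584) (nat_lit 559) (nat_lit 417))) (XT.nd (nat_lit 78) (nat_lit 1824) (nat_lit 0) (XT.lf (nat_lit 0) (nat_lit 9352293120) (nat_lit 1748) (nat_lit 382534151) (nat_lit 1824) (nat_lit 2117383721) (nat_lit 494) (nat_lit 5) (nat_lit 517) (nat_lit 5) (nat_lit 518) (nat_lit 5) (nat_lit 585) (nat_lit 559) (nat_lit 416)) (XT.lf (nat_lit 0) (nat_lit 4114637290) (nat_lit 1824) (nat_lit 7235750632) (nat_lit 1900) (nat_lit 620309303) (nat_lit 470) (nat_lit 5) (nat_lit 494) (nat_lit 5) (nat_lit 495) (nat_lit 5) (nat_lit 586) (nat_lit 559) (nat_lit 415)))) (XT.nd (nat_lit 156) (nat_lit 912) (nat_lit 0) (XT.nd (nat_lit 78) (nat_lit 1140) (nat_lit 0) (XT.lf (nat_lit 0) (nat_lit 900419118) (nat_lit 1900) (nat_lit 1216685065) (nat_lit 76) (nat_lit 9974219583) (nat_lit 469) (nat_lit 5) (nat_lit 494) (nat_lit 5) (nat_lit 470) (nat_lit 5) (nat_lit 587) (nat_lit 559) (nat_lit 414)) (XT.lf (nat_lit 0) (nat_lit 2486592389) (nat_lit 1216) (nat_lit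 6621335543) (nat_lit 76) (nat_lit 3105486572) (nat_lit 454) (nat_lit 5) (nat_lit 470) (nat_lit 5) (nat_lit 455) (nat_lit 5) (nat_lit 588) (nat_lit 559) (nat_lit 413))) (XT.nd (nat_lit 78) (nat_lit 0) (nat_lit 0) (XT.lf (nat_lit 0) (nat_lit 191906875) (nat_lit 912) (nat_lit 3922718976) (nat_lit 988) (nat_lit 8223118862) (nat_lit 442) (nat_lit 5) (nat_lit 454) (nat_lit 5) (nat_lit 455) (nat_lit 5) (nat_lit 589) (nat_lit 559) (nat_lit 412)) (XT.lf (nat_lit 0) (nat_lit 5815657668) (nat_lit 988) (nat_lit 5254121073) (nat_lit 76) (nat_lit 1393974411) (nat_lit 442) (nat_lit 5) (nat_lit 455) (nat_lit 5) (nat_lit 443) (nat_lit 5) (nat_lit 590) (nat_lit 559) (nat_lit 411))))) (XT.nd (nat_lit 312) (nat_lit 2584) (nat_lit 0) (XT.nd (nat_lit 156) (nat_lit 912) (nat_lit 0) (XT.nd (nat_lit 78) (nat_lit 0) (nat_lit 0) (XT.lf (nat_lit 0) (nat_lit 1760331174) (nat_lit 912) (nat_lit 5814885030) (nat_lit 988) (nat_lit 5016575809) (nat_lit 430) (nat_lit 5) (nat_lit 442) (nat_lit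 5) (nat_lit 443) (nat_lit 5) (nat_lit 591) (nat_lit 559) (nat_lit 410)) (XT.lf (nat_lit 0) (nat_lit 8974166133) (nat_lit 912) (nat_lit 418330501) (nat_lit 988) (nat_lit 3329444769) (nat_lit 430) (nat_lit 5) (nat_lit 442) (nat_lit 5) (nat_lit 443) (nat_lit 5) (nat_lit 592) (nat_lit 559) (nat_lit 409))) (XT.nd (nat_lit 78) (nat_lit 76) (nat_lit 0) (XT.lf (nat_lit 0) (nat_lit 3478033078) (nat_lit 836) (nat_lit 7811220160) (nat_lit 912) (nat_lit 1564578291) (nat_lit 419) (nat_lit 5) (nat_lit 430) (nat_lit 5) (nat_lit 431) (nat_lit 5) (nat_lit 593) (nat_lit 559) (nat_lit 408)) (XT.lf (nat_lit 0) (nat_lit 248192851) (nat_lit 912) (nat_lit 2105391695) (nat_lit 76) (nat_lit 10634430724) (nat_lit 418) (nat_lit 5) (nat_lit 430) (nat_lit 5) (nat_lit 419) (nat_lit 5) (nat_lit 594) (nat_lit 559) (nat_lit 407)))) (XT.nd (nat_lit 156) (nat_lit 1672) (nat_lit 0) (XT.nd (nat_lit 78) (nat_lit 0) (nat_lit 0) (XT.lf (nat_lit 0) (nat_lit 2120095055) (nat_lit 988) (nat_lit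 7787036358) (nat_lit 76) (nat_lit 3216668267) (nat_lit 406) (nat_lit 5) (nat_lit 419) (nat_lit 5) (nat_lit 407) (nat_lit 5) (nat_lit 595) (nat_lit 559) (nat_lit 406)) (XT.lf (nat_lit 0) (nat_lit 4047258653) (nat_lit 988) (nat_lit 333547115) (nat_lit 76) (nat_lit 8881137875) (nat_lit 406) (nat_lit 5) (nat_lit 419) (nat_lit 5) (nat_lit 407) (nat_lit 5) (nat_lit 596) (nat_lit 559) (nat_lit 405))) (XT.nd (nat_lit 78) (nat_lit 836) (nat_lit 0) (XT.lf (nat_lit 0) (nat_lit 6057429671) (nat_lit 912) (nat_lit 6057058229) (nat_lit 76) (nat_lit 1287473628) (nat_lit 395) (nat_lit 5) (nat_lit 407) (nat_lit 5) (nat_lit 396) (nat_lit 5) (nat_lit 597) (nat_lit 559) (nat_lit 404)) (XT.lf (nat_lit 0) (nat_lit 1616822809) (nat_lit 836) (nat_lit 6521145717) (nat_lit 912) (nat_lit 5406208275) (nat_lit 384) (nat_lit 5) (nat_lit 395) (nat_lit 5) (nat_lit 396) (nat_lit 5) (nat_lit 598) (nat_lit 559) (nat_lit 403))))))) (XT.nd (nat_lit 1170) (nat_lit 5852) (nat_lit 0) (XT.nd (nat_lit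 546) (nat_lit 2888) (nat_lit 0) (XT.nd (nat_lit 234) (nat_lit 2280) (nat_lit 0) (XT.nd (nat_lit 78) (nat_lit 836) (nat_lit 0) (XT.lf (nat_lit 0) (nat_lit 9514301489) (nat_lit 836) (nat_lit 775014190) (nat_lit 912) (nat_lit 3399337062) (nat_lit 384) (nat_lit 5) (nat_lit 395) (nat_lit 5) (nat_lit 396) (nat_lit 5) (nat_lit 599) (nat_lit 559) (nat_lit 402)) (XT.nd (nat_lit 78) (nat_lit 76) (nat_lit 0) (XT.lf (nat_lit 0) (nat_lit 3737739350) (nat_lit 760) (nat_lit 8792012793) (nat_lit 836) (nat_lit 1305345117) (nat_lit 374) (nat_lit 5) (nat_lit 384) (nat_lit 5) (nat_lit 385) (nat_lit 5) (nat_lit 600) (nat_lit 559) (nat_lit 401)) (XT.lf (nat_lit 0) (nat_lit 841806073) (nat_lit 836) (nat_lit 2142005810) (nat_lit 76) (nat_lit 11000107797) (nat_lit 373) (nat_lit 5) (nat_lit 384) (nat_lit 5) (nat_lit 374) (nat_lit 5) (nat_lit 601) (nat_lit 559) (nat_lit 400)))) (XT.nd (nat_lit 156) (nat_lit 760) (nat_lit 0) (XT.nd (nat_lit 78) (nat_lit 760) (nat_lit 0) (XT.lf (nat_lit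 0) (nat_lit 3062059503) (nat_lit 836) (nat_lit 8123281980) (nat_lit 76) (nat_lit 2949252030) (nat_lit 363) (nat_lit 5) (nat_lit 374) (nat_lit 5) (nat_lit 364) (nat_lit 5) (nat_lit 602) (nat_lit 559) (nat_lit 399)) (XT.lf (nat_lit 0) (nat_lit 37435047) (nat_lit 760) (nat_lit 5312948426) (nat_lit 836) (nat_lit 8937424325) (nat_lit 353) (nat_lit 5) (nat_lit 363) (nat_lit 5) (nat_lit 364) (nat_lit 5) (nat_lit 603) (nat_lit 559) (nat_lit 398))) (XT.nd (nat_lit 78) (nat_lit 760) (nat_lit 0) (XT.lf (nat_lit 0) (nat_lit 7733061356) (nat_lit 836) (nat_lit 5988337531) (nat_lit 76) (nat_lit 721716011) (nat_lit 353) (nat_lit 5) (nat_lit 364) (nat_lit 5) (nat_lit 354) (nat_lit 5) (nat_lit 604) (nat_lit 559) (nat_lit 397)) (XT.lf (nat_lit 0) (nat_lit 2423712104) (nat_lit 760) (nat_lit 7780131634) (nat_lit 836) (nat_lit 4396875655) (nat_lit 343) (nat_lit 5) (nat_lit 353) (nat_lit 5) (nat_lit 354) (nat_lit 5) (nat_lit 605) (nat_lit 559) (nat_lit 396))))) (XT.nd (nat_lit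 312) (nat_lit 1444) (nat_lit 0) (XT.nd (nat_lit 156) (nat_lit 684) (nat_lit 0) (XT.nd (nat_lit 78) (nat_lit 760) (nat_lit 0) (XT.lf (nat_lit 0) (nat_lit 11073425423) (nat_lit 760) (nat_lit 1680459759) (nat_lit 836) (nat_lit 2006994195) (nat_lit 343) (nat_lit 5) (nat_lit 353) (nat_lit 5) (nat_lit 354) (nat_lit 5) (nat_lit 606) (nat_lit 559) (nat_lit 395)) (XT.lf (nat_lit 0) (nat_lit 477154608) (nat_lit 760) (nat_lit 9930128721) (nat_lit 76) (nat_lit 4515861197) (nat_lit 333) (nat_lit 5) (nat_lit 343) (nat_lit 5) (nat_lit 334) (nat_lit 5) (nat_lit 607) (nat_lit 559) (nat_lit 394))) (XT.nd (nat_lit 78) (nat_lit 684) (nat_lit 0) (XT.lf (nat_lit 0) (nat_lit 3010084456) (nat_lit 760) (nat_lit 1227436555) (nat_lit 76) (nat_lit 10850349460) (nat_lit 333) (nat_lit 5) (nat_lit 343) (nat_lit 5) (nat_lit 334) (nat_lit 5) (nat_lit 608) (nat_lit 559) (nat_lit 393)) (XT.lf (nat_lit 0) (nat_lit 5647696963) (nat_lit 760) (nat_lit 7529482250) (nat_lit 76) (nat_lit 2077631487)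 (nat_lit 324) (nat_lit 5) (nat_lit 334) (nat_lit 5) (nat_lit 325) (nat_lit 5) (nat_lit 609) (nat_lit 559) (nat_lit 392)))) (XT.nd (nat_lit 156) (nat_lit 760) (nat_lit 0) (XT.nd (nat_lit 78) (nat_lit 0) (nat_lit 0) (XT.lf (nat_lit 0) (nat_lit 1427820780) (nat_lit 684) (nat_lit 6946081165) (nat_lit 760) (nat_lit 7050471226) (nat_lit 315) (nat_lit 5) (nat_lit 324) (nat_lit 5) (nat_lit 325) (nat_lit 5) (nat_lit 610) (nat_lit 559) (nat_lit 391)) (XT.lf (nat_lit 0) (nat_lit 10654760901) (nat_lit 684) (nat_lit 540729147) (nat_lit 760) (nat_lit 4401019901) (nat_lit 315) (nat_lit 5) (nat_lit 324) (nat_lit 5) (nat_lit 325) (nat_lit 5) (nat_lit 611) (nat_lit 559) (nat_lit 390))) (XT.nd (nat_lit 78) (nat_lit 76) (nat_lit 0) (XT.lf (nat_lit 0) (nat_lit 4300114528) (nat_lit 684) (nat_lit 9830733024) (nat_lit 760) (nat_lit 1640095389) (nat_lit 306) (nat_lit 5) (nat_lit 315) (nat_lit 5) (nat_lit 316) (nat_lit 5) (nat_lit 612) (nat_lit 559) (nat_lit 389)) (XT.lf (nat_lit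 0) (nat_lit 1188144965) (nat_lit 760) (nat_lit 2177409259) (nat_lit 76) (nat_lit 12582607450) (nat_lit 305) (nat_lit 5) (nat_lit 315) (nat_lit 5) (nat_lit 306) (nat_lit 5) (nat_lit 613) (nat_lit 559) (nat_lit 388)))))) (XT.nd (nat_lit 624) (nat_lit 2812) (nat_lit 0) (XT.nd (nat_lit 312) (nat_lit 1216) (nat_lit 0) (XT.nd (nat_lit 156) (nat_lit 608) (nat_lit 0) (XT.nd (nat_lit 78) (nat_lit 608) (nat_lit 0) (XT.lf (nat_lit 0) (nat_lit 4110986416) (nat_lit 684) (nat_lit 8772861970) (nat_lit 76) (nat_lit 3243659851) (nat_lit 297) (nat_lit 5) (nat_lit 306) (nat_lit 5) (nat_lit 298) (nat_lit 5) (nat_lit 614) (nat_lit 559) (nat_lit 387)) (XT.lf (nat_lit 0) (nat_lit 773020369) (nat_lit 608) (nat_lit 6352118765) (nat_lit 684) (nat_lit 9184645724) (nat_lit 289) (nat_lit 5) (nat_lit 297) (nat_lit 5) (nat_lit 298) (nat_lit 5) (nat_lit 615) (nat_lit 559) (nat_lit 386))) (XT.nd (nat_lit 78) (nat_lit 608) (nat_lit 0) (XT.lf (nat_lit 0) (nat_lit 10251779162) (nat_lit 684)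 (nat_lit 5879727515) (nat_lit 76) (nat_lit 363156458) (nat_lit 289) (nat_lit 5) (nat_lit 298) (nat_lit 5) (nat_lit 290) (nat_lit 5) (nat_lit 616) (nat_lit 559) (nat_lit 385)) (XT.lf (nat_lit 0) (nat_lit 3969132671) (nat_lit 608) (nat_lit 9530763969) (nat_lit 684) (nat_lit 3182163653) (nat_lit 281) (nat_lit 5) (nat_lit 289) (nat_lit 5) (nat_lit 290) (nat_lit 5) (nat_lit 617) (nat_lit 559) (nat_lit 384)))) (XT.nd (nat_lit 156) (nat_lit 532) (nat_lit 0) (XT.nd (nat_lit 78) (nat_lit 684) (nat_lit 0) (XT.lf (nat_lit 0) (nat_lit 14083439295) (nat_lit 608) (nat_lit 2760202073) (nat_lit 684) (nat_lit 28950929) (nat_lit 281) (nat_lit 5) (nat_lit 289) (nat_lit 5) (nat_lit 290) (nat_lit 5) (nat_lit 618) (nat_lit 559) (nat_lit 383)) (XT.lf (nat_lit 0) (nat_lit 3212238679) (nat_lit 684) (nat_lit 9694784713) (nat_lit 76) (nat_lit 4158163560) (nat_lit 272) (nat_lit 5) (nat_lit 281) (nat_lit 5) (nat_lit 273) (nat_lit 5) (nat_lit 619) (nat_lit 559) (nat_lit 382))) (XT.nd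 (nat_lit 78) (nat_lit 0) (nat_lit 0) (XT.lf (nat_lit 0) (nat_lit 486269734) (nat_lit 532) (nat_lit 6063278568) (nat_lit 608) (nat_lit 10711447883) (nat_lit 265) (nat_lit 5) (nat_lit 272) (nat_lit 5) (nat_lit 273) (nat_lit 5) (nat_lit 620) (nat_lit 559) (nat_lit 381)) (XT.lf (nat_lit 0) (nat_lit 10016533337) (nat_lit 608) (nat_lit 6474735661) (nat_lit 76) (nat_lit 968194208) (nat_lit 265) (nat_lit 5) (nat_lit 273) (nat_lit 5) (nat_lit 266) (nat_lit 5) (nat_lit 621) (nat_lit 559) (nat_lit 380))))) (XT.nd (nat_lit 312) (nat_lit 1064) (nat_lit 0) (XT.nd (nat_lit 156) (nat_lit 1140) (nat_lit 0) (XT.nd (nat_lit 78) (nat_lit 0) (nat_lit 0) (XT.lf (nat_lit 0) (nat_lit 4032925680) (nat_lit 608) (nat_lit 9577923218) (nat_lit 684) (nat_lit 4049891036) (nat_lit 257) (nat_lit 5) (nat_lit 265) (nat_lit 5) (nat_lit 266) (nat_lit 5) (nat_lit 622) (nat_lit 559) (nat_lit 379)) (XT.lf (nat_lit 0) (nat_lit 14827512161) (nat_lit 608) (nat_lit 2484732026) (nat_lit 684) (nat_lit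 553094322) (nat_lit 257) (nat_lit 5) (nat_lit 265) (nat_lit 5) (nat_lit 266) (nat_lit 5) (nat_lit 623) (nat_lit 559) (nat_lit 378))) (XT.nd (nat_lit 78) (nat_lit 532) (nat_lit 0) (XT.lf (nat_lit 0) (nat_lit 3048135862) (nat_lit 608) (nat_lit 10267792933) (nat_lit 76) (nat_lit 4756228661) (nat_lit 249) (nat_lit 5) (nat_lit 257) (nat_lit 5) (nat_lit 250) (nat_lit 5) (nat_lit 624) (nat_lit 559) (nat_lit 377)) (XT.lf (nat_lit 0) (nat_lit 598509693) (nat_lit 532) (nat_lit 6148267714) (nat_lit 608) (nat_lit 11535606574) (nat_lit 242) (nat_lit 5) (nat_lit 249) (nat_lit 5) (nat_lit 250) (nat_lit 5) (nat_lit 625) (nat_lit 559) (nat_lit 376)))) (XT.nd (nat_lit 156) (nat_lit 608) (nat_lit 0) (XT.nd (nat_lit 78) (nat_lit 456) (nat_lit 0) (XT.lf (nat_lit 0) (nat_lit 10588292790) (nat_lit 608) (nat_lit 6693150096) (nat_lit 76) (nat_lit 1213994293) (nat_lit 242) (nat_lit 5) (nat_lit 250) (nat_lit 5) (nat_lit 243) (nat_lit 5) (nat_lit 626) (nat_lit 559) (nat_lit 375))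 (XT.lf (nat_lit 0) (nat_lit 4525208253) (nat_lit 456) (nat_lit 10043677970) (nat_lit 532) (nat_lit 4142620429) (nat_lit 236) (nat_lit 5) (nat_lit 242) (nat_lit 5) (nat_lit 243) (nat_lit 5) (nat_lit 627) (nat_lit 559) (nat_lit 374))) (XT.nd (nat_lit 78) (nat_lit 608) (nat_lit 0) (XT.lf (nat_lit 0) (nat_lit 16047920073) (nat_lit 456) (nat_lit 2618320275) (nat_lit 532) (nat_lit 264914347) (nat_lit 236) (nat_lit 5) (nat_lit 242) (nat_lit 5) (nat_lit 243) (nat_lit 5) (nat_lit 628) (nat_lit 559) (nat_lit 373)) (XT.lf (nat_lit 0) (nat_lit 3723624813) (nat_lit 608) (nat_lit 10460688773) (nat_lit 76) (nat_lit 4968769495) (nat_lit 228) (nat_lit 5) (nat_lit 236) (nat_lit 5) (nat_lit 229) (nat_lit 5) (nat_lit 629) (nat_lit 559) (nat_lit 372))))))))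
noncomputable def xc138 : XT := (XT.nd (nat_lit 2418) (nat_lit 3192) (nat_lit 0) (XT.nd (nat_lit 1170) (nat_lit 3724) (nat_lit 0) (XT.nd (nat_lit 546) (nat_lit 2128) (nat_lit 0) (XT.nd (nat_lit 234) (nat_lit 988) (nat_lit 0) (XT.nd (nat_lit 78) (nat_lit 456) (nat_lit 0) (XT.lf (nat_lit 0) (nat_lit 1144650648) (nat_lit 456) (nat_lit 6680386383) (nat_lit 532) (nat_lit 11553645142) (nat_lit 222) (nat_lit 5) (nat_lit 228) (nat_lit 5) (nat_lit 229) (nat_lit 5) (nat_lit 630) (nat_lit 559) (nat_lit 371)) (XT.nd (nat_lit 78) (nat_lit 456) (nat_lit 0) (XT.lf (nat_lit 0) (nat_lit 12077918712) (nat_lit 532) (nat_lit 6501036398) (nat_lit 76) (nat_lit 1028449460) (nat_lit 222) (nat_lit 5) (nat_lit 229) (nat_lit 5) (nat_lit 223) (nat_lit 5) (nat_lit 631) (nat_lit 559) (nat_lit 370)) (XT.lf (nat_lit 0) (nat_lit 5483753894) (nat_lit 456) (nat_lit 11004555377) (nat_lit 532) (nat_lit 3350943262) (nat_lit 216) (nat_lit 5) (nat_lit 222) (nat_lit 5) (nat_lit 223) (nat_lit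 5) (nat_lit 632) (nat_lit 559) (nat_lit 369)))) (XT.nd (nat_lit 156) (nat_lit 456) (nat_lit 0) (XT.nd (nat_lit 78) (nat_lit 456) (nat_lit 0) (XT.lf (nat_lit 0) (nat_lit 935768790) (nat_lit 532) (nat_lit 2295279368) (nat_lit 76) (nat_lit 16843840144) (nat_lit 215) (nat_lit 5) (nat_lit 222) (nat_lit 5) (nat_lit 216) (nat_lit 5) (nat_lit 633) (nat_lit 559) (nat_lit 368)) (XT.lf (nat_lit 0) (nat_lit 5352845665) (nat_lit 532) (nat_lit 10238557555) (nat_lit 76) (nat_lit 4721600713) (nat_lit 209) (nat_lit 5) (nat_lit 216) (nat_lit 5) (nat_lit 210) (nat_lit 5) (nat_lit 634) (nat_lit 559) (nat_lit 367))) (XT.nd (nat_lit 78) (nat_lit 0) (nat_lit 0) (XT.lf (nat_lit 0) (nat_lit 2163561821) (nat_lit 456) (nat_lit 7738484918) (nat_lit 532) (nat_lit 10652959618) (nat_lit 203) (nat_lit 5) (nat_lit 209) (nat_lit 5) (nat_lit 210) (nat_lit 5) (nat_lit 635) (nat_lit 559) (nat_lit 366)) (XT.lf (nat_lit 0) (nat_lit 14606040999) (nat_lit 532) (nat_lit 5860654726) (nat_lit 76)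 (nat_lit 333877051) (nat_lit 203) (nat_lit 5) (nat_lit 210) (nat_lit 5) (nat_lit 204) (nat_lit 5) (nat_lit 636) (nat_lit 559) (nat_lit 365))))) (XT.nd (nat_lit 312) (nat_lit 836) (nat_lit 0) (XT.nd (nat_lit 156) (nat_lit 836) (nat_lit 0) (XT.nd (nat_lit 78) (nat_lit 76) (nat_lit 0) (XT.lf (nat_lit 0) (nat_lit 6950391372) (nat_lit 380) (nat_lit 12543123414) (nat_lit 456) (nat_lit 1555747875) (nat_lit 198) (nat_lit 5) (nat_lit 203) (nat_lit 5) (nat_lit 204) (nat_lit 5) (nat_lit 637) (nat_lit 559) (nat_lit 364)) (XT.lf (nat_lit 0) (nat_lit 3166798434) (nat_lit 456) (nat_lit 1236210441) (nat_lit 76) (nat_lit 16898852440) (nat_lit 197) (nat_lit 5) (nat_lit 203) (nat_lit 5) (nat_lit 198) (nat_lit 5) (nat_lit 638) (nat_lit 559) (nat_lit 363))) (XT.nd (nat_lit 78) (nat_lit 380) (nat_lit 0) (XT.lf (nat_lit 0) (nat_lit 8060102228) (nat_lit 532) (nat_lit 9562798180) (nat_lit 76) (nat_lit 3934463224) (nat_lit 191) (nat_lit 5) (nat_lit 198) (nat_lit 5) (nat_lit 192)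 (nat_lit 5) (nat_lit 639) (nat_lit 559) (nat_lit 362)) (XT.lf (nat_lit 0) (nat_lit 3698053226) (nat_lit 380) (nat_lit 9407971720) (nat_lit 456) (nat_lit 8710856113) (nat_lit 186) (nat_lit 5) (nat_lit 191) (nat_lit 5) (nat_lit 192) (nat_lit 5) (nat_lit 640) (nat_lit 559) (nat_lit 361)))) (XT.nd (nat_lit 156) (nat_lit 380) (nat_lit 0) (XT.nd (nat_lit 78) (nat_lit 456) (nat_lit 0) (XT.lf (nat_lit 0) (nat_lit 17343677192) (nat_lit 380) (nat_lit 966660707) (nat_lit 456) (nat_lit 3770101613) (nat_lit 186) (nat_lit 5) (nat_lit 191) (nat_lit 5) (nat_lit 192) (nat_lit 5) (nat_lit 641) (nat_lit 559) (nat_lit 360)) (XT.lf (nat_lit 0) (nat_lit 1354771729) (nat_lit 456) (nat_lit 13385165704) (nat_lit 76) (nat_lit 7607127909) (nat_lit 180) (nat_lit 5) (nat_lit 186) (nat_lit 5) (nat_lit 181) (nat_lit 5) (nat_lit 642) (nat_lit 559) (nat_lit 359))) (XT.nd (nat_lit 78) (nat_lit 0) (nat_lit 0) (XT.lf (nat_lit 0) (nat_lit 343272228) (nat_lit 380) (nat_lit 6222494766) (nat_lit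 456) (nat_lit 16052076274) (nat_lit 175) (nat_lit 5) (nat_lit 180) (nat_lit 5) (nat_lit 181) (nat_lit 5) (nat_lit 643) (nat_lit 559) (nat_lit 358)) (XT.lf (nat_lit 0) (nat_lit 11980878590) (nat_lit 456) (nat_lit 8391170195) (nat_lit 76) (nat_lit 2519990147) (nat_lit 175) (nat_lit 5) (nat_lit 181) (nat_lit 5) (nat_lit 176) (nat_lit 5) (nat_lit 644) (nat_lit 559) (nat_lit 357)))))) (XT.nd (nat_lit 624) (nat_lit 1748) (nat_lit 0) (XT.nd (nat_lit 312) (nat_lit 760) (nat_lit 0) (XT.nd (nat_lit 156) (nat_lit 836) (nat_lit 0) (XT.nd (nat_lit 78) (nat_lit 0) (nat_lit 0) (XT.lf (nat_lit 0) (nat_lit 5794840418) (nat_lit 380) (nat_lit 11781886217) (nat_lit 456) (nat_lit 5593543295) (nat_lit 170) (nat_lit 5) (nat_lit 175) (nat_lit 5) (nat_lit 176) (nat_lit 5) (nat_lit 645) (nat_lit 559) (nat_lit 356)) (XT.lf (nat_lit 0) (nat_lit 20368530520) (nat_lit 380) (nat_lit 2965933911) (nat_lit 456) (nat_lit 118601763) (nat_lit 170) (nat_lit 5) (nat_lit 175) (nat_lit 5) (nat_lit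 176) (nat_lit 5) (nat_lit 646) (nat_lit 559) (nat_lit 355))) (XT.nd (nat_lit 78) (nat_lit 380) (nat_lit 0) (XT.lf (nat_lit 0) (nat_lit 5503047562) (nat_lit 456) (nat_lit 12180129754) (nat_lit 76) (nat_lit 6055453523) (nat_lit 164) (nat_lit 5) (nat_lit 170) (nat_lit 5) (nat_lit 165) (nat_lit 5) (nat_lit 647) (nat_lit 559) (nat_lit 354)) (XT.lf (nat_lit 0) (nat_lit 2509348894) (nat_lit 380) (nat_lit 8776749252) (nat_lit 456) (nat_lit 12742781922) (nat_lit 159) (nat_lit 5) (nat_lit 164) (nat_lit 5) (nat_lit 165) (nat_lit 5) (nat_lit 648) (nat_lit 559) (nat_lit 353)))) (XT.nd (nat_lit 156) (nat_lit 456) (nat_lit 0) (XT.nd (nat_lit 78) (nat_lit 304) (nat_lit 0) (XT.lf (nat_lit 0) (nat_lit 17262905748) (nat_lit 456) (nat_lit 6677868675) (nat_lit 76) (nat_lit 382598032) (nat_lit 159) (nat_lit 5) (nat_lit 165) (nat_lit 5) (nat_lit 160) (nat_lit 5) (nat_lit 649) (nat_lit 559) (nat_lit 352)) (XT.lf (nat_lit 0) (nat_lit 8504480607) (nat_lit 304) (nat_lit 14962052090)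 (nat_lit 380) (nat_lit 1155076423) (nat_lit 155) (nat_lit 5) (nat_lit 159) (nat_lit 5) (nat_lit 160) (nat_lit 5) (nat_lit 650) (nat_lit 559) (nat_lit 351))) (XT.nd (nat_lit 78) (nat_lit 380) (nat_lit 0) (XT.lf (nat_lit 0) (nat_lit 4843639807) (nat_lit 380) (nat_lit 885400487) (nat_lit 76) (nat_lit 19195356766) (nat_lit 154) (nat_lit 5) (nat_lit 159) (nat_lit 5) (nat_lit 155) (nat_lit 5) (nat_lit 651) (nat_lit 559) (nat_lit 350)) (XT.lf (nat_lit 0) (nat_lit 11061846956) (nat_lit 456) (nat_lit 10427495605) (nat_lit 76) (nat_lit 3741445925) (nat_lit 149) (nat_lit 5) (nat_lit 155) (nat_lit 5) (nat_lit 150) (nat_lit 5) (nat_lit 652) (nat_lit 559) (nat_lit 349))))) (XT.nd (nat_lit 312) (nat_lit 684) (nat_lit 0) (XT.nd (nat_lit 156) (nat_lit 760) (nat_lit 0) (XT.nd (nat_lit 78) (nat_lit 0) (nat_lit 0) (XT.lf (nat_lit 0) (nat_lit 5296636442) (nat_lit 304) (nat_lit 12180203702) (nat_lit 380) (nat_lit 8065019244) (nat_lit 145) (nat_lit 5) (nat_lit 149) (nat_lit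 5) (nat_lit 150) (nat_lit 5) (nat_lit 653) (nat_lit 559) (nat_lit 348)) (XT.lf (nat_lit 0) (nat_lit 21467237640) (nat_lit 304) (nat_lit 2617035334) (nat_lit 380) (nat_lit 1773596022) (nat_lit 145) (nat_lit 5) (nat_lit 149) (nat_lit 5) (nat_lit 150) (nat_lit 5) (nat_lit 654) (nat_lit 559) (nat_lit 347))) (XT.nd (nat_lit 78) (nat_lit 304) (nat_lit 0) (XT.lf (nat_lit 0) (nat_lit 4701272453) (nat_lit 456) (nat_lit 14327506630) (nat_lit 76) (nat_lit 7148446419) (nat_lit 139) (nat_lit 5) (nat_lit 145) (nat_lit 5) (nat_lit 140) (nat_lit 5) (nat_lit 655) (nat_lit 559) (nat_lit 346)) (XT.lf (nat_lit 0) (nat_lit 1959150228) (nat_lit 304) (nat_lit 9376744640) (nat_lit 380) (nat_lit 15165759779) (nat_lit 135) (nat_lit 5) (nat_lit 139) (nat_lit 5) (nat_lit 140) (nat_lit 5) (nat_lit 656) (nat_lit 559) (nat_lit 345)))) (XT.nd (nat_lit 156) (nat_lit 380) (nat_lit 0) (XT.nd (nat_lit 78) (nat_lit 304) (nat_lit 0) (XT.lf (nat_lit 0) (nat_lit 18197334439) (nat_lit 380) (nat_lit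 8077887639) (nat_lit 76) (nat_lit 555467881) (nat_lit 135) (nat_lit 5) (nat_lit 140) (nat_lit 5) (nat_lit 136) (nat_lit 5) (nat_lit 657) (nat_lit 559) (nat_lit 344)) (XT.lf (nat_lit 0) (nat_lit 8759677121) (nat_lit 304) (nat_lit 16549710844) (nat_lit 380) (nat_lit 1854650386) (nat_lit 131) (nat_lit 5) (nat_lit 135) (nat_lit 5) (nat_lit 136) (nat_lit 5) (nat_lit 658) (nat_lit 559) (nat_lit 343))) (XT.nd (nat_lit 78) (nat_lit 304) (nat_lit 0) (XT.lf (nat_lit 0) (nat_lit 5042264556) (nat_lit 380) (nat_lit 1501833457) (nat_lit 76) (nat_lit 20958318889) (nat_lit 130) (nat_lit 5) (nat_lit 135) (nat_lit 5) (nat_lit 131) (nat_lit 5) (nat_lit 659) (nat_lit 559) (nat_lit 342)) (XT.lf (nat_lit 0) (nat_lit 12174765975) (nat_lit 380) (nat_lit 11943502225) (nat_lit 76) (nat_lit 3726600073) (nat_lit 126) (nat_lit 5) (nat_lit 131) (nat_lit 5) (nat_lit 127) (nat_lit 5) (nat_lit 660) (nat_lit 559) (nat_lit 341))))))) (XT.nd (nat_lit 1170) (nat_lit 456) (nat_lit 0) (XT.nd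 (nat_lit 546) (nat_lit 1444) (nat_lit 0) (XT.nd (nat_lit 234) (nat_lit 608) (nat_lit 0) (XT.nd (nat_lit 78) (nat_lit 380) (nat_lit 0) (XT.lf (nat_lit 0) (nat_lit 5498739144) (nat_lit 304) (nat_lit 14034926619) (nat_lit 380) (nat_lit 8658828013) (nat_lit 122) (nat_lit 5) (nat_lit 126) (nat_lit 5) (nat_lit 127) (nat_lit 5) (nat_lit 661) (nat_lit 559) (nat_lit 340)) (XT.nd (nat_lit 78) (nat_lit 380) (nat_lit 0) (XT.lf (nat_lit 0) (nat_lit 23442788970) (nat_lit 304) (nat_lit 3671714002) (nat_lit 380) (nat_lit 1431073696) (nat_lit 122) (nat_lit 5) (nat_lit 126) (nat_lit 5) (nat_lit 127) (nat_lit 5) (nat_lit 662) (nat_lit 559) (nat_lit 339)) (XT.lf (nat_lit 0) (nat_lit 5987741337) (nat_lit 380) (nat_lit 15986352532) (nat_lit 76) (nat_lit 6928367408) (nat_lit 117) (nat_lit 5) (nat_lit 122) (nat_lit 5) (nat_lit 118) (nat_lit 5) (nat_lit 663) (nat_lit 559) (nat_lit 338)))) (XT.nd (nat_lit 156) (nat_lit 304) (nat_lit 0) (XT.nd (nat_lit 78) (nat_lit 0) (nat_lit 0)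 (XT.lf (nat_lit 0) (nat_lit 2083201628) (nat_lit 304) (nat_lit 11519604965) (nat_lit 380) (nat_lit 15662147143) (nat_lit 113) (nat_lit 5) (nat_lit 117) (nat_lit 5) (nat_lit 118) (nat_lit 5) (nat_lit 664) (nat_lit 559) (nat_lit 337)) (XT.lf (nat_lit 0) (nat_lit 20722050448) (nat_lit 304) (nat_lit 750153626) (nat_lit 380) (nat_lit 8160451415) (nat_lit 113) (nat_lit 5) (nat_lit 117) (nat_lit 5) (nat_lit 118) (nat_lit 5) (nat_lit 665) (nat_lit 559) (nat_lit 336))) (XT.nd (nat_lit 78) (nat_lit 76) (nat_lit 0) (XT.lf (nat_lit 0) (nat_lit 9779065287) (nat_lit 228) (nat_lit 19844701116) (nat_lit 304) (nat_lit 381449400) (nat_lit 110) (nat_lit 5) (nat_lit 113) (nat_lit 5) (nat_lit 114) (nat_lit 5) (nat_lit 666) (nat_lit 559) (nat_lit 335)) (XT.lf (nat_lit 0) (nat_lit 7514076233) (nat_lit 304) (nat_lit 1483835456) (nat_lit 76) (nat_lit 21385134809) (nat_lit 109) (nat_lit 5) (nat_lit 113) (nat_lit 5) (nat_lit 110) (nat_lit 5) (nat_lit 667) (nat_lit 559) (nat_lit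 334))))) (XT.nd (nat_lit 312) (nat_lit 532) (nat_lit 0) (XT.nd (nat_lit 156) (nat_lit 380) (nat_lit 0) (XT.nd (nat_lit 78) (nat_lit 228) (nat_lit 0) (XT.lf (nat_lit 0) (nat_lit 15687466519) (nat_lit 380) (nat_lit 12923893853) (nat_lit 76) (nat_lit 2154521833) (nat_lit 105) (nat_lit 5) (nat_lit 110) (nat_lit 5) (nat_lit 106) (nat_lit 5) (nat_lit 668) (nat_lit 559) (nat_lit 333)) (XT.lf (nat_lit 0) (nat_lit 6434435577) (nat_lit 228) (nat_lit 17696245723) (nat_lit 304) (nat_lit 7023566249) (nat_lit 102) (nat_lit 5) (nat_lit 105) (nat_lit 5) (nat_lit 106) (nat_lit 5) (nat_lit 669) (nat_lit 559) (nat_lit 332))) (XT.nd (nat_lit 78) (nat_lit 304) (nat_lit 0) (XT.lf (nat_lit 0) (nat_lit 1259020685) (nat_lit 304) (nat_lit 5210419190) (nat_lit 76) (nat_lit 25079139972) (nat_lit 101) (nat_lit 5) (nat_lit 105) (nat_lit 5) (nat_lit 102) (nat_lit 5) (nat_lit 670) (nat_lit 559) (nat_lit 331)) (XT.lf (nat_lit 0) (nat_lit 9737925221) (nat_lit 380) (nat_lit 17152588860)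 (nat_lit 76) (nat_lit 5056862020) (nat_lit 97) (nat_lit 5) (nat_lit 102) (nat_lit 5) (nat_lit 98) (nat_lit 5) (nat_lit 671) (nat_lit 559) (nat_lit 330)))) (XT.nd (nat_lit 156) (nat_lit 304) (nat_lit 0) (XT.nd (nat_lit 78) (nat_lit 0) (nat_lit 0) (XT.lf (nat_lit 0) (nat_lit 2903859038) (nat_lit 228) (nat_lit 15574539317) (nat_lit 304) (nat_lit 13873910169) (nat_lit 94) (nat_lit 5) (nat_lit 97) (nat_lit 5) (nat_lit 98) (nat_lit 5) (nat_lit 672) (nat_lit 559) (nat_lit 329)) (XT.lf (nat_lit 0) (nat_lit 23585571708) (nat_lit 228) (nat_lit 3918350477) (nat_lit 304) (nat_lit 5259212639) (nat_lit 94) (nat_lit 5) (nat_lit 97) (nat_lit 5) (nat_lit 98) (nat_lit 5) (nat_lit 673) (nat_lit 559) (nat_lit 328))) (XT.nd (nat_lit 78) (nat_lit 0) (nat_lit 0) (XT.lf (nat_lit 0) (nat_lit 3604539476) (nat_lit 304) (nat_lit 21612725711) (nat_lit 76) (nat_lit 7961993857) (nat_lit 90) (nat_lit 5) (nat_lit 94) (nat_lit 5) (nat_lit 91) (nat_lit 5) (nat_lit 674) (nat_lit 559) (nat_lit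 327)) (XT.lf (nat_lit 0) (nat_lit 12658375385) (nat_lit 304) (nat_lit 822034456) (nat_lit 76) (nat_lit 20120936097) (nat_lit 90) (nat_lit 5) (nat_lit 94) (nat_lit 5) (nat_lit 91) (nat_lit 5) (nat_lit 675) (nat_lit 559) (nat_lit 326)))))) (XT.nd (nat_lit 72618) (nat_lit 0) (nat_lit 34124) (XT.nd (nat_lit 72306) (nat_lit 0) (nat_lit 35568) (XT.nd (nat_lit 72150) (nat_lit 0) (nat_lit 35568) (XT.nd (nat_lit 78) (nat_lit 228) (nat_lit 0) (XT.lf (nat_lit 0) (nat_lit 20647134041) (nat_lit 228) (nat_lit 1375522886) (nat_lit 304) (nat_lit 12006630314) (nat_lit 87) (nat_lit 5) (nat_lit 90) (nat_lit 5) (nat_lit 91) (nat_lit 5) (nat_lit 676) (nat_lit 559) (nat_lit 325)) (XT.lf (nat_lit 0) (nat_lit 8118208268) (nat_lit 228) (nat_lit 23580842681) (nat_lit 304) (nat_lit 2764239932) (nat_lit 84) (nat_lit 5) (nat_lit 87) (nat_lit 5) (nat_lit 88) (nat_lit 5) (nat_lit 677) (nat_lit 559) (nat_lit 324))) (XT.nd (nat_lit 78) (nat_lit 0) (nat_lit 0) (XT.lf (nat_lit 0) (nat_lit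 679334059) (nat_lit 0) (nat_lit 679334059) (nat_lit 1596) (nat_lit 3396388184) (nat_lit 552) (nat_lit 5) (nat_lit 552) (nat_lit 3) (nat_lit 573) (nat_lit 3) (nat_lit 560) (nat_lit 560) (nat_lit 440)) (XT.lf (nat_lit 0) (nat_lit 3560044428) (nat_lit 1596) (nat_lit 3426336792) (nat_lit 1672) (nat_lit 2602495485) (nat_lit 552) (nat_lit 5) (nat_lit 573) (nat_lit 3) (nat_lit 574) (nat_lit 5) (nat_lit 561) (nat_lit 560) (nat_lit 439)))) (XT.nd (nat_lit 156) (nat_lit 0) (nat_lit 76) (XT.nd (nat_lit 78) (nat_lit 0) (nat_lit 76) (XT.lf (nat_lit 76) (nat_lit 1391567044) (nat_lit 0) (nat_lit 3025197841) (nat_lit 1672) (nat_lit 5252508731) (nat_lit 553) (nat_lit 5) (nat_lit 552) (nat_lit 5) (nat_lit 574) (nat_lit 5) (nat_lit 562) (nat_lit 560) (nat_lit 438)) (XT.lf (nat_lit 0) (nat_lit 5299882551) (nat_lit 1596) (nat_lit 3416649253) (nat_lit 1672) (nat_lit 1034562082) (nat_lit 553) (nat_lit 5) (nat_lit 574) (nat_lit 5) (nat_lit 575) (nat_lit 5) (nat_lit 563) (nat_lit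 560) (nat_lit 437))) (XT.nd (nat_lit 78) (nat_lit 0) (nat_lit 0) (XT.lf (nat_lit 76) (nat_lit 1530529912) (nat_lit 0) (nat_lit 4680032329) (nat_lit 1672) (nat_lit 3623790990) (nat_lit 554) (nat_lit 5) (nat_lit 553) (nat_lit 5) (nat_lit 575) (nat_lit 5) (nat_lit 564) (nat_lit 560) (nat_lit 436)) (XT.lf (nat_lit 76) (nat_lit 6611901467) (nat_lit 0) (nat_lit 530731338) (nat_lit 1672) (nat_lit 2776582065) (nat_lit 554) (nat_lit 5) (nat_lit 553) (nat_lit 5) (nat_lit 575) (nat_lit 5) (nat_lit 565) (nat_lit 560) (nat_lit 435))))) (XT.nd (nat_lit 312) (nat_lit 0) (nat_lit 76) (XT.nd (nat_lit 156) (nat_lit 1596) (nat_lit 0) (XT.nd (nat_lit 78) (nat_lit 0) (nat_lit 0) (XT.lf (nat_lit 76) (nat_lit 1777109869) (nat_lit 0) (nat_lit 6332498349) (nat_lit 1672) (nat_lit 1895840891) (nat_lit 555) (nat_lit 5) (nat_lit 554) (nat_lit 5) (nat_lit 576) (nat_lit 5) (nat_lit 566) (nat_lit 560) (nat_lit 434)) (XT.lf (nat_lit 76) (nat_lit 6993274905) (nat_lit 0) (nat_lit 2109331767)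 (nat_lit 1672) (nat_lit 990668317) (nat_lit 555) (nat_lit 5) (nat_lit 554) (nat_lit 5) (nat_lit 576) (nat_lit 5) (nat_lit 567) (nat_lit 560) (nat_lit 433))) (XT.nd (nat_lit 78) (nat_lit 1672) (nat_lit 0) (XT.lf (nat_lit 76) (nat_lit 2133190685) (nat_lit 0) (nat_lit 7991817515) (nat_lit 1672) (nat_lit 57658937) (nat_lit 556) (nat_lit 5) (nat_lit 555) (nat_lit 5) (nat_lit 577) (nat_lit 5) (nat_lit 568) (nat_lit 560) (nat_lit 432)) (XT.lf (nat_lit 0) (nat_lit 898784149) (nat_lit 1672) (nat_lit 2791865521) (nat_lit 1748) (nat_lit 6582751985) (nat_lit 533) (nat_lit 5) (nat_lit 555) (nat_lit 5) (nat_lit 556) (nat_lit 5) (nat_lit 569) (nat_lit 560) (nat_lit 431)))) (XT.nd (nat_lit 156) (nat_lit 0) (nat_lit 0) (XT.nd (nat_lit 78) (nat_lit 0) (nat_lit 0) (XT.lf (nat_lit 0) (nat_lit 1877051305) (nat_lit 1672) (nat_lit 7777484769) (nat_lit 1748) (nat_lit 711338399) (nat_lit 534) (nat_lit 5) (nat_lit 556) (nat_lit 5) (nat_lit 557) (nat_lit 5) (nat_lit 570) (nat_lit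 560) (nat_lit 430)) (XT.lf (nat_lit 0) (nat_lit 2900457011) (nat_lit 1672) (nat_lit 2381978707) (nat_lit 1748) (nat_lit 5177250133) (nat_lit 534) (nat_lit 5) (nat_lit 556) (nat_lit 5) (nat_lit 557) (nat_lit 5) (nat_lit 571) (nat_lit 560) (nat_lit 429))) (XT.nd (nat_lit 78) (nat_lit 0) (nat_lit 76) (XT.lf (nat_lit 76) (nat_lit 3151310913) (nat_lit 0) (nat_lit 796100768) (nat_lit 1748) (nat_lit 6607900713) (nat_lit 535) (nat_lit 5) (nat_lit 534) (nat_lit 5) (nat_lit 557) (nat_lit 5) (nat_lit 572) (nat_lit 560) (nat_lit 428)) (XT.lf (nat_lit 0) (nat_lit 5038862190) (nat_lit 1672) (nat_lit 1861386188) (nat_lit 1748) (nat_lit 3752132500) (nat_lit 535) (nat_lit 5) (nat_lit 557) (nat_lit 5) (nat_lit 558) (nat_lit 5) (nat_lit 573) (nat_lit 560) (nat_lit 427))))))))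
noncomputable def xc139 : XT := (XT.nd (nat_lit 2418) (nat_lit 10944) (nat_lit 0) (XT.nd (nat_lit 1170) (nat_lit 8816) (nat_lit 0) (XT.nd (nat_lit 546) (nat_lit 3420) (nat_lit 0) (XT.nd (nat_lit 234) (nat_lit 1596) (nat_lit 0) (XT.nd (nat_lit 78) (nat_lit 0) (nat_lit 76) (XT.lf (nat_lit 76) (nat_lit 3825450088) (nat_lit 0) (nat_lit 2340060527) (nat_lit 1748) (nat_lit 4585613272) (nat_lit 536) (nat_lit 5) (nat_lit 535) (nat_lit 5) (nat_lit 558) (nat_lit 5) (nat_lit 574) (nat_lit 560) (nat_lit 426)) (XT.nd (nat_lit 78) (nat_lit 0) (nat_lit 0) (XT.lf (nat_lit 0) (nat_lit 7325818210) (nat_lit 1672) (nat_lit 1227244354) (nat_lit 1748) (nat_lit 2298557192) (nat_lit 536) (nat_lit 5) (nat_lit 558) (nat_lit 5) (nat_lit 559) (nat_lit 5) (nat_lit 575) (nat_lit 560) (nat_lit 425)) (XT.lf (nat_lit 76) (nat_lit 4618645000) (nat_lit 0) (nat_lit 3920039886) (nat_lit 1748) (nat_lit 2414854111) (nat_lit 537) (nat_lit 5) (nat_lit 536) (nat_lit 5) (nat_lit 559) (nat_lit 5)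 (nat_lit 576) (nat_lit 560) (nat_lit 424)))) (XT.nd (nat_lit 156) (nat_lit 1748) (nat_lit 0) (XT.nd (nat_lit 78) (nat_lit 0) (nat_lit 0) (XT.lf (nat_lit 0) (nat_lit 9773468209) (nat_lit 1672) (nat_lit 476385928) (nat_lit 1748) (nat_lit 807689803) (nat_lit 537) (nat_lit 5) (nat_lit 559) (nat_lit 5) (nat_lit 560) (nat_lit 5) (nat_lit 577) (nat_lit 560) (nat_lit 423)) (XT.lf (nat_lit 76) (nat_lit 5534291008) (nat_lit 0) (nat_lit 5544998561) (nat_lit 1748) (nat_lit 83413057) (nat_lit 538) (nat_lit 5) (nat_lit 537) (nat_lit 5) (nat_lit 560) (nat_lit 5) (nat_lit 578) (nat_lit 560) (nat_lit 422))) (XT.nd (nat_lit 78) (nat_lit 0) (nat_lit 76) (XT.lf (nat_lit 76) (nat_lit 387638466) (nat_lit 0) (nat_lit 728968868) (nat_lit 1824) (nat_lit 10153403185) (nat_lit 515) (nat_lit 5) (nat_lit 514) (nat_lit 5) (nat_lit 538) (nat_lit 5) (nat_lit 579) (nat_lit 560) (nat_lit 421)) (XT.lf (nat_lit 0) (nat_lit 2389520303) (nat_lit 1748) (nat_lit 4818371702) (nat_lit 1824) (nat_lit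 4170561818) (nat_lit 515) (nat_lit 5) (nat_lit 538) (nat_lit 5) (nat_lit 539) (nat_lit 5) (nat_lit 580) (nat_lit 560) (nat_lit 420))))) (XT.nd (nat_lit 312) (nat_lit 3496) (nat_lit 0) (XT.nd (nat_lit 156) (nat_lit 0) (nat_lit 76) (XT.nd (nat_lit 78) (nat_lit 0) (nat_lit 76) (XT.lf (nat_lit 76) (nat_lit 1368258494) (nat_lit 0) (nat_lit 2318468803) (nat_lit 1824) (nat_lit 7802362438) (nat_lit 516) (nat_lit 5) (nat_lit 515) (nat_lit 5) (nat_lit 539) (nat_lit 5) (nat_lit 581) (nat_lit 560) (nat_lit 419)) (XT.lf (nat_lit 0) (nat_lit 5045113194) (nat_lit 1748) (nat_lit 3886900491) (nat_lit 1824) (nat_lit 2669220432) (nat_lit 516) (nat_lit 5) (nat_lit 539) (nat_lit 5) (nat_lit 540) (nat_lit 5) (nat_lit 582) (nat_lit 560) (nat_lit 418))) (XT.nd (nat_lit 78) (nat_lit 0) (nat_lit 76) (XT.lf (nat_lit 76) (nat_lit 2477074392) (nat_lit 0) (nat_lit 3970675963) (nat_lit 1824) (nat_lit 5267529798) (nat_lit 517) (nat_lit 5) (nat_lit 516) (nat_lit 5) (nat_lit 540) (nat_lit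 5) (nat_lit 583) (nat_lit 560) (nat_lit 417)) (XT.lf (nat_lit 0) (nat_lit 7897640557) (nat_lit 1748) (nat_lit 2829307312) (nat_lit 76) (nat_lit 1104275664) (nat_lit 517) (nat_lit 5) (nat_lit 540) (nat_lit 5) (nat_lit 518) (nat_lit 5) (nat_lit 584) (nat_lit 560) (nat_lit 416)))) (XT.nd (nat_lit 156) (nat_lit 1900) (nat_lit 0) (XT.nd (nat_lit 78) (nat_lit 0) (nat_lit 0) (XT.lf (nat_lit 0) (nat_lit 3718487376) (nat_lit 1748) (nat_lit 5694625169) (nat_lit 1824) (nat_lit 2535641978) (nat_lit 494) (nat_lit 5) (nat_lit 517) (nat_lit 5) (nat_lit 518) (nat_lit 5) (nat_lit 585) (nat_lit 560) (nat_lit 415)) (XT.lf (nat_lit 0) (nat_lit 10423912803) (nat_lit 1748) (nat_lit 540308386) (nat_lit 1824) (nat_lit 1104308811) (nat_lit 494) (nat_lit 5) (nat_lit 517) (nat_lit 5) (nat_lit 518) (nat_lit 5) (nat_lit 586) (nat_lit 560) (nat_lit 414))) (XT.nd (nat_lit 78) (nat_lit 0) (nat_lit 0) (XT.lf (nat_lit 0) (nat_lit 401662278) (nat_lit 1900) (nat_lit 7095095612) (nat_lit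 76) (nat_lit 4692883798) (nat_lit 469) (nat_lit 5) (nat_lit 494) (nat_lit 5) (nat_lit 470) (nat_lit 5) (nat_lit 587) (nat_lit 560) (nat_lit 413)) (XT.lf (nat_lit 0) (nat_lit 1924387883) (nat_lit 1900) (nat_lit 344962381) (nat_lit 76) (nat_lit 10043651309) (nat_lit 469) (nat_lit 5) (nat_lit 494) (nat_lit 5) (nat_lit 470) (nat_lit 5) (nat_lit 588) (nat_lit 560) (nat_lit 412)))))) (XT.nd (nat_lit 624) (nat_lit 4028) (nat_lit 0) (XT.nd (nat_lit 312) (nat_lit 1824) (nat_lit 0) (XT.nd (nat_lit 156) (nat_lit 912) (nat_lit 0) (XT.nd (nat_lit 78) (nat_lit 912) (nat_lit 0) (XT.lf (nat_lit 0) (nat_lit 3527678121) (nat_lit 1216) (nat_lit 5843070487) (nat_lit 76) (nat_lit 3067078226) (nat_lit 454) (nat_lit 5) (nat_lit 470) (nat_lit 5) (nat_lit 455) (nat_lit 5) (nat_lit 589) (nat_lit 560) (nat_lit 411)) (XT.lf (nat_lit 0) (nat_lit 1100445386) (nat_lit 912) (nat_lit 4074262469) (nat_lit 988) (nat_lit 7390207646) (nat_lit 442) (nat_lit 5) (nat_lit 454) (nat_lit 5) (nat_lit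 455) (nat_lit 5) (nat_lit 590) (nat_lit 560) (nat_lit 410))) (XT.nd (nat_lit 78) (nat_lit 912) (nat_lit 0) (XT.lf (nat_lit 0) (nat_lit 6890122728) (nat_lit 988) (nat_lit 4452577002) (nat_lit 76) (nat_lit 1351137687) (nat_lit 442) (nat_lit 5) (nat_lit 455) (nat_lit 5) (nat_lit 443) (nat_lit 5) (nat_lit 591) (nat_lit 560) (nat_lit 409)) (XT.lf (nat_lit 0) (nat_lit 2696199642) (nat_lit 912) (nat_lit 5975733194) (nat_lit 988) (nat_lit 4152763554) (nat_lit 430) (nat_lit 5) (nat_lit 442) (nat_lit 5) (nat_lit 443) (nat_lit 5) (nat_lit 592) (nat_lit 560) (nat_lit 408)))) (XT.nd (nat_lit 156) (nat_lit 988) (nat_lit 0) (XT.nd (nat_lit 78) (nat_lit 836) (nat_lit 0) (XT.lf (nat_lit 0) (nat_lit 10036651265) (nat_lit 912) (nat_lit 470374036) (nat_lit 988) (nat_lit 2450794674) (nat_lit 430) (nat_lit 5) (nat_lit 442) (nat_lit 5) (nat_lit 443) (nat_lit 5) (nat_lit 593) (nat_lit 560) (nat_lit 407)) (XT.lf (nat_lit 0) (nat_lit 4443506191) (nat_lit 836) (nat_lit 7985579513)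 (nat_lit 912) (nat_lit 663515348) (nat_lit 419) (nat_lit 5) (nat_lit 430) (nat_lit 5) (nat_lit 431) (nat_lit 5) (nat_lit 594) (nat_lit 560) (nat_lit 406))) (XT.nd (nat_lit 78) (nat_lit 912) (nat_lit 0) (XT.lf (nat_lit 0) (nat_lit 1155241524) (nat_lit 912) (nat_lit 1257140612) (nat_lit 76) (nat_lit 10817326599) (nat_lit 418) (nat_lit 5) (nat_lit 430) (nat_lit 5) (nat_lit 419) (nat_lit 5) (nat_lit 595) (nat_lit 560) (nat_lit 405)) (XT.lf (nat_lit 0) (nat_lit 3052599995) (nat_lit 988) (nat_lit 7040411741) (nat_lit 76) (nat_lit 3275437226) (nat_lit 406) (nat_lit 5) (nat_lit 419) (nat_lit 5) (nat_lit 407) (nat_lit 5) (nat_lit 596) (nat_lit 560) (nat_lit 404))))) (XT.nd (nat_lit 312) (nat_lit 2356) (nat_lit 0) (XT.nd (nat_lit 156) (nat_lit 836) (nat_lit 0) (XT.nd (nat_lit 78) (nat_lit 0) (nat_lit 0) (XT.lf (nat_lit 0) (nat_lit 551689353) (nat_lit 836) (nat_lit 4452746444) (nat_lit 912) (nat_lit 8505197912) (nat_lit 395) (nat_lit 5) (nat_lit 406) (nat_lit 5)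 (nat_lit 407) (nat_lit 5) (nat_lit 597) (nat_lit 560) (nat_lit 403)) (XT.lf (nat_lit 0) (nat_lit 7039937918) (nat_lit 912) (nat_lit 5282213409) (nat_lit 76) (nat_lit 1330598545) (nat_lit 395) (nat_lit 5) (nat_lit 407) (nat_lit 5) (nat_lit 396) (nat_lit 5) (nat_lit 598) (nat_lit 560) (nat_lit 402))) (XT.nd (nat_lit 78) (nat_lit 0) (nat_lit 0) (XT.lf (nat_lit 0) (nat_lit 2539250605) (nat_lit 836) (nat_lit 6611726603) (nat_lit 912) (nat_lit 4647054913) (nat_lit 384) (nat_lit 5) (nat_lit 395) (nat_lit 5) (nat_lit 396) (nat_lit 5) (nat_lit 599) (nat_lit 560) (nat_lit 401)) (XT.lf (nat_lit 0) (nat_lit 10577226088) (nat_lit 836) (nat_lit 751453662) (nat_lit 912) (nat_lit 2617051717) (nat_lit 384) (nat_lit 5) (nat_lit 395) (nat_lit 5) (nat_lit 396) (nat_lit 5) (nat_lit 600) (nat_lit 560) (nat_lit 400)))) (XT.nd (nat_lit 156) (nat_lit 1520) (nat_lit 0) (XT.nd (nat_lit 78) (nat_lit 76) (nat_lit 0) (XT.lf (nat_lit 0) (nat_lit 4695724220) (nat_lit 760) (nat_lit 8907839212)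 (nat_lit 836) (nat_lit 491749121) (nat_lit 374) (nat_lit 5) (nat_lit 384) (nat_lit 5) (nat_lit 385) (nat_lit 5) (nat_lit 601) (nat_lit 560) (nat_lit 399)) (XT.lf (nat_lit 0) (nat_lit 1671083414) (nat_lit 836) (nat_lit 1308115703) (nat_lit 76) (nat_lit 11268128671) (nat_lit 373) (nat_lit 5) (nat_lit 384) (nat_lit 5) (nat_lit 374) (nat_lit 5) (nat_lit 602) (nat_lit 560) (nat_lit 398))) (XT.nd (nat_lit 78) (nat_lit 760) (nat_lit 0) (XT.lf (nat_lit 0) (nat_lit 3925913229) (nat_lit 836) (nat_lit 7399167675) (nat_lit 76) (nat_lit 3076131190) (nat_lit 363) (nat_lit 5) (nat_lit 374) (nat_lit 5) (nat_lit 364) (nat_lit 5) (nat_lit 603) (nat_lit 560) (nat_lit 397)) (XT.lf (nat_lit 0) (nat_lit 918930930) (nat_lit 760) (nat_lit 5331053642) (nat_lit 836) (nat_lit 8307706886) (nat_lit 353) (nat_lit 5) (nat_lit 363) (nat_lit 5) (nat_lit 364) (nat_lit 5) (nat_lit 604) (nat_lit 560) (nat_lit 396))))))) (XT.nd (nat_lit 1170) (nat_lit 5396) (nat_lit 0) (XT.nd (nat_lit 546)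 (nat_lit 2660) (nat_lit 0) (XT.nd (nat_lit 234) (nat_lit 2128) (nat_lit 0) (XT.nd (nat_lit 78) (nat_lit 760) (nat_lit 0) (XT.lf (nat_lit 0) (nat_lit 8665336096) (nat_lit 836) (nat_lit 5229626511) (nat_lit 76) (nat_lit 821442096) (nat_lit 353) (nat_lit 5) (nat_lit 364) (nat_lit 5) (nat_lit 354) (nat_lit 5) (nat_lit 605) (nat_lit 560) (nat_lit 395)) (XT.nd (nat_lit 78) (nat_lit 0) (nat_lit 0) (XT.lf (nat_lit 0) (nat_lit 3344884657) (nat_lit 760) (nat_lit 7831068281) (nat_lit 836) (nat_lit 3701400370) (nat_lit 343) (nat_lit 5) (nat_lit 353) (nat_lit 5) (nat_lit 354) (nat_lit 5) (nat_lit 606) (nat_lit 560) (nat_lit 394)) (XT.lf (nat_lit 0) (nat_lit 12150480511) (nat_lit 760) (nat_lit 1611455242) (nat_lit 836) (nat_lit 1279082316) (nat_lit 343) (nat_lit 5) (nat_lit 353) (nat_lit 5) (nat_lit 354) (nat_lit 5) (nat_lit 607) (nat_lit 560) (nat_lit 393)))) (XT.nd (nat_lit 156) (nat_lit 1368) (nat_lit 0) (XT.nd (nat_lit 78) (nat_lit 0) (nat_lit 0) (XT.lf (nat_lit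 0) (nat_lit 1236120110) (nat_lit 760) (nat_lit 9254477625) (nat_lit 76) (nat_lit 4716002551) (nat_lit 333) (nat_lit 5) (nat_lit 343) (nat_lit 5) (nat_lit 334) (nat_lit 5) (nat_lit 608) (nat_lit 560) (nat_lit 392)) (XT.lf (nat_lit 0) (nat_lit 3805013998) (nat_lit 760) (nat_lit 394873845) (nat_lit 76) (nat_lit 11175027165) (nat_lit 333) (nat_lit 5) (nat_lit 343) (nat_lit 5) (nat_lit 334) (nat_lit 5) (nat_lit 609) (nat_lit 560) (nat_lit 391))) (XT.nd (nat_lit 78) (nat_lit 684) (nat_lit 0) (XT.lf (nat_lit 0) (nat_lit 6487316278) (nat_lit 760) (nat_lit 6814880019) (nat_lit 76) (nat_lit 2243159352) (nat_lit 324) (nat_lit 5) (nat_lit 334) (nat_lit 5) (nat_lit 325) (nat_lit 5) (nat_lit 610) (nat_lit 560) (nat_lit 390)) (XT.lf (nat_lit 0) (nat_lit 2315877020) (nat_lit 684) (nat_lit 6943500442) (nat_lit 760) (nat_lit 6459105618) (nat_lit 315) (nat_lit 5) (nat_lit 324) (nat_lit 5) (nat_lit 325) (nat_lit 5) (nat_lit 611) (nat_lit 560) (nat_lit 389))))) (XT.nd (nat_lit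 312) (nat_lit 1292) (nat_lit 0) (XT.nd (nat_lit 156) (nat_lit 684) (nat_lit 0) (XT.nd (nat_lit 78) (nat_lit 684) (nat_lit 0) (XT.lf (nat_lit 0) (nat_lit 11710503005) (nat_lit 684) (nat_lit 412815940) (nat_lit 760) (nat_lit 3771025561) (nat_lit 315) (nat_lit 5) (nat_lit 324) (nat_lit 5) (nat_lit 325) (nat_lit 5) (nat_lit 612) (nat_lit 560) (nat_lit 388)) (XT.lf (nat_lit 0) (nat_lit 5236328096) (nat_lit 684) (nat_lit 9873656356) (nat_lit 760) (nat_lit 962430028) (nat_lit 306) (nat_lit 5) (nat_lit 315) (nat_lit 5) (nat_lit 316) (nat_lit 5) (nat_lit 613) (nat_lit 560) (nat_lit 387))) (XT.nd (nat_lit 78) (nat_lit 608) (nat_lit 0) (XT.lf (nat_lit 0) (nat_lit 1899309200) (nat_lit 760) (nat_lit 1378265510) (nat_lit 76) (nat_lit 12975785906) (nat_lit 305) (nat_lit 5) (nat_lit 315) (nat_lit 5) (nat_lit 306) (nat_lit 5) (nat_lit 614) (nat_lit 560) (nat_lit 386)) (XT.lf (nat_lit 0) (nat_lit 4873588818) (nat_lit 684) (nat_lit 8098592668) (nat_lit 76) (nat_lit 3464253318)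 (nat_lit 297) (nat_lit 5) (nat_lit 306) (nat_lit 5) (nat_lit 298) (nat_lit 5) (nat_lit 615) (nat_lit 560) (nat_lit 385)))) (XT.nd (nat_lit 156) (nat_lit 684) (nat_lit 0) (XT.nd (nat_lit 78) (nat_lit 0) (nat_lit 0) (XT.lf (nat_lit 0) (nat_lit 1632617011) (nat_lit 608) (nat_lit 6307547434) (nat_lit 684) (nat_lit 8682350027) (nat_lit 289) (nat_lit 5) (nat_lit 297) (nat_lit 5) (nat_lit 298) (nat_lit 5) (nat_lit 616) (nat_lit 560) (nat_lit 384)) (XT.lf (nat_lit 0) (nat_lit 11117242940) (nat_lit 684) (nat_lit 5157627861) (nat_lit 76) (nat_lit 536461707) (nat_lit 289) (nat_lit 5) (nat_lit 298) (nat_lit 5) (nat_lit 290) (nat_lit 5) (nat_lit 617) (nat_lit 560) (nat_lit 383))) (XT.nd (nat_lit 78) (nat_lit 76) (nat_lit 0) (XT.lf (nat_lit 0) (nat_lit 4882685224) (nat_lit 608) (nat_lit 9540103955) (nat_lit 684) (nat_lit 2579839402) (nat_lit 281) (nat_lit 5) (nat_lit 289) (nat_lit 5) (nat_lit 290) (nat_lit 5) (nat_lit 618) (nat_lit 560) (nat_lit 382)) (XT.lf (nat_lit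 0) (nat_lit 615203656) (nat_lit 684) (nat_lit 2018353241) (nat_lit 76) (nat_lit 14563589712) (nat_lit 280) (nat_lit 5) (nat_lit 289) (nat_lit 5) (nat_lit 281) (nat_lit 5) (nat_lit 619) (nat_lit 560) (nat_lit 381)))))) (XT.nd (nat_lit 624) (nat_lit 2508) (nat_lit 0) (XT.nd (nat_lit 312) (nat_lit 1140) (nat_lit 0) (XT.nd (nat_lit 156) (nat_lit 608) (nat_lit 0) (XT.nd (nat_lit 78) (nat_lit 532) (nat_lit 0) (XT.lf (nat_lit 0) (nat_lit 3914719784) (nat_lit 684) (nat_lit 9056165172) (nat_lit 76) (nat_lit 4422826848) (nat_lit 272) (nat_lit 5) (nat_lit 281) (nat_lit 5) (nat_lit 273) (nat_lit 5) (nat_lit 620) (nat_lit 560) (nat_lit 380)) (XT.lf (nat_lit 0) (nat_lit 1323033290) (nat_lit 532) (nat_lit 5988597553) (nat_lit 608) (nat_lit 10281949554) (nat_lit 265) (nat_lit 5) (nat_lit 272) (nat_lit 5) (nat_lit 273) (nat_lit 5) (nat_lit 621) (nat_lit 560) (nat_lit 379))) (XT.nd (nat_lit 78) (nat_lit 608) (nat_lit 0) (XT.lf (nat_lit 0) (nat_lit 10836828503) (nat_lit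 608) (nat_lit 5782267964) (nat_lit 76) (nat_lit 1177143104) (nat_lit 265) (nat_lit 5) (nat_lit 273) (nat_lit 5) (nat_lit 266) (nat_lit 5) (nat_lit 622) (nat_lit 560) (nat_lit 378)) (XT.lf (nat_lit 0) (nat_lit 4930138956) (nat_lit 608) (nat_lit 9566036867) (nat_lit 684) (nat_lit 3505503368) (nat_lit 257) (nat_lit 5) (nat_lit 265) (nat_lit 5) (nat_lit 266) (nat_lit 5) (nat_lit 623) (nat_lit 560) (nat_lit 377)))) (XT.nd (nat_lit 156) (nat_lit 532) (nat_lit 0) (XT.nd (nat_lit 78) (nat_lit 532) (nat_lit 0) (XT.lf (nat_lit 0) (nat_lit 48324611) (nat_lit 684) (nat_lit 2286322070) (nat_lit 76) (nat_lit 15875957394) (nat_lit 256) (nat_lit 5) (nat_lit 265) (nat_lit 5) (nat_lit 257) (nat_lit 5) (nat_lit 624) (nat_lit 560) (nat_lit 376)) (XT.lf (nat_lit 0) (nat_lit 3708861446) (nat_lit 608) (nat_lit 9659219348) (nat_lit 76) (nat_lit 5053511980) (nat_lit 249) (nat_lit 5) (nat_lit 257) (nat_lit 5) (nat_lit 250) (nat_lit 5) (nat_lit 625) (nat_lit 560) (nat_lit 375)))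 (XT.nd (nat_lit 78) (nat_lit 0) (nat_lit 0) (XT.lf (nat_lit 0) (nat_lit 1419054531) (nat_lit 532) (nat_lit 6055911037) (nat_lit 608) (nat_lit 11161188713) (nat_lit 242) (nat_lit 5) (nat_lit 249) (nat_lit 5) (nat_lit 250) (nat_lit 5) (nat_lit 626) (nat_lit 560) (nat_lit 374)) (XT.lf (nat_lit 0) (nat_lit 11383049457) (nat_lit 608) (nat_lit 6024018971) (nat_lit 76) (nat_lit 1446605594) (nat_lit 242) (nat_lit 5) (nat_lit 250) (nat_lit 5) (nat_lit 243) (nat_lit 5) (nat_lit 627) (nat_lit 560) (nat_lit 373))))) (XT.nd (nat_lit 312) (nat_lit 988) (nat_lit 0) (XT.nd (nat_lit 156) (nat_lit 988) (nat_lit 0) (XT.nd (nat_lit 78) (nat_lit 76) (nat_lit 0) (XT.lf (nat_lit 0) (nat_lit 5413423689) (nat_lit 456) (nat_lit 10023579148) (nat_lit 532) (nat_lit 3637187323) (nat_lit 236) (nat_lit 5) (nat_lit 242) (nat_lit 5) (nat_lit 243) (nat_lit 5) (nat_lit 628) (nat_lit 560) (nat_lit 372)) (XT.lf (nat_lit 0) (nat_lit 302517570) (nat_lit 532) (nat_lit 2149499469) (nat_lit 76)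 (nat_lit 16846400725) (nat_lit 235) (nat_lit 5) (nat_lit 242) (nat_lit 5) (nat_lit 236) (nat_lit 5) (nat_lit 629) (nat_lit 560) (nat_lit 371))) (XT.nd (nat_lit 78) (nat_lit 456) (nat_lit 0) (XT.lf (nat_lit 0) (nat_lit 4362653314) (nat_lit 608) (nat_lit 9875615624) (nat_lit 76) (nat_lit 5286573521) (nat_lit 228) (nat_lit 5) (nat_lit 236) (nat_lit 5) (nat_lit 229) (nat_lit 5) (nat_lit 630) (nat_lit 560) (nat_lit 370)) (XT.lf (nat_lit 0) (nat_lit 1956605013) (nat_lit 456) (nat_lit 6583542146) (nat_lit 532) (nat_lit 11214925523) (nat_lit 222) (nat_lit 5) (nat_lit 228) (nat_lit 5) (nat_lit 229) (nat_lit 5) (nat_lit 631) (nat_lit 560) (nat_lit 369)))) (XT.nd (nat_lit 156) (nat_lit 532) (nat_lit 0) (XT.nd (nat_lit 78) (nat_lit 456) (nat_lit 0) (XT.lf (nat_lit 0) (nat_lit 12868600259) (nat_lit 532) (nat_lit 5847970617) (nat_lit 76) (nat_lit 1271988591) (nat_lit 222) (nat_lit 5) (nat_lit 229) (nat_lit 5) (nat_lit 223) (nat_lit 5) (nat_lit 632) (nat_lit 560) (nat_lit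 368)) (XT.lf (nat_lit 0) (nat_lit 6371363596) (nat_lit 456) (nat_lit 10990118780) (nat_lit 532) (nat_lit 2863676550) (nat_lit 216) (nat_lit 5) (nat_lit 222) (nat_lit 5) (nat_lit 223) (nat_lit 5) (nat_lit 633) (nat_lit 560) (nat_lit 367))) (XT.nd (nat_lit 78) (nat_lit 456) (nat_lit 0) (XT.lf (nat_lit 0) (nat_lit 1490774384) (nat_lit 532) (nat_lit 1571366825) (nat_lit 76) (nat_lit 17403508943) (nat_lit 215) (nat_lit 5) (nat_lit 222) (nat_lit 5) (nat_lit 216) (nat_lit 5) (nat_lit 634) (nat_lit 560) (nat_lit 366)) (XT.lf (nat_lit 0) (nat_lit 5992161960) (nat_lit 532) (nat_lit 9669469826) (nat_lit 76) (nat_lit 5046977124) (nat_lit 209) (nat_lit 5) (nat_lit 216) (nat_lit 5) (nat_lit 210) (nat_lit 5) (nat_lit 635) (nat_lit 560) (nat_lit 365))))))))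
noncomputable def xc140 : XT := (XT.nd (nat_lit 2418) (nat_lit 1976) (nat_lit 0) (XT.nd (nat_lit 1170) (nat_lit 3496) (nat_lit 0) (XT.nd (nat_lit 546) (nat_lit 2052) (nat_lit 0) (XT.nd (nat_lit 234) (nat_lit 912) (nat_lit 0) (XT.nd (nat_lit 78) (nat_lit 380) (nat_lit 0) (XT.lf (nat_lit 0) (nat_lit 2975600760) (nat_lit 456) (nat_lit 7651301186) (nat_lit 532) (nat_lit 10328658533) (nat_lit 203) (nat_lit 5) (nat_lit 209) (nat_lit 5) (nat_lit 210) (nat_lit 5) (nat_lit 636) (nat_lit 560) (nat_lit 364)) (XT.nd (nat_lit 78) (nat_lit 380) (nat_lit 0) (XT.lf (nat_lit 0) (nat_lit 15416186521) (nat_lit 532) (nat_lit 5215374894) (nat_lit 76) (nat_lit 574652795) (nat_lit 203) (nat_lit 5) (nat_lit 210) (nat_lit 5) (nat_lit 204) (nat_lit 5) (nat_lit 637) (nat_lit 560) (nat_lit 363)) (XT.lf (nat_lit 0) (nat_lit 7846875725) (nat_lit 380) (nat_lit 12549294750) (nat_lit 456) (nat_lit 1063812389) (nat_lit 198) (nat_lit 5) (nat_lit 203) (nat_lit 5) (nat_lit 204) (nat_lit 5)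 (nat_lit 638) (nat_lit 560) (nat_lit 362)))) (XT.nd (nat_lit 156) (nat_lit 380) (nat_lit 0) (XT.nd (nat_lit 78) (nat_lit 456) (nat_lit 0) (XT.lf (nat_lit 0) (nat_lit 3736203563) (nat_lit 456) (nat_lit 511576232) (nat_lit 76) (nat_lit 17469988383) (nat_lit 197) (nat_lit 5) (nat_lit 203) (nat_lit 5) (nat_lit 198) (nat_lit 5) (nat_lit 639) (nat_lit 560) (nat_lit 361)) (XT.lf (nat_lit 0) (nat_lit 8723864463) (nat_lit 532) (nat_lit 9001177954) (nat_lit 76) (nat_lit 4253408482) (nat_lit 191) (nat_lit 5) (nat_lit 198) (nat_lit 5) (nat_lit 192) (nat_lit 5) (nat_lit 640) (nat_lit 560) (nat_lit 360))) (XT.nd (nat_lit 78) (nat_lit 0) (nat_lit 0) (XT.lf (nat_lit 0) (nat_lit 4519937347) (nat_lit 380) (nat_lit 9345770178) (nat_lit 456) (nat_lit 8377551282) (nat_lit 186) (nat_lit 5) (nat_lit 191) (nat_lit 5) (nat_lit 192) (nat_lit 5) (nat_lit 641) (nat_lit 560) (nat_lit 359)) (XT.lf (nat_lit 0) (nat_lit 18423808635) (nat_lit 380) (nat_lit 740541984) (nat_lit 456) (nat_lit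 3347933103) (nat_lit 186) (nat_lit 5) (nat_lit 191) (nat_lit 5) (nat_lit 192) (nat_lit 5) (nat_lit 642) (nat_lit 560) (nat_lit 358))))) (XT.nd (nat_lit 312) (nat_lit 836) (nat_lit 0) (XT.nd (nat_lit 156) (nat_lit 380) (nat_lit 0) (XT.nd (nat_lit 78) (nat_lit 380) (nat_lit 0) (XT.lf (nat_lit 0) (nat_lit 1869670233) (nat_lit 456) (nat_lit 12909827218) (nat_lit 76) (nat_lit 8004745004) (nat_lit 180) (nat_lit 5) (nat_lit 186) (nat_lit 5) (nat_lit 181) (nat_lit 5) (nat_lit 643) (nat_lit 560) (nat_lit 357)) (XT.lf (nat_lit 0) (nat_lit 1088291040) (nat_lit 380) (nat_lit 6091822179) (nat_lit 456) (nat_lit 15880418324) (nat_lit 175) (nat_lit 5) (nat_lit 180) (nat_lit 5) (nat_lit 181) (nat_lit 5) (nat_lit 644) (nat_lit 560) (nat_lit 356))) (XT.nd (nat_lit 78) (nat_lit 380) (nat_lit 0) (XT.lf (nat_lit 0) (nat_lit 12695679798) (nat_lit 456) (nat_lit 7827458762) (nat_lit 76) (nat_lit 2817229661) (nat_lit 175) (nat_lit 5) (nat_lit 181) (nat_lit 5) (nat_lit 176) (nat_lit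 5) (nat_lit 645) (nat_lit 560) (nat_lit 355)) (XT.lf (nat_lit 0) (nat_lit 6637459334) (nat_lit 380) (nat_lit 11761386505) (nat_lit 456) (nat_lit 5225410132) (nat_lit 170) (nat_lit 5) (nat_lit 175) (nat_lit 5) (nat_lit 176) (nat_lit 5) (nat_lit 646) (nat_lit 560) (nat_lit 354)))) (XT.nd (nat_lit 156) (nat_lit 380) (nat_lit 0) (XT.nd (nat_lit 78) (nat_lit 380) (nat_lit 0) (XT.lf (nat_lit 0) (nat_lit 345033077) (nat_lit 456) (nat_lit 2426789025) (nat_lit 76) (nat_lit 21141025353) (nat_lit 169) (nat_lit 5) (nat_lit 175) (nat_lit 5) (nat_lit 170) (nat_lit 5) (nat_lit 647) (nat_lit 560) (nat_lit 353)) (XT.lf (nat_lit 0) (nat_lit 6074706758) (nat_lit 456) (nat_lit 11702251166) (nat_lit 76) (nat_lit 6427206346) (nat_lit 164) (nat_lit 5) (nat_lit 170) (nat_lit 5) (nat_lit 165) (nat_lit 5) (nat_lit 648) (nat_lit 560) (nat_lit 352))) (XT.nd (nat_lit 78) (nat_lit 0) (nat_lit 0) (XT.lf (nat_lit 0) (nat_lit 3276270468) (nat_lit 380) (nat_lit 8692750454) (nat_lit 456)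 (nat_lit 12531285650) (nat_lit 159) (nat_lit 5) (nat_lit 164) (nat_lit 5) (nat_lit 165) (nat_lit 5) (nat_lit 649) (nat_lit 560) (nat_lit 351)) (XT.lf (nat_lit 0) (nat_lit 18058051980) (nat_lit 456) (nat_lit 6101425433) (nat_lit 76) (nat_lit 641357787) (nat_lit 159) (nat_lit 5) (nat_lit 165) (nat_lit 5) (nat_lit 160) (nat_lit 5) (nat_lit 650) (nat_lit 560) (nat_lit 350)))))) (XT.nd (nat_lit 624) (nat_lit 1672) (nat_lit 0) (XT.nd (nat_lit 312) (nat_lit 760) (nat_lit 0) (XT.nd (nat_lit 156) (nat_lit 684) (nat_lit 0) (XT.nd (nat_lit 78) (nat_lit 76) (nat_lit 0) (XT.lf (nat_lit 0) (nat_lit 9379899777) (nat_lit 304) (nat_lit 15001609822) (nat_lit 380) (nat_lit 723611973) (nat_lit 155) (nat_lit 5) (nat_lit 159) (nat_lit 5) (nat_lit 160) (nat_lit 5) (nat_lit 651) (nat_lit 560) (nat_lit 349)) (XT.lf (nat_lit 0) (nat_lit 5380320706) (nat_lit 380) (nat_lit 205757571) (nat_lit 76) (nat_lit 19828004022) (nat_lit 154) (nat_lit 5) (nat_lit 159) (nat_lit 5) (nat_lit 155)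 (nat_lit 5) (nat_lit 652) (nat_lit 560) (nat_lit 348))) (XT.nd (nat_lit 78) (nat_lit 304) (nat_lit 0) (XT.lf (nat_lit 0) (nat_lit 11720435326) (nat_lit 456) (nat_lit 9936231507) (nat_lit 76) (nat_lit 4069983981) (nat_lit 149) (nat_lit 5) (nat_lit 155) (nat_lit 5) (nat_lit 150) (nat_lit 5) (nat_lit 653) (nat_lit 560) (nat_lit 347)) (XT.lf (nat_lit 0) (nat_lit 6097779141) (nat_lit 304) (nat_lit 12161887482) (nat_lit 380) (nat_lit 7784357871) (nat_lit 145) (nat_lit 5) (nat_lit 149) (nat_lit 5) (nat_lit 150) (nat_lit 5) (nat_lit 654) (nat_lit 560) (nat_lit 346)))) (XT.nd (nat_lit 156) (nat_lit 304) (nat_lit 0) (XT.nd (nat_lit 78) (nat_lit 456) (nat_lit 0) (XT.lf (nat_lit 0) (nat_lit 22578160795) (nat_lit 304) (nat_lit 2412591439) (nat_lit 380) (nat_lit 1375772102) (nat_lit 145) (nat_lit 5) (nat_lit 149) (nat_lit 5) (nat_lit 150) (nat_lit 5) (nat_lit 655) (nat_lit 560) (nat_lit 345)) (XT.lf (nat_lit 0) (nat_lit 5220641404) (nat_lit 456) (nat_lit 13924514056)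 (nat_lit 76) (nat_lit 7547101757) (nat_lit 139) (nat_lit 5) (nat_lit 145) (nat_lit 5) (nat_lit 140) (nat_lit 5) (nat_lit 656) (nat_lit 560) (nat_lit 344))) (XT.nd (nat_lit 78) (nat_lit 0) (nat_lit 0) (XT.lf (nat_lit 0) (nat_lit 2683339475) (nat_lit 304) (nat_lit 9300724239) (nat_lit 380) (nat_lit 15039189199) (nat_lit 135) (nat_lit 5) (nat_lit 139) (nat_lit 5) (nat_lit 140) (nat_lit 5) (nat_lit 657) (nat_lit 560) (nat_lit 343)) (XT.lf (nat_lit 0) (nat_lit 18976145955) (nat_lit 380) (nat_lit 7561278830) (nat_lit 76) (nat_lit 821575982) (nat_lit 135) (nat_lit 5) (nat_lit 140) (nat_lit 5) (nat_lit 136) (nat_lit 5) (nat_lit 658) (nat_lit 560) (nat_lit 342))))) (XT.nd (nat_lit 312) (nat_lit 684) (nat_lit 0) (XT.nd (nat_lit 156) (nat_lit 608) (nat_lit 0) (XT.nd (nat_lit 78) (nat_lit 76) (nat_lit 0) (XT.lf (nat_lit 0) (nat_lit 9608575602) (nat_lit 304) (nat_lit 16618104484) (nat_lit 380) (nat_lit 1472411362) (nat_lit 131) (nat_lit 5) (nat_lit 135) (nat_lit 5)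 (nat_lit 136) (nat_lit 5) (nat_lit 659) (nat_lit 560) (nat_lit 341)) (XT.lf (nat_lit 0) (nat_lit 5548827904) (nat_lit 380) (nat_lit 865977942) (nat_lit 76) (nat_lit 21629539668) (nat_lit 130) (nat_lit 5) (nat_lit 135) (nat_lit 5) (nat_lit 131) (nat_lit 5) (nat_lit 660) (nat_lit 560) (nat_lit 340))) (XT.nd (nat_lit 78) (nat_lit 304) (nat_lit 0) (XT.lf (nat_lit 0) (nat_lit 12822003609) (nat_lit 380) (nat_lit 11514499084) (nat_lit 76) (nat_lit 4057182838) (nat_lit 126) (nat_lit 5) (nat_lit 131) (nat_lit 5) (nat_lit 127) (nat_lit 5) (nat_lit 661) (nat_lit 560) (nat_lit 339)) (XT.lf (nat_lit 0) (nat_lit 6272193210) (nat_lit 304) (nat_lit 14052279415) (nat_lit 380) (nat_lit 8423863198) (nat_lit 122) (nat_lit 5) (nat_lit 126) (nat_lit 5) (nat_lit 127) (nat_lit 5) (nat_lit 662) (nat_lit 560) (nat_lit 338)))) (XT.nd (nat_lit 156) (nat_lit 304) (nat_lit 0) (XT.nd (nat_lit 78) (nat_lit 380) (nat_lit 0) (XT.lf (nat_lit 0) (nat_lit 24562114635) (nat_lit 304) (nat_lit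 3486966187) (nat_lit 380) (nat_lit 1059556568) (nat_lit 122) (nat_lit 5) (nat_lit 126) (nat_lit 5) (nat_lit 127) (nat_lit 5) (nat_lit 663) (nat_lit 560) (nat_lit 337)) (XT.lf (nat_lit 0) (nat_lit 6500561597) (nat_lit 380) (nat_lit 15648526711) (nat_lit 76) (nat_lit 7323556026) (nat_lit 117) (nat_lit 5) (nat_lit 122) (nat_lit 5) (nat_lit 118) (nat_lit 5) (nat_lit 664) (nat_lit 560) (nat_lit 336))) (XT.nd (nat_lit 78) (nat_lit 0) (nat_lit 0) (XT.lf (nat_lit 0) (nat_lit 2778092526) (nat_lit 304) (nat_lit 11486369649) (nat_lit 380) (nat_lit 15577993882) (nat_lit 113) (nat_lit 5) (nat_lit 117) (nat_lit 5) (nat_lit 118) (nat_lit 5) (nat_lit 665) (nat_lit 560) (nat_lit 335)) (XT.lf (nat_lit 0) (nat_lit 21776909952) (nat_lit 304) (nat_lit 506698448) (nat_lit 380) (nat_lit 7934056323) (nat_lit 113) (nat_lit 5) (nat_lit 117) (nat_lit 5) (nat_lit 118) (nat_lit 5) (nat_lit 666) (nat_lit 560) (nat_lit 334))))))) (XT.nd (nat_lit 73242) (nat_lit 0) (nat_lit 32452) (XT.nd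 (nat_lit 546) (nat_lit 532) (nat_lit 0) (XT.nd (nat_lit 234) (nat_lit 836) (nat_lit 0) (XT.nd (nat_lit 78) (nat_lit 380) (nat_lit 0) (XT.lf (nat_lit 0) (nat_lit 10616778353) (nat_lit 228) (nat_lit 19979748530) (nat_lit 304) (nat_lit 1182952) (nat_lit 110) (nat_lit 5) (nat_lit 113) (nat_lit 5) (nat_lit 114) (nat_lit 5) (nat_lit 667) (nat_lit 560) (nat_lit 333)) (XT.nd (nat_lit 78) (nat_lit 304) (nat_lit 0) (XT.lf (nat_lit 0) (nat_lit 8039659833) (nat_lit 304) (nat_lit 878979254) (nat_lit 76) (nat_lit 22064557897) (nat_lit 109) (nat_lit 5) (nat_lit 113) (nat_lit 5) (nat_lit 110) (nat_lit 5) (nat_lit 668) (nat_lit 560) (nat_lit 332)) (XT.lf (nat_lit 0) (nat_lit 16374928966) (nat_lit 380) (nat_lit 12546245544) (nat_lit 76) (nat_lit 2452546761) (nat_lit 105) (nat_lit 5) (nat_lit 110) (nat_lit 5) (nat_lit 106) (nat_lit 5) (nat_lit 669) (nat_lit 560) (nat_lit 331)))) (XT.nd (nat_lit 156) (nat_lit 532) (nat_lit 0) (XT.nd (nat_lit 78) (nat_lit 76) (nat_lit 0) (XT.lf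 (nat_lit 0) (nat_lit 7195065433) (nat_lit 228) (nat_lit 17788717882) (nat_lit 304) (nat_lit 6786135187) (nat_lit 102) (nat_lit 5) (nat_lit 105) (nat_lit 5) (nat_lit 106) (nat_lit 5) (nat_lit 670) (nat_lit 560) (nat_lit 330)) (XT.lf (nat_lit 0) (nat_lit 1649834559) (nat_lit 304) (nat_lit 4690214289) (nat_lit 76) (nat_lit 25832185860) (nat_lit 101) (nat_lit 5) (nat_lit 105) (nat_lit 5) (nat_lit 102) (nat_lit 5) (nat_lit 671) (nat_lit 560) (nat_lit 329))) (XT.nd (nat_lit 78) (nat_lit 228) (nat_lit 0) (XT.lf (nat_lit 0) (nat_lit 10296849234) (nat_lit 380) (nat_lit 16869755413) (nat_lit 76) (nat_lit 5412431679) (nat_lit 97) (nat_lit 5) (nat_lit 102) (nat_lit 5) (nat_lit 98) (nat_lit 5) (nat_lit 672) (nat_lit 560) (nat_lit 328)) (XT.lf (nat_lit 0) (nat_lit 3583703777) (nat_lit 228) (nat_lit 15625324481) (nat_lit 304) (nat_lit 13783101290) (nat_lit 94) (nat_lit 5) (nat_lit 97) (nat_lit 5) (nat_lit 98) (nat_lit 5) (nat_lit 673) (nat_lit 560) (nat_lit 327)))))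 (XT.nd (nat_lit 72384) (nat_lit 0) (nat_lit 35340) (XT.nd (nat_lit 156) (nat_lit 228) (nat_lit 0) (XT.nd (nat_lit 78) (nat_lit 304) (nat_lit 0) (XT.lf (nat_lit 0) (nat_lit 24666859180) (nat_lit 228) (nat_lit 3741123738) (nat_lit 304) (nat_lit 5003331124) (nat_lit 94) (nat_lit 5) (nat_lit 97) (nat_lit 5) (nat_lit 98) (nat_lit 5) (nat_lit 674) (nat_lit 560) (nat_lit 326)) (XT.lf (nat_lit 0) (nat_lit 4031604429) (nat_lit 304) (nat_lit 21429305144) (nat_lit 76) (nat_lit 8374831485) (nat_lit 90) (nat_lit 5) (nat_lit 94) (nat_lit 5) (nat_lit 91) (nat_lit 5) (nat_lit 675) (nat_lit 560) (nat_lit 325))) (XT.nd (nat_lit 78) (nat_lit 228) (nat_lit 0) (XT.lf (nat_lit 0) (nat_lit 13259556779) (nat_lit 304) (nat_lit 234872124) (nat_lit 76) (nat_lit 20771980065) (nat_lit 90) (nat_lit 5) (nat_lit 94) (nat_lit 5) (nat_lit 91) (nat_lit 5) (nat_lit 676) (nat_lit 560) (nat_lit 324)) (XT.lf (nat_lit 0) (nat_lit 21659708670) (nat_lit 228) (nat_lit 1148484688) (nat_lit 304)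 (nat_lit 11894774421) (nat_lit 87) (nat_lit 5) (nat_lit 90) (nat_lit 5) (nat_lit 91) (nat_lit 5) (nat_lit 677) (nat_lit 560) (nat_lit 323)))) (XT.nd (nat_lit 156) (nat_lit 0) (nat_lit 0) (XT.nd (nat_lit 78) (nat_lit 0) (nat_lit 0) (XT.lf (nat_lit 0) (nat_lit 1089535401) (nat_lit 0) (nat_lit 1089535401) (nat_lit 1596) (nat_lit 2655195882) (nat_lit 552) (nat_lit 5) (nat_lit 552) (nat_lit 3) (nat_lit 573) (nat_lit 3) (nat_lit 561) (nat_lit 561) (nat_lit 438)) (XT.lf (nat_lit 0) (nat_lit 5181547740) (nat_lit 1596) (nat_lit 2680980212) (nat_lit 1672) (nat_lit 1887068947) (nat_lit 552) (nat_lit 5) (nat_lit 573) (nat_lit 3) (nat_lit 574) (nat_lit 5) (nat_lit 562) (nat_lit 561) (nat_lit 437))) (XT.nd (nat_lit 78) (nat_lit 0) (nat_lit 76) (XT.lf (nat_lit 76) (nat_lit 2227927205) (nat_lit 0) (nat_lit 3802326820) (nat_lit 1672) (nat_lit 3801851701) (nat_lit 553) (nat_lit 5) (nat_lit 552) (nat_lit 5) (nat_lit 574) (nat_lit 5) (nat_lit 563) (nat_lit 561) (nat_lit 436))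 (XT.lf (nat_lit 0) (nat_lit 6896567493) (nat_lit 1596) (nat_lit 2657791074) (nat_lit 1672) (nat_lit 361894151) (nat_lit 553) (nat_lit 5) (nat_lit 574) (nat_lit 5) (nat_lit 575) (nat_lit 5) (nat_lit 564) (nat_lit 561) (nat_lit 435)))))) (XT.nd (nat_lit 624) (nat_lit 1368) (nat_lit 0) (XT.nd (nat_lit 312) (nat_lit 0) (nat_lit 76) (XT.nd (nat_lit 156) (nat_lit 1596) (nat_lit 0) (XT.nd (nat_lit 78) (nat_lit 0) (nat_lit 0) (XT.lf (nat_lit 76) (nat_lit 2382889628) (nat_lit 0) (nat_lit 5418677328) (nat_lit 1672) (nat_lit 2200089139) (nat_lit 554) (nat_lit 5) (nat_lit 553) (nat_lit 5) (nat_lit 575) (nat_lit 5) (nat_lit 565) (nat_lit 561) (nat_lit 434)) (XT.lf (nat_lit 76) (nat_lit 7549775885) (nat_lit 0) (nat_lit 1173742389) (nat_lit 1672) (nat_lit 1365272852) (nat_lit 554) (nat_lit 5) (nat_lit 553) (nat_lit 5) (nat_lit 575) (nat_lit 5) (nat_lit 566) (nat_lit 561) (nat_lit 433))) (XT.nd (nat_lit 78) (nat_lit 1672) (nat_lit 0) (XT.lf (nat_lit 76) (nat_lit 2645685655)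 (nat_lit 0) (nat_lit 7037333997) (nat_lit 1672) (nat_lit 494267598) (nat_lit 555) (nat_lit 5) (nat_lit 554) (nat_lit 5) (nat_lit 576) (nat_lit 5) (nat_lit 567) (nat_lit 561) (nat_lit 432)) (XT.lf (nat_lit 0) (nat_lit 395526787) (nat_lit 1672) (nat_lit 2320186128) (nat_lit 1748) (nat_lit 7551659020) (nat_lit 532) (nat_lit 5) (nat_lit 554) (nat_lit 5) (nat_lit 555) (nat_lit 5) (nat_lit 568) (nat_lit 561) (nat_lit 431)))) (XT.nd (nat_lit 156) (nat_lit 0) (nat_lit 76) (XT.nd (nat_lit 78) (nat_lit 0) (nat_lit 0) (XT.lf (nat_lit 0) (nat_lit 1309280415) (nat_lit 1672) (nat_lit 7349352496) (nat_lit 1748) (nat_lit 1700305006) (nat_lit 533) (nat_lit 5) (nat_lit 555) (nat_lit 5) (nat_lit 556) (nat_lit 5) (nat_lit 569) (nat_lit 561) (nat_lit 430)) (XT.lf (nat_lit 0) (nat_lit 2257270813) (nat_lit 1672) (nat_lit 2003848283) (nat_lit 1748) (nat_lit 6190897455) (nat_lit 533) (nat_lit 5) (nat_lit 555) (nat_lit 5) (nat_lit 556) (nat_lit 5) (nat_lit 570) (nat_lit 561) (nat_lit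 429))) (XT.nd (nat_lit 78) (nat_lit 0) (nat_lit 0) (XT.lf (nat_lit 0) (nat_lit 3231136251) (nat_lit 1672) (nat_lit 7065170779) (nat_lit 1748) (nat_lit 250511978) (nat_lit 534) (nat_lit 5) (nat_lit 556) (nat_lit 5) (nat_lit 557) (nat_lit 5) (nat_lit 571) (nat_lit 561) (nat_lit 428)) (XT.lf (nat_lit 0) (nat_lit 4249195484) (nat_lit 1672) (nat_lit 1578771531) (nat_lit 1748) (nat_lit 4815056715) (nat_lit 534) (nat_lit 5) (nat_lit 556) (nat_lit 5) (nat_lit 557) (nat_lit 5) (nat_lit 572) (nat_lit 561) (nat_lit 427))))) (XT.nd (nat_lit 312) (nat_lit 1520) (nat_lit 0) (XT.nd (nat_lit 156) (nat_lit 0) (nat_lit 76) (XT.nd (nat_lit 78) (nat_lit 0) (nat_lit 76) (XT.lf (nat_lit 76) (nat_lit 4059586206) (nat_lit 0) (nat_lit 1237682542) (nat_lit 1748) (nat_lit 5443691276) (nat_lit 535) (nat_lit 5) (nat_lit 534) (nat_lit 5) (nat_lit 557) (nat_lit 5) (nat_lit 573) (nat_lit 561) (nat_lit 426)) (XT.lf (nat_lit 0) (nat_lit 6382919010) (nat_lit 1672) (nat_lit 1042269442) (nat_lit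 1748) (nat_lit 3415334803) (nat_lit 535) (nat_lit 5) (nat_lit 557) (nat_lit 5) (nat_lit 558) (nat_lit 5) (nat_lit 574) (nat_lit 561) (nat_lit 425))) (XT.nd (nat_lit 78) (nat_lit 0) (nat_lit 76) (XT.lf (nat_lit 76) (nat_lit 4752669715) (nat_lit 0) (nat_lit 2760576035) (nat_lit 1748) (nat_lit 3428373245) (nat_lit 536) (nat_lit 5) (nat_lit 535) (nat_lit 5) (nat_lit 558) (nat_lit 5) (nat_lit 575) (nat_lit 561) (nat_lit 424)) (XT.lf (nat_lit 0) (nat_lit 8670372340) (nat_lit 1672) (nat_lit 391333950) (nat_lit 1748) (nat_lit 1982946995) (nat_lit 536) (nat_lit 5) (nat_lit 558) (nat_lit 5) (nat_lit 559) (nat_lit 5) (nat_lit 576) (nat_lit 561) (nat_lit 423)))) (XT.nd (nat_lit 156) (nat_lit 1672) (nat_lit 0) (XT.nd (nat_lit 78) (nat_lit 0) (nat_lit 76) (XT.lf (nat_lit 76) (nat_lit 5565812301) (nat_lit 0) (nat_lit 4323743005) (nat_lit 1748) (nat_lit 1259415175) (nat_lit 537) (nat_lit 5) (nat_lit 536) (nat_lit 5) (nat_lit 559) (nat_lit 5) (nat_lit 577) (nat_lit 561)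 (nat_lit 422)) (XT.lf (nat_lit 76) (nat_lit 382381528) (nat_lit 0) (nat_lit 10743925624) (nat_lit 1748) (nat_lit 129203645) (nat_lit 538) (nat_lit 5) (nat_lit 537) (nat_lit 5) (nat_lit 560) (nat_lit 5) (nat_lit 578) (nat_lit 561) (nat_lit 421))) (XT.nd (nat_lit 78) (nat_lit 0) (nat_lit 0) (XT.lf (nat_lit 0) (nat_lit 1061415321) (nat_lit 1748) (nat_lit 4867570034) (nat_lit 1824) (nat_lit 5434039549) (nat_lit 514) (nat_lit 5) (nat_lit 537) (nat_lit 5) (nat_lit 538) (nat_lit 5) (nat_lit 579) (nat_lit 561) (nat_lit 420)) (XT.lf (nat_lit 76) (nat_lit 1262506165) (nat_lit 0) (nat_lit 1004985537) (nat_lit 1824) (nat_lit 9205313464) (nat_lit 515) (nat_lit 5) (nat_lit 514) (nat_lit 5) (nat_lit 538) (nat_lit 5) (nat_lit 580) (nat_lit 561) (nat_lit 419))))))))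
noncomputable def xc141 : XT := (XT.nd (nat_lit 2418) (nat_lit 10488) (nat_lit 0) (XT.nd (nat_lit 1170) (nat_lit 7144) (nat_lit 0) (XT.nd (nat_lit 546) (nat_lit 5776) (nat_lit 0) (XT.nd (nat_lit 234) (nat_lit 1596) (nat_lit 0) (XT.nd (nat_lit 78) (nat_lit 0) (nat_lit 0) (XT.lf (nat_lit 0) (nat_lit 3542070315) (nat_lit 1748) (nat_lit 4040800002) (nat_lit 1824) (nat_lit 4001023550) (nat_lit 515) (nat_lit 5) (nat_lit 538) (nat_lit 5) (nat_lit 539) (nat_lit 5) (nat_lit 581) (nat_lit 561) (nat_lit 418)) (XT.nd (nat_lit 78) (nat_lit 0) (nat_lit 76) (XT.lf (nat_lit 76) (nat_lit 2263813198) (nat_lit 0) (nat_lit 2585383160) (nat_lit 1824) (nat_lit 6847867305) (nat_lit 516) (nat_lit 5) (nat_lit 515) (nat_lit 5) (nat_lit 539) (nat_lit 5) (nat_lit 582) (nat_lit 561) (nat_lit 417)) (XT.lf (nat_lit 0) (nat_lit 6211998390) (nat_lit 1748) (nat_lit 3090688181) (nat_lit 1824) (nat_lit 2509220043) (nat_lit 516) (nat_lit 5) (nat_lit 539) (nat_lit 5) (nat_lit 540) (nat_lit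 5) (nat_lit 583) (nat_lit 561) (nat_lit 416)))) (XT.nd (nat_lit 156) (nat_lit 1672) (nat_lit 0) (XT.nd (nat_lit 78) (nat_lit 0) (nat_lit 76) (XT.lf (nat_lit 76) (nat_lit 3394816527) (nat_lit 0) (nat_lit 4232607076) (nat_lit 1824) (nat_lit 4301115900) (nat_lit 517) (nat_lit 5) (nat_lit 516) (nat_lit 5) (nat_lit 540) (nat_lit 5) (nat_lit 584) (nat_lit 561) (nat_lit 415)) (XT.lf (nat_lit 0) (nat_lit 9084547501) (nat_lit 1748) (nat_lit 2012920983) (nat_lit 76) (nat_lit 949769175) (nat_lit 517) (nat_lit 5) (nat_lit 540) (nat_lit 5) (nat_lit 518) (nat_lit 5) (nat_lit 585) (nat_lit 561) (nat_lit 414))) (XT.nd (nat_lit 78) (nat_lit 0) (nat_lit 0) (XT.lf (nat_lit 0) (nat_lit 4660086359) (nat_lit 1748) (nat_lit 5955697626) (nat_lit 1824) (nat_lit 1551626795) (nat_lit 494) (nat_lit 5) (nat_lit 517) (nat_lit 5) (nat_lit 518) (nat_lit 5) (nat_lit 586) (nat_lit 561) (nat_lit 413)) (XT.lf (nat_lit 0) (nat_lit 11482615800) (nat_lit 1748) (nat_lit 695408626) (nat_lit 1824)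 (nat_lit 111955749) (nat_lit 494) (nat_lit 5) (nat_lit 517) (nat_lit 5) (nat_lit 518) (nat_lit 5) (nat_lit 587) (nat_lit 561) (nat_lit 412))))) (XT.nd (nat_lit 312) (nat_lit 1824) (nat_lit 0) (XT.nd (nat_lit 156) (nat_lit 912) (nat_lit 0) (XT.nd (nat_lit 78) (nat_lit 1140) (nat_lit 0) (XT.lf (nat_lit 0) (nat_lit 1395931194) (nat_lit 1900) (nat_lit 6358510872) (nat_lit 76) (nat_lit 4659238860) (nat_lit 469) (nat_lit 5) (nat_lit 494) (nat_lit 5) (nat_lit 470) (nat_lit 5) (nat_lit 588) (nat_lit 561) (nat_lit 411)) (XT.lf (nat_lit 0) (nat_lit 516169449) (nat_lit 1140) (nat_lit 2416955221) (nat_lit 1216) (nat_lit 9606703637) (nat_lit 454) (nat_lit 5) (nat_lit 469) (nat_lit 5) (nat_lit 470) (nat_lit 5) (nat_lit 589) (nat_lit 561) (nat_lit 410))) (XT.nd (nat_lit 78) (nat_lit 912) (nat_lit 0) (XT.lf (nat_lit 0) (nat_lit 4551090088) (nat_lit 1216) (nat_lit 5084603401) (nat_lit 76) (nat_lit 3031804953) (nat_lit 454) (nat_lit 5) (nat_lit 470) (nat_lit 5) (nat_lit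 455) (nat_lit 5) (nat_lit 590) (nat_lit 561) (nat_lit 409)) (XT.lf (nat_lit 0) (nat_lit 1992024050) (nat_lit 912) (nat_lit 4225998693) (nat_lit 988) (nat_lit 6579367438) (nat_lit 442) (nat_lit 5) (nat_lit 454) (nat_lit 5) (nat_lit 455) (nat_lit 5) (nat_lit 591) (nat_lit 561) (nat_lit 408)))) (XT.nd (nat_lit 156) (nat_lit 912) (nat_lit 0) (XT.nd (nat_lit 78) (nat_lit 912) (nat_lit 0) (XT.lf (nat_lit 0) (nat_lit 7948870883) (nat_lit 988) (nat_lit 3670207460) (nat_lit 76) (nat_lit 1310190225) (nat_lit 442) (nat_lit 5) (nat_lit 455) (nat_lit 5) (nat_lit 443) (nat_lit 5) (nat_lit 592) (nat_lit 561) (nat_lit 407)) (XT.lf (nat_lit 0) (nat_lit 3615811683) (nat_lit 912) (nat_lit 6138068373) (nat_lit 988) (nat_lit 3309113932) (nat_lit 430) (nat_lit 5) (nat_lit 442) (nat_lit 5) (nat_lit 443) (nat_lit 5) (nat_lit 593) (nat_lit 561) (nat_lit 406))) (XT.nd (nat_lit 78) (nat_lit 912) (nat_lit 0) (XT.lf (nat_lit 0) (nat_lit 11086098063) (nat_lit 912) (nat_lit 521762413)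 (nat_lit 988) (nat_lit 1591276358) (nat_lit 430) (nat_lit 5) (nat_lit 442) (nat_lit 5) (nat_lit 443) (nat_lit 5) (nat_lit 594) (nat_lit 561) (nat_lit 405)) (XT.lf (nat_lit 0) (nat_lit 216487388) (nat_lit 912) (nat_lit 7944781719) (nat_lit 76) (nat_lit 5175559261) (nat_lit 418) (nat_lit 5) (nat_lit 430) (nat_lit 5) (nat_lit 419) (nat_lit 5) (nat_lit 595) (nat_lit 561) (nat_lit 404)))))) (XT.nd (nat_lit 624) (nat_lit 3724) (nat_lit 0) (XT.nd (nat_lit 312) (nat_lit 1672) (nat_lit 0) (XT.nd (nat_lit 156) (nat_lit 836) (nat_lit 0) (XT.nd (nat_lit 78) (nat_lit 912) (nat_lit 0) (XT.lf (nat_lit 0) (nat_lit 2045402117) (nat_lit 912) (nat_lit 426498229) (nat_lit 76) (nat_lit 11005037281) (nat_lit 418) (nat_lit 5) (nat_lit 430) (nat_lit 5) (nat_lit 419) (nat_lit 5) (nat_lit 596) (nat_lit 561) (nat_lit 403)) (XT.lf (nat_lit 0) (nat_lit 3969191249) (nat_lit 988) (nat_lit 6313894577) (nat_lit 76) (nat_lit 3335597636) (nat_lit 406) (nat_lit 5) (nat_lit 419) (nat_lit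 5) (nat_lit 407) (nat_lit 5) (nat_lit 597) (nat_lit 561) (nat_lit 402))) (XT.nd (nat_lit 78) (nat_lit 0) (nat_lit 0) (XT.lf (nat_lit 0) (nat_lit 1424342450) (nat_lit 836) (nat_lit 4524540241) (nat_lit 912) (nat_lit 7814033299) (nat_lit 395) (nat_lit 5) (nat_lit 406) (nat_lit 5) (nat_lit 407) (nat_lit 5) (nat_lit 598) (nat_lit 561) (nat_lit 401)) (XT.lf (nat_lit 0) (nat_lit 8008648684) (nat_lit 912) (nat_lit 4526663920) (nat_lit 76) (nat_lit 1373911250) (nat_lit 395) (nat_lit 5) (nat_lit 407) (nat_lit 5) (nat_lit 396) (nat_lit 5) (nat_lit 599) (nat_lit 561) (nat_lit 400)))) (XT.nd (nat_lit 156) (nat_lit 836) (nat_lit 0) (XT.nd (nat_lit 78) (nat_lit 0) (nat_lit 0) (XT.lf (nat_lit 0) (nat_lit 3445563625) (nat_lit 836) (nat_lit 6705666222) (nat_lit 912) (nat_lit 3906395927) (nat_lit 384) (nat_lit 5) (nat_lit 395) (nat_lit 5) (nat_lit 396) (nat_lit 5) (nat_lit 600) (nat_lit 561) (nat_lit 399)) (XT.lf (nat_lit 0) (nat_lit 11627523559) (nat_lit 836) (nat_lit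 728938702) (nat_lit 912) (nat_lit 1852137767) (nat_lit 384) (nat_lit 5) (nat_lit 395) (nat_lit 5) (nat_lit 396) (nat_lit 5) (nat_lit 601) (nat_lit 561) (nat_lit 398))) (XT.nd (nat_lit 78) (nat_lit 0) (nat_lit 0) (XT.lf (nat_lit 0) (nat_lit 301505261) (nat_lit 836) (nat_lit 8724784050) (nat_lit 76) (nat_lit 5335043367) (nat_lit 373) (nat_lit 5) (nat_lit 384) (nat_lit 5) (nat_lit 374) (nat_lit 5) (nat_lit 602) (nat_lit 561) (nat_lit 397)) (XT.lf (nat_lit 0) (nat_lit 2485398219) (nat_lit 836) (nat_lit 491592298) (nat_lit 76) (nat_lit 11539645337) (nat_lit 373) (nat_lit 5) (nat_lit 384) (nat_lit 5) (nat_lit 374) (nat_lit 5) (nat_lit 603) (nat_lit 561) (nat_lit 396))))) (XT.nd (nat_lit 312) (nat_lit 1444) (nat_lit 0) (XT.nd (nat_lit 156) (nat_lit 760) (nat_lit 0) (XT.nd (nat_lit 78) (nat_lit 760) (nat_lit 0) (XT.lf (nat_lit 0) (nat_lit 4775877607) (nat_lit 836) (nat_lit 6694998062) (nat_lit 76) (nat_lit 3202911522) (nat_lit 363) (nat_lit 5) (nat_lit 374) (nat_lit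 5) (nat_lit 364) (nat_lit 5) (nat_lit 604) (nat_lit 561) (nat_lit 395)) (XT.lf (nat_lit 0) (nat_lit 1783856245) (nat_lit 760) (nat_lit 5352944081) (nat_lit 836) (nat_lit 7696788815) (nat_lit 353) (nat_lit 5) (nat_lit 363) (nat_lit 5) (nat_lit 364) (nat_lit 5) (nat_lit 605) (nat_lit 561) (nat_lit 394))) (XT.nd (nat_lit 78) (nat_lit 760) (nat_lit 0) (XT.lf (nat_lit 0) (nat_lit 9586060650) (nat_lit 836) (nat_lit 4489853634) (nat_lit 76) (nat_lit 919850719) (nat_lit 353) (nat_lit 5) (nat_lit 364) (nat_lit 5) (nat_lit 354) (nat_lit 5) (nat_lit 606) (nat_lit 561) (nat_lit 393)) (XT.lf (nat_lit 0) (nat_lit 4250592723) (nat_lit 760) (nat_lit 7887087969) (nat_lit 836) (nat_lit 3022436453) (nat_lit 343) (nat_lit 5) (nat_lit 353) (nat_lit 5) (nat_lit 354) (nat_lit 5) (nat_lit 607) (nat_lit 561) (nat_lit 392)))) (XT.nd (nat_lit 156) (nat_lit 684) (nat_lit 0) (XT.nd (nat_lit 78) (nat_lit 760) (nat_lit 0) (XT.lf (nat_lit 0) (nat_lit 13215853231) (nat_lit 760) (nat_lit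 1545055251) (nat_lit 836) (nat_lit 566436586) (nat_lit 343) (nat_lit 5) (nat_lit 353) (nat_lit 5) (nat_lit 354) (nat_lit 5) (nat_lit 608) (nat_lit 561) (nat_lit 391)) (XT.lf (nat_lit 0) (nat_lit 1981163937) (nat_lit 760) (nat_lit 8599261843) (nat_lit 76) (nat_lit 4915882127) (nat_lit 333) (nat_lit 5) (nat_lit 343) (nat_lit 5) (nat_lit 334) (nat_lit 5) (nat_lit 609) (nat_lit 561) (nat_lit 390))) (XT.nd (nat_lit 78) (nat_lit 0) (nat_lit 0) (XT.lf (nat_lit 0) (nat_lit 426653069) (nat_lit 684) (nat_lit 4163428798) (nat_lit 760) (nat_lit 11078134484) (nat_lit 324) (nat_lit 5) (nat_lit 333) (nat_lit 5) (nat_lit 334) (nat_lit 5) (nat_lit 610) (nat_lit 561) (nat_lit 389)) (XT.lf (nat_lit 0) (nat_lit 7315510677) (nat_lit 760) (nat_lit 6119582198) (nat_lit 76) (nat_lit 2407183666) (nat_lit 324) (nat_lit 5) (nat_lit 334) (nat_lit 5) (nat_lit 325) (nat_lit 5) (nat_lit 611) (nat_lit 561) (nat_lit 388))))))) (XT.nd (nat_lit 1170) (nat_lit 4788) (nat_lit 0) (XT.nd (nat_lit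 546) (nat_lit 3040) (nat_lit 0) (XT.nd (nat_lit 234) (nat_lit 1292) (nat_lit 0) (XT.nd (nat_lit 78) (nat_lit 684) (nat_lit 0) (XT.lf (nat_lit 0) (nat_lit 3188318959) (nat_lit 684) (nat_lit 6946362814) (nat_lit 760) (nat_lit 5884351713) (nat_lit 315) (nat_lit 5) (nat_lit 324) (nat_lit 5) (nat_lit 325) (nat_lit 5) (nat_lit 612) (nat_lit 561) (nat_lit 387)) (XT.nd (nat_lit 78) (nat_lit 684) (nat_lit 0) (XT.lf (nat_lit 0) (nat_lit 12754638946) (nat_lit 684) (nat_lit 287731437) (nat_lit 760) (nat_lit 3156312722) (nat_lit 315) (nat_lit 5) (nat_lit 324) (nat_lit 5) (nat_lit 325) (nat_lit 5) (nat_lit 613) (nat_lit 561) (nat_lit 386)) (XT.lf (nat_lit 0) (nat_lit 6158251194) (nat_lit 684) (nat_lit 9923406176) (nat_lit 760) (nat_lit 298799670) (nat_lit 306) (nat_lit 5) (nat_lit 315) (nat_lit 5) (nat_lit 316) (nat_lit 5) (nat_lit 614) (nat_lit 561) (nat_lit 385)))) (XT.nd (nat_lit 156) (nat_lit 608) (nat_lit 0) (XT.nd (nat_lit 78) (nat_lit 608) (nat_lit 0) (XT.lf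 (nat_lit 0) (nat_lit 2598004088) (nat_lit 760) (nat_lit 595861642) (nat_lit 76) (nat_lit 13371332293) (nat_lit 305) (nat_lit 5) (nat_lit 315) (nat_lit 5) (nat_lit 306) (nat_lit 5) (nat_lit 615) (nat_lit 561) (nat_lit 384)) (XT.lf (nat_lit 0) (nat_lit 5625023178) (nat_lit 684) (nat_lit 7443833897) (nat_lit 76) (nat_lit 3683211846) (nat_lit 297) (nat_lit 5) (nat_lit 306) (nat_lit 5) (nat_lit 298) (nat_lit 5) (nat_lit 616) (nat_lit 561) (nat_lit 383))) (XT.nd (nat_lit 78) (nat_lit 0) (nat_lit 0) (XT.lf (nat_lit 0) (nat_lit 2476626748) (nat_lit 608) (nat_lit 6268748645) (nat_lit 684) (nat_lit 8196646189) (nat_lit 289) (nat_lit 5) (nat_lit 297) (nat_lit 5) (nat_lit 298) (nat_lit 5) (nat_lit 617) (nat_lit 561) (nat_lit 382)) (XT.lf (nat_lit 0) (nat_lit 11974370762) (nat_lit 684) (nat_lit 4453692564) (nat_lit 76) (nat_lit 706785443) (nat_lit 289) (nat_lit 5) (nat_lit 298) (nat_lit 5) (nat_lit 290) (nat_lit 5) (nat_lit 618) (nat_lit 561) (nat_lit 381))))) (XT.nd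 (nat_lit 312) (nat_lit 1216) (nat_lit 0) (XT.nd (nat_lit 156) (nat_lit 1140) (nat_lit 0) (XT.nd (nat_lit 78) (nat_lit 76) (nat_lit 0) (XT.lf (nat_lit 0) (nat_lit 5782116995) (nat_lit 608) (nat_lit 9556669880) (nat_lit 684) (nat_lit 1991328996) (nat_lit 281) (nat_lit 5) (nat_lit 289) (nat_lit 5) (nat_lit 290) (nat_lit 5) (nat_lit 619) (nat_lit 561) (nat_lit 380)) (XT.lf (nat_lit 0) (nat_lit 1246833291) (nat_lit 684) (nat_lit 1264418986) (nat_lit 76) (nat_lit 15017436872) (nat_lit 280) (nat_lit 5) (nat_lit 289) (nat_lit 5) (nat_lit 281) (nat_lit 5) (nat_lit 620) (nat_lit 561) (nat_lit 379))) (XT.nd (nat_lit 78) (nat_lit 532) (nat_lit 0) (XT.lf (nat_lit 0) (nat_lit 4606467017) (nat_lit 684) (nat_lit 8437100822) (nat_lit 76) (nat_lit 4685735536) (nat_lit 272) (nat_lit 5) (nat_lit 281) (nat_lit 5) (nat_lit 273) (nat_lit 5) (nat_lit 621) (nat_lit 561) (nat_lit 378)) (XT.lf (nat_lit 0) (nat_lit 2144417217) (nat_lit 532) (nat_lit 5920031762) (nat_lit 608) (nat_lit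 9868857973) (nat_lit 265) (nat_lit 5) (nat_lit 272) (nat_lit 5) (nat_lit 273) (nat_lit 5) (nat_lit 622) (nat_lit 561) (nat_lit 377)))) (XT.nd (nat_lit 156) (nat_lit 608) (nat_lit 0) (XT.nd (nat_lit 78) (nat_lit 608) (nat_lit 0) (XT.lf (nat_lit 0) (nat_lit 11649455595) (nat_lit 608) (nat_lit 5107868716) (nat_lit 76) (nat_lit 1382909161) (nat_lit 265) (nat_lit 5) (nat_lit 273) (nat_lit 5) (nat_lit 266) (nat_lit 5) (nat_lit 623) (nat_lit 561) (nat_lit 376)) (XT.lf (nat_lit 0) (nat_lit 5813588681) (nat_lit 608) (nat_lit 9561812800) (nat_lit 684) (nat_lit 2974512427) (nat_lit 257) (nat_lit 5) (nat_lit 265) (nat_lit 5) (nat_lit 266) (nat_lit 5) (nat_lit 624) (nat_lit 561) (nat_lit 375))) (XT.nd (nat_lit 78) (nat_lit 532) (nat_lit 0) (XT.lf (nat_lit 0) (nat_lit 630876849) (nat_lit 684) (nat_lit 1554849427) (nat_lit 76) (nat_lit 16377445840) (nat_lit 256) (nat_lit 5) (nat_lit 265) (nat_lit 5) (nat_lit 257) (nat_lit 5) (nat_lit 625) (nat_lit 561) (nat_lit 374))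 (XT.lf (nat_lit 0) (nat_lit 4359512019) (nat_lit 608) (nat_lit 9070080164) (nat_lit 76) (nat_lit 5348890896) (nat_lit 249) (nat_lit 5) (nat_lit 257) (nat_lit 5) (nat_lit 250) (nat_lit 5) (nat_lit 626) (nat_lit 561) (nat_lit 373)))))) (XT.nd (nat_lit 624) (nat_lit 2280) (nat_lit 0) (XT.nd (nat_lit 312) (nat_lit 1444) (nat_lit 0) (XT.nd (nat_lit 156) (nat_lit 532) (nat_lit 0) (XT.nd (nat_lit 78) (nat_lit 0) (nat_lit 0) (XT.lf (nat_lit 0) (nat_lit 2224612327) (nat_lit 532) (nat_lit 5970068445) (nat_lit 608) (nat_lit 10802780430) (nat_lit 242) (nat_lit 5) (nat_lit 249) (nat_lit 5) (nat_lit 250) (nat_lit 5) (nat_lit 627) (nat_lit 561) (nat_lit 372)) (XT.lf (nat_lit 0) (nat_lit 12171063014) (nat_lit 608) (nat_lit 5372686464) (nat_lit 76) (nat_lit 1675779359) (nat_lit 242) (nat_lit 5) (nat_lit 250) (nat_lit 5) (nat_lit 243) (nat_lit 5) (nat_lit 628) (nat_lit 561) (nat_lit 371))) (XT.nd (nat_lit 78) (nat_lit 76) (nat_lit 0) (XT.lf (nat_lit 0) (nat_lit 6288427332)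 (nat_lit 456) (nat_lit 10011658976) (nat_lit 532) (nat_lit 3144489398) (nat_lit 236) (nat_lit 5) (nat_lit 242) (nat_lit 5) (nat_lit 243) (nat_lit 5) (nat_lit 629) (nat_lit 561) (nat_lit 370)) (XT.lf (nat_lit 0) (nat_lit 855652041) (nat_lit 532) (nat_lit 1433506906) (nat_lit 76) (nat_lit 17384274545) (nat_lit 235) (nat_lit 5) (nat_lit 242) (nat_lit 5) (nat_lit 236) (nat_lit 5) (nat_lit 630) (nat_lit 561) (nat_lit 369)))) (XT.nd (nat_lit 156) (nat_lit 456) (nat_lit 0) (XT.nd (nat_lit 78) (nat_lit 456) (nat_lit 0) (XT.lf (nat_lit 0) (nat_lit 4992539987) (nat_lit 608) (nat_lit 9309684141) (nat_lit 76) (nat_lit 5602251777) (nat_lit 228) (nat_lit 5) (nat_lit 236) (nat_lit 5) (nat_lit 229) (nat_lit 5) (nat_lit 631) (nat_lit 561) (nat_lit 368)) (XT.lf (nat_lit 0) (nat_lit 2754158252) (nat_lit 456) (nat_lit 6493709756) (nat_lit 532) (nat_lit 10891557250) (nat_lit 222) (nat_lit 5) (nat_lit 228) (nat_lit 5) (nat_lit 229) (nat_lit 5) (nat_lit 632) (nat_lit 561) (nat_lit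 367))) (XT.nd (nat_lit 78) (nat_lit 456) (nat_lit 0) (XT.lf (nat_lit 0) (nat_lit 13653772314) (nat_lit 532) (nat_lit 5212251724) (nat_lit 76) (nat_lit 1511740302) (nat_lit 222) (nat_lit 5) (nat_lit 229) (nat_lit 5) (nat_lit 223) (nat_lit 5) (nat_lit 633) (nat_lit 561) (nat_lit 366)) (XT.lf (nat_lit 0) (nat_lit 7246517342) (nat_lit 456) (nat_lit 10984500447) (nat_lit 532) (nat_lit 2388188087) (nat_lit 216) (nat_lit 5) (nat_lit 222) (nat_lit 5) (nat_lit 223) (nat_lit 5) (nat_lit 634) (nat_lit 561) (nat_lit 365))))) (XT.nd (nat_lit 312) (nat_lit 1292) (nat_lit 0) (XT.nd (nat_lit 156) (nat_lit 456) (nat_lit 0) (XT.nd (nat_lit 78) (nat_lit 456) (nat_lit 0) (XT.lf (nat_lit 0) (nat_lit 2036055287) (nat_lit 532) (nat_lit 862869008) (nat_lit 76) (nat_lit 17965719833) (nat_lit 215) (nat_lit 5) (nat_lit 222) (nat_lit 5) (nat_lit 216) (nat_lit 5) (nat_lit 635) (nat_lit 561) (nat_lit 364)) (XT.lf (nat_lit 0) (nat_lit 6623596301) (nat_lit 532) (nat_lit 9119050226) (nat_lit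 76) (nat_lit 5369893211) (nat_lit 209) (nat_lit 5) (nat_lit 216) (nat_lit 5) (nat_lit 210) (nat_lit 5) (nat_lit 636) (nat_lit 561) (nat_lit 363))) (XT.nd (nat_lit 78) (nat_lit 0) (nat_lit 0) (XT.lf (nat_lit 0) (nat_lit 3774028292) (nat_lit 456) (nat_lit 7571769127) (nat_lit 532) (nat_lit 10018737780) (nat_lit 203) (nat_lit 5) (nat_lit 209) (nat_lit 5) (nat_lit 210) (nat_lit 5) (nat_lit 637) (nat_lit 561) (nat_lit 362)) (XT.lf (nat_lit 0) (nat_lit 16222419422) (nat_lit 532) (nat_lit 4586797994) (nat_lit 76) (nat_lit 811153736) (nat_lit 203) (nat_lit 5) (nat_lit 210) (nat_lit 5) (nat_lit 204) (nat_lit 5) (nat_lit 638) (nat_lit 561) (nat_lit 361)))) (XT.nd (nat_lit 156) (nat_lit 380) (nat_lit 0) (XT.nd (nat_lit 78) (nat_lit 532) (nat_lit 0) (XT.lf (nat_lit 0) (nat_lit 8731876029) (nat_lit 380) (nat_lit 12565091169) (nat_lit 456) (nat_lit 582348879) (nat_lit 198) (nat_lit 5) (nat_lit 203) (nat_lit 5) (nat_lit 204) (nat_lit 5) (nat_lit 639) (nat_lit 561) (nat_lit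 360)) (XT.lf (nat_lit 0) (nat_lit 201089483) (nat_lit 456) (nat_lit 4097561635) (nat_lit 532) (nat_lit 17843709324) (nat_lit 191) (nat_lit 5) (nat_lit 197) (nat_lit 5) (nat_lit 198) (nat_lit 5) (nat_lit 640) (nat_lit 561) (nat_lit 359))) (XT.nd (nat_lit 78) (nat_lit 380) (nat_lit 0) (XT.lf (nat_lit 0) (nat_lit 9381386917) (nat_lit 532) (nat_lit 8457560423) (nat_lit 76) (nat_lit 4569403211) (nat_lit 191) (nat_lit 5) (nat_lit 198) (nat_lit 5) (nat_lit 192) (nat_lit 5) (nat_lit 641) (nat_lit 561) (nat_lit 358)) (XT.lf (nat_lit 0) (nat_lit 5329216388) (nat_lit 380) (nat_lit 9292046428) (nat_lit 456) (nat_lit 8057288050) (nat_lit 186) (nat_lit 5) (nat_lit 191) (nat_lit 5) (nat_lit 192) (nat_lit 5) (nat_lit 642) (nat_lit 561) (nat_lit 357))))))))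
noncomputable def xc142 : XT := (XT.nd (nat_lit 2418) (nat_lit 760) (nat_lit 0) (XT.nd (nat_lit 1170) (nat_lit 3192) (nat_lit 0) (XT.nd (nat_lit 546) (nat_lit 1900) (nat_lit 0) (XT.nd (nat_lit 234) (nat_lit 836) (nat_lit 0) (XT.nd (nat_lit 78) (nat_lit 836) (nat_lit 0) (XT.lf (nat_lit 0) (nat_lit 19497069409) (nat_lit 380) (nat_lit 519432085) (nat_lit 456) (nat_lit 2936642493) (nat_lit 186) (nat_lit 5) (nat_lit 191) (nat_lit 5) (nat_lit 192) (nat_lit 5) (nat_lit 643) (nat_lit 561) (nat_lit 356)) (XT.nd (nat_lit 78) (nat_lit 380) (nat_lit 0) (XT.lf (nat_lit 0) (nat_lit 2375924720) (nat_lit 456) (nat_lit 12453835181) (nat_lit 76) (nat_lit 8400782365) (nat_lit 180) (nat_lit 5) (nat_lit 186) (nat_lit 5) (nat_lit 181) (nat_lit 5) (nat_lit 644) (nat_lit 561) (nat_lit 355)) (XT.lf (nat_lit 0) (nat_lit 1819546833) (nat_lit 380) (nat_lit 5968442857) (nat_lit 456) (nat_lit 15724459336) (nat_lit 175) (nat_lit 5) (nat_lit 180) (nat_lit 5) (nat_lit 181) (nat_lit 5)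 (nat_lit 645) (nat_lit 561) (nat_lit 354)))) (XT.nd (nat_lit 156) (nat_lit 456) (nat_lit 0) (XT.nd (nat_lit 78) (nat_lit 380) (nat_lit 0) (XT.lf (nat_lit 0) (nat_lit 13406325070) (nat_lit 456) (nat_lit 7280879490) (nat_lit 76) (nat_lit 3110828879) (nat_lit 175) (nat_lit 5) (nat_lit 181) (nat_lit 5) (nat_lit 176) (nat_lit 5) (nat_lit 646) (nat_lit 561) (nat_lit 353)) (XT.lf (nat_lit 0) (nat_lit 7468711123) (nat_lit 380) (nat_lit 11750422929) (nat_lit 456) (nat_lit 4868553447) (nat_lit 170) (nat_lit 5) (nat_lit 175) (nat_lit 5) (nat_lit 176) (nat_lit 5) (nat_lit 647) (nat_lit 561) (nat_lit 352))) (XT.nd (nat_lit 78) (nat_lit 380) (nat_lit 0) (XT.lf (nat_lit 0) (nat_lit 798320017) (nat_lit 456) (nat_lit 1784579014) (nat_lit 76) (nat_lit 21799270568) (nat_lit 169) (nat_lit 5) (nat_lit 175) (nat_lit 5) (nat_lit 170) (nat_lit 5) (nat_lit 648) (nat_lit 561) (nat_lit 351)) (XT.lf (nat_lit 0) (nat_lit 6639874714) (nat_lit 456) (nat_lit 11242830999) (nat_lit 76)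 (nat_lit 6796661424) (nat_lit 164) (nat_lit 5) (nat_lit 170) (nat_lit 5) (nat_lit 165) (nat_lit 5) (nat_lit 649) (nat_lit 561) (nat_lit 350))))) (XT.nd (nat_lit 312) (nat_lit 760) (nat_lit 0) (XT.nd (nat_lit 156) (nat_lit 760) (nat_lit 0) (XT.nd (nat_lit 78) (nat_lit 0) (nat_lit 0) (XT.lf (nat_lit 0) (nat_lit 4030698796) (nat_lit 380) (nat_lit 8617149695) (nat_lit 456) (nat_lit 12333668465) (nat_lit 159) (nat_lit 5) (nat_lit 164) (nat_lit 5) (nat_lit 165) (nat_lit 5) (nat_lit 650) (nat_lit 561) (nat_lit 349)) (XT.lf (nat_lit 0) (nat_lit 18851631433) (nat_lit 456) (nat_lit 5541023516) (nat_lit 76) (nat_lit 895541915) (nat_lit 159) (nat_lit 5) (nat_lit 165) (nat_lit 5) (nat_lit 160) (nat_lit 5) (nat_lit 651) (nat_lit 561) (nat_lit 348))) (XT.nd (nat_lit 78) (nat_lit 456) (nat_lit 0) (XT.lf (nat_lit 0) (nat_lit 10245438525) (nat_lit 304) (nat_lit 15052042529) (nat_lit 380) (nat_lit 301169584) (nat_lit 155) (nat_lit 5) (nat_lit 159) (nat_lit 5) (nat_lit 160)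 (nat_lit 5) (nat_lit 652) (nat_lit 561) (nat_lit 347)) (XT.lf (nat_lit 0) (nat_lit 466517679) (nat_lit 380) (nat_lit 5447168201) (nat_lit 456) (nat_lit 20000156604) (nat_lit 149) (nat_lit 5) (nat_lit 154) (nat_lit 5) (nat_lit 155) (nat_lit 5) (nat_lit 653) (nat_lit 561) (nat_lit 346)))) (XT.nd (nat_lit 156) (nat_lit 456) (nat_lit 0) (XT.nd (nat_lit 78) (nat_lit 304) (nat_lit 0) (XT.lf (nat_lit 0) (nat_lit 12375212574) (nat_lit 456) (nat_lit 9462316758) (nat_lit 76) (nat_lit 4395240964) (nat_lit 149) (nat_lit 5) (nat_lit 155) (nat_lit 5) (nat_lit 150) (nat_lit 5) (nat_lit 654) (nat_lit 561) (nat_lit 345)) (XT.lf (nat_lit 0) (nat_lit 6887948844) (nat_lit 304) (nat_lit 12153375622) (nat_lit 380) (nat_lit 7515245186) (nat_lit 145) (nat_lit 5) (nat_lit 149) (nat_lit 5) (nat_lit 150) (nat_lit 5) (nat_lit 655) (nat_lit 561) (nat_lit 344))) (XT.nd (nat_lit 78) (nat_lit 456) (nat_lit 0) (XT.lf (nat_lit 0) (nat_lit 23684835893) (nat_lit 304) (nat_lit 2214029925)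 (nat_lit 380) (nat_lit 986817110) (nat_lit 145) (nat_lit 5) (nat_lit 149) (nat_lit 5) (nat_lit 150) (nat_lit 5) (nat_lit 656) (nat_lit 561) (nat_lit 343)) (XT.lf (nat_lit 0) (nat_lit 5733881128) (nat_lit 456) (nat_lit 13540237414) (nat_lit 76) (nat_lit 7943801588) (nat_lit 139) (nat_lit 5) (nat_lit 145) (nat_lit 5) (nat_lit 140) (nat_lit 5) (nat_lit 657) (nat_lit 561) (nat_lit 342)))))) (XT.nd (nat_lit 624) (nat_lit 1520) (nat_lit 0) (XT.nd (nat_lit 312) (nat_lit 988) (nat_lit 0) (XT.nd (nat_lit 156) (nat_lit 380) (nat_lit 0) (XT.nd (nat_lit 78) (nat_lit 0) (nat_lit 0) (XT.lf (nat_lit 0) (nat_lit 3395412878) (nat_lit 304) (nat_lit 9233417604) (nat_lit 380) (nat_lit 14926780196) (nat_lit 135) (nat_lit 5) (nat_lit 139) (nat_lit 5) (nat_lit 140) (nat_lit 5) (nat_lit 658) (nat_lit 561) (nat_lit 341)) (XT.lf (nat_lit 0) (nat_lit 19754423995) (nat_lit 380) (nat_lit 7060671879) (nat_lit 76) (nat_lit 1083104333) (nat_lit 135) (nat_lit 5) (nat_lit 140) (nat_lit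 5) (nat_lit 136) (nat_lit 5) (nat_lit 659) (nat_lit 561) (nat_lit 340))) (XT.nd (nat_lit 78) (nat_lit 76) (nat_lit 0) (XT.lf (nat_lit 0) (nat_lit 10448291270) (nat_lit 304) (nat_lit 16698063097) (nat_lit 380) (nat_lit 1098810730) (nat_lit 131) (nat_lit 5) (nat_lit 135) (nat_lit 5) (nat_lit 136) (nat_lit 5) (nat_lit 660) (nat_lit 561) (nat_lit 339)) (XT.lf (nat_lit 0) (nat_lit 6049767991) (nat_lit 380) (nat_lit 243262722) (nat_lit 76) (nat_lit 22304397282) (nat_lit 130) (nat_lit 5) (nat_lit 135) (nat_lit 5) (nat_lit 131) (nat_lit 5) (nat_lit 661) (nat_lit 561) (nat_lit 338)))) (XT.nd (nat_lit 156) (nat_lit 380) (nat_lit 0) (XT.nd (nat_lit 78) (nat_lit 304) (nat_lit 0) (XT.lf (nat_lit 0) (nat_lit 13466508190) (nat_lit 380) (nat_lit 11102850210) (nat_lit 76) (nat_lit 4384434496) (nat_lit 126) (nat_lit 5) (nat_lit 131) (nat_lit 5) (nat_lit 127) (nat_lit 5) (nat_lit 662) (nat_lit 561) (nat_lit 337)) (XT.lf (nat_lit 0) (nat_lit 7035352647) (nat_lit 304) (nat_lit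 14080205302) (nat_lit 380) (nat_lit 8200047714) (nat_lit 122) (nat_lit 5) (nat_lit 126) (nat_lit 5) (nat_lit 127) (nat_lit 5) (nat_lit 663) (nat_lit 561) (nat_lit 336))) (XT.nd (nat_lit 78) (nat_lit 380) (nat_lit 0) (XT.lf (nat_lit 0) (nat_lit 25678568275) (nat_lit 304) (nat_lit 3308548942) (nat_lit 380) (nat_lit 696146966) (nat_lit 122) (nat_lit 5) (nat_lit 126) (nat_lit 5) (nat_lit 127) (nat_lit 5) (nat_lit 664) (nat_lit 561) (nat_lit 335)) (XT.lf (nat_lit 0) (nat_lit 7008375053) (nat_lit 380) (nat_lit 15329477953) (nat_lit 76) (nat_lit 7716683499) (nat_lit 117) (nat_lit 5) (nat_lit 122) (nat_lit 5) (nat_lit 118) (nat_lit 5) (nat_lit 665) (nat_lit 561) (nat_lit 334))))) (XT.nd (nat_lit 312) (nat_lit 912) (nat_lit 0) (XT.nd (nat_lit 156) (nat_lit 304) (nat_lit 0) (XT.nd (nat_lit 78) (nat_lit 0) (nat_lit 0) (XT.lf (nat_lit 0) (nat_lit 3461515647) (nat_lit 304) (nat_lit 11462706600) (nat_lit 380) (nat_lit 15507588935) (nat_lit 113) (nat_lit 5) (nat_lit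 117) (nat_lit 5) (nat_lit 118) (nat_lit 5) (nat_lit 666) (nat_lit 561) (nat_lit 333)) (XT.lf (nat_lit 0) (nat_lit 22827998417) (nat_lit 304) (nat_lit 268410415) (nat_lit 380) (nat_lit 7718262131) (nat_lit 113) (nat_lit 5) (nat_lit 117) (nat_lit 5) (nat_lit 118) (nat_lit 5) (nat_lit 667) (nat_lit 561) (nat_lit 332))) (XT.nd (nat_lit 78) (nat_lit 0) (nat_lit 0) (XT.lf (nat_lit 0) (nat_lit 366752424) (nat_lit 304) (nat_lit 19758451189) (nat_lit 76) (nat_lit 11077097397) (nat_lit 109) (nat_lit 5) (nat_lit 113) (nat_lit 5) (nat_lit 110) (nat_lit 5) (nat_lit 668) (nat_lit 561) (nat_lit 331)) (XT.lf (nat_lit 0) (nat_lit 8561181669) (nat_lit 304) (nat_lit 286665615) (nat_lit 76) (nat_lit 22747794838) (nat_lit 109) (nat_lit 5) (nat_lit 113) (nat_lit 5) (nat_lit 110) (nat_lit 5) (nat_lit 669) (nat_lit 561) (nat_lit 330)))) (XT.nd (nat_lit 156) (nat_lit 380) (nat_lit 0) (XT.nd (nat_lit 78) (nat_lit 228) (nat_lit 0) (XT.lf (nat_lit 0) (nat_lit 17061628926) (nat_lit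 380) (nat_lit 12185745825) (nat_lit 76) (nat_lit 2746632771) (nat_lit 105) (nat_lit 5) (nat_lit 110) (nat_lit 5) (nat_lit 106) (nat_lit 5) (nat_lit 670) (nat_lit 561) (nat_lit 329)) (XT.lf (nat_lit 0) (nat_lit 7946368842) (nat_lit 228) (nat_lit 17893192014) (nat_lit 304) (nat_lit 6558629913) (nat_lit 102) (nat_lit 5) (nat_lit 105) (nat_lit 5) (nat_lit 106) (nat_lit 5) (nat_lit 671) (nat_lit 561) (nat_lit 328))) (XT.nd (nat_lit 78) (nat_lit 304) (nat_lit 0) (XT.lf (nat_lit 0) (nat_lit 2034266718) (nat_lit 304) (nat_lit 4183852019) (nat_lit 76) (nat_lit 26590528047) (nat_lit 101) (nat_lit 5) (nat_lit 105) (nat_lit 5) (nat_lit 102) (nat_lit 5) (nat_lit 672) (nat_lit 561) (nat_lit 327)) (XT.lf (nat_lit 0) (nat_lit 10852810737) (nat_lit 380) (nat_lit 16605569183) (nat_lit 76) (nat_lit 5765232810) (nat_lit 97) (nat_lit 5) (nat_lit 102) (nat_lit 5) (nat_lit 98) (nat_lit 5) (nat_lit 673) (nat_lit 561) (nat_lit 326))))))) (XT.nd (nat_lit 73242) (nat_lit 0) (nat_lit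 30932) (XT.nd (nat_lit 72618) (nat_lit 0) (nat_lit 33744) (XT.nd (nat_lit 234) (nat_lit 228) (nat_lit 0) (XT.nd (nat_lit 78) (nat_lit 304) (nat_lit 0) (XT.lf (nat_lit 0) (nat_lit 4253001418) (nat_lit 228) (nat_lit 15687248865) (nat_lit 304) (nat_lit 13704777269) (nat_lit 94) (nat_lit 5) (nat_lit 97) (nat_lit 5) (nat_lit 98) (nat_lit 5) (nat_lit 674) (nat_lit 561) (nat_lit 325)) (XT.nd (nat_lit 78) (nat_lit 304) (nat_lit 0) (XT.lf (nat_lit 0) (nat_lit 25746101820) (nat_lit 228) (nat_lit 3570277482) (nat_lit 304) (nat_lit 4756352603) (nat_lit 94) (nat_lit 5) (nat_lit 97) (nat_lit 5) (nat_lit 98) (nat_lit 5) (nat_lit 675) (nat_lit 561) (nat_lit 324)) (XT.lf (nat_lit 0) (nat_lit 4453426602) (nat_lit 304) (nat_lit 21266123580) (nat_lit 76) (nat_lit 8786078356) (nat_lit 90) (nat_lit 5) (nat_lit 94) (nat_lit 5) (nat_lit 91) (nat_lit 5) (nat_lit 676) (nat_lit 561) (nat_lit 323)))) (XT.nd (nat_lit 72228) (nat_lit 0) (nat_lit 35340) (XT.nd (nat_lit 78) (nat_lit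 0) (nat_lit 0) (XT.lf (nat_lit 0) (nat_lit 345121138) (nat_lit 228) (nat_lit 13516367614) (nat_lit 304) (nat_lit 21083510108) (nat_lit 87) (nat_lit 5) (nat_lit 90) (nat_lit 5) (nat_lit 91) (nat_lit 5) (nat_lit 677) (nat_lit 561) (nat_lit 322)) (XT.lf (nat_lit 0) (nat_lit 22669250353) (nat_lit 228) (nat_lit 926790161) (nat_lit 304) (nat_lit 11794349554) (nat_lit 87) (nat_lit 5) (nat_lit 90) (nat_lit 5) (nat_lit 91) (nat_lit 5) (nat_lit 678) (nat_lit 561) (nat_lit 321))) (XT.nd (nat_lit 78) (nat_lit 0) (nat_lit 0) (XT.lf (nat_lit 0) (nat_lit 1492539739) (nat_lit 0) (nat_lit 1492539739) (nat_lit 1596) (nat_lit 1930598852) (nat_lit 552) (nat_lit 5) (nat_lit 552) (nat_lit 3) (nat_lit 573) (nat_lit 3) (nat_lit 562) (nat_lit 562) (nat_lit 436)) (XT.lf (nat_lit 0) (nat_lit 6775280986) (nat_lit 1596) (nat_lit 1952320582) (nat_lit 1672) (nat_lit 1187135925) (nat_lit 552) (nat_lit 5) (nat_lit 573) (nat_lit 3) (nat_lit 574) (nat_lit 5) (nat_lit 563) (nat_lit 562)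 (nat_lit 435))))) (XT.nd (nat_lit 312) (nat_lit 0) (nat_lit 76) (XT.nd (nat_lit 156) (nat_lit 1596) (nat_lit 0) (XT.nd (nat_lit 78) (nat_lit 0) (nat_lit 0) (XT.lf (nat_lit 76) (nat_lit 3049618410) (nat_lit 0) (nat_lit 4567170955) (nat_lit 1672) (nat_lit 2382591538) (nat_lit 553) (nat_lit 5) (nat_lit 552) (nat_lit 5) (nat_lit 574) (nat_lit 5) (nat_lit 564) (nat_lit 562) (nat_lit 434)) (XT.lf (nat_lit 76) (nat_lit 8168002713) (nat_lit 0) (nat_lit 301254158) (nat_lit 1672) (nat_lit 1616578356) (nat_lit 553) (nat_lit 5) (nat_lit 552) (nat_lit 5) (nat_lit 574) (nat_lit 5) (nat_lit 565) (nat_lit 562) (nat_lit 433))) (XT.nd (nat_lit 78) (nat_lit 1672) (nat_lit 0) (XT.lf (nat_lit 76) (nat_lit 3220387017) (nat_lit 0) (nat_lit 6147047368) (nat_lit 1672) (nat_lit 806011653) (nat_lit 554) (nat_lit 5) (nat_lit 553) (nat_lit 5) (nat_lit 575) (nat_lit 5) (nat_lit 566) (nat_lit 562) (nat_lit 432)) (XT.lf (nat_lit 0) (nat_lit 17076390) (nat_lit 1672) (nat_lit 1787865954)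 (nat_lit 1748) (nat_lit 8457932968) (nat_lit 531) (nat_lit 5) (nat_lit 553) (nat_lit 5) (nat_lit 554) (nat_lit 5) (nat_lit 567) (nat_lit 562) (nat_lit 431)))) (XT.nd (nat_lit 156) (nat_lit 0) (nat_lit 76) (XT.nd (nat_lit 78) (nat_lit 0) (nat_lit 0) (XT.lf (nat_lit 0) (nat_lit 867905990) (nat_lit 1672) (nat_lit 6860084606) (nat_lit 1748) (nat_lit 2625555151) (nat_lit 532) (nat_lit 5) (nat_lit 554) (nat_lit 5) (nat_lit 555) (nat_lit 5) (nat_lit 568) (nat_lit 562) (nat_lit 430)) (XT.lf (nat_lit 0) (nat_lit 1742110739) (nat_lit 1672) (nat_lit 1563770511) (nat_lit 1748) (nat_lit 7140021737) (nat_lit 532) (nat_lit 5) (nat_lit 554) (nat_lit 5) (nat_lit 555) (nat_lit 5) (nat_lit 569) (nat_lit 562) (nat_lit 429))) (XT.nd (nat_lit 78) (nat_lit 0) (nat_lit 0) (XT.lf (nat_lit 0) (nat_lit 2649692474) (nat_lit 1672) (nat_lit 6669031165) (nat_lit 1748) (nat_lit 1221066430) (nat_lit 533) (nat_lit 5) (nat_lit 555) (nat_lit 5) (nat_lit 556) (nat_lit 5) (nat_lit 570) (nat_lit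 562) (nat_lit 428)) (XT.lf (nat_lit 0) (nat_lit 3590873534) (nat_lit 1672) (nat_lit 1232838601) (nat_lit 1748) (nat_lit 5811534349) (nat_lit 533) (nat_lit 5) (nat_lit 555) (nat_lit 5) (nat_lit 556) (nat_lit 5) (nat_lit 571) (nat_lit 562) (nat_lit 427)))))) (XT.nd (nat_lit 624) (nat_lit 1520) (nat_lit 0) (XT.nd (nat_lit 312) (nat_lit 1444) (nat_lit 0) (XT.nd (nat_lit 156) (nat_lit 0) (nat_lit 76) (XT.nd (nat_lit 78) (nat_lit 0) (nat_lit 76) (XT.lf (nat_lit 76) (nat_lit 4358746434) (nat_lit 0) (nat_lit 203756378) (nat_lit 1748) (nat_lit 6169877257) (nat_lit 534) (nat_lit 5) (nat_lit 533) (nat_lit 5) (nat_lit 556) (nat_lit 5) (nat_lit 572) (nat_lit 562) (nat_lit 426)) (XT.lf (nat_lit 0) (nat_lit 5574788134) (nat_lit 1672) (nat_lit 792539627) (nat_lit 1748) (nat_lit 4463704619) (nat_lit 534) (nat_lit 5) (nat_lit 556) (nat_lit 5) (nat_lit 557) (nat_lit 5) (nat_lit 573) (nat_lit 562) (nat_lit 425))) (XT.nd (nat_lit 78) (nat_lit 0) (nat_lit 76) (XT.lf (nat_lit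 76) (nat_lit 4953204952) (nat_lit 0) (nat_lit 1671567063) (nat_lit 1748) (nat_lit 4306537178) (nat_lit 535) (nat_lit 5) (nat_lit 534) (nat_lit 5) (nat_lit 557) (nat_lit 5) (nat_lit 574) (nat_lit 562) (nat_lit 424)) (XT.lf (nat_lit 0) (nat_lit 7705578904) (nat_lit 1672) (nat_lit 240023260) (nat_lit 1748) (nat_lit 3087793415) (nat_lit 535) (nat_lit 5) (nat_lit 557) (nat_lit 5) (nat_lit 558) (nat_lit 5) (nat_lit 575) (nat_lit 562) (nat_lit 423)))) (XT.nd (nat_lit 156) (nat_lit 1596) (nat_lit 0) (XT.nd (nat_lit 78) (nat_lit 0) (nat_lit 76) (XT.lf (nat_lit 76) (nat_lit 5665399603) (nat_lit 0) (nat_lit 3174990072) (nat_lit 1748) (nat_lit 2296486757) (nat_lit 536) (nat_lit 5) (nat_lit 535) (nat_lit 5) (nat_lit 558) (nat_lit 5) (nat_lit 576) (nat_lit 562) (nat_lit 422)) (XT.lf (nat_lit 76) (nat_lit 433568461) (nat_lit 0) (nat_lit 9564542839) (nat_lit 1748) (nat_lit 1244311792) (nat_lit 537) (nat_lit 5) (nat_lit 536) (nat_lit 5) (nat_lit 559) (nat_lit 5) (nat_lit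 577) (nat_lit 562) (nat_lit 421))) (XT.nd (nat_lit 78) (nat_lit 1672) (nat_lit 0) (XT.lf (nat_lit 76) (nat_lit 6498730239) (nat_lit 0) (nat_lit 4722888300) (nat_lit 1748) (nat_lit 127609996) (nat_lit 537) (nat_lit 5) (nat_lit 536) (nat_lit 5) (nat_lit 559) (nat_lit 5) (nat_lit 578) (nat_lit 562) (nat_lit 420)) (XT.lf (nat_lit 0) (nat_lit 992863038) (nat_lit 1748) (nat_lit 10233993640) (nat_lit 1824) (nat_lit 231288484) (nat_lit 514) (nat_lit 5) (nat_lit 537) (nat_lit 5) (nat_lit 538) (nat_lit 5) (nat_lit 579) (nat_lit 562) (nat_lit 419))))) (XT.nd (nat_lit 312) (nat_lit 1520) (nat_lit 0) (XT.nd (nat_lit 156) (nat_lit 0) (nat_lit 76) (XT.nd (nat_lit 78) (nat_lit 0) (nat_lit 0) (XT.lf (nat_lit 0) (nat_lit 2183547880) (nat_lit 1748) (nat_lit 4125958138) (nat_lit 1824) (nat_lit 5258727458) (nat_lit 514) (nat_lit 5) (nat_lit 537) (nat_lit 5) (nat_lit 538) (nat_lit 5) (nat_lit 580) (nat_lit 562) (nat_lit 418)) (XT.lf (nat_lit 76) (nat_lit 2121200089) (nat_lit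 0) (nat_lit 1276370611) (nat_lit 1824) (nat_lit 8282962809) (nat_lit 515) (nat_lit 5) (nat_lit 514) (nat_lit 5) (nat_lit 538) (nat_lit 5) (nat_lit 581) (nat_lit 562) (nat_lit 417))) (XT.nd (nat_lit 78) (nat_lit 0) (nat_lit 0) (XT.lf (nat_lit 0) (nat_lit 4674772166) (nat_lit 1748) (nat_lit 3281612990) (nat_lit 1824) (nat_lit 3837916853) (nat_lit 515) (nat_lit 5) (nat_lit 538) (nat_lit 5) (nat_lit 539) (nat_lit 5) (nat_lit 582) (nat_lit 562) (nat_lit 416)) (XT.lf (nat_lit 76) (nat_lit 3143566139) (nat_lit 0) (nat_lit 2849071774) (nat_lit 1824) (nat_lit 5917405982) (nat_lit 516) (nat_lit 5) (nat_lit 515) (nat_lit 5) (nat_lit 539) (nat_lit 5) (nat_lit 583) (nat_lit 562) (nat_lit 415)))) (XT.nd (nat_lit 156) (nat_lit 1672) (nat_lit 0) (XT.nd (nat_lit 78) (nat_lit 0) (nat_lit 0) (XT.lf (nat_lit 0) (nat_lit 7360827874) (nat_lit 1748) (nat_lit 2312488182) (nat_lit 1824) (nat_lit 2354305637) (nat_lit 516) (nat_lit 5) (nat_lit 539) (nat_lit 5) (nat_lit 540) (nat_lit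 5) (nat_lit 584) (nat_lit 562) (nat_lit 414)) (XT.lf (nat_lit 76) (nat_lit 4297200214) (nat_lit 0) (nat_lit 4492689431) (nat_lit 1824) (nat_lit 3356991645) (nat_lit 517) (nat_lit 5) (nat_lit 516) (nat_lit 5) (nat_lit 540) (nat_lit 5) (nat_lit 585) (nat_lit 562) (nat_lit 413))) (XT.nd (nat_lit 78) (nat_lit 1748) (nat_lit 0) (XT.lf (nat_lit 0) (nat_lit 10255237041) (nat_lit 1748) (nat_lit 1214105512) (nat_lit 76) (nat_lit 799029838) (nat_lit 517) (nat_lit 5) (nat_lit 540) (nat_lit 5) (nat_lit 518) (nat_lit 5) (nat_lit 586) (nat_lit 562) (nat_lit 412)) (XT.lf (nat_lit 0) (nat_lit 5586841754) (nat_lit 1748) (nat_lit 6216276354) (nat_lit 1824) (nat_lit 588111058) (nat_lit 494) (nat_lit 5) (nat_lit 517) (nat_lit 5) (nat_lit 518) (nat_lit 5) (nat_lit 587) (nat_lit 562) (nat_lit 411))))))))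
noncomputable def xc143 : XT := (XT.nd (nat_lit 2418) (nat_lit 9500) (nat_lit 0) (XT.nd (nat_lit 1170) (nat_lit 7220) (nat_lit 0) (XT.nd (nat_lit 546) (nat_lit 3496) (nat_lit 0) (XT.nd (nat_lit 234) (nat_lit 1824) (nat_lit 0) (XT.nd (nat_lit 78) (nat_lit 1140) (nat_lit 0) (XT.lf (nat_lit 0) (nat_lit 7351902) (nat_lit 1824) (nat_lit 842258057) (nat_lit 1900) (nat_lit 11666910189) (nat_lit 469) (nat_lit 5) (nat_lit 493) (nat_lit 5) (nat_lit 494) (nat_lit 5) (nat_lit 588) (nat_lit 562) (nat_lit 410)) (XT.nd (nat_lit 78) (nat_lit 1140) (nat_lit 0) (XT.lf (nat_lit 0) (nat_lit 2371788754) (nat_lit 1900) (nat_lit 5641307145) (nat_lit 76) (nat_lit 4629872106) (nat_lit 469) (nat_lit 5) (nat_lit 494) (nat_lit 5) (nat_lit 470) (nat_lit 5) (nat_lit 589) (nat_lit 562) (nat_lit 409)) (XT.lf (nat_lit 0) (nat_lit 1365311691) (nat_lit 1140) (nat_lit 2561273540) (nat_lit 1216) (nat_lit 8845316465) (nat_lit 454) (nat_lit 5) (nat_lit 469) (nat_lit 5) (nat_lit 470) (nat_lit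 5) (nat_lit 590) (nat_lit 562) (nat_lit 408)))) (XT.nd (nat_lit 156) (nat_lit 912) (nat_lit 0) (XT.nd (nat_lit 78) (nat_lit 912) (nat_lit 0) (XT.lf (nat_lit 0) (nat_lit 5557969641) (nat_lit 1216) (nat_lit 4344957046) (nat_lit 76) (nat_lit 2999577886) (nat_lit 454) (nat_lit 5) (nat_lit 470) (nat_lit 5) (nat_lit 455) (nat_lit 5) (nat_lit 591) (nat_lit 562) (nat_lit 407)) (XT.lf (nat_lit 0) (nat_lit 2867667833) (nat_lit 912) (nat_lit 4378041710) (nat_lit 988) (nat_lit 5789535754) (nat_lit 442) (nat_lit 5) (nat_lit 454) (nat_lit 5) (nat_lit 455) (nat_lit 5) (nat_lit 592) (nat_lit 562) (nat_lit 406))) (XT.nd (nat_lit 78) (nat_lit 912) (nat_lit 0) (XT.lf (nat_lit 0) (nat_lit 8993032556) (nat_lit 988) (nat_lit 2906028871) (nat_lit 76) (nat_lit 1271063180) (nat_lit 442) (nat_lit 5) (nat_lit 455) (nat_lit 5) (nat_lit 443) (nat_lit 5) (nat_lit 593) (nat_lit 562) (nat_lit 405)) (XT.lf (nat_lit 0) (nat_lit 4520200243) (nat_lit 912) (nat_lit 6301987482) (nat_lit 988)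 (nat_lit 2484576398) (nat_lit 430) (nat_lit 5) (nat_lit 442) (nat_lit 5) (nat_lit 443) (nat_lit 5) (nat_lit 594) (nat_lit 562) (nat_lit 404))))) (XT.nd (nat_lit 312) (nat_lit 1672) (nat_lit 0) (XT.nd (nat_lit 156) (nat_lit 912) (nat_lit 0) (XT.nd (nat_lit 78) (nat_lit 912) (nat_lit 0) (XT.lf (nat_lit 0) (nat_lit 12123577206) (nat_lit 912) (nat_lit 572548388) (nat_lit 988) (nat_lit 749847166) (nat_lit 430) (nat_lit 5) (nat_lit 442) (nat_lit 5) (nat_lit 443) (nat_lit 5) (nat_lit 595) (nat_lit 562) (nat_lit 403)) (XT.lf (nat_lit 0) (nat_lit 1070871805) (nat_lit 912) (nat_lit 7264672260) (nat_lit 76) (nat_lit 5250996083) (nat_lit 418) (nat_lit 5) (nat_lit 430) (nat_lit 5) (nat_lit 419) (nat_lit 5) (nat_lit 596) (nat_lit 562) (nat_lit 402))) (XT.nd (nat_lit 78) (nat_lit 0) (nat_lit 0) (XT.lf (nat_lit 0) (nat_lit 392675832) (nat_lit 912) (nat_lit 2529570769) (nat_lit 988) (nat_lit 10807487820) (nat_lit 406) (nat_lit 5) (nat_lit 418) (nat_lit 5) (nat_lit 419)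 (nat_lit 5) (nat_lit 597) (nat_lit 562) (nat_lit 401)) (XT.lf (nat_lit 0) (nat_lit 4870892695) (nat_lit 988) (nat_lit 5606526373) (nat_lit 76) (nat_lit 3397168937) (nat_lit 406) (nat_lit 5) (nat_lit 419) (nat_lit 5) (nat_lit 407) (nat_lit 5) (nat_lit 598) (nat_lit 562) (nat_lit 400)))) (XT.nd (nat_lit 156) (nat_lit 836) (nat_lit 0) (XT.nd (nat_lit 78) (nat_lit 0) (nat_lit 0) (XT.lf (nat_lit 0) (nat_lit 2280990881) (nat_lit 836) (nat_lit 4598440184) (nat_lit 912) (nat_lit 7142489503) (nat_lit 395) (nat_lit 5) (nat_lit 406) (nat_lit 5) (nat_lit 407) (nat_lit 5) (nat_lit 599) (nat_lit 562) (nat_lit 399)) (XT.lf (nat_lit 0) (nat_lit 8964584834) (nat_lit 912) (nat_lit 3789444644) (nat_lit 76) (nat_lit 1417441700) (nat_lit 395) (nat_lit 5) (nat_lit 407) (nat_lit 5) (nat_lit 396) (nat_lit 5) (nat_lit 600) (nat_lit 562) (nat_lit 398))) (XT.nd (nat_lit 78) (nat_lit 0) (nat_lit 0) (XT.lf (nat_lit 0) (nat_lit 4336781711) (nat_lit 836) (nat_lit 6802971671) (nat_lit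 912) (nat_lit 3183293469) (nat_lit 384) (nat_lit 5) (nat_lit 395) (nat_lit 5) (nat_lit 396) (nat_lit 5) (nat_lit 601) (nat_lit 562) (nat_lit 397)) (XT.lf (nat_lit 0) (nat_lit 12666257180) (nat_lit 836) (nat_lit 707431324) (nat_lit 912) (nat_lit 1103660546) (nat_lit 384) (nat_lit 5) (nat_lit 395) (nat_lit 5) (nat_lit 396) (nat_lit 5) (nat_lit 602) (nat_lit 562) (nat_lit 396)))))) (XT.nd (nat_lit 624) (nat_lit 3344) (nat_lit 0) (XT.nd (nat_lit 312) (nat_lit 1520) (nat_lit 0) (XT.nd (nat_lit 156) (nat_lit 760) (nat_lit 0) (XT.nd (nat_lit 78) (nat_lit 760) (nat_lit 0) (XT.lf (nat_lit 0) (nat_lit 1073116873) (nat_lit 836) (nat_lit 8073117261) (nat_lit 76) (nat_lit 5486993345) (nat_lit 373) (nat_lit 5) (nat_lit 384) (nat_lit 5) (nat_lit 374) (nat_lit 5) (nat_lit 603) (nat_lit 562) (nat_lit 395)) (XT.lf (nat_lit 0) (nat_lit 312639383) (nat_lit 760) (nat_lit 2975066767) (nat_lit 836) (nat_lit 11504190596) (nat_lit 363) (nat_lit 5) (nat_lit 373) (nat_lit 5) (nat_lit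 374) (nat_lit 5) (nat_lit 604) (nat_lit 562) (nat_lit 394))) (XT.nd (nat_lit 78) (nat_lit 760) (nat_lit 0) (XT.lf (nat_lit 0) (nat_lit 5612885080) (nat_lit 836) (nat_lit 6009835196) (nat_lit 76) (nat_lit 3329693423) (nat_lit 363) (nat_lit 5) (nat_lit 374) (nat_lit 5) (nat_lit 364) (nat_lit 5) (nat_lit 605) (nat_lit 562) (nat_lit 393)) (XT.lf (nat_lit 0) (nat_lit 2633207626) (nat_lit 760) (nat_lit 5378562521) (nat_lit 836) (nat_lit 7103827044) (nat_lit 353) (nat_lit 5) (nat_lit 363) (nat_lit 5) (nat_lit 364) (nat_lit 5) (nat_lit 606) (nat_lit 562) (nat_lit 392)))) (XT.nd (nat_lit 156) (nat_lit 760) (nat_lit 0) (XT.nd (nat_lit 78) (nat_lit 760) (nat_lit 0) (XT.lf (nat_lit 0) (nat_lit 10496176550) (nat_lit 836) (nat_lit 3768073037) (nat_lit 76) (nat_lit 1017044140) (nat_lit 353) (nat_lit 5) (nat_lit 364) (nat_lit 5) (nat_lit 354) (nat_lit 5) (nat_lit 607) (nat_lit 562) (nat_lit 391)) (XT.lf (nat_lit 0) (nat_lit 5141842920) (nat_lit 760) (nat_lit 7948134536)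 (nat_lit 836) (nat_lit 2359132853) (nat_lit 343) (nat_lit 5) (nat_lit 353) (nat_lit 5) (nat_lit 354) (nat_lit 5) (nat_lit 608) (nat_lit 562) (nat_lit 390))) (XT.nd (nat_lit 78) (nat_lit 684) (nat_lit 0) (XT.lf (nat_lit 0) (nat_lit 130067263) (nat_lit 836) (nat_lit 1350217064) (nat_lit 76) (nat_lit 14139659960) (nat_lit 342) (nat_lit 5) (nat_lit 353) (nat_lit 5) (nat_lit 343) (nat_lit 5) (nat_lit 609) (nat_lit 562) (nat_lit 389)) (XT.lf (nat_lit 0) (nat_lit 2713137681) (nat_lit 760) (nat_lit 7963571825) (nat_lit 76) (nat_lit 5115660289) (nat_lit 333) (nat_lit 5) (nat_lit 343) (nat_lit 5) (nat_lit 334) (nat_lit 5) (nat_lit 610) (nat_lit 562) (nat_lit 388))))) (XT.nd (nat_lit 312) (nat_lit 1976) (nat_lit 0) (XT.nd (nat_lit 156) (nat_lit 684) (nat_lit 0) (XT.nd (nat_lit 78) (nat_lit 0) (nat_lit 0) (XT.lf (nat_lit 0) (nat_lit 1237547732) (nat_lit 684) (nat_lit 4128320202) (nat_lit 760) (nat_lit 10602016134) (nat_lit 324) (nat_lit 5) (nat_lit 333) (nat_lit 5)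 (nat_lit 334) (nat_lit 5) (nat_lit 611) (nat_lit 562) (nat_lit 387)) (XT.lf (nat_lit 0) (nat_lit 8133147374) (nat_lit 760) (nat_lit 5442670285) (nat_lit 76) (nat_lit 2569861294) (nat_lit 324) (nat_lit 5) (nat_lit 334) (nat_lit 5) (nat_lit 325) (nat_lit 5) (nat_lit 612) (nat_lit 562) (nat_lit 386))) (XT.nd (nat_lit 78) (nat_lit 0) (nat_lit 0) (XT.lf (nat_lit 0) (nat_lit 4046130319) (nat_lit 684) (nat_lit 6954563775) (nat_lit 760) (nat_lit 5325437424) (nat_lit 315) (nat_lit 5) (nat_lit 324) (nat_lit 5) (nat_lit 325) (nat_lit 5) (nat_lit 613) (nat_lit 562) (nat_lit 385)) (XT.lf (nat_lit 0) (nat_lit 13788207196) (nat_lit 684) (nat_lit 165323031) (nat_lit 760) (nat_lit 2556104346) (nat_lit 315) (nat_lit 5) (nat_lit 324) (nat_lit 5) (nat_lit 325) (nat_lit 5) (nat_lit 614) (nat_lit 562) (nat_lit 384)))) (XT.nd (nat_lit 156) (nat_lit 608) (nat_lit 0) (XT.nd (nat_lit 78) (nat_lit 608) (nat_lit 0) (XT.lf (nat_lit 0) (nat_lit 346975154) (nat_lit 760) (nat_lit 9630583727)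 (nat_lit 76) (nat_lit 6717576477) (nat_lit 305) (nat_lit 5) (nat_lit 315) (nat_lit 5) (nat_lit 306) (nat_lit 5) (nat_lit 615) (nat_lit 562) (nat_lit 383)) (XT.lf (nat_lit 0) (nat_lit 173007234) (nat_lit 608) (nat_lit 3113132793) (nat_lit 684) (nat_lit 13597623414) (nat_lit 297) (nat_lit 5) (nat_lit 305) (nat_lit 5) (nat_lit 306) (nat_lit 5) (nat_lit 616) (nat_lit 562) (nat_lit 382))) (XT.nd (nat_lit 78) (nat_lit 608) (nat_lit 0) (XT.lf (nat_lit 0) (nat_lit 6366092062) (nat_lit 684) (nat_lit 6807694596) (nat_lit 76) (nat_lit 3900737542) (nat_lit 297) (nat_lit 5) (nat_lit 306) (nat_lit 5) (nat_lit 298) (nat_lit 5) (nat_lit 617) (nat_lit 562) (nat_lit 381)) (XT.lf (nat_lit 0) (nat_lit 3306010683) (nat_lit 608) (nat_lit 6235579080) (nat_lit 684) (nat_lit 7726831672) (nat_lit 289) (nat_lit 5) (nat_lit 297) (nat_lit 5) (nat_lit 298) (nat_lit 5) (nat_lit 618) (nat_lit 562) (nat_lit 380))))))) (XT.nd (nat_lit 1248) (nat_lit 4408) (nat_lit 0) (XT.nd (nat_lit 624)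 (nat_lit 2584) (nat_lit 0) (XT.nd (nat_lit 312) (nat_lit 1216) (nat_lit 0) (XT.nd (nat_lit 156) (nat_lit 684) (nat_lit 0) (XT.nd (nat_lit 78) (nat_lit 608) (nat_lit 0) (XT.lf (nat_lit 0) (nat_lit 12823991744) (nat_lit 684) (nat_lit 3767018765) (nat_lit 76) (nat_lit 874318405) (nat_lit 289) (nat_lit 5) (nat_lit 298) (nat_lit 5) (nat_lit 290) (nat_lit 5) (nat_lit 619) (nat_lit 562) (nat_lit 379)) (XT.lf (nat_lit 0) (nat_lit 6668403382) (nat_lit 608) (nat_lit 9580332927) (nat_lit 684) (nat_lit 1415904525) (nat_lit 281) (nat_lit 5) (nat_lit 289) (nat_lit 5) (nat_lit 290) (nat_lit 5) (nat_lit 620) (nat_lit 562) (nat_lit 378))) (XT.nd (nat_lit 78) (nat_lit 608) (nat_lit 0) (XT.lf (nat_lit 0) (nat_lit 1867046352) (nat_lit 684) (nat_lit 526249734) (nat_lit 76) (nat_lit 15474047976) (nat_lit 280) (nat_lit 5) (nat_lit 289) (nat_lit 5) (nat_lit 281) (nat_lit 5) (nat_lit 621) (nat_lit 562) (nat_lit 377)) (XT.lf (nat_lit 0) (nat_lit 5288228073) (nat_lit 684) (nat_lit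 7836727447) (nat_lit 76) (nat_lit 4947128208) (nat_lit 272) (nat_lit 5) (nat_lit 281) (nat_lit 5) (nat_lit 273) (nat_lit 5) (nat_lit 622) (nat_lit 562) (nat_lit 376)))) (XT.nd (nat_lit 156) (nat_lit 684) (nat_lit 0) (XT.nd (nat_lit 78) (nat_lit 0) (nat_lit 0) (XT.lf (nat_lit 0) (nat_lit 2951360983) (nat_lit 532) (nat_lit 5857408039) (nat_lit 608) (nat_lit 9471530623) (nat_lit 265) (nat_lit 5) (nat_lit 272) (nat_lit 5) (nat_lit 273) (nat_lit 5) (nat_lit 623) (nat_lit 562) (nat_lit 375)) (XT.lf (nat_lit 0) (nat_lit 12455196074) (nat_lit 608) (nat_lit 4450659877) (nat_lit 76) (nat_lit 1585714590) (nat_lit 265) (nat_lit 5) (nat_lit 273) (nat_lit 5) (nat_lit 266) (nat_lit 5) (nat_lit 624) (nat_lit 562) (nat_lit 374))) (XT.nd (nat_lit 78) (nat_lit 76) (nat_lit 0) (XT.lf (nat_lit 0) (nat_lit 6684230838) (nat_lit 608) (nat_lit 9565097494) (nat_lit 684) (nat_lit 2456243152) (nat_lit 257) (nat_lit 5) (nat_lit 265) (nat_lit 5) (nat_lit 266) (nat_lit 5) (nat_lit 625)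 (nat_lit 562) (nat_lit 373)) (XT.lf (nat_lit 0) (nat_lit 1202496448) (nat_lit 684) (nat_lit 838926918) (nat_lit 76) (nat_lit 16881820303) (nat_lit 256) (nat_lit 5) (nat_lit 265) (nat_lit 5) (nat_lit 257) (nat_lit 5) (nat_lit 626) (nat_lit 562) (nat_lit 372))))) (XT.nd (nat_lit 312) (nat_lit 1064) (nat_lit 0) (XT.nd (nat_lit 156) (nat_lit 456) (nat_lit 0) (XT.nd (nat_lit 78) (nat_lit 532) (nat_lit 0) (XT.lf (nat_lit 0) (nat_lit 5000790441) (nat_lit 608) (nat_lit 8499536774) (nat_lit 76) (nat_lit 5642632146) (nat_lit 249) (nat_lit 5) (nat_lit 257) (nat_lit 5) (nat_lit 250) (nat_lit 5) (nat_lit 627) (nat_lit 562) (nat_lit 371)) (XT.lf (nat_lit 0) (nat_lit 3016102560) (nat_lit 532) (nat_lit 5890545540) (nat_lit 608) (nat_lit 10459789463) (nat_lit 242) (nat_lit 5) (nat_lit 249) (nat_lit 5) (nat_lit 250) (nat_lit 5) (nat_lit 628) (nat_lit 562) (nat_lit 370))) (XT.nd (nat_lit 78) (nat_lit 456) (nat_lit 0) (XT.lf (nat_lit 0) (nat_lit 12953077668) (nat_lit 608)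 (nat_lit 4738297743) (nat_lit 76) (nat_lit 1901760971) (nat_lit 242) (nat_lit 5) (nat_lit 250) (nat_lit 5) (nat_lit 243) (nat_lit 5) (nat_lit 629) (nat_lit 562) (nat_lit 369)) (XT.lf (nat_lit 0) (nat_lit 7151157788) (nat_lit 456) (nat_lit 10007747832) (nat_lit 532) (nat_lit 2663894304) (nat_lit 236) (nat_lit 5) (nat_lit 242) (nat_lit 5) (nat_lit 243) (nat_lit 5) (nat_lit 630) (nat_lit 562) (nat_lit 368)))) (XT.nd (nat_lit 156) (nat_lit 456) (nat_lit 0) (XT.nd (nat_lit 78) (nat_lit 532) (nat_lit 0) (XT.lf (nat_lit 0) (nat_lit 1398605258) (nat_lit 532) (nat_lit 732666709) (nat_lit 76) (nat_lit 17925102870) (nat_lit 235) (nat_lit 5) (nat_lit 242) (nat_lit 5) (nat_lit 236) (nat_lit 5) (nat_lit 631) (nat_lit 562) (nat_lit 367)) (XT.lf (nat_lit 0) (nat_lit 5613953270) (nat_lit 608) (nat_lit 8762079481) (nat_lit 76) (nat_lit 5916091108) (nat_lit 228) (nat_lit 5) (nat_lit 236) (nat_lit 5) (nat_lit 229) (nat_lit 5) (nat_lit 632) (nat_lit 562) (nat_lit 366))) (XT.nd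 (nat_lit 78) (nat_lit 0) (nat_lit 0) (XT.lf (nat_lit 0) (nat_lit 3538212139) (nat_lit 456) (nat_lit 6410681958) (nat_lit 532) (nat_lit 10582988180) (nat_lit 222) (nat_lit 5) (nat_lit 228) (nat_lit 5) (nat_lit 229) (nat_lit 5) (nat_lit 633) (nat_lit 562) (nat_lit 365)) (XT.lf (nat_lit 0) (nat_lit 14434152692) (nat_lit 532) (nat_lit 4593045869) (nat_lit 76) (nat_lit 1747965054) (nat_lit 222) (nat_lit 5) (nat_lit 229) (nat_lit 5) (nat_lit 223) (nat_lit 5) (nat_lit 634) (nat_lit 562) (nat_lit 364)))))) (XT.nd (nat_lit 624) (nat_lit 2052) (nat_lit 0) (XT.nd (nat_lit 312) (nat_lit 912) (nat_lit 0) (XT.nd (nat_lit 156) (nat_lit 912) (nat_lit 0) (XT.nd (nat_lit 78) (nat_lit 76) (nat_lit 0) (XT.lf (nat_lit 0) (nat_lit 8110139033) (nat_lit 456) (nat_lit 10987523109) (nat_lit 532) (nat_lit 1923877654) (nat_lit 216) (nat_lit 5) (nat_lit 222) (nat_lit 5) (nat_lit 223) (nat_lit 5) (nat_lit 635) (nat_lit 562) (nat_lit 363)) (XT.lf (nat_lit 0) (nat_lit 2572225658) (nat_lit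 532) (nat_lit 168933429) (nat_lit 76) (nat_lit 18530859596) (nat_lit 215) (nat_lit 5) (nat_lit 222) (nat_lit 5) (nat_lit 216) (nat_lit 5) (nat_lit 636) (nat_lit 562) (nat_lit 362))) (XT.nd (nat_lit 78) (nat_lit 456) (nat_lit 0) (XT.lf (nat_lit 0) (nat_lit 7247793622) (nat_lit 532) (nat_lit 8586505244) (nat_lit 76) (nat_lit 5690648000) (nat_lit 209) (nat_lit 5) (nat_lit 216) (nat_lit 5) (nat_lit 210) (nat_lit 5) (nat_lit 637) (nat_lit 562) (nat_lit 361)) (XT.lf (nat_lit 0) (nat_lit 4559731384) (nat_lit 456) (nat_lit 7499676940) (nat_lit 532) (nat_lit 9722674700) (nat_lit 203) (nat_lit 5) (nat_lit 209) (nat_lit 5) (nat_lit 210) (nat_lit 5) (nat_lit 638) (nat_lit 562) (nat_lit 360)))) (XT.nd (nat_lit 156) (nat_lit 532) (nat_lit 0) (XT.nd (nat_lit 78) (nat_lit 380) (nat_lit 0) (XT.lf (nat_lit 0) (nat_lit 17025442562) (nat_lit 532) (nat_lit 3974108351) (nat_lit 76) (nat_lit 1043647364) (nat_lit 203) (nat_lit 5) (nat_lit 210) (nat_lit 5) (nat_lit 204) (nat_lit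 5) (nat_lit 639) (nat_lit 562) (nat_lit 359)) (XT.lf (nat_lit 0) (nat_lit 9606304774) (nat_lit 380) (nat_lit 12590336209) (nat_lit 456) (nat_lit 110778096) (nat_lit 198) (nat_lit 5) (nat_lit 203) (nat_lit 5) (nat_lit 204) (nat_lit 5) (nat_lit 640) (nat_lit 562) (nat_lit 358))) (XT.nd (nat_lit 78) (nat_lit 0) (nat_lit 0) (XT.lf (nat_lit 0) (nat_lit 906602807) (nat_lit 456) (nat_lit 3950105561) (nat_lit 532) (nat_lit 17719049304) (nat_lit 191) (nat_lit 5) (nat_lit 197) (nat_lit 5) (nat_lit 198) (nat_lit 5) (nat_lit 641) (nat_lit 562) (nat_lit 357)) (XT.lf (nat_lit 0) (nat_lit 10033302589) (nat_lit 532) (nat_lit 7931170407) (nat_lit 76) (nat_lit 4882750676) (nat_lit 191) (nat_lit 5) (nat_lit 198) (nat_lit 5) (nat_lit 192) (nat_lit 5) (nat_lit 642) (nat_lit 562) (nat_lit 356))))) (XT.nd (nat_lit 312) (nat_lit 836) (nat_lit 0) (XT.nd (nat_lit 156) (nat_lit 836) (nat_lit 0) (XT.nd (nat_lit 78) (nat_lit 0) (nat_lit 0) (XT.lf (nat_lit 0) (nat_lit 6126766011) (nat_lit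 380) (nat_lit 9246592514) (nat_lit 456) (nat_lit 7749561976) (nat_lit 186) (nat_lit 5) (nat_lit 191) (nat_lit 5) (nat_lit 192) (nat_lit 5) (nat_lit 643) (nat_lit 562) (nat_lit 355)) (XT.lf (nat_lit 0) (nat_lit 20564427754) (nat_lit 380) (nat_lit 303061077) (nat_lit 456) (nat_lit 2535697073) (nat_lit 186) (nat_lit 5) (nat_lit 191) (nat_lit 5) (nat_lit 192) (nat_lit 5) (nat_lit 644) (nat_lit 562) (nat_lit 354))) (XT.nd (nat_lit 78) (nat_lit 380) (nat_lit 0) (XT.lf (nat_lit 0) (nat_lit 2874097849) (nat_lit 456) (nat_lit 12016456117) (nat_lit 76) (nat_lit 8795578540) (nat_lit 180) (nat_lit 5) (nat_lit 186) (nat_lit 5) (nat_lit 181) (nat_lit 5) (nat_lit 645) (nat_lit 562) (nat_lit 353)) (XT.lf (nat_lit 0) (nat_lit 2537877382) (nat_lit 380) (nat_lit 5852117976) (nat_lit 456) (nat_lit 15583770366) (nat_lit 175) (nat_lit 5) (nat_lit 180) (nat_lit 5) (nat_lit 181) (nat_lit 5) (nat_lit 646) (nat_lit 562) (nat_lit 352)))) (XT.nd (nat_lit 156) (nat_lit 456) (nat_lit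 0) (XT.nd (nat_lit 78) (nat_lit 380) (nat_lit 0) (XT.lf (nat_lit 0) (nat_lit 14113447801) (nat_lit 456) (nat_lit 6750671967) (nat_lit 76) (nat_lit 3401087194) (nat_lit 175) (nat_lit 5) (nat_lit 181) (nat_lit 5) (nat_lit 176) (nat_lit 5) (nat_lit 647) (nat_lit 562) (nat_lit 351)) (XT.lf (nat_lit 0) (nat_lit 8289464241) (nat_lit 380) (nat_lit 11748799989) (nat_lit 456) (nat_lit 4522474989) (nat_lit 170) (nat_lit 5) (nat_lit 175) (nat_lit 5) (nat_lit 176) (nat_lit 5) (nat_lit 648) (nat_lit 562) (nat_lit 350))) (XT.nd (nat_lit 78) (nat_lit 380) (nat_lit 0) (XT.lf (nat_lit 0) (nat_lit 1243338973) (nat_lit 456) (nat_lit 1156347304) (nat_lit 76) (nat_lit 22461538859) (nat_lit 169) (nat_lit 5) (nat_lit 175) (nat_lit 5) (nat_lit 170) (nat_lit 5) (nat_lit 649) (nat_lit 562) (nat_lit 349)) (XT.lf (nat_lit 0) (nat_lit 7199117635) (nat_lit 456) (nat_lit 10801150528) (nat_lit 76) (nat_lit 7164150737) (nat_lit 164) (nat_lit 5) (nat_lit 170) (nat_lit 5) (nat_lit 165)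 (nat_lit 5) (nat_lit 650) (nat_lit 562) (nat_lit 348))))))))
noncomputable def xc144 : XT := (XT.nd (nat_lit 74568) (nat_lit 0) (nat_lit 25992) (XT.nd (nat_lit 1170) (nat_lit 2660) (nat_lit 0) (XT.nd (nat_lit 546) (nat_lit 1748) (nat_lit 0) (XT.nd (nat_lit 234) (nat_lit 684) (nat_lit 0) (XT.nd (nat_lit 78) (nat_lit 380) (nat_lit 0) (XT.lf (nat_lit 0) (nat_lit 4773464750) (nat_lit 380) (nat_lit 8549723591) (nat_lit 456) (nat_lit 12149504755) (nat_lit 159) (nat_lit 5) (nat_lit 164) (nat_lit 5) (nat_lit 165) (nat_lit 5) (nat_lit 651) (nat_lit 562) (nat_lit 347)) (XT.nd (nat_lit 78) (nat_lit 380) (nat_lit 0) (XT.lf (nat_lit 0) (nat_lit 19644291142) (nat_lit 456) (nat_lit 4995913166) (nat_lit 76) (nat_lit 1145437540) (nat_lit 159) (nat_lit 5) (nat_lit 165) (nat_lit 5) (nat_lit 160) (nat_lit 5) (nat_lit 652) (nat_lit 562) (nat_lit 346)) (XT.lf (nat_lit 0) (nat_lit 111276912) (nat_lit 380) (nat_lit 15001152503) (nat_lit 76) (nat_lit 10989939142) (nat_lit 154)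 (nat_lit 5) (nat_lit 159) (nat_lit 5) (nat_lit 155) (nat_lit 5) (nat_lit 653) (nat_lit 562) (nat_lit 345)))) (XT.nd (nat_lit 156) (nat_lit 304) (nat_lit 0) (XT.nd (nat_lit 78) (nat_lit 0) (nat_lit 0) (XT.lf (nat_lit 0) (nat_lit 1128654165) (nat_lit 380) (nat_lit 5313858586) (nat_lit 456) (nat_lit 19981389476) (nat_lit 149) (nat_lit 5) (nat_lit 154) (nat_lit 5) (nat_lit 155) (nat_lit 5) (nat_lit 654) (nat_lit 562) (nat_lit 344)) (XT.lf (nat_lit 0) (nat_lit 13026761944) (nat_lit 456) (nat_lit 9005043121) (nat_lit 76) (nat_lit 4717533810) (nat_lit 149) (nat_lit 5) (nat_lit 155) (nat_lit 5) (nat_lit 150) (nat_lit 5) (nat_lit 655) (nat_lit 562) (nat_lit 343))) (XT.nd (nat_lit 78) (nat_lit 0) (nat_lit 0) (XT.lf (nat_lit 0) (nat_lit 7667974372) (nat_lit 304) (nat_lit 12154469269) (nat_lit 380) (nat_lit 7257245742) (nat_lit 145) (nat_lit 5) (nat_lit 149) (nat_lit 5) (nat_lit 150) (nat_lit 5) (nat_lit 656) (nat_lit 562) (nat_lit 342)) (XT.lf (nat_lit 0) (nat_lit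 24788205701) (nat_lit 304) (nat_lit 2021081244) (nat_lit 380) (nat_lit 606255072) (nat_lit 145) (nat_lit 5) (nat_lit 149) (nat_lit 5) (nat_lit 150) (nat_lit 5) (nat_lit 657) (nat_lit 562) (nat_lit 341))))) (XT.nd (nat_lit 312) (nat_lit 684) (nat_lit 0) (XT.nd (nat_lit 156) (nat_lit 304) (nat_lit 0) (XT.nd (nat_lit 78) (nat_lit 304) (nat_lit 0) (XT.lf (nat_lit 0) (nat_lit 6241510400) (nat_lit 456) (nat_lit 13174011286) (nat_lit 76) (nat_lit 8338892340) (nat_lit 139) (nat_lit 5) (nat_lit 145) (nat_lit 5) (nat_lit 140) (nat_lit 5) (nat_lit 658) (nat_lit 562) (nat_lit 340)) (XT.lf (nat_lit 0) (nat_lit 4096161019) (nat_lit 304) (nat_lit 9174601604) (nat_lit 380) (nat_lit 14828167793) (nat_lit 135) (nat_lit 5) (nat_lit 139) (nat_lit 5) (nat_lit 140) (nat_lit 5) (nat_lit 659) (nat_lit 562) (nat_lit 339))) (XT.nd (nat_lit 78) (nat_lit 304) (nat_lit 0) (XT.lf (nat_lit 0) (nat_lit 20532783449) (nat_lit 380) (nat_lit 6575364241) (nat_lit 76) (nat_lit 1340345842)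 (nat_lit 135) (nat_lit 5) (nat_lit 140) (nat_lit 5) (nat_lit 136) (nat_lit 5) (nat_lit 660) (nat_lit 562) (nat_lit 338)) (XT.lf (nat_lit 0) (nat_lit 11279656322) (nat_lit 304) (nat_lit 16789422018) (nat_lit 380) (nat_lit 733388965) (nat_lit 131) (nat_lit 5) (nat_lit 135) (nat_lit 5) (nat_lit 136) (nat_lit 5) (nat_lit 661) (nat_lit 562) (nat_lit 337)))) (XT.nd (nat_lit 156) (nat_lit 304) (nat_lit 0) (XT.nd (nat_lit 78) (nat_lit 0) (nat_lit 0) (XT.lf (nat_lit 0) (nat_lit 371931418) (nat_lit 304) (nat_lit 6176067529) (nat_lit 380) (nat_lit 22613827940) (nat_lit 126) (nat_lit 5) (nat_lit 130) (nat_lit 5) (nat_lit 131) (nat_lit 5) (nat_lit 662) (nat_lit 562) (nat_lit 336)) (XT.lf (nat_lit 0) (nat_lit 14108833844) (nat_lit 380) (nat_lit 10707895627) (nat_lit 76) (nat_lit 4708674513) (nat_lit 126) (nat_lit 5) (nat_lit 131) (nat_lit 5) (nat_lit 127) (nat_lit 5) (nat_lit 663) (nat_lit 562) (nat_lit 335))) (XT.nd (nat_lit 78) (nat_lit 0) (nat_lit 0) (XT.lf (nat_lit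 0) (nat_lit 7789012001) (nat_lit 304) (nat_lit 14118518654) (nat_lit 380) (nat_lit 7986989127) (nat_lit 122) (nat_lit 5) (nat_lit 126) (nat_lit 5) (nat_lit 127) (nat_lit 5) (nat_lit 664) (nat_lit 562) (nat_lit 334)) (XT.lf (nat_lit 0) (nat_lit 26793073268) (nat_lit 304) (nat_lit 3136199573) (nat_lit 380) (nat_lit 340403687) (nat_lit 122) (nat_lit 5) (nat_lit 126) (nat_lit 5) (nat_lit 127) (nat_lit 5) (nat_lit 665) (nat_lit 562) (nat_lit 333)))))) (XT.nd (nat_lit 624) (nat_lit 1064) (nat_lit 0) (XT.nd (nat_lit 312) (nat_lit 608) (nat_lit 0) (XT.nd (nat_lit 156) (nat_lit 304) (nat_lit 0) (XT.nd (nat_lit 78) (nat_lit 304) (nat_lit 0) (XT.lf (nat_lit 0) (nat_lit 7511674256) (nat_lit 380) (nat_lit 15028590300) (nat_lit 76) (nat_lit 8108095555) (nat_lit 117) (nat_lit 5) (nat_lit 122) (nat_lit 5) (nat_lit 118) (nat_lit 5) (nat_lit 666) (nat_lit 562) (nat_lit 332)) (XT.lf (nat_lit 0) (nat_lit 4134226611) (nat_lit 304) (nat_lit 11448409750) (nat_lit 380) (nat_lit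 15450608048) (nat_lit 113) (nat_lit 5) (nat_lit 117) (nat_lit 5) (nat_lit 118) (nat_lit 5) (nat_lit 667) (nat_lit 562) (nat_lit 331))) (XT.nd (nat_lit 78) (nat_lit 304) (nat_lit 0) (XT.lf (nat_lit 0) (nat_lit 23876206083) (nat_lit 304) (nat_lit 35003151) (nat_lit 380) (nat_lit 7512693388) (nat_lit 113) (nat_lit 5) (nat_lit 117) (nat_lit 5) (nat_lit 118) (nat_lit 5) (nat_lit 668) (nat_lit 562) (nat_lit 330)) (XT.lf (nat_lit 0) (nat_lit 727743000) (nat_lit 304) (nat_lit 19555685679) (nat_lit 76) (nat_lit 11535841092) (nat_lit 109) (nat_lit 5) (nat_lit 113) (nat_lit 5) (nat_lit 110) (nat_lit 5) (nat_lit 669) (nat_lit 562) (nat_lit 329)))) (XT.nd (nat_lit 156) (nat_lit 304) (nat_lit 0) (XT.nd (nat_lit 78) (nat_lit 0) (nat_lit 0) (XT.lf (nat_lit 0) (nat_lit 297715998) (nat_lit 304) (nat_lit 8783343379) (nat_lit 380) (nat_lit 23139518439) (nat_lit 105) (nat_lit 5) (nat_lit 109) (nat_lit 5) (nat_lit 110) (nat_lit 5) (nat_lit 670) (nat_lit 562) (nat_lit 328))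 (XT.lf (nat_lit 0) (nat_lit 17748114657) (nat_lit 380) (nat_lit 11841778474) (nat_lit 76) (nat_lit 3037085490) (nat_lit 105) (nat_lit 5) (nat_lit 110) (nat_lit 5) (nat_lit 106) (nat_lit 5) (nat_lit 671) (nat_lit 562) (nat_lit 327))) (XT.nd (nat_lit 78) (nat_lit 76) (nat_lit 0) (XT.lf (nat_lit 0) (nat_lit 8689112155) (nat_lit 228) (nat_lit 18009513922) (nat_lit 304) (nat_lit 6340679119) (nat_lit 102) (nat_lit 5) (nat_lit 105) (nat_lit 5) (nat_lit 106) (nat_lit 5) (nat_lit 672) (nat_lit 562) (nat_lit 326)) (XT.lf (nat_lit 0) (nat_lit 2412740853) (nat_lit 304) (nat_lit 3690667702) (nat_lit 76) (nat_lit 27354651632) (nat_lit 101) (nat_lit 5) (nat_lit 105) (nat_lit 5) (nat_lit 102) (nat_lit 5) (nat_lit 673) (nat_lit 562) (nat_lit 325))))) (XT.nd (nat_lit 312) (nat_lit 228) (nat_lit 0) (XT.nd (nat_lit 156) (nat_lit 304) (nat_lit 0) (XT.nd (nat_lit 78) (nat_lit 228) (nat_lit 0) (XT.lf (nat_lit 0) (nat_lit 11406299590) (nat_lit 380) (nat_lit 16359459366) (nat_lit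 76) (nat_lit 6115593693) (nat_lit 97) (nat_lit 5) (nat_lit 102) (nat_lit 5) (nat_lit 98) (nat_lit 5) (nat_lit 674) (nat_lit 562) (nat_lit 324)) (XT.lf (nat_lit 0) (nat_lit 4912478561) (nat_lit 228) (nat_lit 15760142145) (nat_lit 304) (nat_lit 13638632478) (nat_lit 94) (nat_lit 5) (nat_lit 97) (nat_lit 5) (nat_lit 98) (nat_lit 5) (nat_lit 675) (nat_lit 562) (nat_lit 323))) (XT.nd (nat_lit 78) (nat_lit 304) (nat_lit 0) (XT.lf (nat_lit 0) (nat_lit 26824177890) (nat_lit 228) (nat_lit 3405553917) (nat_lit 304) (nat_lit 4517910697) (nat_lit 94) (nat_lit 5) (nat_lit 97) (nat_lit 5) (nat_lit 98) (nat_lit 5) (nat_lit 676) (nat_lit 562) (nat_lit 322)) (XT.lf (nat_lit 0) (nat_lit 4870436391) (nat_lit 304) (nat_lit 21122657444) (nat_lit 76) (nat_lit 9196085045) (nat_lit 90) (nat_lit 5) (nat_lit 94) (nat_lit 5) (nat_lit 91) (nat_lit 5) (nat_lit 677) (nat_lit 562) (nat_lit 321)))) (XT.nd (nat_lit 72306) (nat_lit 0) (nat_lit 35340) (XT.nd (nat_lit 72228) (nat_lit 0)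 (nat_lit 35340) (XT.lf (nat_lit 0) (nat_lit 917070138) (nat_lit 228) (nat_lit 13546828083) (nat_lit 304) (nat_lit 21173493687) (nat_lit 87) (nat_lit 5) (nat_lit 90) (nat_lit 5) (nat_lit 91) (nat_lit 5) (nat_lit 678) (nat_lit 562) (nat_lit 320)) (XT.lf (nat_lit 0) (nat_lit 1888801173) (nat_lit 0) (nat_lit 1888801173) (nat_lit 1596) (nat_lit 1221708956) (nat_lit 552) (nat_lit 5) (nat_lit 552) (nat_lit 3) (nat_lit 573) (nat_lit 3) (nat_lit 563) (nat_lit 563) (nat_lit 434))) (XT.nd (nat_lit 78) (nat_lit 0) (nat_lit 0) (XT.lf (nat_lit 0) (nat_lit 8343026408) (nat_lit 1596) (nat_lit 1239464615) (nat_lit 1672) (nat_lit 501849038) (nat_lit 552) (nat_lit 5) (nat_lit 573) (nat_lit 3) (nat_lit 574) (nat_lit 5) (nat_lit 564) (nat_lit 563) (nat_lit 433)) (XT.lf (nat_lit 76) (nat_lit 3857566430) (nat_lit 0) (nat_lit 5320565123) (nat_lit 1672) (nat_lit 993010384) (nat_lit 553) (nat_lit 5) (nat_lit 552) (nat_lit 5) (nat_lit 574) (nat_lit 5) (nat_lit 565) (nat_lit 563)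 (nat_lit 432))))))) (XT.nd (nat_lit 1170) (nat_lit 6384) (nat_lit 0) (XT.nd (nat_lit 546) (nat_lit 1368) (nat_lit 0) (XT.nd (nat_lit 234) (nat_lit 0) (nat_lit 76) (XT.nd (nat_lit 78) (nat_lit 1596) (nat_lit 0) (XT.lf (nat_lit 76) (nat_lit 9063672231) (nat_lit 0) (nat_lit 956348602) (nat_lit 1672) (nat_lit 239857977) (nat_lit 553) (nat_lit 5) (nat_lit 552) (nat_lit 5) (nat_lit 574) (nat_lit 5) (nat_lit 566) (nat_lit 563) (nat_lit 431)) (XT.nd (nat_lit 78) (nat_lit 0) (nat_lit 0) (XT.lf (nat_lit 0) (nat_lit 552759133) (nat_lit 1672) (nat_lit 6309441152) (nat_lit 1748) (nat_lit 3487495482) (nat_lit 531) (nat_lit 5) (nat_lit 553) (nat_lit 5) (nat_lit 554) (nat_lit 5) (nat_lit 567) (nat_lit 563) (nat_lit 430)) (XT.lf (nat_lit 0) (nat_lit 1354779302) (nat_lit 1672) (nat_lit 1061524033) (nat_lit 1748) (nat_lit 8025039337) (nat_lit 531) (nat_lit 5) (nat_lit 553) (nat_lit 5) (nat_lit 554) (nat_lit 5) (nat_lit 568) (nat_lit 563) (nat_lit 429)))) (XT.nd (nat_lit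 156) (nat_lit 0) (nat_lit 76) (XT.nd (nat_lit 78) (nat_lit 0) (nat_lit 0) (XT.lf (nat_lit 0) (nat_lit 2197689027) (nat_lit 1672) (nat_lit 6210208515) (nat_lit 1748) (nat_lit 2126428545) (nat_lit 532) (nat_lit 5) (nat_lit 554) (nat_lit 5) (nat_lit 555) (nat_lit 5) (nat_lit 569) (nat_lit 563) (nat_lit 428)) (XT.lf (nat_lit 0) (nat_lit 3063644049) (nat_lit 1672) (nat_lit 823401036) (nat_lit 1748) (nat_lit 6742000889) (nat_lit 532) (nat_lit 5) (nat_lit 554) (nat_lit 5) (nat_lit 555) (nat_lit 5) (nat_lit 570) (nat_lit 563) (nat_lit 427))) (XT.nd (nat_lit 78) (nat_lit 0) (nat_lit 0) (XT.lf (nat_lit 0) (nat_lit 3965879760) (nat_lit 1672) (nat_lit 6007228801) (nat_lit 1748) (nat_lit 752172999) (nat_lit 533) (nat_lit 5) (nat_lit 555) (nat_lit 5) (nat_lit 556) (nat_lit 5) (nat_lit 571) (nat_lit 563) (nat_lit 426)) (XT.lf (nat_lit 0) (nat_lit 4901115943) (nat_lit 1672) (nat_lit 477904209) (nat_lit 1748) (nat_lit 5444123114) (nat_lit 533) (nat_lit 5) (nat_lit 555)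 (nat_lit 5) (nat_lit 556) (nat_lit 5) (nat_lit 572) (nat_lit 563) (nat_lit 425))))) (XT.nd (nat_lit 312) (nat_lit 1520) (nat_lit 0) (XT.nd (nat_lit 156) (nat_lit 0) (nat_lit 76) (XT.nd (nat_lit 78) (nat_lit 0) (nat_lit 76) (XT.lf (nat_lit 76) (nat_lit 5220383638) (nat_lit 0) (nat_lit 652539649) (nat_lit 1748) (nat_lit 5049682103) (nat_lit 534) (nat_lit 5) (nat_lit 533) (nat_lit 5) (nat_lit 556) (nat_lit 5) (nat_lit 573) (nat_lit 563) (nat_lit 424)) (XT.lf (nat_lit 0) (nat_lit 6878718287) (nat_lit 1672) (nat_lit 22339541) (nat_lit 1748) (nat_lit 4122708401) (nat_lit 534) (nat_lit 5) (nat_lit 556) (nat_lit 5) (nat_lit 557) (nat_lit 5) (nat_lit 574) (nat_lit 563) (nat_lit 423))) (XT.nd (nat_lit 78) (nat_lit 0) (nat_lit 76) (XT.lf (nat_lit 76) (nat_lit 5833148543) (nat_lit 0) (nat_lit 2098242225) (nat_lit 1748) (nat_lit 3195024781) (nat_lit 535) (nat_lit 5) (nat_lit 534) (nat_lit 5) (nat_lit 557) (nat_lit 5) (nat_lit 575) (nat_lit 563) (nat_lit 422)) (XT.lf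 (nat_lit 76) (nat_lit 553566317) (nat_lit 0) (nat_lit 8458316434) (nat_lit 1748) (nat_lit 2219100265) (nat_lit 536) (nat_lit 5) (nat_lit 535) (nat_lit 5) (nat_lit 558) (nat_lit 5) (nat_lit 576) (nat_lit 563) (nat_lit 421)))) (XT.nd (nat_lit 156) (nat_lit 1672) (nat_lit 0) (XT.nd (nat_lit 78) (nat_lit 0) (nat_lit 76) (XT.lf (nat_lit 76) (nat_lit 6564632714) (nat_lit 0) (nat_lit 3583744118) (nat_lit 1748) (nat_lit 1188577629) (nat_lit 536) (nat_lit 5) (nat_lit 535) (nat_lit 5) (nat_lit 558) (nat_lit 5) (nat_lit 577) (nat_lit 563) (nat_lit 420)) (XT.lf (nat_lit 76) (nat_lit 1247731685) (nat_lit 0) (nat_lit 10062373338) (nat_lit 1748) (nat_lit 134890692) (nat_lit 537) (nat_lit 5) (nat_lit 536) (nat_lit 5) (nat_lit 559) (nat_lit 5) (nat_lit 578) (nat_lit 563) (nat_lit 419))) (XT.nd (nat_lit 78) (nat_lit 0) (nat_lit 0) (XT.lf (nat_lit 0) (nat_lit 969025972) (nat_lit 1748) (nat_lit 4142346480) (nat_lit 1824) (nat_lit 6442874093) (nat_lit 513) (nat_lit 5) (nat_lit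 536) (nat_lit 5) (nat_lit 537) (nat_lit 5) (nat_lit 579) (nat_lit 563) (nat_lit 418)) (XT.lf (nat_lit 76) (nat_lit 2049242788) (nat_lit 0) (nat_lit 43075076) (nat_lit 1824) (nat_lit 9573365072) (nat_lit 514) (nat_lit 5) (nat_lit 513) (nat_lit 5) (nat_lit 537) (nat_lit 5) (nat_lit 580) (nat_lit 563) (nat_lit 417)))))) (XT.nd (nat_lit 624) (nat_lit 4864) (nat_lit 0) (XT.nd (nat_lit 312) (nat_lit 1596) (nat_lit 0) (XT.nd (nat_lit 156) (nat_lit 0) (nat_lit 76) (XT.nd (nat_lit 78) (nat_lit 0) (nat_lit 0) (XT.lf (nat_lit 0) (nat_lit 3285373635) (nat_lit 1748) (nat_lit 3402091972) (nat_lit 1824) (nat_lit 5090936915) (nat_lit 514) (nat_lit 5) (nat_lit 537) (nat_lit 5) (nat_lit 538) (nat_lit 5) (nat_lit 581) (nat_lit 563) (nat_lit 416)) (XT.lf (nat_lit 76) (nat_lit 2964704253) (nat_lit 0) (nat_lit 1543425670) (nat_lit 1824) (nat_lit 7385130212) (nat_lit 515) (nat_lit 5) (nat_lit 514) (nat_lit 5) (nat_lit 538) (nat_lit 5) (nat_lit 582) (nat_lit 563) (nat_lit 415)))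 (XT.nd (nat_lit 78) (nat_lit 0) (nat_lit 0) (XT.lf (nat_lit 0) (nat_lit 5788894718) (nat_lit 1748) (nat_lit 2539860579) (nat_lit 1824) (nat_lit 3680988947) (nat_lit 515) (nat_lit 5) (nat_lit 538) (nat_lit 5) (nat_lit 539) (nat_lit 5) (nat_lit 583) (nat_lit 563) (nat_lit 414)) (XT.lf (nat_lit 76) (nat_lit 4008510391) (nat_lit 0) (nat_lit 3109802681) (nat_lit 1824) (nat_lit 5009784602) (nat_lit 516) (nat_lit 5) (nat_lit 515) (nat_lit 5) (nat_lit 539) (nat_lit 5) (nat_lit 584) (nat_lit 563) (nat_lit 413)))) (XT.nd (nat_lit 156) (nat_lit 1748) (nat_lit 0) (XT.nd (nat_lit 78) (nat_lit 0) (nat_lit 0) (XT.lf (nat_lit 0) (nat_lit 8492847887) (nat_lit 1748) (nat_lit 1551342940) (nat_lit 1824) (nat_lit 2204257181) (nat_lit 516) (nat_lit 5) (nat_lit 539) (nat_lit 5) (nat_lit 540) (nat_lit 5) (nat_lit 585) (nat_lit 563) (nat_lit 412)) (XT.lf (nat_lit 76) (nat_lit 5185227414) (nat_lit 0) (nat_lit 4751161265) (nat_lit 1824) (nat_lit 2433986753) (nat_lit 517) (nat_lit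 5) (nat_lit 516) (nat_lit 5) (nat_lit 540) (nat_lit 5) (nat_lit 586) (nat_lit 563) (nat_lit 411))) (XT.nd (nat_lit 78) (nat_lit 1824) (nat_lit 0) (XT.lf (nat_lit 0) (nat_lit 11410936350) (nat_lit 1748) (nat_lit 431895993) (nat_lit 76) (nat_lit 651866720) (nat_lit 517) (nat_lit 5) (nat_lit 540) (nat_lit 5) (nat_lit 518) (nat_lit 5) (nat_lit 587) (nat_lit 563) (nat_lit 410)) (XT.lf (nat_lit 0) (nat_lit 351385740) (nat_lit 1824) (nat_lit 6122829684) (nat_lit 76) (nat_lit 6146020628) (nat_lit 493) (nat_lit 5) (nat_lit 517) (nat_lit 5) (nat_lit 494) (nat_lit 5) (nat_lit 588) (nat_lit 563) (nat_lit 409))))) (XT.nd (nat_lit 312) (nat_lit 1900) (nat_lit 0) (XT.nd (nat_lit 156) (nat_lit 1140) (nat_lit 0) (XT.nd (nat_lit 78) (nat_lit 0) (nat_lit 0) (XT.lf (nat_lit 0) (nat_lit 815896018) (nat_lit 1824) (nat_lit 980848490) (nat_lit 1900) (nat_lit 10951475979) (nat_lit 469) (nat_lit 5) (nat_lit 493) (nat_lit 5) (nat_lit 494) (nat_lit 5) (nat_lit 589) (nat_lit 563)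 (nat_lit 408)) (XT.lf (nat_lit 0) (nat_lit 3330353842) (nat_lit 1900) (nat_lit 4942547412) (nat_lit 76) (nat_lit 4604676841) (nat_lit 469) (nat_lit 5) (nat_lit 494) (nat_lit 5) (nat_lit 470) (nat_lit 5) (nat_lit 590) (nat_lit 563) (nat_lit 407))) (XT.nd (nat_lit 78) (nat_lit 0) (nat_lit 0) (XT.lf (nat_lit 0) (nat_lit 2198864420) (nat_lit 1140) (nat_lit 2704751234) (nat_lit 1216) (nat_lit 8105727941) (nat_lit 454) (nat_lit 5) (nat_lit 469) (nat_lit 5) (nat_lit 470) (nat_lit 5) (nat_lit 591) (nat_lit 563) (nat_lit 406)) (XT.lf (nat_lit 0) (nat_lit 6549422913) (nat_lit 1216) (nat_lit 3623187959) (nat_lit 76) (nat_lit 2970312267) (nat_lit 454) (nat_lit 5) (nat_lit 470) (nat_lit 5) (nat_lit 455) (nat_lit 5) (nat_lit 592) (nat_lit 563) (nat_lit 405)))) (XT.nd (nat_lit 156) (nat_lit 988) (nat_lit 0) (XT.nd (nat_lit 78) (nat_lit 0) (nat_lit 0) (XT.lf (nat_lit 0) (nat_lit 3728369231) (nat_lit 912) (nat_lit 4530503585) (nat_lit 988) (nat_lit 5019687261) (nat_lit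 442) (nat_lit 5) (nat_lit 454) (nat_lit 5) (nat_lit 455) (nat_lit 5) (nat_lit 593) (nat_lit 563) (nat_lit 404)) (XT.lf (nat_lit 0) (nat_lit 10023704680) (nat_lit 988) (nat_lit 2159091068) (nat_lit 76) (nat_lit 1233690470) (nat_lit 442) (nat_lit 5) (nat_lit 455) (nat_lit 5) (nat_lit 443) (nat_lit 5) (nat_lit 594) (nat_lit 563) (nat_lit 403))) (XT.nd (nat_lit 78) (nat_lit 76) (nat_lit 0) (XT.lf (nat_lit 0) (nat_lit 5410366191) (nat_lit 912) (nat_lit 6467586768) (nat_lit 988) (nat_lit 1678135848) (nat_lit 430) (nat_lit 5) (nat_lit 442) (nat_lit 5) (nat_lit 443) (nat_lit 5) (nat_lit 595) (nat_lit 563) (nat_lit 402)) (XT.lf (nat_lit 0) (nat_lit 73523968) (nat_lit 988) (nat_lit 548765862) (nat_lit 76) (nat_lit 13076111734) (nat_lit 429) (nat_lit 5) (nat_lit 442) (nat_lit 5) (nat_lit 430) (nat_lit 5) (nat_lit 596) (nat_lit 563) (nat_lit 401))))))))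
noncomputable def xc145 : XT := (XT.nd (nat_lit 2418) (nat_lit 8436) (nat_lit 0) (XT.nd (nat_lit 1170) (nat_lit 5852) (nat_lit 0) (XT.nd (nat_lit 546) (nat_lit 3876) (nat_lit 0) (XT.nd (nat_lit 234) (nat_lit 1672) (nat_lit 0) (XT.nd (nat_lit 78) (nat_lit 912) (nat_lit 0) (XT.lf (nat_lit 0) (nat_lit 1909335252) (nat_lit 912) (nat_lit 6603540202) (nat_lit 76) (nat_lit 5329031803) (nat_lit 418) (nat_lit 5) (nat_lit 430) (nat_lit 5) (nat_lit 419) (nat_lit 5) (nat_lit 597) (nat_lit 563) (nat_lit 400)) (XT.nd (nat_lit 78) (nat_lit 0) (nat_lit 0) (XT.lf (nat_lit 0) (nat_lit 1201649420) (nat_lit 912) (nat_lit 2585269016) (nat_lit 988) (nat_lit 10201263808) (nat_lit 406) (nat_lit 5) (nat_lit 418) (nat_lit 5) (nat_lit 419) (nat_lit 5) (nat_lit 598) (nat_lit 563) (nat_lit 399)) (XT.lf (nat_lit 0) (nat_lit 5758696575) (nat_lit 988) (nat_lit 4917382298) (nat_lit 76) (nat_lit 3460171282) (nat_lit 406) (nat_lit 5) (nat_lit 419) (nat_lit 5) (nat_lit 407) (nat_lit 5) (nat_lit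 599) (nat_lit 563) (nat_lit 398)))) (XT.nd (nat_lit 156) (nat_lit 836) (nat_lit 0) (XT.nd (nat_lit 78) (nat_lit 0) (nat_lit 0) (XT.lf (nat_lit 0) (nat_lit 3122613757) (nat_lit 836) (nat_lit 4674462370) (nat_lit 912) (nat_lit 6489660263) (nat_lit 395) (nat_lit 5) (nat_lit 406) (nat_lit 5) (nat_lit 407) (nat_lit 5) (nat_lit 600) (nat_lit 563) (nat_lit 397)) (XT.lf (nat_lit 0) (nat_lit 9908739253) (nat_lit 912) (nat_lit 3069623624) (nat_lit 76) (nat_lit 1461219432) (nat_lit 395) (nat_lit 5) (nat_lit 407) (nat_lit 5) (nat_lit 396) (nat_lit 5) (nat_lit 601) (nat_lit 563) (nat_lit 396))) (XT.nd (nat_lit 78) (nat_lit 0) (nat_lit 0) (XT.lf (nat_lit 0) (nat_lit 5213892983) (nat_lit 836) (nat_lit 6903652523) (nat_lit 912) (nat_lit 2476841713) (nat_lit 384) (nat_lit 5) (nat_lit 395) (nat_lit 5) (nat_lit 396) (nat_lit 5) (nat_lit 602) (nat_lit 563) (nat_lit 395)) (XT.lf (nat_lit 0) (nat_lit 13694460400) (nat_lit 836) (nat_lit 686895067) (nat_lit 912) (nat_lit 370716477)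 (nat_lit 384) (nat_lit 5) (nat_lit 395) (nat_lit 5) (nat_lit 396) (nat_lit 5) (nat_lit 603) (nat_lit 563) (nat_lit 394))))) (XT.nd (nat_lit 312) (nat_lit 1520) (nat_lit 0) (XT.nd (nat_lit 156) (nat_lit 760) (nat_lit 0) (XT.nd (nat_lit 78) (nat_lit 760) (nat_lit 0) (XT.lf (nat_lit 0) (nat_lit 1830432254) (nat_lit 836) (nat_lit 7440498031) (nat_lit 76) (nat_lit 5640225245) (nat_lit 373) (nat_lit 5) (nat_lit 384) (nat_lit 5) (nat_lit 374) (nat_lit 5) (nat_lit 604) (nat_lit 563) (nat_lit 393)) (XT.lf (nat_lit 0) (nat_lit 1107749524) (nat_lit 760) (nat_lit 2972257087) (nat_lit 836) (nat_lit 10993178087) (nat_lit 363) (nat_lit 5) (nat_lit 373) (nat_lit 5) (nat_lit 374) (nat_lit 5) (nat_lit 605) (nat_lit 563) (nat_lit 392))) (XT.nd (nat_lit 78) (nat_lit 760) (nat_lit 0) (XT.lf (nat_lit 0) (nat_lit 6437839744) (nat_lit 836) (nat_lit 5342774281) (nat_lit 76) (nat_lit 3456575327) (nat_lit 363) (nat_lit 5) (nat_lit 374) (nat_lit 5) (nat_lit 364) (nat_lit 5) (nat_lit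 606) (nat_lit 563) (nat_lit 391)) (XT.lf (nat_lit 0) (nat_lit 3467950072) (nat_lit 760) (nat_lit 5407855763) (nat_lit 836) (nat_lit 6528008979) (nat_lit 353) (nat_lit 5) (nat_lit 363) (nat_lit 5) (nat_lit 364) (nat_lit 5) (nat_lit 607) (nat_lit 563) (nat_lit 390)))) (XT.nd (nat_lit 156) (nat_lit 760) (nat_lit 0) (XT.nd (nat_lit 78) (nat_lit 760) (nat_lit 0) (XT.lf (nat_lit 0) (nat_lit 11396598627) (nat_lit 836) (nat_lit 3063371378) (nat_lit 76) (nat_lit 1113121669) (nat_lit 353) (nat_lit 5) (nat_lit 364) (nat_lit 5) (nat_lit 354) (nat_lit 5) (nat_lit 608) (nat_lit 563) (nat_lit 389)) (XT.lf (nat_lit 0) (nat_lit 6019610904) (nat_lit 760) (nat_lit 8014156826) (nat_lit 836) (nat_lit 1710667365) (nat_lit 343) (nat_lit 5) (nat_lit 353) (nat_lit 5) (nat_lit 354) (nat_lit 5) (nat_lit 609) (nat_lit 563) (nat_lit 388))) (XT.nd (nat_lit 78) (nat_lit 684) (nat_lit 0) (XT.lf (nat_lit 0) (nat_lit 805731936) (nat_lit 836) (nat_lit 608523430) (nat_lit 76) (nat_lit 14504609620)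 (nat_lit 342) (nat_lit 5) (nat_lit 353) (nat_lit 5) (nat_lit 343) (nat_lit 5) (nat_lit 610) (nat_lit 563) (nat_lit 387)) (XT.lf (nat_lit 0) (nat_lit 3432866088) (nat_lit 760) (nat_lit 7346531021) (nat_lit 76) (nat_lit 5315494179) (nat_lit 333) (nat_lit 5) (nat_lit 343) (nat_lit 5) (nat_lit 334) (nat_lit 5) (nat_lit 611) (nat_lit 563) (nat_lit 386)))))) (XT.nd (nat_lit 624) (nat_lit 2508) (nat_lit 0) (XT.nd (nat_lit 312) (nat_lit 1976) (nat_lit 0) (XT.nd (nat_lit 156) (nat_lit 684) (nat_lit 0) (XT.nd (nat_lit 78) (nat_lit 0) (nat_lit 0) (XT.lf (nat_lit 0) (nat_lit 2033503609) (nat_lit 684) (nat_lit 4097106165) (nat_lit 760) (nat_lit 10143467222) (nat_lit 324) (nat_lit 5) (nat_lit 333) (nat_lit 5) (nat_lit 334) (nat_lit 5) (nat_lit 612) (nat_lit 563) (nat_lit 385)) (XT.lf (nat_lit 0) (nat_lit 8941068380) (nat_lit 760) (nat_lit 4783258065) (nat_lit 76) (nat_lit 2731344981) (nat_lit 324) (nat_lit 5) (nat_lit 334) (nat_lit 5) (nat_lit 325) (nat_lit 5) (nat_lit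 613) (nat_lit 563) (nat_lit 384))) (XT.nd (nat_lit 78) (nat_lit 0) (nat_lit 0) (XT.lf (nat_lit 0) (nat_lit 4890264172) (nat_lit 684) (nat_lit 6968005016) (nat_lit 760) (nat_lit 4781618103) (nat_lit 315) (nat_lit 5) (nat_lit 324) (nat_lit 5) (nat_lit 325) (nat_lit 5) (nat_lit 614) (nat_lit 563) (nat_lit 383)) (XT.lf (nat_lit 0) (nat_lit 14812217661) (nat_lit 684) (nat_lit 45443184) (nat_lit 760) (nat_lit 1969649894) (nat_lit 315) (nat_lit 5) (nat_lit 324) (nat_lit 5) (nat_lit 325) (nat_lit 5) (nat_lit 615) (nat_lit 563) (nat_lit 382)))) (XT.nd (nat_lit 156) (nat_lit 608) (nat_lit 0) (XT.nd (nat_lit 78) (nat_lit 608) (nat_lit 0) (XT.lf (nat_lit 0) (nat_lit 976515226) (nat_lit 760) (nat_lit 9059943355) (nat_lit 76) (nat_lit 6980112743) (nat_lit 305) (nat_lit 5) (nat_lit 315) (nat_lit 5) (nat_lit 306) (nat_lit 5) (nat_lit 616) (nat_lit 563) (nat_lit 381)) (XT.lf (nat_lit 0) (nat_lit 934698031) (nat_lit 608) (nat_lit 3032480447) (nat_lit 684) (nat_lit 13241939476)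 (nat_lit 297) (nat_lit 5) (nat_lit 305) (nat_lit 5) (nat_lit 306) (nat_lit 5) (nat_lit 617) (nat_lit 563) (nat_lit 380))) (XT.nd (nat_lit 78) (nat_lit 608) (nat_lit 0) (XT.lf (nat_lit 0) (nat_lit 7097574246) (nat_lit 684) (nat_lit 6189315637) (nat_lit 76) (nat_lit 4117027436) (nat_lit 297) (nat_lit 5) (nat_lit 306) (nat_lit 5) (nat_lit 298) (nat_lit 5) (nat_lit 618) (nat_lit 563) (nat_lit 379)) (XT.lf (nat_lit 0) (nat_lit 4121699716) (nat_lit 608) (nat_lit 6207902602) (nat_lit 684) (nat_lit 7272230049) (nat_lit 289) (nat_lit 5) (nat_lit 297) (nat_lit 5) (nat_lit 298) (nat_lit 5) (nat_lit 619) (nat_lit 563) (nat_lit 378))))) (XT.nd (nat_lit 312) (nat_lit 1216) (nat_lit 0) (XT.nd (nat_lit 156) (nat_lit 684) (nat_lit 0) (XT.nd (nat_lit 78) (nat_lit 608) (nat_lit 0) (XT.lf (nat_lit 0) (nat_lit 13666912916) (nat_lit 684) (nat_lit 3096734717) (nat_lit 76) (nat_lit 1039245423) (nat_lit 289) (nat_lit 5) (nat_lit 298) (nat_lit 5) (nat_lit 290) (nat_lit 5) (nat_lit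 620) (nat_lit 563) (nat_lit 377)) (XT.lf (nat_lit 0) (nat_lit 7542490449) (nat_lit 608) (nat_lit 9610972312) (nat_lit 684) (nat_lit 852862513) (nat_lit 281) (nat_lit 5) (nat_lit 289) (nat_lit 5) (nat_lit 290) (nat_lit 5) (nat_lit 621) (nat_lit 563) (nat_lit 376))) (XT.nd (nat_lit 78) (nat_lit 0) (nat_lit 0) (XT.lf (nat_lit 0) (nat_lit 199655428) (nat_lit 608) (nat_lit 2278189233) (nat_lit 684) (nat_lit 15735364310) (nat_lit 272) (nat_lit 5) (nat_lit 280) (nat_lit 5) (nat_lit 281) (nat_lit 5) (nat_lit 622) (nat_lit 563) (nat_lit 375)) (XT.lf (nat_lit 0) (nat_lit 5960728232) (nat_lit 684) (nat_lit 7254212293) (nat_lit 76) (nat_lit 5207237593) (nat_lit 272) (nat_lit 5) (nat_lit 281) (nat_lit 5) (nat_lit 273) (nat_lit 5) (nat_lit 623) (nat_lit 563) (nat_lit 374)))) (XT.nd (nat_lit 156) (nat_lit 684) (nat_lit 0) (XT.nd (nat_lit 78) (nat_lit 0) (nat_lit 0) (XT.lf (nat_lit 0) (nat_lit 3744774422) (nat_lit 532) (nat_lit 5800561238) (nat_lit 608) (nat_lit 9089349827)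 (nat_lit 265) (nat_lit 5) (nat_lit 272) (nat_lit 5) (nat_lit 273) (nat_lit 5) (nat_lit 624) (nat_lit 563) (nat_lit 373)) (XT.lf (nat_lit 0) (nat_lit 13254810728) (nat_lit 608) (nat_lit 3809793977) (nat_lit 76) (nat_lit 1785774947) (nat_lit 265) (nat_lit 5) (nat_lit 273) (nat_lit 5) (nat_lit 266) (nat_lit 5) (nat_lit 625) (nat_lit 563) (nat_lit 372))) (XT.nd (nat_lit 78) (nat_lit 76) (nat_lit 0) (XT.lf (nat_lit 0) (nat_lit 7542992716) (nat_lit 608) (nat_lit 9575746270) (nat_lit 684) (nat_lit 1950043598) (nat_lit 257) (nat_lit 5) (nat_lit 265) (nat_lit 5) (nat_lit 266) (nat_lit 5) (nat_lit 626) (nat_lit 563) (nat_lit 371)) (XT.lf (nat_lit 0) (nat_lit 1763841708) (nat_lit 684) (nat_lit 137693637) (nat_lit 76) (nat_lit 17389415904) (nat_lit 256) (nat_lit 5) (nat_lit 265) (nat_lit 5) (nat_lit 257) (nat_lit 5) (nat_lit 627) (nat_lit 563) (nat_lit 370))))))) (XT.nd (nat_lit 1170) (nat_lit 3496) (nat_lit 0) (XT.nd (nat_lit 546) (nat_lit 2356) (nat_lit 0) (XT.nd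 (nat_lit 234) (nat_lit 1520) (nat_lit 0) (XT.nd (nat_lit 78) (nat_lit 532) (nat_lit 0) (XT.lf (nat_lit 0) (nat_lit 5633378512) (nat_lit 608) (nat_lit 7946781457) (nat_lit 76) (nat_lit 5934995970) (nat_lit 249) (nat_lit 5) (nat_lit 257) (nat_lit 5) (nat_lit 250) (nat_lit 5) (nat_lit 628) (nat_lit 563) (nat_lit 369)) (XT.nd (nat_lit 78) (nat_lit 0) (nat_lit 0) (XT.lf (nat_lit 0) (nat_lit 3794415756) (nat_lit 532) (nat_lit 5817156650) (nat_lit 608) (nat_lit 10131647137) (nat_lit 242) (nat_lit 5) (nat_lit 249) (nat_lit 5) (nat_lit 250) (nat_lit 5) (nat_lit 629) (nat_lit 563) (nat_lit 368)) (XT.lf (nat_lit 0) (nat_lit 13729818378) (nat_lit 608) (nat_lit 4120027893) (nat_lit 76) (nat_lit 2124788525) (nat_lit 242) (nat_lit 5) (nat_lit 250) (nat_lit 5) (nat_lit 243) (nat_lit 5) (nat_lit 630) (nat_lit 563) (nat_lit 367)))) (XT.nd (nat_lit 156) (nat_lit 988) (nat_lit 0) (XT.nd (nat_lit 78) (nat_lit 76) (nat_lit 0) (XT.lf (nat_lit 0) (nat_lit 8002525723) (nat_lit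 456) (nat_lit 10011685638) (nat_lit 532) (nat_lit 2194791489) (nat_lit 236) (nat_lit 5) (nat_lit 242) (nat_lit 5) (nat_lit 243) (nat_lit 5) (nat_lit 631) (nat_lit 563) (nat_lit 366)) (XT.lf (nat_lit 0) (nat_lit 1931998525) (nat_lit 532) (nat_lit 46137484) (nat_lit 76) (nat_lit 18469247790) (nat_lit 235) (nat_lit 5) (nat_lit 242) (nat_lit 5) (nat_lit 236) (nat_lit 5) (nat_lit 632) (nat_lit 563) (nat_lit 365))) (XT.nd (nat_lit 78) (nat_lit 456) (nat_lit 0) (XT.lf (nat_lit 0) (nat_lit 6227541911) (nat_lit 608) (nat_lit 8232017013) (nat_lit 76) (nat_lit 6228371308) (nat_lit 228) (nat_lit 5) (nat_lit 236) (nat_lit 5) (nat_lit 229) (nat_lit 5) (nat_lit 633) (nat_lit 563) (nat_lit 364)) (XT.lf (nat_lit 0) (nat_lit 4309640282) (nat_lit 456) (nat_lit 6334260849) (nat_lit 532) (nat_lit 10288688490) (nat_lit 222) (nat_lit 5) (nat_lit 228) (nat_lit 5) (nat_lit 229) (nat_lit 5) (nat_lit 634) (nat_lit 563) (nat_lit 363))))) (XT.nd (nat_lit 312) (nat_lit 1368) (nat_lit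 0) (XT.nd (nat_lit 156) (nat_lit 532) (nat_lit 0) (XT.nd (nat_lit 78) (nat_lit 456) (nat_lit 0) (XT.lf (nat_lit 0) (nat_lit 15210441408) (nat_lit 532) (nat_lit 3989548377) (nat_lit 76) (nat_lit 1980915461) (nat_lit 222) (nat_lit 5) (nat_lit 229) (nat_lit 5) (nat_lit 223) (nat_lit 5) (nat_lit 635) (nat_lit 563) (nat_lit 362)) (XT.lf (nat_lit 0) (nat_lit 8963125497) (nat_lit 456) (nat_lit 10999019681) (nat_lit 532) (nat_lit 1470165476) (nat_lit 216) (nat_lit 5) (nat_lit 222) (nat_lit 5) (nat_lit 223) (nat_lit 5) (nat_lit 636) (nat_lit 563) (nat_lit 361))) (XT.nd (nat_lit 78) (nat_lit 0) (nat_lit 0) (XT.lf (nat_lit 0) (nat_lit 518058805) (nat_lit 456) (nat_lit 2585185314) (nat_lit 532) (nat_lit 18584614480) (nat_lit 209) (nat_lit 5) (nat_lit 215) (nat_lit 5) (nat_lit 216) (nat_lit 5) (nat_lit 637) (nat_lit 563) (nat_lit 360)) (XT.lf (nat_lit 0) (nat_lit 7865380594) (nat_lit 532) (nat_lit 8071070809) (nat_lit 76) (nat_lit 6009532975) (nat_lit 209) (nat_lit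 5) (nat_lit 216) (nat_lit 5) (nat_lit 210) (nat_lit 5) (nat_lit 638) (nat_lit 563) (nat_lit 359)))) (XT.nd (nat_lit 156) (nat_lit 912) (nat_lit 0) (XT.nd (nat_lit 78) (nat_lit 0) (nat_lit 0) (XT.lf (nat_lit 0) (nat_lit 5333569732) (nat_lit 456) (nat_lit 7434822758) (nat_lit 532) (nat_lit 9439967646) (nat_lit 203) (nat_lit 5) (nat_lit 209) (nat_lit 5) (nat_lit 210) (nat_lit 5) (nat_lit 639) (nat_lit 563) (nat_lit 358)) (XT.lf (nat_lit 0) (nat_lit 17825942523) (nat_lit 532) (nat_lit 3376518620) (nat_lit 76) (nat_lit 1272392816) (nat_lit 203) (nat_lit 5) (nat_lit 210) (nat_lit 5) (nat_lit 204) (nat_lit 5) (nat_lit 640) (nat_lit 563) (nat_lit 357))) (XT.nd (nat_lit 78) (nat_lit 456) (nat_lit 0) (XT.lf (nat_lit 0) (nat_lit 346850704) (nat_lit 456) (nat_lit 12275685956) (nat_lit 76) (nat_lit 10121870092) (nat_lit 197) (nat_lit 5) (nat_lit 203) (nat_lit 5) (nat_lit 198) (nat_lit 5) (nat_lit 641) (nat_lit 563) (nat_lit 356)) (XT.lf (nat_lit 0) (nat_lit 1598986625)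 (nat_lit 456) (nat_lit 3808608531) (nat_lit 532) (nat_lit 17610594643) (nat_lit 191) (nat_lit 5) (nat_lit 197) (nat_lit 5) (nat_lit 198) (nat_lit 5) (nat_lit 642) (nat_lit 563) (nat_lit 355)))))) (XT.nd (nat_lit 624) (nat_lit 1824) (nat_lit 0) (XT.nd (nat_lit 312) (nat_lit 836) (nat_lit 0) (XT.nd (nat_lit 156) (nat_lit 456) (nat_lit 0) (XT.nd (nat_lit 78) (nat_lit 380) (nat_lit 0) (XT.lf (nat_lit 0) (nat_lit 10680227707) (nat_lit 532) (nat_lit 7421261304) (nat_lit 76) (nat_lit 5193746136) (nat_lit 191) (nat_lit 5) (nat_lit 198) (nat_lit 5) (nat_lit 192) (nat_lit 5) (nat_lit 643) (nat_lit 563) (nat_lit 354)) (XT.lf (nat_lit 0) (nat_lit 6913435602) (nat_lit 380) (nat_lit 9209210983) (nat_lit 456) (nat_lit 7453888245) (nat_lit 186) (nat_lit 5) (nat_lit 191) (nat_lit 5) (nat_lit 192) (nat_lit 5) (nat_lit 644) (nat_lit 563) (nat_lit 353))) (XT.nd (nat_lit 78) (nat_lit 456) (nat_lit 0) (XT.lf (nat_lit 0) (nat_lit 21626828339) (nat_lit 380) (nat_lit 91168003)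 (nat_lit 456) (nat_lit 2144582612) (nat_lit 186) (nat_lit 5) (nat_lit 191) (nat_lit 5) (nat_lit 192) (nat_lit 5) (nat_lit 645) (nat_lit 563) (nat_lit 352)) (XT.lf (nat_lit 0) (nat_lit 3364734971) (nat_lit 456) (nat_lit 11596985385) (nat_lit 76) (nat_lit 9189464475) (nat_lit 180) (nat_lit 5) (nat_lit 186) (nat_lit 5) (nat_lit 181) (nat_lit 5) (nat_lit 646) (nat_lit 563) (nat_lit 351)))) (XT.nd (nat_lit 156) (nat_lit 456) (nat_lit 0) (XT.nd (nat_lit 78) (nat_lit 0) (nat_lit 0) (XT.lf (nat_lit 0) (nat_lit 3244093995) (nat_lit 380) (nat_lit 5742618872) (nat_lit 456) (nat_lit 15457942739) (nat_lit 175) (nat_lit 5) (nat_lit 180) (nat_lit 5) (nat_lit 181) (nat_lit 5) (nat_lit 647) (nat_lit 563) (nat_lit 350)) (XT.lf (nat_lit 0) (nat_lit 14817666227) (nat_lit 456) (nat_lit 6236103406) (nat_lit 76) (nat_lit 3688295538) (nat_lit 175) (nat_lit 5) (nat_lit 181) (nat_lit 5) (nat_lit 176) (nat_lit 5) (nat_lit 648) (nat_lit 563) (nat_lit 349))) (XT.nd (nat_lit 78) (nat_lit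 76) (nat_lit 0) (XT.lf (nat_lit 0) (nat_lit 9100561960) (nat_lit 380) (nat_lit 11756333276) (nat_lit 456) (nat_lit 4186694648) (nat_lit 170) (nat_lit 5) (nat_lit 175) (nat_lit 5) (nat_lit 176) (nat_lit 5) (nat_lit 649) (nat_lit 563) (nat_lit 348)) (XT.lf (nat_lit 0) (nat_lit 1680597674) (nat_lit 456) (nat_lit 541331910) (nat_lit 76) (nat_lit 23128265675) (nat_lit 169) (nat_lit 5) (nat_lit 175) (nat_lit 5) (nat_lit 170) (nat_lit 5) (nat_lit 650) (nat_lit 563) (nat_lit 347))))) (XT.nd (nat_lit 312) (nat_lit 684) (nat_lit 0) (XT.nd (nat_lit 156) (nat_lit 380) (nat_lit 0) (XT.nd (nat_lit 78) (nat_lit 380) (nat_lit 0) (XT.lf (nat_lit 0) (nat_lit 7752986018) (nat_lit 456) (nat_lit 10376518895) (nat_lit 76) (nat_lit 7529998231) (nat_lit 164) (nat_lit 5) (nat_lit 170) (nat_lit 5) (nat_lit 165) (nat_lit 5) (nat_lit 651) (nat_lit 563) (nat_lit 346)) (XT.lf (nat_lit 0) (nat_lit 5505373856) (nat_lit 380) (nat_lit 8490259491) (nat_lit 456) (nat_lit 11978387700) (nat_lit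 159) (nat_lit 5) (nat_lit 164) (nat_lit 5) (nat_lit 165) (nat_lit 5) (nat_lit 652) (nat_lit 563) (nat_lit 345))) (XT.nd (nat_lit 78) (nat_lit 380) (nat_lit 0) (XT.lf (nat_lit 0) (nat_lit 20436664738) (nat_lit 456) (nat_lit 4465371202) (nat_lit 76) (nat_lit 1391322826) (nat_lit 159) (nat_lit 5) (nat_lit 165) (nat_lit 5) (nat_lit 160) (nat_lit 5) (nat_lit 653) (nat_lit 563) (nat_lit 344)) (XT.lf (nat_lit 0) (nat_lit 511850199) (nat_lit 380) (nat_lit 14669563335) (nat_lit 76) (nat_lit 11435029515) (nat_lit 154) (nat_lit 5) (nat_lit 159) (nat_lit 5) (nat_lit 155) (nat_lit 5) (nat_lit 654) (nat_lit 563) (nat_lit 343)))) (XT.nd (nat_lit 156) (nat_lit 304) (nat_lit 0) (XT.nd (nat_lit 78) (nat_lit 0) (nat_lit 0) (XT.lf (nat_lit 0) (nat_lit 1778684124) (nat_lit 380) (nat_lit 5187289757) (nat_lit 456) (nat_lit 19978508365) (nat_lit 149) (nat_lit 5) (nat_lit 154) (nat_lit 5) (nat_lit 155) (nat_lit 5) (nat_lit 655) (nat_lit 563) (nat_lit 342)) (XT.lf (nat_lit 0) (nat_lit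 13675652738) (nat_lit 456) (nat_lit 8563729170) (nat_lit 76) (nat_lit 5037170940) (nat_lit 149) (nat_lit 5) (nat_lit 155) (nat_lit 5) (nat_lit 150) (nat_lit 5) (nat_lit 656) (nat_lit 563) (nat_lit 341))) (XT.nd (nat_lit 78) (nat_lit 0) (nat_lit 0) (XT.lf (nat_lit 0) (nat_lit 8438660418) (nat_lit 304) (nat_lit 12164980930) (nat_lit 380) (nat_lit 7009941264) (nat_lit 145) (nat_lit 5) (nat_lit 149) (nat_lit 5) (nat_lit 150) (nat_lit 5) (nat_lit 657) (nat_lit 563) (nat_lit 340)) (XT.lf (nat_lit 0) (nat_lit 25889191931) (nat_lit 304) (nat_lit 1833485491) (nat_lit 380) (nat_lit 233625867) (nat_lit 145) (nat_lit 5) (nat_lit 149) (nat_lit 5) (nat_lit 150) (nat_lit 5) (nat_lit 658) (nat_lit 563) (nat_lit 339))))))))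
noncomputable def xc146 : XT := (XT.nd (nat_lit 74568) (nat_lit 0) (nat_lit 23028) (XT.nd (nat_lit 1170) (nat_lit 1672) (nat_lit 0) (XT.nd (nat_lit 546) (nat_lit 1520) (nat_lit 0) (XT.nd (nat_lit 234) (nat_lit 988) (nat_lit 0) (XT.nd (nat_lit 78) (nat_lit 304) (nat_lit 0) (XT.lf (nat_lit 0) (nat_lit 6744033465) (nat_lit 456) (nat_lit 12825197322) (nat_lit 76) (nat_lit 8732712402) (nat_lit 139) (nat_lit 5) (nat_lit 145) (nat_lit 5) (nat_lit 140) (nat_lit 5) (nat_lit 659) (nat_lit 563) (nat_lit 338)) (XT.nd (nat_lit 78) (nat_lit 0) (nat_lit 0) (XT.lf (nat_lit 0) (nat_lit 4786350179) (nat_lit 304) (nat_lit 9124064078) (nat_lit 380) (nat_lit 14743004882) (nat_lit 135) (nat_lit 5) (nat_lit 139) (nat_lit 5) (nat_lit 140) (nat_lit 5) (nat_lit 660) (nat_lit 563) (nat_lit 337)) (XT.lf (nat_lit 0) (nat_lit 21311827212) (nat_lit 380) (nat_lit 6104679027) (nat_lit 76) (nat_lit 1593584345) (nat_lit 135) (nat_lit 5) (nat_lit 140) (nat_lit 5) (nat_lit 136) (nat_lit 5)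 (nat_lit 661) (nat_lit 563) (nat_lit 336)))) (XT.nd (nat_lit 156) (nat_lit 304) (nat_lit 0) (XT.nd (nat_lit 78) (nat_lit 380) (nat_lit 0) (XT.lf (nat_lit 0) (nat_lit 12103480155) (nat_lit 304) (nat_lit 16892028661) (nat_lit 380) (nat_lit 375701900) (nat_lit 131) (nat_lit 5) (nat_lit 135) (nat_lit 5) (nat_lit 136) (nat_lit 5) (nat_lit 662) (nat_lit 563) (nat_lit 335)) (XT.lf (nat_lit 0) (nat_lit 978521225) (nat_lit 304) (nat_lit 6064593811) (nat_lit 380) (nat_lit 22694660502) (nat_lit 126) (nat_lit 5) (nat_lit 130) (nat_lit 5) (nat_lit 131) (nat_lit 5) (nat_lit 663) (nat_lit 563) (nat_lit 334))) (XT.nd (nat_lit 78) (nat_lit 304) (nat_lit 0) (XT.lf (nat_lit 0) (nat_lit 14749522143) (nat_lit 380) (nat_lit 10329001264) (nat_lit 76) (nat_lit 5030213754) (nat_lit 126) (nat_lit 5) (nat_lit 131) (nat_lit 5) (nat_lit 127) (nat_lit 5) (nat_lit 664) (nat_lit 563) (nat_lit 333)) (XT.lf (nat_lit 0) (nat_lit 8533942857) (nat_lit 304) (nat_lit 14167045550) (nat_lit 380)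 (nat_lit 7784311048) (nat_lit 122) (nat_lit 5) (nat_lit 126) (nat_lit 5) (nat_lit 127) (nat_lit 5) (nat_lit 665) (nat_lit 563) (nat_lit 332))))) (XT.nd (nat_lit 312) (nat_lit 836) (nat_lit 0) (XT.nd (nat_lit 156) (nat_lit 304) (nat_lit 0) (XT.nd (nat_lit 78) (nat_lit 304) (nat_lit 0) (XT.lf (nat_lit 0) (nat_lit 7993635) (nat_lit 380) (nat_lit 2961617977) (nat_lit 76) (nat_lit 27898486100) (nat_lit 121) (nat_lit 5) (nat_lit 126) (nat_lit 5) (nat_lit 122) (nat_lit 5) (nat_lit 666) (nat_lit 563) (nat_lit 331)) (XT.lf (nat_lit 0) (nat_lit 8010938598) (nat_lit 380) (nat_lit 14745273974) (nat_lit 76) (nat_lit 8498129810) (nat_lit 117) (nat_lit 5) (nat_lit 122) (nat_lit 5) (nat_lit 118) (nat_lit 5) (nat_lit 667) (nat_lit 563) (nat_lit 330))) (XT.nd (nat_lit 78) (nat_lit 0) (nat_lit 0) (XT.lf (nat_lit 0) (nat_lit 4796957906) (nat_lit 304) (nat_lit 11443284345) (nat_lit 380) (nat_lit 15406743753) (nat_lit 113) (nat_lit 5) (nat_lit 117) (nat_lit 5) (nat_lit 118)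 (nat_lit 5) (nat_lit 668) (nat_lit 563) (nat_lit 329)) (XT.lf (nat_lit 0) (nat_lit 24729861466) (nat_lit 380) (nat_lit 7124447910) (nat_lit 76) (nat_lit 191258589) (nat_lit 113) (nat_lit 5) (nat_lit 118) (nat_lit 5) (nat_lit 114) (nat_lit 5) (nat_lit 669) (nat_lit 563) (nat_lit 328)))) (XT.nd (nat_lit 156) (nat_lit 228) (nat_lit 0) (XT.nd (nat_lit 78) (nat_lit 304) (nat_lit 0) (XT.lf (nat_lit 0) (nat_lit 1082220513) (nat_lit 304) (nat_lit 19372083385) (nat_lit 76) (nat_lit 11994548829) (nat_lit 109) (nat_lit 5) (nat_lit 113) (nat_lit 5) (nat_lit 110) (nat_lit 5) (nat_lit 670) (nat_lit 563) (nat_lit 327)) (XT.lf (nat_lit 0) (nat_lit 874605299) (nat_lit 304) (nat_lit 8725039656) (nat_lit 380) (nat_lit 23258601220) (nat_lit 105) (nat_lit 5) (nat_lit 109) (nat_lit 5) (nat_lit 110) (nat_lit 5) (nat_lit 671) (nat_lit 563) (nat_lit 326))) (XT.nd (nat_lit 78) (nat_lit 228) (nat_lit 0) (XT.lf (nat_lit 0) (nat_lit 18434923503) (nat_lit 380) (nat_lit 11513752196)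 (nat_lit 76) (nat_lit 3324201732) (nat_lit 105) (nat_lit 5) (nat_lit 110) (nat_lit 5) (nat_lit 106) (nat_lit 5) (nat_lit 672) (nat_lit 563) (nat_lit 325)) (XT.lf (nat_lit 0) (nat_lit 9424040049) (nat_lit 228) (nat_lit 18137541635) (nat_lit 304) (nat_lit 6131926195) (nat_lit 102) (nat_lit 5) (nat_lit 105) (nat_lit 5) (nat_lit 106) (nat_lit 5) (nat_lit 673) (nat_lit 563) (nat_lit 324)))))) (XT.nd (nat_lit 72774) (nat_lit 0) (nat_lit 34200) (XT.nd (nat_lit 312) (nat_lit 1064) (nat_lit 0) (XT.nd (nat_lit 156) (nat_lit 228) (nat_lit 0) (XT.nd (nat_lit 78) (nat_lit 304) (nat_lit 0) (XT.lf (nat_lit 0) (nat_lit 2785667720) (nat_lit 304) (nat_lit 3210019929) (nat_lit 76) (nat_lit 28125036691) (nat_lit 101) (nat_lit 5) (nat_lit 105) (nat_lit 5) (nat_lit 102) (nat_lit 5) (nat_lit 674) (nat_lit 563) (nat_lit 323)) (XT.lf (nat_lit 0) (nat_lit 11957794132) (nat_lit 380) (nat_lit 16130880385) (nat_lit 76) (nat_lit 6463834274) (nat_lit 97) (nat_lit 5) (nat_lit 102) (nat_lit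 5) (nat_lit 98) (nat_lit 5) (nat_lit 675) (nat_lit 563) (nat_lit 322))) (XT.nd (nat_lit 78) (nat_lit 0) (nat_lit 0) (XT.lf (nat_lit 0) (nat_lit 5562839930) (nat_lit 228) (nat_lit 15843845856) (nat_lit 304) (nat_lit 13584376737) (nat_lit 94) (nat_lit 5) (nat_lit 97) (nat_lit 5) (nat_lit 98) (nat_lit 5) (nat_lit 676) (nat_lit 563) (nat_lit 321)) (XT.lf (nat_lit 0) (nat_lit 27901947525) (nat_lit 228) (nat_lit 3246705062) (nat_lit 304) (nat_lit 4287652843) (nat_lit 94) (nat_lit 5) (nat_lit 97) (nat_lit 5) (nat_lit 98) (nat_lit 5) (nat_lit 677) (nat_lit 563) (nat_lit 320)))) (XT.nd (nat_lit 72306) (nat_lit 0) (nat_lit 35872) (XT.nd (nat_lit 390) (nat_lit 760) (nat_lit 0) (XT.lf (nat_lit 0) (nat_lit 5283052018) (nat_lit 304) (nat_lit 20998408740) (nat_lit 76) (nat_lit 9605194292) (nat_lit 90) (nat_lit 5) (nat_lit 94) (nat_lit 5) (nat_lit 91) (nat_lit 5) (nat_lit 678) (nat_lit 563) (nat_lit 319)) (XT.lf (nat_lit 0) (nat_lit 19039028755) (nat_lit 304) (nat_lit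 17003241032) (nat_lit 76) (nat_lit 2194548579) (nat_lit 80) (nat_lit 5) (nat_lit 84) (nat_lit 5) (nat_lit 81) (nat_lit 5) (nat_lit 683) (nat_lit 563) (nat_lit 314))) (XT.nd (nat_lit 78) (nat_lit 0) (nat_lit 0) (XT.lf (nat_lit 0) (nat_lit 2278759665) (nat_lit 0) (nat_lit 2278759665) (nat_lit 1596) (nat_lit 527667672) (nat_lit 552) (nat_lit 5) (nat_lit 552) (nat_lit 3) (nat_lit 573) (nat_lit 3) (nat_lit 564) (nat_lit 564) (nat_lit 432)) (XT.lf (nat_lit 0) (nat_lit 9715761840) (nat_lit 0) (nat_lit 171865144) (nat_lit 1596) (nat_lit 370799533) (nat_lit 552) (nat_lit 5) (nat_lit 552) (nat_lit 3) (nat_lit 573) (nat_lit 3) (nat_lit 565) (nat_lit 564) (nat_lit 431))))) (XT.nd (nat_lit 312) (nat_lit 0) (nat_lit 152) (XT.nd (nat_lit 156) (nat_lit 0) (nat_lit 76) (XT.nd (nat_lit 78) (nat_lit 0) (nat_lit 0) (XT.lf (nat_lit 0) (nat_lit 363719247) (nat_lit 1672) (nat_lit 5697158942) (nat_lit 1748) (nat_lit 4286508218) (nat_lit 530) (nat_lit 5) (nat_lit 552) (nat_lit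 5) (nat_lit 553) (nat_lit 5) (nat_lit 566) (nat_lit 564) (nat_lit 430)) (XT.lf (nat_lit 0) (nat_lit 1095127930) (nat_lit 1672) (nat_lit 496863966) (nat_lit 1748) (nat_lit 8846341854) (nat_lit 530) (nat_lit 5) (nat_lit 552) (nat_lit 5) (nat_lit 553) (nat_lit 5) (nat_lit 567) (nat_lit 564) (nat_lit 429))) (XT.nd (nat_lit 78) (nat_lit 0) (nat_lit 0) (XT.lf (nat_lit 0) (nat_lit 1874952928) (nat_lit 1672) (nat_lit 5688473857) (nat_lit 1748) (nat_lit 2966998049) (nat_lit 531) (nat_lit 5) (nat_lit 553) (nat_lit 5) (nat_lit 554) (nat_lit 5) (nat_lit 568) (nat_lit 564) (nat_lit 428)) (XT.lf (nat_lit 0) (nat_lit 2667304900) (nat_lit 1672) (nat_lit 350248516) (nat_lit 1748) (nat_lit 7606866257) (nat_lit 531) (nat_lit 5) (nat_lit 553) (nat_lit 5) (nat_lit 554) (nat_lit 5) (nat_lit 569) (nat_lit 564) (nat_lit 427)))) (XT.nd (nat_lit 156) (nat_lit 0) (nat_lit 76) (XT.nd (nat_lit 78) (nat_lit 0) (nat_lit 0) (XT.lf (nat_lit 0) (nat_lit 3503104666) (nat_lit 1672) (nat_lit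 5577898091) (nat_lit 1748) (nat_lit 1638740172) (nat_lit 532) (nat_lit 5) (nat_lit 554) (nat_lit 5) (nat_lit 555) (nat_lit 5) (nat_lit 570) (nat_lit 564) (nat_lit 426)) (XT.lf (nat_lit 0) (nat_lit 4361644243) (nat_lit 1672) (nat_lit 98188082) (nat_lit 1748) (nat_lit 6357020373) (nat_lit 532) (nat_lit 5) (nat_lit 554) (nat_lit 5) (nat_lit 555) (nat_lit 5) (nat_lit 571) (nat_lit 564) (nat_lit 425))) (XT.nd (nat_lit 78) (nat_lit 0) (nat_lit 0) (XT.lf (nat_lit 0) (nat_lit 5259339451) (nat_lit 1672) (nat_lit 5363068314) (nat_lit 1748) (nat_lit 293057712) (nat_lit 533) (nat_lit 5) (nat_lit 555) (nat_lit 5) (nat_lit 556) (nat_lit 5) (nat_lit 572) (nat_lit 564) (nat_lit 424)) (XT.lf (nat_lit 76) (nat_lit 265336329) (nat_lit 0) (nat_lit 5925860059) (nat_lit 1748) (nat_lit 4824530470) (nat_lit 534) (nat_lit 5) (nat_lit 533) (nat_lit 5) (nat_lit 556) (nat_lit 5) (nat_lit 573) (nat_lit 564) (nat_lit 423))))))) (XT.nd (nat_lit 1170) (nat_lit 8436) (nat_lit 0) (XT.nd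 (nat_lit 546) (nat_lit 1444) (nat_lit 0) (XT.nd (nat_lit 234) (nat_lit 1520) (nat_lit 0) (XT.nd (nat_lit 78) (nat_lit 0) (nat_lit 76) (XT.lf (nat_lit 76) (nat_lit 6069180272) (nat_lit 0) (nat_lit 1093030026) (nat_lit 1748) (nat_lit 3955373266) (nat_lit 534) (nat_lit 5) (nat_lit 533) (nat_lit 5) (nat_lit 556) (nat_lit 5) (nat_lit 574) (nat_lit 564) (nat_lit 422)) (XT.nd (nat_lit 78) (nat_lit 0) (nat_lit 0) (XT.lf (nat_lit 76) (nat_lit 742478977) (nat_lit 0) (nat_lit 7424765051) (nat_lit 1748) (nat_lit 3053941869) (nat_lit 535) (nat_lit 5) (nat_lit 534) (nat_lit 5) (nat_lit 557) (nat_lit 5) (nat_lit 575) (nat_lit 564) (nat_lit 421)) (XT.lf (nat_lit 76) (nat_lit 6700368502) (nat_lit 0) (nat_lit 2518180753) (nat_lit 1748) (nat_lit 2107788078) (nat_lit 535) (nat_lit 5) (nat_lit 534) (nat_lit 5) (nat_lit 557) (nat_lit 5) (nat_lit 576) (nat_lit 564) (nat_lit 420)))) (XT.nd (nat_lit 156) (nat_lit 1672) (nat_lit 0) (XT.nd (nat_lit 78) (nat_lit 0) (nat_lit 0) (XT.lf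 (nat_lit 76) (nat_lit 1335152466) (nat_lit 0) (nat_lit 8965967316) (nat_lit 1748) (nat_lit 1132267699) (nat_lit 536) (nat_lit 5) (nat_lit 535) (nat_lit 5) (nat_lit 558) (nat_lit 5) (nat_lit 577) (nat_lit 564) (nat_lit 419)) (XT.lf (nat_lit 76) (nat_lit 7451332058) (nat_lit 0) (nat_lit 3987266602) (nat_lit 1748) (nat_lit 103315288) (nat_lit 536) (nat_lit 5) (nat_lit 535) (nat_lit 5) (nat_lit 558) (nat_lit 5) (nat_lit 578) (nat_lit 564) (nat_lit 418))) (XT.nd (nat_lit 78) (nat_lit 0) (nat_lit 0) (XT.lf (nat_lit 0) (nat_lit 940177823) (nat_lit 1748) (nat_lit 9611770228) (nat_lit 1824) (nat_lit 1100413031) (nat_lit 513) (nat_lit 5) (nat_lit 536) (nat_lit 5) (nat_lit 537) (nat_lit 5) (nat_lit 579) (nat_lit 564) (nat_lit 417)) (XT.lf (nat_lit 0) (nat_lit 2043271034) (nat_lit 1748) (nat_lit 3452109324) (nat_lit 1824) (nat_lit 6268821302) (nat_lit 513) (nat_lit 5) (nat_lit 536) (nat_lit 5) (nat_lit 537) (nat_lit 5) (nat_lit 580) (nat_lit 564) (nat_lit 416)))))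 (XT.nd (nat_lit 312) (nat_lit 1444) (nat_lit 0) (XT.nd (nat_lit 156) (nat_lit 0) (nat_lit 76) (XT.nd (nat_lit 78) (nat_lit 0) (nat_lit 76) (XT.lf (nat_lit 76) (nat_lit 2858225650) (nat_lit 0) (nat_lit 315105847) (nat_lit 1824) (nat_lit 8704849864) (nat_lit 514) (nat_lit 5) (nat_lit 513) (nat_lit 5) (nat_lit 537) (nat_lit 5) (nat_lit 581) (nat_lit 564) (nat_lit 415)) (XT.lf (nat_lit 0) (nat_lit 4368146466) (nat_lit 1748) (nat_lit 2695061408) (nat_lit 1824) (nat_lit 4930390129) (nat_lit 514) (nat_lit 5) (nat_lit 537) (nat_lit 5) (nat_lit 538) (nat_lit 5) (nat_lit 582) (nat_lit 564) (nat_lit 414))) (XT.nd (nat_lit 78) (nat_lit 0) (nat_lit 76) (XT.lf (nat_lit 76) (nat_lit 3793971582) (nat_lit 0) (nat_lit 1806443017) (nat_lit 1824) (nat_lit 6510637647) (nat_lit 515) (nat_lit 5) (nat_lit 514) (nat_lit 5) (nat_lit 538) (nat_lit 5) (nat_lit 583) (nat_lit 564) (nat_lit 413)) (XT.lf (nat_lit 0) (nat_lit 6885667526) (nat_lit 1748) (nat_lit 1814624850) (nat_lit 1824)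 (nat_lit 3529996805) (nat_lit 515) (nat_lit 5) (nat_lit 538) (nat_lit 5) (nat_lit 539) (nat_lit 5) (nat_lit 584) (nat_lit 564) (nat_lit 412)))) (XT.nd (nat_lit 156) (nat_lit 1596) (nat_lit 0) (XT.nd (nat_lit 78) (nat_lit 0) (nat_lit 76) (XT.lf (nat_lit 76) (nat_lit 4859608060) (nat_lit 0) (nat_lit 3367836366) (nat_lit 1824) (nat_lit 4123850439) (nat_lit 516) (nat_lit 5) (nat_lit 515) (nat_lit 5) (nat_lit 539) (nat_lit 5) (nat_lit 585) (nat_lit 564) (nat_lit 411)) (XT.lf (nat_lit 0) (nat_lit 9609267183) (nat_lit 1748) (nat_lit 806326926) (nat_lit 1824) (nat_lit 2058862730) (nat_lit 516) (nat_lit 5) (nat_lit 539) (nat_lit 5) (nat_lit 540) (nat_lit 5) (nat_lit 586) (nat_lit 564) (nat_lit 410))) (XT.nd (nat_lit 78) (nat_lit 1672) (nat_lit 0) (XT.lf (nat_lit 76) (nat_lit 6059869291) (nat_lit 0) (nat_lit 5008254890) (nat_lit 1824) (nat_lit 1530970289) (nat_lit 517) (nat_lit 5) (nat_lit 516) (nat_lit 5) (nat_lit 540) (nat_lit 5) (nat_lit 587) (nat_lit 564) (nat_lit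 409)) (XT.lf (nat_lit 0) (nat_lit 339087860) (nat_lit 1748) (nat_lit 12215950624) (nat_lit 1824) (nat_lit 171209133) (nat_lit 494) (nat_lit 5) (nat_lit 517) (nat_lit 5) (nat_lit 518) (nat_lit 5) (nat_lit 588) (nat_lit 564) (nat_lit 408)))))) (XT.nd (nat_lit 624) (nat_lit 3572) (nat_lit 0) (XT.nd (nat_lit 312) (nat_lit 1824) (nat_lit 0) (XT.nd (nat_lit 156) (nat_lit 1140) (nat_lit 0) (XT.nd (nat_lit 78) (nat_lit 1824) (nat_lit 0) (XT.lf (nat_lit 0) (nat_lit 1265171984) (nat_lit 1824) (nat_lit 5463134508) (nat_lit 76) (nat_lit 6126172427) (nat_lit 493) (nat_lit 5) (nat_lit 517) (nat_lit 5) (nat_lit 494) (nat_lit 5) (nat_lit 589) (nat_lit 564) (nat_lit 407)) (XT.lf (nat_lit 0) (nat_lit 1609219973) (nat_lit 1824) (nat_lit 1117483214) (nat_lit 1900) (nat_lit 10258575074) (nat_lit 469) (nat_lit 5) (nat_lit 493) (nat_lit 5) (nat_lit 494) (nat_lit 5) (nat_lit 590) (nat_lit 564) (nat_lit 406))) (XT.nd (nat_lit 78) (nat_lit 1140) (nat_lit 0) (XT.lf (nat_lit 0) (nat_lit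 4272709970) (nat_lit 1900) (nat_lit 4261327353) (nat_lit 76) (nat_lit 4583551706) (nat_lit 469) (nat_lit 5) (nat_lit 494) (nat_lit 5) (nat_lit 470) (nat_lit 5) (nat_lit 591) (nat_lit 564) (nat_lit 405)) (XT.lf (nat_lit 0) (nat_lit 3017780669) (nat_lit 1140) (nat_lit 2847516217) (nat_lit 1216) (nat_lit 7386936259) (nat_lit 454) (nat_lit 5) (nat_lit 469) (nat_lit 5) (nat_lit 470) (nat_lit 5) (nat_lit 592) (nat_lit 564) (nat_lit 404)))) (XT.nd (nat_lit 156) (nat_lit 912) (nat_lit 0) (XT.nd (nat_lit 78) (nat_lit 912) (nat_lit 0) (XT.lf (nat_lit 0) (nat_lit 7526522366) (nat_lit 1216) (nat_lit 2918385064) (nat_lit 76) (nat_lit 2943927301) (nat_lit 454) (nat_lit 5) (nat_lit 470) (nat_lit 5) (nat_lit 455) (nat_lit 5) (nat_lit 593) (nat_lit 564) (nat_lit 403)) (XT.lf (nat_lit 0) (nat_lit 4575089673) (nat_lit 912) (nat_lit 4683494512) (nat_lit 988) (nat_lit 4268832247) (nat_lit 442) (nat_lit 5) (nat_lit 454) (nat_lit 5) (nat_lit 455) (nat_lit 5) (nat_lit 594) (nat_lit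 564) (nat_lit 402))) (XT.nd (nat_lit 78) (nat_lit 912) (nat_lit 0) (XT.lf (nat_lit 0) (nat_lit 11041952200) (nat_lit 988) (nat_lit 1428475908) (nat_lit 76) (nat_lit 1198008673) (nat_lit 442) (nat_lit 5) (nat_lit 455) (nat_lit 5) (nat_lit 443) (nat_lit 5) (nat_lit 595) (nat_lit 564) (nat_lit 401)) (XT.lf (nat_lit 0) (nat_lit 6287279727) (nat_lit 912) (nat_lit 6634961894) (nat_lit 988) (nat_lit 888811140) (nat_lit 430) (nat_lit 5) (nat_lit 442) (nat_lit 5) (nat_lit 443) (nat_lit 5) (nat_lit 596) (nat_lit 564) (nat_lit 400))))) (XT.nd (nat_lit 312) (nat_lit 1748) (nat_lit 0) (XT.nd (nat_lit 156) (nat_lit 912) (nat_lit 0) (XT.nd (nat_lit 78) (nat_lit 0) (nat_lit 0) (XT.lf (nat_lit 0) (nat_lit 207213027) (nat_lit 836) (nat_lit 665298459) (nat_lit 912) (nat_lit 13083885441) (nat_lit 418) (nat_lit 5) (nat_lit 429) (nat_lit 5) (nat_lit 430) (nat_lit 5) (nat_lit 597) (nat_lit 564) (nat_lit 399)) (XT.lf (nat_lit 0) (nat_lit 2732841075) (nat_lit 912) (nat_lit 5960499989)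 (nat_lit 76) (nat_lit 5409676066) (nat_lit 418) (nat_lit 5) (nat_lit 430) (nat_lit 5) (nat_lit 419) (nat_lit 5) (nat_lit 598) (nat_lit 564) (nat_lit 398))) (XT.nd (nat_lit 78) (nat_lit 0) (nat_lit 0) (XT.lf (nat_lit 0) (nat_lit 1995694012) (nat_lit 912) (nat_lit 2641882924) (nat_lit 988) (nat_lit 9614849091) (nat_lit 406) (nat_lit 5) (nat_lit 418) (nat_lit 5) (nat_lit 419) (nat_lit 5) (nat_lit 599) (nat_lit 564) (nat_lit 397)) (XT.lf (nat_lit 0) (nat_lit 6633564879) (nat_lit 988) (nat_lit 4245569812) (nat_lit 76) (nat_lit 3524625540) (nat_lit 406) (nat_lit 5) (nat_lit 419) (nat_lit 5) (nat_lit 407) (nat_lit 5) (nat_lit 600) (nat_lit 564) (nat_lit 396)))) (XT.nd (nat_lit 156) (nat_lit 912) (nat_lit 0) (XT.nd (nat_lit 78) (nat_lit 0) (nat_lit 0) (XT.lf (nat_lit 0) (nat_lit 3950159322) (nat_lit 836) (nat_lit 4752624226) (nat_lit 912) (nat_lit 5854671625) (nat_lit 395) (nat_lit 5) (nat_lit 406) (nat_lit 5) (nat_lit 407) (nat_lit 5) (nat_lit 601) (nat_lit 564)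 (nat_lit 395)) (XT.lf (nat_lit 0) (nat_lit 10842076209) (nat_lit 912) (nat_lit 2366300686) (nat_lit 76) (nat_lit 1505273595) (nat_lit 395) (nat_lit 5) (nat_lit 407) (nat_lit 5) (nat_lit 396) (nat_lit 5) (nat_lit 602) (nat_lit 564) (nat_lit 394))) (XT.nd (nat_lit 78) (nat_lit 76) (nat_lit 0) (XT.lf (nat_lit 0) (nat_lit 6077855231) (nat_lit 836) (nat_lit 7007720786) (nat_lit 912) (nat_lit 1786165529) (nat_lit 384) (nat_lit 5) (nat_lit 395) (nat_lit 5) (nat_lit 396) (nat_lit 5) (nat_lit 603) (nat_lit 564) (nat_lit 393)) (XT.lf (nat_lit 0) (nat_lit 343009810) (nat_lit 912) (nat_lit 321983355) (nat_lit 76) (nat_lit 14367826637) (nat_lit 383) (nat_lit 5) (nat_lit 395) (nat_lit 5) (nat_lit 384) (nat_lit 5) (nat_lit 604) (nat_lit 564) (nat_lit 392))))))))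
noncomputable def xc147 : XT := (XT.nd (nat_lit 2418) (nat_lit 7600) (nat_lit 0) (XT.nd (nat_lit 1170) (nat_lit 5700) (nat_lit 0) (XT.nd (nat_lit 546) (nat_lit 2736) (nat_lit 0) (XT.nd (nat_lit 234) (nat_lit 2280) (nat_lit 0) (XT.nd (nat_lit 78) (nat_lit 760) (nat_lit 0) (XT.lf (nat_lit 0) (nat_lit 2574319872) (nat_lit 836) (nat_lit 6826061573) (nat_lit 76) (nat_lit 5794832933) (nat_lit 373) (nat_lit 5) (nat_lit 384) (nat_lit 5) (nat_lit 374) (nat_lit 5) (nat_lit 605) (nat_lit 564) (nat_lit 391)) (XT.nd (nat_lit 78) (nat_lit 0) (nat_lit 0) (XT.lf (nat_lit 0) (nat_lit 1888129576) (nat_lit 760) (nat_lit 2971810826) (nat_lit 836) (nat_lit 10500723002) (nat_lit 363) (nat_lit 5) (nat_lit 373) (nat_lit 5) (nat_lit 374) (nat_lit 5) (nat_lit 606) (nat_lit 564) (nat_lit 390)) (XT.lf (nat_lit 0) (nat_lit 7251618611) (nat_lit 836) (nat_lit 4692942319) (nat_lit 76) (nat_lit 3583653810) (nat_lit 363) (nat_lit 5) (nat_lit 374) (nat_lit 5) (nat_lit 364) (nat_lit 5) (nat_lit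 607) (nat_lit 564) (nat_lit 389)))) (XT.nd (nat_lit 156) (nat_lit 1520) (nat_lit 0) (XT.nd (nat_lit 78) (nat_lit 0) (nat_lit 0) (XT.lf (nat_lit 0) (nat_lit 4289018313) (nat_lit 760) (nat_lit 5440774499) (nat_lit 836) (nat_lit 5968551275) (nat_lit 353) (nat_lit 5) (nat_lit 363) (nat_lit 5) (nat_lit 364) (nat_lit 5) (nat_lit 608) (nat_lit 564) (nat_lit 388)) (XT.lf (nat_lit 0) (nat_lit 12288216245) (nat_lit 836) (nat_lit 2374866487) (nat_lit 76) (nat_lit 1208179803) (nat_lit 353) (nat_lit 5) (nat_lit 364) (nat_lit 5) (nat_lit 354) (nat_lit 5) (nat_lit 609) (nat_lit 564) (nat_lit 387))) (XT.nd (nat_lit 78) (nat_lit 760) (nat_lit 0) (XT.lf (nat_lit 0) (nat_lit 6884842728) (nat_lit 760) (nat_lit 8085108552) (nat_lit 836) (nat_lit 1076245433) (nat_lit 343) (nat_lit 5) (nat_lit 353) (nat_lit 5) (nat_lit 354) (nat_lit 5) (nat_lit 610) (nat_lit 564) (nat_lit 386)) (XT.lf (nat_lit 0) (nat_lit 119724810) (nat_lit 684) (nat_lit 1349826556) (nat_lit 760) (nat_lit 14754720560)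 (nat_lit 333) (nat_lit 5) (nat_lit 342) (nat_lit 5) (nat_lit 343) (nat_lit 5) (nat_lit 611) (nat_lit 564) (nat_lit 385))))) (XT.nd (nat_lit 312) (nat_lit 1368) (nat_lit 0) (XT.nd (nat_lit 156) (nat_lit 684) (nat_lit 0) (XT.nd (nat_lit 78) (nat_lit 684) (nat_lit 0) (XT.lf (nat_lit 0) (nat_lit 4141148221) (nat_lit 760) (nat_lit 6747294552) (nat_lit 76) (nat_lit 5515537900) (nat_lit 333) (nat_lit 5) (nat_lit 343) (nat_lit 5) (nat_lit 334) (nat_lit 5) (nat_lit 612) (nat_lit 564) (nat_lit 384)) (XT.lf (nat_lit 0) (nat_lit 2815431777) (nat_lit 684) (nat_lit 4069686080) (nat_lit 760) (nat_lit 9701787128) (nat_lit 324) (nat_lit 5) (nat_lit 333) (nat_lit 5) (nat_lit 334) (nat_lit 5) (nat_lit 613) (nat_lit 564) (nat_lit 383))) (XT.nd (nat_lit 78) (nat_lit 684) (nat_lit 0) (XT.lf (nat_lit 0) (nat_lit 9740091649) (nat_lit 760) (nat_lit 4140490291) (nat_lit 76) (nat_lit 2891783551) (nat_lit 324) (nat_lit 5) (nat_lit 334) (nat_lit 5) (nat_lit 325) (nat_lit 5) (nat_lit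 614) (nat_lit 564) (nat_lit 382)) (XT.lf (nat_lit 0) (nat_lit 5721644280) (nat_lit 684) (nat_lit 6986594227) (nat_lit 760) (nat_lit 4252175426) (nat_lit 315) (nat_lit 5) (nat_lit 324) (nat_lit 5) (nat_lit 325) (nat_lit 5) (nat_lit 615) (nat_lit 564) (nat_lit 381)))) (XT.nd (nat_lit 156) (nat_lit 608) (nat_lit 0) (XT.nd (nat_lit 78) (nat_lit 760) (nat_lit 0) (XT.lf (nat_lit 0) (nat_lit 15756070034) (nat_lit 760) (nat_lit 1324641243) (nat_lit 76) (nat_lit 71105825) (nat_lit 315) (nat_lit 5) (nat_lit 325) (nat_lit 5) (nat_lit 316) (nat_lit 5) (nat_lit 616) (nat_lit 564) (nat_lit 380)) (XT.lf (nat_lit 0) (nat_lit 1594469760) (nat_lit 760) (nat_lit 8507528181) (nat_lit 76) (nat_lit 7242922165) (nat_lit 305) (nat_lit 5) (nat_lit 315) (nat_lit 5) (nat_lit 306) (nat_lit 5) (nat_lit 617) (nat_lit 564) (nat_lit 379))) (XT.nd (nat_lit 78) (nat_lit 0) (nat_lit 0) (XT.lf (nat_lit 0) (nat_lit 1682179623) (nat_lit 608) (nat_lit 2955764617) (nat_lit 684) (nat_lit 12903513747)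 (nat_lit 297) (nat_lit 5) (nat_lit 305) (nat_lit 5) (nat_lit 306) (nat_lit 5) (nat_lit 618) (nat_lit 564) (nat_lit 378)) (XT.lf (nat_lit 0) (nat_lit 7820225791) (nat_lit 684) (nat_lit 5587868528) (nat_lit 76) (nat_lit 4332273736) (nat_lit 297) (nat_lit 5) (nat_lit 306) (nat_lit 5) (nat_lit 298) (nat_lit 5) (nat_lit 619) (nat_lit 564) (nat_lit 377)))))) (XT.nd (nat_lit 624) (nat_lit 2660) (nat_lit 0) (XT.nd (nat_lit 312) (nat_lit 1140) (nat_lit 0) (XT.nd (nat_lit 156) (nat_lit 1292) (nat_lit 0) (XT.nd (nat_lit 78) (nat_lit 0) (nat_lit 0) (XT.lf (nat_lit 0) (nat_lit 4924595859) (nat_lit 608) (nat_lit 6185590007) (nat_lit 684) (nat_lit 6832189976) (nat_lit 289) (nat_lit 5) (nat_lit 297) (nat_lit 5) (nat_lit 298) (nat_lit 5) (nat_lit 620) (nat_lit 564) (nat_lit 376)) (XT.lf (nat_lit 0) (nat_lit 14503920279) (nat_lit 684) (nat_lit 2441998493) (nat_lit 76) (nat_lit 1201745682) (nat_lit 289) (nat_lit 5) (nat_lit 298) (nat_lit 5) (nat_lit 290) (nat_lit 5) (nat_lit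 621) (nat_lit 564) (nat_lit 375))) (XT.nd (nat_lit 78) (nat_lit 684) (nat_lit 0) (XT.lf (nat_lit 0) (nat_lit 8405296236) (nat_lit 608) (nat_lit 9648475041) (nat_lit 684) (nat_lit 301522894) (nat_lit 281) (nat_lit 5) (nat_lit 289) (nat_lit 5) (nat_lit 290) (nat_lit 5) (nat_lit 622) (nat_lit 564) (nat_lit 374)) (XT.lf (nat_lit 0) (nat_lit 918338668) (nat_lit 608) (nat_lit 2163646504) (nat_lit 684) (nat_lit 15484383981) (nat_lit 272) (nat_lit 5) (nat_lit 280) (nat_lit 5) (nat_lit 281) (nat_lit 5) (nat_lit 623) (nat_lit 564) (nat_lit 373)))) (XT.nd (nat_lit 156) (nat_lit 608) (nat_lit 0) (XT.nd (nat_lit 78) (nat_lit 532) (nat_lit 0) (XT.lf (nat_lit 0) (nat_lit 6624671360) (nat_lit 684) (nat_lit 6688752802) (nat_lit 76) (nat_lit 5466290863) (nat_lit 272) (nat_lit 5) (nat_lit 281) (nat_lit 5) (nat_lit 273) (nat_lit 5) (nat_lit 624) (nat_lit 564) (nat_lit 372)) (XT.lf (nat_lit 0) (nat_lit 4525539017) (nat_lit 532) (nat_lit 5749333938) (nat_lit 608) (nat_lit 8721721783)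 (nat_lit 265) (nat_lit 5) (nat_lit 272) (nat_lit 5) (nat_lit 273) (nat_lit 5) (nat_lit 625) (nat_lit 564) (nat_lit 371))) (XT.nd (nat_lit 78) (nat_lit 608) (nat_lit 0) (XT.lf (nat_lit 0) (nat_lit 14049040674) (nat_lit 608) (nat_lit 3184452854) (nat_lit 76) (nat_lit 1983299428) (nat_lit 265) (nat_lit 5) (nat_lit 273) (nat_lit 5) (nat_lit 266) (nat_lit 5) (nat_lit 626) (nat_lit 564) (nat_lit 370)) (XT.lf (nat_lit 0) (nat_lit 8390774198) (nat_lit 608) (nat_lit 9593623005) (nat_lit 684) (nat_lit 1455283977) (nat_lit 257) (nat_lit 5) (nat_lit 265) (nat_lit 5) (nat_lit 266) (nat_lit 5) (nat_lit 627) (nat_lit 564) (nat_lit 369))))) (XT.nd (nat_lit 312) (nat_lit 1520) (nat_lit 0) (XT.nd (nat_lit 156) (nat_lit 532) (nat_lit 0) (XT.nd (nat_lit 78) (nat_lit 0) (nat_lit 0) (XT.lf (nat_lit 0) (nat_lit 556988034) (nat_lit 532) (nat_lit 1762178342) (nat_lit 608) (nat_lit 17347191996) (nat_lit 249) (nat_lit 5) (nat_lit 256) (nat_lit 5) (nat_lit 257) (nat_lit 5) (nat_lit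 628) (nat_lit 564) (nat_lit 368)) (XT.lf (nat_lit 0) (nat_lit 6257937914) (nat_lit 608) (nat_lit 7411036144) (nat_lit 76) (nat_lit 6226236433) (nat_lit 249) (nat_lit 5) (nat_lit 257) (nat_lit 5) (nat_lit 250) (nat_lit 5) (nat_lit 629) (nat_lit 564) (nat_lit 367))) (XT.nd (nat_lit 78) (nat_lit 0) (nat_lit 0) (XT.lf (nat_lit 0) (nat_lit 4560414744) (nat_lit 532) (nat_lit 5749724503) (nat_lit 608) (nat_lit 9817807458) (nat_lit 242) (nat_lit 5) (nat_lit 249) (nat_lit 5) (nat_lit 250) (nat_lit 5) (nat_lit 630) (nat_lit 564) (nat_lit 366)) (XT.lf (nat_lit 0) (nat_lit 14501991789) (nat_lit 608) (nat_lit 3517080695) (nat_lit 76) (nat_lit 2345093152) (nat_lit 242) (nat_lit 5) (nat_lit 250) (nat_lit 5) (nat_lit 243) (nat_lit 5) (nat_lit 631) (nat_lit 564) (nat_lit 365)))) (XT.nd (nat_lit 156) (nat_lit 456) (nat_lit 0) (XT.nd (nat_lit 78) (nat_lit 608) (nat_lit 0) (XT.lf (nat_lit 0) (nat_lit 8843415126) (nat_lit 456) (nat_lit 10023321550) (nat_lit 532) (nat_lit 1736591296)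 (nat_lit 236) (nat_lit 5) (nat_lit 242) (nat_lit 5) (nat_lit 243) (nat_lit 5) (nat_lit 632) (nat_lit 564) (nat_lit 364)) (XT.lf (nat_lit 0) (nat_lit 635225650) (nat_lit 532) (nat_lit 1825332193) (nat_lit 608) (nat_lit 18385965526) (nat_lit 228) (nat_lit 5) (nat_lit 235) (nat_lit 5) (nat_lit 236) (nat_lit 5) (nat_lit 633) (nat_lit 564) (nat_lit 363))) (XT.nd (nat_lit 78) (nat_lit 456) (nat_lit 0) (XT.lf (nat_lit 0) (nat_lit 6833935863) (nat_lit 608) (nat_lit 7718741111) (nat_lit 76) (nat_lit 6539365471) (nat_lit 228) (nat_lit 5) (nat_lit 236) (nat_lit 5) (nat_lit 229) (nat_lit 5) (nat_lit 634) (nat_lit 564) (nat_lit 362)) (XT.lf (nat_lit 0) (nat_lit 5069289355) (nat_lit 456) (nat_lit 6264257533) (nat_lit 532) (nat_lit 10008149829) (nat_lit 222) (nat_lit 5) (nat_lit 228) (nat_lit 5) (nat_lit 229) (nat_lit 5) (nat_lit 635) (nat_lit 564) (nat_lit 361))))))) (XT.nd (nat_lit 1170) (nat_lit 3648) (nat_lit 0) (XT.nd (nat_lit 546) (nat_lit 2052) (nat_lit 0) (XT.nd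 (nat_lit 234) (nat_lit 912) (nat_lit 0) (XT.nd (nat_lit 78) (nat_lit 988) (nat_lit 0) (XT.lf (nat_lit 0) (nat_lit 15983321577) (nat_lit 532) (nat_lit 3400982550) (nat_lit 76) (nat_lit 2210836639) (nat_lit 222) (nat_lit 5) (nat_lit 229) (nat_lit 5) (nat_lit 223) (nat_lit 5) (nat_lit 636) (nat_lit 564) (nat_lit 360)) (XT.nd (nat_lit 78) (nat_lit 532) (nat_lit 0) (XT.lf (nat_lit 0) (nat_lit 9806347718) (nat_lit 456) (nat_lit 11018832936) (nat_lit 532) (nat_lit 1026491382) (nat_lit 216) (nat_lit 5) (nat_lit 222) (nat_lit 5) (nat_lit 223) (nat_lit 5) (nat_lit 637) (nat_lit 564) (nat_lit 359)) (XT.lf (nat_lit 0) (nat_lit 1194183957) (nat_lit 456) (nat_lit 2433166163) (nat_lit 532) (nat_lit 18485016198) (nat_lit 209) (nat_lit 5) (nat_lit 215) (nat_lit 5) (nat_lit 216) (nat_lit 5) (nat_lit 638) (nat_lit 564) (nat_lit 358)))) (XT.nd (nat_lit 156) (nat_lit 456) (nat_lit 0) (XT.nd (nat_lit 78) (nat_lit 456) (nat_lit 0) (XT.lf (nat_lit 0) (nat_lit 8476966464) (nat_lit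 532) (nat_lit 7572011123) (nat_lit 76) (nat_lit 6326832454) (nat_lit 209) (nat_lit 5) (nat_lit 216) (nat_lit 5) (nat_lit 210) (nat_lit 5) (nat_lit 639) (nat_lit 564) (nat_lit 357)) (XT.lf (nat_lit 0) (nat_lit 6096376959) (nat_lit 456) (nat_lit 7377014290) (nat_lit 532) (nat_lit 9170135175) (nat_lit 203) (nat_lit 5) (nat_lit 209) (nat_lit 5) (nat_lit 210) (nat_lit 5) (nat_lit 640) (nat_lit 564) (nat_lit 356))) (XT.nd (nat_lit 78) (nat_lit 456) (nat_lit 0) (XT.lf (nat_lit 0) (nat_lit 18624590469) (nat_lit 532) (nat_lit 2793268621) (nat_lit 76) (nat_lit 1497641235) (nat_lit 203) (nat_lit 5) (nat_lit 210) (nat_lit 5) (nat_lit 204) (nat_lit 5) (nat_lit 641) (nat_lit 564) (nat_lit 355)) (XT.lf (nat_lit 0) (nat_lit 794351376) (nat_lit 456) (nat_lit 11868838078) (nat_lit 76) (nat_lit 10527286343) (nat_lit 197) (nat_lit 5) (nat_lit 203) (nat_lit 5) (nat_lit 198) (nat_lit 5) (nat_lit 642) (nat_lit 564) (nat_lit 354))))) (XT.nd (nat_lit 312) (nat_lit 1216) (nat_lit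 0) (XT.nd (nat_lit 156) (nat_lit 380) (nat_lit 0) (XT.nd (nat_lit 78) (nat_lit 0) (nat_lit 0) (XT.lf (nat_lit 0) (nat_lit 2279036102) (nat_lit 456) (nat_lit 3672843811) (nat_lit 532) (nat_lit 17517943361) (nat_lit 191) (nat_lit 5) (nat_lit 197) (nat_lit 5) (nat_lit 198) (nat_lit 5) (nat_lit 643) (nat_lit 564) (nat_lit 353)) (XT.lf (nat_lit 0) (nat_lit 11322762545) (nat_lit 532) (nat_lit 6927113951) (nat_lit 76) (nat_lit 5502677235) (nat_lit 191) (nat_lit 5) (nat_lit 198) (nat_lit 5) (nat_lit 192) (nat_lit 5) (nat_lit 644) (nat_lit 564) (nat_lit 352))) (XT.nd (nat_lit 78) (nat_lit 0) (nat_lit 0) (XT.lf (nat_lit 0) (nat_lit 7690049442) (nat_lit 380) (nat_lit 9179714520) (nat_lit 456) (nat_lit 7169800909) (nat_lit 186) (nat_lit 5) (nat_lit 191) (nat_lit 5) (nat_lit 192) (nat_lit 5) (nat_lit 645) (nat_lit 564) (nat_lit 351)) (XT.lf (nat_lit 0) (nat_lit 22569450353) (nat_lit 456) (nat_lit 1647059488) (nat_lit 76) (nat_lit 114971589) (nat_lit 186) (nat_lit 5)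 (nat_lit 192) (nat_lit 5) (nat_lit 187) (nat_lit 5) (nat_lit 646) (nat_lit 564) (nat_lit 350)))) (XT.nd (nat_lit 156) (nat_lit 380) (nat_lit 0) (XT.nd (nat_lit 78) (nat_lit 380) (nat_lit 0) (XT.lf (nat_lit 0) (nat_lit 3848364894) (nat_lit 456) (nat_lit 11194746071) (nat_lit 76) (nat_lit 9582763918) (nat_lit 180) (nat_lit 5) (nat_lit 186) (nat_lit 5) (nat_lit 181) (nat_lit 5) (nat_lit 647) (nat_lit 564) (nat_lit 349)) (XT.lf (nat_lit 0) (nat_lit 3938982666) (nat_lit 380) (nat_lit 5639726667) (nat_lit 456) (nat_lit 15346587336) (nat_lit 175) (nat_lit 5) (nat_lit 180) (nat_lit 5) (nat_lit 181) (nat_lit 5) (nat_lit 648) (nat_lit 564) (nat_lit 348))) (XT.nd (nat_lit 78) (nat_lit 380) (nat_lit 0) (XT.lf (nat_lit 0) (nat_lit 15519584210) (nat_lit 456) (nat_lit 5736467535) (nat_lit 76) (nat_lit 3972736765) (nat_lit 175) (nat_lit 5) (nat_lit 181) (nat_lit 5) (nat_lit 176) (nat_lit 5) (nat_lit 649) (nat_lit 564) (nat_lit 347)) (XT.lf (nat_lit 0) (nat_lit 9902823521)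 (nat_lit 380) (nat_lit 11772849107) (nat_lit 456) (nat_lit 3860749724) (nat_lit 170) (nat_lit 5) (nat_lit 175) (nat_lit 5) (nat_lit 176) (nat_lit 5) (nat_lit 650) (nat_lit 564) (nat_lit 346)))))) (XT.nd (nat_lit 624) (nat_lit 1748) (nat_lit 0) (XT.nd (nat_lit 312) (nat_lit 1064) (nat_lit 0) (XT.nd (nat_lit 156) (nat_lit 380) (nat_lit 0) (XT.nd (nat_lit 78) (nat_lit 0) (nat_lit 0) (XT.lf (nat_lit 0) (nat_lit 62017314) (nat_lit 380) (nat_lit 2048973211) (nat_lit 456) (nat_lit 23738266734) (nat_lit 164) (nat_lit 5) (nat_lit 169) (nat_lit 5) (nat_lit 170) (nat_lit 5) (nat_lit 651) (nat_lit 564) (nat_lit 345)) (XT.lf (nat_lit 0) (nat_lit 8302015395) (nat_lit 456) (nat_lit 9968272031) (nat_lit 76) (nat_lit 7894520226) (nat_lit 164) (nat_lit 5) (nat_lit 170) (nat_lit 5) (nat_lit 165) (nat_lit 5) (nat_lit 652) (nat_lit 564) (nat_lit 344))) (XT.nd (nat_lit 78) (nat_lit 0) (nat_lit 0) (XT.lf (nat_lit 0) (nat_lit 6227207410) (nat_lit 380) (nat_lit 8438555097) (nat_lit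 456) (nat_lit 11819928589) (nat_lit 159) (nat_lit 5) (nat_lit 164) (nat_lit 5) (nat_lit 165) (nat_lit 5) (nat_lit 653) (nat_lit 564) (nat_lit 343)) (XT.lf (nat_lit 0) (nat_lit 21229373209) (nat_lit 456) (nat_lit 3948699938) (nat_lit 76) (nat_lit 1633467367) (nat_lit 159) (nat_lit 5) (nat_lit 165) (nat_lit 5) (nat_lit 160) (nat_lit 5) (nat_lit 654) (nat_lit 564) (nat_lit 342)))) (XT.nd (nat_lit 156) (nat_lit 304) (nat_lit 0) (XT.nd (nat_lit 78) (nat_lit 380) (nat_lit 0) (XT.lf (nat_lit 0) (nat_lit 904966623) (nat_lit 380) (nat_lit 14355868655) (nat_lit 76) (nat_lit 11880273350) (nat_lit 154) (nat_lit 5) (nat_lit 159) (nat_lit 5) (nat_lit 155) (nat_lit 5) (nat_lit 655) (nat_lit 564) (nat_lit 341)) (XT.lf (nat_lit 0) (nat_lit 2417349766) (nat_lit 380) (nat_lit 5067231246) (nat_lit 456) (nat_lit 19991199543) (nat_lit 149) (nat_lit 5) (nat_lit 154) (nat_lit 5) (nat_lit 155) (nat_lit 5) (nat_lit 656) (nat_lit 564) (nat_lit 340))) (XT.nd (nat_lit 78) (nat_lit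 304) (nat_lit 0) (XT.lf (nat_lit 0) (nat_lit 14322441027) (nat_lit 456) (nat_lit 8137719234) (nat_lit 76) (nat_lit 5354452666) (nat_lit 149) (nat_lit 5) (nat_lit 155) (nat_lit 5) (nat_lit 150) (nat_lit 5) (nat_lit 657) (nat_lit 564) (nat_lit 339)) (XT.lf (nat_lit 0) (nat_lit 9200788642) (nat_lit 304) (nat_lit 12184734099) (nat_lit 380) (nat_lit 6772929986) (nat_lit 145) (nat_lit 5) (nat_lit 149) (nat_lit 5) (nat_lit 150) (nat_lit 5) (nat_lit 658) (nat_lit 564) (nat_lit 338))))) (XT.nd (nat_lit 312) (nat_lit 988) (nat_lit 0) (XT.nd (nat_lit 156) (nat_lit 304) (nat_lit 0) (XT.nd (nat_lit 78) (nat_lit 380) (nat_lit 0) (XT.lf (nat_lit 0) (nat_lit 129790593) (nat_lit 380) (nat_lit 1520330459) (nat_lit 76) (nat_lit 26858034816) (nat_lit 144) (nat_lit 5) (nat_lit 149) (nat_lit 5) (nat_lit 145) (nat_lit 5) (nat_lit 659) (nat_lit 564) (nat_lit 337)) (XT.lf (nat_lit 0) (nat_lit 7241940718) (nat_lit 456) (nat_lit 12493183207) (nat_lit 76) (nat_lit 9125592540) (nat_lit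 139) (nat_lit 5) (nat_lit 145) (nat_lit 5) (nat_lit 140) (nat_lit 5) (nat_lit 660) (nat_lit 564) (nat_lit 336))) (XT.nd (nat_lit 78) (nat_lit 0) (nat_lit 0) (XT.lf (nat_lit 0) (nat_lit 5466723414) (nat_lit 304) (nat_lit 9081603455) (nat_lit 380) (nat_lit 14670961610) (nat_lit 135) (nat_lit 5) (nat_lit 139) (nat_lit 5) (nat_lit 140) (nat_lit 5) (nat_lit 661) (nat_lit 564) (nat_lit 335)) (XT.lf (nat_lit 0) (nat_lit 22092146892) (nat_lit 380) (nat_lit 5647963977) (nat_lit 76) (nat_lit 1843095004) (nat_lit 135) (nat_lit 5) (nat_lit 140) (nat_lit 5) (nat_lit 136) (nat_lit 5) (nat_lit 662) (nat_lit 564) (nat_lit 334)))) (XT.nd (nat_lit 156) (nat_lit 304) (nat_lit 0) (XT.nd (nat_lit 78) (nat_lit 380) (nat_lit 0) (XT.lf (nat_lit 0) (nat_lit 12920550437) (nat_lit 304) (nat_lit 17005742170) (nat_lit 380) (nat_lit 25320086) (nat_lit 131) (nat_lit 5) (nat_lit 135) (nat_lit 5) (nat_lit 136) (nat_lit 5) (nat_lit 663) (nat_lit 564) (nat_lit 333)) (XT.lf (nat_lit 0) (nat_lit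 1573977057) (nat_lit 304) (nat_lit 5960015764) (nat_lit 380) (nat_lit 22791533339) (nat_lit 126) (nat_lit 5) (nat_lit 130) (nat_lit 5) (nat_lit 131) (nat_lit 5) (nat_lit 664) (nat_lit 564) (nat_lit 332))) (XT.nd (nat_lit 78) (nat_lit 304) (nat_lit 0) (XT.lf (nat_lit 0) (nat_lit 15389102764) (nat_lit 380) (nat_lit 9965557956) (nat_lit 76) (nat_lit 5349354890) (nat_lit 126) (nat_lit 5) (nat_lit 131) (nat_lit 5) (nat_lit 127) (nat_lit 5) (nat_lit 665) (nat_lit 564) (nat_lit 331)) (XT.lf (nat_lit 0) (nat_lit 9270894894) (nat_lit 304) (nat_lit 14225623411) (nat_lit 380) (nat_lit 7591652536) (nat_lit 122) (nat_lit 5) (nat_lit 126) (nat_lit 5) (nat_lit 127) (nat_lit 5) (nat_lit 666) (nat_lit 564) (nat_lit 330))))))))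
noncomputable def xc148 : XT := (XT.nd (nat_lit 74568) (nat_lit 0) (nat_lit 19000) (XT.nd (nat_lit 73320) (nat_lit 0) (nat_lit 32604) (XT.nd (nat_lit 546) (nat_lit 1672) (nat_lit 0) (XT.nd (nat_lit 234) (nat_lit 608) (nat_lit 0) (XT.nd (nat_lit 78) (nat_lit 608) (nat_lit 0) (XT.lf (nat_lit 0) (nat_lit 345188929) (nat_lit 380) (nat_lit 2461197298) (nat_lit 76) (nat_lit 28672328500) (nat_lit 121) (nat_lit 5) (nat_lit 126) (nat_lit 5) (nat_lit 122) (nat_lit 5) (nat_lit 667) (nat_lit 564) (nat_lit 329)) (XT.nd (nat_lit 78) (nat_lit 304) (nat_lit 0) (XT.lf (nat_lit 0) (nat_lit 8506634932) (nat_lit 380) (nat_lit 14478964409) (nat_lit 76) (nat_lit 8887116189) (nat_lit 117) (nat_lit 5) (nat_lit 122) (nat_lit 5) (nat_lit 118) (nat_lit 5) (nat_lit 668) (nat_lit 564) (nat_lit 328)) (XT.lf (nat_lit 0) (nat_lit 5450419905) (nat_lit 304) (nat_lit 11447146571) (nat_lit 380) (nat_lit 15375704795) (nat_lit 113) (nat_lit 5) (nat_lit 117) (nat_lit 5) (nat_lit 118) (nat_lit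 5) (nat_lit 669) (nat_lit 564) (nat_lit 327)))) (XT.nd (nat_lit 156) (nat_lit 304) (nat_lit 0) (XT.nd (nat_lit 78) (nat_lit 304) (nat_lit 0) (XT.lf (nat_lit 0) (nat_lit 25551890314) (nat_lit 380) (nat_lit 6715254101) (nat_lit 76) (nat_lit 412782290) (nat_lit 113) (nat_lit 5) (nat_lit 118) (nat_lit 5) (nat_lit 114) (nat_lit 5) (nat_lit 670) (nat_lit 564) (nat_lit 326)) (XT.lf (nat_lit 0) (nat_lit 1430587965) (nat_lit 304) (nat_lit 19207125969) (nat_lit 76) (nat_lit 12453577556) (nat_lit 109) (nat_lit 5) (nat_lit 113) (nat_lit 5) (nat_lit 110) (nat_lit 5) (nat_lit 671) (nat_lit 564) (nat_lit 325))) (XT.nd (nat_lit 78) (nat_lit 0) (nat_lit 0) (XT.lf (nat_lit 0) (nat_lit 1440862285) (nat_lit 304) (nat_lit 8674655223) (nat_lit 380) (nat_lit 23393412241) (nat_lit 105) (nat_lit 5) (nat_lit 109) (nat_lit 5) (nat_lit 110) (nat_lit 5) (nat_lit 672) (nat_lit 564) (nat_lit 324)) (XT.lf (nat_lit 0) (nat_lit 19122582520) (nat_lit 380) (nat_lit 11201099665) (nat_lit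 76) (nat_lit 3608269901) (nat_lit 105) (nat_lit 5) (nat_lit 110) (nat_lit 5) (nat_lit 106) (nat_lit 5) (nat_lit 673) (nat_lit 564) (nat_lit 323))))) (XT.nd (nat_lit 312) (nat_lit 836) (nat_lit 0) (XT.nd (nat_lit 156) (nat_lit 532) (nat_lit 0) (XT.nd (nat_lit 78) (nat_lit 76) (nat_lit 0) (XT.lf (nat_lit 0) (nat_lit 10151876533) (nat_lit 228) (nat_lit 18277145059) (nat_lit 304) (nat_lit 5932028670) (nat_lit 102) (nat_lit 5) (nat_lit 105) (nat_lit 5) (nat_lit 106) (nat_lit 5) (nat_lit 674) (nat_lit 564) (nat_lit 322)) (XT.lf (nat_lit 0) (nat_lit 3153445712) (nat_lit 304) (nat_lit 2741289601) (nat_lit 76) (nat_lit 28902158749) (nat_lit 101) (nat_lit 5) (nat_lit 105) (nat_lit 5) (nat_lit 102) (nat_lit 5) (nat_lit 675) (nat_lit 564) (nat_lit 321))) (XT.nd (nat_lit 78) (nat_lit 228) (nat_lit 0) (XT.lf (nat_lit 0) (nat_lit 12507761769) (nat_lit 380) (nat_lit 15919310981) (nat_lit 76) (nat_lit 6810266579) (nat_lit 97) (nat_lit 5) (nat_lit 102) (nat_lit 5) (nat_lit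 98) (nat_lit 5) (nat_lit 676) (nat_lit 564) (nat_lit 320)) (XT.lf (nat_lit 0) (nat_lit 6204769353) (nat_lit 228) (nat_lit 15938213034) (nat_lit 304) (nat_lit 13541734793) (nat_lit 94) (nat_lit 5) (nat_lit 97) (nat_lit 5) (nat_lit 98) (nat_lit 5) (nat_lit 677) (nat_lit 564) (nat_lit 319)))) (XT.nd (nat_lit 390) (nat_lit 532) (nat_lit 0) (XT.nd (nat_lit 78) (nat_lit 304) (nat_lit 0) (XT.lf (nat_lit 0) (nat_lit 28980253754) (nat_lit 228) (nat_lit 3093492361) (nat_lit 304) (nat_lit 4065239744) (nat_lit 94) (nat_lit 5) (nat_lit 97) (nat_lit 5) (nat_lit 98) (nat_lit 5) (nat_lit 678) (nat_lit 564) (nat_lit 318)) (XT.lf (nat_lit 0) (nat_lit 5691680089) (nat_lit 304) (nat_lit 20892904162) (nat_lit 76) (nat_lit 10013741416) (nat_lit 90) (nat_lit 5) (nat_lit 94) (nat_lit 5) (nat_lit 91) (nat_lit 5) (nat_lit 679) (nat_lit 564) (nat_lit 317))) (XT.nd (nat_lit 71994) (nat_lit 0) (nat_lit 33896) (XT.lf (nat_lit 0) (nat_lit 9001263931) (nat_lit 304) (nat_lit 2365178949)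 (nat_lit 76) (nat_lit 27136777140) (nat_lit 83) (nat_lit 5) (nat_lit 87) (nat_lit 5) (nat_lit 84) (nat_lit 5) (nat_lit 683) (nat_lit 564) (nat_lit 313)) (XT.lf (nat_lit 0) (nat_lit 150356994) (nat_lit 1748) (nat_lit 2511475684) (nat_lit 1748) (nat_lit 2511475684) (nat_lit 529) (nat_lit 3) (nat_lit 552) (nat_lit 3) (nat_lit 552) (nat_lit 5) (nat_lit 565) (nat_lit 565) (nat_lit 430)))))) (XT.nd (nat_lit 624) (nat_lit 1292) (nat_lit 0) (XT.nd (nat_lit 312) (nat_lit 0) (nat_lit 152) (XT.nd (nat_lit 156) (nat_lit 0) (nat_lit 76) (XT.nd (nat_lit 78) (nat_lit 0) (nat_lit 76) (XT.lf (nat_lit 76) (nat_lit 132212256) (nat_lit 0) (nat_lit 831703062) (nat_lit 1748) (nat_lit 9472942514) (nat_lit 530) (nat_lit 5) (nat_lit 529) (nat_lit 3) (nat_lit 552) (nat_lit 5) (nat_lit 566) (nat_lit 565) (nat_lit 429)) (XT.lf (nat_lit 0) (nat_lit 1681360662) (nat_lit 1672) (nat_lit 5103574393) (nat_lit 1748) (nat_lit 3743149662) (nat_lit 530) (nat_lit 5) (nat_lit 552) (nat_lit 5)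 (nat_lit 553) (nat_lit 5) (nat_lit 567) (nat_lit 565) (nat_lit 428))) (XT.nd (nat_lit 78) (nat_lit 0) (nat_lit 76) (XT.lf (nat_lit 76) (nat_lit 189336571) (nat_lit 0) (nat_lit 2213596775) (nat_lit 1748) (nat_lit 8218407771) (nat_lit 531) (nat_lit 5) (nat_lit 530) (nat_lit 5) (nat_lit 553) (nat_lit 5) (nat_lit 568) (nat_lit 565) (nat_lit 427)) (XT.lf (nat_lit 0) (nat_lit 3172677489) (nat_lit 1672) (nat_lit 5084100199) (nat_lit 1748) (nat_lit 2459010690) (nat_lit 531) (nat_lit 5) (nat_lit 553) (nat_lit 5) (nat_lit 554) (nat_lit 5) (nat_lit 569) (nat_lit 565) (nat_lit 426)))) (XT.nd (nat_lit 156) (nat_lit 0) (nat_lit 76) (XT.nd (nat_lit 78) (nat_lit 0) (nat_lit 76) (XT.lf (nat_lit 76) (nat_lit 351417311) (nat_lit 0) (nat_lit 3607030519) (nat_lit 1748) (nat_lit 6853664651) (nat_lit 532) (nat_lit 5) (nat_lit 531) (nat_lit 5) (nat_lit 554) (nat_lit 5) (nat_lit 570) (nat_lit 565) (nat_lit 425)) (XT.lf (nat_lit 0) (nat_lit 4785644517) (nat_lit 1672) (nat_lit 4962317843)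 (nat_lit 1748) (nat_lit 1161887001) (nat_lit 532) (nat_lit 5) (nat_lit 554) (nat_lit 5) (nat_lit 555) (nat_lit 5) (nat_lit 571) (nat_lit 565) (nat_lit 424))) (XT.nd (nat_lit 78) (nat_lit 0) (nat_lit 0) (XT.lf (nat_lit 76) (nat_lit 620871596) (nat_lit 0) (nat_lit 5020740324) (nat_lit 1748) (nat_lit 5367685024) (nat_lit 533) (nat_lit 5) (nat_lit 532) (nat_lit 5) (nat_lit 555) (nat_lit 5) (nat_lit 572) (nat_lit 565) (nat_lit 423)) (XT.lf (nat_lit 76) (nat_lit 6373641604) (nat_lit 0) (nat_lit 158911875) (nat_lit 1748) (nat_lit 4577823399) (nat_lit 533) (nat_lit 5) (nat_lit 532) (nat_lit 5) (nat_lit 555) (nat_lit 5) (nat_lit 573) (nat_lit 565) (nat_lit 422))))) (XT.nd (nat_lit 312) (nat_lit 1596) (nat_lit 0) (XT.nd (nat_lit 156) (nat_lit 0) (nat_lit 76) (XT.nd (nat_lit 78) (nat_lit 0) (nat_lit 0) (XT.lf (nat_lit 76) (nat_lit 1000436155) (nat_lit 0) (nat_lit 6463435676) (nat_lit 1748) (nat_lit 3749155904) (nat_lit 534) (nat_lit 5) (nat_lit 533) (nat_lit 5) (nat_lit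 556) (nat_lit 5) (nat_lit 574) (nat_lit 565) (nat_lit 421)) (XT.lf (nat_lit 76) (nat_lit 6906047308) (nat_lit 0) (nat_lit 1525732211) (nat_lit 1748) (nat_lit 2885593305) (nat_lit 534) (nat_lit 5) (nat_lit 533) (nat_lit 5) (nat_lit 556) (nat_lit 5) (nat_lit 575) (nat_lit 565) (nat_lit 420))) (XT.nd (nat_lit 78) (nat_lit 0) (nat_lit 0) (XT.lf (nat_lit 76) (nat_lit 1493168742) (nat_lit 0) (nat_lit 7943822787) (nat_lit 1748) (nat_lit 1986454826) (nat_lit 535) (nat_lit 5) (nat_lit 534) (nat_lit 5) (nat_lit 557) (nat_lit 5) (nat_lit 576) (nat_lit 565) (nat_lit 419)) (XT.lf (nat_lit 76) (nat_lit 7555787819) (nat_lit 0) (nat_lit 2931840873) (nat_lit 1748) (nat_lit 1043506702) (nat_lit 535) (nat_lit 5) (nat_lit 534) (nat_lit 5) (nat_lit 557) (nat_lit 5) (nat_lit 577) (nat_lit 565) (nat_lit 418)))) (XT.nd (nat_lit 156) (nat_lit 0) (nat_lit 76) (XT.nd (nat_lit 78) (nat_lit 1748) (nat_lit 0) (XT.lf (nat_lit 76) (nat_lit 2102450308) (nat_lit 0) (nat_lit 9470627448)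 (nat_lit 1748) (nat_lit 67624922) (nat_lit 536) (nat_lit 5) (nat_lit 535) (nat_lit 5) (nat_lit 558) (nat_lit 5) (nat_lit 578) (nat_lit 565) (nat_lit 417)) (XT.lf (nat_lit 0) (nat_lit 947988888) (nat_lit 1748) (nat_lit 3431623095) (nat_lit 1824) (nat_lit 7372081633) (nat_lit 512) (nat_lit 5) (nat_lit 535) (nat_lit 5) (nat_lit 536) (nat_lit 5) (nat_lit 579) (nat_lit 565) (nat_lit 416))) (XT.nd (nat_lit 78) (nat_lit 0) (nat_lit 0) (XT.lf (nat_lit 0) (nat_lit 1993162303) (nat_lit 1748) (nat_lit 9046080058) (nat_lit 1824) (nat_lit 825450436) (nat_lit 513) (nat_lit 5) (nat_lit 536) (nat_lit 5) (nat_lit 537) (nat_lit 5) (nat_lit 580) (nat_lit 565) (nat_lit 415)) (XT.lf (nat_lit 0) (nat_lit 3098039320) (nat_lit 1748) (nat_lit 2778087221) (nat_lit 1824) (nat_lit 6103049831) (nat_lit 513) (nat_lit 5) (nat_lit 536) (nat_lit 5) (nat_lit 537) (nat_lit 5) (nat_lit 581) (nat_lit 565) (nat_lit 414))))))) (XT.nd (nat_lit 1170) (nat_lit 8284) (nat_lit 0) (XT.nd (nat_lit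 546) (nat_lit 5396) (nat_lit 0) (XT.nd (nat_lit 234) (nat_lit 0) (nat_lit 152) (XT.nd (nat_lit 78) (nat_lit 0) (nat_lit 76) (XT.lf (nat_lit 76) (nat_lit 3653565872) (nat_lit 0) (nat_lit 582047399) (nat_lit 1824) (nat_lit 7860124764) (nat_lit 514) (nat_lit 5) (nat_lit 513) (nat_lit 5) (nat_lit 537) (nat_lit 5) (nat_lit 582) (nat_lit 565) (nat_lit 413)) (XT.nd (nat_lit 78) (nat_lit 0) (nat_lit 0) (XT.lf (nat_lit 0) (nat_lit 5433080865) (nat_lit 1748) (nat_lit 2003987239) (nat_lit 1824) (nat_lit 4776820380) (nat_lit 514) (nat_lit 5) (nat_lit 537) (nat_lit 5) (nat_lit 538) (nat_lit 5) (nat_lit 583) (nat_lit 565) (nat_lit 412)) (XT.lf (nat_lit 76) (nat_lit 4609925257) (nat_lit 0) (nat_lit 2065706088) (nat_lit 1824) (nat_lit 5658348316) (nat_lit 515) (nat_lit 5) (nat_lit 514) (nat_lit 5) (nat_lit 538) (nat_lit 5) (nat_lit 584) (nat_lit 565) (nat_lit 411)))) (XT.nd (nat_lit 156) (nat_lit 0) (nat_lit 76) (XT.nd (nat_lit 78) (nat_lit 0) (nat_lit 0) (XT.lf (nat_lit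 0) (nat_lit 7966282563) (nat_lit 1748) (nat_lit 1105018711) (nat_lit 1824) (nat_lit 3384706774) (nat_lit 515) (nat_lit 5) (nat_lit 538) (nat_lit 5) (nat_lit 539) (nat_lit 5) (nat_lit 585) (nat_lit 565) (nat_lit 410)) (XT.lf (nat_lit 76) (nat_lit 5697791629) (nat_lit 0) (nat_lit 3623426111) (nat_lit 1824) (nat_lit 3258490218) (nat_lit 516) (nat_lit 5) (nat_lit 515) (nat_lit 5) (nat_lit 539) (nat_lit 5) (nat_lit 586) (nat_lit 565) (nat_lit 409))) (XT.nd (nat_lit 78) (nat_lit 0) (nat_lit 0) (XT.lf (nat_lit 0) (nat_lit 10711258695) (nat_lit 1748) (nat_lit 76545282) (nat_lit 1824) (nat_lit 1917918115) (nat_lit 516) (nat_lit 5) (nat_lit 539) (nat_lit 5) (nat_lit 540) (nat_lit 5) (nat_lit 587) (nat_lit 565) (nat_lit 408)) (XT.lf (nat_lit 76) (nat_lit 6922067568) (nat_lit 0) (nat_lit 5264196997) (nat_lit 1824) (nat_lit 646849018) (nat_lit 517) (nat_lit 5) (nat_lit 516) (nat_lit 5) (nat_lit 540) (nat_lit 5) (nat_lit 588) (nat_lit 565) (nat_lit 407))))) (XT.nd (nat_lit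 312) (nat_lit 2052) (nat_lit 0) (XT.nd (nat_lit 156) (nat_lit 1824) (nat_lit 0) (XT.nd (nat_lit 78) (nat_lit 0) (nat_lit 0) (XT.lf (nat_lit 0) (nat_lit 716635981) (nat_lit 1824) (nat_lit 11866953656) (nat_lit 76) (nat_lit 379399869) (nat_lit 493) (nat_lit 5) (nat_lit 517) (nat_lit 5) (nat_lit 494) (nat_lit 5) (nat_lit 589) (nat_lit 565) (nat_lit 406)) (XT.lf (nat_lit 0) (nat_lit 2162023414) (nat_lit 1824) (nat_lit 4820617335) (nat_lit 76) (nat_lit 6111471142) (nat_lit 493) (nat_lit 5) (nat_lit 517) (nat_lit 5) (nat_lit 494) (nat_lit 5) (nat_lit 590) (nat_lit 565) (nat_lit 405))) (XT.nd (nat_lit 78) (nat_lit 0) (nat_lit 0) (XT.lf (nat_lit 0) (nat_lit 2388238315) (nat_lit 1824) (nat_lit 1252306691) (nat_lit 1900) (nat_lit 9587227521) (nat_lit 469) (nat_lit 5) (nat_lit 493) (nat_lit 5) (nat_lit 494) (nat_lit 5) (nat_lit 591) (nat_lit 565) (nat_lit 404)) (XT.lf (nat_lit 0) (nat_lit 5199906817) (nat_lit 1900) (nat_lit 3596774002) (nat_lit 76) (nat_lit 4566400488)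 (nat_lit 469) (nat_lit 5) (nat_lit 494) (nat_lit 5) (nat_lit 470) (nat_lit 5) (nat_lit 592) (nat_lit 565) (nat_lit 403)))) (XT.nd (nat_lit 156) (nat_lit 912) (nat_lit 0) (XT.nd (nat_lit 78) (nat_lit 0) (nat_lit 0) (XT.lf (nat_lit 0) (nat_lit 3822983419) (nat_lit 1140) (nat_lit 2989693337) (nat_lit 1216) (nat_lit 6687975406) (nat_lit 454) (nat_lit 5) (nat_lit 469) (nat_lit 5) (nat_lit 470) (nat_lit 5) (nat_lit 593) (nat_lit 565) (nat_lit 402)) (XT.lf (nat_lit 0) (nat_lit 8490308287) (nat_lit 1216) (nat_lit 2229668323) (nat_lit 76) (nat_lit 2920346014) (nat_lit 454) (nat_lit 5) (nat_lit 470) (nat_lit 5) (nat_lit 455) (nat_lit 5) (nat_lit 594) (nat_lit 565) (nat_lit 401))) (XT.nd (nat_lit 78) (nat_lit 0) (nat_lit 0) (XT.lf (nat_lit 0) (nat_lit 5408760880) (nat_lit 912) (nat_lit 4837122932) (nat_lit 988) (nat_lit 3536015160) (nat_lit 442) (nat_lit 5) (nat_lit 454) (nat_lit 5) (nat_lit 455) (nat_lit 5) (nat_lit 595) (nat_lit 565) (nat_lit 400)) (XT.lf (nat_lit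 0) (nat_lit 12048809532) (nat_lit 988) (nat_lit 713295924) (nat_lit 76) (nat_lit 1163956922) (nat_lit 442) (nat_lit 5) (nat_lit 455) (nat_lit 5) (nat_lit 443) (nat_lit 5) (nat_lit 596) (nat_lit 565) (nat_lit 399)))))) (XT.nd (nat_lit 624) (nat_lit 3876) (nat_lit 0) (XT.nd (nat_lit 312) (nat_lit 1672) (nat_lit 0) (XT.nd (nat_lit 156) (nat_lit 912) (nat_lit 0) (XT.nd (nat_lit 78) (nat_lit 912) (nat_lit 0) (XT.lf (nat_lit 0) (nat_lit 7151881735) (nat_lit 912) (nat_lit 6804208029) (nat_lit 988) (nat_lit 115653660) (nat_lit 430) (nat_lit 5) (nat_lit 442) (nat_lit 5) (nat_lit 443) (nat_lit 5) (nat_lit 597) (nat_lit 565) (nat_lit 398)) (XT.lf (nat_lit 0) (nat_lit 955679542) (nat_lit 836) (nat_lit 704370167) (nat_lit 912) (nat_lit 12560051937) (nat_lit 418) (nat_lit 5) (nat_lit 429) (nat_lit 5) (nat_lit 430) (nat_lit 5) (nat_lit 598) (nat_lit 565) (nat_lit 397))) (XT.nd (nat_lit 78) (nat_lit 912) (nat_lit 0) (XT.lf (nat_lit 0) (nat_lit 3542322116) (nat_lit 912)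 (nat_lit 5334697476) (nat_lit 76) (nat_lit 5492940356) (nat_lit 418) (nat_lit 5) (nat_lit 430) (nat_lit 5) (nat_lit 419) (nat_lit 5) (nat_lit 599) (nat_lit 565) (nat_lit 396)) (XT.lf (nat_lit 0) (nat_lit 2775719006) (nat_lit 912) (nat_lit 2699438505) (nat_lit 988) (nat_lit 9047399828) (nat_lit 406) (nat_lit 5) (nat_lit 418) (nat_lit 5) (nat_lit 419) (nat_lit 5) (nat_lit 600) (nat_lit 565) (nat_lit 395)))) (XT.nd (nat_lit 156) (nat_lit 836) (nat_lit 0) (XT.nd (nat_lit 78) (nat_lit 836) (nat_lit 0) (XT.lf (nat_lit 0) (nat_lit 7496430692) (nat_lit 988) (nat_lit 3590227332) (nat_lit 76) (nat_lit 3590553300) (nat_lit 406) (nat_lit 5) (nat_lit 419) (nat_lit 5) (nat_lit 407) (nat_lit 5) (nat_lit 601) (nat_lit 565) (nat_lit 394)) (XT.lf (nat_lit 0) (nat_lit 4764546293) (nat_lit 836) (nat_lit 4832944500) (nat_lit 912) (nat_lit 5236680626) (nat_lit 395) (nat_lit 5) (nat_lit 406) (nat_lit 5) (nat_lit 407) (nat_lit 5) (nat_lit 602) (nat_lit 565) (nat_lit 393))) (XT.nd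 (nat_lit 78) (nat_lit 836) (nat_lit 0) (XT.lf (nat_lit 0) (nat_lit 11765532660) (nat_lit 912) (nat_lit 1678606120) (nat_lit 76) (nat_lit 1549632983) (nat_lit 395) (nat_lit 5) (nat_lit 407) (nat_lit 5) (nat_lit 396) (nat_lit 5) (nat_lit 603) (nat_lit 565) (nat_lit 392)) (XT.lf (nat_lit 0) (nat_lit 6929597253) (nat_lit 836) (nat_lit 7115190862) (nat_lit 912) (nat_lit 1110419194) (nat_lit 384) (nat_lit 5) (nat_lit 395) (nat_lit 5) (nat_lit 396) (nat_lit 5) (nat_lit 604) (nat_lit 565) (nat_lit 391))))) (XT.nd (nat_lit 312) (nat_lit 2280) (nat_lit 0) (XT.nd (nat_lit 156) (nat_lit 760) (nat_lit 0) (XT.nd (nat_lit 78) (nat_lit 0) (nat_lit 0) (XT.lf (nat_lit 0) (nat_lit 401881701) (nat_lit 760) (nat_lit 638968757) (nat_lit 836) (nat_lit 14278787815) (nat_lit 373) (nat_lit 5) (nat_lit 383) (nat_lit 5) (nat_lit 384) (nat_lit 5) (nat_lit 605) (nat_lit 565) (nat_lit 390)) (XT.lf (nat_lit 0) (nat_lit 3305620739) (nat_lit 836) (nat_lit 6228974174) (nat_lit 76) (nat_lit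 5950909508) (nat_lit 373) (nat_lit 5) (nat_lit 384) (nat_lit 5) (nat_lit 374) (nat_lit 5) (nat_lit 606) (nat_lit 565) (nat_lit 389))) (XT.nd (nat_lit 78) (nat_lit 0) (nat_lit 0) (XT.lf (nat_lit 0) (nat_lit 2654674425) (nat_lit 760) (nat_lit 2973681295) (nat_lit 836) (nat_lit 10026079016) (nat_lit 363) (nat_lit 5) (nat_lit 373) (nat_lit 5) (nat_lit 374) (nat_lit 5) (nat_lit 607) (nat_lit 565) (nat_lit 388)) (XT.lf (nat_lit 0) (nat_lit 8055072812) (nat_lit 836) (nat_lit 4059496815) (nat_lit 76) (nat_lit 3711023712) (nat_lit 363) (nat_lit 5) (nat_lit 374) (nat_lit 5) (nat_lit 364) (nat_lit 5) (nat_lit 608) (nat_lit 565) (nat_lit 387)))) (XT.nd (nat_lit 156) (nat_lit 1520) (nat_lit 0) (XT.nd (nat_lit 78) (nat_lit 0) (nat_lit 0) (XT.lf (nat_lit 0) (nat_lit 5097318133) (nat_lit 760) (nat_lit 5477273208) (nat_lit 836) (nat_lit 5424698653) (nat_lit 353) (nat_lit 5) (nat_lit 363) (nat_lit 5) (nat_lit 364) (nat_lit 5) (nat_lit 609) (nat_lit 565) (nat_lit 386)) (XT.lf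 (nat_lit 0) (nat_lit 13171894493) (nat_lit 836) (nat_lit 1701706072) (nat_lit 76) (nat_lit 1302312353) (nat_lit 353) (nat_lit 5) (nat_lit 364) (nat_lit 5) (nat_lit 354) (nat_lit 5) (nat_lit 610) (nat_lit 565) (nat_lit 385))) (XT.nd (nat_lit 78) (nat_lit 760) (nat_lit 0) (XT.lf (nat_lit 0) (nat_lit 7738456158) (nat_lit 760) (nat_lit 8160948159) (nat_lit 836) (nat_lit 455098985) (nat_lit 343) (nat_lit 5) (nat_lit 353) (nat_lit 5) (nat_lit 354) (nat_lit 5) (nat_lit 611) (nat_lit 565) (nat_lit 384)) (XT.lf (nat_lit 0) (nat_lit 841715043) (nat_lit 684) (nat_lit 1283705920) (nat_lit 760) (nat_lit 14410791197) (nat_lit 333) (nat_lit 5) (nat_lit 342) (nat_lit 5) (nat_lit 343) (nat_lit 5) (nat_lit 612) (nat_lit 565) (nat_lit 383))))))))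
noncomputable def xc149 : XT := (XT.nd (nat_lit 2418) (nat_lit 6992) (nat_lit 0) (XT.nd (nat_lit 1170) (nat_lit 5168) (nat_lit 0) (XT.nd (nat_lit 546) (nat_lit 2432) (nat_lit 0) (XT.nd (nat_lit 234) (nat_lit 2052) (nat_lit 0) (XT.nd (nat_lit 78) (nat_lit 684) (nat_lit 0) (XT.lf (nat_lit 0) (nat_lit 4838758585) (nat_lit 760) (nat_lit 6165047931) (nat_lit 76) (nat_lit 5715942696) (nat_lit 333) (nat_lit 5) (nat_lit 343) (nat_lit 5) (nat_lit 334) (nat_lit 5) (nat_lit 613) (nat_lit 565) (nat_lit 382)) (XT.nd (nat_lit 78) (nat_lit 0) (nat_lit 0) (XT.lf (nat_lit 0) (nat_lit 3584214553) (nat_lit 684) (nat_lit 4045964261) (nat_lit 760) (nat_lit 9276302074) (nat_lit 324) (nat_lit 5) (nat_lit 333) (nat_lit 5) (nat_lit 334) (nat_lit 5) (nat_lit 614) (nat_lit 565) (nat_lit 381)) (XT.lf (nat_lit 0) (nat_lit 10531012187) (nat_lit 760) (nat_lit 3513541413) (nat_lit 76) (nat_lit 3051322096) (nat_lit 324) (nat_lit 5) (nat_lit 334) (nat_lit 5) (nat_lit 325) (nat_lit 5) (nat_lit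 615) (nat_lit 565) (nat_lit 380)))) (XT.nd (nat_lit 156) (nat_lit 1368) (nat_lit 0) (XT.nd (nat_lit 78) (nat_lit 0) (nat_lit 0) (XT.lf (nat_lit 0) (nat_lit 6541166385) (nat_lit 684) (nat_lit 7010244902) (nat_lit 760) (nat_lit 3736416322) (nat_lit 315) (nat_lit 5) (nat_lit 324) (nat_lit 5) (nat_lit 325) (nat_lit 5) (nat_lit 616) (nat_lit 565) (nat_lit 379)) (XT.lf (nat_lit 0) (nat_lit 16649389167) (nat_lit 760) (nat_lit 649045690) (nat_lit 76) (nat_lit 184840474) (nat_lit 315) (nat_lit 5) (nat_lit 325) (nat_lit 5) (nat_lit 316) (nat_lit 5) (nat_lit 617) (nat_lit 565) (nat_lit 378))) (XT.nd (nat_lit 78) (nat_lit 608) (nat_lit 0) (XT.lf (nat_lit 0) (nat_lit 2201545842) (nat_lit 760) (nat_lit 7972551832) (nat_lit 76) (nat_lit 7506203492) (nat_lit 305) (nat_lit 5) (nat_lit 315) (nat_lit 5) (nat_lit 306) (nat_lit 5) (nat_lit 618) (nat_lit 565) (nat_lit 377)) (XT.lf (nat_lit 0) (nat_lit 2416311136) (nat_lit 608) (nat_lit 2882848539) (nat_lit 684) (nat_lit 12581745000)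 (nat_lit 297) (nat_lit 5) (nat_lit 305) (nat_lit 5) (nat_lit 306) (nat_lit 5) (nat_lit 619) (nat_lit 565) (nat_lit 376))))) (XT.nd (nat_lit 312) (nat_lit 1140) (nat_lit 0) (XT.nd (nat_lit 156) (nat_lit 684) (nat_lit 0) (XT.nd (nat_lit 78) (nat_lit 608) (nat_lit 0) (XT.lf (nat_lit 0) (nat_lit 8534781076) (nat_lit 684) (nat_lit 5002554175) (nat_lit 76) (nat_lit 4546664069) (nat_lit 297) (nat_lit 5) (nat_lit 306) (nat_lit 5) (nat_lit 298) (nat_lit 5) (nat_lit 620) (nat_lit 565) (nat_lit 375)) (XT.lf (nat_lit 0) (nat_lit 5715573502) (nat_lit 608) (nat_lit 6168518795) (nat_lit 684) (nat_lit 6406084184) (nat_lit 289) (nat_lit 5) (nat_lit 297) (nat_lit 5) (nat_lit 298) (nat_lit 5) (nat_lit 621) (nat_lit 565) (nat_lit 374))) (XT.nd (nat_lit 78) (nat_lit 684) (nat_lit 0) (XT.lf (nat_lit 0) (nat_lit 15335779831) (nat_lit 684) (nat_lit 1801996750) (nat_lit 76) (nat_lit 1361992966) (nat_lit 289) (nat_lit 5) (nat_lit 298) (nat_lit 5) (nat_lit 290) (nat_lit 5) (nat_lit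 622) (nat_lit 565) (nat_lit 373)) (XT.lf (nat_lit 0) (nat_lit 235640437) (nat_lit 684) (nat_lit 9455513954) (nat_lit 76) (nat_lit 9020490312) (nat_lit 280) (nat_lit 5) (nat_lit 289) (nat_lit 5) (nat_lit 281) (nat_lit 5) (nat_lit 623) (nat_lit 565) (nat_lit 372)))) (XT.nd (nat_lit 156) (nat_lit 532) (nat_lit 0) (XT.nd (nat_lit 78) (nat_lit 0) (nat_lit 0) (XT.lf (nat_lit 0) (nat_lit 1623643283) (nat_lit 608) (nat_lit 2053030052) (nat_lit 684) (nat_lit 15250350384) (nat_lit 272) (nat_lit 5) (nat_lit 280) (nat_lit 5) (nat_lit 281) (nat_lit 5) (nat_lit 624) (nat_lit 565) (nat_lit 371)) (XT.lf (nat_lit 0) (nat_lit 7280740877) (nat_lit 684) (nat_lit 6139575400) (nat_lit 76) (nat_lit 5724509911) (nat_lit 272) (nat_lit 5) (nat_lit 281) (nat_lit 5) (nat_lit 273) (nat_lit 5) (nat_lit 625) (nat_lit 565) (nat_lit 370))) (XT.nd (nat_lit 78) (nat_lit 0) (nat_lit 0) (XT.lf (nat_lit 0) (nat_lit 5294509146) (nat_lit 532) (nat_lit 5703576168) (nat_lit 608) (nat_lit 8368075633)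 (nat_lit 265) (nat_lit 5) (nat_lit 272) (nat_lit 5) (nat_lit 273) (nat_lit 5) (nat_lit 626) (nat_lit 565) (nat_lit 369)) (XT.lf (nat_lit 0) (nat_lit 14838608310) (nat_lit 608) (nat_lit 2573846445) (nat_lit 76) (nat_lit 2178491159) (nat_lit 265) (nat_lit 5) (nat_lit 273) (nat_lit 5) (nat_lit 266) (nat_lit 5) (nat_lit 627) (nat_lit 565) (nat_lit 368)))))) (XT.nd (nat_lit 624) (nat_lit 2356) (nat_lit 0) (XT.nd (nat_lit 312) (nat_lit 1064) (nat_lit 0) (XT.nd (nat_lit 156) (nat_lit 532) (nat_lit 0) (XT.nd (nat_lit 78) (nat_lit 608) (nat_lit 0) (XT.lf (nat_lit 0) (nat_lit 9228448993) (nat_lit 608) (nat_lit 9618599857) (nat_lit 684) (nat_lit 971355734) (nat_lit 257) (nat_lit 5) (nat_lit 265) (nat_lit 5) (nat_lit 266) (nat_lit 5) (nat_lit 628) (nat_lit 565) (nat_lit 367)) (XT.lf (nat_lit 0) (nat_lit 1240275062) (nat_lit 532) (nat_lit 1626016500) (nat_lit 608) (nat_lit 17183368619) (nat_lit 249) (nat_lit 5) (nat_lit 256) (nat_lit 5) (nat_lit 257) (nat_lit 5) (nat_lit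 629) (nat_lit 565) (nat_lit 366))) (XT.nd (nat_lit 78) (nat_lit 532) (nat_lit 0) (XT.lf (nat_lit 0) (nat_lit 6875111121) (nat_lit 608) (nat_lit 6891551232) (nat_lit 76) (nat_lit 6516601745) (nat_lit 249) (nat_lit 5) (nat_lit 257) (nat_lit 5) (nat_lit 250) (nat_lit 5) (nat_lit 630) (nat_lit 565) (nat_lit 365)) (XT.lf (nat_lit 0) (nat_lit 5314935874) (nat_lit 532) (nat_lit 5688079932) (nat_lit 608) (nat_lit 9517746247) (nat_lit 242) (nat_lit 5) (nat_lit 249) (nat_lit 5) (nat_lit 250) (nat_lit 5) (nat_lit 631) (nat_lit 565) (nat_lit 364)))) (XT.nd (nat_lit 156) (nat_lit 608) (nat_lit 0) (XT.nd (nat_lit 78) (nat_lit 456) (nat_lit 0) (XT.lf (nat_lit 0) (nat_lit 15270287145) (nat_lit 608) (nat_lit 2928687442) (nat_lit 76) (nat_lit 2562899337) (nat_lit 242) (nat_lit 5) (nat_lit 250) (nat_lit 5) (nat_lit 243) (nat_lit 5) (nat_lit 632) (nat_lit 565) (nat_lit 363)) (XT.lf (nat_lit 0) (nat_lit 9674684513) (nat_lit 456) (nat_lit 10042513664) (nat_lit 532) (nat_lit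 1288724100) (nat_lit 236) (nat_lit 5) (nat_lit 242) (nat_lit 5) (nat_lit 243) (nat_lit 5) (nat_lit 633) (nat_lit 565) (nat_lit 362))) (XT.nd (nat_lit 78) (nat_lit 0) (nat_lit 0) (XT.lf (nat_lit 0) (nat_lit 1304323175) (nat_lit 532) (nat_lit 1676638592) (nat_lit 608) (nat_lit 18273058873) (nat_lit 228) (nat_lit 5) (nat_lit 235) (nat_lit 5) (nat_lit 236) (nat_lit 5) (nat_lit 634) (nat_lit 565) (nat_lit 361)) (XT.lf (nat_lit 0) (nat_lit 7433747139) (nat_lit 608) (nat_lit 7221524004) (nat_lit 76) (nat_lit 6849340340) (nat_lit 228) (nat_lit 5) (nat_lit 236) (nat_lit 5) (nat_lit 229) (nat_lit 5) (nat_lit 635) (nat_lit 565) (nat_lit 360))))) (XT.nd (nat_lit 312) (nat_lit 912) (nat_lit 0) (XT.nd (nat_lit 156) (nat_lit 988) (nat_lit 0) (XT.nd (nat_lit 78) (nat_lit 0) (nat_lit 0) (XT.lf (nat_lit 0) (nat_lit 5817980281) (nat_lit 456) (nat_lit 6200491807) (nat_lit 532) (nat_lit 9740884498) (nat_lit 222) (nat_lit 5) (nat_lit 228) (nat_lit 5) (nat_lit 229) (nat_lit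 5) (nat_lit 636) (nat_lit 565) (nat_lit 359)) (XT.lf (nat_lit 0) (nat_lit 16753460269) (nat_lit 532) (nat_lit 2826598515) (nat_lit 76) (nat_lit 2437966549) (nat_lit 222) (nat_lit 5) (nat_lit 229) (nat_lit 5) (nat_lit 223) (nat_lit 5) (nat_lit 637) (nat_lit 565) (nat_lit 358))) (XT.nd (nat_lit 78) (nat_lit 532) (nat_lit 0) (XT.lf (nat_lit 0) (nat_lit 10640652018) (nat_lit 456) (nat_lit 11046815191) (nat_lit 532) (nat_lit 592313978) (nat_lit 216) (nat_lit 5) (nat_lit 222) (nat_lit 5) (nat_lit 223) (nat_lit 5) (nat_lit 638) (nat_lit 565) (nat_lit 357)) (XT.lf (nat_lit 0) (nat_lit 1857979185) (nat_lit 456) (nat_lit 2286017436) (nat_lit 532) (nat_lit 18401726738) (nat_lit 209) (nat_lit 5) (nat_lit 215) (nat_lit 5) (nat_lit 216) (nat_lit 5) (nat_lit 639) (nat_lit 565) (nat_lit 356)))) (XT.nd (nat_lit 156) (nat_lit 456) (nat_lit 0) (XT.nd (nat_lit 78) (nat_lit 456) (nat_lit 0) (XT.lf (nat_lit 0) (nat_lit 9083143872) (nat_lit 532) (nat_lit 7088617529) (nat_lit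 76) (nat_lit 6642823946) (nat_lit 209) (nat_lit 5) (nat_lit 216) (nat_lit 5) (nat_lit 210) (nat_lit 5) (nat_lit 640) (nat_lit 565) (nat_lit 355)) (XT.lf (nat_lit 0) (nat_lit 6848961776) (nat_lit 456) (nat_lit 7326068491) (nat_lit 532) (nat_lit 8912715288) (nat_lit 203) (nat_lit 5) (nat_lit 209) (nat_lit 5) (nat_lit 210) (nat_lit 5) (nat_lit 641) (nat_lit 565) (nat_lit 354))) (XT.nd (nat_lit 78) (nat_lit 456) (nat_lit 0) (XT.lf (nat_lit 0) (nat_lit 19422042961) (nat_lit 532) (nat_lit 2223624217) (nat_lit 76) (nat_lit 1719636122) (nat_lit 203) (nat_lit 5) (nat_lit 210) (nat_lit 5) (nat_lit 204) (nat_lit 5) (nat_lit 642) (nat_lit 565) (nat_lit 353)) (XT.lf (nat_lit 0) (nat_lit 1233694439) (nat_lit 456) (nat_lit 11479185238) (nat_lit 76) (nat_lit 10932929003) (nat_lit 197) (nat_lit 5) (nat_lit 203) (nat_lit 5) (nat_lit 198) (nat_lit 5) (nat_lit 643) (nat_lit 565) (nat_lit 352))))))) (XT.nd (nat_lit 1170) (nat_lit 3344) (nat_lit 0) (XT.nd (nat_lit 546) (nat_lit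 1976) (nat_lit 0) (XT.nd (nat_lit 234) (nat_lit 836) (nat_lit 0) (XT.nd (nat_lit 78) (nat_lit 380) (nat_lit 0) (XT.lf (nat_lit 0) (nat_lit 2947521231) (nat_lit 456) (nat_lit 3542593565) (nat_lit 532) (nat_lit 17440713633) (nat_lit 191) (nat_lit 5) (nat_lit 197) (nat_lit 5) (nat_lit 198) (nat_lit 5) (nat_lit 644) (nat_lit 565) (nat_lit 351)) (XT.nd (nat_lit 78) (nat_lit 380) (nat_lit 0) (XT.lf (nat_lit 0) (nat_lit 11961492193) (nat_lit 532) (nat_lit 6448035528) (nat_lit 76) (nat_lit 5809824376) (nat_lit 191) (nat_lit 5) (nat_lit 198) (nat_lit 5) (nat_lit 192) (nat_lit 5) (nat_lit 645) (nat_lit 565) (nat_lit 350)) (XT.lf (nat_lit 0) (nat_lit 8457407839) (nat_lit 380) (nat_lit 9157925610) (nat_lit 456) (nat_lit 6896852156) (nat_lit 186) (nat_lit 5) (nat_lit 191) (nat_lit 5) (nat_lit 192) (nat_lit 5) (nat_lit 646) (nat_lit 565) (nat_lit 349)))) (XT.nd (nat_lit 156) (nat_lit 380) (nat_lit 0) (XT.nd (nat_lit 78) (nat_lit 456) (nat_lit 0) (XT.lf (nat_lit 0) (nat_lit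 23422317489) (nat_lit 456) (nat_lit 1071770787) (nat_lit 76) (nat_lit 315986279) (nat_lit 186) (nat_lit 5) (nat_lit 192) (nat_lit 5) (nat_lit 187) (nat_lit 5) (nat_lit 647) (nat_lit 565) (nat_lit 348)) (XT.lf (nat_lit 0) (nat_lit 4325500610) (nat_lit 456) (nat_lit 10809087915) (nat_lit 76) (nat_lit 9975793815) (nat_lit 180) (nat_lit 5) (nat_lit 186) (nat_lit 5) (nat_lit 181) (nat_lit 5) (nat_lit 648) (nat_lit 565) (nat_lit 347))) (XT.nd (nat_lit 78) (nat_lit 0) (nat_lit 0) (XT.lf (nat_lit 0) (nat_lit 4623305179) (nat_lit 380) (nat_lit 5543231906) (nat_lit 456) (nat_lit 15249333906) (nat_lit 175) (nat_lit 5) (nat_lit 180) (nat_lit 5) (nat_lit 181) (nat_lit 5) (nat_lit 649) (nat_lit 565) (nat_lit 346)) (XT.lf (nat_lit 0) (nat_lit 16219791982) (nat_lit 456) (nat_lit 5251083526) (nat_lit 76) (nat_lit 4254686038) (nat_lit 175) (nat_lit 5) (nat_lit 181) (nat_lit 5) (nat_lit 176) (nat_lit 5) (nat_lit 650) (nat_lit 565) (nat_lit 345))))) (XT.nd (nat_lit 312) (nat_lit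 760) (nat_lit 0) (XT.nd (nat_lit 156) (nat_lit 380) (nat_lit 0) (XT.nd (nat_lit 78) (nat_lit 456) (nat_lit 0) (XT.lf (nat_lit 0) (nat_lit 10697045237) (nat_lit 380) (nat_lit 11798184179) (nat_lit 456) (nat_lit 3544194230) (nat_lit 170) (nat_lit 5) (nat_lit 175) (nat_lit 5) (nat_lit 176) (nat_lit 5) (nat_lit 651) (nat_lit 565) (nat_lit 344)) (XT.lf (nat_lit 0) (nat_lit 660637284) (nat_lit 380) (nat_lit 1877438027) (nat_lit 456) (nat_lit 23820463752) (nat_lit 164) (nat_lit 5) (nat_lit 169) (nat_lit 5) (nat_lit 170) (nat_lit 5) (nat_lit 652) (nat_lit 565) (nat_lit 343))) (XT.nd (nat_lit 78) (nat_lit 380) (nat_lit 0) (XT.lf (nat_lit 0) (nat_lit 8846727037) (nat_lit 456) (nat_lit 9575771609) (nat_lit 76) (nat_lit 8258025807) (nat_lit 164) (nat_lit 5) (nat_lit 170) (nat_lit 5) (nat_lit 165) (nat_lit 5) (nat_lit 653) (nat_lit 565) (nat_lit 342)) (XT.lf (nat_lit 0) (nat_lit 6939723565) (nat_lit 380) (nat_lit 8394418102) (nat_lit 456) (nat_lit 11673756163) (nat_lit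 159) (nat_lit 5) (nat_lit 164) (nat_lit 5) (nat_lit 165) (nat_lit 5) (nat_lit 654) (nat_lit 565) (nat_lit 341)))) (XT.nd (nat_lit 156) (nat_lit 380) (nat_lit 0) (XT.nd (nat_lit 78) (nat_lit 380) (nat_lit 0) (XT.lf (nat_lit 0) (nat_lit 22023025626) (nat_lit 456) (nat_lit 3445226139) (nat_lit 76) (nat_lit 1872132566) (nat_lit 159) (nat_lit 5) (nat_lit 165) (nat_lit 5) (nat_lit 160) (nat_lit 5) (nat_lit 655) (nat_lit 565) (nat_lit 340)) (XT.lf (nat_lit 0) (nat_lit 1291077702) (nat_lit 380) (nat_lit 14059473969) (nat_lit 76) (nat_lit 12326013422) (nat_lit 154) (nat_lit 5) (nat_lit 159) (nat_lit 5) (nat_lit 155) (nat_lit 5) (nat_lit 656) (nat_lit 565) (nat_lit 339))) (XT.nd (nat_lit 78) (nat_lit 0) (nat_lit 0) (XT.lf (nat_lit 0) (nat_lit 3045369926) (nat_lit 380) (nat_lit 4953462159) (nat_lit 456) (nat_lit 20019167528) (nat_lit 149) (nat_lit 5) (nat_lit 154) (nat_lit 5) (nat_lit 155) (nat_lit 5) (nat_lit 657) (nat_lit 565) (nat_lit 338)) (XT.lf (nat_lit 0)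 (nat_lit 14967670350) (nat_lit 456) (nat_lit 7726382386) (nat_lit 76) (nat_lit 5669671579) (nat_lit 149) (nat_lit 5) (nat_lit 155) (nat_lit 5) (nat_lit 150) (nat_lit 5) (nat_lit 658) (nat_lit 565) (nat_lit 337)))))) (XT.nd (nat_lit 624) (nat_lit 1596) (nat_lit 0) (XT.nd (nat_lit 312) (nat_lit 684) (nat_lit 0) (XT.nd (nat_lit 156) (nat_lit 684) (nat_lit 0) (XT.nd (nat_lit 78) (nat_lit 76) (nat_lit 0) (XT.lf (nat_lit 0) (nat_lit 9955118732) (nat_lit 304) (nat_lit 12213562914) (nat_lit 380) (nat_lit 6545826010) (nat_lit 145) (nat_lit 5) (nat_lit 149) (nat_lit 5) (nat_lit 150) (nat_lit 5) (nat_lit 659) (nat_lit 565) (nat_lit 336)) (XT.lf (nat_lit 0) (nat_lit 483178074) (nat_lit 380) (nat_lit 986938591) (nat_lit 76) (nat_lit 27601181530) (nat_lit 144) (nat_lit 5) (nat_lit 149) (nat_lit 5) (nat_lit 145) (nat_lit 5) (nat_lit 660) (nat_lit 565) (nat_lit 335))) (XT.nd (nat_lit 78) (nat_lit 304) (nat_lit 0) (XT.lf (nat_lit 0) (nat_lit 7735709352) (nat_lit 456) (nat_lit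 12177381684) (nat_lit 76) (nat_lit 9517856302) (nat_lit 139) (nat_lit 5) (nat_lit 145) (nat_lit 5) (nat_lit 140) (nat_lit 5) (nat_lit 661) (nat_lit 565) (nat_lit 334)) (XT.lf (nat_lit 0) (nat_lit 6138001588) (nat_lit 304) (nat_lit 9047028388) (nat_lit 380) (nat_lit 14611724777) (nat_lit 135) (nat_lit 5) (nat_lit 139) (nat_lit 5) (nat_lit 140) (nat_lit 5) (nat_lit 662) (nat_lit 565) (nat_lit 333)))) (XT.nd (nat_lit 156) (nat_lit 304) (nat_lit 0) (XT.nd (nat_lit 78) (nat_lit 380) (nat_lit 0) (XT.lf (nat_lit 0) (nat_lit 22874323486) (nat_lit 380) (nat_lit 5204590471) (nat_lit 76) (nat_lit 2089144690) (nat_lit 135) (nat_lit 5) (nat_lit 140) (nat_lit 5) (nat_lit 136) (nat_lit 5) (nat_lit 663) (nat_lit 565) (nat_lit 332)) (XT.lf (nat_lit 0) (nat_lit 313998950) (nat_lit 380) (nat_lit 16814327028) (nat_lit 76) (nat_lit 13415528099) (nat_lit 130) (nat_lit 5) (nat_lit 135) (nat_lit 5) (nat_lit 131) (nat_lit 5) (nat_lit 664) (nat_lit 565) (nat_lit 331))) (XT.nd (nat_lit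 78) (nat_lit 0) (nat_lit 0) (XT.lf (nat_lit 0) (nat_lit 2158979674) (nat_lit 304) (nat_lit 5862116960) (nat_lit 380) (nat_lit 22904207168) (nat_lit 126) (nat_lit 5) (nat_lit 130) (nat_lit 5) (nat_lit 131) (nat_lit 5) (nat_lit 665) (nat_lit 565) (nat_lit 330)) (XT.lf (nat_lit 0) (nat_lit 16028094141) (nat_lit 380) (nat_lit 9616980483) (nat_lit 76) (nat_lit 5666392797) (nat_lit 126) (nat_lit 5) (nat_lit 131) (nat_lit 5) (nat_lit 127) (nat_lit 5) (nat_lit 666) (nat_lit 565) (nat_lit 329))))) (XT.nd (nat_lit 312) (nat_lit 608) (nat_lit 0) (XT.nd (nat_lit 156) (nat_lit 608) (nat_lit 0) (XT.nd (nat_lit 78) (nat_lit 76) (nat_lit 0) (XT.lf (nat_lit 0) (nat_lit 10000596893) (nat_lit 304) (nat_lit 14294100652) (nat_lit 380) (nat_lit 7408667504) (nat_lit 122) (nat_lit 5) (nat_lit 126) (nat_lit 5) (nat_lit 127) (nat_lit 5) (nat_lit 667) (nat_lit 565) (nat_lit 328)) (XT.lf (nat_lit 0) (nat_lit 676040632) (nat_lit 380) (nat_lit 1972500216) (nat_lit 76) (nat_lit 29453265148)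 (nat_lit 121) (nat_lit 5) (nat_lit 126) (nat_lit 5) (nat_lit 122) (nat_lit 5) (nat_lit 668) (nat_lit 565) (nat_lit 327))) (XT.nd (nat_lit 78) (nat_lit 304) (nat_lit 0) (XT.lf (nat_lit 0) (nat_lit 8999218191) (nat_lit 380) (nat_lit 14229121317) (nat_lit 76) (nat_lit 9275377335) (nat_lit 117) (nat_lit 5) (nat_lit 122) (nat_lit 5) (nat_lit 118) (nat_lit 5) (nat_lit 669) (nat_lit 565) (nat_lit 326)) (XT.lf (nat_lit 0) (nat_lit 6095301851) (nat_lit 304) (nat_lit 11459823200) (nat_lit 380) (nat_lit 15357215591) (nat_lit 113) (nat_lit 5) (nat_lit 117) (nat_lit 5) (nat_lit 118) (nat_lit 5) (nat_lit 670) (nat_lit 565) (nat_lit 325)))) (XT.nd (nat_lit 156) (nat_lit 304) (nat_lit 0) (XT.nd (nat_lit 78) (nat_lit 304) (nat_lit 0) (XT.lf (nat_lit 0) (nat_lit 26377645170) (nat_lit 380) (nat_lit 6319298931) (nat_lit 76) (nat_lit 630282966) (nat_lit 113) (nat_lit 5) (nat_lit 118) (nat_lit 5) (nat_lit 114) (nat_lit 5) (nat_lit 671) (nat_lit 565) (nat_lit 324)) (XT.lf (nat_lit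 0) (nat_lit 1773235712) (nat_lit 304) (nat_lit 19060319733) (nat_lit 76) (nat_lit 12913277471) (nat_lit 109) (nat_lit 5) (nat_lit 113) (nat_lit 5) (nat_lit 110) (nat_lit 5) (nat_lit 672) (nat_lit 565) (nat_lit 323))) (XT.nd (nat_lit 78) (nat_lit 0) (nat_lit 0) (XT.lf (nat_lit 0) (nat_lit 1997135202) (nat_lit 304) (nat_lit 8631995668) (nat_lit 380) (nat_lit 23543747803) (nat_lit 105) (nat_lit 5) (nat_lit 109) (nat_lit 5) (nat_lit 110) (nat_lit 5) (nat_lit 673) (nat_lit 565) (nat_lit 322)) (XT.lf (nat_lit 0) (nat_lit 19811609090) (nat_lit 380) (nat_lit 10903276624) (nat_lit 76) (nat_lit 3889570375) (nat_lit 105) (nat_lit 5) (nat_lit 110) (nat_lit 5) (nat_lit 106) (nat_lit 5) (nat_lit 674) (nat_lit 565) (nat_lit 321))))))))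
noncomputable def xc150 : XT := (XT.nd (nat_lit 74646) (nat_lit 0) (nat_lit 16188) (XT.nd (nat_lit 73398) (nat_lit 0) (nat_lit 31008) (XT.nd (nat_lit 72774) (nat_lit 0) (nat_lit 33820) (XT.nd (nat_lit 234) (nat_lit 988) (nat_lit 0) (XT.nd (nat_lit 78) (nat_lit 380) (nat_lit 0) (XT.lf (nat_lit 0) (nat_lit 10873325907) (nat_lit 228) (nat_lit 18428205636) (nat_lit 304) (nat_lit 5740657662) (nat_lit 102) (nat_lit 5) (nat_lit 105) (nat_lit 5) (nat_lit 106) (nat_lit 5) (nat_lit 675) (nat_lit 565) (nat_lit 320)) (XT.nd (nat_lit 78) (nat_lit 304) (nat_lit 0) (XT.lf (nat_lit 0) (nat_lit 3516461415) (nat_lit 304) (nat_lit 2283879016) (nat_lit 76) (nat_lit 29686489241) (nat_lit 101) (nat_lit 5) (nat_lit 105) (nat_lit 5) (nat_lit 102) (nat_lit 5) (nat_lit 676) (nat_lit 565) (nat_lit 319)) (XT.lf (nat_lit 0) (nat_lit 13056659560) (nat_lit 380) (nat_lit 15724253321) (nat_lit 76) (nat_lit 7155195113) (nat_lit 97) (nat_lit 5) (nat_lit 102) (nat_lit 5) (nat_lit 98) (nat_lit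 5) (nat_lit 677) (nat_lit 565) (nat_lit 318)))) (XT.nd (nat_lit 390) (nat_lit 760) (nat_lit 0) (XT.nd (nat_lit 78) (nat_lit 0) (nat_lit 0) (XT.lf (nat_lit 0) (nat_lit 6838930699) (nat_lit 228) (nat_lit 16043107881) (nat_lit 304) (nat_lit 13510445807) (nat_lit 94) (nat_lit 5) (nat_lit 97) (nat_lit 5) (nat_lit 98) (nat_lit 5) (nat_lit 678) (nat_lit 565) (nat_lit 317)) (XT.lf (nat_lit 0) (nat_lit 30059923495) (nat_lit 228) (nat_lit 2945686312) (nat_lit 304) (nat_lit 3850344850) (nat_lit 94) (nat_lit 5) (nat_lit 97) (nat_lit 5) (nat_lit 98) (nat_lit 5) (nat_lit 679) (nat_lit 565) (nat_lit 316))) (XT.nd (nat_lit 72072) (nat_lit 0) (nat_lit 33820) (XT.lf (nat_lit 0) (nat_lit 12591391271) (nat_lit 228) (nat_lit 25080394588) (nat_lit 304) (nat_lit 1099987136) (nat_lit 84) (nat_lit 5) (nat_lit 87) (nat_lit 5) (nat_lit 88) (nat_lit 5) (nat_lit 683) (nat_lit 565) (nat_lit 312)) (XT.lf (nat_lit 0) (nat_lit 808419069) (nat_lit 1748) (nat_lit 2227616661) (nat_lit 1748)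 (nat_lit 2227616661) (nat_lit 529) (nat_lit 3) (nat_lit 552) (nat_lit 3) (nat_lit 552) (nat_lit 5) (nat_lit 566) (nat_lit 566) (nat_lit 428))))) (XT.nd (nat_lit 312) (nat_lit 0) (nat_lit 152) (XT.nd (nat_lit 156) (nat_lit 0) (nat_lit 76) (XT.nd (nat_lit 78) (nat_lit 0) (nat_lit 76) (XT.lf (nat_lit 76) (nat_lit 798637671) (nat_lit 0) (nat_lit 1473287102) (nat_lit 1748) (nat_lit 8347854341) (nat_lit 530) (nat_lit 5) (nat_lit 529) (nat_lit 3) (nat_lit 552) (nat_lit 5) (nat_lit 567) (nat_lit 566) (nat_lit 427)) (XT.lf (nat_lit 0) (nat_lit 2974471758) (nat_lit 1672) (nat_lit 4525592317) (nat_lit 1748) (nat_lit 3213352216) (nat_lit 530) (nat_lit 5) (nat_lit 552) (nat_lit 5) (nat_lit 553) (nat_lit 5) (nat_lit 568) (nat_lit 566) (nat_lit 426))) (XT.nd (nat_lit 78) (nat_lit 0) (nat_lit 76) (XT.lf (nat_lit 76) (nat_lit 868702830) (nat_lit 0) (nat_lit 2821463613) (nat_lit 1748) (nat_lit 7118778358) (nat_lit 531) (nat_lit 5) (nat_lit 530) (nat_lit 5) (nat_lit 553)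 (nat_lit 5) (nat_lit 569) (nat_lit 566) (nat_lit 425)) (XT.lf (nat_lit 0) (nat_lit 4447420449) (nat_lit 1672) (nat_lit 4495525441) (nat_lit 1748) (nat_lit 1962893595) (nat_lit 531) (nat_lit 5) (nat_lit 553) (nat_lit 5) (nat_lit 554) (nat_lit 5) (nat_lit 570) (nat_lit 566) (nat_lit 424)))) (XT.nd (nat_lit 156) (nat_lit 0) (nat_lit 76) (XT.nd (nat_lit 78) (nat_lit 0) (nat_lit 76) (XT.lf (nat_lit 76) (nat_lit 1044161256) (nat_lit 0) (nat_lit 4185446289) (nat_lit 1748) (nat_lit 5774869261) (nat_lit 532) (nat_lit 5) (nat_lit 531) (nat_lit 5) (nat_lit 554) (nat_lit 5) (nat_lit 571) (nat_lit 566) (nat_lit 423)) (XT.lf (nat_lit 0) (nat_lit 6046753176) (nat_lit 1672) (nat_lit 4362661652) (nat_lit 1748) (nat_lit 695286242) (nat_lit 532) (nat_lit 5) (nat_lit 554) (nat_lit 5) (nat_lit 555) (nat_lit 5) (nat_lit 572) (nat_lit 566) (nat_lit 422))) (XT.nd (nat_lit 78) (nat_lit 0) (nat_lit 0) (XT.lf (nat_lit 76) (nat_lit 1327593533) (nat_lit 0) (nat_lit 5573903383) (nat_lit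 1748) (nat_lit 4305008283) (nat_lit 533) (nat_lit 5) (nat_lit 532) (nat_lit 5) (nat_lit 555) (nat_lit 5) (nat_lit 573) (nat_lit 566) (nat_lit 421)) (XT.lf (nat_lit 76) (nat_lit 7181805127) (nat_lit 0) (nat_lit 605960948) (nat_lit 1748) (nat_lit 3522291199) (nat_lit 533) (nat_lit 5) (nat_lit 532) (nat_lit 5) (nat_lit 555) (nat_lit 5) (nat_lit 574) (nat_lit 566) (nat_lit 420)))))) (XT.nd (nat_lit 624) (nat_lit 1520) (nat_lit 0) (XT.nd (nat_lit 312) (nat_lit 1596) (nat_lit 0) (XT.nd (nat_lit 156) (nat_lit 0) (nat_lit 76) (XT.nd (nat_lit 78) (nat_lit 0) (nat_lit 0) (XT.lf (nat_lit 76) (nat_lit 1721899222) (nat_lit 0) (nat_lit 6995490257) (nat_lit 1748) (nat_lit 2697778799) (nat_lit 534) (nat_lit 5) (nat_lit 533) (nat_lit 5) (nat_lit 556) (nat_lit 5) (nat_lit 575) (nat_lit 566) (nat_lit 419)) (XT.lf (nat_lit 76) (nat_lit 7731868591) (nat_lit 0) (nat_lit 1951134959) (nat_lit 1748) (nat_lit 1839030443) (nat_lit 534) (nat_lit 5) (nat_lit 533) (nat_lit 5) (nat_lit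 556) (nat_lit 5) (nat_lit 576) (nat_lit 566) (nat_lit 418))) (XT.nd (nat_lit 78) (nat_lit 0) (nat_lit 0) (XT.lf (nat_lit 76) (nat_lit 2230298730) (nat_lit 0) (nat_lit 8458872287) (nat_lit 1748) (nat_lit 941441631) (nat_lit 535) (nat_lit 5) (nat_lit 534) (nat_lit 5) (nat_lit 557) (nat_lit 5) (nat_lit 577) (nat_lit 566) (nat_lit 417)) (XT.lf (nat_lit 76) (nat_lit 8400302216) (nat_lit 0) (nat_lit 3339666950) (nat_lit 1748) (nat_lit 904001) (nat_lit 535) (nat_lit 5) (nat_lit 534) (nat_lit 5) (nat_lit 557) (nat_lit 5) (nat_lit 578) (nat_lit 566) (nat_lit 416)))) (XT.nd (nat_lit 156) (nat_lit 0) (nat_lit 76) (XT.nd (nat_lit 78) (nat_lit 0) (nat_lit 0) (XT.lf (nat_lit 0) (nat_lit 963288391) (nat_lit 1748) (nat_lit 9002994840) (nat_lit 1824) (nat_lit 1886583346) (nat_lit 512) (nat_lit 5) (nat_lit 535) (nat_lit 5) (nat_lit 536) (nat_lit 5) (nat_lit 579) (nat_lit 566) (nat_lit 415)) (XT.lf (nat_lit 0) (nat_lit 1978087059) (nat_lit 1748) (nat_lit 2788907782) (nat_lit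 1824) (nat_lit 7199478616) (nat_lit 512) (nat_lit 5) (nat_lit 535) (nat_lit 5) (nat_lit 536) (nat_lit 5) (nat_lit 580) (nat_lit 566) (nat_lit 414))) (XT.nd (nat_lit 78) (nat_lit 0) (nat_lit 0) (XT.lf (nat_lit 0) (nat_lit 3027047966) (nat_lit 1748) (nat_lit 8498507258) (nat_lit 1824) (nat_lit 556520330) (nat_lit 513) (nat_lit 5) (nat_lit 536) (nat_lit 5) (nat_lit 537) (nat_lit 5) (nat_lit 581) (nat_lit 566) (nat_lit 413)) (XT.lf (nat_lit 0) (nat_lit 4134531888) (nat_lit 1748) (nat_lit 2119438768) (nat_lit 1824) (nat_lit 5945268557) (nat_lit 513) (nat_lit 5) (nat_lit 536) (nat_lit 5) (nat_lit 537) (nat_lit 5) (nat_lit 582) (nat_lit 566) (nat_lit 412))))) (XT.nd (nat_lit 312) (nat_lit 1596) (nat_lit 0) (XT.nd (nat_lit 156) (nat_lit 0) (nat_lit 76) (XT.nd (nat_lit 78) (nat_lit 0) (nat_lit 76) (XT.lf (nat_lit 76) (nat_lit 4436148635) (nat_lit 0) (nat_lit 844206836) (nat_lit 1824) (nat_lit 7038067266) (nat_lit 514) (nat_lit 5) (nat_lit 513) (nat_lit 5) (nat_lit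 537) (nat_lit 5) (nat_lit 583) (nat_lit 566) (nat_lit 411)) (XT.lf (nat_lit 0) (nat_lit 6481353661) (nat_lit 1748) (nat_lit 1328019888) (nat_lit 1824) (nat_lit 4629971598) (nat_lit 514) (nat_lit 5) (nat_lit 537) (nat_lit 5) (nat_lit 538) (nat_lit 5) (nat_lit 584) (nat_lit 566) (nat_lit 410))) (XT.nd (nat_lit 78) (nat_lit 0) (nat_lit 76) (XT.lf (nat_lit 76) (nat_lit 5413460021) (nat_lit 0) (nat_lit 2321489848) (nat_lit 1824) (nat_lit 4827164951) (nat_lit 515) (nat_lit 5) (nat_lit 514) (nat_lit 5) (nat_lit 538) (nat_lit 5) (nat_lit 585) (nat_lit 566) (nat_lit 409)) (XT.lf (nat_lit 0) (nat_lit 9031895879) (nat_lit 1748) (nat_lit 410184603) (nat_lit 1824) (nat_lit 3244894214) (nat_lit 515) (nat_lit 5) (nat_lit 538) (nat_lit 5) (nat_lit 539) (nat_lit 5) (nat_lit 586) (nat_lit 566) (nat_lit 408)))) (XT.nd (nat_lit 156) (nat_lit 1748) (nat_lit 0) (XT.nd (nat_lit 78) (nat_lit 0) (nat_lit 76) (XT.lf (nat_lit 76) (nat_lit 6523965270) (nat_lit 0) (nat_lit 3876818334)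 (nat_lit 1824) (nat_lit 2412628467) (nat_lit 516) (nat_lit 5) (nat_lit 515) (nat_lit 5) (nat_lit 539) (nat_lit 5) (nat_lit 587) (nat_lit 566) (nat_lit 407)) (XT.lf (nat_lit 76) (nat_lit 647357683) (nat_lit 0) (nat_lit 11156806547) (nat_lit 1824) (nat_lit 1138072013) (nat_lit 517) (nat_lit 5) (nat_lit 516) (nat_lit 5) (nat_lit 540) (nat_lit 5) (nat_lit 588) (nat_lit 566) (nat_lit 406))) (XT.nd (nat_lit 78) (nat_lit 0) (nat_lit 76) (XT.lf (nat_lit 0) (nat_lit 216556262) (nat_lit 1824) (nat_lit 5301199466) (nat_lit 1900) (nat_lit 7554726375) (nat_lit 492) (nat_lit 5) (nat_lit 516) (nat_lit 5) (nat_lit 517) (nat_lit 5) (nat_lit 589) (nat_lit 566) (nat_lit 405)) (XT.lf (nat_lit 0) (nat_lit 1585427515) (nat_lit 1824) (nat_lit 11367253648) (nat_lit 76) (nat_lit 252453813) (nat_lit 493) (nat_lit 5) (nat_lit 517) (nat_lit 5) (nat_lit 494) (nat_lit 5) (nat_lit 590) (nat_lit 566) (nat_lit 404))))))) (XT.nd (nat_lit 1170) (nat_lit 6612) (nat_lit 0) (XT.nd (nat_lit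 546) (nat_lit 4408) (nat_lit 0) (XT.nd (nat_lit 234) (nat_lit 2052) (nat_lit 0) (XT.nd (nat_lit 78) (nat_lit 1824) (nat_lit 0) (XT.lf (nat_lit 0) (nat_lit 3042968602) (nat_lit 1824) (nat_lit 4194442347) (nat_lit 76) (nat_lit 6101804435) (nat_lit 493) (nat_lit 5) (nat_lit 517) (nat_lit 5) (nat_lit 494) (nat_lit 5) (nat_lit 591) (nat_lit 566) (nat_lit 403)) (XT.nd (nat_lit 78) (nat_lit 0) (nat_lit 0) (XT.lf (nat_lit 0) (nat_lit 3153836552) (nat_lit 1824) (nat_lit 1385459142) (nat_lit 1900) (nat_lit 8936489320) (nat_lit 469) (nat_lit 5) (nat_lit 493) (nat_lit 5) (nat_lit 494) (nat_lit 5) (nat_lit 592) (nat_lit 566) (nat_lit 402)) (XT.lf (nat_lit 0) (nat_lit 6112961708) (nat_lit 1900) (nat_lit 2948044450) (nat_lit 76) (nat_lit 4553131945) (nat_lit 469) (nat_lit 5) (nat_lit 494) (nat_lit 5) (nat_lit 470) (nat_lit 5) (nat_lit 593) (nat_lit 566) (nat_lit 401)))) (XT.nd (nat_lit 156) (nat_lit 912) (nat_lit 0) (XT.nd (nat_lit 78) (nat_lit 0) (nat_lit 0) (XT.lf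 (nat_lit 0) (nat_lit 4615366902) (nat_lit 1140) (nat_lit 3131404538) (nat_lit 1216) (nat_lit 6007913713) (nat_lit 454) (nat_lit 5) (nat_lit 469) (nat_lit 5) (nat_lit 470) (nat_lit 5) (nat_lit 594) (nat_lit 566) (nat_lit 400)) (XT.lf (nat_lit 0) (nat_lit 9441790224) (nat_lit 1216) (nat_lit 1556187446) (nat_lit 76) (nat_lit 2899495116) (nat_lit 454) (nat_lit 5) (nat_lit 470) (nat_lit 5) (nat_lit 455) (nat_lit 5) (nat_lit 595) (nat_lit 566) (nat_lit 399))) (XT.nd (nat_lit 78) (nat_lit 0) (nat_lit 0) (XT.lf (nat_lit 0) (nat_lit 6230286169) (nat_lit 912) (nat_lit 4991495658) (nat_lit 988) (nat_lit 2820313191) (nat_lit 442) (nat_lit 5) (nat_lit 454) (nat_lit 5) (nat_lit 455) (nat_lit 5) (nat_lit 596) (nat_lit 566) (nat_lit 398)) (XT.lf (nat_lit 0) (nat_lit 13045281962) (nat_lit 988) (nat_lit 12693040) (nat_lit 76) (nat_lit 1131476809) (nat_lit 442) (nat_lit 5) (nat_lit 455) (nat_lit 5) (nat_lit 443) (nat_lit 5) (nat_lit 597) (nat_lit 566) (nat_lit 397))))) (XT.nd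 (nat_lit 312) (nat_lit 1672) (nat_lit 0) (XT.nd (nat_lit 156) (nat_lit 912) (nat_lit 0) (XT.nd (nat_lit 78) (nat_lit 836) (nat_lit 0) (XT.lf (nat_lit 0) (nat_lit 633830773) (nat_lit 988) (nat_lit 6337335815) (nat_lit 76) (nat_lit 7367000977) (nat_lit 429) (nat_lit 5) (nat_lit 442) (nat_lit 5) (nat_lit 430) (nat_lit 5) (nat_lit 598) (nat_lit 566) (nat_lit 396)) (XT.lf (nat_lit 0) (nat_lit 1690212447) (nat_lit 836) (nat_lit 743222793) (nat_lit 912) (nat_lit 12056244121) (nat_lit 418) (nat_lit 5) (nat_lit 429) (nat_lit 5) (nat_lit 430) (nat_lit 5) (nat_lit 599) (nat_lit 566) (nat_lit 395))) (XT.nd (nat_lit 78) (nat_lit 912) (nat_lit 0) (XT.lf (nat_lit 0) (nat_lit 4338682034) (nat_lit 912) (nat_lit 4725308658) (nat_lit 76) (nat_lit 5578837965) (nat_lit 418) (nat_lit 5) (nat_lit 430) (nat_lit 5) (nat_lit 419) (nat_lit 5) (nat_lit 600) (nat_lit 566) (nat_lit 394)) (XT.lf (nat_lit 0) (nat_lit 3542605084) (nat_lit 912) (nat_lit 2757961996) (nat_lit 988) (nat_lit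 8498103453) (nat_lit 406) (nat_lit 5) (nat_lit 418) (nat_lit 5) (nat_lit 419) (nat_lit 5) (nat_lit 601) (nat_lit 566) (nat_lit 393)))) (XT.nd (nat_lit 156) (nat_lit 836) (nat_lit 0) (XT.nd (nat_lit 78) (nat_lit 836) (nat_lit 0) (XT.lf (nat_lit 0) (nat_lit 8348199478) (nat_lit 988) (nat_lit 2950522963) (nat_lit 76) (nat_lit 3657976869) (nat_lit 406) (nat_lit 5) (nat_lit 419) (nat_lit 5) (nat_lit 407) (nat_lit 5) (nat_lit 602) (nat_lit 566) (nat_lit 392)) (XT.lf (nat_lit 0) (nat_lit 5566665155) (nat_lit 836) (nat_lit 4915443250) (nat_lit 912) (nat_lit 4634874031) (nat_lit 395) (nat_lit 5) (nat_lit 406) (nat_lit 5) (nat_lit 407) (nat_lit 5) (nat_lit 603) (nat_lit 566) (nat_lit 391))) (XT.nd (nat_lit 78) (nat_lit 836) (nat_lit 0) (XT.lf (nat_lit 0) (nat_lit 12680019522) (nat_lit 912) (nat_lit 1005699408) (nat_lit 76) (nat_lit 1594326062) (nat_lit 395) (nat_lit 5) (nat_lit 407) (nat_lit 5) (nat_lit 396) (nat_lit 5) (nat_lit 604) (nat_lit 566) (nat_lit 390))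 (XT.lf (nat_lit 0) (nat_lit 7770020146) (nat_lit 836) (nat_lit 7226079512) (nat_lit 912) (nat_lit 448785167) (nat_lit 384) (nat_lit 5) (nat_lit 395) (nat_lit 5) (nat_lit 396) (nat_lit 5) (nat_lit 605) (nat_lit 566) (nat_lit 389)))))) (XT.nd (nat_lit 624) (nat_lit 2736) (nat_lit 0) (XT.nd (nat_lit 312) (nat_lit 2280) (nat_lit 0) (XT.nd (nat_lit 156) (nat_lit 760) (nat_lit 0) (XT.nd (nat_lit 78) (nat_lit 0) (nat_lit 0) (XT.lf (nat_lit 0) (nat_lit 1116060524) (nat_lit 760) (nat_lit 611832558) (nat_lit 836) (nat_lit 13884795839) (nat_lit 373) (nat_lit 5) (nat_lit 383) (nat_lit 5) (nat_lit 384) (nat_lit 5) (nat_lit 606) (nat_lit 566) (nat_lit 388)) (XT.lf (nat_lit 0) (nat_lit 4025149598) (nat_lit 836) (nat_lit 5648431944) (nat_lit 76) (nat_lit 6108547378) (nat_lit 373) (nat_lit 5) (nat_lit 384) (nat_lit 5) (nat_lit 374) (nat_lit 5) (nat_lit 607) (nat_lit 566) (nat_lit 387))) (XT.nd (nat_lit 78) (nat_lit 0) (nat_lit 0) (XT.lf (nat_lit 0) (nat_lit 3408250668)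 (nat_lit 760) (nat_lit 2977824523) (nat_lit 836) (nat_lit 9568528272) (nat_lit 363) (nat_lit 5) (nat_lit 373) (nat_lit 5) (nat_lit 374) (nat_lit 5) (nat_lit 608) (nat_lit 566) (nat_lit 386)) (XT.lf (nat_lit 0) (nat_lit 8849028776) (nat_lit 836) (nat_lit 3441624515) (nat_lit 76) (nat_lit 3838778235) (nat_lit 363) (nat_lit 5) (nat_lit 374) (nat_lit 5) (nat_lit 364) (nat_lit 5) (nat_lit 609) (nat_lit 566) (nat_lit 385)))) (XT.nd (nat_lit 156) (nat_lit 1520) (nat_lit 0) (XT.nd (nat_lit 78) (nat_lit 0) (nat_lit 0) (XT.lf (nat_lit 0) (nat_lit 5893727639) (nat_lit 760) (nat_lit 5517310040) (nat_lit 836) (nat_lit 4895722761) (nat_lit 353) (nat_lit 5) (nat_lit 363) (nat_lit 5) (nat_lit 364) (nat_lit 5) (nat_lit 610) (nat_lit 566) (nat_lit 384)) (XT.lf (nat_lit 0) (nat_lit 14048475331) (nat_lit 836) (nat_lit 1043066467) (nat_lit 76) (nat_lit 1395610574) (nat_lit 353) (nat_lit 5) (nat_lit 364) (nat_lit 5) (nat_lit 354) (nat_lit 5) (nat_lit 611) (nat_lit 566) (nat_lit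 383))) (XT.nd (nat_lit 78) (nat_lit 684) (nat_lit 0) (XT.lf (nat_lit 0) (nat_lit 151501307) (nat_lit 836) (nat_lit 8089120746) (nat_lit 76) (nat_lit 8428823983) (nat_lit 342) (nat_lit 5) (nat_lit 353) (nat_lit 5) (nat_lit 343) (nat_lit 5) (nat_lit 612) (nat_lit 566) (nat_lit 382)) (XT.lf (nat_lit 0) (nat_lit 1550202301) (nat_lit 684) (nat_lit 1219878724) (nat_lit 760) (nat_lit 14084797320) (nat_lit 333) (nat_lit 5) (nat_lit 342) (nat_lit 5) (nat_lit 343) (nat_lit 5) (nat_lit 613) (nat_lit 566) (nat_lit 381))))) (XT.nd (nat_lit 312) (nat_lit 1368) (nat_lit 0) (XT.nd (nat_lit 156) (nat_lit 684) (nat_lit 0) (XT.nd (nat_lit 78) (nat_lit 684) (nat_lit 0) (XT.lf (nat_lit 0) (nat_lit 5526448213) (nat_lit 760) (nat_lit 5599005837) (nat_lit 76) (nat_lit 5916857127) (nat_lit 333) (nat_lit 5) (nat_lit 343) (nat_lit 5) (nat_lit 334) (nat_lit 5) (nat_lit 614) (nat_lit 566) (nat_lit 380)) (XT.lf (nat_lit 0) (nat_lit 4340706745) (nat_lit 684) (nat_lit 4025849770) (nat_lit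 760) (nat_lit 8866364065) (nat_lit 324) (nat_lit 5) (nat_lit 333) (nat_lit 5) (nat_lit 334) (nat_lit 5) (nat_lit 615) (nat_lit 566) (nat_lit 379))) (XT.nd (nat_lit 78) (nat_lit 684) (nat_lit 0) (XT.lf (nat_lit 0) (nat_lit 11314603120) (nat_lit 760) (nat_lit 2901614351) (nat_lit 76) (nat_lit 3210102165) (nat_lit 324) (nat_lit 5) (nat_lit 334) (nat_lit 5) (nat_lit 325) (nat_lit 5) (nat_lit 616) (nat_lit 566) (nat_lit 378)) (XT.lf (nat_lit 0) (nat_lit 7349699458) (nat_lit 684) (nat_lit 7038876166) (nat_lit 760) (nat_lit 3233671934) (nat_lit 315) (nat_lit 5) (nat_lit 324) (nat_lit 5) (nat_lit 325) (nat_lit 5) (nat_lit 617) (nat_lit 566) (nat_lit 377)))) (XT.nd (nat_lit 156) (nat_lit 608) (nat_lit 0) (XT.nd (nat_lit 78) (nat_lit 76) (nat_lit 0) (XT.lf (nat_lit 0) (nat_lit 12968915) (nat_lit 684) (nat_lit 17525237847) (nat_lit 760) (nat_lit 283603871) (nat_lit 306) (nat_lit 5) (nat_lit 315) (nat_lit 5) (nat_lit 316) (nat_lit 5) (nat_lit 618) (nat_lit 566) (nat_lit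 376)) (XT.lf (nat_lit 0) (nat_lit 2798428246) (nat_lit 760) (nat_lit 7454256893) (nat_lit 76) (nat_lit 7770151939) (nat_lit 305) (nat_lit 5) (nat_lit 315) (nat_lit 5) (nat_lit 306) (nat_lit 5) (nat_lit 619) (nat_lit 566) (nat_lit 375))) (XT.nd (nat_lit 78) (nat_lit 0) (nat_lit 0) (XT.lf (nat_lit 0) (nat_lit 3137924479) (nat_lit 608) (nat_lit 2813601078) (nat_lit 684) (nat_lit 12276056733) (nat_lit 297) (nat_lit 5) (nat_lit 305) (nat_lit 5) (nat_lit 306) (nat_lit 5) (nat_lit 620) (nat_lit 566) (nat_lit 374)) (XT.lf (nat_lit 0) (nat_lit 9241953792) (nat_lit 684) (nat_lit 4432601680) (nat_lit 76) (nat_lit 4760381721) (nat_lit 297) (nat_lit 5) (nat_lit 306) (nat_lit 5) (nat_lit 298) (nat_lit 5) (nat_lit 621) (nat_lit 566) (nat_lit 373))))))))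
noncomputable def xc151 : XT := (XT.nd (nat_lit 2418) (nat_lit 6536) (nat_lit 0) (XT.nd (nat_lit 1170) (nat_lit 4408) (nat_lit 0) (XT.nd (nat_lit 546) (nat_lit 2812) (nat_lit 0) (XT.nd (nat_lit 234) (nat_lit 1140) (nat_lit 0) (XT.nd (nat_lit 78) (nat_lit 684) (nat_lit 0) (XT.lf (nat_lit 0) (nat_lit 6495480632) (nat_lit 608) (nat_lit 6156572934) (nat_lit 684) (nat_lit 5993308528) (nat_lit 289) (nat_lit 5) (nat_lit 297) (nat_lit 5) (nat_lit 298) (nat_lit 5) (nat_lit 622) (nat_lit 566) (nat_lit 372)) (XT.nd (nat_lit 78) (nat_lit 684) (nat_lit 0) (XT.lf (nat_lit 0) (nat_lit 16163238552) (nat_lit 684) (nat_lit 1175943535) (nat_lit 76) (nat_lit 1520155904) (nat_lit 289) (nat_lit 5) (nat_lit 298) (nat_lit 5) (nat_lit 290) (nat_lit 5) (nat_lit 623) (nat_lit 566) (nat_lit 371)) (XT.lf (nat_lit 0) (nat_lit 758577170) (nat_lit 684) (nat_lit 8979988421) (nat_lit 76) (nat_lit 9336935912) (nat_lit 280) (nat_lit 5) (nat_lit 289) (nat_lit 5) (nat_lit 281) (nat_lit 5)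 (nat_lit 624) (nat_lit 566) (nat_lit 370)))) (XT.nd (nat_lit 156) (nat_lit 532) (nat_lit 0) (XT.nd (nat_lit 78) (nat_lit 0) (nat_lit 0) (XT.lf (nat_lit 0) (nat_lit 2316379356) (nat_lit 608) (nat_lit 1946176983) (nat_lit 684) (nat_lit 15032749475) (nat_lit 272) (nat_lit 5) (nat_lit 280) (nat_lit 5) (nat_lit 281) (nat_lit 5) (nat_lit 625) (nat_lit 566) (nat_lit 369)) (XT.lf (nat_lit 0) (nat_lit 7929600687) (nat_lit 684) (nat_lit 5605934327) (nat_lit 76) (nat_lit 5982111634) (nat_lit 272) (nat_lit 5) (nat_lit 281) (nat_lit 5) (nat_lit 273) (nat_lit 5) (nat_lit 626) (nat_lit 566) (nat_lit 368))) (XT.nd (nat_lit 78) (nat_lit 0) (nat_lit 0) (XT.lf (nat_lit 0) (nat_lit 6052513275) (nat_lit 532) (nat_lit 5663145144) (nat_lit 608) (nat_lit 8027862573) (nat_lit 265) (nat_lit 5) (nat_lit 272) (nat_lit 5) (nat_lit 273) (nat_lit 5) (nat_lit 627) (nat_lit 566) (nat_lit 367)) (XT.lf (nat_lit 0) (nat_lit 15624218253) (nat_lit 608) (nat_lit 1977211623) (nat_lit 76) (nat_lit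 2371547470) (nat_lit 265) (nat_lit 5) (nat_lit 273) (nat_lit 5) (nat_lit 266) (nat_lit 5) (nat_lit 628) (nat_lit 566) (nat_lit 366))))) (XT.nd (nat_lit 312) (nat_lit 1064) (nat_lit 0) (XT.nd (nat_lit 156) (nat_lit 532) (nat_lit 0) (XT.nd (nat_lit 78) (nat_lit 608) (nat_lit 0) (XT.lf (nat_lit 0) (nat_lit 10056865831) (nat_lit 608) (nat_lit 9650557006) (nat_lit 684) (nat_lit 497670659) (nat_lit 257) (nat_lit 5) (nat_lit 265) (nat_lit 5) (nat_lit 266) (nat_lit 5) (nat_lit 629) (nat_lit 566) (nat_lit 365)) (XT.lf (nat_lit 0) (nat_lit 1911127534) (nat_lit 532) (nat_lit 1493787303) (nat_lit 608) (nat_lit 17036102488) (nat_lit 249) (nat_lit 5) (nat_lit 256) (nat_lit 5) (nat_lit 257) (nat_lit 5) (nat_lit 630) (nat_lit 566) (nat_lit 364))) (XT.nd (nat_lit 78) (nat_lit 532) (nat_lit 0) (XT.lf (nat_lit 0) (nat_lit 7485522271) (nat_lit 608) (nat_lit 6387604445) (nat_lit 76) (nat_lit 6806334572) (nat_lit 249) (nat_lit 5) (nat_lit 257) (nat_lit 5) (nat_lit 250) (nat_lit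 5) (nat_lit 631) (nat_lit 566) (nat_lit 363)) (XT.lf (nat_lit 0) (nat_lit 6058790180) (nat_lit 532) (nat_lit 5632061579) (nat_lit 608) (nat_lit 9230960302) (nat_lit 242) (nat_lit 5) (nat_lit 249) (nat_lit 5) (nat_lit 250) (nat_lit 5) (nat_lit 632) (nat_lit 566) (nat_lit 362)))) (XT.nd (nat_lit 156) (nat_lit 608) (nat_lit 0) (XT.nd (nat_lit 78) (nat_lit 456) (nat_lit 0) (XT.lf (nat_lit 0) (nat_lit 16035377164) (nat_lit 608) (nat_lit 2354105802) (nat_lit 76) (nat_lit 2778425223) (nat_lit 242) (nat_lit 5) (nat_lit 250) (nat_lit 5) (nat_lit 243) (nat_lit 5) (nat_lit 633) (nat_lit 566) (nat_lit 361)) (XT.lf (nat_lit 0) (nat_lit 10497168097) (nat_lit 456) (nat_lit 10069128723) (nat_lit 532) (nat_lit 850639469) (nat_lit 236) (nat_lit 5) (nat_lit 242) (nat_lit 5) (nat_lit 243) (nat_lit 5) (nat_lit 634) (nat_lit 566) (nat_lit 360))) (XT.nd (nat_lit 78) (nat_lit 0) (nat_lit 0) (XT.lf (nat_lit 0) (nat_lit 1961314111) (nat_lit 532) (nat_lit 1532162669) (nat_lit 608)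 (nat_lit 18176557378) (nat_lit 228) (nat_lit 5) (nat_lit 235) (nat_lit 5) (nat_lit 236) (nat_lit 5) (nat_lit 635) (nat_lit 566) (nat_lit 359)) (XT.lf (nat_lit 0) (nat_lit 8027570639) (nat_lit 608) (nat_lit 6739664665) (nat_lit 76) (nat_lit 7158556636) (nat_lit 228) (nat_lit 5) (nat_lit 236) (nat_lit 5) (nat_lit 229) (nat_lit 5) (nat_lit 636) (nat_lit 566) (nat_lit 358)))))) (XT.nd (nat_lit 624) (nat_lit 2052) (nat_lit 0) (XT.nd (nat_lit 312) (nat_lit 912) (nat_lit 0) (XT.nd (nat_lit 156) (nat_lit 988) (nat_lit 0) (XT.nd (nat_lit 78) (nat_lit 0) (nat_lit 0) (XT.lf (nat_lit 0) (nat_lit 6556509378) (nat_lit 456) (nat_lit 6142791843) (nat_lit 532) (nat_lit 9486424673) (nat_lit 222) (nat_lit 5) (nat_lit 228) (nat_lit 5) (nat_lit 229) (nat_lit 5) (nat_lit 637) (nat_lit 566) (nat_lit 357)) (XT.lf (nat_lit 0) (nat_lit 17521509348) (nat_lit 532) (nat_lit 2265672117) (nat_lit 76) (nat_lit 2662536316) (nat_lit 222) (nat_lit 5) (nat_lit 229) (nat_lit 5) (nat_lit 223)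 (nat_lit 5) (nat_lit 638) (nat_lit 566) (nat_lit 356))) (XT.nd (nat_lit 78) (nat_lit 532) (nat_lit 0) (XT.lf (nat_lit 0) (nat_lit 11466861200) (nat_lit 456) (nat_lit 11082828000) (nat_lit 532) (nat_lit 167109863) (nat_lit 216) (nat_lit 5) (nat_lit 222) (nat_lit 5) (nat_lit 223) (nat_lit 5) (nat_lit 639) (nat_lit 566) (nat_lit 355)) (XT.lf (nat_lit 0) (nat_lit 2510201773) (nat_lit 456) (nat_lit 2143529355) (nat_lit 532) (nat_lit 18334361634) (nat_lit 209) (nat_lit 5) (nat_lit 215) (nat_lit 5) (nat_lit 216) (nat_lit 5) (nat_lit 640) (nat_lit 566) (nat_lit 354)))) (XT.nd (nat_lit 156) (nat_lit 456) (nat_lit 0) (XT.nd (nat_lit 78) (nat_lit 456) (nat_lit 0) (XT.lf (nat_lit 0) (nat_lit 9684489640) (nat_lit 532) (nat_lit 6620207434) (nat_lit 76) (nat_lit 6957778506) (nat_lit 209) (nat_lit 5) (nat_lit 216) (nat_lit 5) (nat_lit 210) (nat_lit 5) (nat_lit 641) (nat_lit 566) (nat_lit 353)) (XT.lf (nat_lit 0) (nat_lit 7592109099) (nat_lit 456) (nat_lit 7281811233)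 (nat_lit 532) (nat_lit 8667264682) (nat_lit 203) (nat_lit 5) (nat_lit 209) (nat_lit 5) (nat_lit 210) (nat_lit 5) (nat_lit 642) (nat_lit 566) (nat_lit 352))) (XT.nd (nat_lit 78) (nat_lit 456) (nat_lit 0) (XT.lf (nat_lit 0) (nat_lit 20218942762) (nat_lit 532) (nat_lit 1666876232) (nat_lit 76) (nat_lit 1938613680) (nat_lit 203) (nat_lit 5) (nat_lit 210) (nat_lit 5) (nat_lit 204) (nat_lit 5) (nat_lit 643) (nat_lit 566) (nat_lit 351)) (XT.lf (nat_lit 0) (nat_lit 1665381048) (nat_lit 456) (nat_lit 11106087664) (nat_lit 76) (nat_lit 11339108664) (nat_lit 197) (nat_lit 5) (nat_lit 203) (nat_lit 5) (nat_lit 198) (nat_lit 5) (nat_lit 644) (nat_lit 566) (nat_lit 350))))) (XT.nd (nat_lit 312) (nat_lit 1216) (nat_lit 0) (XT.nd (nat_lit 156) (nat_lit 380) (nat_lit 0) (XT.nd (nat_lit 78) (nat_lit 0) (nat_lit 0) (XT.lf (nat_lit 0) (nat_lit 3605187925) (nat_lit 456) (nat_lit 3417648509) (nat_lit 532) (nat_lit 17378543097) (nat_lit 191) (nat_lit 5) (nat_lit 197) (nat_lit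 5) (nat_lit 198) (nat_lit 5) (nat_lit 645) (nat_lit 566) (nat_lit 349)) (XT.lf (nat_lit 0) (nat_lit 12596987317) (nat_lit 532) (nat_lit 5983358500) (nat_lit 76) (nat_lit 6115461074) (nat_lit 191) (nat_lit 5) (nat_lit 198) (nat_lit 5) (nat_lit 192) (nat_lit 5) (nat_lit 646) (nat_lit 566) (nat_lit 348))) (XT.nd (nat_lit 78) (nat_lit 0) (nat_lit 0) (XT.lf (nat_lit 0) (nat_lit 9216288222) (nat_lit 380) (nat_lit 9143676201) (nat_lit 456) (nat_lit 6634611602) (nat_lit 186) (nat_lit 5) (nat_lit 191) (nat_lit 5) (nat_lit 192) (nat_lit 5) (nat_lit 647) (nat_lit 566) (nat_lit 347)) (XT.lf (nat_lit 0) (nat_lit 24276652083) (nat_lit 456) (nat_lit 508594620) (nat_lit 76) (nat_lit 513304907) (nat_lit 186) (nat_lit 5) (nat_lit 192) (nat_lit 5) (nat_lit 187) (nat_lit 5) (nat_lit 648) (nat_lit 566) (nat_lit 346)))) (XT.nd (nat_lit 156) (nat_lit 380) (nat_lit 0) (XT.nd (nat_lit 78) (nat_lit 380) (nat_lit 0) (XT.lf (nat_lit 0) (nat_lit 4796640014) (nat_lit 456) (nat_lit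 10439386285) (nat_lit 76) (nat_lit 10368864688) (nat_lit 180) (nat_lit 5) (nat_lit 186) (nat_lit 5) (nat_lit 181) (nat_lit 5) (nat_lit 649) (nat_lit 566) (nat_lit 345)) (XT.lf (nat_lit 0) (nat_lit 5297800175) (nat_lit 380) (nat_lit 5452934207) (nat_lit 456) (nat_lit 15165830410) (nat_lit 175) (nat_lit 5) (nat_lit 180) (nat_lit 5) (nat_lit 181) (nat_lit 5) (nat_lit 650) (nat_lit 566) (nat_lit 344))) (XT.nd (nat_lit 78) (nat_lit 380) (nat_lit 0) (XT.lf (nat_lit 0) (nat_lit 16918866876) (nat_lit 456) (nat_lit 4779294970) (nat_lit 76) (nat_lit 4534411186) (nat_lit 175) (nat_lit 5) (nat_lit 181) (nat_lit 5) (nat_lit 176) (nat_lit 5) (nat_lit 651) (nat_lit 566) (nat_lit 343)) (XT.lf (nat_lit 0) (nat_lit 11484001564) (nat_lit 380) (nat_lit 11832185243) (nat_lit 456) (nat_lit 3236598213) (nat_lit 170) (nat_lit 5) (nat_lit 175) (nat_lit 5) (nat_lit 176) (nat_lit 5) (nat_lit 652) (nat_lit 566) (nat_lit 342))))))) (XT.nd (nat_lit 1170) (nat_lit 3192) (nat_lit 0)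 (XT.nd (nat_lit 546) (nat_lit 1748) (nat_lit 0) (XT.nd (nat_lit 234) (nat_lit 760) (nat_lit 0) (XT.nd (nat_lit 78) (nat_lit 380) (nat_lit 0) (XT.lf (nat_lit 0) (nat_lit 1248032674) (nat_lit 380) (nat_lit 1710724342) (nat_lit 456) (nat_lit 23919548616) (nat_lit 164) (nat_lit 5) (nat_lit 169) (nat_lit 5) (nat_lit 170) (nat_lit 5) (nat_lit 653) (nat_lit 566) (nat_lit 341)) (XT.nd (nat_lit 78) (nat_lit 380) (nat_lit 0) (XT.lf (nat_lit 0) (nat_lit 9387628643) (nat_lit 456) (nat_lit 9198404052) (nat_lit 76) (nat_lit 8620817212) (nat_lit 164) (nat_lit 5) (nat_lit 170) (nat_lit 5) (nat_lit 165) (nat_lit 5) (nat_lit 654) (nat_lit 566) (nat_lit 340)) (XT.lf (nat_lit 0) (nat_lit 7643658375) (nat_lit 380) (nat_lit 8357665848) (nat_lit 456) (nat_lit 11539515988) (nat_lit 159) (nat_lit 5) (nat_lit 164) (nat_lit 5) (nat_lit 165) (nat_lit 5) (nat_lit 655) (nat_lit 566) (nat_lit 339)))) (XT.nd (nat_lit 156) (nat_lit 380) (nat_lit 0) (XT.nd (nat_lit 78) (nat_lit 380) (nat_lit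 0) (XT.lf (nat_lit 0) (nat_lit 22818219848) (nat_lit 456) (nat_lit 2954300023) (nat_lit 76) (nat_lit 2107571999) (nat_lit 159) (nat_lit 5) (nat_lit 165) (nat_lit 5) (nat_lit 160) (nat_lit 5) (nat_lit 656) (nat_lit 566) (nat_lit 338)) (XT.lf (nat_lit 0) (nat_lit 1670620657) (nat_lit 380) (nat_lit 13779809873) (nat_lit 76) (nat_lit 12772586176) (nat_lit 154) (nat_lit 5) (nat_lit 159) (nat_lit 5) (nat_lit 155) (nat_lit 5) (nat_lit 657) (nat_lit 566) (nat_lit 337))) (XT.nd (nat_lit 78) (nat_lit 0) (nat_lit 0) (XT.lf (nat_lit 0) (nat_lit 3663441073) (nat_lit 380) (nat_lit 4845770817) (nat_lit 456) (nat_lit 20062134494) (nat_lit 149) (nat_lit 5) (nat_lit 154) (nat_lit 5) (nat_lit 155) (nat_lit 5) (nat_lit 658) (nat_lit 566) (nat_lit 336)) (XT.lf (nat_lit 0) (nat_lit 15611872376) (nat_lit 456) (nat_lit 7329111462) (nat_lit 76) (nat_lit 5983112935) (nat_lit 149) (nat_lit 5) (nat_lit 155) (nat_lit 5) (nat_lit 150) (nat_lit 5) (nat_lit 659) (nat_lit 566) (nat_lit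 335))))) (XT.nd (nat_lit 312) (nat_lit 684) (nat_lit 0) (XT.nd (nat_lit 156) (nat_lit 684) (nat_lit 0) (XT.nd (nat_lit 78) (nat_lit 76) (nat_lit 0) (XT.lf (nat_lit 0) (nat_lit 10702389424) (nat_lit 304) (nat_lit 12251311808) (nat_lit 380) (nat_lit 6328258701) (nat_lit 145) (nat_lit 5) (nat_lit 149) (nat_lit 5) (nat_lit 150) (nat_lit 5) (nat_lit 660) (nat_lit 566) (nat_lit 334)) (XT.lf (nat_lit 0) (nat_lit 830011637) (nat_lit 380) (nat_lit 464771868) (nat_lit 76) (nat_lit 28351192491) (nat_lit 144) (nat_lit 5) (nat_lit 149) (nat_lit 5) (nat_lit 145) (nat_lit 5) (nat_lit 661) (nat_lit 566) (nat_lit 333))) (XT.nd (nat_lit 78) (nat_lit 304) (nat_lit 0) (XT.lf (nat_lit 0) (nat_lit 8225803988) (nat_lit 456) (nat_lit 11877229599) (nat_lit 76) (nat_lit 9909820418) (nat_lit 139) (nat_lit 5) (nat_lit 145) (nat_lit 5) (nat_lit 140) (nat_lit 5) (nat_lit 662) (nat_lit 566) (nat_lit 332)) (XT.lf (nat_lit 0) (nat_lit 6800884366) (nat_lit 304) (nat_lit 9020157405) (nat_lit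 380) (nat_lit 14564997272) (nat_lit 135) (nat_lit 5) (nat_lit 139) (nat_lit 5) (nat_lit 140) (nat_lit 5) (nat_lit 663) (nat_lit 566) (nat_lit 331)))) (XT.nd (nat_lit 156) (nat_lit 304) (nat_lit 0) (XT.nd (nat_lit 78) (nat_lit 380) (nat_lit 0) (XT.lf (nat_lit 0) (nat_lit 23658928042) (nat_lit 380) (nat_lit 4773952574) (nat_lit 76) (nat_lit 2331992352) (nat_lit 135) (nat_lit 5) (nat_lit 140) (nat_lit 5) (nat_lit 136) (nat_lit 5) (nat_lit 664) (nat_lit 566) (nat_lit 330)) (XT.lf (nat_lit 0) (nat_lit 646582966) (nat_lit 380) (nat_lit 16615061097) (nat_lit 76) (nat_lit 13886556699) (nat_lit 130) (nat_lit 5) (nat_lit 135) (nat_lit 5) (nat_lit 131) (nat_lit 5) (nat_lit 665) (nat_lit 566) (nat_lit 329))) (XT.nd (nat_lit 78) (nat_lit 0) (nat_lit 0) (XT.lf (nat_lit 0) (nat_lit 2734188367) (nat_lit 304) (nat_lit 5770690404) (nat_lit 380) (nat_lit 23032459673) (nat_lit 126) (nat_lit 5) (nat_lit 130) (nat_lit 5) (nat_lit 131) (nat_lit 5) (nat_lit 666) (nat_lit 566)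 (nat_lit 328)) (XT.lf (nat_lit 0) (nat_lit 16667004083) (nat_lit 380) (nat_lit 9282706644) (nat_lit 76) (nat_lit 5981614933) (nat_lit 126) (nat_lit 5) (nat_lit 131) (nat_lit 5) (nat_lit 127) (nat_lit 5) (nat_lit 667) (nat_lit 566) (nat_lit 327)))))) (XT.nd (nat_lit 624) (nat_lit 1596) (nat_lit 0) (XT.nd (nat_lit 312) (nat_lit 608) (nat_lit 0) (XT.nd (nat_lit 156) (nat_lit 608) (nat_lit 0) (XT.nd (nat_lit 78) (nat_lit 76) (nat_lit 0) (XT.lf (nat_lit 0) (nat_lit 10723757718) (nat_lit 304) (nat_lit 14372336349) (nat_lit 380) (nat_lit 7235024165) (nat_lit 122) (nat_lit 5) (nat_lit 126) (nat_lit 5) (nat_lit 127) (nat_lit 5) (nat_lit 668) (nat_lit 566) (nat_lit 326)) (XT.lf (nat_lit 0) (nat_lit 1000930077) (nat_lit 380) (nat_lit 1494917321) (nat_lit 76) (nat_lit 30241763437) (nat_lit 121) (nat_lit 5) (nat_lit 126) (nat_lit 5) (nat_lit 122) (nat_lit 5) (nat_lit 669) (nat_lit 566) (nat_lit 325))) (XT.nd (nat_lit 78) (nat_lit 304) (nat_lit 0) (XT.lf (nat_lit 0)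 (nat_lit 9489131966) (nat_lit 380) (nat_lit 13995227792) (nat_lit 76) (nat_lit 9663229001) (nat_lit 117) (nat_lit 5) (nat_lit 122) (nat_lit 5) (nat_lit 118) (nat_lit 5) (nat_lit 670) (nat_lit 566) (nat_lit 324)) (XT.lf (nat_lit 0) (nat_lit 6732272814) (nat_lit 304) (nat_lit 11481151246) (nat_lit 380) (nat_lit 15351015708) (nat_lit 113) (nat_lit 5) (nat_lit 117) (nat_lit 5) (nat_lit 118) (nat_lit 5) (nat_lit 671) (nat_lit 566) (nat_lit 323)))) (XT.nd (nat_lit 156) (nat_lit 304) (nat_lit 0) (XT.nd (nat_lit 78) (nat_lit 304) (nat_lit 0) (XT.lf (nat_lit 0) (nat_lit 27207694276) (nat_lit 380) (nat_lit 5936015308) (nat_lit 76) (nat_lit 844008416) (nat_lit 113) (nat_lit 5) (nat_lit 118) (nat_lit 5) (nat_lit 114) (nat_lit 5) (nat_lit 672) (nat_lit 566) (nat_lit 322)) (XT.lf (nat_lit 0) (nat_lit 2110542014) (nat_lit 304) (nat_lit 18931194761) (nat_lit 76) (nat_lit 13373992428) (nat_lit 109) (nat_lit 5) (nat_lit 113) (nat_lit 5) (nat_lit 110) (nat_lit 5) (nat_lit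 673) (nat_lit 566) (nat_lit 321))) (XT.nd (nat_lit 78) (nat_lit 0) (nat_lit 0) (XT.lf (nat_lit 0) (nat_lit 2544051830) (nat_lit 304) (nat_lit 8596876394) (nat_lit 380) (nat_lit 23709420257) (nat_lit 105) (nat_lit 5) (nat_lit 109) (nat_lit 5) (nat_lit 110) (nat_lit 5) (nat_lit 674) (nat_lit 566) (nat_lit 320)) (XT.lf (nat_lit 0) (nat_lit 20502511513) (nat_lit 380) (nat_lit 10619761000) (nat_lit 76) (nat_lit 4168375890) (nat_lit 105) (nat_lit 5) (nat_lit 110) (nat_lit 5) (nat_lit 106) (nat_lit 5) (nat_lit 675) (nat_lit 566) (nat_lit 319))))) (XT.nd (nat_lit 546) (nat_lit 760) (nat_lit 0) (XT.nd (nat_lit 156) (nat_lit 532) (nat_lit 0) (XT.nd (nat_lit 78) (nat_lit 76) (nat_lit 0) (XT.lf (nat_lit 0) (nat_lit 11589073705) (nat_lit 228) (nat_lit 18590616036) (nat_lit 304) (nat_lit 5557497361) (nat_lit 102) (nat_lit 5) (nat_lit 105) (nat_lit 5) (nat_lit 106) (nat_lit 5) (nat_lit 676) (nat_lit 566) (nat_lit 318)) (XT.lf (nat_lit 0) (nat_lit 3875090132) (nat_lit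 304) (nat_lit 1837210983) (nat_lit 76) (nat_lit 30478495955) (nat_lit 101) (nat_lit 5) (nat_lit 105) (nat_lit 5) (nat_lit 102) (nat_lit 5) (nat_lit 677) (nat_lit 566) (nat_lit 317))) (XT.nd (nat_lit 78) (nat_lit 228) (nat_lit 0) (XT.lf (nat_lit 0) (nat_lit 13604934769) (nat_lit 380) (nat_lit 15545232160) (nat_lit 76) (nat_lit 7498917241) (nat_lit 97) (nat_lit 5) (nat_lit 102) (nat_lit 5) (nat_lit 98) (nat_lit 5) (nat_lit 678) (nat_lit 566) (nat_lit 316)) (XT.lf (nat_lit 0) (nat_lit 7465968790) (nat_lit 228) (nat_lit 16158405434) (nat_lit 304) (nat_lit 13490262872) (nat_lit 94) (nat_lit 5) (nat_lit 97) (nat_lit 5) (nat_lit 98) (nat_lit 5) (nat_lit 679) (nat_lit 566) (nat_lit 315)))) (XT.nd (nat_lit 72150) (nat_lit 0) (nat_lit 33820) (XT.nd (nat_lit 78) (nat_lit 228) (nat_lit 0) (XT.lf (nat_lit 0) (nat_lit 27590188564) (nat_lit 304) (nat_lit 11343434336) (nat_lit 76) (nat_lit 109446553) (nat_lit 87) (nat_lit 5) (nat_lit 91) (nat_lit 5) (nat_lit 88) (nat_lit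 5) (nat_lit 683) (nat_lit 566) (nat_lit 311)) (XT.lf (nat_lit 0) (nat_lit 13317028550) (nat_lit 228) (nat_lit 25379307510) (nat_lit 304) (nat_lit 845447368) (nat_lit 84) (nat_lit 5) (nat_lit 87) (nat_lit 5) (nat_lit 88) (nat_lit 5) (nat_lit 684) (nat_lit 566) (nat_lit 310))) (XT.nd (nat_lit 78) (nat_lit 0) (nat_lit 0) (XT.lf (nat_lit 0) (nat_lit 1454205804) (nat_lit 1748) (nat_lit 1951053523) (nat_lit 1748) (nat_lit 1951053523) (nat_lit 529) (nat_lit 3) (nat_lit 552) (nat_lit 3) (nat_lit 552) (nat_lit 5) (nat_lit 567) (nat_lit 567) (nat_lit 426)) (XT.lf (nat_lit 76) (nat_lit 1452616164) (nat_lit 0) (nat_lit 2103435254) (nat_lit 1748) (nat_lit 7251309866) (nat_lit 530) (nat_lit 5) (nat_lit 529) (nat_lit 3) (nat_lit 552) (nat_lit 5) (nat_lit 568) (nat_lit 567) (nat_lit 425))))))))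
noncomputable def xc152 : XT := (XT.nd (nat_lit 2418) (nat_lit 13072) (nat_lit 0) (XT.nd (nat_lit 1170) (nat_lit 6232) (nat_lit 0) (XT.nd (nat_lit 546) (nat_lit 1444) (nat_lit 0) (XT.nd (nat_lit 234) (nat_lit 0) (nat_lit 76) (XT.nd (nat_lit 78) (nat_lit 0) (nat_lit 0) (XT.lf (nat_lit 0) (nat_lit 4244537781) (nat_lit 1672) (nat_lit 3962457909) (nat_lit 1748) (nat_lit 2696438524) (nat_lit 530) (nat_lit 5) (nat_lit 552) (nat_lit 5) (nat_lit 553) (nat_lit 5) (nat_lit 569) (nat_lit 567) (nat_lit 424)) (XT.nd (nat_lit 78) (nat_lit 0) (nat_lit 76) (XT.lf (nat_lit 76) (nat_lit 1535422837) (nat_lit 0) (nat_lit 3419602712) (nat_lit 1748) (nat_lit 6046238923) (nat_lit 531) (nat_lit 5) (nat_lit 530) (nat_lit 5) (nat_lit 553) (nat_lit 5) (nat_lit 570) (nat_lit 567) (nat_lit 423)) (XT.lf (nat_lit 0) (nat_lit 5700622423) (nat_lit 1672) (nat_lit 3921982699) (nat_lit 1748) (nat_lit 1478028718) (nat_lit 531) (nat_lit 5) (nat_lit 553) (nat_lit 5) (nat_lit 554) (nat_lit 5)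 (nat_lit 571) (nat_lit 567) (nat_lit 422)))) (XT.nd (nat_lit 156) (nat_lit 0) (nat_lit 76) (XT.nd (nat_lit 78) (nat_lit 0) (nat_lit 76) (XT.lf (nat_lit 76) (nat_lit 1724132908) (nat_lit 0) (nat_lit 4755771092) (nat_lit 1748) (nat_lit 4721711626) (nat_lit 532) (nat_lit 5) (nat_lit 531) (nat_lit 5) (nat_lit 554) (nat_lit 5) (nat_lit 572) (nat_lit 567) (nat_lit 421)) (XT.lf (nat_lit 0) (nat_lit 7287830269) (nat_lit 1672) (nat_lit 3778151576) (nat_lit 1748) (nat_lit 238374494) (nat_lit 532) (nat_lit 5) (nat_lit 554) (nat_lit 5) (nat_lit 555) (nat_lit 5) (nat_lit 573) (nat_lit 567) (nat_lit 420))) (XT.nd (nat_lit 78) (nat_lit 0) (nat_lit 0) (XT.lf (nat_lit 76) (nat_lit 2021489217) (nat_lit 0) (nat_lit 6120548936) (nat_lit 1748) (nat_lit 3266511716) (nat_lit 533) (nat_lit 5) (nat_lit 532) (nat_lit 5) (nat_lit 555) (nat_lit 5) (nat_lit 574) (nat_lit 567) (nat_lit 419)) (XT.lf (nat_lit 76) (nat_lit 7979699871) (nat_lit 0) (nat_lit 1044714957) (nat_lit 1748) (nat_lit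 2490191206) (nat_lit 533) (nat_lit 5) (nat_lit 532) (nat_lit 5) (nat_lit 555) (nat_lit 5) (nat_lit 575) (nat_lit 567) (nat_lit 418))))) (XT.nd (nat_lit 312) (nat_lit 0) (nat_lit 76) (XT.nd (nat_lit 156) (nat_lit 1672) (nat_lit 0) (XT.nd (nat_lit 78) (nat_lit 0) (nat_lit 0) (XT.lf (nat_lit 76) (nat_lit 2430553223) (nat_lit 0) (nat_lit 7522545263) (nat_lit 1748) (nat_lit 1669112093) (nat_lit 534) (nat_lit 5) (nat_lit 533) (nat_lit 5) (nat_lit 556) (nat_lit 5) (nat_lit 576) (nat_lit 567) (nat_lit 417)) (XT.lf (nat_lit 76) (nat_lit 8547502058) (nat_lit 0) (nat_lit 2369711777) (nat_lit 1748) (nat_lit 814416657) (nat_lit 534) (nat_lit 5) (nat_lit 533) (nat_lit 5) (nat_lit 556) (nat_lit 5) (nat_lit 577) (nat_lit 567) (nat_lit 416))) (XT.nd (nat_lit 78) (nat_lit 0) (nat_lit 0) (XT.lf (nat_lit 0) (nat_lit 81269928) (nat_lit 1748) (nat_lit 8888576851) (nat_lit 1824) (nat_lit 2872892002) (nat_lit 511) (nat_lit 5) (nat_lit 534) (nat_lit 5) (nat_lit 535) (nat_lit 5)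 (nat_lit 578) (nat_lit 567) (nat_lit 415)) (XT.lf (nat_lit 0) (nat_lit 1007860866) (nat_lit 1748) (nat_lit 2727465960) (nat_lit 1824) (nat_lit 8220157244) (nat_lit 511) (nat_lit 5) (nat_lit 534) (nat_lit 5) (nat_lit 535) (nat_lit 5) (nat_lit 579) (nat_lit 567) (nat_lit 414)))) (XT.nd (nat_lit 156) (nat_lit 0) (nat_lit 76) (XT.nd (nat_lit 78) (nat_lit 0) (nat_lit 0) (XT.lf (nat_lit 0) (nat_lit 1973866309) (nat_lit 1748) (nat_lit 8485654957) (nat_lit 1824) (nat_lit 1610545749) (nat_lit 512) (nat_lit 5) (nat_lit 535) (nat_lit 5) (nat_lit 536) (nat_lit 5) (nat_lit 580) (nat_lit 567) (nat_lit 413)) (XT.lf (nat_lit 0) (nat_lit 2989523457) (nat_lit 1748) (nat_lit 2160960664) (nat_lit 1824) (nat_lit 7035851263) (nat_lit 512) (nat_lit 5) (nat_lit 535) (nat_lit 5) (nat_lit 536) (nat_lit 5) (nat_lit 581) (nat_lit 567) (nat_lit 412))) (XT.nd (nat_lit 78) (nat_lit 0) (nat_lit 0) (XT.lf (nat_lit 0) (nat_lit 4043012241) (nat_lit 1748) (nat_lit 7968271328) (nat_lit 1824)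 (nat_lit 293295570) (nat_lit 513) (nat_lit 5) (nat_lit 536) (nat_lit 5) (nat_lit 537) (nat_lit 5) (nat_lit 582) (nat_lit 567) (nat_lit 411)) (XT.lf (nat_lit 0) (nat_lit 5153912051) (nat_lit 1748) (nat_lit 1475350999) (nat_lit 1824) (nat_lit 5795198275) (nat_lit 513) (nat_lit 5) (nat_lit 536) (nat_lit 5) (nat_lit 537) (nat_lit 5) (nat_lit 583) (nat_lit 567) (nat_lit 410)))))) (XT.nd (nat_lit 624) (nat_lit 4788) (nat_lit 0) (XT.nd (nat_lit 312) (nat_lit 1596) (nat_lit 0) (XT.nd (nat_lit 156) (nat_lit 0) (nat_lit 76) (XT.nd (nat_lit 78) (nat_lit 0) (nat_lit 76) (XT.lf (nat_lit 76) (nat_lit 5206831859) (nat_lit 0) (nat_lit 1101881523) (nat_lit 1824) (nat_lit 6237594477) (nat_lit 514) (nat_lit 5) (nat_lit 513) (nat_lit 5) (nat_lit 537) (nat_lit 5) (nat_lit 584) (nat_lit 567) (nat_lit 409)) (XT.lf (nat_lit 0) (nat_lit 7514105666) (nat_lit 1748) (nat_lit 666338173) (nat_lit 1824) (nat_lit 4489597952) (nat_lit 514) (nat_lit 5) (nat_lit 537) (nat_lit 5) (nat_lit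 538) (nat_lit 5) (nat_lit 585) (nat_lit 567) (nat_lit 408))) (XT.nd (nat_lit 78) (nat_lit 0) (nat_lit 76) (XT.lf (nat_lit 76) (nat_lit 6205443426) (nat_lit 0) (nat_lit 2574061166) (nat_lit 1824) (nat_lit 4016028193) (nat_lit 515) (nat_lit 5) (nat_lit 514) (nat_lit 5) (nat_lit 538) (nat_lit 5) (nat_lit 586) (nat_lit 567) (nat_lit 407)) (XT.lf (nat_lit 76) (nat_lit 274304297) (nat_lit 0) (nat_lit 9811105874) (nat_lit 1824) (nat_lit 2837819807) (nat_lit 516) (nat_lit 5) (nat_lit 515) (nat_lit 5) (nat_lit 539) (nat_lit 5) (nat_lit 587) (nat_lit 567) (nat_lit 406)))) (XT.nd (nat_lit 156) (nat_lit 1748) (nat_lit 0) (XT.nd (nat_lit 78) (nat_lit 0) (nat_lit 76) (XT.lf (nat_lit 76) (nat_lit 7339006098) (nat_lit 0) (nat_lit 4128252913) (nat_lit 1824) (nat_lit 1585225946) (nat_lit 516) (nat_lit 5) (nat_lit 515) (nat_lit 5) (nat_lit 539) (nat_lit 5) (nat_lit 588) (nat_lit 567) (nat_lit 405)) (XT.lf (nat_lit 76) (nat_lit 1358566527) (nat_lit 0) (nat_lit 11526734833)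 (nat_lit 1824) (nat_lit 298852884) (nat_lit 517) (nat_lit 5) (nat_lit 516) (nat_lit 5) (nat_lit 540) (nat_lit 5) (nat_lit 589) (nat_lit 567) (nat_lit 404))) (XT.nd (nat_lit 78) (nat_lit 0) (nat_lit 76) (XT.lf (nat_lit 0) (nat_lit 1054883014) (nat_lit 1824) (nat_lit 4711545157) (nat_lit 1900) (nat_lit 7550799011) (nat_lit 492) (nat_lit 5) (nat_lit 516) (nat_lit 5) (nat_lit 517) (nat_lit 5) (nat_lit 590) (nat_lit 567) (nat_lit 403)) (XT.lf (nat_lit 0) (nat_lit 2438415202) (nat_lit 1824) (nat_lit 10886179765) (nat_lit 76) (nat_lit 128192958) (nat_lit 493) (nat_lit 5) (nat_lit 517) (nat_lit 5) (nat_lit 494) (nat_lit 5) (nat_lit 591) (nat_lit 567) (nat_lit 402))))) (XT.nd (nat_lit 312) (nat_lit 1900) (nat_lit 0) (XT.nd (nat_lit 156) (nat_lit 1140) (nat_lit 0) (XT.nd (nat_lit 78) (nat_lit 1824) (nat_lit 0) (XT.lf (nat_lit 0) (nat_lit 3909003598) (nat_lit 1824) (nat_lit 3583802806) (nat_lit 76) (nat_lit 6097066081) (nat_lit 493) (nat_lit 5) (nat_lit 517) (nat_lit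 5) (nat_lit 494) (nat_lit 5) (nat_lit 592) (nat_lit 567) (nat_lit 401)) (XT.lf (nat_lit 0) (nat_lit 3906872406) (nat_lit 1824) (nat_lit 1517076742) (nat_lit 1900) (nat_lit 8305450987) (nat_lit 469) (nat_lit 5) (nat_lit 493) (nat_lit 5) (nat_lit 494) (nat_lit 5) (nat_lit 593) (nat_lit 567) (nat_lit 400))) (XT.nd (nat_lit 78) (nat_lit 1140) (nat_lit 0) (XT.lf (nat_lit 0) (nat_lit 7012861038) (nat_lit 1900) (nat_lit 2314324609) (nat_lit 76) (nat_lit 4543659643) (nat_lit 469) (nat_lit 5) (nat_lit 494) (nat_lit 5) (nat_lit 470) (nat_lit 5) (nat_lit 594) (nat_lit 567) (nat_lit 399)) (XT.lf (nat_lit 0) (nat_lit 5395797860) (nat_lit 1140) (nat_lit 3272769014) (nat_lit 1216) (nat_lit 5345852455) (nat_lit 454) (nat_lit 5) (nat_lit 469) (nat_lit 5) (nat_lit 470) (nat_lit 5) (nat_lit 595) (nat_lit 567) (nat_lit 398)))) (XT.nd (nat_lit 156) (nat_lit 988) (nat_lit 0) (XT.nd (nat_lit 78) (nat_lit 912) (nat_lit 0) (XT.lf (nat_lit 0) (nat_lit 10381948378) (nat_lit 1216)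 (nat_lit 897120650) (nat_lit 76) (nat_lit 2881304878) (nat_lit 454) (nat_lit 5) (nat_lit 470) (nat_lit 5) (nat_lit 455) (nat_lit 5) (nat_lit 596) (nat_lit 567) (nat_lit 397)) (XT.lf (nat_lit 0) (nat_lit 7040541710) (nat_lit 912) (nat_lit 5146717985) (nat_lit 988) (nat_lit 2120834919) (nat_lit 442) (nat_lit 5) (nat_lit 454) (nat_lit 5) (nat_lit 455) (nat_lit 5) (nat_lit 597) (nat_lit 567) (nat_lit 396))) (XT.nd (nat_lit 78) (nat_lit 76) (nat_lit 0) (XT.lf (nat_lit 0) (nat_lit 683121942) (nat_lit 912) (nat_lit 13353660339) (nat_lit 988) (nat_lit 421825633) (nat_lit 430) (nat_lit 5) (nat_lit 442) (nat_lit 5) (nat_lit 443) (nat_lit 5) (nat_lit 598) (nat_lit 567) (nat_lit 395)) (XT.lf (nat_lit 0) (nat_lit 1367624604) (nat_lit 988) (nat_lit 5771889922) (nat_lit 76) (nat_lit 7470973823) (nat_lit 429) (nat_lit 5) (nat_lit 442) (nat_lit 5) (nat_lit 430) (nat_lit 5) (nat_lit 599) (nat_lit 567) (nat_lit 394))))))) (XT.nd (nat_lit 1170) (nat_lit 5776) (nat_lit 0)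 (XT.nd (nat_lit 546) (nat_lit 3800) (nat_lit 0) (XT.nd (nat_lit 234) (nat_lit 1748) (nat_lit 0) (XT.nd (nat_lit 78) (nat_lit 912) (nat_lit 0) (XT.lf (nat_lit 0) (nat_lit 2411655405) (nat_lit 836) (nat_lit 781890808) (nat_lit 912) (nat_lit 11571678063) (nat_lit 418) (nat_lit 5) (nat_lit 429) (nat_lit 5) (nat_lit 430) (nat_lit 5) (nat_lit 600) (nat_lit 567) (nat_lit 393)) (XT.nd (nat_lit 78) (nat_lit 912) (nat_lit 0) (XT.lf (nat_lit 0) (nat_lit 5122796577) (nat_lit 912) (nat_lit 4131538429) (nat_lit 76) (nat_lit 5667383968) (nat_lit 418) (nat_lit 5) (nat_lit 430) (nat_lit 5) (nat_lit 419) (nat_lit 5) (nat_lit 601) (nat_lit 567) (nat_lit 392)) (XT.lf (nat_lit 0) (nat_lit 4297205453) (nat_lit 912) (nat_lit 2817479867) (nat_lit 988) (nat_lit 7966177429) (nat_lit 406) (nat_lit 5) (nat_lit 418) (nat_lit 5) (nat_lit 419) (nat_lit 5) (nat_lit 602) (nat_lit 567) (nat_lit 391)))) (XT.nd (nat_lit 156) (nat_lit 912) (nat_lit 0) (XT.nd (nat_lit 78) (nat_lit 836) (nat_lit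 0) (XT.lf (nat_lit 0) (nat_lit 9189750330) (nat_lit 988) (nat_lit 2325653265) (nat_lit 76) (nat_lit 3726919281) (nat_lit 406) (nat_lit 5) (nat_lit 419) (nat_lit 5) (nat_lit 407) (nat_lit 5) (nat_lit 603) (nat_lit 567) (nat_lit 390)) (XT.lf (nat_lit 0) (nat_lit 6357379404) (nat_lit 836) (nat_lit 5000141830) (nat_lit 912) (nat_lit 4048467121) (nat_lit 395) (nat_lit 5) (nat_lit 406) (nat_lit 5) (nat_lit 407) (nat_lit 5) (nat_lit 604) (nat_lit 567) (nat_lit 389))) (XT.nd (nat_lit 78) (nat_lit 912) (nat_lit 0) (XT.lf (nat_lit 0) (nat_lit 13586422881) (nat_lit 912) (nat_lit 346767996) (nat_lit 76) (nat_lit 1639380998) (nat_lit 395) (nat_lit 5) (nat_lit 407) (nat_lit 5) (nat_lit 396) (nat_lit 5) (nat_lit 605) (nat_lit 567) (nat_lit 388)) (XT.lf (nat_lit 0) (nat_lit 196910273) (nat_lit 912) (nat_lit 7142174180) (nat_lit 76) (nat_lit 8401766900) (nat_lit 383) (nat_lit 5) (nat_lit 395) (nat_lit 5) (nat_lit 384) (nat_lit 5) (nat_lit 606) (nat_lit 567) (nat_lit 387)))))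 (XT.nd (nat_lit 312) (nat_lit 2280) (nat_lit 0) (XT.nd (nat_lit 156) (nat_lit 760) (nat_lit 0) (XT.nd (nat_lit 78) (nat_lit 0) (nat_lit 0) (XT.lf (nat_lit 0) (nat_lit 1817102600) (nat_lit 760) (nat_lit 585703606) (nat_lit 836) (nat_lit 13509312467) (nat_lit 373) (nat_lit 5) (nat_lit 383) (nat_lit 5) (nat_lit 384) (nat_lit 5) (nat_lit 607) (nat_lit 567) (nat_lit 386)) (XT.lf (nat_lit 0) (nat_lit 4733696077) (nat_lit 836) (nat_lit 5083659605) (nat_lit 76) (nat_lit 6267838357) (nat_lit 373) (nat_lit 5) (nat_lit 384) (nat_lit 5) (nat_lit 374) (nat_lit 5) (nat_lit 608) (nat_lit 567) (nat_lit 385))) (XT.nd (nat_lit 78) (nat_lit 0) (nat_lit 0) (XT.lf (nat_lit 0) (nat_lit 4149697837) (nat_lit 760) (nat_lit 2984199161) (nat_lit 836) (nat_lit 9127380263) (nat_lit 363) (nat_lit 5) (nat_lit 373) (nat_lit 5) (nat_lit 374) (nat_lit 5) (nat_lit 609) (nat_lit 567) (nat_lit 384)) (XT.lf (nat_lit 0) (nat_lit 9634289347) (nat_lit 836) (nat_lit 2838540207) (nat_lit 76) (nat_lit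 3967009057) (nat_lit 363) (nat_lit 5) (nat_lit 374) (nat_lit 5) (nat_lit 364) (nat_lit 5) (nat_lit 610) (nat_lit 567) (nat_lit 383)))) (XT.nd (nat_lit 156) (nat_lit 1520) (nat_lit 0) (XT.nd (nat_lit 78) (nat_lit 0) (nat_lit 0) (XT.lf (nat_lit 0) (nat_lit 6679098485) (nat_lit 760) (nat_lit 5560846714) (nat_lit 836) (nat_lit 4380921083) (nat_lit 353) (nat_lit 5) (nat_lit 363) (nat_lit 5) (nat_lit 364) (nat_lit 5) (nat_lit 611) (nat_lit 567) (nat_lit 382)) (XT.lf (nat_lit 0) (nat_lit 14918778698) (nat_lit 836) (nat_lit 398151434) (nat_lit 76) (nat_lit 1488163284) (nat_lit 353) (nat_lit 5) (nat_lit 364) (nat_lit 5) (nat_lit 354) (nat_lit 5) (nat_lit 612) (nat_lit 567) (nat_lit 381))) (XT.nd (nat_lit 78) (nat_lit 684) (nat_lit 0) (XT.lf (nat_lit 0) (nat_lit 740473464) (nat_lit 836) (nat_lit 7581705314) (nat_lit 76) (nat_lit 8668922606) (nat_lit 342) (nat_lit 5) (nat_lit 353) (nat_lit 5) (nat_lit 343) (nat_lit 5) (nat_lit 613) (nat_lit 567) (nat_lit 380)) (XT.lf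 (nat_lit 0) (nat_lit 2246001578) (nat_lit 684) (nat_lit 1158250429) (nat_lit 760) (nat_lit 13776134076) (nat_lit 333) (nat_lit 5) (nat_lit 342) (nat_lit 5) (nat_lit 343) (nat_lit 5) (nat_lit 614) (nat_lit 567) (nat_lit 379)))))) (XT.nd (nat_lit 624) (nat_lit 3040) (nat_lit 0) (XT.nd (nat_lit 312) (nat_lit 1368) (nat_lit 0) (XT.nd (nat_lit 156) (nat_lit 684) (nat_lit 0) (XT.nd (nat_lit 78) (nat_lit 684) (nat_lit 0) (XT.lf (nat_lit 0) (nat_lit 6204945705) (nat_lit 760) (nat_lit 5048410932) (nat_lit 76) (nat_lit 6118427234) (nat_lit 333) (nat_lit 5) (nat_lit 343) (nat_lit 5) (nat_lit 334) (nat_lit 5) (nat_lit 615) (nat_lit 567) (nat_lit 378)) (XT.lf (nat_lit 0) (nat_lit 5085736856) (nat_lit 684) (nat_lit 4009256254) (nat_lit 760) (nat_lit 8471349892) (nat_lit 324) (nat_lit 5) (nat_lit 333) (nat_lit 5) (nat_lit 334) (nat_lit 5) (nat_lit 616) (nat_lit 567) (nat_lit 377))) (XT.nd (nat_lit 78) (nat_lit 684) (nat_lit 0) (XT.lf (nat_lit 0) (nat_lit 12091616722)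 (nat_lit 760) (nat_lit 2303939324) (nat_lit 76) (nat_lit 3368261943) (nat_lit 324) (nat_lit 5) (nat_lit 334) (nat_lit 5) (nat_lit 325) (nat_lit 5) (nat_lit 617) (nat_lit 567) (nat_lit 376)) (XT.lf (nat_lit 0) (nat_lit 8148086897) (nat_lit 684) (nat_lit 7072412595) (nat_lit 760) (nat_lit 2743296627) (nat_lit 315) (nat_lit 5) (nat_lit 324) (nat_lit 5) (nat_lit 325) (nat_lit 5) (nat_lit 618) (nat_lit 567) (nat_lit 375)))) (XT.nd (nat_lit 156) (nat_lit 608) (nat_lit 0) (XT.nd (nat_lit 78) (nat_lit 0) (nat_lit 0) (XT.lf (nat_lit 0) (nat_lit 256529218) (nat_lit 760) (nat_lit 17498683543) (nat_lit 76) (nat_lit 412218598) (nat_lit 305) (nat_lit 5) (nat_lit 315) (nat_lit 5) (nat_lit 306) (nat_lit 5) (nat_lit 619) (nat_lit 567) (nat_lit 374)) (XT.lf (nat_lit 0) (nat_lit 3385780401) (nat_lit 760) (nat_lit 6951913758) (nat_lit 76) (nat_lit 8034959417) (nat_lit 305) (nat_lit 5) (nat_lit 315) (nat_lit 5) (nat_lit 306) (nat_lit 5) (nat_lit 620) (nat_lit 567) (nat_lit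 373))) (XT.nd (nat_lit 78) (nat_lit 0) (nat_lit 0) (XT.lf (nat_lit 0) (nat_lit 3847825530) (nat_lit 608) (nat_lit 2747896521) (nat_lit 684) (nat_lit 11985896239) (nat_lit 297) (nat_lit 5) (nat_lit 305) (nat_lit 5) (nat_lit 306) (nat_lit 5) (nat_lit 621) (nat_lit 567) (nat_lit 372)) (XT.lf (nat_lit 0) (nat_lit 9942437903) (nat_lit 684) (nat_lit 3877267190) (nat_lit 76) (nat_lit 4973605858) (nat_lit 297) (nat_lit 5) (nat_lit 306) (nat_lit 5) (nat_lit 298) (nat_lit 5) (nat_lit 622) (nat_lit 567) (nat_lit 371))))) (XT.nd (nat_lit 312) (nat_lit 1140) (nat_lit 0) (XT.nd (nat_lit 156) (nat_lit 1292) (nat_lit 0) (XT.nd (nat_lit 78) (nat_lit 0) (nat_lit 0) (XT.lf (nat_lit 0) (nat_lit 7265140015) (nat_lit 608) (nat_lit 6149642651) (nat_lit 684) (nat_lit 5593281063) (nat_lit 289) (nat_lit 5) (nat_lit 297) (nat_lit 5) (nat_lit 298) (nat_lit 5) (nat_lit 623) (nat_lit 567) (nat_lit 370)) (XT.lf (nat_lit 0) (nat_lit 16987025358) (nat_lit 684) (nat_lit 563079140) (nat_lit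 76) (nat_lit 1676398198) (nat_lit 289) (nat_lit 5) (nat_lit 298) (nat_lit 5) (nat_lit 290) (nat_lit 5) (nat_lit 624) (nat_lit 567) (nat_lit 369))) (XT.nd (nat_lit 78) (nat_lit 608) (nat_lit 0) (XT.lf (nat_lit 0) (nat_lit 1271849372) (nat_lit 684) (nat_lit 8520760996) (nat_lit 76) (nat_lit 9654427988) (nat_lit 280) (nat_lit 5) (nat_lit 289) (nat_lit 5) (nat_lit 281) (nat_lit 5) (nat_lit 625) (nat_lit 567) (nat_lit 368)) (XT.lf (nat_lit 0) (nat_lit 2997331327) (nat_lit 608) (nat_lit 1842930520) (nat_lit 684) (nat_lit 14831090051) (nat_lit 272) (nat_lit 5) (nat_lit 280) (nat_lit 5) (nat_lit 281) (nat_lit 5) (nat_lit 626) (nat_lit 567) (nat_lit 367)))) (XT.nd (nat_lit 156) (nat_lit 608) (nat_lit 0) (XT.nd (nat_lit 78) (nat_lit 532) (nat_lit 0) (XT.lf (nat_lit 0) (nat_lit 8571896076) (nat_lit 684) (nat_lit 5087110510) (nat_lit 76) (nat_lit 6239308197) (nat_lit 272) (nat_lit 5) (nat_lit 281) (nat_lit 5) (nat_lit 273) (nat_lit 5) (nat_lit 627) (nat_lit 567) (nat_lit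 366)) (XT.lf (nat_lit 0) (nat_lit 6800355107) (nat_lit 532) (nat_lit 5627905023) (nat_lit 608) (nat_lit 7700554991) (nat_lit 265) (nat_lit 5) (nat_lit 272) (nat_lit 5) (nat_lit 273) (nat_lit 5) (nat_lit 628) (nat_lit 567) (nat_lit 365))) (XT.nd (nat_lit 78) (nat_lit 608) (nat_lit 0) (XT.lf (nat_lit 0) (nat_lit 16406558228) (nat_lit 608) (nat_lit 1393811074) (nat_lit 76) (nat_lit 2562660165) (nat_lit 265) (nat_lit 5) (nat_lit 273) (nat_lit 5) (nat_lit 266) (nat_lit 5) (nat_lit 629) (nat_lit 567) (nat_lit 364)) (XT.lf (nat_lit 0) (nat_lit 10876849608) (nat_lit 608) (nat_lit 9689382402) (nat_lit 684) (nat_lit 33660029) (nat_lit 257) (nat_lit 5) (nat_lit 265) (nat_lit 5) (nat_lit 266) (nat_lit 5) (nat_lit 630) (nat_lit 567) (nat_lit 363))))))))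
noncomputable def xc153 : XT := (XT.nd (nat_lit 2418) (nat_lit 4408) (nat_lit 0) (XT.nd (nat_lit 1170) (nat_lit 3952) (nat_lit 0) (XT.nd (nat_lit 546) (nat_lit 2356) (nat_lit 0) (XT.nd (nat_lit 234) (nat_lit 1064) (nat_lit 0) (XT.nd (nat_lit 78) (nat_lit 532) (nat_lit 0) (XT.lf (nat_lit 0) (nat_lit 2570310263) (nat_lit 532) (nat_lit 1365310947) (nat_lit 608) (nat_lit 16904954580) (nat_lit 249) (nat_lit 5) (nat_lit 256) (nat_lit 5) (nat_lit 257) (nat_lit 5) (nat_lit 631) (nat_lit 567) (nat_lit 362)) (XT.nd (nat_lit 78) (nat_lit 532) (nat_lit 0) (XT.lf (nat_lit 0) (nat_lit 8089778014) (nat_lit 608) (nat_lit 5898499737) (nat_lit 76) (nat_lit 7095672328) (nat_lit 249) (nat_lit 5) (nat_lit 257) (nat_lit 5) (nat_lit 250) (nat_lit 5) (nat_lit 632) (nat_lit 567) (nat_lit 361)) (XT.lf (nat_lit 0) (nat_lit 6792764512) (nat_lit 532) (nat_lit 5581515621) (nat_lit 608) (nat_lit 8956966601) (nat_lit 242) (nat_lit 5) (nat_lit 249) (nat_lit 5) (nat_lit 250) (nat_lit 5)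 (nat_lit 633) (nat_lit 567) (nat_lit 360)))) (XT.nd (nat_lit 156) (nat_lit 608) (nat_lit 0) (XT.nd (nat_lit 78) (nat_lit 456) (nat_lit 0) (XT.lf (nat_lit 0) (nat_lit 16797918883) (nat_lit 608) (nat_lit 1792618725) (nat_lit 76) (nat_lit 2991882904) (nat_lit 242) (nat_lit 5) (nat_lit 250) (nat_lit 5) (nat_lit 243) (nat_lit 5) (nat_lit 634) (nat_lit 567) (nat_lit 359)) (XT.lf (nat_lit 0) (nat_lit 11311676908) (nat_lit 456) (nat_lit 10103041848) (nat_lit 532) (nat_lit 421805359) (nat_lit 236) (nat_lit 5) (nat_lit 242) (nat_lit 5) (nat_lit 243) (nat_lit 5) (nat_lit 635) (nat_lit 567) (nat_lit 358))) (XT.nd (nat_lit 78) (nat_lit 0) (nat_lit 0) (XT.lf (nat_lit 0) (nat_lit 2606946075) (nat_lit 532) (nat_lit 1391709523) (nat_lit 608) (nat_lit 18096064427) (nat_lit 228) (nat_lit 5) (nat_lit 235) (nat_lit 5) (nat_lit 236) (nat_lit 5) (nat_lit 636) (nat_lit 567) (nat_lit 357)) (XT.lf (nat_lit 0) (nat_lit 8615984948) (nat_lit 608) (nat_lit 6272487736) (nat_lit 76)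 (nat_lit 7467269376) (nat_lit 228) (nat_lit 5) (nat_lit 236) (nat_lit 5) (nat_lit 229) (nat_lit 5) (nat_lit 637) (nat_lit 567) (nat_lit 356))))) (XT.nd (nat_lit 312) (nat_lit 912) (nat_lit 0) (XT.nd (nat_lit 156) (nat_lit 988) (nat_lit 0) (XT.nd (nat_lit 78) (nat_lit 0) (nat_lit 0) (XT.lf (nat_lit 0) (nat_lit 7285649458) (nat_lit 456) (nat_lit 6090993892) (nat_lit 532) (nat_lit 9244321645) (nat_lit 222) (nat_lit 5) (nat_lit 228) (nat_lit 5) (nat_lit 229) (nat_lit 5) (nat_lit 638) (nat_lit 567) (nat_lit 355)) (XT.lf (nat_lit 0) (nat_lit 18288106273) (nat_lit 532) (nat_lit 1717503852) (nat_lit 76) (nat_lit 2884770544) (nat_lit 222) (nat_lit 5) (nat_lit 229) (nat_lit 5) (nat_lit 223) (nat_lit 5) (nat_lit 639) (nat_lit 567) (nat_lit 354))) (XT.nd (nat_lit 78) (nat_lit 456) (nat_lit 0) (XT.lf (nat_lit 0) (nat_lit 246353230) (nat_lit 532) (nat_lit 10878735480) (nat_lit 76) (nat_lit 12037769256) (nat_lit 215) (nat_lit 5) (nat_lit 222) (nat_lit 5) (nat_lit 216)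 (nat_lit 5) (nat_lit 640) (nat_lit 567) (nat_lit 353)) (XT.lf (nat_lit 0) (nat_lit 3151585167) (nat_lit 456) (nat_lit 2005499875) (nat_lit 532) (nat_lit 18282556327) (nat_lit 209) (nat_lit 5) (nat_lit 215) (nat_lit 5) (nat_lit 216) (nat_lit 5) (nat_lit 641) (nat_lit 567) (nat_lit 352)))) (XT.nd (nat_lit 156) (nat_lit 456) (nat_lit 0) (XT.nd (nat_lit 78) (nat_lit 456) (nat_lit 0) (XT.lf (nat_lit 0) (nat_lit 10281565525) (nat_lit 532) (nat_lit 6166123265) (nat_lit 76) (nat_lit 7271961066) (nat_lit 209) (nat_lit 5) (nat_lit 216) (nat_lit 5) (nat_lit 210) (nat_lit 5) (nat_lit 642) (nat_lit 567) (nat_lit 351)) (XT.lf (nat_lit 0) (nat_lit 8326581123) (nat_lit 456) (nat_lit 7244076996) (nat_lit 532) (nat_lit 8433358042) (nat_lit 203) (nat_lit 5) (nat_lit 209) (nat_lit 5) (nat_lit 210) (nat_lit 5) (nat_lit 643) (nat_lit 567) (nat_lit 350))) (XT.nd (nat_lit 78) (nat_lit 456) (nat_lit 0) (XT.lf (nat_lit 0) (nat_lit 21015919601) (nat_lit 532) (nat_lit 1122339411)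 (nat_lit 76) (nat_lit 2154803135) (nat_lit 203) (nat_lit 5) (nat_lit 210) (nat_lit 5) (nat_lit 204) (nat_lit 5) (nat_lit 644) (nat_lit 567) (nat_lit 349)) (XT.lf (nat_lit 0) (nat_lit 2089896590) (nat_lit 456) (nat_lit 10748930988) (nat_lit 76) (nat_lit 11746130246) (nat_lit 197) (nat_lit 5) (nat_lit 203) (nat_lit 5) (nat_lit 198) (nat_lit 5) (nat_lit 645) (nat_lit 567) (nat_lit 348)))))) (XT.nd (nat_lit 624) (nat_lit 1900) (nat_lit 0) (XT.nd (nat_lit 312) (nat_lit 836) (nat_lit 0) (XT.nd (nat_lit 156) (nat_lit 760) (nat_lit 0) (XT.nd (nat_lit 78) (nat_lit 0) (nat_lit 0) (XT.lf (nat_lit 0) (nat_lit 4252759071) (nat_lit 456) (nat_lit 3297807585) (nat_lit 532) (nat_lit 17331088191) (nat_lit 191) (nat_lit 5) (nat_lit 197) (nat_lit 5) (nat_lit 198) (nat_lit 5) (nat_lit 646) (nat_lit 567) (nat_lit 347)) (XT.lf (nat_lit 0) (nat_lit 13229804880) (nat_lit 532) (nat_lit 5532439609) (nat_lit 76) (nat_lit 6419854312) (nat_lit 191) (nat_lit 5) (nat_lit 198) (nat_lit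 5) (nat_lit 192) (nat_lit 5) (nat_lit 647) (nat_lit 567) (nat_lit 346))) (XT.nd (nat_lit 78) (nat_lit 380) (nat_lit 0) (XT.lf (nat_lit 0) (nat_lit 9967446192) (nat_lit 380) (nat_lit 9136807394) (nat_lit 456) (nat_lit 6382665622) (nat_lit 186) (nat_lit 5) (nat_lit 191) (nat_lit 5) (nat_lit 192) (nat_lit 5) (nat_lit 648) (nat_lit 567) (nat_lit 345)) (XT.lf (nat_lit 0) (nat_lit 43717248) (nat_lit 380) (nat_lit 25089655450) (nat_lit 456) (nat_lit 663719780) (nat_lit 181) (nat_lit 5) (nat_lit 186) (nat_lit 5) (nat_lit 187) (nat_lit 5) (nat_lit 649) (nat_lit 567) (nat_lit 344)))) (XT.nd (nat_lit 156) (nat_lit 380) (nat_lit 0) (XT.nd (nat_lit 78) (nat_lit 380) (nat_lit 0) (XT.lf (nat_lit 0) (nat_lit 5262266577) (nat_lit 456) (nat_lit 10085041188) (nat_lit 76) (nat_lit 10762281002) (nat_lit 180) (nat_lit 5) (nat_lit 186) (nat_lit 5) (nat_lit 181) (nat_lit 5) (nat_lit 650) (nat_lit 567) (nat_lit 343)) (XT.lf (nat_lit 0) (nat_lit 5963184180) (nat_lit 380) (nat_lit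 5368641934) (nat_lit 456) (nat_lit 15095742391) (nat_lit 175) (nat_lit 5) (nat_lit 180) (nat_lit 5) (nat_lit 181) (nat_lit 5) (nat_lit 651) (nat_lit 567) (nat_lit 342))) (XT.nd (nat_lit 78) (nat_lit 380) (nat_lit 0) (XT.lf (nat_lit 0) (nat_lit 17617374023) (nat_lit 456) (nat_lit 4320468887) (nat_lit 76) (nat_lit 4812173062) (nat_lit 175) (nat_lit 5) (nat_lit 181) (nat_lit 5) (nat_lit 176) (nat_lit 5) (nat_lit 652) (nat_lit 567) (nat_lit 341)) (XT.lf (nat_lit 0) (nat_lit 12264446130) (nat_lit 380) (nat_lit 11874708782) (nat_lit 456) (nat_lit 2937547112) (nat_lit 170) (nat_lit 5) (nat_lit 175) (nat_lit 5) (nat_lit 176) (nat_lit 5) (nat_lit 653) (nat_lit 567) (nat_lit 340))))) (XT.nd (nat_lit 312) (nat_lit 1064) (nat_lit 0) (XT.nd (nat_lit 156) (nat_lit 380) (nat_lit 0) (XT.nd (nat_lit 78) (nat_lit 0) (nat_lit 0) (XT.lf (nat_lit 0) (nat_lit 1824879760) (nat_lit 380) (nat_lit 1548608144) (nat_lit 456) (nat_lit 24035267144) (nat_lit 164) (nat_lit 5) (nat_lit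 169) (nat_lit 5) (nat_lit 170) (nat_lit 5) (nat_lit 654) (nat_lit 567) (nat_lit 339)) (XT.lf (nat_lit 0) (nat_lit 9925214997) (nat_lit 456) (nat_lit 8835579564) (nat_lit 76) (nat_lit 8983190196) (nat_lit 164) (nat_lit 5) (nat_lit 170) (nat_lit 5) (nat_lit 165) (nat_lit 5) (nat_lit 655) (nat_lit 567) (nat_lit 338))) (XT.nd (nat_lit 78) (nat_lit 0) (nat_lit 0) (XT.lf (nat_lit 0) (nat_lit 8339726792) (nat_lit 380) (nat_lit 8328124994) (nat_lit 456) (nat_lit 11416869842) (nat_lit 159) (nat_lit 5) (nat_lit 164) (nat_lit 5) (nat_lit 165) (nat_lit 5) (nat_lit 656) (nat_lit 567) (nat_lit 337)) (XT.lf (nat_lit 0) (nat_lit 23615543213) (nat_lit 456) (nat_lit 2475294290) (nat_lit 76) (nat_lit 2340031765) (nat_lit 159) (nat_lit 5) (nat_lit 165) (nat_lit 5) (nat_lit 160) (nat_lit 5) (nat_lit 657) (nat_lit 567) (nat_lit 336)))) (XT.nd (nat_lit 156) (nat_lit 304) (nat_lit 0) (XT.nd (nat_lit 78) (nat_lit 380) (nat_lit 0) (XT.lf (nat_lit 0) (nat_lit 2044019038) (nat_lit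 380) (nat_lit 13516331124) (nat_lit 76) (nat_lit 13220322103) (nat_lit 154) (nat_lit 5) (nat_lit 159) (nat_lit 5) (nat_lit 155) (nat_lit 5) (nat_lit 658) (nat_lit 567) (nat_lit 335)) (XT.lf (nat_lit 0) (nat_lit 4272238296) (nat_lit 380) (nat_lit 4743954414) (nat_lit 456) (nat_lit 20119839713) (nat_lit 149) (nat_lit 5) (nat_lit 154) (nat_lit 5) (nat_lit 155) (nat_lit 5) (nat_lit 659) (nat_lit 567) (nat_lit 334))) (XT.nd (nat_lit 78) (nat_lit 304) (nat_lit 0) (XT.lf (nat_lit 0) (nat_lit 16255567550) (nat_lit 456) (nat_lit 6945322132) (nat_lit 76) (nat_lit 6295055013) (nat_lit 149) (nat_lit 5) (nat_lit 155) (nat_lit 5) (nat_lit 150) (nat_lit 5) (nat_lit 660) (nat_lit 567) (nat_lit 333)) (XT.lf (nat_lit 0) (nat_lit 11443319486) (nat_lit 304) (nat_lit 12297835195) (nat_lit 380) (nat_lit 6119872097) (nat_lit 145) (nat_lit 5) (nat_lit 149) (nat_lit 5) (nat_lit 150) (nat_lit 5) (nat_lit 661) (nat_lit 567) (nat_lit 332))))))) (XT.nd (nat_lit 1170) (nat_lit 1368)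 (nat_lit 0) (XT.nd (nat_lit 546) (nat_lit 1596) (nat_lit 0) (XT.nd (nat_lit 234) (nat_lit 684) (nat_lit 0) (XT.nd (nat_lit 78) (nat_lit 304) (nat_lit 0) (XT.lf (nat_lit 0) (nat_lit 47417224) (nat_lit 380) (nat_lit 1123579788) (nat_lit 456) (nat_lit 29061406221) (nat_lit 139) (nat_lit 5) (nat_lit 144) (nat_lit 5) (nat_lit 145) (nat_lit 5) (nat_lit 662) (nat_lit 567) (nat_lit 331)) (XT.nd (nat_lit 78) (nat_lit 304) (nat_lit 0) (XT.lf (nat_lit 0) (nat_lit 8712677285) (nat_lit 456) (nat_lit 11592186995) (nat_lit 76) (nat_lit 10301795171) (nat_lit 139) (nat_lit 5) (nat_lit 145) (nat_lit 5) (nat_lit 140) (nat_lit 5) (nat_lit 663) (nat_lit 567) (nat_lit 330)) (XT.lf (nat_lit 0) (nat_lit 7456051176) (nat_lit 304) (nat_lit 9000818579) (nat_lit 380) (nat_lit 14530497525) (nat_lit 135) (nat_lit 5) (nat_lit 139) (nat_lit 5) (nat_lit 140) (nat_lit 5) (nat_lit 664) (nat_lit 567) (nat_lit 329)))) (XT.nd (nat_lit 156) (nat_lit 304) (nat_lit 0) (XT.nd (nat_lit 78) (nat_lit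 380) (nat_lit 0) (XT.lf (nat_lit 0) (nat_lit 24446522294) (nat_lit 380) (nat_lit 4355466126) (nat_lit 76) (nat_lit 2571889378) (nat_lit 135) (nat_lit 5) (nat_lit 140) (nat_lit 5) (nat_lit 136) (nat_lit 5) (nat_lit 665) (nat_lit 567) (nat_lit 328)) (XT.lf (nat_lit 0) (nat_lit 973147879) (nat_lit 380) (nat_lit 16432606003) (nat_lit 76) (nat_lit 14359134083) (nat_lit 130) (nat_lit 5) (nat_lit 135) (nat_lit 5) (nat_lit 131) (nat_lit 5) (nat_lit 666) (nat_lit 567) (nat_lit 327))) (XT.nd (nat_lit 78) (nat_lit 0) (nat_lit 0) (XT.lf (nat_lit 0) (nat_lit 3300241896) (nat_lit 304) (nat_lit 5685538184) (nat_lit 380) (nat_lit 23176084991) (nat_lit 126) (nat_lit 5) (nat_lit 130) (nat_lit 5) (nat_lit 131) (nat_lit 5) (nat_lit 667) (nat_lit 567) (nat_lit 326)) (XT.lf (nat_lit 0) (nat_lit 17306330382) (nat_lit 380) (nat_lit 8962196370) (nat_lit 76) (nat_lit 6295301710) (nat_lit 126) (nat_lit 5) (nat_lit 131) (nat_lit 5) (nat_lit 127) (nat_lit 5) (nat_lit 668) (nat_lit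 567) (nat_lit 325))))) (XT.nd (nat_lit 312) (nat_lit 608) (nat_lit 0) (XT.nd (nat_lit 156) (nat_lit 608) (nat_lit 0) (XT.nd (nat_lit 78) (nat_lit 76) (nat_lit 0) (XT.lf (nat_lit 0) (nat_lit 11441067250) (nat_lit 304) (nat_lit 14460199919) (nat_lit 380) (nat_lit 7070404494) (nat_lit 122) (nat_lit 5) (nat_lit 126) (nat_lit 5) (nat_lit 127) (nat_lit 5) (nat_lit 669) (nat_lit 567) (nat_lit 324)) (XT.lf (nat_lit 0) (nat_lit 1320226487) (nat_lit 380) (nat_lit 1027859786) (nat_lit 76) (nat_lit 31038287465) (nat_lit 121) (nat_lit 5) (nat_lit 126) (nat_lit 5) (nat_lit 122) (nat_lit 5) (nat_lit 670) (nat_lit 567) (nat_lit 323))) (XT.nd (nat_lit 78) (nat_lit 304) (nat_lit 0) (XT.lf (nat_lit 0) (nat_lit 9976809081) (nat_lit 380) (nat_lit 13776789449) (nat_lit 76) (nat_lit 10050980432) (nat_lit 117) (nat_lit 5) (nat_lit 122) (nat_lit 5) (nat_lit 118) (nat_lit 5) (nat_lit 671) (nat_lit 567) (nat_lit 322)) (XT.lf (nat_lit 0) (nat_lit 7361982597) (nat_lit 304) (nat_lit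 11510977637) (nat_lit 380) (nat_lit 15356859365) (nat_lit 113) (nat_lit 5) (nat_lit 117) (nat_lit 5) (nat_lit 118) (nat_lit 5) (nat_lit 672) (nat_lit 567) (nat_lit 321)))) (XT.nd (nat_lit 156) (nat_lit 304) (nat_lit 0) (XT.nd (nat_lit 78) (nat_lit 304) (nat_lit 0) (XT.lf (nat_lit 0) (nat_lit 28042598069) (nat_lit 380) (nat_lit 5564857105) (nat_lit 76) (nat_lit 1054198648) (nat_lit 113) (nat_lit 5) (nat_lit 118) (nat_lit 5) (nat_lit 114) (nat_lit 5) (nat_lit 673) (nat_lit 567) (nat_lit 320)) (XT.lf (nat_lit 0) (nat_lit 2442873565) (nat_lit 304) (nat_lit 18819304077) (nat_lit 76) (nat_lit 13836060327) (nat_lit 109) (nat_lit 5) (nat_lit 113) (nat_lit 5) (nat_lit 110) (nat_lit 5) (nat_lit 674) (nat_lit 567) (nat_lit 319))) (XT.nd (nat_lit 78) (nat_lit 0) (nat_lit 0) (XT.lf (nat_lit 0) (nat_lit 3082220375) (nat_lit 304) (nat_lit 8569122276) (nat_lit 380) (nat_lit 23890257546) (nat_lit 105) (nat_lit 5) (nat_lit 109) (nat_lit 5) (nat_lit 110) (nat_lit 5) (nat_lit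 675) (nat_lit 567) (nat_lit 318)) (XT.lf (nat_lit 0) (nat_lit 21195789581) (nat_lit 380) (nat_lit 10350052072) (nat_lit 76) (nat_lit 4444951891) (nat_lit 105) (nat_lit 5) (nat_lit 110) (nat_lit 5) (nat_lit 106) (nat_lit 5) (nat_lit 676) (nat_lit 567) (nat_lit 317)))))) (XT.nd (nat_lit 72774) (nat_lit 0) (nat_lit 33592) (XT.nd (nat_lit 390) (nat_lit 532) (nat_lit 0) (XT.nd (nat_lit 156) (nat_lit 532) (nat_lit 0) (XT.nd (nat_lit 78) (nat_lit 76) (nat_lit 0) (XT.lf (nat_lit 0) (nat_lit 12299787590) (nat_lit 228) (nat_lit 18764279843) (nat_lit 304) (nat_lit 5382244527) (nat_lit 102) (nat_lit 5) (nat_lit 105) (nat_lit 5) (nat_lit 106) (nat_lit 5) (nat_lit 677) (nat_lit 567) (nat_lit 316)) (XT.lf (nat_lit 0) (nat_lit 4229696402) (nat_lit 304) (nat_lit 1400727969) (nat_lit 76) (nat_lit 31278643468) (nat_lit 101) (nat_lit 5) (nat_lit 105) (nat_lit 5) (nat_lit 102) (nat_lit 5) (nat_lit 678) (nat_lit 567) (nat_lit 315))) (XT.nd (nat_lit 78) (nat_lit 228) (nat_lit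 0) (XT.lf (nat_lit 0) (nat_lit 14153025408) (nat_lit 380) (nat_lit 15381794023) (nat_lit 76) (nat_lit 7841723561) (nat_lit 97) (nat_lit 5) (nat_lit 102) (nat_lit 5) (nat_lit 98) (nat_lit 5) (nat_lit 679) (nat_lit 567) (nat_lit 314)) (XT.lf (nat_lit 0) (nat_lit 8086510269) (nat_lit 228) (nat_lit 16283991263) (nat_lit 304) (nat_lit 13480952547) (nat_lit 94) (nat_lit 5) (nat_lit 97) (nat_lit 5) (nat_lit 98) (nat_lit 5) (nat_lit 680) (nat_lit 567) (nat_lit 313)))) (XT.nd (nat_lit 156) (nat_lit 0) (nat_lit 0) (XT.nd (nat_lit 78) (nat_lit 228) (nat_lit 0) (XT.lf (nat_lit 0) (nat_lit 6897542127) (nat_lit 304) (nat_lit 20684474807) (nat_lit 76) (nat_lit 11239260439) (nat_lit 90) (nat_lit 5) (nat_lit 94) (nat_lit 5) (nat_lit 91) (nat_lit 5) (nat_lit 682) (nat_lit 567) (nat_lit 311)) (XT.lf (nat_lit 0) (nat_lit 3631818970) (nat_lit 228) (nat_lit 13844878845) (nat_lit 304) (nat_lit 21839699294) (nat_lit 87) (nat_lit 5) (nat_lit 90) (nat_lit 5) (nat_lit 91) (nat_lit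 5) (nat_lit 683) (nat_lit 567) (nat_lit 310))) (XT.nd (nat_lit 72150) (nat_lit 0) (nat_lit 33592) (XT.lf (nat_lit 0) (nat_lit 28404774884) (nat_lit 304) (nat_lit 11111876202) (nat_lit 76) (nat_lit 302021424) (nat_lit 87) (nat_lit 5) (nat_lit 91) (nat_lit 5) (nat_lit 88) (nat_lit 5) (nat_lit 684) (nat_lit 567) (nat_lit 309)) (XT.lf (nat_lit 0) (nat_lit 2088459426) (nat_lit 1748) (nat_lit 1681428428) (nat_lit 1748) (nat_lit 1681428428) (nat_lit 529) (nat_lit 3) (nat_lit 552) (nat_lit 3) (nat_lit 552) (nat_lit 5) (nat_lit 568) (nat_lit 568) (nat_lit 424))))) (XT.nd (nat_lit 312) (nat_lit 0) (nat_lit 152) (XT.nd (nat_lit 156) (nat_lit 0) (nat_lit 76) (XT.nd (nat_lit 78) (nat_lit 0) (nat_lit 76) (XT.lf (nat_lit 76) (nat_lit 2094899685) (nat_lit 0) (nat_lit 2722861139) (nat_lit 1748) (nat_lit 6181897808) (nat_lit 530) (nat_lit 5) (nat_lit 529) (nat_lit 3) (nat_lit 552) (nat_lit 5) (nat_lit 569) (nat_lit 568) (nat_lit 423)) (XT.lf (nat_lit 0) (nat_lit 5492996960)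 (nat_lit 1672) (nat_lit 3413442693) (nat_lit 1748) (nat_lit 2191754513) (nat_lit 530) (nat_lit 5) (nat_lit 552) (nat_lit 5) (nat_lit 553) (nat_lit 5) (nat_lit 570) (nat_lit 568) (nat_lit 422))) (XT.nd (nat_lit 78) (nat_lit 0) (nat_lit 76) (XT.lf (nat_lit 76) (nat_lit 2190262350) (nat_lit 0) (nat_lit 4008669339) (nat_lit 1748) (nat_lit 4999425329) (nat_lit 531) (nat_lit 5) (nat_lit 530) (nat_lit 5) (nat_lit 553) (nat_lit 5) (nat_lit 571) (nat_lit 568) (nat_lit 421)) (XT.lf (nat_lit 0) (nat_lit 6933679053) (nat_lit 1672) (nat_lit 3362731801) (nat_lit 1748) (nat_lit 1003818868) (nat_lit 531) (nat_lit 5) (nat_lit 553) (nat_lit 5) (nat_lit 554) (nat_lit 5) (nat_lit 572) (nat_lit 568) (nat_lit 420)))) (XT.nd (nat_lit 156) (nat_lit 0) (nat_lit 76) (XT.nd (nat_lit 78) (nat_lit 0) (nat_lit 0) (XT.lf (nat_lit 76) (nat_lit 2392110786) (nat_lit 0) (nat_lit 5318606503) (nat_lit 1748) (nat_lit 3692871137) (nat_lit 532) (nat_lit 5) (nat_lit 531) (nat_lit 5) (nat_lit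 554) (nat_lit 5) (nat_lit 573) (nat_lit 568) (nat_lit 419)) (XT.lf (nat_lit 76) (nat_lit 8299434214) (nat_lit 0) (nat_lit 212175796) (nat_lit 1748) (nat_lit 2997238475) (nat_lit 532) (nat_lit 5) (nat_lit 531) (nat_lit 5) (nat_lit 554) (nat_lit 5) (nat_lit 574) (nat_lit 568) (nat_lit 418))) (XT.nd (nat_lit 78) (nat_lit 0) (nat_lit 0) (XT.lf (nat_lit 76) (nat_lit 2703349042) (nat_lit 0) (nat_lit 6661229316) (nat_lit 1748) (nat_lit 2250914678) (nat_lit 533) (nat_lit 5) (nat_lit 532) (nat_lit 5) (nat_lit 555) (nat_lit 5) (nat_lit 575) (nat_lit 568) (nat_lit 417)) (XT.lf (nat_lit 76) (nat_lit 8768146849) (nat_lit 0) (nat_lit 1475677297) (nat_lit 1748) (nat_lit 1480262411) (nat_lit 533) (nat_lit 5) (nat_lit 532) (nat_lit 5) (nat_lit 555) (nat_lit 5) (nat_lit 576) (nat_lit 568) (nat_lit 416))))))))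
noncomputable def xc154 : XT := (XT.nd (nat_lit 2418) (nat_lit 11780) (nat_lit 0) (XT.nd (nat_lit 1170) (nat_lit 8284) (nat_lit 0) (XT.nd (nat_lit 546) (nat_lit 1368) (nat_lit 0) (XT.nd (nat_lit 234) (nat_lit 0) (nat_lit 76) (XT.nd (nat_lit 78) (nat_lit 1748) (nat_lit 0) (XT.lf (nat_lit 76) (nat_lit 3127199674) (nat_lit 0) (nat_lit 8045108049) (nat_lit 1748) (nat_lit 661911595) (nat_lit 534) (nat_lit 5) (nat_lit 533) (nat_lit 5) (nat_lit 556) (nat_lit 5) (nat_lit 577) (nat_lit 568) (nat_lit 415)) (XT.nd (nat_lit 78) (nat_lit 0) (nat_lit 76) (XT.lf (nat_lit 0) (nat_lit 186989177) (nat_lit 1748) (nat_lit 2593677608) (nat_lit 1824) (nat_lit 9165536936) (nat_lit 510) (nat_lit 5) (nat_lit 533) (nat_lit 5) (nat_lit 534) (nat_lit 5) (nat_lit 578) (nat_lit 568) (nat_lit 414)) (XT.lf (nat_lit 0) (nat_lit 1071886360) (nat_lit 1748) (nat_lit 8399769541) (nat_lit 1824) (nat_lit 2588127184) (nat_lit 511) (nat_lit 5) (nat_lit 534) (nat_lit 5) (nat_lit 535) (nat_lit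 5) (nat_lit 579) (nat_lit 568) (nat_lit 413)))) (XT.nd (nat_lit 156) (nat_lit 0) (nat_lit 76) (XT.nd (nat_lit 78) (nat_lit 0) (nat_lit 76) (XT.lf (nat_lit 0) (nat_lit 1997617136) (nat_lit 1748) (nat_lit 2128506606) (nat_lit 1824) (nat_lit 8049047979) (nat_lit 511) (nat_lit 5) (nat_lit 534) (nat_lit 5) (nat_lit 535) (nat_lit 5) (nat_lit 580) (nat_lit 568) (nat_lit 412)) (XT.lf (nat_lit 0) (nat_lit 2966161926) (nat_lit 1748) (nat_lit 7985049161) (nat_lit 1824) (nat_lit 1341171443) (nat_lit 512) (nat_lit 5) (nat_lit 535) (nat_lit 5) (nat_lit 536) (nat_lit 5) (nat_lit 581) (nat_lit 568) (nat_lit 411))) (XT.nd (nat_lit 78) (nat_lit 0) (nat_lit 76) (XT.lf (nat_lit 0) (nat_lit 3983449505) (nat_lit 1748) (nat_lit 1547004489) (nat_lit 1824) (nat_lit 6880896503) (nat_lit 512) (nat_lit 5) (nat_lit 535) (nat_lit 5) (nat_lit 536) (nat_lit 5) (nat_lit 582) (nat_lit 568) (nat_lit 410)) (XT.lf (nat_lit 0) (nat_lit 5042195550) (nat_lit 1748) (nat_lit 7454620534) (nat_lit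 1824) (nat_lit 35459860) (nat_lit 513) (nat_lit 5) (nat_lit 536) (nat_lit 5) (nat_lit 537) (nat_lit 5) (nat_lit 583) (nat_lit 568) (nat_lit 409))))) (XT.nd (nat_lit 312) (nat_lit 1596) (nat_lit 0) (XT.nd (nat_lit 156) (nat_lit 0) (nat_lit 76) (XT.nd (nat_lit 78) (nat_lit 0) (nat_lit 0) (XT.lf (nat_lit 0) (nat_lit 6157307021) (nat_lit 1748) (nat_lit 845038195) (nat_lit 1824) (nat_lit 5652571240) (nat_lit 513) (nat_lit 5) (nat_lit 536) (nat_lit 5) (nat_lit 537) (nat_lit 5) (nat_lit 584) (nat_lit 568) (nat_lit 408)) (XT.lf (nat_lit 76) (nat_lit 5966447400) (nat_lit 0) (nat_lit 1355359514) (nat_lit 1824) (nat_lit 5457661500) (nat_lit 514) (nat_lit 5) (nat_lit 513) (nat_lit 5) (nat_lit 537) (nat_lit 5) (nat_lit 585) (nat_lit 568) (nat_lit 407))) (XT.nd (nat_lit 78) (nat_lit 0) (nat_lit 0) (XT.lf (nat_lit 0) (nat_lit 8532443269) (nat_lit 1748) (nat_lit 18148103) (nat_lit 1824) (nat_lit 4355463462) (nat_lit 514) (nat_lit 5) (nat_lit 537) (nat_lit 5) (nat_lit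 538) (nat_lit 5) (nat_lit 586) (nat_lit 568) (nat_lit 406)) (XT.lf (nat_lit 76) (nat_lit 6986717044) (nat_lit 0) (nat_lit 2823679183) (nat_lit 1824) (nat_lit 3223915023) (nat_lit 515) (nat_lit 5) (nat_lit 514) (nat_lit 5) (nat_lit 538) (nat_lit 5) (nat_lit 587) (nat_lit 568) (nat_lit 405)))) (XT.nd (nat_lit 156) (nat_lit 1748) (nat_lit 0) (XT.nd (nat_lit 78) (nat_lit 0) (nat_lit 0) (XT.lf (nat_lit 76) (nat_lit 950929131) (nat_lit 0) (nat_lit 10177816435) (nat_lit 1824) (nat_lit 2036090821) (nat_lit 516) (nat_lit 5) (nat_lit 515) (nat_lit 5) (nat_lit 539) (nat_lit 5) (nat_lit 588) (nat_lit 568) (nat_lit 404)) (XT.lf (nat_lit 76) (nat_lit 8143765385) (nat_lit 0) (nat_lit 4377963504) (nat_lit 1824) (nat_lit 775278130) (nat_lit 516) (nat_lit 5) (nat_lit 515) (nat_lit 5) (nat_lit 539) (nat_lit 5) (nat_lit 589) (nat_lit 568) (nat_lit 403))) (XT.nd (nat_lit 78) (nat_lit 0) (nat_lit 0) (XT.lf (nat_lit 0) (nat_lit 516810728) (nat_lit 1824) (nat_lit 11378082766)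 (nat_lit 1900) (nat_lit 1536606395) (nat_lit 492) (nat_lit 5) (nat_lit 516) (nat_lit 5) (nat_lit 517) (nat_lit 5) (nat_lit 590) (nat_lit 568) (nat_lit 402)) (XT.lf (nat_lit 0) (nat_lit 1877591234) (nat_lit 1824) (nat_lit 4137111798) (nat_lit 1900) (nat_lit 7552812789) (nat_lit 492) (nat_lit 5) (nat_lit 516) (nat_lit 5) (nat_lit 517) (nat_lit 5) (nat_lit 591) (nat_lit 568) (nat_lit 401)))))) (XT.nd (nat_lit 624) (nat_lit 3496) (nat_lit 0) (XT.nd (nat_lit 312) (nat_lit 3040) (nat_lit 0) (XT.nd (nat_lit 156) (nat_lit 1824) (nat_lit 0) (XT.nd (nat_lit 78) (nat_lit 0) (nat_lit 0) (XT.lf (nat_lit 0) (nat_lit 3276571374) (nat_lit 1824) (nat_lit 10422993176) (nat_lit 76) (nat_lit 6468148) (nat_lit 493) (nat_lit 5) (nat_lit 517) (nat_lit 5) (nat_lit 494) (nat_lit 5) (nat_lit 592) (nat_lit 568) (nat_lit 400)) (XT.lf (nat_lit 0) (nat_lit 4761093344) (nat_lit 1824) (nat_lit 2987919858) (nat_lit 76) (nat_lit 6097155766) (nat_lit 493) (nat_lit 5) (nat_lit 517) (nat_lit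 5) (nat_lit 494) (nat_lit 5) (nat_lit 593) (nat_lit 568) (nat_lit 399))) (XT.nd (nat_lit 78) (nat_lit 0) (nat_lit 0) (XT.lf (nat_lit 0) (nat_lit 4648177023) (nat_lit 1824) (nat_lit 1647291803) (nat_lit 1900) (nat_lit 7693236171) (nat_lit 469) (nat_lit 5) (nat_lit 493) (nat_lit 5) (nat_lit 494) (nat_lit 5) (nat_lit 594) (nat_lit 568) (nat_lit 398)) (XT.lf (nat_lit 0) (nat_lit 7900561641) (nat_lit 1900) (nat_lit 1694828008) (nat_lit 76) (nat_lit 4537901790) (nat_lit 469) (nat_lit 5) (nat_lit 494) (nat_lit 5) (nat_lit 470) (nat_lit 5) (nat_lit 595) (nat_lit 568) (nat_lit 397)))) (XT.nd (nat_lit 156) (nat_lit 1900) (nat_lit 0) (XT.nd (nat_lit 78) (nat_lit 0) (nat_lit 0) (XT.lf (nat_lit 0) (nat_lit 6165116758) (nat_lit 1140) (nat_lit 3413903350) (nat_lit 1216) (nat_lit 4700924509) (nat_lit 454) (nat_lit 5) (nat_lit 469) (nat_lit 5) (nat_lit 470) (nat_lit 5) (nat_lit 596) (nat_lit 568) (nat_lit 396)) (XT.lf (nat_lit 0) (nat_lit 11311734933) (nat_lit 1216) (nat_lit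 251673457) (nat_lit 76) (nat_lit 2865709003) (nat_lit 454) (nat_lit 5) (nat_lit 470) (nat_lit 5) (nat_lit 455) (nat_lit 5) (nat_lit 597) (nat_lit 568) (nat_lit 395))) (XT.nd (nat_lit 78) (nat_lit 988) (nat_lit 0) (XT.lf (nat_lit 0) (nat_lit 7840377744) (nat_lit 912) (nat_lit 5302893804) (nat_lit 988) (nat_lit 1436718998) (nat_lit 442) (nat_lit 5) (nat_lit 454) (nat_lit 5) (nat_lit 455) (nat_lit 5) (nat_lit 598) (nat_lit 568) (nat_lit 394)) (XT.lf (nat_lit 0) (nat_lit 282358482) (nat_lit 988) (nat_lit 13369581940) (nat_lit 76) (nat_lit 1081736142) (nat_lit 429) (nat_lit 5) (nat_lit 442) (nat_lit 5) (nat_lit 430) (nat_lit 5) (nat_lit 599) (nat_lit 568) (nat_lit 393))))) (XT.nd (nat_lit 312) (nat_lit 1748) (nat_lit 0) (XT.nd (nat_lit 156) (nat_lit 912) (nat_lit 0) (XT.nd (nat_lit 78) (nat_lit 836) (nat_lit 0) (XT.lf (nat_lit 0) (nat_lit 2088092452) (nat_lit 988) (nat_lit 5222013795) (nat_lit 76) (nat_lit 7578710125) (nat_lit 429) (nat_lit 5) (nat_lit 442)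 (nat_lit 5) (nat_lit 430) (nat_lit 5) (nat_lit 600) (nat_lit 568) (nat_lit 392)) (XT.lf (nat_lit 0) (nat_lit 3120825374) (nat_lit 836) (nat_lit 820407863) (nat_lit 912) (nat_lit 11105600147) (nat_lit 418) (nat_lit 5) (nat_lit 429) (nat_lit 5) (nat_lit 430) (nat_lit 5) (nat_lit 601) (nat_lit 568) (nat_lit 391))) (XT.nd (nat_lit 78) (nat_lit 912) (nat_lit 0) (XT.lf (nat_lit 0) (nat_lit 5895514814) (nat_lit 912) (nat_lit 3552619408) (nat_lit 76) (nat_lit 5758595203) (nat_lit 418) (nat_lit 5) (nat_lit 430) (nat_lit 5) (nat_lit 419) (nat_lit 5) (nat_lit 602) (nat_lit 568) (nat_lit 390)) (XT.lf (nat_lit 0) (nat_lit 5040347051) (nat_lit 912) (nat_lit 2878018845) (nat_lit 988) (nat_lit 7450868054) (nat_lit 406) (nat_lit 5) (nat_lit 418) (nat_lit 5) (nat_lit 419) (nat_lit 5) (nat_lit 603) (nat_lit 568) (nat_lit 389)))) (XT.nd (nat_lit 156) (nat_lit 912) (nat_lit 0) (XT.nd (nat_lit 78) (nat_lit 836) (nat_lit 0) (XT.lf (nat_lit 0) (nat_lit 10021937169) (nat_lit 988)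 (nat_lit 1714842072) (nat_lit 76) (nat_lit 3797404298) (nat_lit 406) (nat_lit 5) (nat_lit 419) (nat_lit 5) (nat_lit 407) (nat_lit 5) (nat_lit 604) (nat_lit 568) (nat_lit 388)) (XT.lf (nat_lit 0) (nat_lit 7137526748) (nat_lit 836) (nat_lit 5087062886) (nat_lit 912) (nat_lit 3476702524) (nat_lit 395) (nat_lit 5) (nat_lit 406) (nat_lit 5) (nat_lit 407) (nat_lit 5) (nat_lit 605) (nat_lit 568) (nat_lit 387))) (XT.nd (nat_lit 78) (nat_lit 76) (nat_lit 0) (XT.lf (nat_lit 0) (nat_lit 302947088) (nat_lit 836) (nat_lit 14184625017) (nat_lit 912) (nat_lit 1383845533) (nat_lit 384) (nat_lit 5) (nat_lit 395) (nat_lit 5) (nat_lit 396) (nat_lit 5) (nat_lit 606) (nat_lit 568) (nat_lit 386)) (XT.lf (nat_lit 0) (nat_lit 824327455) (nat_lit 912) (nat_lit 6628332056) (nat_lit 76) (nat_lit 8590522700) (nat_lit 383) (nat_lit 5) (nat_lit 395) (nat_lit 5) (nat_lit 384) (nat_lit 5) (nat_lit 607) (nat_lit 568) (nat_lit 385))))))) (XT.nd (nat_lit 1170) (nat_lit 5244) (nat_lit 0)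 (XT.nd (nat_lit 546) (nat_lit 3420) (nat_lit 0) (XT.nd (nat_lit 234) (nat_lit 1596) (nat_lit 0) (XT.nd (nat_lit 78) (nat_lit 760) (nat_lit 0) (XT.lf (nat_lit 0) (nat_lit 2505809959) (nat_lit 760) (nat_lit 560541858) (nat_lit 836) (nat_lit 13151683175) (nat_lit 373) (nat_lit 5) (nat_lit 383) (nat_lit 5) (nat_lit 384) (nat_lit 5) (nat_lit 608) (nat_lit 568) (nat_lit 384)) (XT.nd (nat_lit 78) (nat_lit 760) (nat_lit 0) (XT.lf (nat_lit 0) (nat_lit 5432025792) (nat_lit 836) (nat_lit 4533909328) (nat_lit 76) (nat_lit 6428873739) (nat_lit 373) (nat_lit 5) (nat_lit 384) (nat_lit 5) (nat_lit 374) (nat_lit 5) (nat_lit 609) (nat_lit 568) (nat_lit 383)) (XT.lf (nat_lit 0) (nat_lit 4879829583) (nat_lit 760) (nat_lit 2992766409) (nat_lit 836) (nat_lit 8701970762) (nat_lit 363) (nat_lit 5) (nat_lit 373) (nat_lit 5) (nat_lit 374) (nat_lit 5) (nat_lit 610) (nat_lit 568) (nat_lit 382)))) (XT.nd (nat_lit 156) (nat_lit 836) (nat_lit 0) (XT.nd (nat_lit 78) (nat_lit 760) (nat_lit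 0) (XT.lf (nat_lit 0) (nat_lit 10411634876) (nat_lit 836) (nat_lit 2249485561) (nat_lit 76) (nat_lit 4095806425) (nat_lit 363) (nat_lit 5) (nat_lit 374) (nat_lit 5) (nat_lit 364) (nat_lit 5) (nat_lit 611) (nat_lit 568) (nat_lit 381)) (XT.lf (nat_lit 0) (nat_lit 7454257052) (nat_lit 760) (nat_lit 5607848417) (nat_lit 836) (nat_lit 3879615885) (nat_lit 353) (nat_lit 5) (nat_lit 363) (nat_lit 5) (nat_lit 364) (nat_lit 5) (nat_lit 612) (nat_lit 568) (nat_lit 380))) (XT.nd (nat_lit 78) (nat_lit 76) (nat_lit 0) (XT.lf (nat_lit 0) (nat_lit 236916189) (nat_lit 760) (nat_lit 15548225608) (nat_lit 836) (nat_lit 1344679007) (nat_lit 343) (nat_lit 5) (nat_lit 353) (nat_lit 5) (nat_lit 354) (nat_lit 5) (nat_lit 613) (nat_lit 568) (nat_lit 379)) (XT.lf (nat_lit 0) (nat_lit 1318472217) (nat_lit 836) (nat_lit 7090127341) (nat_lit 76) (nat_lit 8911045909) (nat_lit 342) (nat_lit 5) (nat_lit 353) (nat_lit 5) (nat_lit 343) (nat_lit 5) (nat_lit 614) (nat_lit 568) (nat_lit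 378))))) (XT.nd (nat_lit 312) (nat_lit 2052) (nat_lit 0) (XT.nd (nat_lit 156) (nat_lit 684) (nat_lit 0) (XT.nd (nat_lit 78) (nat_lit 0) (nat_lit 0) (XT.lf (nat_lit 0) (nat_lit 2929902030) (nat_lit 684) (nat_lit 1098730058) (nat_lit 760) (nat_lit 13484221934) (nat_lit 333) (nat_lit 5) (nat_lit 342) (nat_lit 5) (nat_lit 343) (nat_lit 5) (nat_lit 615) (nat_lit 568) (nat_lit 377)) (XT.lf (nat_lit 0) (nat_lit 6874958236) (nat_lit 760) (nat_lit 4512532724) (nat_lit 76) (nat_lit 6320796707) (nat_lit 333) (nat_lit 5) (nat_lit 343) (nat_lit 5) (nat_lit 334) (nat_lit 5) (nat_lit 616) (nat_lit 568) (nat_lit 376))) (XT.nd (nat_lit 78) (nat_lit 0) (nat_lit 0) (XT.lf (nat_lit 0) (nat_lit 5820108240) (nat_lit 684) (nat_lit 3996101787) (nat_lit 760) (nat_lit 8090660151) (nat_lit 324) (nat_lit 5) (nat_lit 333) (nat_lit 5) (nat_lit 334) (nat_lit 5) (nat_lit 617) (nat_lit 568) (nat_lit 375)) (XT.lf (nat_lit 0) (nat_lit 12862785408) (nat_lit 760) (nat_lit 1719772710) (nat_lit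 76) (nat_lit 3525936423) (nat_lit 324) (nat_lit 5) (nat_lit 334) (nat_lit 5) (nat_lit 325) (nat_lit 5) (nat_lit 618) (nat_lit 568) (nat_lit 374)))) (XT.nd (nat_lit 156) (nat_lit 608) (nat_lit 0) (XT.nd (nat_lit 78) (nat_lit 760) (nat_lit 0) (XT.lf (nat_lit 0) (nat_lit 8937147684) (nat_lit 684) (nat_lit 7110784055) (nat_lit 760) (nat_lit 2264667033) (nat_lit 315) (nat_lit 5) (nat_lit 324) (nat_lit 5) (nat_lit 325) (nat_lit 5) (nat_lit 619) (nat_lit 568) (nat_lit 373)) (XT.lf (nat_lit 0) (nat_lit 782624107) (nat_lit 760) (nat_lit 17210002044) (nat_lit 76) (nat_lit 527722224) (nat_lit 305) (nat_lit 5) (nat_lit 315) (nat_lit 5) (nat_lit 306) (nat_lit 5) (nat_lit 620) (nat_lit 568) (nat_lit 372))) (XT.nd (nat_lit 78) (nat_lit 608) (nat_lit 0) (XT.lf (nat_lit 0) (nat_lit 3964245327) (nat_lit 760) (nat_lit 6464819513) (nat_lit 76) (nat_lit 8300814736) (nat_lit 305) (nat_lit 5) (nat_lit 315) (nat_lit 5) (nat_lit 306) (nat_lit 5) (nat_lit 621) (nat_lit 568) (nat_lit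 371)) (XT.lf (nat_lit 0) (nat_lit 4546795267) (nat_lit 608) (nat_lit 2685614373) (nat_lit 684) (nat_lit 11710733706) (nat_lit 297) (nat_lit 5) (nat_lit 305) (nat_lit 5) (nat_lit 306) (nat_lit 5) (nat_lit 622) (nat_lit 568) (nat_lit 370)))))) (XT.nd (nat_lit 624) (nat_lit 2812) (nat_lit 0) (XT.nd (nat_lit 312) (nat_lit 1140) (nat_lit 0) (XT.nd (nat_lit 156) (nat_lit 684) (nat_lit 0) (XT.nd (nat_lit 78) (nat_lit 608) (nat_lit 0) (XT.lf (nat_lit 0) (nat_lit 10636908571) (nat_lit 684) (nat_lit 3335832792) (nat_lit 76) (nat_lit 5186511754) (nat_lit 297) (nat_lit 5) (nat_lit 306) (nat_lit 5) (nat_lit 298) (nat_lit 5) (nat_lit 623) (nat_lit 568) (nat_lit 369)) (XT.lf (nat_lit 0) (nat_lit 8025350322) (nat_lit 608) (nat_lit 6147624218) (nat_lit 684) (nat_lit 5205441152) (nat_lit 289) (nat_lit 5) (nat_lit 297) (nat_lit 5) (nat_lit 298) (nat_lit 5) (nat_lit 624) (nat_lit 568) (nat_lit 368))) (XT.nd (nat_lit 78) (nat_lit 76) (nat_lit 0) (XT.lf (nat_lit 0) (nat_lit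 37827113) (nat_lit 608) (nat_lit 17770270504) (nat_lit 684) (nat_lit 1793297334) (nat_lit 281) (nat_lit 5) (nat_lit 289) (nat_lit 5) (nat_lit 290) (nat_lit 5) (nat_lit 625) (nat_lit 568) (nat_lit 367)) (XT.lf (nat_lit 0) (nat_lit 1776045162) (nat_lit 684) (nat_lit 8077155461) (nat_lit 76) (nat_lit 9973192594) (nat_lit 280) (nat_lit 5) (nat_lit 289) (nat_lit 5) (nat_lit 281) (nat_lit 5) (nat_lit 626) (nat_lit 568) (nat_lit 366)))) (XT.nd (nat_lit 156) (nat_lit 532) (nat_lit 0) (XT.nd (nat_lit 78) (nat_lit 0) (nat_lit 0) (XT.lf (nat_lit 0) (nat_lit 3667259098) (nat_lit 608) (nat_lit 1743139763) (nat_lit 684) (nat_lit 14644902919) (nat_lit 272) (nat_lit 5) (nat_lit 280) (nat_lit 5) (nat_lit 281) (nat_lit 5) (nat_lit 627) (nat_lit 568) (nat_lit 365)) (XT.lf (nat_lit 0) (nat_lit 9208254581) (nat_lit 684) (nat_lit 4582410482) (nat_lit 76) (nat_lit 6496307289) (nat_lit 272) (nat_lit 5) (nat_lit 281) (nat_lit 5) (nat_lit 273) (nat_lit 5) (nat_lit 628) (nat_lit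 568) (nat_lit 364))) (XT.nd (nat_lit 78) (nat_lit 0) (nat_lit 0) (XT.lf (nat_lit 0) (nat_lit 7538814695) (nat_lit 532) (nat_lit 5597726653) (nat_lit 608) (nat_lit 7385645644) (nat_lit 265) (nat_lit 5) (nat_lit 272) (nat_lit 5) (nat_lit 273) (nat_lit 5) (nat_lit 629) (nat_lit 568) (nat_lit 363)) (XT.lf (nat_lit 0) (nat_lit 17186299937) (nat_lit 608) (nat_lit 822932219) (nat_lit 76) (nat_lit 2752015776) (nat_lit 265) (nat_lit 5) (nat_lit 273) (nat_lit 5) (nat_lit 266) (nat_lit 5) (nat_lit 630) (nat_lit 568) (nat_lit 362))))) (XT.nd (nat_lit 312) (nat_lit 1064) (nat_lit 0) (XT.nd (nat_lit 156) (nat_lit 532) (nat_lit 0) (XT.nd (nat_lit 78) (nat_lit 532) (nat_lit 0) (XT.lf (nat_lit 0) (nat_lit 415701753) (nat_lit 684) (nat_lit 9316480195) (nat_lit 76) (nat_lit 11270711167) (nat_lit 256) (nat_lit 5) (nat_lit 265) (nat_lit 5) (nat_lit 257) (nat_lit 5) (nat_lit 631) (nat_lit 568) (nat_lit 361)) (XT.lf (nat_lit 0) (nat_lit 3218564007) (nat_lit 532) (nat_lit 1240414069)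 (nat_lit 608) (nat_lit 16789507000) (nat_lit 249) (nat_lit 5) (nat_lit 256) (nat_lit 5) (nat_lit 257) (nat_lit 5) (nat_lit 632) (nat_lit 568) (nat_lit 360))) (XT.nd (nat_lit 78) (nat_lit 532) (nat_lit 0) (XT.lf (nat_lit 0) (nat_lit 8688468324) (nat_lit 608) (nat_lit 5423566236) (nat_lit 76) (nat_lit 7384847467) (nat_lit 249) (nat_lit 5) (nat_lit 257) (nat_lit 5) (nat_lit 250) (nat_lit 5) (nat_lit 633) (nat_lit 568) (nat_lit 359)) (XT.lf (nat_lit 0) (nat_lit 7517622617) (nat_lit 532) (nat_lit 5536295502) (nat_lit 608) (nat_lit 8695301523) (nat_lit 242) (nat_lit 5) (nat_lit 249) (nat_lit 5) (nat_lit 250) (nat_lit 5) (nat_lit 634) (nat_lit 568) (nat_lit 358)))) (XT.nd (nat_lit 156) (nat_lit 608) (nat_lit 0) (XT.nd (nat_lit 78) (nat_lit 456) (nat_lit 0) (XT.lf (nat_lit 0) (nat_lit 17558554476) (nat_lit 608) (nat_lit 1243533389) (nat_lit 76) (nat_lit 3203478709) (nat_lit 242) (nat_lit 5) (nat_lit 250) (nat_lit 5) (nat_lit 243) (nat_lit 5) (nat_lit 635) (nat_lit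 568) (nat_lit 357)) (XT.lf (nat_lit 0) (nat_lit 12118999881) (nat_lit 456) (nat_lit 10144136279) (nat_lit 532) (nat_lit 1707346) (nat_lit 236) (nat_lit 5) (nat_lit 242) (nat_lit 5) (nat_lit 243) (nat_lit 5) (nat_lit 636) (nat_lit 568) (nat_lit 356))) (XT.nd (nat_lit 78) (nat_lit 0) (nat_lit 0) (XT.lf (nat_lit 0) (nat_lit 3241943208) (nat_lit 532) (nat_lit 1255091195) (nat_lit 608) (nat_lit 18031203614) (nat_lit 228) (nat_lit 5) (nat_lit 235) (nat_lit 5) (nat_lit 236) (nat_lit 5) (nat_lit 637) (nat_lit 568) (nat_lit 355)) (XT.lf (nat_lit 0) (nat_lit 9199553105) (nat_lit 608) (nat_lit 5819342505) (nat_lit 76) (nat_lit 7775728189) (nat_lit 228) (nat_lit 5) (nat_lit 236) (nat_lit 5) (nat_lit 229) (nat_lit 5) (nat_lit 638) (nat_lit 568) (nat_lit 354))))))))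
noncomputable def xc155 : XT := (XT.nd (nat_lit 2418) (nat_lit 2964) (nat_lit 0) (XT.nd (nat_lit 1170) (nat_lit 3724) (nat_lit 0) (XT.nd (nat_lit 546) (nat_lit 2128) (nat_lit 0) (XT.nd (nat_lit 234) (nat_lit 912) (nat_lit 0) (XT.nd (nat_lit 78) (nat_lit 532) (nat_lit 0) (XT.lf (nat_lit 0) (nat_lit 8006150887) (nat_lit 456) (nat_lit 6044942001) (nat_lit 532) (nat_lit 9014145101) (nat_lit 222) (nat_lit 5) (nat_lit 228) (nat_lit 5) (nat_lit 229) (nat_lit 5) (nat_lit 639) (nat_lit 568) (nat_lit 353)) (XT.nd (nat_lit 78) (nat_lit 532) (nat_lit 0) (XT.lf (nat_lit 0) (nat_lit 19053874875) (nat_lit 532) (nat_lit 1181417840) (nat_lit 76) (nat_lit 3104887621) (nat_lit 222) (nat_lit 5) (nat_lit 229) (nat_lit 5) (nat_lit 223) (nat_lit 5) (nat_lit 640) (nat_lit 568) (nat_lit 352)) (XT.lf (nat_lit 0) (nat_lit 649751826) (nat_lit 532) (nat_lit 10524323979) (nat_lit 76) (nat_lit 12444062376) (nat_lit 215) (nat_lit 5) (nat_lit 222) (nat_lit 5) (nat_lit 216) (nat_lit 5)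 (nat_lit 641) (nat_lit 568) (nat_lit 351)))) (XT.nd (nat_lit 156) (nat_lit 456) (nat_lit 0) (XT.nd (nat_lit 78) (nat_lit 0) (nat_lit 0) (XT.lf (nat_lit 0) (nat_lit 3782840013) (nat_lit 456) (nat_lit 1871734375) (nat_lit 532) (nat_lit 18245965488) (nat_lit 209) (nat_lit 5) (nat_lit 215) (nat_lit 5) (nat_lit 216) (nat_lit 5) (nat_lit 642) (nat_lit 568) (nat_lit 350)) (XT.lf (nat_lit 0) (nat_lit 10874918954) (nat_lit 532) (nat_lit 5725731468) (nat_lit 76) (nat_lit 7585630767) (nat_lit 209) (nat_lit 5) (nat_lit 216) (nat_lit 5) (nat_lit 210) (nat_lit 5) (nat_lit 643) (nat_lit 568) (nat_lit 349))) (XT.nd (nat_lit 78) (nat_lit 0) (nat_lit 0) (XT.lf (nat_lit 0) (nat_lit 9053118361) (nat_lit 456) (nat_lit 7212708573) (nat_lit 532) (nat_lit 8210587358) (nat_lit 203) (nat_lit 5) (nat_lit 209) (nat_lit 5) (nat_lit 210) (nat_lit 5) (nat_lit 644) (nat_lit 568) (nat_lit 348)) (XT.lf (nat_lit 0) (nat_lit 21813590918) (nat_lit 532) (nat_lit 589351418) (nat_lit 76) (nat_lit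 2368427054) (nat_lit 203) (nat_lit 5) (nat_lit 210) (nat_lit 5) (nat_lit 204) (nat_lit 5) (nat_lit 645) (nat_lit 568) (nat_lit 347))))) (XT.nd (nat_lit 312) (nat_lit 836) (nat_lit 0) (XT.nd (nat_lit 156) (nat_lit 380) (nat_lit 0) (XT.nd (nat_lit 78) (nat_lit 456) (nat_lit 0) (XT.lf (nat_lit 0) (nat_lit 2507711362) (nat_lit 456) (nat_lit 10407125266) (nat_lit 76) (nat_lit 12154293344) (nat_lit 197) (nat_lit 5) (nat_lit 203) (nat_lit 5) (nat_lit 198) (nat_lit 5) (nat_lit 646) (nat_lit 568) (nat_lit 346)) (XT.lf (nat_lit 0) (nat_lit 4890935539) (nat_lit 456) (nat_lit 3182877641) (nat_lit 532) (nat_lit 17298023518) (nat_lit 191) (nat_lit 5) (nat_lit 197) (nat_lit 5) (nat_lit 198) (nat_lit 5) (nat_lit 647) (nat_lit 568) (nat_lit 345))) (XT.nd (nat_lit 78) (nat_lit 380) (nat_lit 0) (XT.lf (nat_lit 0) (nat_lit 13860488845) (nat_lit 532) (nat_lit 5094658893) (nat_lit 76) (nat_lit 6723264871) (nat_lit 191) (nat_lit 5) (nat_lit 198) (nat_lit 5) (nat_lit 192) (nat_lit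 5) (nat_lit 648) (nat_lit 568) (nat_lit 344)) (XT.lf (nat_lit 0) (nat_lit 10711616536) (nat_lit 380) (nat_lit 9137169138) (nat_lit 456) (nat_lit 6140616692) (nat_lit 186) (nat_lit 5) (nat_lit 191) (nat_lit 5) (nat_lit 192) (nat_lit 5) (nat_lit 649) (nat_lit 568) (nat_lit 343)))) (XT.nd (nat_lit 156) (nat_lit 380) (nat_lit 0) (XT.nd (nat_lit 78) (nat_lit 76) (nat_lit 0) (XT.lf (nat_lit 0) (nat_lit 591859852) (nat_lit 380) (nat_lit 25404234618) (nat_lit 456) (nat_lit 309732608) (nat_lit 181) (nat_lit 5) (nat_lit 186) (nat_lit 5) (nat_lit 187) (nat_lit 5) (nat_lit 650) (nat_lit 568) (nat_lit 342)) (XT.lf (nat_lit 0) (nat_lit 5722850012) (nat_lit 456) (nat_lit 9745476323) (nat_lit 76) (nat_lit 11156341521) (nat_lit 180) (nat_lit 5) (nat_lit 186) (nat_lit 5) (nat_lit 181) (nat_lit 5) (nat_lit 651) (nat_lit 568) (nat_lit 341))) (XT.nd (nat_lit 78) (nat_lit 0) (nat_lit 0) (XT.lf (nat_lit 0) (nat_lit 6620152594) (nat_lit 380) (nat_lit 5290171868) (nat_lit 456)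 (nat_lit 15038752369) (nat_lit 175) (nat_lit 5) (nat_lit 180) (nat_lit 5) (nat_lit 181) (nat_lit 5) (nat_lit 652) (nat_lit 568) (nat_lit 340)) (XT.lf (nat_lit 0) (nat_lit 18315867035) (nat_lit 456) (nat_lit 3873994775) (nat_lit 76) (nat_lit 5088225877) (nat_lit 175) (nat_lit 5) (nat_lit 181) (nat_lit 5) (nat_lit 176) (nat_lit 5) (nat_lit 653) (nat_lit 568) (nat_lit 339)))))) (XT.nd (nat_lit 624) (nat_lit 1748) (nat_lit 0) (XT.nd (nat_lit 312) (nat_lit 760) (nat_lit 0) (XT.nd (nat_lit 156) (nat_lit 380) (nat_lit 0) (XT.nd (nat_lit 78) (nat_lit 456) (nat_lit 0) (XT.lf (nat_lit 0) (nat_lit 13039112730) (nat_lit 380) (nat_lit 11925620715) (nat_lit 456) (nat_lit 2646641129) (nat_lit 170) (nat_lit 5) (nat_lit 175) (nat_lit 5) (nat_lit 176) (nat_lit 5) (nat_lit 654) (nat_lit 568) (nat_lit 338)) (XT.lf (nat_lit 0) (nat_lit 2391833365) (nat_lit 380) (nat_lit 1390873381) (nat_lit 456) (nat_lit 24167383055) (nat_lit 164) (nat_lit 5) (nat_lit 169) (nat_lit 5) (nat_lit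 170) (nat_lit 5) (nat_lit 655) (nat_lit 568) (nat_lit 337))) (XT.nd (nat_lit 78) (nat_lit 380) (nat_lit 0) (XT.lf (nat_lit 0) (nat_lit 10459968605) (nat_lit 456) (nat_lit 8486731207) (nat_lit 76) (nat_lit 9345434393) (nat_lit 164) (nat_lit 5) (nat_lit 170) (nat_lit 5) (nat_lit 165) (nat_lit 5) (nat_lit 656) (nat_lit 568) (nat_lit 336)) (XT.lf (nat_lit 0) (nat_lit 9028623644) (nat_lit 380) (nat_lit 8305631196) (nat_lit 456) (nat_lit 11305495142) (nat_lit 159) (nat_lit 5) (nat_lit 164) (nat_lit 5) (nat_lit 165) (nat_lit 5) (nat_lit 657) (nat_lit 568) (nat_lit 335)))) (XT.nd (nat_lit 156) (nat_lit 380) (nat_lit 0) (XT.nd (nat_lit 78) (nat_lit 380) (nat_lit 0) (XT.lf (nat_lit 0) (nat_lit 24415573193) (nat_lit 456) (nat_lit 2007603200) (nat_lit 76) (nat_lit 2569750821) (nat_lit 159) (nat_lit 5) (nat_lit 165) (nat_lit 5) (nat_lit 160) (nat_lit 5) (nat_lit 658) (nat_lit 568) (nat_lit 334)) (XT.lf (nat_lit 0) (nat_lit 2411683317) (nat_lit 380) (nat_lit 13268515736)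 (nat_lit 76) (nat_lit 13669546119) (nat_lit 154) (nat_lit 5) (nat_lit 159) (nat_lit 5) (nat_lit 155) (nat_lit 5) (nat_lit 659) (nat_lit 568) (nat_lit 333))) (XT.nd (nat_lit 78) (nat_lit 0) (nat_lit 0) (XT.lf (nat_lit 0) (nat_lit 4872416242) (nat_lit 380) (nat_lit 4647818682) (nat_lit 456) (nat_lit 20192039015) (nat_lit 149) (nat_lit 5) (nat_lit 154) (nat_lit 5) (nat_lit 155) (nat_lit 5) (nat_lit 660) (nat_lit 568) (nat_lit 332)) (XT.lf (nat_lit 0) (nat_lit 16899265720) (nat_lit 456) (nat_lit 6574451988) (nat_lit 76) (nat_lit 6605769473) (nat_lit 149) (nat_lit 5) (nat_lit 155) (nat_lit 5) (nat_lit 150) (nat_lit 5) (nat_lit 661) (nat_lit 568) (nat_lit 331))))) (XT.nd (nat_lit 312) (nat_lit 684) (nat_lit 0) (XT.nd (nat_lit 156) (nat_lit 304) (nat_lit 0) (XT.nd (nat_lit 78) (nat_lit 456) (nat_lit 0) (XT.lf (nat_lit 0) (nat_lit 12178608668) (nat_lit 304) (nat_lit 12352997158) (nat_lit 380) (nat_lit 5920324347) (nat_lit 145) (nat_lit 5) (nat_lit 149) (nat_lit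 5) (nat_lit 150) (nat_lit 5) (nat_lit 662) (nat_lit 568) (nat_lit 330)) (XT.lf (nat_lit 0) (nat_lit 555655682) (nat_lit 380) (nat_lit 953547897) (nat_lit 456) (nat_lit 29321547584) (nat_lit 139) (nat_lit 5) (nat_lit 144) (nat_lit 5) (nat_lit 145) (nat_lit 5) (nat_lit 663) (nat_lit 568) (nat_lit 329))) (XT.nd (nat_lit 78) (nat_lit 304) (nat_lit 0) (XT.lf (nat_lit 0) (nat_lit 9196770524) (nat_lit 456) (nat_lit 11321736237) (nat_lit 76) (nat_lit 10694084770) (nat_lit 139) (nat_lit 5) (nat_lit 145) (nat_lit 5) (nat_lit 140) (nat_lit 5) (nat_lit 664) (nat_lit 568) (nat_lit 328)) (XT.lf (nat_lit 0) (nat_lit 8104162128) (nat_lit 304) (nat_lit 8988849201) (nat_lit 380) (nat_lit 14507958982) (nat_lit 135) (nat_lit 5) (nat_lit 139) (nat_lit 5) (nat_lit 140) (nat_lit 5) (nat_lit 665) (nat_lit 568) (nat_lit 327)))) (XT.nd (nat_lit 156) (nat_lit 304) (nat_lit 0) (XT.nd (nat_lit 78) (nat_lit 380) (nat_lit 0) (XT.lf (nat_lit 0) (nat_lit 25237659287) (nat_lit 380) (nat_lit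 3948567856) (nat_lit 76) (nat_lit 2809079933) (nat_lit 135) (nat_lit 5) (nat_lit 140) (nat_lit 5) (nat_lit 136) (nat_lit 5) (nat_lit 666) (nat_lit 568) (nat_lit 326)) (XT.lf (nat_lit 0) (nat_lit 1294065328) (nat_lit 380) (nat_lit 16266490422) (nat_lit 76) (nat_lit 14833596897) (nat_lit 130) (nat_lit 5) (nat_lit 135) (nat_lit 5) (nat_lit 131) (nat_lit 5) (nat_lit 667) (nat_lit 568) (nat_lit 325))) (XT.nd (nat_lit 78) (nat_lit 0) (nat_lit 0) (XT.lf (nat_lit 0) (nat_lit 3857759384) (nat_lit 304) (nat_lit 5606471143) (nat_lit 380) (nat_lit 23334893240) (nat_lit 126) (nat_lit 5) (nat_lit 130) (nat_lit 5) (nat_lit 131) (nat_lit 5) (nat_lit 668) (nat_lit 568) (nat_lit 324)) (XT.lf (nat_lit 0) (nat_lit 17946561389) (nat_lit 380) (nat_lit 8654930872) (nat_lit 76) (nat_lit 6607726851) (nat_lit 126) (nat_lit 5) (nat_lit 131) (nat_lit 5) (nat_lit 127) (nat_lit 5) (nat_lit 669) (nat_lit 568) (nat_lit 323))))))) (XT.nd (nat_lit 73398) (nat_lit 0) (nat_lit 32148) (XT.nd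 (nat_lit 546) (nat_lit 1368) (nat_lit 0) (XT.nd (nat_lit 234) (nat_lit 912) (nat_lit 0) (XT.nd (nat_lit 78) (nat_lit 380) (nat_lit 0) (XT.lf (nat_lit 0) (nat_lit 12153197301) (nat_lit 304) (nat_lit 14557570818) (nat_lit 380) (nat_lit 6914503708) (nat_lit 122) (nat_lit 5) (nat_lit 126) (nat_lit 5) (nat_lit 127) (nat_lit 5) (nat_lit 670) (nat_lit 568) (nat_lit 322)) (XT.nd (nat_lit 78) (nat_lit 304) (nat_lit 0) (XT.lf (nat_lit 0) (nat_lit 1634287504) (nat_lit 380) (nat_lit 570758503) (nat_lit 76) (nat_lit 31843298466) (nat_lit 121) (nat_lit 5) (nat_lit 126) (nat_lit 5) (nat_lit 122) (nat_lit 5) (nat_lit 671) (nat_lit 568) (nat_lit 321)) (XT.lf (nat_lit 0) (nat_lit 10462672132) (nat_lit 380) (nat_lit 13573333602) (nat_lit 76) (nat_lit 10438934730) (nat_lit 117) (nat_lit 5) (nat_lit 122) (nat_lit 5) (nat_lit 118) (nat_lit 5) (nat_lit 672) (nat_lit 568) (nat_lit 320)))) (XT.nd (nat_lit 156) (nat_lit 608) (nat_lit 0) (XT.nd (nat_lit 78) (nat_lit 0) (nat_lit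 0) (XT.lf (nat_lit 0) (nat_lit 7985062625) (nat_lit 304) (nat_lit 11549158903) (nat_lit 380) (nat_lit 15374514951) (nat_lit 113) (nat_lit 5) (nat_lit 117) (nat_lit 5) (nat_lit 118) (nat_lit 5) (nat_lit 673) (nat_lit 568) (nat_lit 319)) (XT.lf (nat_lit 0) (nat_lit 28882909764) (nat_lit 380) (nat_lit 5205298318) (nat_lit 76) (nat_lit 1261086220) (nat_lit 113) (nat_lit 5) (nat_lit 118) (nat_lit 5) (nat_lit 114) (nat_lit 5) (nat_lit 674) (nat_lit 568) (nat_lit 318))) (XT.nd (nat_lit 78) (nat_lit 304) (nat_lit 0) (XT.lf (nat_lit 0) (nat_lit 2770586007) (nat_lit 304) (nat_lit 18724222859) (nat_lit 76) (nat_lit 14299813493) (nat_lit 109) (nat_lit 5) (nat_lit 113) (nat_lit 5) (nat_lit 110) (nat_lit 5) (nat_lit 675) (nat_lit 568) (nat_lit 317)) (XT.lf (nat_lit 0) (nat_lit 3612230324) (nat_lit 304) (nat_lit 8548567346) (nat_lit 380) (nat_lit 24086102762) (nat_lit 105) (nat_lit 5) (nat_lit 109) (nat_lit 5) (nat_lit 110) (nat_lit 5) (nat_lit 676) (nat_lit 568) (nat_lit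 316))))) (XT.nd (nat_lit 390) (nat_lit 760) (nat_lit 0) (XT.nd (nat_lit 156) (nat_lit 380) (nat_lit 0) (XT.nd (nat_lit 78) (nat_lit 228) (nat_lit 0) (XT.lf (nat_lit 0) (nat_lit 21891935127) (nat_lit 380) (nat_lit 10093669656) (nat_lit 76) (nat_lit 4719556892) (nat_lit 105) (nat_lit 5) (nat_lit 110) (nat_lit 5) (nat_lit 106) (nat_lit 5) (nat_lit 677) (nat_lit 568) (nat_lit 315)) (XT.lf (nat_lit 0) (nat_lit 13006118223) (nat_lit 228) (nat_lit 18949111274) (nat_lit 304) (nat_lit 5214608005) (nat_lit 102) (nat_lit 5) (nat_lit 105) (nat_lit 5) (nat_lit 106) (nat_lit 5) (nat_lit 678) (nat_lit 568) (nat_lit 314))) (XT.nd (nat_lit 78) (nat_lit 304) (nat_lit 0) (XT.lf (nat_lit 0) (nat_lit 4580634494) (nat_lit 304) (nat_lit 973891285) (nat_lit 76) (nat_lit 32087393571) (nat_lit 101) (nat_lit 5) (nat_lit 105) (nat_lit 5) (nat_lit 102) (nat_lit 5) (nat_lit 679) (nat_lit 568) (nat_lit 313)) (XT.lf (nat_lit 0) (nat_lit 14701360757) (nat_lit 380) (nat_lit 15233506432)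 (nat_lit 76) (nat_lit 8183898263) (nat_lit 97) (nat_lit 5) (nat_lit 102) (nat_lit 5) (nat_lit 98) (nat_lit 5) (nat_lit 680) (nat_lit 568) (nat_lit 312)))) (XT.nd (nat_lit 156) (nat_lit 228) (nat_lit 0) (XT.nd (nat_lit 78) (nat_lit 304) (nat_lit 0) (XT.lf (nat_lit 0) (nat_lit 33315161174) (nat_lit 228) (nat_lit 2532541507) (nat_lit 304) (nat_lit 3247684641) (nat_lit 94) (nat_lit 5) (nat_lit 97) (nat_lit 5) (nat_lit 98) (nat_lit 5) (nat_lit 682) (nat_lit 568) (nat_lit 310)) (XT.lf (nat_lit 0) (nat_lit 7294072413) (nat_lit 304) (nat_lit 20649678368) (nat_lit 76) (nat_lit 11648777868) (nat_lit 90) (nat_lit 5) (nat_lit 94) (nat_lit 5) (nat_lit 91) (nat_lit 5) (nat_lit 683) (nat_lit 568) (nat_lit 309))) (XT.nd (nat_lit 72228) (nat_lit 0) (nat_lit 33592) (XT.lf (nat_lit 0) (nat_lit 4149990719) (nat_lit 228) (nat_lit 13932643021) (nat_lit 304) (nat_lit 22014960641) (nat_lit 87) (nat_lit 5) (nat_lit 90) (nat_lit 5) (nat_lit 91) (nat_lit 5) (nat_lit 684) (nat_lit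 568) (nat_lit 308)) (XT.lf (nat_lit 0) (nat_lit 2711898651) (nat_lit 1748) (nat_lit 1418395937) (nat_lit 1748) (nat_lit 1418395937) (nat_lit 529) (nat_lit 3) (nat_lit 552) (nat_lit 3) (nat_lit 552) (nat_lit 5) (nat_lit 569) (nat_lit 569) (nat_lit 422)))))) (XT.nd (nat_lit 624) (nat_lit 1444) (nat_lit 0) (XT.nd (nat_lit 312) (nat_lit 0) (nat_lit 152) (XT.nd (nat_lit 156) (nat_lit 0) (nat_lit 76) (XT.nd (nat_lit 78) (nat_lit 0) (nat_lit 76) (XT.lf (nat_lit 76) (nat_lit 2726216362) (nat_lit 0) (nat_lit 3332256058) (nat_lit 1748) (nat_lit 5138255627) (nat_lit 530) (nat_lit 5) (nat_lit 529) (nat_lit 3) (nat_lit 552) (nat_lit 5) (nat_lit 570) (nat_lit 569) (nat_lit 421)) (XT.lf (nat_lit 0) (nat_lit 6721242543) (nat_lit 1672) (nat_lit 2877843444) (nat_lit 1748) (nat_lit 1698668438) (nat_lit 530) (nat_lit 5) (nat_lit 552) (nat_lit 5) (nat_lit 553) (nat_lit 5) (nat_lit 571) (nat_lit 569) (nat_lit 420))) (XT.nd (nat_lit 78) (nat_lit 0) (nat_lit 76) (XT.lf (nat_lit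 76) (nat_lit 2833962883) (nat_lit 0) (nat_lit 4589298871) (nat_lit 1748) (nat_lit 3977020168) (nat_lit 531) (nat_lit 5) (nat_lit 530) (nat_lit 5) (nat_lit 553) (nat_lit 5) (nat_lit 572) (nat_lit 569) (nat_lit 419)) (XT.lf (nat_lit 0) (nat_lit 8147942966) (nat_lit 1672) (nat_lit 2817058186) (nat_lit 1748) (nat_lit 539686840) (nat_lit 531) (nat_lit 5) (nat_lit 553) (nat_lit 5) (nat_lit 554) (nat_lit 5) (nat_lit 573) (nat_lit 569) (nat_lit 418)))) (XT.nd (nat_lit 156) (nat_lit 0) (nat_lit 76) (XT.nd (nat_lit 78) (nat_lit 0) (nat_lit 0) (XT.lf (nat_lit 76) (nat_lit 3048848830) (nat_lit 0) (nat_lit 5874536486) (nat_lit 1748) (nat_lit 2687071965) (nat_lit 532) (nat_lit 5) (nat_lit 531) (nat_lit 5) (nat_lit 554) (nat_lit 5) (nat_lit 574) (nat_lit 569) (nat_lit 417)) (XT.lf (nat_lit 76) (nat_lit 9062379593) (nat_lit 0) (nat_lit 657162305) (nat_lit 1748) (nat_lit 1998696387) (nat_lit 532) (nat_lit 5) (nat_lit 531) (nat_lit 5) (nat_lit 554) (nat_lit 5) (nat_lit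 575) (nat_lit 569) (nat_lit 416))) (XT.nd (nat_lit 78) (nat_lit 0) (nat_lit 0) (XT.lf (nat_lit 76) (nat_lit 3373938553) (nat_lit 0) (nat_lit 7196481394) (nat_lit 1748) (nat_lit 1256979424) (nat_lit 533) (nat_lit 5) (nat_lit 532) (nat_lit 5) (nat_lit 555) (nat_lit 5) (nat_lit 576) (nat_lit 569) (nat_lit 415)) (XT.lf (nat_lit 76) (nat_lit 9547943639) (nat_lit 0) (nat_lit 1899335442) (nat_lit 1748) (nat_lit 491285749) (nat_lit 533) (nat_lit 5) (nat_lit 532) (nat_lit 5) (nat_lit 555) (nat_lit 5) (nat_lit 577) (nat_lit 569) (nat_lit 414))))) (XT.nd (nat_lit 312) (nat_lit 0) (nat_lit 152) (XT.nd (nat_lit 156) (nat_lit 0) (nat_lit 76) (XT.nd (nat_lit 78) (nat_lit 0) (nat_lit 0) (XT.lf (nat_lit 0) (nat_lit 320763044) (nat_lit 1748) (nat_lit 8240757000) (nat_lit 1824) (nat_lit 3489699518) (nat_lit 510) (nat_lit 5) (nat_lit 533) (nat_lit 5) (nat_lit 534) (nat_lit 5) (nat_lit 578) (nat_lit 569) (nat_lit 413)) (XT.lf (nat_lit 0) (nat_lit 1158433039) (nat_lit 1748)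 (nat_lit 2022002614) (nat_lit 1824) (nat_lit 8985308012) (nat_lit 510) (nat_lit 5) (nat_lit 533) (nat_lit 5) (nat_lit 534) (nat_lit 5) (nat_lit 579) (nat_lit 569) (nat_lit 412))) (XT.nd (nat_lit 78) (nat_lit 0) (nat_lit 0) (XT.lf (nat_lit 0) (nat_lit 2043911395) (nat_lit 1748) (nat_lit 7927070154) (nat_lit 1824) (nat_lit 2310955992) (nat_lit 511) (nat_lit 5) (nat_lit 534) (nat_lit 5) (nat_lit 535) (nat_lit 5) (nat_lit 580) (nat_lit 569) (nat_lit 411)) (XT.lf (nat_lit 0) (nat_lit 2969517819) (nat_lit 1748) (nat_lit 1542944602) (nat_lit 1824) (nat_lit 7887544884) (nat_lit 511) (nat_lit 5) (nat_lit 534) (nat_lit 5) (nat_lit 535) (nat_lit 5) (nat_lit 581) (nat_lit 569) (nat_lit 410)))) (XT.nd (nat_lit 156) (nat_lit 0) (nat_lit 0) (XT.nd (nat_lit 78) (nat_lit 0) (nat_lit 0) (XT.lf (nat_lit 0) (nat_lit 3941304360) (nat_lit 1748) (nat_lit 7500460547) (nat_lit 1824) (nat_lit 1078120572) (nat_lit 512) (nat_lit 5) (nat_lit 535) (nat_lit 5) (nat_lit 536) (nat_lit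 5) (nat_lit 582) (nat_lit 569) (nat_lit 409)) (XT.lf (nat_lit 0) (nat_lit 4960980452) (nat_lit 1748) (nat_lit 946288112) (nat_lit 1824) (nat_lit 6734323943) (nat_lit 512) (nat_lit 5) (nat_lit 535) (nat_lit 5) (nat_lit 536) (nat_lit 5) (nat_lit 583) (nat_lit 569) (nat_lit 408))) (XT.nd (nat_lit 78) (nat_lit 0) (nat_lit 76) (XT.lf (nat_lit 76) (nat_lit 5806952064) (nat_lit 0) (nat_lit 220180413) (nat_lit 1824) (nat_lit 6738079908) (nat_lit 513) (nat_lit 5) (nat_lit 512) (nat_lit 5) (nat_lit 536) (nat_lit 5) (nat_lit 584) (nat_lit 569) (nat_lit 407)) (XT.lf (nat_lit 0) (nat_lit 7145809495) (nat_lit 1748) (nat_lit 227740743) (nat_lit 1824) (nat_lit 5517130737) (nat_lit 513) (nat_lit 5) (nat_lit 536) (nat_lit 5) (nat_lit 537) (nat_lit 5) (nat_lit 585) (nat_lit 569) (nat_lit 406))))))))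
noncomputable def xc156 : XT := (XT.nd (nat_lit 2418) (nat_lit 10336) (nat_lit 0) (XT.nd (nat_lit 1170) (nat_lit 7296) (nat_lit 0) (XT.nd (nat_lit 546) (nat_lit 4712) (nat_lit 0) (XT.nd (nat_lit 234) (nat_lit 1672) (nat_lit 0) (XT.nd (nat_lit 78) (nat_lit 0) (nat_lit 76) (XT.lf (nat_lit 76) (nat_lit 6715802207) (nat_lit 0) (nat_lit 1604919952) (nat_lit 1824) (nat_lit 4697259881) (nat_lit 514) (nat_lit 5) (nat_lit 513) (nat_lit 5) (nat_lit 537) (nat_lit 5) (nat_lit 586) (nat_lit 569) (nat_lit 405)) (XT.nd (nat_lit 78) (nat_lit 0) (nat_lit 0) (XT.lf (nat_lit 76) (nat_lit 625522098) (nat_lit 0) (nat_lit 8915979178) (nat_lit 1824) (nat_lit 3605880826) (nat_lit 515) (nat_lit 5) (nat_lit 514) (nat_lit 5) (nat_lit 538) (nat_lit 5) (nat_lit 587) (nat_lit 569) (nat_lit 404)) (XT.lf (nat_lit 76) (nat_lit 7758097626) (nat_lit 0) (nat_lit 3070595668) (nat_lit 1824) (nat_lit 2449837255) (nat_lit 515) (nat_lit 5) (nat_lit 514) (nat_lit 5) (nat_lit 538) (nat_lit 5) (nat_lit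 588) (nat_lit 569) (nat_lit 403)))) (XT.nd (nat_lit 156) (nat_lit 0) (nat_lit 76) (XT.nd (nat_lit 78) (nat_lit 1824) (nat_lit 0) (XT.lf (nat_lit 76) (nat_lit 1615025326) (nat_lit 0) (nat_lit 10545240933) (nat_lit 1824) (nat_lit 1251663289) (nat_lit 516) (nat_lit 5) (nat_lit 515) (nat_lit 5) (nat_lit 539) (nat_lit 5) (nat_lit 589) (nat_lit 569) (nat_lit 402)) (XT.lf (nat_lit 0) (nat_lit 17947740) (nat_lit 1824) (nat_lit 4608109663) (nat_lit 1900) (nat_lit 8921001545) (nat_lit 491) (nat_lit 5) (nat_lit 515) (nat_lit 5) (nat_lit 516) (nat_lit 5) (nat_lit 590) (nat_lit 569) (nat_lit 401))) (XT.nd (nat_lit 78) (nat_lit 0) (nat_lit 0) (XT.lf (nat_lit 0) (nat_lit 1313039648) (nat_lit 1824) (nat_lit 10950091223) (nat_lit 1900) (nat_lit 1421257932) (nat_lit 492) (nat_lit 5) (nat_lit 516) (nat_lit 5) (nat_lit 517) (nat_lit 5) (nat_lit 591) (nat_lit 569) (nat_lit 400)) (XT.lf (nat_lit 0) (nat_lit 2685626104) (nat_lit 1824) (nat_lit 3577154820) (nat_lit 1900) (nat_lit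 7560652779) (nat_lit 492) (nat_lit 5) (nat_lit 516) (nat_lit 5) (nat_lit 517) (nat_lit 5) (nat_lit 592) (nat_lit 569) (nat_lit 399))))) (XT.nd (nat_lit 312) (nat_lit 3040) (nat_lit 0) (XT.nd (nat_lit 156) (nat_lit 1748) (nat_lit 0) (XT.nd (nat_lit 78) (nat_lit 0) (nat_lit 76) (XT.lf (nat_lit 76) (nat_lit 3987215515) (nat_lit 0) (nat_lit 114364792) (nat_lit 1900) (nat_lit 9863361167) (nat_lit 493) (nat_lit 5) (nat_lit 492) (nat_lit 5) (nat_lit 517) (nat_lit 5) (nat_lit 593) (nat_lit 569) (nat_lit 398)) (XT.lf (nat_lit 0) (nat_lit 5600173029) (nat_lit 1824) (nat_lit 2406041380) (nat_lit 76) (nat_lit 6101978892) (nat_lit 493) (nat_lit 5) (nat_lit 517) (nat_lit 5) (nat_lit 494) (nat_lit 5) (nat_lit 594) (nat_lit 569) (nat_lit 397))) (XT.nd (nat_lit 78) (nat_lit 0) (nat_lit 0) (XT.lf (nat_lit 0) (nat_lit 5378556143) (nat_lit 1824) (nat_lit 1776232955) (nat_lit 1900) (nat_lit 7099000321) (nat_lit 469) (nat_lit 5) (nat_lit 493) (nat_lit 5) (nat_lit 494) (nat_lit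 5) (nat_lit 595) (nat_lit 569) (nat_lit 396)) (XT.lf (nat_lit 0) (nat_lit 8776992119) (nat_lit 1900) (nat_lit 1088794644) (nat_lit 76) (nat_lit 4535781081) (nat_lit 469) (nat_lit 5) (nat_lit 494) (nat_lit 5) (nat_lit 470) (nat_lit 5) (nat_lit 596) (nat_lit 569) (nat_lit 395)))) (XT.nd (nat_lit 156) (nat_lit 988) (nat_lit 0) (XT.nd (nat_lit 78) (nat_lit 912) (nat_lit 0) (XT.lf (nat_lit 0) (nat_lit 6924138952) (nat_lit 1140) (nat_lit 3554921666) (nat_lit 1216) (nat_lit 4072293062) (nat_lit 454) (nat_lit 5) (nat_lit 469) (nat_lit 5) (nat_lit 470) (nat_lit 5) (nat_lit 597) (nat_lit 569) (nat_lit 394)) (XT.lf (nat_lit 0) (nat_lit 385984710) (nat_lit 912) (nat_lit 11848596706) (nat_lit 988) (nat_lit 2469165867) (nat_lit 442) (nat_lit 5) (nat_lit 454) (nat_lit 5) (nat_lit 455) (nat_lit 5) (nat_lit 598) (nat_lit 569) (nat_lit 393))) (XT.nd (nat_lit 78) (nat_lit 988) (nat_lit 0) (XT.lf (nat_lit 0) (nat_lit 8630619747) (nat_lit 912) (nat_lit 5460125708) (nat_lit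 988) (nat_lit 767132906) (nat_lit 442) (nat_lit 5) (nat_lit 454) (nat_lit 5) (nat_lit 455) (nat_lit 5) (nat_lit 599) (nat_lit 569) (nat_lit 392)) (XT.lf (nat_lit 0) (nat_lit 967530510) (nat_lit 988) (nat_lit 12984705024) (nat_lit 76) (nat_lit 1062505008) (nat_lit 429) (nat_lit 5) (nat_lit 442) (nat_lit 5) (nat_lit 430) (nat_lit 5) (nat_lit 600) (nat_lit 569) (nat_lit 391)))))) (XT.nd (nat_lit 624) (nat_lit 3800) (nat_lit 0) (XT.nd (nat_lit 312) (nat_lit 1748) (nat_lit 0) (XT.nd (nat_lit 156) (nat_lit 912) (nat_lit 0) (XT.nd (nat_lit 78) (nat_lit 836) (nat_lit 0) (XT.lf (nat_lit 0) (nat_lit 2796055142) (nat_lit 988) (nat_lit 4686975095) (nat_lit 76) (nat_lit 7690219762) (nat_lit 429) (nat_lit 5) (nat_lit 442) (nat_lit 5) (nat_lit 430) (nat_lit 5) (nat_lit 601) (nat_lit 569) (nat_lit 390)) (XT.lf (nat_lit 0) (nat_lit 3818513759) (nat_lit 836) (nat_lit 858806830) (nat_lit 912) (nat_lit 10657285894) (nat_lit 418) (nat_lit 5) (nat_lit 429) (nat_lit 5) (nat_lit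 430) (nat_lit 5) (nat_lit 602) (nat_lit 569) (nat_lit 389))) (XT.nd (nat_lit 78) (nat_lit 912) (nat_lit 0) (XT.lf (nat_lit 0) (nat_lit 6657660314) (nat_lit 912) (nat_lit 2987810790) (nat_lit 76) (nat_lit 5852490248) (nat_lit 418) (nat_lit 5) (nat_lit 430) (nat_lit 5) (nat_lit 419) (nat_lit 5) (nat_lit 603) (nat_lit 569) (nat_lit 388)) (XT.lf (nat_lit 0) (nat_lit 5772831701) (nat_lit 912) (nat_lit 2939605924) (nat_lit 988) (nat_lit 6951449311) (nat_lit 406) (nat_lit 5) (nat_lit 418) (nat_lit 5) (nat_lit 419) (nat_lit 5) (nat_lit 604) (nat_lit 569) (nat_lit 387)))) (XT.nd (nat_lit 156) (nat_lit 912) (nat_lit 0) (XT.nd (nat_lit 78) (nat_lit 836) (nat_lit 0) (XT.lf (nat_lit 0) (nat_lit 10845589900) (nat_lit 988) (nat_lit 1117339358) (nat_lit 76) (nat_lit 3869456413) (nat_lit 406) (nat_lit 5) (nat_lit 419) (nat_lit 5) (nat_lit 407) (nat_lit 5) (nat_lit 605) (nat_lit 569) (nat_lit 386)) (XT.lf (nat_lit 0) (nat_lit 7907920263) (nat_lit 836) (nat_lit 5176230344)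 (nat_lit 912) (nat_lit 2918849090) (nat_lit 395) (nat_lit 5) (nat_lit 406) (nat_lit 5) (nat_lit 407) (nat_lit 5) (nat_lit 606) (nat_lit 569) (nat_lit 385))) (XT.nd (nat_lit 78) (nat_lit 76) (nat_lit 0) (XT.lf (nat_lit 0) (nat_lit 944675942) (nat_lit 836) (nat_lit 14439863832) (nat_lit 912) (nat_lit 792145302) (nat_lit 384) (nat_lit 5) (nat_lit 395) (nat_lit 5) (nat_lit 396) (nat_lit 5) (nat_lit 607) (nat_lit 569) (nat_lit 384)) (XT.lf (nat_lit 0) (nat_lit 1440082532) (nat_lit 912) (nat_lit 6129712992) (nat_lit 76) (nat_lit 8782249015) (nat_lit 383) (nat_lit 5) (nat_lit 395) (nat_lit 5) (nat_lit 384) (nat_lit 5) (nat_lit 608) (nat_lit 569) (nat_lit 383))))) (XT.nd (nat_lit 312) (nat_lit 2280) (nat_lit 0) (XT.nd (nat_lit 156) (nat_lit 760) (nat_lit 0) (XT.nd (nat_lit 78) (nat_lit 0) (nat_lit 0) (XT.lf (nat_lit 0) (nat_lit 3182959326) (nat_lit 760) (nat_lit 536308808) (nat_lit 836) (nat_lit 12811280141) (nat_lit 373) (nat_lit 5) (nat_lit 383) (nat_lit 5)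 (nat_lit 384) (nat_lit 5) (nat_lit 609) (nat_lit 569) (nat_lit 382)) (XT.lf (nat_lit 0) (nat_lit 6120881411) (nat_lit 836) (nat_lit 3998459612) (nat_lit 76) (nat_lit 6591744385) (nat_lit 373) (nat_lit 5) (nat_lit 384) (nat_lit 5) (nat_lit 374) (nat_lit 5) (nat_lit 610) (nat_lit 569) (nat_lit 381))) (XT.nd (nat_lit 78) (nat_lit 0) (nat_lit 0) (XT.lf (nat_lit 0) (nat_lit 5599434815) (nat_lit 760) (nat_lit 3003489926) (nat_lit 836) (nat_lit 8291660786) (nat_lit 363) (nat_lit 5) (nat_lit 373) (nat_lit 5) (nat_lit 374) (nat_lit 5) (nat_lit 611) (nat_lit 569) (nat_lit 380)) (XT.lf (nat_lit 0) (nat_lit 11181824265) (nat_lit 836) (nat_lit 1673728012) (nat_lit 76) (nat_lit 4225259258) (nat_lit 363) (nat_lit 5) (nat_lit 374) (nat_lit 5) (nat_lit 364) (nat_lit 5) (nat_lit 612) (nat_lit 569) (nat_lit 379)))) (XT.nd (nat_lit 156) (nat_lit 760) (nat_lit 0) (XT.nd (nat_lit 78) (nat_lit 760) (nat_lit 0) (XT.lf (nat_lit 0) (nat_lit 8220005590) (nat_lit 760) (nat_lit 5658283709)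 (nat_lit 836) (nat_lit 3391153205) (nat_lit 353) (nat_lit 5) (nat_lit 363) (nat_lit 5) (nat_lit 364) (nat_lit 5) (nat_lit 613) (nat_lit 569) (nat_lit 378)) (XT.lf (nat_lit 0) (nat_lit 864902974) (nat_lit 760) (nat_lit 15784441592) (nat_lit 836) (nat_lit 812088496) (nat_lit 343) (nat_lit 5) (nat_lit 353) (nat_lit 5) (nat_lit 354) (nat_lit 5) (nat_lit 614) (nat_lit 569) (nat_lit 377))) (XT.nd (nat_lit 78) (nat_lit 684) (nat_lit 0) (XT.lf (nat_lit 0) (nat_lit 1886161618) (nat_lit 836) (nat_lit 6613694517) (nat_lit 76) (nat_lit 9155342232) (nat_lit 342) (nat_lit 5) (nat_lit 353) (nat_lit 5) (nat_lit 343) (nat_lit 5) (nat_lit 615) (nat_lit 569) (nat_lit 376)) (XT.lf (nat_lit 0) (nat_lit 3602668103) (nat_lit 684) (nat_lit 1041230054) (nat_lit 760) (nat_lit 13208505735) (nat_lit 333) (nat_lit 5) (nat_lit 342) (nat_lit 5) (nat_lit 343) (nat_lit 5) (nat_lit 616) (nat_lit 569) (nat_lit 375))))))) (XT.nd (nat_lit 1170) (nat_lit 5168) (nat_lit 0) (XT.nd (nat_lit 546)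 (nat_lit 2432) (nat_lit 0) (XT.nd (nat_lit 234) (nat_lit 2052) (nat_lit 0) (XT.nd (nat_lit 78) (nat_lit 684) (nat_lit 0) (XT.lf (nat_lit 0) (nat_lit 7537172527) (nat_lit 760) (nat_lit 3990666475) (nat_lit 76) (nat_lit 6524107035) (nat_lit 333) (nat_lit 5) (nat_lit 343) (nat_lit 5) (nat_lit 334) (nat_lit 5) (nat_lit 617) (nat_lit 569) (nat_lit 374)) (XT.nd (nat_lit 78) (nat_lit 0) (nat_lit 0) (XT.lf (nat_lit 0) (nat_lit 6544600224) (nat_lit 684) (nat_lit 3986308721) (nat_lit 760) (nat_lit 7723718319) (nat_lit 324) (nat_lit 5) (nat_lit 333) (nat_lit 5) (nat_lit 334) (nat_lit 5) (nat_lit 618) (nat_lit 569) (nat_lit 373)) (XT.lf (nat_lit 0) (nat_lit 13628822691) (nat_lit 760) (nat_lit 1148395962) (nat_lit 76) (nat_lit 3683257576) (nat_lit 324) (nat_lit 5) (nat_lit 334) (nat_lit 5) (nat_lit 325) (nat_lit 5) (nat_lit 619) (nat_lit 569) (nat_lit 372)))) (XT.nd (nat_lit 156) (nat_lit 608) (nat_lit 0) (XT.nd (nat_lit 78) (nat_lit 760) (nat_lit 0) (XT.lf (nat_lit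 0) (nat_lit 9717677497) (nat_lit 684) (nat_lit 7153925542) (nat_lit 760) (nat_lit 1797181129) (nat_lit 315) (nat_lit 5) (nat_lit 324) (nat_lit 5) (nat_lit 325) (nat_lit 5) (nat_lit 620) (nat_lit 569) (nat_lit 371)) (XT.lf (nat_lit 0) (nat_lit 1299011214) (nat_lit 760) (nat_lit 16940346673) (nat_lit 76) (nat_lit 641370914) (nat_lit 305) (nat_lit 5) (nat_lit 315) (nat_lit 5) (nat_lit 306) (nat_lit 5) (nat_lit 621) (nat_lit 569) (nat_lit 370))) (XT.nd (nat_lit 78) (nat_lit 608) (nat_lit 0) (XT.lf (nat_lit 0) (nat_lit 4534446533) (nat_lit 760) (nat_lit 5992296873) (nat_lit 76) (nat_lit 8567903821) (nat_lit 305) (nat_lit 5) (nat_lit 315) (nat_lit 5) (nat_lit 306) (nat_lit 5) (nat_lit 622) (nat_lit 569) (nat_lit 369)) (XT.lf (nat_lit 0) (nat_lit 5235590867) (nat_lit 608) (nat_lit 2626639156) (nat_lit 684) (nat_lit 11450061357) (nat_lit 297) (nat_lit 5) (nat_lit 305) (nat_lit 5) (nat_lit 306) (nat_lit 5) (nat_lit 623) (nat_lit 569) (nat_lit 368))))) (XT.nd (nat_lit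 312) (nat_lit 1140) (nat_lit 0) (XT.nd (nat_lit 156) (nat_lit 684) (nat_lit 0) (XT.nd (nat_lit 78) (nat_lit 608) (nat_lit 0) (XT.lf (nat_lit 0) (nat_lit 11326023049) (nat_lit 684) (nat_lit 2807605443) (nat_lit 76) (nat_lit 5399270996) (nat_lit 297) (nat_lit 5) (nat_lit 306) (nat_lit 5) (nat_lit 298) (nat_lit 5) (nat_lit 624) (nat_lit 569) (nat_lit 367)) (XT.lf (nat_lit 0) (nat_lit 8776887228) (nat_lit 608) (nat_lit 6150419756) (nat_lit 684) (nat_lit 4829248617) (nat_lit 289) (nat_lit 5) (nat_lit 297) (nat_lit 5) (nat_lit 298) (nat_lit 5) (nat_lit 625) (nat_lit 569) (nat_lit 366))) (XT.nd (nat_lit 78) (nat_lit 76) (nat_lit 0) (XT.lf (nat_lit 0) (nat_lit 634316569) (nat_lit 608) (nat_lit 17996215885) (nat_lit 684) (nat_lit 1353554207) (nat_lit 281) (nat_lit 5) (nat_lit 289) (nat_lit 5) (nat_lit 290) (nat_lit 5) (nat_lit 626) (nat_lit 569) (nat_lit 365)) (XT.lf (nat_lit 0) (nat_lit 2271734080) (nat_lit 684) (nat_lit 7648520989) (nat_lit 76) (nat_lit 10293452337)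 (nat_lit 280) (nat_lit 5) (nat_lit 289) (nat_lit 5) (nat_lit 281) (nat_lit 5) (nat_lit 627) (nat_lit 569) (nat_lit 364)))) (XT.nd (nat_lit 156) (nat_lit 532) (nat_lit 0) (XT.nd (nat_lit 78) (nat_lit 0) (nat_lit 0) (XT.lf (nat_lit 0) (nat_lit 4326899114) (nat_lit 608) (nat_lit 1646659453) (nat_lit 684) (nat_lit 14473740103) (nat_lit 272) (nat_lit 5) (nat_lit 280) (nat_lit 5) (nat_lit 281) (nat_lit 5) (nat_lit 628) (nat_lit 569) (nat_lit 363)) (XT.lf (nat_lit 0) (nat_lit 9839286824) (nat_lit 684) (nat_lit 4091165346) (nat_lit 76) (nat_lit 6753312373) (nat_lit 272) (nat_lit 5) (nat_lit 281) (nat_lit 5) (nat_lit 273) (nat_lit 5) (nat_lit 629) (nat_lit 569) (nat_lit 362))) (XT.nd (nat_lit 78) (nat_lit 0) (nat_lit 0) (XT.lf (nat_lit 0) (nat_lit 8268649511) (nat_lit 532) (nat_lit 5572487346) (nat_lit 608) (nat_lit 7082646862) (nat_lit 265) (nat_lit 5) (nat_lit 272) (nat_lit 5) (nat_lit 273) (nat_lit 5) (nat_lit 630) (nat_lit 569) (nat_lit 361)) (XT.lf (nat_lit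 0) (nat_lit 17964099892) (nat_lit 608) (nat_lit 263886176) (nat_lit 76) (nat_lit 2939795815) (nat_lit 265) (nat_lit 5) (nat_lit 273) (nat_lit 5) (nat_lit 266) (nat_lit 5) (nat_lit 631) (nat_lit 569) (nat_lit 360)))))) (XT.nd (nat_lit 624) (nat_lit 2356) (nat_lit 0) (XT.nd (nat_lit 312) (nat_lit 1064) (nat_lit 0) (XT.nd (nat_lit 156) (nat_lit 532) (nat_lit 0) (XT.nd (nat_lit 78) (nat_lit 532) (nat_lit 0) (XT.lf (nat_lit 0) (nat_lit 856142564) (nat_lit 684) (nat_lit 8925339431) (nat_lit 76) (nat_lit 11632817289) (nat_lit 256) (nat_lit 5) (nat_lit 265) (nat_lit 5) (nat_lit 257) (nat_lit 5) (nat_lit 632) (nat_lit 569) (nat_lit 359)) (XT.lf (nat_lit 0) (nat_lit 3856606508) (nat_lit 532) (nat_lit 1118929485) (nat_lit 608) (nat_lit 16689362238) (nat_lit 249) (nat_lit 5) (nat_lit 256) (nat_lit 5) (nat_lit 257) (nat_lit 5) (nat_lit 633) (nat_lit 569) (nat_lit 358))) (XT.nd (nat_lit 78) (nat_lit 532) (nat_lit 0) (XT.lf (nat_lit 0) (nat_lit 9282167285) (nat_lit 608)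 (nat_lit 4962157230) (nat_lit 76) (nat_lit 7674087758) (nat_lit 249) (nat_lit 5) (nat_lit 257) (nat_lit 5) (nat_lit 250) (nat_lit 5) (nat_lit 634) (nat_lit 569) (nat_lit 357)) (XT.lf (nat_lit 0) (nat_lit 8234106187) (nat_lit 532) (nat_lit 5496261674) (nat_lit 608) (nat_lit 8445520116) (nat_lit 242) (nat_lit 5) (nat_lit 249) (nat_lit 5) (nat_lit 250) (nat_lit 5) (nat_lit 635) (nat_lit 569) (nat_lit 356)))) (XT.nd (nat_lit 156) (nat_lit 532) (nat_lit 0) (XT.nd (nat_lit 78) (nat_lit 532) (nat_lit 0) (XT.lf (nat_lit 0) (nat_lit 18317912047) (nat_lit 608) (nat_lit 706180191) (nat_lit 76) (nat_lit 3413413476) (nat_lit 242) (nat_lit 5) (nat_lit 250) (nat_lit 5) (nat_lit 243) (nat_lit 5) (nat_lit 636) (nat_lit 569) (nat_lit 355)) (XT.lf (nat_lit 0) (nat_lit 404772905) (nat_lit 532) (nat_lit 9784813975) (nat_lit 76) (nat_lit 12512415759) (nat_lit 235) (nat_lit 5) (nat_lit 242) (nat_lit 5) (nat_lit 236) (nat_lit 5) (nat_lit 637) (nat_lit 569) (nat_lit 354))) (XT.nd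 (nat_lit 78) (nat_lit 0) (nat_lit 0) (XT.lf (nat_lit 0) (nat_lit 3867007188) (nat_lit 532) (nat_lit 1122126393) (nat_lit 608) (nat_lit 17981618053) (nat_lit 228) (nat_lit 5) (nat_lit 235) (nat_lit 5) (nat_lit 236) (nat_lit 5) (nat_lit 638) (nat_lit 569) (nat_lit 353)) (XT.lf (nat_lit 0) (nat_lit 9778823347) (nat_lit 608) (nat_lit 5379601919) (nat_lit 76) (nat_lit 8084177609) (nat_lit 228) (nat_lit 5) (nat_lit 236) (nat_lit 5) (nat_lit 229) (nat_lit 5) (nat_lit 639) (nat_lit 569) (nat_lit 352))))) (XT.nd (nat_lit 312) (nat_lit 912) (nat_lit 0) (XT.nd (nat_lit 156) (nat_lit 988) (nat_lit 0) (XT.nd (nat_lit 78) (nat_lit 0) (nat_lit 0) (XT.lf (nat_lit 0) (nat_lit 8718742608) (nat_lit 456) (nat_lit 6004487738) (nat_lit 532) (nat_lit 8795482427) (nat_lit 222) (nat_lit 5) (nat_lit 228) (nat_lit 5) (nat_lit 229) (nat_lit 5) (nat_lit 640) (nat_lit 569) (nat_lit 351)) (XT.lf (nat_lit 0) (nat_lit 19819426110) (nat_lit 532) (nat_lit 656760836) (nat_lit 76) (nat_lit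 3323100009) (nat_lit 222) (nat_lit 5) (nat_lit 229) (nat_lit 5) (nat_lit 223) (nat_lit 5) (nat_lit 641) (nat_lit 569) (nat_lit 350))) (XT.nd (nat_lit 78) (nat_lit 456) (nat_lit 0) (XT.lf (nat_lit 0) (nat_lit 1045745259) (nat_lit 532) (nat_lit 10185035171) (nat_lit 76) (nat_lit 12852053326) (nat_lit 215) (nat_lit 5) (nat_lit 222) (nat_lit 5) (nat_lit 216) (nat_lit 5) (nat_lit 642) (nat_lit 569) (nat_lit 349)) (XT.lf (nat_lit 0) (nat_lit 4404655159) (nat_lit 456) (nat_lit 1742045363) (nat_lit 532) (nat_lit 18224262379) (nat_lit 209) (nat_lit 5) (nat_lit 215) (nat_lit 5) (nat_lit 216) (nat_lit 5) (nat_lit 643) (nat_lit 569) (nat_lit 348)))) (XT.nd (nat_lit 156) (nat_lit 456) (nat_lit 0) (XT.nd (nat_lit 78) (nat_lit 456) (nat_lit 0) (XT.lf (nat_lit 0) (nat_lit 11465083730) (nat_lit 532) (nat_lit 5298421548) (nat_lit 76) (nat_lit 7899041266) (nat_lit 209) (nat_lit 5) (nat_lit 216) (nat_lit 5) (nat_lit 210) (nat_lit 5) (nat_lit 644) (nat_lit 569) (nat_lit 347))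 (XT.lf (nat_lit 0) (nat_lit 9772440642) (nat_lit 456) (nat_lit 7187556782) (nat_lit 532) (nat_lit 7998561268) (nat_lit 203) (nat_lit 5) (nat_lit 209) (nat_lit 5) (nat_lit 210) (nat_lit 5) (nat_lit 645) (nat_lit 569) (nat_lit 346))) (XT.nd (nat_lit 78) (nat_lit 456) (nat_lit 0) (XT.lf (nat_lit 0) (nat_lit 22612562588) (nat_lit 532) (nat_lit 67271875) (nat_lit 76) (nat_lit 2579701646) (nat_lit 203) (nat_lit 5) (nat_lit 210) (nat_lit 5) (nat_lit 204) (nat_lit 5) (nat_lit 646) (nat_lit 569) (nat_lit 345)) (XT.lf (nat_lit 0) (nat_lit 2919281238) (nat_lit 456) (nat_lit 10080104044) (nat_lit 76) (nat_lit 12563892565) (nat_lit 197) (nat_lit 5) (nat_lit 203) (nat_lit 5) (nat_lit 198) (nat_lit 5) (nat_lit 647) (nat_lit 569) (nat_lit 344))))))))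
noncomputable def xc157 : XT := (XT.nd (nat_lit 2418) (nat_lit 1140) (nat_lit 0) (XT.nd (nat_lit 1170) (nat_lit 3344) (nat_lit 0) (XT.nd (nat_lit 546) (nat_lit 1976) (nat_lit 0) (XT.nd (nat_lit 234) (nat_lit 836) (nat_lit 0) (XT.nd (nat_lit 78) (nat_lit 380) (nat_lit 0) (XT.lf (nat_lit 0) (nat_lit 5520397164) (nat_lit 456) (nat_lit 3072673126) (nat_lit 532) (nat_lit 17279041240) (nat_lit 191) (nat_lit 5) (nat_lit 197) (nat_lit 5) (nat_lit 198) (nat_lit 5) (nat_lit 648) (nat_lit 569) (nat_lit 343)) (XT.nd (nat_lit 78) (nat_lit 380) (nat_lit 0) (XT.lf (nat_lit 0) (nat_lit 14489570850) (nat_lit 532) (nat_lit 4669418748) (nat_lit 76) (nat_lit 7025947654) (nat_lit 191) (nat_lit 5) (nat_lit 198) (nat_lit 5) (nat_lit 192) (nat_lit 5) (nat_lit 649) (nat_lit 569) (nat_lit 342)) (XT.lf (nat_lit 0) (nat_lit 11449514207) (nat_lit 380) (nat_lit 9144619936) (nat_lit 456) (nat_lit 5908082772) (nat_lit 186) (nat_lit 5) (nat_lit 191) (nat_lit 5) (nat_lit 192) (nat_lit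 5) (nat_lit 650) (nat_lit 569) (nat_lit 341)))) (XT.nd (nat_lit 156) (nat_lit 380) (nat_lit 0) (XT.nd (nat_lit 78) (nat_lit 0) (nat_lit 0) (XT.lf (nat_lit 0) (nat_lit 36586872) (nat_lit 456) (nat_lit 25695542726) (nat_lit 76) (nat_lit 1092881824) (nat_lit 180) (nat_lit 5) (nat_lit 186) (nat_lit 5) (nat_lit 181) (nat_lit 5) (nat_lit 651) (nat_lit 569) (nat_lit 340)) (XT.lf (nat_lit 0) (nat_lit 6178846905) (nat_lit 456) (nat_lit 9420138167) (nat_lit 76) (nat_lit 11551339650) (nat_lit 180) (nat_lit 5) (nat_lit 186) (nat_lit 5) (nat_lit 181) (nat_lit 5) (nat_lit 652) (nat_lit 569) (nat_lit 339))) (XT.nd (nat_lit 78) (nat_lit 0) (nat_lit 0) (XT.lf (nat_lit 0) (nat_lit 7269380646) (nat_lit 380) (nat_lit 5217348908) (nat_lit 456) (nat_lit 14994559259) (nat_lit 175) (nat_lit 5) (nat_lit 180) (nat_lit 5) (nat_lit 181) (nat_lit 5) (nat_lit 653) (nat_lit 569) (nat_lit 338)) (XT.lf (nat_lit 0) (nat_lit 19014888653) (nat_lit 456) (nat_lit 3439283696) (nat_lit 76) (nat_lit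 5362817533) (nat_lit 175) (nat_lit 5) (nat_lit 181) (nat_lit 5) (nat_lit 176) (nat_lit 5) (nat_lit 654) (nat_lit 569) (nat_lit 337))))) (XT.nd (nat_lit 312) (nat_lit 760) (nat_lit 0) (XT.nd (nat_lit 156) (nat_lit 380) (nat_lit 0) (XT.nd (nat_lit 78) (nat_lit 456) (nat_lit 0) (XT.lf (nat_lit 0) (nat_lit 13808716281) (nat_lit 380) (nat_lit 11984796103) (nat_lit 456) (nat_lit 2363494631) (nat_lit 170) (nat_lit 5) (nat_lit 175) (nat_lit 5) (nat_lit 176) (nat_lit 5) (nat_lit 655) (nat_lit 569) (nat_lit 336)) (XT.lf (nat_lit 0) (nat_lit 2949527789) (nat_lit 380) (nat_lit 1237311643) (nat_lit 456) (nat_lit 24315677438) (nat_lit 164) (nat_lit 5) (nat_lit 169) (nat_lit 5) (nat_lit 170) (nat_lit 5) (nat_lit 656) (nat_lit 569) (nat_lit 335))) (XT.nd (nat_lit 78) (nat_lit 380) (nat_lit 0) (XT.lf (nat_lit 0) (nat_lit 10992360315) (nat_lit 456) (nat_lit 8151314017) (nat_lit 76) (nat_lit 9707833654) (nat_lit 164) (nat_lit 5) (nat_lit 170) (nat_lit 5) (nat_lit 165) (nat_lit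 5) (nat_lit 657) (nat_lit 569) (nat_lit 334)) (XT.lf (nat_lit 0) (nat_lit 9711024564) (nat_lit 380) (nat_lit 8290028810) (nat_lit 456) (nat_lit 11205084383) (nat_lit 159) (nat_lit 5) (nat_lit 164) (nat_lit 5) (nat_lit 165) (nat_lit 5) (nat_lit 658) (nat_lit 569) (nat_lit 333)))) (XT.nd (nat_lit 156) (nat_lit 380) (nat_lit 0) (XT.nd (nat_lit 78) (nat_lit 380) (nat_lit 0) (XT.lf (nat_lit 0) (nat_lit 25218878040) (nat_lit 456) (nat_lit 1550641677) (nat_lit 76) (nat_lit 2796961314) (nat_lit 159) (nat_lit 5) (nat_lit 165) (nat_lit 5) (nat_lit 160) (nat_lit 5) (nat_lit 659) (nat_lit 569) (nat_lit 332)) (XT.lf (nat_lit 0) (nat_lit 2774011465) (nat_lit 380) (nat_lit 13035864127) (nat_lit 76) (nat_lit 14120577923) (nat_lit 154) (nat_lit 5) (nat_lit 159) (nat_lit 5) (nat_lit 155) (nat_lit 5) (nat_lit 660) (nat_lit 569) (nat_lit 331))) (XT.nd (nat_lit 78) (nat_lit 0) (nat_lit 0) (XT.lf (nat_lit 0) (nat_lit 5464610031) (nat_lit 380) (nat_lit 4557177573) (nat_lit 456)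 (nat_lit 20278504275) (nat_lit 149) (nat_lit 5) (nat_lit 154) (nat_lit 5) (nat_lit 155) (nat_lit 5) (nat_lit 661) (nat_lit 569) (nat_lit 330)) (XT.lf (nat_lit 0) (nat_lit 17543466738) (nat_lit 456) (nat_lit 6215959688) (nat_lit 76) (nat_lit 6915521694) (nat_lit 149) (nat_lit 5) (nat_lit 155) (nat_lit 5) (nat_lit 150) (nat_lit 5) (nat_lit 662) (nat_lit 569) (nat_lit 329)))))) (XT.nd (nat_lit 624) (nat_lit 1596) (nat_lit 0) (XT.nd (nat_lit 312) (nat_lit 684) (nat_lit 0) (XT.nd (nat_lit 156) (nat_lit 304) (nat_lit 0) (XT.nd (nat_lit 78) (nat_lit 456) (nat_lit 0) (XT.lf (nat_lit 0) (nat_lit 12908938620) (nat_lit 304) (nat_lit 12416671152) (nat_lit 380) (nat_lit 5729287167) (nat_lit 145) (nat_lit 5) (nat_lit 149) (nat_lit 5) (nat_lit 150) (nat_lit 5) (nat_lit 663) (nat_lit 569) (nat_lit 328)) (XT.lf (nat_lit 0) (nat_lit 1054360217) (nat_lit 380) (nat_lit 787590513) (nat_lit 456) (nat_lit 29599359964) (nat_lit 139) (nat_lit 5) (nat_lit 144) (nat_lit 5) (nat_lit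 145) (nat_lit 5) (nat_lit 664) (nat_lit 569) (nat_lit 327))) (XT.nd (nat_lit 78) (nat_lit 304) (nat_lit 0) (XT.lf (nat_lit 0) (nat_lit 9678514175) (nat_lit 456) (nat_lit 11065381171) (nat_lit 76) (nat_lit 11086987702) (nat_lit 139) (nat_lit 5) (nat_lit 145) (nat_lit 5) (nat_lit 140) (nat_lit 5) (nat_lit 665) (nat_lit 569) (nat_lit 326)) (XT.lf (nat_lit 0) (nat_lit 8745858913) (nat_lit 304) (nat_lit 8984095476) (nat_lit 380) (nat_lit 14497129606) (nat_lit 135) (nat_lit 5) (nat_lit 139) (nat_lit 5) (nat_lit 140) (nat_lit 5) (nat_lit 666) (nat_lit 569) (nat_lit 325)))) (XT.nd (nat_lit 156) (nat_lit 304) (nat_lit 0) (XT.nd (nat_lit 78) (nat_lit 380) (nat_lit 0) (XT.lf (nat_lit 0) (nat_lit 26032883971) (nat_lit 380) (nat_lit 3552714537) (nat_lit 76) (nat_lit 3043801292) (nat_lit 135) (nat_lit 5) (nat_lit 140) (nat_lit 5) (nat_lit 136) (nat_lit 5) (nat_lit 667) (nat_lit 569) (nat_lit 324)) (XT.lf (nat_lit 0) (nat_lit 1609695281) (nat_lit 380) (nat_lit 16116264962)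 (nat_lit 76) (nat_lit 15310276652) (nat_lit 130) (nat_lit 5) (nat_lit 135) (nat_lit 5) (nat_lit 131) (nat_lit 5) (nat_lit 668) (nat_lit 569) (nat_lit 323))) (XT.nd (nat_lit 78) (nat_lit 0) (nat_lit 0) (XT.lf (nat_lit 0) (nat_lit 4407341187) (nat_lit 304) (nat_lit 5533308558) (nat_lit 380) (nat_lit 23508710048) (nat_lit 126) (nat_lit 5) (nat_lit 130) (nat_lit 5) (nat_lit 131) (nat_lit 5) (nat_lit 669) (nat_lit 569) (nat_lit 322)) (XT.lf (nat_lit 0) (nat_lit 18588176583) (nat_lit 380) (nat_lit 8360411817) (nat_lit 76) (nat_lit 6919157731) (nat_lit 126) (nat_lit 5) (nat_lit 131) (nat_lit 5) (nat_lit 127) (nat_lit 5) (nat_lit 670) (nat_lit 569) (nat_lit 321))))) (XT.nd (nat_lit 312) (nat_lit 608) (nat_lit 0) (XT.nd (nat_lit 156) (nat_lit 608) (nat_lit 0) (XT.nd (nat_lit 78) (nat_lit 76) (nat_lit 0) (XT.lf (nat_lit 0) (nat_lit 12860802487) (nat_lit 304) (nat_lit 14664338249) (nat_lit 380) (nat_lit 6767029773) (nat_lit 122) (nat_lit 5) (nat_lit 126) (nat_lit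 5) (nat_lit 127) (nat_lit 5) (nat_lit 671) (nat_lit 569) (nat_lit 320)) (XT.lf (nat_lit 0) (nat_lit 1943459689) (nat_lit 380) (nat_lit 123063254) (nat_lit 76) (nat_lit 32657255220) (nat_lit 121) (nat_lit 5) (nat_lit 126) (nat_lit 5) (nat_lit 122) (nat_lit 5) (nat_lit 672) (nat_lit 569) (nat_lit 319))) (XT.nd (nat_lit 78) (nat_lit 304) (nat_lit 0) (XT.lf (nat_lit 0) (nat_lit 10947134023) (nat_lit 380) (nat_lit 13384408466) (nat_lit 76) (nat_lit 10827389212) (nat_lit 117) (nat_lit 5) (nat_lit 122) (nat_lit 5) (nat_lit 118) (nat_lit 5) (nat_lit 673) (nat_lit 569) (nat_lit 318)) (XT.lf (nat_lit 0) (nat_lit 8602126791) (nat_lit 304) (nat_lit 11595560874) (nat_lit 380) (nat_lit 15403764573) (nat_lit 113) (nat_lit 5) (nat_lit 117) (nat_lit 5) (nat_lit 118) (nat_lit 5) (nat_lit 674) (nat_lit 569) (nat_lit 317)))) (XT.nd (nat_lit 156) (nat_lit 304) (nat_lit 0) (XT.nd (nat_lit 78) (nat_lit 304) (nat_lit 0) (XT.lf (nat_lit 0) (nat_lit 29729175931) (nat_lit 380) (nat_lit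 4856832264) (nat_lit 76) (nat_lit 1464896563) (nat_lit 113) (nat_lit 5) (nat_lit 118) (nat_lit 5) (nat_lit 114) (nat_lit 5) (nat_lit 675) (nat_lit 569) (nat_lit 316)) (XT.lf (nat_lit 0) (nat_lit 3094024419) (nat_lit 304) (nat_lit 18645547667) (nat_lit 76) (nat_lit 14765579043) (nat_lit 109) (nat_lit 5) (nat_lit 113) (nat_lit 5) (nat_lit 110) (nat_lit 5) (nat_lit 676) (nat_lit 569) (nat_lit 315))) (XT.nd (nat_lit 78) (nat_lit 0) (nat_lit 0) (XT.lf (nat_lit 0) (nat_lit 4134653267) (nat_lit 304) (nat_lit 8535054480) (nat_lit 380) (nat_lit 24296813730) (nat_lit 105) (nat_lit 5) (nat_lit 109) (nat_lit 5) (nat_lit 110) (nat_lit 5) (nat_lit 677) (nat_lit 569) (nat_lit 314)) (XT.lf (nat_lit 0) (nat_lit 22591432572) (nat_lit 380) (nat_lit 9850153337) (nat_lit 76) (nat_lit 4992442804) (nat_lit 105) (nat_lit 5) (nat_lit 110) (nat_lit 5) (nat_lit 106) (nat_lit 5) (nat_lit 678) (nat_lit 569) (nat_lit 313))))))) (XT.nd (nat_lit 73476) (nat_lit 0) (nat_lit 30476) (XT.nd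 (nat_lit 72852) (nat_lit 0) (nat_lit 31844) (XT.nd (nat_lit 312) (nat_lit 304) (nat_lit 0) (XT.nd (nat_lit 78) (nat_lit 608) (nat_lit 0) (XT.lf (nat_lit 0) (nat_lit 13708700105) (nat_lit 228) (nat_lit 19145034902) (nat_lit 304) (nat_lit 5054308266) (nat_lit 102) (nat_lit 5) (nat_lit 105) (nat_lit 5) (nat_lit 106) (nat_lit 5) (nat_lit 679) (nat_lit 569) (nat_lit 312)) (XT.nd (nat_lit 156) (nat_lit 532) (nat_lit 0) (XT.lf (nat_lit 0) (nat_lit 4928248880) (nat_lit 304) (nat_lit 556180296) (nat_lit 76) (nat_lit 32905205681) (nat_lit 101) (nat_lit 5) (nat_lit 105) (nat_lit 5) (nat_lit 102) (nat_lit 5) (nat_lit 680) (nat_lit 569) (nat_lit 311)) (XT.lf (nat_lit 0) (nat_lit 9310524123) (nat_lit 228) (nat_lit 16565620906) (nat_lit 304) (nat_lit 13494080649) (nat_lit 94) (nat_lit 5) (nat_lit 97) (nat_lit 5) (nat_lit 98) (nat_lit 5) (nat_lit 682) (nat_lit 569) (nat_lit 309)))) (XT.nd (nat_lit 72384) (nat_lit 0) (nat_lit 33364) (XT.nd (nat_lit 78) (nat_lit 304) (nat_lit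 0) (XT.lf (nat_lit 0) (nat_lit 34408264774) (nat_lit 228) (nat_lit 2404235979) (nat_lit 304) (nat_lit 3059834751) (nat_lit 94) (nat_lit 5) (nat_lit 97) (nat_lit 5) (nat_lit 98) (nat_lit 5) (nat_lit 683) (nat_lit 569) (nat_lit 308)) (XT.lf (nat_lit 0) (nat_lit 7688492350) (nat_lit 304) (nat_lit 20631601255) (nat_lit 76) (nat_lit 12059312268) (nat_lit 90) (nat_lit 5) (nat_lit 94) (nat_lit 5) (nat_lit 91) (nat_lit 5) (nat_lit 684) (nat_lit 569) (nat_lit 307))) (XT.nd (nat_lit 78) (nat_lit 0) (nat_lit 0) (XT.lf (nat_lit 0) (nat_lit 3325219704) (nat_lit 1748) (nat_lit 1161622507) (nat_lit 1748) (nat_lit 1161622507) (nat_lit 529) (nat_lit 3) (nat_lit 552) (nat_lit 3) (nat_lit 552) (nat_lit 5) (nat_lit 570) (nat_lit 570) (nat_lit 420)) (XT.lf (nat_lit 76) (nat_lit 3347271527) (nat_lit 0) (nat_lit 3932289969) (nat_lit 1748) (nat_lit 4119067512) (nat_lit 530) (nat_lit 5) (nat_lit 529) (nat_lit 3) (nat_lit 552) (nat_lit 5) (nat_lit 571) (nat_lit 570) (nat_lit 419)))))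 (XT.nd (nat_lit 312) (nat_lit 1596) (nat_lit 0) (XT.nd (nat_lit 156) (nat_lit 0) (nat_lit 76) (XT.nd (nat_lit 78) (nat_lit 0) (nat_lit 0) (XT.lf (nat_lit 0) (nat_lit 7930624760) (nat_lit 1672) (nat_lit 2354981145) (nat_lit 1748) (nat_lit 1216569945) (nat_lit 530) (nat_lit 5) (nat_lit 552) (nat_lit 5) (nat_lit 553) (nat_lit 5) (nat_lit 572) (nat_lit 570) (nat_lit 418)) (XT.lf (nat_lit 76) (nat_lit 3467242762) (nat_lit 0) (nat_lit 5162107672) (nat_lit 1748) (nat_lit 2977750817) (nat_lit 531) (nat_lit 5) (nat_lit 530) (nat_lit 5) (nat_lit 553) (nat_lit 5) (nat_lit 573) (nat_lit 570) (nat_lit 417))) (XT.nd (nat_lit 78) (nat_lit 0) (nat_lit 0) (XT.lf (nat_lit 0) (nat_lit 9344725673) (nat_lit 1672) (nat_lit 2284271850) (nat_lit 1748) (nat_lit 85074575) (nat_lit 531) (nat_lit 5) (nat_lit 553) (nat_lit 5) (nat_lit 554) (nat_lit 5) (nat_lit 574) (nat_lit 570) (nat_lit 416)) (XT.lf (nat_lit 76) (nat_lit 3695077467) (nat_lit 0) (nat_lit 6424128189) (nat_lit 1748)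 (nat_lit 1703081191) (nat_lit 532) (nat_lit 5) (nat_lit 531) (nat_lit 5) (nat_lit 554) (nat_lit 5) (nat_lit 575) (nat_lit 570) (nat_lit 415)))) (XT.nd (nat_lit 156) (nat_lit 1672) (nat_lit 0) (XT.nd (nat_lit 78) (nat_lit 0) (nat_lit 76) (XT.lf (nat_lit 76) (nat_lit 9817403323) (nat_lit 0) (nat_lit 1093933956) (nat_lit 1748) (nat_lit 1021285792) (nat_lit 532) (nat_lit 5) (nat_lit 531) (nat_lit 5) (nat_lit 554) (nat_lit 5) (nat_lit 576) (nat_lit 570) (nat_lit 414)) (XT.lf (nat_lit 76) (nat_lit 4033999534) (nat_lit 0) (nat_lit 7726827295) (nat_lit 1748) (nat_lit 283509296) (nat_lit 533) (nat_lit 5) (nat_lit 532) (nat_lit 5) (nat_lit 555) (nat_lit 5) (nat_lit 577) (nat_lit 570) (nat_lit 413))) (XT.nd (nat_lit 78) (nat_lit 0) (nat_lit 76) (XT.lf (nat_lit 0) (nat_lit 471649692) (nat_lit 1748) (nat_lit 1841346924) (nat_lit 1824) (nat_lit 9845050752) (nat_lit 509) (nat_lit 5) (nat_lit 532) (nat_lit 5) (nat_lit 533) (nat_lit 5) (nat_lit 578) (nat_lit 570) (nat_lit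 412)) (XT.lf (nat_lit 0) (nat_lit 1275907793) (nat_lit 1748) (nat_lit 7794250036) (nat_lit 1824) (nat_lit 3203082074) (nat_lit 510) (nat_lit 5) (nat_lit 533) (nat_lit 5) (nat_lit 534) (nat_lit 5) (nat_lit 579) (nat_lit 570) (nat_lit 411)))))) (XT.nd (nat_lit 624) (nat_lit 1444) (nat_lit 0) (XT.nd (nat_lit 312) (nat_lit 0) (nat_lit 152) (XT.nd (nat_lit 156) (nat_lit 0) (nat_lit 76) (XT.nd (nat_lit 78) (nat_lit 0) (nat_lit 76) (XT.lf (nat_lit 0) (nat_lit 2111728650) (nat_lit 1748) (nat_lit 1463107270) (nat_lit 1824) (nat_lit 8815591197) (nat_lit 510) (nat_lit 5) (nat_lit 533) (nat_lit 5) (nat_lit 534) (nat_lit 5) (nat_lit 580) (nat_lit 570) (nat_lit 410)) (XT.lf (nat_lit 0) (nat_lit 2998464466) (nat_lit 1748) (nat_lit 7469795738) (nat_lit 1824) (nat_lit 2041014274) (nat_lit 511) (nat_lit 5) (nat_lit 534) (nat_lit 5) (nat_lit 535) (nat_lit 5) (nat_lit 581) (nat_lit 570) (nat_lit 409))) (XT.nd (nat_lit 78) (nat_lit 0) (nat_lit 76) (XT.lf (nat_lit 0) (nat_lit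 3924667826) (nat_lit 1748) (nat_lit 970062496) (nat_lit 1824) (nat_lit 7735334176) (nat_lit 511) (nat_lit 5) (nat_lit 534) (nat_lit 5) (nat_lit 535) (nat_lit 5) (nat_lit 582) (nat_lit 570) (nat_lit 408)) (XT.lf (nat_lit 0) (nat_lit 4900387267) (nat_lit 1748) (nat_lit 7031198712) (nat_lit 1824) (nat_lit 821064857) (nat_lit 512) (nat_lit 5) (nat_lit 535) (nat_lit 5) (nat_lit 536) (nat_lit 5) (nat_lit 583) (nat_lit 570) (nat_lit 407)))) (XT.nd (nat_lit 156) (nat_lit 0) (nat_lit 76) (XT.nd (nat_lit 78) (nat_lit 0) (nat_lit 0) (XT.lf (nat_lit 0) (nat_lit 5923196943) (nat_lit 1748) (nat_lit 358085397) (nat_lit 1824) (nat_lit 6595855396) (nat_lit 512) (nat_lit 5) (nat_lit 535) (nat_lit 5) (nat_lit 536) (nat_lit 5) (nat_lit 584) (nat_lit 570) (nat_lit 406)) (XT.lf (nat_lit 76) (nat_lit 6526225316) (nat_lit 0) (nat_lit 471441133) (nat_lit 1824) (nat_lit 6005824198) (nat_lit 513) (nat_lit 5) (nat_lit 512) (nat_lit 5) (nat_lit 536) (nat_lit 5) (nat_lit 585) (nat_lit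 570) (nat_lit 405))) (XT.nd (nat_lit 78) (nat_lit 0) (nat_lit 0) (XT.lf (nat_lit 76) (nat_lit 382289766) (nat_lit 0) (nat_lit 7740671489) (nat_lit 1824) (nat_lit 5008822981) (nat_lit 514) (nat_lit 5) (nat_lit 513) (nat_lit 5) (nat_lit 537) (nat_lit 5) (nat_lit 586) (nat_lit 570) (nat_lit 404)) (XT.lf (nat_lit 76) (nat_lit 7455679439) (nat_lit 0) (nat_lit 1850833469) (nat_lit 1824) (nat_lit 3955416103) (nat_lit 514) (nat_lit 5) (nat_lit 513) (nat_lit 5) (nat_lit 537) (nat_lit 5) (nat_lit 587) (nat_lit 570) (nat_lit 403))))) (XT.nd (nat_lit 312) (nat_lit 0) (nat_lit 76) (XT.nd (nat_lit 156) (nat_lit 1748) (nat_lit 0) (XT.nd (nat_lit 78) (nat_lit 0) (nat_lit 0) (XT.lf (nat_lit 76) (nat_lit 1257293560) (nat_lit 0) (nat_lit 9281007488) (nat_lit 1824) (nat_lit 2855884649) (nat_lit 515) (nat_lit 5) (nat_lit 514) (nat_lit 5) (nat_lit 538) (nat_lit 5) (nat_lit 588) (nat_lit 570) (nat_lit 402)) (XT.lf (nat_lit 76) (nat_lit 8520378226) (nat_lit 0) (nat_lit 3315055352)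 (nat_lit 1824) (nat_lit 1692840085) (nat_lit 515) (nat_lit 5) (nat_lit 514) (nat_lit 5) (nat_lit 538) (nat_lit 5) (nat_lit 589) (nat_lit 570) (nat_lit 401))) (XT.nd (nat_lit 78) (nat_lit 1824) (nat_lit 0) (XT.lf (nat_lit 76) (nat_lit 2267354295) (nat_lit 0) (nat_lit 10913650720) (nat_lit 1824) (nat_lit 483588761) (nat_lit 516) (nat_lit 5) (nat_lit 515) (nat_lit 5) (nat_lit 539) (nat_lit 5) (nat_lit 590) (nat_lit 570) (nat_lit 400)) (XT.lf (nat_lit 0) (nat_lit 785665560) (nat_lit 1824) (nat_lit 4082180245) (nat_lit 1900) (nat_lit 8934784370) (nat_lit 491) (nat_lit 5) (nat_lit 515) (nat_lit 5) (nat_lit 516) (nat_lit 5) (nat_lit 591) (nat_lit 570) (nat_lit 399)))) (XT.nd (nat_lit 156) (nat_lit 0) (nat_lit 0) (XT.nd (nat_lit 78) (nat_lit 0) (nat_lit 0) (XT.lf (nat_lit 0) (nat_lit 2094675975) (nat_lit 1824) (nat_lit 10538995778) (nat_lit 1900) (nat_lit 1309274988) (nat_lit 492) (nat_lit 5) (nat_lit 516) (nat_lit 5) (nat_lit 517) (nat_lit 5) (nat_lit 592) (nat_lit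 570) (nat_lit 398)) (XT.lf (nat_lit 0) (nat_lit 3479902875) (nat_lit 1824) (nat_lit 3030955496) (nat_lit 1900) (nat_lit 7574210832) (nat_lit 492) (nat_lit 5) (nat_lit 516) (nat_lit 5) (nat_lit 517) (nat_lit 5) (nat_lit 593) (nat_lit 570) (nat_lit 397))) (XT.nd (nat_lit 78) (nat_lit 0) (nat_lit 76) (XT.lf (nat_lit 76) (nat_lit 4680638151) (nat_lit 0) (nat_lit 233001550) (nat_lit 1900) (nat_lit 9315978586) (nat_lit 493) (nat_lit 5) (nat_lit 492) (nat_lit 5) (nat_lit 517) (nat_lit 5) (nat_lit 594) (nat_lit 570) (nat_lit 396)) (XT.lf (nat_lit 0) (nat_lit 6427149402) (nat_lit 1824) (nat_lit 1837440875) (nat_lit 76) (nat_lit 6111446393) (nat_lit 493) (nat_lit 5) (nat_lit 517) (nat_lit 5) (nat_lit 494) (nat_lit 5) (nat_lit 595) (nat_lit 570) (nat_lit 395))))))))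
noncomputable def xc158 : XT := (XT.nd (nat_lit 2418) (nat_lit 9500) (nat_lit 0) (XT.nd (nat_lit 1170) (nat_lit 6384) (nat_lit 0) (XT.nd (nat_lit 546) (nat_lit 4256) (nat_lit 0) (XT.nd (nat_lit 234) (nat_lit 1900) (nat_lit 0) (XT.nd (nat_lit 78) (nat_lit 1140) (nat_lit 0) (XT.lf (nat_lit 0) (nat_lit 6098791221) (nat_lit 1824) (nat_lit 1904025315) (nat_lit 1900) (nat_lit 6521929411) (nat_lit 469) (nat_lit 5) (nat_lit 493) (nat_lit 5) (nat_lit 494) (nat_lit 5) (nat_lit 596) (nat_lit 570) (nat_lit 394)) (XT.nd (nat_lit 78) (nat_lit 1140) (nat_lit 0) (XT.lf (nat_lit 0) (nat_lit 9643054111) (nat_lit 1900) (nat_lit 495489871) (nat_lit 76) (nat_lit 4537224552) (nat_lit 469) (nat_lit 5) (nat_lit 494) (nat_lit 5) (nat_lit 470) (nat_lit 5) (nat_lit 597) (nat_lit 570) (nat_lit 393)) (XT.lf (nat_lit 0) (nat_lit 7673655813) (nat_lit 1140) (nat_lit 3695935756) (nat_lit 1216) (nat_lit 3459150364) (nat_lit 454) (nat_lit 5) (nat_lit 469) (nat_lit 5) (nat_lit 470) (nat_lit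 5) (nat_lit 598) (nat_lit 570) (nat_lit 392)))) (XT.nd (nat_lit 156) (nat_lit 988) (nat_lit 0) (XT.nd (nat_lit 78) (nat_lit 0) (nat_lit 0) (XT.lf (nat_lit 0) (nat_lit 1014718569) (nat_lit 912) (nat_lit 12135739256) (nat_lit 988) (nat_lit 1833921271) (nat_lit 442) (nat_lit 5) (nat_lit 454) (nat_lit 5) (nat_lit 455) (nat_lit 5) (nat_lit 599) (nat_lit 570) (nat_lit 391)) (XT.lf (nat_lit 0) (nat_lit 9412069559) (nat_lit 912) (nat_lit 5618515101) (nat_lit 988) (nat_lit 111271727) (nat_lit 442) (nat_lit 5) (nat_lit 454) (nat_lit 5) (nat_lit 455) (nat_lit 5) (nat_lit 600) (nat_lit 570) (nat_lit 390))) (XT.nd (nat_lit 78) (nat_lit 0) (nat_lit 0) (XT.lf (nat_lit 0) (nat_lit 1640019200) (nat_lit 988) (nat_lit 12617458953) (nat_lit 76) (nat_lit 1044476122) (nat_lit 429) (nat_lit 5) (nat_lit 442) (nat_lit 5) (nat_lit 430) (nat_lit 5) (nat_lit 601) (nat_lit 570) (nat_lit 389)) (XT.lf (nat_lit 0) (nat_lit 3492307696) (nat_lit 988) (nat_lit 4166067370) (nat_lit 76) (nat_lit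 7805515348) (nat_lit 429) (nat_lit 5) (nat_lit 442) (nat_lit 5) (nat_lit 430) (nat_lit 5) (nat_lit 602) (nat_lit 570) (nat_lit 388))))) (XT.nd (nat_lit 312) (nat_lit 2508) (nat_lit 0) (XT.nd (nat_lit 156) (nat_lit 912) (nat_lit 0) (XT.nd (nat_lit 78) (nat_lit 0) (nat_lit 0) (XT.lf (nat_lit 0) (nat_lit 4505487530) (nat_lit 836) (nat_lit 897119846) (nat_lit 912) (nat_lit 10226038824) (nat_lit 418) (nat_lit 5) (nat_lit 429) (nat_lit 5) (nat_lit 430) (nat_lit 5) (nat_lit 603) (nat_lit 570) (nat_lit 387)) (XT.lf (nat_lit 0) (nat_lit 7410032286) (nat_lit 912) (nat_lit 2436397258) (nat_lit 76) (nat_lit 5949089400) (nat_lit 418) (nat_lit 5) (nat_lit 430) (nat_lit 5) (nat_lit 419) (nat_lit 5) (nat_lit 604) (nat_lit 570) (nat_lit 386))) (XT.nd (nat_lit 78) (nat_lit 0) (nat_lit 0) (XT.lf (nat_lit 0) (nat_lit 6495437230) (nat_lit 912) (nat_lit 3002268382) (nat_lit 988) (nat_lit 6467221757) (nat_lit 406) (nat_lit 5) (nat_lit 418) (nat_lit 5) (nat_lit 419) (nat_lit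 5) (nat_lit 605) (nat_lit 570) (nat_lit 385)) (XT.lf (nat_lit 0) (nat_lit 11661515527) (nat_lit 988) (nat_lit 532420137) (nat_lit 76) (nat_lit 3943100855) (nat_lit 406) (nat_lit 5) (nat_lit 419) (nat_lit 5) (nat_lit 407) (nat_lit 5) (nat_lit 606) (nat_lit 570) (nat_lit 384)))) (XT.nd (nat_lit 156) (nat_lit 836) (nat_lit 0) (XT.nd (nat_lit 78) (nat_lit 836) (nat_lit 0) (XT.lf (nat_lit 0) (nat_lit 8669349505) (nat_lit 836) (nat_lit 5267669407) (nat_lit 912) (nat_lit 2374200808) (nat_lit 395) (nat_lit 5) (nat_lit 406) (nat_lit 5) (nat_lit 407) (nat_lit 5) (nat_lit 607) (nat_lit 570) (nat_lit 383)) (XT.lf (nat_lit 0) (nat_lit 1574555536) (nat_lit 836) (nat_lit 14701312315) (nat_lit 912) (nat_lit 212662236) (nat_lit 384) (nat_lit 5) (nat_lit 395) (nat_lit 5) (nat_lit 396) (nat_lit 5) (nat_lit 608) (nat_lit 570) (nat_lit 382))) (XT.nd (nat_lit 78) (nat_lit 760) (nat_lit 0) (XT.lf (nat_lit 0) (nat_lit 2044882384) (nat_lit 912) (nat_lit 5645631257) (nat_lit 76)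 (nat_lit 8977036499) (nat_lit 383) (nat_lit 5) (nat_lit 395) (nat_lit 5) (nat_lit 384) (nat_lit 5) (nat_lit 609) (nat_lit 570) (nat_lit 381)) (XT.lf (nat_lit 0) (nat_lit 3849303218) (nat_lit 760) (nat_lit 512967426) (nat_lit 836) (nat_lit 12487501228) (nat_lit 373) (nat_lit 5) (nat_lit 383) (nat_lit 5) (nat_lit 384) (nat_lit 5) (nat_lit 610) (nat_lit 570) (nat_lit 380)))))) (XT.nd (nat_lit 624) (nat_lit 3344) (nat_lit 0) (XT.nd (nat_lit 312) (nat_lit 1520) (nat_lit 0) (XT.nd (nat_lit 156) (nat_lit 760) (nat_lit 0) (XT.nd (nat_lit 78) (nat_lit 760) (nat_lit 0) (XT.lf (nat_lit 0) (nat_lit 6800983683) (nat_lit 836) (nat_lit 3476614211) (nat_lit 76) (nat_lit 6756540798) (nat_lit 373) (nat_lit 5) (nat_lit 384) (nat_lit 5) (nat_lit 374) (nat_lit 5) (nat_lit 611) (nat_lit 570) (nat_lit 379)) (XT.lf (nat_lit 0) (nat_lit 6309278797) (nat_lit 760) (nat_lit 3016335762) (nat_lit 836) (nat_lit 7895835609) (nat_lit 363) (nat_lit 5) (nat_lit 373) (nat_lit 5) (nat_lit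 374) (nat_lit 5) (nat_lit 612) (nat_lit 570) (nat_lit 378))) (XT.nd (nat_lit 78) (nat_lit 760) (nat_lit 0) (XT.lf (nat_lit 0) (nat_lit 11945595979) (nat_lit 836) (nat_lit 1110559685) (nat_lit 76) (nat_lit 4355455239) (nat_lit 363) (nat_lit 5) (nat_lit 374) (nat_lit 5) (nat_lit 364) (nat_lit 5) (nat_lit 613) (nat_lit 570) (nat_lit 377)) (XT.lf (nat_lit 0) (nat_lit 8977123308) (nat_lit 760) (nat_lit 5712124435) (nat_lit 836) (nat_lit 2914901878) (nat_lit 353) (nat_lit 5) (nat_lit 363) (nat_lit 5) (nat_lit 364) (nat_lit 5) (nat_lit 614) (nat_lit 570) (nat_lit 376)))) (XT.nd (nat_lit 156) (nat_lit 684) (nat_lit 0) (XT.nd (nat_lit 78) (nat_lit 76) (nat_lit 0) (XT.lf (nat_lit 0) (nat_lit 1481247999) (nat_lit 760) (nat_lit 16028284471) (nat_lit 836) (nat_lit 290571624) (nat_lit 343) (nat_lit 5) (nat_lit 353) (nat_lit 5) (nat_lit 354) (nat_lit 5) (nat_lit 615) (nat_lit 570) (nat_lit 375)) (XT.lf (nat_lit 0) (nat_lit 2444184694) (nat_lit 836) (nat_lit 6151739870)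 (nat_lit 76) (nat_lit 9401958693) (nat_lit 342) (nat_lit 5) (nat_lit 353) (nat_lit 5) (nat_lit 343) (nat_lit 5) (nat_lit 616) (nat_lit 570) (nat_lit 374))) (XT.nd (nat_lit 78) (nat_lit 0) (nat_lit 0) (XT.lf (nat_lit 0) (nat_lit 4265040605) (nat_lit 684) (nat_lit 985666145) (nat_lit 760) (nat_lit 12948453783) (nat_lit 333) (nat_lit 5) (nat_lit 342) (nat_lit 5) (nat_lit 343) (nat_lit 5) (nat_lit 617) (nat_lit 570) (nat_lit 373)) (XT.lf (nat_lit 0) (nat_lit 8192255776) (nat_lit 760) (nat_lit 3482132146) (nat_lit 76) (nat_lit 6728497667) (nat_lit 333) (nat_lit 5) (nat_lit 343) (nat_lit 5) (nat_lit 334) (nat_lit 5) (nat_lit 618) (nat_lit 570) (nat_lit 372))))) (XT.nd (nat_lit 312) (nat_lit 1216) (nat_lit 0) (XT.nd (nat_lit 156) (nat_lit 1444) (nat_lit 0) (XT.nd (nat_lit 78) (nat_lit 0) (nat_lit 0) (XT.lf (nat_lit 0) (nat_lit 7259969178) (nat_lit 684) (nat_lit 3979803540) (nat_lit 760) (nat_lit 7369969852) (nat_lit 324) (nat_lit 5) (nat_lit 333) (nat_lit 5)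 (nat_lit 334) (nat_lit 5) (nat_lit 619) (nat_lit 570) (nat_lit 371)) (XT.lf (nat_lit 0) (nat_lit 14390424111) (nat_lit 760) (nat_lit 589114551) (nat_lit 76) (nat_lit 3840354507) (nat_lit 324) (nat_lit 5) (nat_lit 334) (nat_lit 5) (nat_lit 325) (nat_lit 5) (nat_lit 620) (nat_lit 570) (nat_lit 370))) (XT.nd (nat_lit 78) (nat_lit 760) (nat_lit 0) (XT.lf (nat_lit 0) (nat_lit 10490449790) (nat_lit 684) (nat_lit 7201777030) (nat_lit 760) (nat_lit 1340257350) (nat_lit 315) (nat_lit 5) (nat_lit 324) (nat_lit 5) (nat_lit 325) (nat_lit 5) (nat_lit 621) (nat_lit 570) (nat_lit 369)) (XT.lf (nat_lit 0) (nat_lit 1806281928) (nat_lit 760) (nat_lit 16689134949) (nat_lit 76) (nat_lit 753289303) (nat_lit 305) (nat_lit 5) (nat_lit 315) (nat_lit 5) (nat_lit 306) (nat_lit 5) (nat_lit 622) (nat_lit 570) (nat_lit 368)))) (XT.nd (nat_lit 156) (nat_lit 608) (nat_lit 0) (XT.nd (nat_lit 78) (nat_lit 608) (nat_lit 0) (XT.lf (nat_lit 0) (nat_lit 5096988885) (nat_lit 760) (nat_lit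 5533693146) (nat_lit 76) (nat_lit 8836409908) (nat_lit 305) (nat_lit 5) (nat_lit 315) (nat_lit 5) (nat_lit 306) (nat_lit 5) (nat_lit 623) (nat_lit 570) (nat_lit 367)) (XT.lf (nat_lit 0) (nat_lit 5914946759) (nat_lit 608) (nat_lit 2570860229) (nat_lit 684) (nat_lit 11203392628) (nat_lit 297) (nat_lit 5) (nat_lit 305) (nat_lit 5) (nat_lit 306) (nat_lit 5) (nat_lit 624) (nat_lit 570) (nat_lit 366))) (XT.nd (nat_lit 78) (nat_lit 608) (nat_lit 0) (XT.lf (nat_lit 0) (nat_lit 12010421545) (nat_lit 684) (nat_lit 2291915949) (nat_lit 76) (nat_lit 5612051693) (nat_lit 297) (nat_lit 5) (nat_lit 306) (nat_lit 5) (nat_lit 298) (nat_lit 5) (nat_lit 625) (nat_lit 570) (nat_lit 365)) (XT.lf (nat_lit 0) (nat_lit 9520504460) (nat_lit 608) (nat_lit 6157937047) (nat_lit 684) (nat_lit 4464182919) (nat_lit 289) (nat_lit 5) (nat_lit 297) (nat_lit 5) (nat_lit 298) (nat_lit 5) (nat_lit 626) (nat_lit 570) (nat_lit 364))))))) (XT.nd (nat_lit 1170) (nat_lit 4408) (nat_lit 0) (XT.nd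 (nat_lit 546) (nat_lit 2584) (nat_lit 0) (XT.nd (nat_lit 234) (nat_lit 1216) (nat_lit 0) (XT.nd (nat_lit 78) (nat_lit 684) (nat_lit 0) (XT.lf (nat_lit 0) (nat_lit 1219602779) (nat_lit 608) (nat_lit 18231707266) (nat_lit 684) (nat_lit 923484697) (nat_lit 281) (nat_lit 5) (nat_lit 289) (nat_lit 5) (nat_lit 290) (nat_lit 5) (nat_lit 627) (nat_lit 570) (nat_lit 363)) (XT.nd (nat_lit 78) (nat_lit 608) (nat_lit 0) (XT.lf (nat_lit 0) (nat_lit 2759467891) (nat_lit 684) (nat_lit 7234231143) (nat_lit 76) (nat_lit 10615426624) (nat_lit 280) (nat_lit 5) (nat_lit 289) (nat_lit 5) (nat_lit 281) (nat_lit 5) (nat_lit 628) (nat_lit 570) (nat_lit 362)) (XT.lf (nat_lit 0) (nat_lit 4976965386) (nat_lit 608) (nat_lit 1553349748) (nat_lit 684) (nat_lit 14317174081) (nat_lit 272) (nat_lit 5) (nat_lit 280) (nat_lit 5) (nat_lit 281) (nat_lit 5) (nat_lit 629) (nat_lit 570) (nat_lit 361)))) (XT.nd (nat_lit 156) (nat_lit 684) (nat_lit 0) (XT.nd (nat_lit 78) (nat_lit 532) (nat_lit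 0) (XT.lf (nat_lit 0) (nat_lit 10465587315) (nat_lit 684) (nat_lit 3612729765) (nat_lit 76) (nat_lit 7010522930) (nat_lit 272) (nat_lit 5) (nat_lit 281) (nat_lit 5) (nat_lit 273) (nat_lit 5) (nat_lit 630) (nat_lit 570) (nat_lit 360)) (XT.lf (nat_lit 0) (nat_lit 8990595475) (nat_lit 532) (nat_lit 5552070657) (nat_lit 608) (nat_lit 6791089788) (nat_lit 265) (nat_lit 5) (nat_lit 272) (nat_lit 5) (nat_lit 273) (nat_lit 5) (nat_lit 631) (nat_lit 570) (nat_lit 359))) (XT.nd (nat_lit 78) (nat_lit 76) (nat_lit 0) (XT.lf (nat_lit 0) (nat_lit 287767359) (nat_lit 608) (nat_lit 18454701242) (nat_lit 684) (nat_lit 2840278026) (nat_lit 257) (nat_lit 5) (nat_lit 265) (nat_lit 5) (nat_lit 266) (nat_lit 5) (nat_lit 632) (nat_lit 570) (nat_lit 358)) (XT.lf (nat_lit 0) (nat_lit 1288612182) (nat_lit 684) (nat_lit 8548799729) (nat_lit 76) (nat_lit 11996857621) (nat_lit 256) (nat_lit 5) (nat_lit 265) (nat_lit 5) (nat_lit 257) (nat_lit 5) (nat_lit 633) (nat_lit 570) (nat_lit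 357))))) (XT.nd (nat_lit 312) (nat_lit 1520) (nat_lit 0) (XT.nd (nat_lit 156) (nat_lit 532) (nat_lit 0) (XT.nd (nat_lit 78) (nat_lit 0) (nat_lit 0) (XT.lf (nat_lit 0) (nat_lit 4485133507) (nat_lit 532) (nat_lit 1000695939) (nat_lit 608) (nat_lit 16604142464) (nat_lit 249) (nat_lit 5) (nat_lit 256) (nat_lit 5) (nat_lit 257) (nat_lit 5) (nat_lit 634) (nat_lit 570) (nat_lit 356)) (XT.lf (nat_lit 0) (nat_lit 9871433847) (nat_lit 608) (nat_lit 4513649193) (nat_lit 76) (nat_lit 7963616554) (nat_lit 249) (nat_lit 5) (nat_lit 257) (nat_lit 5) (nat_lit 250) (nat_lit 5) (nat_lit 635) (nat_lit 570) (nat_lit 355))) (XT.nd (nat_lit 78) (nat_lit 0) (nat_lit 0) (XT.lf (nat_lit 0) (nat_lit 8942935867) (nat_lit 532) (nat_lit 5461281353) (nat_lit 608) (nat_lit 8207195381) (nat_lit 242) (nat_lit 5) (nat_lit 249) (nat_lit 5) (nat_lit 250) (nat_lit 5) (nat_lit 636) (nat_lit 570) (nat_lit 354)) (XT.lf (nat_lit 0) (nat_lit 19076606392) (nat_lit 608) (nat_lit 179911767) (nat_lit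 76) (nat_lit 3621882816) (nat_lit 242) (nat_lit 5) (nat_lit 250) (nat_lit 5) (nat_lit 243) (nat_lit 5) (nat_lit 637) (nat_lit 570) (nat_lit 353)))) (XT.nd (nat_lit 156) (nat_lit 456) (nat_lit 0) (XT.nd (nat_lit 78) (nat_lit 532) (nat_lit 0) (XT.lf (nat_lit 0) (nat_lit 803575360) (nat_lit 532) (nat_lit 9438473330) (nat_lit 76) (nat_lit 12906172045) (nat_lit 235) (nat_lit 5) (nat_lit 242) (nat_lit 5) (nat_lit 236) (nat_lit 5) (nat_lit 638) (nat_lit 570) (nat_lit 352)) (XT.lf (nat_lit 0) (nat_lit 4482818224) (nat_lit 532) (nat_lit 992640214) (nat_lit 608) (nat_lit 17946969722) (nat_lit 228) (nat_lit 5) (nat_lit 235) (nat_lit 5) (nat_lit 236) (nat_lit 5) (nat_lit 639) (nat_lit 570) (nat_lit 351))) (XT.nd (nat_lit 78) (nat_lit 456) (nat_lit 0) (XT.lf (nat_lit 0) (nat_lit 10354329821) (nat_lit 608) (nat_lit 4952661626) (nat_lit 76) (nat_lit 8392857372) (nat_lit 228) (nat_lit 5) (nat_lit 236) (nat_lit 5) (nat_lit 229) (nat_lit 5) (nat_lit 640) (nat_lit 570) (nat_lit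 350)) (XT.lf (nat_lit 0) (nat_lit 9424133131) (nat_lit 456) (nat_lit 5969489928) (nat_lit 532) (nat_lit 8587938042) (nat_lit 222) (nat_lit 5) (nat_lit 228) (nat_lit 5) (nat_lit 229) (nat_lit 5) (nat_lit 641) (nat_lit 570) (nat_lit 349)))))) (XT.nd (nat_lit 624) (nat_lit 2052) (nat_lit 0) (XT.nd (nat_lit 312) (nat_lit 1368) (nat_lit 0) (XT.nd (nat_lit 156) (nat_lit 456) (nat_lit 0) (XT.nd (nat_lit 78) (nat_lit 532) (nat_lit 0) (XT.lf (nat_lit 0) (nat_lit 20585358785) (nat_lit 532) (nat_lit 142901281) (nat_lit 76) (nat_lit 3539614523) (nat_lit 222) (nat_lit 5) (nat_lit 229) (nat_lit 5) (nat_lit 223) (nat_lit 5) (nat_lit 642) (nat_lit 570) (nat_lit 348)) (XT.lf (nat_lit 0) (nat_lit 1434786267) (nat_lit 532) (nat_lit 9860309030) (nat_lit 76) (nat_lit 13262025671) (nat_lit 215) (nat_lit 5) (nat_lit 222) (nat_lit 5) (nat_lit 216) (nat_lit 5) (nat_lit 643) (nat_lit 570) (nat_lit 347))) (XT.nd (nat_lit 78) (nat_lit 0) (nat_lit 0) (XT.lf (nat_lit 0) (nat_lit 5017698614)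 (nat_lit 456) (nat_lit 1616252188) (nat_lit 532) (nat_lit 18217138227) (nat_lit 209) (nat_lit 5) (nat_lit 215) (nat_lit 5) (nat_lit 216) (nat_lit 5) (nat_lit 644) (nat_lit 570) (nat_lit 346)) (XT.lf (nat_lit 0) (nat_lit 12052580710) (nat_lit 532) (nat_lit 4883605137) (nat_lit 76) (nat_lit 8212441050) (nat_lit 209) (nat_lit 5) (nat_lit 216) (nat_lit 5) (nat_lit 210) (nat_lit 5) (nat_lit 645) (nat_lit 570) (nat_lit 345)))) (XT.nd (nat_lit 156) (nat_lit 532) (nat_lit 0) (XT.nd (nat_lit 78) (nat_lit 380) (nat_lit 0) (XT.lf (nat_lit 0) (nat_lit 10485248081) (nat_lit 456) (nat_lit 7168480196) (nat_lit 532) (nat_lit 7796904431) (nat_lit 203) (nat_lit 5) (nat_lit 209) (nat_lit 5) (nat_lit 210) (nat_lit 5) (nat_lit 646) (nat_lit 570) (nat_lit 344)) (XT.lf (nat_lit 0) (nat_lit 450425986) (nat_lit 380) (nat_lit 22965928092) (nat_lit 456) (nat_lit 2341335537) (nat_lit 198) (nat_lit 5) (nat_lit 203) (nat_lit 5) (nat_lit 204) (nat_lit 5) (nat_lit 647) (nat_lit 570)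 (nat_lit 343))) (XT.nd (nat_lit 78) (nat_lit 456) (nat_lit 0) (XT.lf (nat_lit 0) (nat_lit 3325048301) (nat_lit 456) (nat_lit 9767323458) (nat_lit 76) (nat_lit 12975217854) (nat_lit 197) (nat_lit 5) (nat_lit 203) (nat_lit 5) (nat_lit 198) (nat_lit 5) (nat_lit 648) (nat_lit 570) (nat_lit 342)) (XT.lf (nat_lit 0) (nat_lit 6141803678) (nat_lit 456) (nat_lit 2967015797) (nat_lit 532) (nat_lit 17273850487) (nat_lit 191) (nat_lit 5) (nat_lit 197) (nat_lit 5) (nat_lit 198) (nat_lit 5) (nat_lit 649) (nat_lit 570) (nat_lit 341))))) (XT.nd (nat_lit 312) (nat_lit 1216) (nat_lit 0) (XT.nd (nat_lit 156) (nat_lit 456) (nat_lit 0) (XT.nd (nat_lit 78) (nat_lit 380) (nat_lit 0) (XT.lf (nat_lit 0) (nat_lit 15117570868) (nat_lit 532) (nat_lit 4256143030) (nat_lit 76) (nat_lit 7328152003) (nat_lit 191) (nat_lit 5) (nat_lit 198) (nat_lit 5) (nat_lit 192) (nat_lit 5) (nat_lit 650) (nat_lit 570) (nat_lit 340)) (XT.lf (nat_lit 0) (nat_lit 12181835268) (nat_lit 380) (nat_lit 9159026575)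 (nat_lit 456) (nat_lit 5684696702) (nat_lit 186) (nat_lit 5) (nat_lit 191) (nat_lit 5) (nat_lit 192) (nat_lit 5) (nat_lit 651) (nat_lit 570) (nat_lit 339))) (XT.nd (nat_lit 78) (nat_lit 0) (nat_lit 0) (XT.lf (nat_lit 0) (nat_lit 372161641) (nat_lit 456) (nat_lit 25699406833) (nat_lit 76) (nat_lit 1283240734) (nat_lit 180) (nat_lit 5) (nat_lit 186) (nat_lit 5) (nat_lit 181) (nat_lit 5) (nat_lit 652) (nat_lit 570) (nat_lit 338)) (XT.lf (nat_lit 0) (nat_lit 6630701325) (nat_lit 456) (nat_lit 9108495100) (nat_lit 76) (nat_lit 11947563769) (nat_lit 180) (nat_lit 5) (nat_lit 186) (nat_lit 5) (nat_lit 181) (nat_lit 5) (nat_lit 653) (nat_lit 570) (nat_lit 337)))) (XT.nd (nat_lit 156) (nat_lit 836) (nat_lit 0) (XT.nd (nat_lit 78) (nat_lit 0) (nat_lit 0) (XT.lf (nat_lit 0) (nat_lit 7911524314) (nat_lit 380) (nat_lit 5150005769) (nat_lit 456) (nat_lit 14962877822) (nat_lit 175) (nat_lit 5) (nat_lit 180) (nat_lit 5) (nat_lit 181) (nat_lit 5) (nat_lit 654) (nat_lit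 570) (nat_lit 336)) (XT.lf (nat_lit 0) (nat_lit 19714971391) (nat_lit 456) (nat_lit 3015767396) (nat_lit 76) (nat_lit 5636189933) (nat_lit 175) (nat_lit 5) (nat_lit 181) (nat_lit 5) (nat_lit 176) (nat_lit 5) (nat_lit 655) (nat_lit 570) (nat_lit 335))) (XT.nd (nat_lit 78) (nat_lit 456) (nat_lit 0) (XT.lf (nat_lit 0) (nat_lit 14573953752) (nat_lit 380) (nat_lit 12052118873) (nat_lit 456) (nat_lit 2087735572) (nat_lit 170) (nat_lit 5) (nat_lit 175) (nat_lit 5) (nat_lit 176) (nat_lit 5) (nat_lit 656) (nat_lit 570) (nat_lit 334)) (XT.lf (nat_lit 0) (nat_lit 3498577703) (nat_lit 380) (nat_lit 1087721845) (nat_lit 456) (nat_lit 24479948235) (nat_lit 164) (nat_lit 5) (nat_lit 169) (nat_lit 5) (nat_lit 170) (nat_lit 5) (nat_lit 657) (nat_lit 570) (nat_lit 333))))))))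
noncomputable def xc159 : XT := (XT.nd (nat_lit 74802) (nat_lit 0) (nat_lit 22876) (XT.nd (nat_lit 1170) (nat_lit 2128) (nat_lit 0) (XT.nd (nat_lit 546) (nat_lit 1748) (nat_lit 0) (XT.nd (nat_lit 234) (nat_lit 1064) (nat_lit 0) (XT.nd (nat_lit 78) (nat_lit 380) (nat_lit 0) (XT.lf (nat_lit 0) (nat_lit 11522849907) (nat_lit 456) (nat_lit 7828804144) (nat_lit 76) (nat_lit 10070666388) (nat_lit 164) (nat_lit 5) (nat_lit 170) (nat_lit 5) (nat_lit 165) (nat_lit 5) (nat_lit 658) (nat_lit 570) (nat_lit 332)) (XT.nd (nat_lit 78) (nat_lit 0) (nat_lit 0) (XT.lf (nat_lit 0) (nat_lit 10387586892) (nat_lit 380) (nat_lit 8281170591) (nat_lit 456) (nat_lit 11115344604) (nat_lit 159) (nat_lit 5) (nat_lit 164) (nat_lit 5) (nat_lit 165) (nat_lit 5) (nat_lit 659) (nat_lit 570) (nat_lit 331)) (XT.lf (nat_lit 0) (nat_lit 26026017407) (nat_lit 456) (nat_lit 1103844451) (nat_lit 76) (nat_lit 3021888887) (nat_lit 159) (nat_lit 5) (nat_lit 165) (nat_lit 5) (nat_lit 160) (nat_lit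 5) (nat_lit 660) (nat_lit 570) (nat_lit 330)))) (XT.nd (nat_lit 156) (nat_lit 304) (nat_lit 0) (XT.nd (nat_lit 78) (nat_lit 380) (nat_lit 0) (XT.lf (nat_lit 0) (nat_lit 3131389504) (nat_lit 380) (nat_lit 12817898284) (nat_lit 76) (nat_lit 14573732351) (nat_lit 154) (nat_lit 5) (nat_lit 159) (nat_lit 5) (nat_lit 155) (nat_lit 5) (nat_lit 661) (nat_lit 570) (nat_lit 329)) (XT.lf (nat_lit 0) (nat_lit 6049436126) (nat_lit 380) (nat_lit 4471852957) (nat_lit 456) (nat_lit 20379022917) (nat_lit 149) (nat_lit 5) (nat_lit 154) (nat_lit 5) (nat_lit 155) (nat_lit 5) (nat_lit 662) (nat_lit 570) (nat_lit 328))) (XT.nd (nat_lit 78) (nat_lit 304) (nat_lit 0) (XT.lf (nat_lit 0) (nat_lit 18188661048) (nat_lit 456) (nat_lit 5869324115) (nat_lit 76) (nat_lit 7224571104) (nat_lit 149) (nat_lit 5) (nat_lit 155) (nat_lit 5) (nat_lit 150) (nat_lit 5) (nat_lit 663) (nat_lit 570) (nat_lit 327)) (XT.lf (nat_lit 0) (nat_lit 13634973773) (nat_lit 304) (nat_lit 12488739726) (nat_lit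 380) (nat_lit 5546445317) (nat_lit 145) (nat_lit 5) (nat_lit 149) (nat_lit 5) (nat_lit 150) (nat_lit 5) (nat_lit 664) (nat_lit 570) (nat_lit 326))))) (XT.nd (nat_lit 312) (nat_lit 988) (nat_lit 0) (XT.nd (nat_lit 156) (nat_lit 304) (nat_lit 0) (XT.nd (nat_lit 78) (nat_lit 0) (nat_lit 0) (XT.lf (nat_lit 0) (nat_lit 1544105073) (nat_lit 380) (nat_lit 625498857) (nat_lit 456) (nat_lit 29894712628) (nat_lit 139) (nat_lit 5) (nat_lit 144) (nat_lit 5) (nat_lit 145) (nat_lit 5) (nat_lit 665) (nat_lit 570) (nat_lit 325)) (XT.lf (nat_lit 0) (nat_lit 10158328443) (nat_lit 456) (nat_lit 10822646320) (nat_lit 76) (nat_lit 11480797081) (nat_lit 139) (nat_lit 5) (nat_lit 145) (nat_lit 5) (nat_lit 140) (nat_lit 5) (nat_lit 666) (nat_lit 570) (nat_lit 324))) (XT.nd (nat_lit 78) (nat_lit 0) (nat_lit 0) (XT.lf (nat_lit 0) (nat_lit 9381765655) (nat_lit 304) (nat_lit 8986412228) (nat_lit 380) (nat_lit 14497771395) (nat_lit 135) (nat_lit 5) (nat_lit 139) (nat_lit 5) (nat_lit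 140) (nat_lit 5) (nat_lit 667) (nat_lit 570) (nat_lit 323)) (XT.lf (nat_lit 0) (nat_lit 26832733787) (nat_lit 380) (nat_lit 3167382173) (nat_lit 76) (nat_lit 3276284162) (nat_lit 135) (nat_lit 5) (nat_lit 140) (nat_lit 5) (nat_lit 136) (nat_lit 5) (nat_lit 668) (nat_lit 570) (nat_lit 322)))) (XT.nd (nat_lit 156) (nat_lit 304) (nat_lit 0) (XT.nd (nat_lit 78) (nat_lit 304) (nat_lit 0) (XT.lf (nat_lit 0) (nat_lit 1920386541) (nat_lit 380) (nat_lit 15981501384) (nat_lit 76) (nat_lit 15789500079) (nat_lit 130) (nat_lit 5) (nat_lit 135) (nat_lit 5) (nat_lit 131) (nat_lit 5) (nat_lit 669) (nat_lit 570) (nat_lit 321)) (XT.lf (nat_lit 0) (nat_lit 4949569725) (nat_lit 304) (nat_lit 5465877836) (nat_lit 380) (nat_lit 23697376121) (nat_lit 126) (nat_lit 5) (nat_lit 130) (nat_lit 5) (nat_lit 131) (nat_lit 5) (nat_lit 670) (nat_lit 570) (nat_lit 320))) (XT.nd (nat_lit 78) (nat_lit 304) (nat_lit 0) (XT.lf (nat_lit 0) (nat_lit 19231647119) (nat_lit 380) (nat_lit 8078160545)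 (nat_lit 76) (nat_lit 7229855710) (nat_lit 126) (nat_lit 5) (nat_lit 131) (nat_lit 5) (nat_lit 127) (nat_lit 5) (nat_lit 671) (nat_lit 570) (nat_lit 319)) (XT.lf (nat_lit 0) (nat_lit 13564521075) (nat_lit 304) (nat_lit 14780400882) (nat_lit 380) (nat_lit 6627702923) (nat_lit 122) (nat_lit 5) (nat_lit 126) (nat_lit 5) (nat_lit 127) (nat_lit 5) (nat_lit 672) (nat_lit 570) (nat_lit 318)))))) (XT.nd (nat_lit 702) (nat_lit 608) (nat_lit 0) (XT.nd (nat_lit 312) (nat_lit 836) (nat_lit 0) (XT.nd (nat_lit 156) (nat_lit 304) (nat_lit 0) (XT.nd (nat_lit 78) (nat_lit 0) (nat_lit 0) (XT.lf (nat_lit 0) (nat_lit 319954339) (nat_lit 304) (nat_lit 1930202028) (nat_lit 380) (nat_lit 33162737473) (nat_lit 117) (nat_lit 5) (nat_lit 121) (nat_lit 5) (nat_lit 122) (nat_lit 5) (nat_lit 673) (nat_lit 570) (nat_lit 317)) (XT.lf (nat_lit 0) (nat_lit 11430598472) (nat_lit 380) (nat_lit 13209582403) (nat_lit 76) (nat_lit 11216635754) (nat_lit 117) (nat_lit 5) (nat_lit 122) (nat_lit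 5) (nat_lit 118) (nat_lit 5) (nat_lit 674) (nat_lit 570) (nat_lit 316))) (XT.nd (nat_lit 78) (nat_lit 0) (nat_lit 0) (XT.lf (nat_lit 0) (nat_lit 9213772282) (nat_lit 304) (nat_lit 11650058399) (nat_lit 380) (nat_lit 15444403611) (nat_lit 113) (nat_lit 5) (nat_lit 117) (nat_lit 5) (nat_lit 118) (nat_lit 5) (nat_lit 675) (nat_lit 570) (nat_lit 315)) (XT.lf (nat_lit 0) (nat_lit 30581937046) (nat_lit 380) (nat_lit 4518970813) (nat_lit 76) (nat_lit 1665848299) (nat_lit 113) (nat_lit 5) (nat_lit 118) (nat_lit 5) (nat_lit 114) (nat_lit 5) (nat_lit 676) (nat_lit 570) (nat_lit 314)))) (XT.nd (nat_lit 156) (nat_lit 228) (nat_lit 0) (XT.nd (nat_lit 78) (nat_lit 304) (nat_lit 0) (XT.lf (nat_lit 0) (nat_lit 3413523796) (nat_lit 304) (nat_lit 18582895712) (nat_lit 76) (nat_lit 15233679244) (nat_lit 109) (nat_lit 5) (nat_lit 113) (nat_lit 5) (nat_lit 110) (nat_lit 5) (nat_lit 677) (nat_lit 570) (nat_lit 313)) (XT.lf (nat_lit 0) (nat_lit 4650043695) (nat_lit 304) (nat_lit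 8528435103) (nat_lit 380) (nat_lit 24522262608) (nat_lit 105) (nat_lit 5) (nat_lit 109) (nat_lit 5) (nat_lit 110) (nat_lit 5) (nat_lit 678) (nat_lit 570) (nat_lit 312))) (XT.nd (nat_lit 78) (nat_lit 228) (nat_lit 0) (XT.lf (nat_lit 0) (nat_lit 23294759438) (nat_lit 380) (nat_lit 9619061717) (nat_lit 76) (nat_lit 5263855265) (nat_lit 105) (nat_lit 5) (nat_lit 110) (nat_lit 5) (nat_lit 106) (nat_lit 5) (nat_lit 679) (nat_lit 570) (nat_lit 311)) (XT.lf (nat_lit 0) (nat_lit 14408152382) (nat_lit 228) (nat_lit 19351985390) (nat_lit 304) (nat_lit 4901076957) (nat_lit 102) (nat_lit 5) (nat_lit 105) (nat_lit 5) (nat_lit 106) (nat_lit 5) (nat_lit 680) (nat_lit 570) (nat_lit 310))))) (XT.nd (nat_lit 72618) (nat_lit 0) (nat_lit 33060) (XT.nd (nat_lit 156) (nat_lit 0) (nat_lit 0) (XT.nd (nat_lit 78) (nat_lit 228) (nat_lit 0) (XT.lf (nat_lit 0) (nat_lit 15800442051) (nat_lit 380) (nat_lit 14980753483) (nat_lit 76) (nat_lit 8867459585) (nat_lit 97) (nat_lit 5) (nat_lit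 102) (nat_lit 5) (nat_lit 98) (nat_lit 5) (nat_lit 682) (nat_lit 570) (nat_lit 308)) (XT.lf (nat_lit 0) (nat_lit 9915166348) (nat_lit 228) (nat_lit 16721485914) (nat_lit 304) (nat_lit 13516115613) (nat_lit 94) (nat_lit 5) (nat_lit 97) (nat_lit 5) (nat_lit 98) (nat_lit 5) (nat_lit 683) (nat_lit 570) (nat_lit 307))) (XT.nd (nat_lit 72384) (nat_lit 0) (nat_lit 33060) (XT.lf (nat_lit 0) (nat_lit 35506657268) (nat_lit 228) (nat_lit 2280313433) (nat_lit 304) (nat_lit 2878044536) (nat_lit 94) (nat_lit 5) (nat_lit 97) (nat_lit 5) (nat_lit 98) (nat_lit 5) (nat_lit 684) (nat_lit 570) (nat_lit 306)) (XT.lf (nat_lit 0) (nat_lit 3929097301) (nat_lit 1748) (nat_lit 910785995) (nat_lit 1748) (nat_lit 910785995) (nat_lit 529) (nat_lit 3) (nat_lit 552) (nat_lit 3) (nat_lit 552) (nat_lit 5) (nat_lit 571) (nat_lit 571) (nat_lit 418)))) (XT.nd (nat_lit 156) (nat_lit 0) (nat_lit 76) (XT.nd (nat_lit 78) (nat_lit 0) (nat_lit 76) (XT.lf (nat_lit 76) (nat_lit 3958748713) (nat_lit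 0) (nat_lit 4523612421) (nat_lit 1748) (nat_lit 3123062446) (nat_lit 530) (nat_lit 5) (nat_lit 529) (nat_lit 3) (nat_lit 552) (nat_lit 5) (nat_lit 572) (nat_lit 571) (nat_lit 417)) (XT.lf (nat_lit 0) (nat_lit 9122452717) (nat_lit 1672) (nat_lit 1844199983) (nat_lit 1748) (nat_lit 744869180) (nat_lit 530) (nat_lit 5) (nat_lit 552) (nat_lit 5) (nat_lit 553) (nat_lit 5) (nat_lit 573) (nat_lit 571) (nat_lit 416))) (XT.nd (nat_lit 78) (nat_lit 0) (nat_lit 0) (XT.lf (nat_lit 76) (nat_lit 4090798133) (nat_lit 0) (nat_lit 5727693946) (nat_lit 1748) (nat_lit 2000387577) (nat_lit 531) (nat_lit 5) (nat_lit 530) (nat_lit 5) (nat_lit 553) (nat_lit 5) (nat_lit 574) (nat_lit 571) (nat_lit 415)) (XT.lf (nat_lit 76) (nat_lit 10162322210) (nat_lit 0) (nat_lit 365349274) (nat_lit 1748) (nat_lit 1400729141) (nat_lit 531) (nat_lit 5) (nat_lit 530) (nat_lit 5) (nat_lit 553) (nat_lit 5) (nat_lit 575) (nat_lit 571) (nat_lit 414))))))) (XT.nd (nat_lit 1248) (nat_lit 7296) (nat_lit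 0) (XT.nd (nat_lit 624) (nat_lit 1368) (nat_lit 0) (XT.nd (nat_lit 312) (nat_lit 0) (nat_lit 76) (XT.nd (nat_lit 156) (nat_lit 1672) (nat_lit 0) (XT.nd (nat_lit 78) (nat_lit 0) (nat_lit 0) (XT.lf (nat_lit 76) (nat_lit 4331504642) (nat_lit 0) (nat_lit 6967932718) (nat_lit 1748) (nat_lit 739707008) (nat_lit 532) (nat_lit 5) (nat_lit 531) (nat_lit 5) (nat_lit 554) (nat_lit 5) (nat_lit 576) (nat_lit 571) (nat_lit 413)) (XT.lf (nat_lit 76) (nat_lit 10565247101) (nat_lit 0) (nat_lit 1522991033) (nat_lit 1748) (nat_lit 63833265) (nat_lit 532) (nat_lit 5) (nat_lit 531) (nat_lit 5) (nat_lit 554) (nat_lit 5) (nat_lit 577) (nat_lit 571) (nat_lit 412))) (XT.nd (nat_lit 78) (nat_lit 0) (nat_lit 0) (XT.lf (nat_lit 0) (nat_lit 661857265) (nat_lit 1748) (nat_lit 7586476423) (nat_lit 1824) (nat_lit 4017952368) (nat_lit 509) (nat_lit 5) (nat_lit 532) (nat_lit 5) (nat_lit 533) (nat_lit 5) (nat_lit 578) (nat_lit 571) (nat_lit 411)) (XT.lf (nat_lit 0) (nat_lit 1409753380)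 (nat_lit 1748) (nat_lit 1307399985) (nat_lit 1824) (nat_lit 9665452655) (nat_lit 509) (nat_lit 5) (nat_lit 532) (nat_lit 5) (nat_lit 533) (nat_lit 5) (nat_lit 579) (nat_lit 571) (nat_lit 410)))) (XT.nd (nat_lit 156) (nat_lit 0) (nat_lit 76) (XT.nd (nat_lit 78) (nat_lit 0) (nat_lit 0) (XT.lf (nat_lit 0) (nat_lit 2213315116) (nat_lit 1748) (nat_lit 7362551315) (nat_lit 1824) (nat_lit 2924572171) (nat_lit 510) (nat_lit 5) (nat_lit 533) (nat_lit 5) (nat_lit 534) (nat_lit 5) (nat_lit 580) (nat_lit 571) (nat_lit 409)) (XT.lf (nat_lit 0) (nat_lit 3047972210) (nat_lit 1748) (nat_lit 916306944) (nat_lit 1824) (nat_lit 8656048565) (nat_lit 510) (nat_lit 5) (nat_lit 533) (nat_lit 5) (nat_lit 534) (nat_lit 5) (nat_lit 581) (nat_lit 571) (nat_lit 408))) (XT.nd (nat_lit 78) (nat_lit 0) (nat_lit 0) (XT.lf (nat_lit 0) (nat_lit 3936629491) (nat_lit 1748) (nat_lit 7027288713) (nat_lit 1824) (nat_lit 1777950633) (nat_lit 511) (nat_lit 5) (nat_lit 534) (nat_lit 5) (nat_lit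 535) (nat_lit 5) (nat_lit 582) (nat_lit 571) (nat_lit 407)) (XT.lf (nat_lit 0) (nat_lit 4864137394) (nat_lit 1748) (nat_lit 409166745) (nat_lit 1824) (nat_lit 7592115441) (nat_lit 511) (nat_lit 5) (nat_lit 534) (nat_lit 5) (nat_lit 535) (nat_lit 5) (nat_lit 583) (nat_lit 571) (nat_lit 406))))) (XT.nd (nat_lit 312) (nat_lit 1596) (nat_lit 0) (XT.nd (nat_lit 156) (nat_lit 0) (nat_lit 0) (XT.nd (nat_lit 78) (nat_lit 0) (nat_lit 0) (XT.lf (nat_lit 0) (nat_lit 5844470387) (nat_lit 1748) (nat_lit 6576598690) (nat_lit 1824) (nat_lit 569687108) (nat_lit 512) (nat_lit 5) (nat_lit 535) (nat_lit 5) (nat_lit 536) (nat_lit 5) (nat_lit 584) (nat_lit 571) (nat_lit 405)) (XT.lf (nat_lit 76) (nat_lit 221207001) (nat_lit 0) (nat_lit 6651375765) (nat_lit 1824) (nat_lit 6245453641) (nat_lit 513) (nat_lit 5) (nat_lit 512) (nat_lit 5) (nat_lit 536) (nat_lit 5) (nat_lit 585) (nat_lit 571) (nat_lit 404))) (XT.nd (nat_lit 78) (nat_lit 0) (nat_lit 76) (XT.lf (nat_lit 76) (nat_lit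 7236463596) (nat_lit 0) (nat_lit 718141305) (nat_lit 1824) (nat_lit 5292590712) (nat_lit 513) (nat_lit 5) (nat_lit 512) (nat_lit 5) (nat_lit 536) (nat_lit 5) (nat_lit 586) (nat_lit 571) (nat_lit 403)) (XT.lf (nat_lit 76) (nat_lit 983623000) (nat_lit 0) (nat_lit 8105107584) (nat_lit 1824) (nat_lit 4289598485) (nat_lit 514) (nat_lit 5) (nat_lit 513) (nat_lit 5) (nat_lit 537) (nat_lit 5) (nat_lit 587) (nat_lit 571) (nat_lit 402)))) (XT.nd (nat_lit 156) (nat_lit 1672) (nat_lit 0) (XT.nd (nat_lit 78) (nat_lit 0) (nat_lit 76) (XT.lf (nat_lit 76) (nat_lit 8186839536) (nat_lit 0) (nat_lit 2093362555) (nat_lit 1824) (nat_lit 3231190154) (nat_lit 514) (nat_lit 5) (nat_lit 513) (nat_lit 5) (nat_lit 537) (nat_lit 5) (nat_lit 588) (nat_lit 571) (nat_lit 401)) (XT.lf (nat_lit 76) (nat_lit 1877653792) (nat_lit 0) (nat_lit 9646086236) (nat_lit 1824) (nat_lit 2122812230) (nat_lit 515) (nat_lit 5) (nat_lit 514) (nat_lit 5) (nat_lit 538) (nat_lit 5) (nat_lit 589) (nat_lit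 571) (nat_lit 400))) (XT.nd (nat_lit 78) (nat_lit 1748) (nat_lit 0) (XT.lf (nat_lit 76) (nat_lit 9274329281) (nat_lit 0) (nat_lit 3557296262) (nat_lit 1824) (nat_lit 952000698) (nat_lit 515) (nat_lit 5) (nat_lit 514) (nat_lit 5) (nat_lit 538) (nat_lit 5) (nat_lit 590) (nat_lit 571) (nat_lit 399)) (XT.lf (nat_lit 0) (nat_lit 265521276) (nat_lit 1824) (nat_lit 11016009530) (nat_lit 1900) (nat_lit 2641350319) (nat_lit 491) (nat_lit 5) (nat_lit 515) (nat_lit 5) (nat_lit 516) (nat_lit 5) (nat_lit 591) (nat_lit 571) (nat_lit 398)))))) (XT.nd (nat_lit 624) (nat_lit 4484) (nat_lit 0) (XT.nd (nat_lit 312) (nat_lit 2812) (nat_lit 0) (XT.nd (nat_lit 156) (nat_lit 0) (nat_lit 76) (XT.nd (nat_lit 78) (nat_lit 0) (nat_lit 76) (XT.lf (nat_lit 0) (nat_lit 1538940256) (nat_lit 1824) (nat_lit 3569733490) (nat_lit 1900) (nat_lit 8955235916) (nat_lit 491) (nat_lit 5) (nat_lit 515) (nat_lit 5) (nat_lit 516) (nat_lit 5) (nat_lit 592) (nat_lit 571) (nat_lit 397)) (XT.lf (nat_lit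 0) (nat_lit 2862612877) (nat_lit 1824) (nat_lit 10144145870) (nat_lit 1900) (nat_lit 1200504602) (nat_lit 492) (nat_lit 5) (nat_lit 516) (nat_lit 5) (nat_lit 517) (nat_lit 5) (nat_lit 593) (nat_lit 571) (nat_lit 396))) (XT.nd (nat_lit 78) (nat_lit 0) (nat_lit 0) (XT.lf (nat_lit 0) (nat_lit 4261308169) (nat_lit 1824) (nat_lit 2497819876) (nat_lit 1900) (nat_lit 7593385357) (nat_lit 492) (nat_lit 5) (nat_lit 516) (nat_lit 5) (nat_lit 517) (nat_lit 5) (nat_lit 594) (nat_lit 571) (nat_lit 395)) (XT.lf (nat_lit 76) (nat_lit 5364099362) (nat_lit 0) (nat_lit 349493053) (nat_lit 1900) (nat_lit 8786564013) (nat_lit 493) (nat_lit 5) (nat_lit 492) (nat_lit 5) (nat_lit 517) (nat_lit 5) (nat_lit 595) (nat_lit 571) (nat_lit 394)))) (XT.nd (nat_lit 156) (nat_lit 1140) (nat_lit 0) (XT.nd (nat_lit 78) (nat_lit 1824) (nat_lit 0) (XT.lf (nat_lit 0) (nat_lit 7242902032) (nat_lit 1824) (nat_lit 1281416401) (nat_lit 76) (nat_lit 6125474555) (nat_lit 493) (nat_lit 5) (nat_lit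 517) (nat_lit 5) (nat_lit 494) (nat_lit 5) (nat_lit 596) (nat_lit 571) (nat_lit 393)) (XT.lf (nat_lit 0) (nat_lit 6809640513) (nat_lit 1824) (nat_lit 2030790654) (nat_lit 1900) (nat_lit 5961238706) (nat_lit 469) (nat_lit 5) (nat_lit 493) (nat_lit 5) (nat_lit 494) (nat_lit 5) (nat_lit 597) (nat_lit 571) (nat_lit 392))) (XT.nd (nat_lit 78) (nat_lit 0) (nat_lit 0) (XT.lf (nat_lit 0) (nat_lit 86936856) (nat_lit 1140) (nat_lit 10413251122) (nat_lit 1216) (nat_lit 4455791034) (nat_lit 454) (nat_lit 5) (nat_lit 469) (nat_lit 5) (nat_lit 470) (nat_lit 5) (nat_lit 598) (nat_lit 571) (nat_lit 391)) (XT.lf (nat_lit 0) (nat_lit 8414435814) (nat_lit 1140) (nat_lit 3837055217) (nat_lit 1216) (nat_lit 2860716532) (nat_lit 454) (nat_lit 5) (nat_lit 469) (nat_lit 5) (nat_lit 470) (nat_lit 5) (nat_lit 599) (nat_lit 571) (nat_lit 390))))) (XT.nd (nat_lit 312) (nat_lit 2584) (nat_lit 0) (XT.nd (nat_lit 156) (nat_lit 912) (nat_lit 0) (XT.nd (nat_lit 78) (nat_lit 76) (nat_lit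 0) (XT.lf (nat_lit 0) (nat_lit 1631912368) (nat_lit 912) (nat_lit 12426676470) (nat_lit 988) (nat_lit 1212556719) (nat_lit 442) (nat_lit 5) (nat_lit 454) (nat_lit 5) (nat_lit 455) (nat_lit 5) (nat_lit 600) (nat_lit 571) (nat_lit 389)) (XT.lf (nat_lit 0) (nat_lit 524670417) (nat_lit 988) (nat_lit 5249971062) (nat_lit 76) (nat_lit 9657315235) (nat_lit 441) (nat_lit 5) (nat_lit 454) (nat_lit 5) (nat_lit 442) (nat_lit 5) (nat_lit 601) (nat_lit 571) (nat_lit 388))) (XT.nd (nat_lit 78) (nat_lit 0) (nat_lit 0) (XT.lf (nat_lit 0) (nat_lit 2300595516) (nat_lit 988) (nat_lit 12267212811) (nat_lit 76) (nat_lit 1027611910) (nat_lit 429) (nat_lit 5) (nat_lit 442) (nat_lit 5) (nat_lit 430) (nat_lit 5) (nat_lit 602) (nat_lit 571) (nat_lit 387)) (XT.lf (nat_lit 0) (nat_lit 4177620451) (nat_lit 988) (nat_lit 3658608991) (nat_lit 76) (nat_lit 7924612189) (nat_lit 429) (nat_lit 5) (nat_lit 442) (nat_lit 5) (nat_lit 430) (nat_lit 5) (nat_lit 603) (nat_lit 571) (nat_lit 386))))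 (XT.nd (nat_lit 156) (nat_lit 1748) (nat_lit 0) (XT.nd (nat_lit 78) (nat_lit 0) (nat_lit 0) (XT.lf (nat_lit 0) (nat_lit 5182490298) (nat_lit 836) (nat_lit 935378352) (nat_lit 912) (nat_lit 9811189371) (nat_lit 418) (nat_lit 5) (nat_lit 429) (nat_lit 5) (nat_lit 430) (nat_lit 5) (nat_lit 604) (nat_lit 571) (nat_lit 385)) (XT.lf (nat_lit 0) (nat_lit 8153406677) (nat_lit 912) (nat_lit 1897687922) (nat_lit 76) (nat_lit 6048414660) (nat_lit 418) (nat_lit 5) (nat_lit 430) (nat_lit 5) (nat_lit 419) (nat_lit 5) (nat_lit 605) (nat_lit 571) (nat_lit 384))) (XT.nd (nat_lit 78) (nat_lit 836) (nat_lit 0) (XT.lf (nat_lit 0) (nat_lit 7208918537) (nat_lit 912) (nat_lit 3066033800) (nat_lit 988) (nat_lit 5997511463) (nat_lit 406) (nat_lit 5) (nat_lit 418) (nat_lit 5) (nat_lit 419) (nat_lit 5) (nat_lit 606) (nat_lit 571) (nat_lit 383)) (XT.lf (nat_lit 0) (nat_lit 41156362) (nat_lit 836) (nat_lit 12429610081) (nat_lit 912) (nat_lit 3977474449) (nat_lit 395) (nat_lit 5) (nat_lit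 406) (nat_lit 5) (nat_lit 407) (nat_lit 5) (nat_lit 607) (nat_lit 571) (nat_lit 382))))))))
noncomputable def xc160 : XT := (XT.nd (nat_lit 2418) (nat_lit 7676) (nat_lit 0) (XT.nd (nat_lit 1170) (nat_lit 6004) (nat_lit 0) (XT.nd (nat_lit 546) (nat_lit 3648) (nat_lit 0) (XT.nd (nat_lit 234) (nat_lit 1520) (nat_lit 0) (XT.nd (nat_lit 78) (nat_lit 912) (nat_lit 0) (XT.lf (nat_lit 0) (nat_lit 9422581591) (nat_lit 836) (nat_lit 5361406548) (nat_lit 912) (nat_lit 1842075766) (nat_lit 395) (nat_lit 5) (nat_lit 406) (nat_lit 5) (nat_lit 407) (nat_lit 5) (nat_lit 608) (nat_lit 571) (nat_lit 381)) (XT.nd (nat_lit 78) (nat_lit 0) (nat_lit 0) (XT.lf (nat_lit 0) (nat_lit 350633523) (nat_lit 912) (nat_lit 14616065297) (nat_lit 76) (nat_lit 1840320929) (nat_lit 383) (nat_lit 5) (nat_lit 395) (nat_lit 5) (nat_lit 384) (nat_lit 5) (nat_lit 609) (nat_lit 571) (nat_lit 380)) (XT.lf (nat_lit 0) (nat_lit 2639411520) (nat_lit 912) (nat_lit 5175425856) (nat_lit 76) (nat_lit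 9174976406) (nat_lit 383) (nat_lit 5) (nat_lit 395) (nat_lit 5) (nat_lit 384) (nat_lit 5) (nat_lit 610) (nat_lit 571) (nat_lit 379)))) (XT.nd (nat_lit 156) (nat_lit 760) (nat_lit 0) (XT.nd (nat_lit 78) (nat_lit 0) (nat_lit 0) (XT.lf (nat_lit 0) (nat_lit 4505571006) (nat_lit 760) (nat_lit 490482101) (nat_lit 836) (nat_lit 12179769019) (nat_lit 373) (nat_lit 5) (nat_lit 383) (nat_lit 5) (nat_lit 384) (nat_lit 5) (nat_lit 611) (nat_lit 571) (nat_lit 378)) (XT.lf (nat_lit 0) (nat_lit 7473032426) (nat_lit 836) (nat_lit 2967701097) (nat_lit 76) (nat_lit 6923353203) (nat_lit 373) (nat_lit 5) (nat_lit 384) (nat_lit 5) (nat_lit 374) (nat_lit 5) (nat_lit 612) (nat_lit 571) (nat_lit 377))) (XT.nd (nat_lit 78) (nat_lit 0) (nat_lit 0) (XT.lf (nat_lit 0) (nat_lit 7010104210) (nat_lit 760) (nat_lit 3031272279) (nat_lit 836) (nat_lit 7513903809) (nat_lit 363) (nat_lit 5) (nat_lit 373) (nat_lit 5) (nat_lit 374) (nat_lit 5) (nat_lit 613) (nat_lit 571) (nat_lit 376)) (XT.lf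 (nat_lit 0) (nat_lit 12703669018) (nat_lit 836) (nat_lit 559296361) (nat_lit 76) (nat_lit 4486480910) (nat_lit 363) (nat_lit 5) (nat_lit 374) (nat_lit 5) (nat_lit 364) (nat_lit 5) (nat_lit 614) (nat_lit 571) (nat_lit 375))))) (XT.nd (nat_lit 312) (nat_lit 1368) (nat_lit 0) (XT.nd (nat_lit 156) (nat_lit 684) (nat_lit 0) (XT.nd (nat_lit 78) (nat_lit 836) (nat_lit 0) (XT.lf (nat_lit 0) (nat_lit 9726367433) (nat_lit 760) (nat_lit 5769345635) (nat_lit 836) (nat_lit 2450252595) (nat_lit 353) (nat_lit 5) (nat_lit 363) (nat_lit 5) (nat_lit 364) (nat_lit 5) (nat_lit 615) (nat_lit 571) (nat_lit 374)) (XT.lf (nat_lit 0) (nat_lit 217601946) (nat_lit 836) (nat_lit 16060731904) (nat_lit 76) (nat_lit 1867596030) (nat_lit 342) (nat_lit 5) (nat_lit 353) (nat_lit 5) (nat_lit 343) (nat_lit 5) (nat_lit 616) (nat_lit 571) (nat_lit 373))) (XT.nd (nat_lit 78) (nat_lit 684) (nat_lit 0) (XT.lf (nat_lit 0) (nat_lit 2993164355) (nat_lit 836) (nat_lit 5703620748) (nat_lit 76) (nat_lit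 9651041328) (nat_lit 342) (nat_lit 5) (nat_lit 353) (nat_lit 5) (nat_lit 343) (nat_lit 5) (nat_lit 617) (nat_lit 571) (nat_lit 372)) (XT.lf (nat_lit 0) (nat_lit 4917737744) (nat_lit 684) (nat_lit 931957217) (nat_lit 760) (nat_lit 12703556974) (nat_lit 333) (nat_lit 5) (nat_lit 342) (nat_lit 5) (nat_lit 343) (nat_lit 5) (nat_lit 618) (nat_lit 571) (nat_lit 371)))) (XT.nd (nat_lit 156) (nat_lit 684) (nat_lit 0) (XT.nd (nat_lit 78) (nat_lit 684) (nat_lit 0) (XT.lf (nat_lit 0) (nat_lit 8840856561) (nat_lit 760) (nat_lit 2986273388) (nat_lit 76) (nat_lit 6934106154) (nat_lit 333) (nat_lit 5) (nat_lit 343) (nat_lit 5) (nat_lit 334) (nat_lit 5) (nat_lit 619) (nat_lit 571) (nat_lit 370)) (XT.lf (nat_lit 0) (nat_lit 7966949559) (nat_lit 684) (nat_lit 3976516725) (nat_lit 760) (nat_lit 7028881329) (nat_lit 324) (nat_lit 5) (nat_lit 333) (nat_lit 5) (nat_lit 334) (nat_lit 5) (nat_lit 620) (nat_lit 571) (nat_lit 369))) (XT.nd (nat_lit 78) (nat_lit 684) (nat_lit 0)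 (XT.lf (nat_lit 0) (nat_lit 15148268125) (nat_lit 760) (nat_lit 41256963) (nat_lit 76) (nat_lit 3997353619) (nat_lit 324) (nat_lit 5) (nat_lit 334) (nat_lit 5) (nat_lit 325) (nat_lit 5) (nat_lit 621) (nat_lit 571) (nat_lit 368)) (XT.lf (nat_lit 0) (nat_lit 11256216823) (nat_lit 684) (nat_lit 7254283330) (nat_lit 760) (nat_lit 893333737) (nat_lit 315) (nat_lit 5) (nat_lit 324) (nat_lit 5) (nat_lit 325) (nat_lit 5) (nat_lit 622) (nat_lit 571) (nat_lit 367)))))) (XT.nd (nat_lit 624) (nat_lit 2736) (nat_lit 0) (XT.nd (nat_lit 312) (nat_lit 1900) (nat_lit 0) (XT.nd (nat_lit 156) (nat_lit 608) (nat_lit 0) (XT.nd (nat_lit 78) (nat_lit 0) (nat_lit 0) (XT.lf (nat_lit 0) (nat_lit 2305008960) (nat_lit 760) (nat_lit 16455810134) (nat_lit 76) (nat_lit 863598237) (nat_lit 305) (nat_lit 5) (nat_lit 315) (nat_lit 5) (nat_lit 306) (nat_lit 5) (nat_lit 623) (nat_lit 571) (nat_lit 366)) (XT.lf (nat_lit 0) (nat_lit 5652459440) (nat_lit 760) (nat_lit 5088379251) (nat_lit 76)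 (nat_lit 9106513741) (nat_lit 305) (nat_lit 5) (nat_lit 315) (nat_lit 5) (nat_lit 306) (nat_lit 5) (nat_lit 624) (nat_lit 571) (nat_lit 365))) (XT.nd (nat_lit 78) (nat_lit 0) (nat_lit 0) (XT.lf (nat_lit 0) (nat_lit 6585575639) (nat_lit 608) (nat_lit 2518171599) (nat_lit 684) (nat_lit 10970261369) (nat_lit 297) (nat_lit 5) (nat_lit 305) (nat_lit 5) (nat_lit 306) (nat_lit 5) (nat_lit 625) (nat_lit 571) (nat_lit 364)) (XT.lf (nat_lit 0) (nat_lit 12690728048) (nat_lit 684) (nat_lit 1788117971) (nat_lit 76) (nat_lit 5825018676) (nat_lit 297) (nat_lit 5) (nat_lit 306) (nat_lit 5) (nat_lit 298) (nat_lit 5) (nat_lit 626) (nat_lit 571) (nat_lit 363)))) (XT.nd (nat_lit 156) (nat_lit 684) (nat_lit 0) (XT.nd (nat_lit 78) (nat_lit 608) (nat_lit 0) (XT.lf (nat_lit 0) (nat_lit 10256934818) (nat_lit 608) (nat_lit 6170089343) (nat_lit 684) (nat_lit 4109742365) (nat_lit 289) (nat_lit 5) (nat_lit 297) (nat_lit 5) (nat_lit 298) (nat_lit 5) (nat_lit 627) (nat_lit 571) (nat_lit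 362)) (XT.lf (nat_lit 0) (nat_lit 1794359962) (nat_lit 608) (nat_lit 18476740356) (nat_lit 684) (nat_lit 502565124) (nat_lit 281) (nat_lit 5) (nat_lit 289) (nat_lit 5) (nat_lit 290) (nat_lit 5) (nat_lit 628) (nat_lit 571) (nat_lit 361))) (XT.nd (nat_lit 78) (nat_lit 608) (nat_lit 0) (XT.lf (nat_lit 0) (nat_lit 3239781365) (nat_lit 684) (nat_lit 6833682907) (nat_lit 76) (nat_lit 10939331888) (nat_lit 280) (nat_lit 5) (nat_lit 289) (nat_lit 5) (nat_lit 281) (nat_lit 5) (nat_lit 629) (nat_lit 571) (nat_lit 360)) (XT.lf (nat_lit 0) (nat_lit 5618150494) (nat_lit 608) (nat_lit 1463076016) (nat_lit 684) (nat_lit 14174797047) (nat_lit 272) (nat_lit 5) (nat_lit 280) (nat_lit 5) (nat_lit 281) (nat_lit 5) (nat_lit 630) (nat_lit 571) (nat_lit 359))))) (XT.nd (nat_lit 312) (nat_lit 1520) (nat_lit 0) (XT.nd (nat_lit 156) (nat_lit 684) (nat_lit 0) (XT.nd (nat_lit 78) (nat_lit 532) (nat_lit 0) (XT.lf (nat_lit 0) (nat_lit 11087735235) (nat_lit 684) (nat_lit 3146481009)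 (nat_lit 76) (nat_lit 7268134685) (nat_lit 272) (nat_lit 5) (nat_lit 281) (nat_lit 5) (nat_lit 273) (nat_lit 5) (nat_lit 631) (nat_lit 571) (nat_lit 358)) (XT.lf (nat_lit 0) (nat_lit 9705367951) (nat_lit 532) (nat_lit 5536366169) (nat_lit 608) (nat_lit 6510523647) (nat_lit 265) (nat_lit 5) (nat_lit 272) (nat_lit 5) (nat_lit 273) (nat_lit 5) (nat_lit 632) (nat_lit 571) (nat_lit 357))) (XT.nd (nat_lit 78) (nat_lit 76) (nat_lit 0) (XT.lf (nat_lit 0) (nat_lit 832265792) (nat_lit 608) (nat_lit 18689567298) (nat_lit 684) (nat_lit 2484469365) (nat_lit 257) (nat_lit 5) (nat_lit 265) (nat_lit 5) (nat_lit 266) (nat_lit 5) (nat_lit 633) (nat_lit 571) (nat_lit 356)) (XT.lf (nat_lit 0) (nat_lit 1713602771) (nat_lit 684) (nat_lit 8186282365) (nat_lit 76) (nat_lit 12363076958) (nat_lit 256) (nat_lit 5) (nat_lit 265) (nat_lit 5) (nat_lit 257) (nat_lit 5) (nat_lit 634) (nat_lit 571) (nat_lit 355)))) (XT.nd (nat_lit 156) (nat_lit 988) (nat_lit 0) (XT.nd (nat_lit 78) (nat_lit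 0) (nat_lit 0) (XT.lf (nat_lit 0) (nat_lit 5104819711) (nat_lit 532) (nat_lit 885557864) (nat_lit 608) (nat_lit 16533488849) (nat_lit 249) (nat_lit 5) (nat_lit 256) (nat_lit 5) (nat_lit 257) (nat_lit 5) (nat_lit 635) (nat_lit 571) (nat_lit 354)) (XT.lf (nat_lit 0) (nat_lit 10456812559) (nat_lit 608) (nat_lit 4077440840) (nat_lit 76) (nat_lit 8253653053) (nat_lit 249) (nat_lit 5) (nat_lit 257) (nat_lit 5) (nat_lit 250) (nat_lit 5) (nat_lit 636) (nat_lit 571) (nat_lit 353))) (XT.nd (nat_lit 78) (nat_lit 456) (nat_lit 0) (XT.lf (nat_lit 0) (nat_lit 9644812228) (nat_lit 532) (nat_lit 5431228286) (nat_lit 608) (nat_lit 7979917588) (nat_lit 242) (nat_lit 5) (nat_lit 249) (nat_lit 5) (nat_lit 250) (nat_lit 5) (nat_lit 637) (nat_lit 571) (nat_lit 352)) (XT.lf (nat_lit 0) (nat_lit 340361851) (nat_lit 456) (nat_lit 19497087738) (nat_lit 532) (nat_lit 3490925368) (nat_lit 236) (nat_lit 5) (nat_lit 242) (nat_lit 5) (nat_lit 243) (nat_lit 5) (nat_lit 638) (nat_lit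 571) (nat_lit 351))))))) (XT.nd (nat_lit 1170) (nat_lit 3420) (nat_lit 0) (XT.nd (nat_lit 546) (nat_lit 2204) (nat_lit 0) (XT.nd (nat_lit 234) (nat_lit 1444) (nat_lit 0) (XT.nd (nat_lit 78) (nat_lit 532) (nat_lit 0) (XT.lf (nat_lit 0) (nat_lit 1195182235) (nat_lit 532) (nat_lit 9106253827) (nat_lit 76) (nat_lit 13302230867) (nat_lit 235) (nat_lit 5) (nat_lit 242) (nat_lit 5) (nat_lit 236) (nat_lit 5) (nat_lit 639) (nat_lit 571) (nat_lit 350)) (XT.nd (nat_lit 78) (nat_lit 0) (nat_lit 0) (XT.lf (nat_lit 0) (nat_lit 5090035999) (nat_lit 532) (nat_lit 866463889) (nat_lit 608) (nat_lit 17926938824) (nat_lit 228) (nat_lit 5) (nat_lit 235) (nat_lit 5) (nat_lit 236) (nat_lit 5) (nat_lit 640) (nat_lit 571) (nat_lit 349)) (XT.lf (nat_lit 0) (nat_lit 10926593279) (nat_lit 608) (nat_lit 4537939070) (nat_lit 76) (nat_lit 8702002687) (nat_lit 228) (nat_lit 5) (nat_lit 236) (nat_lit 5) (nat_lit 229) (nat_lit 5) (nat_lit 641) (nat_lit 571) (nat_lit 348)))) (XT.nd (nat_lit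 156) (nat_lit 532) (nat_lit 0) (XT.nd (nat_lit 78) (nat_lit 456) (nat_lit 0) (XT.lf (nat_lit 0) (nat_lit 10123011478) (nat_lit 456) (nat_lit 5939814400) (nat_lit 532) (nat_lit 8391132757) (nat_lit 222) (nat_lit 5) (nat_lit 228) (nat_lit 5) (nat_lit 229) (nat_lit 5) (nat_lit 642) (nat_lit 571) (nat_lit 347)) (XT.lf (nat_lit 0) (nat_lit 365566079) (nat_lit 456) (nat_lit 20989067682) (nat_lit 532) (nat_lit 3391440023) (nat_lit 216) (nat_lit 5) (nat_lit 222) (nat_lit 5) (nat_lit 223) (nat_lit 5) (nat_lit 643) (nat_lit 571) (nat_lit 346))) (XT.nd (nat_lit 78) (nat_lit 456) (nat_lit 0) (XT.lf (nat_lit 0) (nat_lit 1817313309) (nat_lit 532) (nat_lit 9549607825) (nat_lit 76) (nat_lit 13674258956) (nat_lit 215) (nat_lit 5) (nat_lit 222) (nat_lit 5) (nat_lit 216) (nat_lit 5) (nat_lit 644) (nat_lit 571) (nat_lit 345)) (XT.lf (nat_lit 0) (nat_lit 5622618476) (nat_lit 456) (nat_lit 1494180766) (nat_lit 532) (nat_lit 18224301638) (nat_lit 209) (nat_lit 5) (nat_lit 215)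 (nat_lit 5) (nat_lit 216) (nat_lit 5) (nat_lit 645) (nat_lit 571) (nat_lit 344))))) (XT.nd (nat_lit 312) (nat_lit 1292) (nat_lit 0) (XT.nd (nat_lit 156) (nat_lit 456) (nat_lit 0) (XT.nd (nat_lit 78) (nat_lit 456) (nat_lit 0) (XT.lf (nat_lit 0) (nat_lit 12637918470) (nat_lit 532) (nat_lit 4480715108) (nat_lit 76) (nat_lit 8526073722) (nat_lit 209) (nat_lit 5) (nat_lit 216) (nat_lit 5) (nat_lit 210) (nat_lit 5) (nat_lit 646) (nat_lit 571) (nat_lit 343)) (XT.lf (nat_lit 0) (nat_lit 11192222003) (nat_lit 456) (nat_lit 7155344877) (nat_lit 532) (nat_lit 7605256915) (nat_lit 203) (nat_lit 5) (nat_lit 209) (nat_lit 5) (nat_lit 210) (nat_lit 5) (nat_lit 647) (nat_lit 571) (nat_lit 342))) (XT.nd (nat_lit 78) (nat_lit 76) (nat_lit 0) (XT.lf (nat_lit 0) (nat_lit 959199199) (nat_lit 380) (nat_lit 23263805363) (nat_lit 456) (nat_lit 2043066214) (nat_lit 198) (nat_lit 5) (nat_lit 203) (nat_lit 5) (nat_lit 204) (nat_lit 5) (nat_lit 648) (nat_lit 571) (nat_lit 341)) (XT.lf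 (nat_lit 0) (nat_lit 3725441461) (nat_lit 456) (nat_lit 9468261365) (nat_lit 76) (nat_lit 13388554811) (nat_lit 197) (nat_lit 5) (nat_lit 203) (nat_lit 5) (nat_lit 198) (nat_lit 5) (nat_lit 649) (nat_lit 571) (nat_lit 340)))) (XT.nd (nat_lit 156) (nat_lit 836) (nat_lit 0) (XT.nd (nat_lit 78) (nat_lit 0) (nat_lit 0) (XT.lf (nat_lit 0) (nat_lit 6755795625) (nat_lit 456) (nat_lit 2865734437) (nat_lit 532) (nat_lit 17282176808) (nat_lit 191) (nat_lit 5) (nat_lit 197) (nat_lit 5) (nat_lit 198) (nat_lit 5) (nat_lit 650) (nat_lit 571) (nat_lit 339)) (XT.lf (nat_lit 0) (nat_lit 15744997835) (nat_lit 532) (nat_lit 3854276181) (nat_lit 76) (nat_lit 7630121998) (nat_lit 191) (nat_lit 5) (nat_lit 198) (nat_lit 5) (nat_lit 192) (nat_lit 5) (nat_lit 651) (nat_lit 571) (nat_lit 338))) (XT.nd (nat_lit 78) (nat_lit 456) (nat_lit 0) (XT.lf (nat_lit 0) (nat_lit 12909257803) (nat_lit 380) (nat_lit 9180263854) (nat_lit 456) (nat_lit 5470105625) (nat_lit 186) (nat_lit 5) (nat_lit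 191) (nat_lit 5) (nat_lit 192) (nat_lit 5) (nat_lit 652) (nat_lit 571) (nat_lit 337)) (XT.lf (nat_lit 0) (nat_lit 701445542) (nat_lit 456) (nat_lit 25723153960) (nat_lit 76) (nat_lit 1470863711) (nat_lit 180) (nat_lit 5) (nat_lit 186) (nat_lit 5) (nat_lit 181) (nat_lit 5) (nat_lit 653) (nat_lit 571) (nat_lit 336)))))) (XT.nd (nat_lit 624) (nat_lit 1824) (nat_lit 0) (XT.nd (nat_lit 312) (nat_lit 836) (nat_lit 0) (XT.nd (nat_lit 156) (nat_lit 380) (nat_lit 0) (XT.nd (nat_lit 78) (nat_lit 380) (nat_lit 0) (XT.lf (nat_lit 0) (nat_lit 7078845419) (nat_lit 456) (nat_lit 8810036560) (nat_lit 76) (nat_lit 12345297557) (nat_lit 180) (nat_lit 5) (nat_lit 186) (nat_lit 5) (nat_lit 181) (nat_lit 5) (nat_lit 654) (nat_lit 571) (nat_lit 335)) (XT.lf (nat_lit 0) (nat_lit 8547221213) (nat_lit 380) (nat_lit 5087982703) (nat_lit 456) (nat_lit 14943438125) (nat_lit 175) (nat_lit 5) (nat_lit 180) (nat_lit 5) (nat_lit 181) (nat_lit 5) (nat_lit 655) (nat_lit 571) (nat_lit 334)))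 (XT.nd (nat_lit 78) (nat_lit 380) (nat_lit 0) (XT.lf (nat_lit 0) (nat_lit 20416638144) (nat_lit 456) (nat_lit 2602897455) (nat_lit 76) (nat_lit 5908579292) (nat_lit 175) (nat_lit 5) (nat_lit 181) (nat_lit 5) (nat_lit 176) (nat_lit 5) (nat_lit 656) (nat_lit 571) (nat_lit 333)) (XT.lf (nat_lit 0) (nat_lit 15335505055) (nat_lit 380) (nat_lit 12127481559) (nat_lit 456) (nat_lit 1819004940) (nat_lit 170) (nat_lit 5) (nat_lit 175) (nat_lit 5) (nat_lit 176) (nat_lit 5) (nat_lit 657) (nat_lit 571) (nat_lit 332)))) (XT.nd (nat_lit 156) (nat_lit 380) (nat_lit 0) (XT.nd (nat_lit 78) (nat_lit 0) (nat_lit 0) (XT.lf (nat_lit 0) (nat_lit 4039579013) (nat_lit 380) (nat_lit 941909933) (nat_lit 456) (nat_lit 24660009760) (nat_lit 164) (nat_lit 5) (nat_lit 169) (nat_lit 5) (nat_lit 170) (nat_lit 5) (nat_lit 658) (nat_lit 571) (nat_lit 331)) (XT.lf (nat_lit 0) (nat_lit 12051886668) (nat_lit 456) (nat_lit 7518698034) (nat_lit 76) (nat_lit 10434205879) (nat_lit 164) (nat_lit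 5) (nat_lit 170) (nat_lit 5) (nat_lit 165) (nat_lit 5) (nat_lit 659) (nat_lit 571) (nat_lit 330))) (XT.nd (nat_lit 78) (nat_lit 0) (nat_lit 0) (XT.lf (nat_lit 0) (nat_lit 11058950546) (nat_lit 380) (nat_lit 8278917421) (nat_lit 456) (nat_lit 11035996875) (nat_lit 159) (nat_lit 5) (nat_lit 164) (nat_lit 5) (nat_lit 165) (nat_lit 5) (nat_lit 660) (nat_lit 571) (nat_lit 329)) (XT.lf (nat_lit 0) (nat_lit 26837542952) (nat_lit 456) (nat_lit 666665226) (nat_lit 76) (nat_lit 3244752988) (nat_lit 159) (nat_lit 5) (nat_lit 165) (nat_lit 5) (nat_lit 160) (nat_lit 5) (nat_lit 661) (nat_lit 571) (nat_lit 328))))) (XT.nd (nat_lit 312) (nat_lit 760) (nat_lit 0) (XT.nd (nat_lit 156) (nat_lit 304) (nat_lit 0) (XT.nd (nat_lit 78) (nat_lit 380) (nat_lit 0) (XT.lf (nat_lit 0) (nat_lit 3484192044) (nat_lit 380) (nat_lit 12614160973) (nat_lit 76) (nat_lit 15029319715) (nat_lit 154) (nat_lit 5) (nat_lit 159) (nat_lit 5) (nat_lit 155) (nat_lit 5) (nat_lit 662) (nat_lit 571)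 (nat_lit 327)) (XT.lf (nat_lit 0) (nat_lit 6627493183) (nat_lit 380) (nat_lit 4391674322) (nat_lit 456) (nat_lit 20493397452) (nat_lit 149) (nat_lit 5) (nat_lit 154) (nat_lit 5) (nat_lit 155) (nat_lit 5) (nat_lit 663) (nat_lit 571) (nat_lit 326))) (XT.nd (nat_lit 78) (nat_lit 304) (nat_lit 0) (XT.lf (nat_lit 0) (nat_lit 18835330247) (nat_lit 456) (nat_lit 5534043578) (nat_lit 76) (nat_lit 7533171501) (nat_lit 149) (nat_lit 5) (nat_lit 155) (nat_lit 5) (nat_lit 150) (nat_lit 5) (nat_lit 664) (nat_lit 571) (nat_lit 325)) (XT.lf (nat_lit 0) (nat_lit 14357362195) (nat_lit 304) (nat_lit 12569094250) (nat_lit 380) (nat_lit 5371496107) (nat_lit 145) (nat_lit 5) (nat_lit 149) (nat_lit 5) (nat_lit 150) (nat_lit 5) (nat_lit 665) (nat_lit 571) (nat_lit 324)))) (XT.nd (nat_lit 156) (nat_lit 304) (nat_lit 0) (XT.nd (nat_lit 78) (nat_lit 0) (nat_lit 0) (XT.lf (nat_lit 0) (nat_lit 2025446278) (nat_lit 380) (nat_lit 467071247) (nat_lit 456) (nat_lit 30207491025) (nat_lit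 139) (nat_lit 5) (nat_lit 144) (nat_lit 5) (nat_lit 145) (nat_lit 5) (nat_lit 666) (nat_lit 571) (nat_lit 323)) (XT.lf (nat_lit 0) (nat_lit 10636623793) (nat_lit 456) (nat_lit 10593076107) (nat_lit 76) (nat_lit 11875800974) (nat_lit 139) (nat_lit 5) (nat_lit 145) (nat_lit 5) (nat_lit 140) (nat_lit 5) (nat_lit 667) (nat_lit 571) (nat_lit 322))) (XT.nd (nat_lit 78) (nat_lit 0) (nat_lit 0) (XT.lf (nat_lit 0) (nat_lit 10012489745) (nat_lit 304) (nat_lit 8995662621) (nat_lit 380) (nat_lit 14509659922) (nat_lit 135) (nat_lit 5) (nat_lit 139) (nat_lit 5) (nat_lit 140) (nat_lit 5) (nat_lit 668) (nat_lit 571) (nat_lit 321)) (XT.lf (nat_lit 0) (nat_lit 27637739228) (nat_lit 380) (nat_lit 2792065212) (nat_lit 76) (nat_lit 3506752987) (nat_lit 135) (nat_lit 5) (nat_lit 140) (nat_lit 5) (nat_lit 136) (nat_lit 5) (nat_lit 669) (nat_lit 571) (nat_lit 320))))))))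
noncomputable def xc161 : XT := (XT.nd (nat_lit 74724) (nat_lit 0) (nat_lit 18848) (XT.nd (nat_lit 1170) (nat_lit 0) (nat_lit 0) (XT.nd (nat_lit 546) (nat_lit 1444) (nat_lit 0) (XT.nd (nat_lit 234) (nat_lit 988) (nat_lit 0) (XT.nd (nat_lit 78) (nat_lit 304) (nat_lit 0) (XT.lf (nat_lit 0) (nat_lit 2226477233) (nat_lit 380) (nat_lit 15861791852) (nat_lit 76) (nat_lit 16271589479) (nat_lit 130) (nat_lit 5) (nat_lit 135) (nat_lit 5) (nat_lit 131) (nat_lit 5) (nat_lit 670) (nat_lit 571) (nat_lit 319)) (XT.nd (nat_lit 78) (nat_lit 0) (nat_lit 0) (XT.lf (nat_lit 0) (nat_lit 5485010287) (nat_lit 304) (nat_lit 5404014219) (nat_lit 380) (nat_lit 23900746819) (nat_lit 126) (nat_lit 5) (nat_lit 130) (nat_lit 5) (nat_lit 131) (nat_lit 5) (nat_lit 671) (nat_lit 571) (nat_lit 318)) (XT.lf (nat_lit 0) (nat_lit 19877436351) (nat_lit 380) (nat_lit 7807717309) (nat_lit 76) (nat_lit 7540076453) (nat_lit 126) (nat_lit 5) (nat_lit 131) (nat_lit 5) (nat_lit 127) (nat_lit 5)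 (nat_lit 672) (nat_lit 571) (nat_lit 317)))) (XT.nd (nat_lit 156) (nat_lit 304) (nat_lit 0) (XT.nd (nat_lit 78) (nat_lit 380) (nat_lit 0) (XT.lf (nat_lit 0) (nat_lit 14264975796) (nat_lit 304) (nat_lit 14905666598) (nat_lit 380) (nat_lit 6496255208) (nat_lit 122) (nat_lit 5) (nat_lit 126) (nat_lit 5) (nat_lit 127) (nat_lit 5) (nat_lit 673) (nat_lit 571) (nat_lit 316)) (XT.lf (nat_lit 0) (nat_lit 756137177) (nat_lit 304) (nat_lit 1797243487) (nat_lit 380) (nat_lit 33562603424) (nat_lit 117) (nat_lit 5) (nat_lit 121) (nat_lit 5) (nat_lit 122) (nat_lit 5) (nat_lit 674) (nat_lit 571) (nat_lit 315))) (XT.nd (nat_lit 78) (nat_lit 304) (nat_lit 0) (XT.lf (nat_lit 0) (nat_lit 11913460507) (nat_lit 380) (nat_lit 13048443186) (nat_lit 76) (nat_lit 11606961124) (nat_lit 117) (nat_lit 5) (nat_lit 122) (nat_lit 5) (nat_lit 118) (nat_lit 5) (nat_lit 675) (nat_lit 571) (nat_lit 314)) (XT.lf (nat_lit 0) (nat_lit 9820580363) (nat_lit 304) (nat_lit 11712535063) (nat_lit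 380) (nat_lit 15496240306) (nat_lit 113) (nat_lit 5) (nat_lit 117) (nat_lit 5) (nat_lit 118) (nat_lit 5) (nat_lit 676) (nat_lit 571) (nat_lit 313))))) (XT.nd (nat_lit 312) (nat_lit 836) (nat_lit 0) (XT.nd (nat_lit 156) (nat_lit 304) (nat_lit 0) (XT.nd (nat_lit 78) (nat_lit 304) (nat_lit 0) (XT.lf (nat_lit 0) (nat_lit 31441728033) (nat_lit 380) (nat_lit 4191243638) (nat_lit 76) (nat_lit 1864153543) (nat_lit 113) (nat_lit 5) (nat_lit 118) (nat_lit 5) (nat_lit 114) (nat_lit 5) (nat_lit 677) (nat_lit 571) (nat_lit 312)) (XT.lf (nat_lit 0) (nat_lit 3729409505) (nat_lit 304) (nat_lit 18535904157) (nat_lit 76) (nat_lit 15704431857) (nat_lit 109) (nat_lit 5) (nat_lit 113) (nat_lit 5) (nat_lit 110) (nat_lit 5) (nat_lit 678) (nat_lit 571) (nat_lit 311))) (XT.nd (nat_lit 78) (nat_lit 0) (nat_lit 0) (XT.lf (nat_lit 0) (nat_lit 5158939766) (nat_lit 304) (nat_lit 8528568908) (nat_lit 380) (nat_lit 24762335507) (nat_lit 105) (nat_lit 5) (nat_lit 109) (nat_lit 5) (nat_lit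 110) (nat_lit 5) (nat_lit 679) (nat_lit 571) (nat_lit 310)) (XT.lf (nat_lit 0) (nat_lit 24002386858) (nat_lit 380) (nat_lit 9399971703) (nat_lit 76) (nat_lit 5534033951) (nat_lit 105) (nat_lit 5) (nat_lit 110) (nat_lit 5) (nat_lit 106) (nat_lit 5) (nat_lit 680) (nat_lit 571) (nat_lit 309)))) (XT.nd (nat_lit 156) (nat_lit 228) (nat_lit 0) (XT.nd (nat_lit 78) (nat_lit 380) (nat_lit 0) (XT.lf (nat_lit 0) (nat_lit 15105079630) (nat_lit 228) (nat_lit 19569907250) (nat_lit 304) (nat_lit 4754656480) (nat_lit 102) (nat_lit 5) (nat_lit 105) (nat_lit 5) (nat_lit 106) (nat_lit 5) (nat_lit 681) (nat_lit 571) (nat_lit 308)) (XT.lf (nat_lit 0) (nat_lit 257235076) (nat_lit 304) (nat_lit 5359273248) (nat_lit 380) (nat_lit 34314279195) (nat_lit 97) (nat_lit 5) (nat_lit 101) (nat_lit 5) (nat_lit 102) (nat_lit 5) (nat_lit 682) (nat_lit 571) (nat_lit 307))) (XT.nd (nat_lit 78) (nat_lit 228) (nat_lit 0) (XT.lf (nat_lit 0) (nat_lit 16352007359) (nat_lit 380) (nat_lit 14875521558)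 (nat_lit 76) (nat_lit 9209385598) (nat_lit 97) (nat_lit 5) (nat_lit 102) (nat_lit 5) (nat_lit 98) (nat_lit 5) (nat_lit 683) (nat_lit 571) (nat_lit 306)) (XT.lf (nat_lit 0) (nat_lit 10515653203) (nat_lit 228) (nat_lit 16887281058) (nat_lit 304) (nat_lit 13548215464) (nat_lit 94) (nat_lit 5) (nat_lit 97) (nat_lit 5) (nat_lit 98) (nat_lit 5) (nat_lit 684) (nat_lit 571) (nat_lit 305)))))) (XT.nd (nat_lit 72930) (nat_lit 0) (nat_lit 31540) (XT.nd (nat_lit 72618) (nat_lit 0) (nat_lit 31464) (XT.nd (nat_lit 72462) (nat_lit 0) (nat_lit 33060) (XT.nd (nat_lit 72384) (nat_lit 0) (nat_lit 33060) (XT.lf (nat_lit 0) (nat_lit 36611087990) (nat_lit 228) (nat_lit 2160591689) (nat_lit 304) (nat_lit 2702053993) (nat_lit 94) (nat_lit 5) (nat_lit 97) (nat_lit 5) (nat_lit 98) (nat_lit 5) (nat_lit 685) (nat_lit 571) (nat_lit 304)) (XT.lf (nat_lit 0) (nat_lit 4524185593) (nat_lit 1748) (nat_lit 665575184) (nat_lit 1748) (nat_lit 665575184) (nat_lit 529) (nat_lit 3) (nat_lit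 552) (nat_lit 3) (nat_lit 552) (nat_lit 5) (nat_lit 572) (nat_lit 572) (nat_lit 416))) (XT.nd (nat_lit 78) (nat_lit 0) (nat_lit 76) (XT.lf (nat_lit 76) (nat_lit 4561310610) (nat_lit 0) (nat_lit 5106853463) (nat_lit 1748) (nat_lit 2149012337) (nat_lit 530) (nat_lit 5) (nat_lit 529) (nat_lit 3) (nat_lit 552) (nat_lit 5) (nat_lit 573) (nat_lit 572) (nat_lit 415)) (XT.lf (nat_lit 0) (nat_lit 10297996217) (nat_lit 1672) (nat_lit 1344866389) (nat_lit 1748) (nat_lit 282995934) (nat_lit 530) (nat_lit 5) (nat_lit 552) (nat_lit 5) (nat_lit 553) (nat_lit 5) (nat_lit 574) (nat_lit 572) (nat_lit 414)))) (XT.nd (nat_lit 156) (nat_lit 1672) (nat_lit 0) (XT.nd (nat_lit 78) (nat_lit 0) (nat_lit 0) (XT.lf (nat_lit 76) (nat_lit 4705303943) (nat_lit 0) (nat_lit 6286638560) (nat_lit 1748) (nat_lit 1043741872) (nat_lit 531) (nat_lit 5) (nat_lit 530) (nat_lit 5) (nat_lit 553) (nat_lit 5) (nat_lit 575) (nat_lit 572) (nat_lit 413)) (XT.lf (nat_lit 76) (nat_lit 10887813602) (nat_lit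 0) (nat_lit 808333450) (nat_lit 1748) (nat_lit 451632492) (nat_lit 531) (nat_lit 5) (nat_lit 530) (nat_lit 5) (nat_lit 553) (nat_lit 5) (nat_lit 576) (nat_lit 572) (nat_lit 412))) (XT.nd (nat_lit 78) (nat_lit 0) (nat_lit 0) (XT.lf (nat_lit 0) (nat_lit 201524851) (nat_lit 1748) (nat_lit 7303608691) (nat_lit 1824) (nat_lit 4755939616) (nat_lit 508) (nat_lit 5) (nat_lit 531) (nat_lit 5) (nat_lit 532) (nat_lit 5) (nat_lit 577) (nat_lit 572) (nat_lit 411)) (XT.lf (nat_lit 0) (nat_lit 863322998) (nat_lit 1748) (nat_lit 1075701667) (nat_lit 1824) (nat_lit 10437516154) (nat_lit 508) (nat_lit 5) (nat_lit 531) (nat_lit 5) (nat_lit 532) (nat_lit 5) (nat_lit 578) (nat_lit 572) (nat_lit 410))))) (XT.nd (nat_lit 312) (nat_lit 0) (nat_lit 152) (XT.nd (nat_lit 156) (nat_lit 0) (nat_lit 76) (XT.nd (nat_lit 78) (nat_lit 0) (nat_lit 0) (XT.lf (nat_lit 0) (nat_lit 1585555875) (nat_lit 1748) (nat_lit 7178623719) (nat_lit 1824) (nat_lit 3729194638) (nat_lit 509) (nat_lit 5)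 (nat_lit 532) (nat_lit 5) (nat_lit 533) (nat_lit 5) (nat_lit 579) (nat_lit 572) (nat_lit 409)) (XT.lf (nat_lit 0) (nat_lit 2330557726) (nat_lit 1748) (nat_lit 784937952) (nat_lit 1824) (nat_lit 9496882515) (nat_lit 509) (nat_lit 5) (nat_lit 532) (nat_lit 5) (nat_lit 533) (nat_lit 5) (nat_lit 580) (nat_lit 572) (nat_lit 408))) (XT.nd (nat_lit 78) (nat_lit 0) (nat_lit 0) (XT.lf (nat_lit 0) (nat_lit 3134060817) (nat_lit 1748) (nat_lit 6945035211) (nat_lit 1824) (nat_lit 2653794540) (nat_lit 510) (nat_lit 5) (nat_lit 533) (nat_lit 5) (nat_lit 534) (nat_lit 5) (nat_lit 581) (nat_lit 572) (nat_lit 407)) (XT.lf (nat_lit 0) (nat_lit 3968225182) (nat_lit 1748) (nat_lit 380939818) (nat_lit 1824) (nat_lit 8506356719) (nat_lit 510) (nat_lit 5) (nat_lit 533) (nat_lit 5) (nat_lit 534) (nat_lit 5) (nat_lit 582) (nat_lit 572) (nat_lit 406)))) (XT.nd (nat_lit 156) (nat_lit 0) (nat_lit 76) (XT.nd (nat_lit 78) (nat_lit 0) (nat_lit 0) (XT.lf (nat_lit 0) (nat_lit 4859456406)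 (nat_lit 1748) (nat_lit 6598915860) (nat_lit 1824) (nat_lit 1521425902) (nat_lit 511) (nat_lit 5) (nat_lit 534) (nat_lit 5) (nat_lit 535) (nat_lit 5) (nat_lit 583) (nat_lit 572) (nat_lit 405)) (XT.lf (nat_lit 76) (nat_lit 142279298) (nat_lit 0) (nat_lit 5647608071) (nat_lit 1824) (nat_lit 7316245612) (nat_lit 512) (nat_lit 5) (nat_lit 511) (nat_lit 5) (nat_lit 535) (nat_lit 5) (nat_lit 584) (nat_lit 572) (nat_lit 404))) (XT.nd (nat_lit 78) (nat_lit 0) (nat_lit 0) (XT.lf (nat_lit 0) (nat_lit 6774581032) (nat_lit 1748) (nat_lit 6136019940) (nat_lit 1824) (nat_lit 323680768) (nat_lit 512) (nat_lit 5) (nat_lit 535) (nat_lit 5) (nat_lit 536) (nat_lit 5) (nat_lit 585) (nat_lit 572) (nat_lit 403)) (XT.lf (nat_lit 76) (nat_lit 793977978) (nat_lit 0) (nat_lit 7017022250) (nat_lit 1824) (nat_lit 5553352939) (nat_lit 513) (nat_lit 5) (nat_lit 512) (nat_lit 5) (nat_lit 536) (nat_lit 5) (nat_lit 586) (nat_lit 572) (nat_lit 402))))))) (XT.nd (nat_lit 1170) (nat_lit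 7600) (nat_lit 0) (XT.nd (nat_lit 546) (nat_lit 3724) (nat_lit 0) (XT.nd (nat_lit 234) (nat_lit 1596) (nat_lit 0) (XT.nd (nat_lit 78) (nat_lit 0) (nat_lit 76) (XT.lf (nat_lit 76) (nat_lit 7938395650) (nat_lit 0) (nat_lit 960561945) (nat_lit 1824) (nat_lit 4597452552) (nat_lit 513) (nat_lit 5) (nat_lit 512) (nat_lit 5) (nat_lit 536) (nat_lit 5) (nat_lit 587) (nat_lit 572) (nat_lit 401)) (XT.nd (nat_lit 78) (nat_lit 0) (nat_lit 0) (XT.lf (nat_lit 76) (nat_lit 1573929291) (nat_lit 0) (nat_lit 8468692497) (nat_lit 1824) (nat_lit 3587807836) (nat_lit 514) (nat_lit 5) (nat_lit 513) (nat_lit 5) (nat_lit 537) (nat_lit 5) (nat_lit 588) (nat_lit 572) (nat_lit 400)) (XT.lf (nat_lit 76) (nat_lit 8910021259) (nat_lit 0) (nat_lit 2332761925) (nat_lit 1824) (nat_lit 2523674136) (nat_lit 514) (nat_lit 5) (nat_lit 513) (nat_lit 5) (nat_lit 537) (nat_lit 5) (nat_lit 589) (nat_lit 572) (nat_lit 399)))) (XT.nd (nat_lit 156) (nat_lit 1748) (nat_lit 0) (XT.nd (nat_lit 78) (nat_lit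 0) (nat_lit 0) (XT.lf (nat_lit 76) (nat_lit 2487308329) (nat_lit 0) (nat_lit 10011497964) (nat_lit 1824) (nat_lit 1405762407) (nat_lit 515) (nat_lit 5) (nat_lit 514) (nat_lit 5) (nat_lit 538) (nat_lit 5) (nat_lit 590) (nat_lit 572) (nat_lit 398)) (XT.lf (nat_lit 76) (nat_lit 10020699652) (nat_lit 0) (nat_lit 3797550033) (nat_lit 1824) (nat_lit 226426921) (nat_lit 515) (nat_lit 5) (nat_lit 514) (nat_lit 5) (nat_lit 538) (nat_lit 5) (nat_lit 591) (nat_lit 572) (nat_lit 397))) (XT.nd (nat_lit 78) (nat_lit 0) (nat_lit 0) (XT.lf (nat_lit 0) (nat_lit 993931098) (nat_lit 1824) (nat_lit 10653888190) (nat_lit 1900) (nat_lit 2539036010) (nat_lit 491) (nat_lit 5) (nat_lit 515) (nat_lit 5) (nat_lit 516) (nat_lit 5) (nat_lit 592) (nat_lit 572) (nat_lit 396)) (XT.lf (nat_lit 0) (nat_lit 2278640039) (nat_lit 1824) (nat_lit 3070107052) (nat_lit 1900) (nat_lit 8982241305) (nat_lit 491) (nat_lit 5) (nat_lit 515) (nat_lit 5) (nat_lit 516) (nat_lit 5) (nat_lit 593) (nat_lit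 572) (nat_lit 395))))) (XT.nd (nat_lit 312) (nat_lit 3800) (nat_lit 0) (XT.nd (nat_lit 156) (nat_lit 0) (nat_lit 0) (XT.nd (nat_lit 78) (nat_lit 0) (nat_lit 0) (XT.lf (nat_lit 0) (nat_lit 3617715366) (nat_lit 1824) (nat_lit 9764916308) (nat_lit 1900) (nat_lit 1094799310) (nat_lit 492) (nat_lit 5) (nat_lit 516) (nat_lit 5) (nat_lit 517) (nat_lit 5) (nat_lit 594) (nat_lit 572) (nat_lit 394)) (XT.lf (nat_lit 0) (nat_lit 5030701227) (nat_lit 1824) (nat_lit 1977077764) (nat_lit 1900) (nat_lit 7618081119) (nat_lit 492) (nat_lit 5) (nat_lit 516) (nat_lit 5) (nat_lit 517) (nat_lit 5) (nat_lit 595) (nat_lit 572) (nat_lit 393))) (XT.nd (nat_lit 78) (nat_lit 0) (nat_lit 76) (XT.lf (nat_lit 76) (nat_lit 6038325264) (nat_lit 0) (nat_lit 463971833) (nat_lit 1900) (nat_lit 8274353978) (nat_lit 493) (nat_lit 5) (nat_lit 492) (nat_lit 5) (nat_lit 517) (nat_lit 5) (nat_lit 596) (nat_lit 572) (nat_lit 392)) (XT.lf (nat_lit 0) (nat_lit 8048284528) (nat_lit 1824) (nat_lit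 737289546) (nat_lit 76) (nat_lit 6143984847) (nat_lit 493) (nat_lit 5) (nat_lit 517) (nat_lit 5) (nat_lit 494) (nat_lit 5) (nat_lit 597) (nat_lit 572) (nat_lit 391)))) (XT.nd (nat_lit 156) (nat_lit 912) (nat_lit 0) (XT.nd (nat_lit 78) (nat_lit 1140) (nat_lit 0) (XT.lf (nat_lit 0) (nat_lit 7511840116) (nat_lit 1824) (nat_lit 2156647561) (nat_lit 1900) (nat_lit 5416171580) (nat_lit 469) (nat_lit 5) (nat_lit 493) (nat_lit 5) (nat_lit 494) (nat_lit 5) (nat_lit 598) (nat_lit 572) (nat_lit 390)) (XT.lf (nat_lit 0) (nat_lit 664466656) (nat_lit 1140) (nat_lit 10687399229) (nat_lit 1216) (nat_lit 3890380542) (nat_lit 454) (nat_lit 5) (nat_lit 469) (nat_lit 5) (nat_lit 470) (nat_lit 5) (nat_lit 599) (nat_lit 572) (nat_lit 389))) (XT.nd (nat_lit 78) (nat_lit 912) (nat_lit 0) (XT.lf (nat_lit 0) (nat_lit 9147225572) (nat_lit 1140) (nat_lit 3978387581) (nat_lit 1216) (nat_lit 2276238399) (nat_lit 454) (nat_lit 5) (nat_lit 469) (nat_lit 5) (nat_lit 470) (nat_lit 5) (nat_lit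 600) (nat_lit 572) (nat_lit 388)) (XT.lf (nat_lit 0) (nat_lit 2238271712) (nat_lit 912) (nat_lit 12721559894) (nat_lit 988) (nat_lit 604317487) (nat_lit 442) (nat_lit 5) (nat_lit 454) (nat_lit 5) (nat_lit 455) (nat_lit 5) (nat_lit 601) (nat_lit 572) (nat_lit 387)))))) (XT.nd (nat_lit 624) (nat_lit 4028) (nat_lit 0) (XT.nd (nat_lit 312) (nat_lit 1748) (nat_lit 0) (XT.nd (nat_lit 156) (nat_lit 836) (nat_lit 0) (XT.nd (nat_lit 78) (nat_lit 912) (nat_lit 0) (XT.lf (nat_lit 0) (nat_lit 1147119847) (nat_lit 988) (nat_lit 4784348988) (nat_lit 76) (nat_lit 9796870635) (nat_lit 441) (nat_lit 5) (nat_lit 454) (nat_lit 5) (nat_lit 442) (nat_lit 5) (nat_lit 602) (nat_lit 572) (nat_lit 386)) (XT.lf (nat_lit 0) (nat_lit 2950006054) (nat_lit 988) (nat_lit 11933361257) (nat_lit 76) (nat_lit 1011876437) (nat_lit 429) (nat_lit 5) (nat_lit 442) (nat_lit 5) (nat_lit 430) (nat_lit 5) (nat_lit 603) (nat_lit 572) (nat_lit 385))) (XT.nd (nat_lit 78) (nat_lit 836) (nat_lit 0)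 (XT.lf (nat_lit 0) (nat_lit 4852740142) (nat_lit 988) (nat_lit 3163942141) (nat_lit 76) (nat_lit 8047528246) (nat_lit 429) (nat_lit 5) (nat_lit 442) (nat_lit 5) (nat_lit 430) (nat_lit 5) (nat_lit 604) (nat_lit 572) (nat_lit 384)) (XT.lf (nat_lit 0) (nat_lit 5850243350) (nat_lit 836) (nat_lit 973613128) (nat_lit 912) (nat_lit 9412093829) (nat_lit 418) (nat_lit 5) (nat_lit 429) (nat_lit 5) (nat_lit 430) (nat_lit 5) (nat_lit 605) (nat_lit 572) (nat_lit 383)))) (XT.nd (nat_lit 156) (nat_lit 836) (nat_lit 0) (XT.nd (nat_lit 78) (nat_lit 912) (nat_lit 0) (XT.lf (nat_lit 0) (nat_lit 8888537235) (nat_lit 912) (nat_lit 1371015304) (nat_lit 76) (nat_lit 6150489711) (nat_lit 418) (nat_lit 5) (nat_lit 430) (nat_lit 5) (nat_lit 419) (nat_lit 5) (nat_lit 606) (nat_lit 572) (nat_lit 382)) (XT.lf (nat_lit 0) (nat_lit 7914008636) (nat_lit 912) (nat_lit 3130930072) (nat_lit 988) (nat_lit 5541668988) (nat_lit 406) (nat_lit 5) (nat_lit 418) (nat_lit 5) (nat_lit 419) (nat_lit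 5) (nat_lit 607) (nat_lit 572) (nat_lit 381))) (XT.nd (nat_lit 78) (nat_lit 0) (nat_lit 0) (XT.lf (nat_lit 0) (nat_lit 610455073) (nat_lit 836) (nat_lit 12666813805) (nat_lit 912) (nat_lit 3488779763) (nat_lit 395) (nat_lit 5) (nat_lit 406) (nat_lit 5) (nat_lit 407) (nat_lit 5) (nat_lit 608) (nat_lit 572) (nat_lit 380)) (XT.lf (nat_lit 0) (nat_lit 10168362227) (nat_lit 836) (nat_lit 5457469505) (nat_lit 912) (nat_lit 1321815149) (nat_lit 395) (nat_lit 5) (nat_lit 406) (nat_lit 5) (nat_lit 407) (nat_lit 5) (nat_lit 609) (nat_lit 572) (nat_lit 379))))) (XT.nd (nat_lit 312) (nat_lit 2356) (nat_lit 0) (XT.nd (nat_lit 156) (nat_lit 760) (nat_lit 0) (XT.nd (nat_lit 78) (nat_lit 0) (nat_lit 0) (XT.lf (nat_lit 0) (nat_lit 900422162) (nat_lit 912) (nat_lit 14336702263) (nat_lit 76) (nat_lit 1895165757) (nat_lit 383) (nat_lit 5) (nat_lit 395) (nat_lit 5) (nat_lit 384) (nat_lit 5) (nat_lit 610) (nat_lit 572) (nat_lit 378)) (XT.lf (nat_lit 0) (nat_lit 3224333054)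 (nat_lit 912) (nat_lit 4718459530) (nat_lit 76) (nat_lit 9376160649) (nat_lit 383) (nat_lit 5) (nat_lit 395) (nat_lit 5) (nat_lit 384) (nat_lit 5) (nat_lit 611) (nat_lit 572) (nat_lit 377))) (XT.nd (nat_lit 78) (nat_lit 0) (nat_lit 0) (XT.lf (nat_lit 0) (nat_lit 5152469934) (nat_lit 760) (nat_lit 468818586) (nat_lit 836) (nat_lit 11887529880) (nat_lit 373) (nat_lit 5) (nat_lit 383) (nat_lit 5) (nat_lit 384) (nat_lit 5) (nat_lit 612) (nat_lit 572) (nat_lit 376)) (XT.lf (nat_lit 0) (nat_lit 8137707482) (nat_lit 836) (nat_lit 2471071460) (nat_lit 76) (nat_lit 7092271621) (nat_lit 373) (nat_lit 5) (nat_lit 384) (nat_lit 5) (nat_lit 374) (nat_lit 5) (nat_lit 613) (nat_lit 572) (nat_lit 375)))) (XT.nd (nat_lit 156) (nat_lit 1596) (nat_lit 0) (XT.nd (nat_lit 78) (nat_lit 0) (nat_lit 0) (XT.lf (nat_lit 0) (nat_lit 7702632166) (nat_lit 760) (nat_lit 3048270083) (nat_lit 836) (nat_lit 7145296348) (nat_lit 363) (nat_lit 5) (nat_lit 373) (nat_lit 5) (nat_lit 374)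 (nat_lit 5) (nat_lit 614) (nat_lit 572) (nat_lit 374)) (XT.lf (nat_lit 0) (nat_lit 13456743858) (nat_lit 836) (nat_lit 19276485) (nat_lit 76) (nat_lit 4618421761) (nat_lit 363) (nat_lit 5) (nat_lit 374) (nat_lit 5) (nat_lit 364) (nat_lit 5) (nat_lit 615) (nat_lit 572) (nat_lit 373))) (XT.nd (nat_lit 78) (nat_lit 836) (nat_lit 0) (XT.lf (nat_lit 0) (nat_lit 10468474230) (nat_lit 760) (nat_lit 5829925466) (nat_lit 836) (nat_lit 1996617009) (nat_lit 353) (nat_lit 5) (nat_lit 363) (nat_lit 5) (nat_lit 364) (nat_lit 5) (nat_lit 616) (nat_lit 572) (nat_lit 372)) (XT.lf (nat_lit 0) (nat_lit 712244148) (nat_lit 836) (nat_lit 15821991720) (nat_lit 76) (nat_lit 1964794480) (nat_lit 342) (nat_lit 5) (nat_lit 353) (nat_lit 5) (nat_lit 343) (nat_lit 5) (nat_lit 617) (nat_lit 572) (nat_lit 371))))))))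
noncomputable def xc162 : XT := (XT.nd (nat_lit 2418) (nat_lit 7144) (nat_lit 0) (XT.nd (nat_lit 1170) (nat_lit 5244) (nat_lit 0) (XT.nd (nat_lit 546) (nat_lit 2508) (nat_lit 0) (XT.nd (nat_lit 234) (nat_lit 2128) (nat_lit 0) (XT.nd (nat_lit 78) (nat_lit 684) (nat_lit 0) (XT.lf (nat_lit 0) (nat_lit 3533704273) (nat_lit 836) (nat_lit 5268717846) (nat_lit 76) (nat_lit 9902735223) (nat_lit 342) (nat_lit 5) (nat_lit 353) (nat_lit 5) (nat_lit 343) (nat_lit 5) (nat_lit 618) (nat_lit 572) (nat_lit 370)) (XT.nd (nat_lit 78) (nat_lit 0) (nat_lit 0) (XT.lf (nat_lit 0) (nat_lit 5561456136) (nat_lit 684) (nat_lit 880025186) (nat_lit 760) (nat_lit 12473327956) (nat_lit 333) (nat_lit 5) (nat_lit 342) (nat_lit 5) (nat_lit 343) (nat_lit 5) (nat_lit 619) (nat_lit 572) (nat_lit 369)) (XT.lf (nat_lit 0) (nat_lit 9483605708) (nat_lit 760) (nat_lit 2502456563) (nat_lit 76) (nat_lit 7141068299) (nat_lit 333) (nat_lit 5) (nat_lit 343) (nat_lit 5) (nat_lit 334) (nat_lit 5) (nat_lit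 620) (nat_lit 572) (nat_lit 368)))) (XT.nd (nat_lit 156) (nat_lit 760) (nat_lit 0) (XT.nd (nat_lit 78) (nat_lit 684) (nat_lit 0) (XT.lf (nat_lit 0) (nat_lit 8666254907) (nat_lit 684) (nat_lit 3976382616) (nat_lit 760) (nat_lit 6699939616) (nat_lit 324) (nat_lit 5) (nat_lit 333) (nat_lit 5) (nat_lit 334) (nat_lit 5) (nat_lit 621) (nat_lit 572) (nat_lit 367)) (XT.lf (nat_lit 0) (nat_lit 502415548) (nat_lit 684) (nat_lit 15403863433) (nat_lit 760) (nat_lit 3655225226) (nat_lit 315) (nat_lit 5) (nat_lit 324) (nat_lit 5) (nat_lit 325) (nat_lit 5) (nat_lit 622) (nat_lit 572) (nat_lit 366))) (XT.nd (nat_lit 78) (nat_lit 760) (nat_lit 0) (XT.lf (nat_lit 0) (nat_lit 12015710669) (nat_lit 684) (nat_lit 7311393947) (nat_lit 760) (nat_lit 455867117) (nat_lit 315) (nat_lit 5) (nat_lit 324) (nat_lit 5) (nat_lit 325) (nat_lit 5) (nat_lit 623) (nat_lit 572) (nat_lit 365)) (XT.lf (nat_lit 0) (nat_lit 2795747156) (nat_lit 760) (nat_lit 16239840299) (nat_lit 76) (nat_lit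 972414942) (nat_lit 305) (nat_lit 5) (nat_lit 315) (nat_lit 5) (nat_lit 306) (nat_lit 5) (nat_lit 624) (nat_lit 572) (nat_lit 364))))) (XT.nd (nat_lit 312) (nat_lit 1292) (nat_lit 0) (XT.nd (nat_lit 156) (nat_lit 608) (nat_lit 0) (XT.nd (nat_lit 78) (nat_lit 608) (nat_lit 0) (XT.lf (nat_lit 0) (nat_lit 6201428253) (nat_lit 760) (nat_lit 4655748759) (nat_lit 76) (nat_lit 9378393761) (nat_lit 305) (nat_lit 5) (nat_lit 315) (nat_lit 5) (nat_lit 306) (nat_lit 5) (nat_lit 625) (nat_lit 572) (nat_lit 363)) (XT.lf (nat_lit 0) (nat_lit 7248169451) (nat_lit 608) (nat_lit 2468471752) (nat_lit 684) (nat_lit 10750221083) (nat_lit 297) (nat_lit 5) (nat_lit 305) (nat_lit 5) (nat_lit 306) (nat_lit 5) (nat_lit 626) (nat_lit 572) (nat_lit 362))) (XT.nd (nat_lit 78) (nat_lit 608) (nat_lit 0) (XT.lf (nat_lit 0) (nat_lit 13367551137) (nat_lit 684) (nat_lit 1295587080) (nat_lit 76) (nat_lit 6038333688) (nat_lit 297) (nat_lit 5) (nat_lit 306) (nat_lit 5) (nat_lit 298) (nat_lit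 5) (nat_lit 627) (nat_lit 572) (nat_lit 361)) (XT.lf (nat_lit 0) (nat_lit 10986891150) (nat_lit 608) (nat_lit 6186795201) (nat_lit 684) (nat_lit 3765443352) (nat_lit 289) (nat_lit 5) (nat_lit 297) (nat_lit 5) (nat_lit 298) (nat_lit 5) (nat_lit 628) (nat_lit 572) (nat_lit 360)))) (XT.nd (nat_lit 156) (nat_lit 608) (nat_lit 0) (XT.nd (nat_lit 78) (nat_lit 76) (nat_lit 0) (XT.lf (nat_lit 0) (nat_lit 2359240940) (nat_lit 608) (nat_lit 18731318363) (nat_lit 684) (nat_lit 90289180) (nat_lit 281) (nat_lit 5) (nat_lit 289) (nat_lit 5) (nat_lit 290) (nat_lit 5) (nat_lit 629) (nat_lit 572) (nat_lit 359)) (XT.lf (nat_lit 0) (nat_lit 3713193020) (nat_lit 684) (nat_lit 6446295763) (nat_lit 76) (nat_lit 11265381821) (nat_lit 280) (nat_lit 5) (nat_lit 289) (nat_lit 5) (nat_lit 281) (nat_lit 5) (nat_lit 630) (nat_lit 572) (nat_lit 358))) (XT.nd (nat_lit 78) (nat_lit 0) (nat_lit 0) (XT.lf (nat_lit 0) (nat_lit 6251126538) (nat_lit 608) (nat_lit 1375708617) (nat_lit 684)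 (nat_lit 14046220212) (nat_lit 272) (nat_lit 5) (nat_lit 280) (nat_lit 5) (nat_lit 281) (nat_lit 5) (nat_lit 631) (nat_lit 572) (nat_lit 357)) (XT.lf (nat_lit 0) (nat_lit 11706295182) (nat_lit 684) (nat_lit 2691818018) (nat_lit 76) (nat_lit 7526339839) (nat_lit 272) (nat_lit 5) (nat_lit 281) (nat_lit 5) (nat_lit 273) (nat_lit 5) (nat_lit 632) (nat_lit 572) (nat_lit 356)))))) (XT.nd (nat_lit 624) (nat_lit 2432) (nat_lit 0) (XT.nd (nat_lit 312) (nat_lit 1064) (nat_lit 0) (XT.nd (nat_lit 156) (nat_lit 608) (nat_lit 0) (XT.nd (nat_lit 78) (nat_lit 608) (nat_lit 0) (XT.lf (nat_lit 0) (nat_lit 10413662706) (nat_lit 532) (nat_lit 5525269289) (nat_lit 608) (nat_lit 6240515033) (nat_lit 265) (nat_lit 5) (nat_lit 272) (nat_lit 5) (nat_lit 273) (nat_lit 5) (nat_lit 633) (nat_lit 572) (nat_lit 355)) (XT.lf (nat_lit 0) (nat_lit 1366734143) (nat_lit 608) (nat_lit 18934342911) (nat_lit 684) (nat_lit 2137566844) (nat_lit 257) (nat_lit 5) (nat_lit 265) (nat_lit 5) (nat_lit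 266) (nat_lit 5) (nat_lit 634) (nat_lit 572) (nat_lit 354))) (XT.nd (nat_lit 78) (nat_lit 532) (nat_lit 0) (XT.lf (nat_lit 0) (nat_lit 2131591036) (nat_lit 684) (nat_lit 7837230852) (nat_lit 76) (nat_lit 12731716991) (nat_lit 256) (nat_lit 5) (nat_lit 265) (nat_lit 5) (nat_lit 257) (nat_lit 5) (nat_lit 635) (nat_lit 572) (nat_lit 353)) (XT.lf (nat_lit 0) (nat_lit 5716319732) (nat_lit 532) (nat_lit 773365143) (nat_lit 608) (nat_lit 16477060908) (nat_lit 249) (nat_lit 5) (nat_lit 256) (nat_lit 5) (nat_lit 257) (nat_lit 5) (nat_lit 636) (nat_lit 572) (nat_lit 352)))) (XT.nd (nat_lit 156) (nat_lit 532) (nat_lit 0) (XT.nd (nat_lit 78) (nat_lit 532) (nat_lit 0) (XT.lf (nat_lit 0) (nat_lit 11038834272) (nat_lit 608) (nat_lit 3652952232) (nat_lit 76) (nat_lit 8544412551) (nat_lit 249) (nat_lit 5) (nat_lit 257) (nat_lit 5) (nat_lit 250) (nat_lit 5) (nat_lit 637) (nat_lit 572) (nat_lit 351)) (XT.lf (nat_lit 0) (nat_lit 10340416704) (nat_lit 532) (nat_lit 5405982518)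 (nat_lit 608) (nat_lit 7763293620) (nat_lit 242) (nat_lit 5) (nat_lit 249) (nat_lit 5) (nat_lit 250) (nat_lit 5) (nat_lit 638) (nat_lit 572) (nat_lit 350))) (XT.nd (nat_lit 78) (nat_lit 76) (nat_lit 0) (XT.lf (nat_lit 0) (nat_lit 853042411) (nat_lit 456) (nat_lit 19746898549) (nat_lit 532) (nat_lit 3187679135) (nat_lit 236) (nat_lit 5) (nat_lit 242) (nat_lit 5) (nat_lit 243) (nat_lit 5) (nat_lit 639) (nat_lit 572) (nat_lit 349)) (XT.lf (nat_lit 0) (nat_lit 1580038752) (nat_lit 532) (nat_lit 8787620570) (nat_lit 76) (nat_lit 13700854667) (nat_lit 235) (nat_lit 5) (nat_lit 242) (nat_lit 5) (nat_lit 236) (nat_lit 5) (nat_lit 640) (nat_lit 572) (nat_lit 348))))) (XT.nd (nat_lit 312) (nat_lit 988) (nat_lit 0) (XT.nd (nat_lit 156) (nat_lit 912) (nat_lit 0) (XT.nd (nat_lit 78) (nat_lit 0) (nat_lit 0) (XT.lf (nat_lit 0) (nat_lit 5689300590) (nat_lit 532) (nat_lit 743434526) (nat_lit 608) (nat_lit 17921223186) (nat_lit 228) (nat_lit 5) (nat_lit 235) (nat_lit 5)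 (nat_lit 236) (nat_lit 5) (nat_lit 641) (nat_lit 572) (nat_lit 347)) (XT.lf (nat_lit 0) (nat_lit 11496121744) (nat_lit 608) (nat_lit 4134872603) (nat_lit 76) (nat_lit 9011844517) (nat_lit 228) (nat_lit 5) (nat_lit 236) (nat_lit 5) (nat_lit 229) (nat_lit 5) (nat_lit 642) (nat_lit 572) (nat_lit 346))) (XT.nd (nat_lit 78) (nat_lit 456) (nat_lit 0) (XT.lf (nat_lit 0) (nat_lit 10816048106) (nat_lit 456) (nat_lit 5915333750) (nat_lit 532) (nat_lit 8204703158) (nat_lit 222) (nat_lit 5) (nat_lit 228) (nat_lit 5) (nat_lit 229) (nat_lit 5) (nat_lit 643) (nat_lit 572) (nat_lit 345)) (XT.lf (nat_lit 0) (nat_lit 866209246) (nat_lit 456) (nat_lit 21260121904) (nat_lit 532) (nat_lit 3107765344) (nat_lit 216) (nat_lit 5) (nat_lit 222) (nat_lit 5) (nat_lit 223) (nat_lit 5) (nat_lit 644) (nat_lit 572) (nat_lit 344)))) (XT.nd (nat_lit 156) (nat_lit 456) (nat_lit 0) (XT.nd (nat_lit 78) (nat_lit 456) (nat_lit 0) (XT.lf (nat_lit 0) (nat_lit 2193751191) (nat_lit 532) (nat_lit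 9252415258) (nat_lit 76) (nat_lit 14089028998) (nat_lit 215) (nat_lit 5) (nat_lit 222) (nat_lit 5) (nat_lit 216) (nat_lit 5) (nat_lit 645) (nat_lit 572) (nat_lit 343)) (XT.lf (nat_lit 0) (nat_lit 6220043827) (nat_lit 456) (nat_lit 1375663319) (nat_lit 532) (nat_lit 18245478027) (nat_lit 209) (nat_lit 5) (nat_lit 215) (nat_lit 5) (nat_lit 216) (nat_lit 5) (nat_lit 646) (nat_lit 572) (nat_lit 342))) (XT.nd (nat_lit 78) (nat_lit 456) (nat_lit 0) (XT.lf (nat_lit 0) (nat_lit 13221593934) (nat_lit 532) (nat_lit 4089204716) (nat_lit 76) (nat_lit 8840178291) (nat_lit 209) (nat_lit 5) (nat_lit 216) (nat_lit 5) (nat_lit 210) (nat_lit 5) (nat_lit 647) (nat_lit 572) (nat_lit 341)) (XT.lf (nat_lit 0) (nat_lit 11894025843) (nat_lit 456) (nat_lit 7148024128) (nat_lit 532) (nat_lit 7423273622) (nat_lit 203) (nat_lit 5) (nat_lit 209) (nat_lit 5) (nat_lit 210) (nat_lit 5) (nat_lit 648) (nat_lit 572) (nat_lit 340))))))) (XT.nd (nat_lit 1170) (nat_lit 3420) (nat_lit 0) (XT.nd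 (nat_lit 546) (nat_lit 1976) (nat_lit 0) (XT.nd (nat_lit 234) (nat_lit 836) (nat_lit 0) (XT.nd (nat_lit 78) (nat_lit 532) (nat_lit 0) (XT.lf (nat_lit 0) (nat_lit 1458741405) (nat_lit 380) (nat_lit 23573909141) (nat_lit 456) (nat_lit 1752232004) (nat_lit 198) (nat_lit 5) (nat_lit 203) (nat_lit 5) (nat_lit 204) (nat_lit 5) (nat_lit 649) (nat_lit 572) (nat_lit 339)) (XT.nd (nat_lit 78) (nat_lit 456) (nat_lit 0) (XT.lf (nat_lit 0) (nat_lit 4120877042) (nat_lit 456) (nat_lit 9182416518) (nat_lit 76) (nat_lit 13804185000) (nat_lit 197) (nat_lit 5) (nat_lit 203) (nat_lit 5) (nat_lit 198) (nat_lit 5) (nat_lit 650) (nat_lit 572) (nat_lit 338)) (XT.lf (nat_lit 0) (nat_lit 7362995230) (nat_lit 456) (nat_lit 2768664584) (nat_lit 532) (nat_lit 17303761627) (nat_lit 191) (nat_lit 5) (nat_lit 197) (nat_lit 5) (nat_lit 198) (nat_lit 5) (nat_lit 651) (nat_lit 572) (nat_lit 337)))) (XT.nd (nat_lit 156) (nat_lit 456) (nat_lit 0) (XT.nd (nat_lit 78) (nat_lit 380) (nat_lit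 0) (XT.lf (nat_lit 0) (nat_lit 16372350261) (nat_lit 532) (nat_lit 3463282400) (nat_lit 76) (nat_lit 7932096752) (nat_lit 191) (nat_lit 5) (nat_lit 198) (nat_lit 5) (nat_lit 192) (nat_lit 5) (nat_lit 652) (nat_lit 572) (nat_lit 336)) (XT.lf (nat_lit 0) (nat_lit 13632442795) (nat_lit 380) (nat_lit 9208214333) (nat_lit 456) (nat_lit 5263970433) (nat_lit 186) (nat_lit 5) (nat_lit 191) (nat_lit 5) (nat_lit 192) (nat_lit 5) (nat_lit 653) (nat_lit 572) (nat_lit 335))) (XT.nd (nat_lit 78) (nat_lit 0) (nat_lit 0) (XT.lf (nat_lit 0) (nat_lit 1024817656) (nat_lit 456) (nat_lit 25766412684) (nat_lit 76) (nat_lit 1655950116) (nat_lit 180) (nat_lit 5) (nat_lit 186) (nat_lit 5) (nat_lit 181) (nat_lit 5) (nat_lit 654) (nat_lit 572) (nat_lit 334)) (XT.lf (nat_lit 0) (nat_lit 7523699977) (nat_lit 456) (nat_lit 8524272238) (nat_lit 76) (nat_lit 12744820302) (nat_lit 180) (nat_lit 5) (nat_lit 186) (nat_lit 5) (nat_lit 181) (nat_lit 5) (nat_lit 655) (nat_lit 572) (nat_lit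 333))))) (XT.nd (nat_lit 312) (nat_lit 760) (nat_lit 0) (XT.nd (nat_lit 156) (nat_lit 836) (nat_lit 0) (XT.nd (nat_lit 78) (nat_lit 0) (nat_lit 0) (XT.lf (nat_lit 0) (nat_lit 9177091447) (nat_lit 380) (nat_lit 5031127228) (nat_lit 456) (nat_lit 14935985036) (nat_lit 175) (nat_lit 5) (nat_lit 180) (nat_lit 5) (nat_lit 181) (nat_lit 5) (nat_lit 656) (nat_lit 572) (nat_lit 332)) (XT.lf (nat_lit 0) (nat_lit 21120402785) (nat_lit 456) (nat_lit 2200144477) (nat_lit 76) (nat_lit 6180216430) (nat_lit 175) (nat_lit 5) (nat_lit 181) (nat_lit 5) (nat_lit 176) (nat_lit 5) (nat_lit 657) (nat_lit 572) (nat_lit 331))) (XT.nd (nat_lit 78) (nat_lit 456) (nat_lit 0) (XT.lf (nat_lit 0) (nat_lit 16094033906) (nat_lit 380) (nat_lit 12210785042) (nat_lit 456) (nat_lit 1556956220) (nat_lit 170) (nat_lit 5) (nat_lit 175) (nat_lit 5) (nat_lit 176) (nat_lit 5) (nat_lit 658) (nat_lit 572) (nat_lit 330)) (XT.lf (nat_lit 0) (nat_lit 4573109690) (nat_lit 380) (nat_lit 799688587) (nat_lit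 456) (nat_lit 24855692232) (nat_lit 164) (nat_lit 5) (nat_lit 169) (nat_lit 5) (nat_lit 170) (nat_lit 5) (nat_lit 659) (nat_lit 572) (nat_lit 329)))) (XT.nd (nat_lit 156) (nat_lit 380) (nat_lit 0) (XT.nd (nat_lit 78) (nat_lit 380) (nat_lit 0) (XT.lf (nat_lit 0) (nat_lit 12579909948) (nat_lit 456) (nat_lit 7220511640) (nat_lit 76) (nat_lit 10798720604) (nat_lit 164) (nat_lit 5) (nat_lit 170) (nat_lit 5) (nat_lit 165) (nat_lit 5) (nat_lit 660) (nat_lit 572) (nat_lit 328)) (XT.lf (nat_lit 0) (nat_lit 11725738856) (nat_lit 380) (nat_lit 8283138040) (nat_lit 456) (nat_lit 10966775809) (nat_lit 159) (nat_lit 5) (nat_lit 164) (nat_lit 5) (nat_lit 165) (nat_lit 5) (nat_lit 661) (nat_lit 572) (nat_lit 327))) (XT.nd (nat_lit 78) (nat_lit 380) (nat_lit 0) (XT.lf (nat_lit 0) (nat_lit 27653998921) (nat_lit 456) (nat_lit 238575892) (nat_lit 76) (nat_lit 3465767159) (nat_lit 159) (nat_lit 5) (nat_lit 165) (nat_lit 5) (nat_lit 160) (nat_lit 5) (nat_lit 662) (nat_lit 572)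 (nat_lit 326)) (XT.lf (nat_lit 0) (nat_lit 3832782796) (nat_lit 380) (nat_lit 12424214976) (nat_lit 76) (nat_lit 15487646128) (nat_lit 154) (nat_lit 5) (nat_lit 159) (nat_lit 5) (nat_lit 155) (nat_lit 5) (nat_lit 663) (nat_lit 572) (nat_lit 325)))))) (XT.nd (nat_lit 624) (nat_lit 1596) (nat_lit 0) (XT.nd (nat_lit 312) (nat_lit 684) (nat_lit 0) (XT.nd (nat_lit 156) (nat_lit 760) (nat_lit 0) (XT.nd (nat_lit 78) (nat_lit 0) (nat_lit 0) (XT.lf (nat_lit 0) (nat_lit 7199362860) (nat_lit 380) (nat_lit 4316478498) (nat_lit 456) (nat_lit 20621445021) (nat_lit 149) (nat_lit 5) (nat_lit 154) (nat_lit 5) (nat_lit 155) (nat_lit 5) (nat_lit 664) (nat_lit 572) (nat_lit 324)) (XT.lf (nat_lit 0) (nat_lit 19483947634) (nat_lit 456) (nat_lit 5209635042) (nat_lit 76) (nat_lit 7841571354) (nat_lit 149) (nat_lit 5) (nat_lit 155) (nat_lit 5) (nat_lit 150) (nat_lit 5) (nat_lit 665) (nat_lit 572) (nat_lit 323))) (XT.nd (nat_lit 78) (nat_lit 456) (nat_lit 0) (XT.lf (nat_lit 0)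 (nat_lit 15076736416) (nat_lit 304) (nat_lit 12657634660) (nat_lit 380) (nat_lit 5204148908) (nat_lit 145) (nat_lit 5) (nat_lit 149) (nat_lit 5) (nat_lit 150) (nat_lit 5) (nat_lit 666) (nat_lit 572) (nat_lit 322)) (XT.lf (nat_lit 0) (nat_lit 2498922432) (nat_lit 380) (nat_lit 312112799) (nat_lit 456) (nat_lit 30537596386) (nat_lit 139) (nat_lit 5) (nat_lit 144) (nat_lit 5) (nat_lit 145) (nat_lit 5) (nat_lit 667) (nat_lit 572) (nat_lit 321)))) (XT.nd (nat_lit 156) (nat_lit 380) (nat_lit 0) (XT.nd (nat_lit 78) (nat_lit 304) (nat_lit 0) (XT.lf (nat_lit 0) (nat_lit 11113801464) (nat_lit 456) (nat_lit 10376234111) (nat_lit 76) (nat_lit 12272282729) (nat_lit 139) (nat_lit 5) (nat_lit 145) (nat_lit 5) (nat_lit 140) (nat_lit 5) (nat_lit 668) (nat_lit 572) (nat_lit 320)) (XT.lf (nat_lit 0) (nat_lit 10638622640) (nat_lit 304) (nat_lit 9011717884) (nat_lit 380) (nat_lit 14532583897) (nat_lit 135) (nat_lit 5) (nat_lit 139) (nat_lit 5) (nat_lit 140) (nat_lit 5) (nat_lit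 669) (nat_lit 572) (nat_lit 319))) (XT.nd (nat_lit 78) (nat_lit 380) (nat_lit 0) (XT.lf (nat_lit 0) (nat_lit 28448424390) (nat_lit 380) (nat_lit 2426275792) (nat_lit 76) (nat_lit 3735426244) (nat_lit 135) (nat_lit 5) (nat_lit 140) (nat_lit 5) (nat_lit 136) (nat_lit 5) (nat_lit 670) (nat_lit 572) (nat_lit 318)) (XT.lf (nat_lit 0) (nat_lit 2528295284) (nat_lit 380) (nat_lit 15756748220) (nat_lit 76) (nat_lit 16756863058) (nat_lit 130) (nat_lit 5) (nat_lit 135) (nat_lit 5) (nat_lit 131) (nat_lit 5) (nat_lit 671) (nat_lit 572) (nat_lit 317))))) (XT.nd (nat_lit 312) (nat_lit 608) (nat_lit 0) (XT.nd (nat_lit 156) (nat_lit 684) (nat_lit 0) (XT.nd (nat_lit 78) (nat_lit 0) (nat_lit 0) (XT.lf (nat_lit 0) (nat_lit 6014211807) (nat_lit 304) (nat_lit 5347560503) (nat_lit 380) (nat_lit 24118691759) (nat_lit 126) (nat_lit 5) (nat_lit 130) (nat_lit 5) (nat_lit 131) (nat_lit 5) (nat_lit 672) (nat_lit 572) (nat_lit 316)) (XT.lf (nat_lit 0) (nat_lit 20526000351) (nat_lit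 380) (nat_lit 7548640544) (nat_lit 76) (nat_lit 7850070244) (nat_lit 126) (nat_lit 5) (nat_lit 131) (nat_lit 5) (nat_lit 127) (nat_lit 5) (nat_lit 673) (nat_lit 572) (nat_lit 315))) (XT.nd (nat_lit 78) (nat_lit 380) (nat_lit 0) (XT.lf (nat_lit 0) (nat_lit 14962774639) (nat_lit 304) (nat_lit 15040052226) (nat_lit 380) (nat_lit 6372430050) (nat_lit 122) (nat_lit 5) (nat_lit 126) (nat_lit 5) (nat_lit 127) (nat_lit 5) (nat_lit 674) (nat_lit 572) (nat_lit 314)) (XT.lf (nat_lit 0) (nat_lit 1184354645) (nat_lit 304) (nat_lit 1668287759) (nat_lit 380) (nat_lit 33980694401) (nat_lit 117) (nat_lit 5) (nat_lit 121) (nat_lit 5) (nat_lit 122) (nat_lit 5) (nat_lit 675) (nat_lit 572) (nat_lit 313)))) (XT.nd (nat_lit 156) (nat_lit 304) (nat_lit 0) (XT.nd (nat_lit 78) (nat_lit 304) (nat_lit 0) (XT.lf (nat_lit 0) (nat_lit 12396106944) (nat_lit 380) (nat_lit 12900597300) (nat_lit 76) (nat_lit 11998647304) (nat_lit 117) (nat_lit 5) (nat_lit 122) (nat_lit 5) (nat_lit 118)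 (nat_lit 5) (nat_lit 676) (nat_lit 572) (nat_lit 312)) (XT.lf (nat_lit 0) (nat_lit 10423117149) (nat_lit 304) (nat_lit 11782882935) (nat_lit 380) (nat_lit 15559095353) (nat_lit 113) (nat_lit 5) (nat_lit 117) (nat_lit 5) (nat_lit 118) (nat_lit 5) (nat_lit 677) (nat_lit 572) (nat_lit 311))) (XT.nd (nat_lit 78) (nat_lit 304) (nat_lit 0) (XT.lf (nat_lit 0) (nat_lit 32309078786) (nat_lit 380) (nat_lit 3873197509) (nat_lit 76) (nat_lit 2060018196) (nat_lit 113) (nat_lit 5) (nat_lit 118) (nat_lit 5) (nat_lit 114) (nat_lit 5) (nat_lit 678) (nat_lit 572) (nat_lit 310)) (XT.lf (nat_lit 0) (nat_lit 4041997728) (nat_lit 304) (nat_lit 18504229439) (nat_lit 76) (nat_lit 16178150470) (nat_lit 109) (nat_lit 5) (nat_lit 113) (nat_lit 5) (nat_lit 110) (nat_lit 5) (nat_lit 679) (nat_lit 572) (nat_lit 309))))))))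
noncomputable def xc163 : XT := (XT.nd (nat_lit 74802) (nat_lit 0) (nat_lit 15428) (XT.nd (nat_lit 73554) (nat_lit 0) (nat_lit 30096) (XT.nd (nat_lit 72930) (nat_lit 0) (nat_lit 31388) (XT.nd (nat_lit 234) (nat_lit 608) (nat_lit 0) (XT.nd (nat_lit 78) (nat_lit 228) (nat_lit 0) (XT.lf (nat_lit 0) (nat_lit 5661864040) (nat_lit 304) (nat_lit 8535323584) (nat_lit 380) (nat_lit 25016932127) (nat_lit 105) (nat_lit 5) (nat_lit 109) (nat_lit 5) (nat_lit 110) (nat_lit 5) (nat_lit 680) (nat_lit 572) (nat_lit 308)) (XT.nd (nat_lit 78) (nat_lit 228) (nat_lit 0) (XT.lf (nat_lit 0) (nat_lit 24714780070) (nat_lit 380) (nat_lit 9192477818) (nat_lit 76) (nat_lit 5803212881) (nat_lit 105) (nat_lit 5) (nat_lit 110) (nat_lit 5) (nat_lit 106) (nat_lit 5) (nat_lit 681) (nat_lit 572) (nat_lit 307)) (XT.lf (nat_lit 0) (nat_lit 15800072612) (nat_lit 228) (nat_lit 19798754599) (nat_lit 304) (nat_lit 4614799575) (nat_lit 102) (nat_lit 5) (nat_lit 105) (nat_lit 5) (nat_lit 106) (nat_lit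 5) (nat_lit 682) (nat_lit 572) (nat_lit 306)))) (XT.nd (nat_lit 156) (nat_lit 228) (nat_lit 0) (XT.nd (nat_lit 78) (nat_lit 0) (nat_lit 0) (XT.lf (nat_lit 0) (nat_lit 655750056) (nat_lit 304) (nat_lit 5302964635) (nat_lit 380) (nat_lit 34766088527) (nat_lit 97) (nat_lit 5) (nat_lit 101) (nat_lit 5) (nat_lit 102) (nat_lit 5) (nat_lit 683) (nat_lit 572) (nat_lit 305)) (XT.lf (nat_lit 0) (nat_lit 16905457027) (nat_lit 380) (nat_lit 14783905696) (nat_lit 76) (nat_lit 9551759412) (nat_lit 97) (nat_lit 5) (nat_lit 102) (nat_lit 5) (nat_lit 98) (nat_lit 5) (nat_lit 684) (nat_lit 572) (nat_lit 304))) (XT.nd (nat_lit 72462) (nat_lit 0) (nat_lit 33060) (XT.lf (nat_lit 0) (nat_lit 11112532518) (nat_lit 228) (nat_lit 17062940392) (nat_lit 304) (nat_lit 13590207780) (nat_lit 94) (nat_lit 5) (nat_lit 97) (nat_lit 5) (nat_lit 98) (nat_lit 5) (nat_lit 685) (nat_lit 572) (nat_lit 303)) (XT.lf (nat_lit 0) (nat_lit 5111119080) (nat_lit 1748) (nat_lit 425689330) (nat_lit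 1748) (nat_lit 425689330) (nat_lit 529) (nat_lit 3) (nat_lit 552) (nat_lit 3) (nat_lit 552) (nat_lit 5) (nat_lit 573) (nat_lit 573) (nat_lit 414))))) (XT.nd (nat_lit 312) (nat_lit 0) (nat_lit 76) (XT.nd (nat_lit 156) (nat_lit 1672) (nat_lit 0) (XT.nd (nat_lit 78) (nat_lit 0) (nat_lit 0) (XT.lf (nat_lit 76) (nat_lit 5155599993) (nat_lit 0) (nat_lit 5682624513) (nat_lit 1748) (nat_lit 1195730226) (nat_lit 530) (nat_lit 5) (nat_lit 529) (nat_lit 3) (nat_lit 552) (nat_lit 5) (nat_lit 574) (nat_lit 573) (nat_lit 413)) (XT.lf (nat_lit 76) (nat_lit 11287748215) (nat_lit 0) (nat_lit 171855101) (nat_lit 1748) (nat_lit 685628801) (nat_lit 530) (nat_lit 5) (nat_lit 529) (nat_lit 3) (nat_lit 552) (nat_lit 5) (nat_lit 575) (nat_lit 573) (nat_lit 412))) (XT.nd (nat_lit 78) (nat_lit 1748) (nat_lit 0) (XT.lf (nat_lit 76) (nat_lit 5311414872) (nat_lit 0) (nat_lit 6839505832) (nat_lit 1748) (nat_lit 106664522) (nat_lit 531) (nat_lit 5) (nat_lit 530) (nat_lit 5) (nat_lit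 553) (nat_lit 5) (nat_lit 576) (nat_lit 573) (nat_lit 411)) (XT.lf (nat_lit 0) (nat_lit 472228007) (nat_lit 1748) (nat_lit 767862528) (nat_lit 1824) (nat_lit 11132138508) (nat_lit 507) (nat_lit 5) (nat_lit 530) (nat_lit 5) (nat_lit 531) (nat_lit 5) (nat_lit 577) (nat_lit 573) (nat_lit 410)))) (XT.nd (nat_lit 156) (nat_lit 0) (nat_lit 76) (XT.nd (nat_lit 78) (nat_lit 0) (nat_lit 0) (XT.lf (nat_lit 0) (nat_lit 1114946526) (nat_lit 1748) (nat_lit 6917880492) (nat_lit 1824) (nat_lit 4455251464) (nat_lit 508) (nat_lit 5) (nat_lit 531) (nat_lit 5) (nat_lit 532) (nat_lit 5) (nat_lit 578) (nat_lit 573) (nat_lit 409)) (XT.lf (nat_lit 0) (nat_lit 1772149436) (nat_lit 1748) (nat_lit 575842786) (nat_lit 1824) (nat_lit 10258220453) (nat_lit 508) (nat_lit 5) (nat_lit 531) (nat_lit 5) (nat_lit 532) (nat_lit 5) (nat_lit 579) (nat_lit 573) (nat_lit 408))) (XT.nd (nat_lit 78) (nat_lit 0) (nat_lit 0) (XT.lf (nat_lit 0) (nat_lit 2492374129) (nat_lit 1748) (nat_lit 6784343220)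 (nat_lit 1824) (nat_lit 3448995008) (nat_lit 509) (nat_lit 5) (nat_lit 532) (nat_lit 5) (nat_lit 533) (nat_lit 5) (nat_lit 580) (nat_lit 573) (nat_lit 407)) (XT.lf (nat_lit 0) (nat_lit 3235117054) (nat_lit 1748) (nat_lit 273329874) (nat_lit 1824) (nat_lit 9338993182) (nat_lit 509) (nat_lit 5) (nat_lit 532) (nat_lit 5) (nat_lit 533) (nat_lit 5) (nat_lit 581) (nat_lit 573) (nat_lit 406)))))) (XT.nd (nat_lit 624) (nat_lit 1520) (nat_lit 0) (XT.nd (nat_lit 312) (nat_lit 0) (nat_lit 152) (XT.nd (nat_lit 156) (nat_lit 0) (nat_lit 76) (XT.nd (nat_lit 78) (nat_lit 0) (nat_lit 0) (XT.lf (nat_lit 0) (nat_lit 4039186669) (nat_lit 1748) (nat_lit 6541099382) (nat_lit 1824) (nat_lit 2390387277) (nat_lit 510) (nat_lit 5) (nat_lit 533) (nat_lit 5) (nat_lit 534) (nat_lit 5) (nat_lit 582) (nat_lit 573) (nat_lit 405)) (XT.lf (nat_lit 76) (nat_lit 145542886) (nat_lit 0) (nat_lit 4728917874) (nat_lit 1824) (nat_lit 8221608326) (nat_lit 511) (nat_lit 5) (nat_lit 510) (nat_lit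 5) (nat_lit 534) (nat_lit 5) (nat_lit 583) (nat_lit 573) (nat_lit 404))) (XT.nd (nat_lit 78) (nat_lit 0) (nat_lit 0) (XT.lf (nat_lit 0) (nat_lit 5767962648) (nat_lit 1748) (nat_lit 6184067353) (nat_lit 1824) (nat_lit 1271112644) (nat_lit 511) (nat_lit 5) (nat_lit 534) (nat_lit 5) (nat_lit 535) (nat_lit 5) (nat_lit 584) (nat_lit 573) (nat_lit 403)) (XT.lf (nat_lit 76) (nat_lit 688354163) (nat_lit 0) (nat_lit 6016266893) (nat_lit 1824) (nat_lit 6647631214) (nat_lit 512) (nat_lit 5) (nat_lit 511) (nat_lit 5) (nat_lit 535) (nat_lit 5) (nat_lit 585) (nat_lit 573) (nat_lit 402)))) (XT.nd (nat_lit 156) (nat_lit 0) (nat_lit 0) (XT.nd (nat_lit 78) (nat_lit 0) (nat_lit 0) (XT.lf (nat_lit 0) (nat_lit 7691715517) (nat_lit 1748) (nat_lit 5708845372) (nat_lit 1824) (nat_lit 82749460) (nat_lit 512) (nat_lit 5) (nat_lit 535) (nat_lit 5) (nat_lit 536) (nat_lit 5) (nat_lit 586) (nat_lit 573) (nat_lit 401)) (XT.lf (nat_lit 76) (nat_lit 1356134775) (nat_lit 0) (nat_lit 7380948787)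 (nat_lit 1824) (nat_lit 4879135709) (nat_lit 513) (nat_lit 5) (nat_lit 512) (nat_lit 5) (nat_lit 536) (nat_lit 5) (nat_lit 587) (nat_lit 573) (nat_lit 400))) (XT.nd (nat_lit 78) (nat_lit 0) (nat_lit 76) (XT.lf (nat_lit 76) (nat_lit 8632729481) (nat_lit 0) (nat_lit 1198975235) (nat_lit 1824) (nat_lit 3919515045) (nat_lit 513) (nat_lit 5) (nat_lit 512) (nat_lit 5) (nat_lit 536) (nat_lit 5) (nat_lit 588) (nat_lit 573) (nat_lit 399)) (XT.lf (nat_lit 76) (nat_lit 2153883302) (nat_lit 0) (nat_lit 8831725287) (nat_lit 1824) (nat_lit 2902564168) (nat_lit 514) (nat_lit 5) (nat_lit 513) (nat_lit 5) (nat_lit 537) (nat_lit 5) (nat_lit 589) (nat_lit 573) (nat_lit 398))))) (XT.nd (nat_lit 312) (nat_lit 0) (nat_lit 76) (XT.nd (nat_lit 156) (nat_lit 1748) (nat_lit 0) (XT.nd (nat_lit 78) (nat_lit 0) (nat_lit 76) (XT.lf (nat_lit 76) (nat_lit 9625942689) (nat_lit 0) (nat_lit 2569278869) (nat_lit 1824) (nat_lit 1831990927) (nat_lit 514) (nat_lit 5) (nat_lit 513) (nat_lit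 5) (nat_lit 537) (nat_lit 5) (nat_lit 590) (nat_lit 573) (nat_lit 397)) (XT.lf (nat_lit 76) (nat_lit 3086940560) (nat_lit 0) (nat_lit 10377519929) (nat_lit 1824) (nat_lit 703864134) (nat_lit 515) (nat_lit 5) (nat_lit 514) (nat_lit 5) (nat_lit 538) (nat_lit 5) (nat_lit 591) (nat_lit 573) (nat_lit 396))) (XT.nd (nat_lit 78) (nat_lit 0) (nat_lit 76) (XT.lf (nat_lit 0) (nat_lit 478386565) (nat_lit 1824) (nat_lit 3554445426) (nat_lit 1900) (nat_lit 10278620839) (nat_lit 490) (nat_lit 5) (nat_lit 514) (nat_lit 5) (nat_lit 515) (nat_lit 5) (nat_lit 592) (nat_lit 573) (nat_lit 395)) (XT.lf (nat_lit 0) (nat_lit 1708830287) (nat_lit 1824) (nat_lit 10307141339) (nat_lit 1900) (nat_lit 2440699741) (nat_lit 491) (nat_lit 5) (nat_lit 515) (nat_lit 5) (nat_lit 516) (nat_lit 5) (nat_lit 593) (nat_lit 573) (nat_lit 394)))) (XT.nd (nat_lit 156) (nat_lit 0) (nat_lit 76) (XT.nd (nat_lit 78) (nat_lit 0) (nat_lit 76) (XT.lf (nat_lit 0) (nat_lit 3005605551) (nat_lit 1824) (nat_lit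 2582661531) (nat_lit 1900) (nat_lit 9015693005) (nat_lit 491) (nat_lit 5) (nat_lit 515) (nat_lit 5) (nat_lit 516) (nat_lit 5) (nat_lit 594) (nat_lit 573) (nat_lit 393)) (XT.lf (nat_lit 0) (nat_lit 4360821531) (nat_lit 1824) (nat_lit 9400706291) (nat_lit 1900) (nat_lit 992016919) (nat_lit 492) (nat_lit 5) (nat_lit 516) (nat_lit 5) (nat_lit 517) (nat_lit 5) (nat_lit 595) (nat_lit 573) (nat_lit 392))) (XT.nd (nat_lit 78) (nat_lit 0) (nat_lit 0) (XT.lf (nat_lit 0) (nat_lit 5788915111) (nat_lit 1824) (nat_lit 1468081729) (nat_lit 1900) (nat_lit 7648209038) (nat_lit 492) (nat_lit 5) (nat_lit 516) (nat_lit 5) (nat_lit 517) (nat_lit 5) (nat_lit 596) (nat_lit 573) (nat_lit 391)) (XT.lf (nat_lit 76) (nat_lit 6704020560) (nat_lit 0) (nat_lit 576566263) (nat_lit 1900) (nat_lit 7778613341) (nat_lit 493) (nat_lit 5) (nat_lit 492) (nat_lit 5) (nat_lit 517) (nat_lit 5) (nat_lit 597) (nat_lit 573) (nat_lit 390))))))) (XT.nd (nat_lit 1170) (nat_lit 6536) (nat_lit 0) (XT.nd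 (nat_lit 546) (nat_lit 3496) (nat_lit 0) (XT.nd (nat_lit 234) (nat_lit 1900) (nat_lit 0) (XT.nd (nat_lit 78) (nat_lit 2964) (nat_lit 0) (XT.lf (nat_lit 0) (nat_lit 8844125703) (nat_lit 1824) (nat_lit 204404443) (nat_lit 76) (nat_lit 6166903761) (nat_lit 493) (nat_lit 5) (nat_lit 517) (nat_lit 5) (nat_lit 494) (nat_lit 5) (nat_lit 598) (nat_lit 573) (nat_lit 389)) (XT.nd (nat_lit 78) (nat_lit 1140) (nat_lit 0) (XT.lf (nat_lit 0) (nat_lit 8206104978) (nat_lit 1824) (nat_lit 2281711590) (nat_lit 1900) (nat_lit 4885998376) (nat_lit 469) (nat_lit 5) (nat_lit 493) (nat_lit 5) (nat_lit 494) (nat_lit 5) (nat_lit 599) (nat_lit 573) (nat_lit 388)) (XT.lf (nat_lit 0) (nat_lit 1231188383) (nat_lit 1140) (nat_lit 10964471978) (nat_lit 1216) (nat_lit 3339077894) (nat_lit 454) (nat_lit 5) (nat_lit 469) (nat_lit 5) (nat_lit 470) (nat_lit 5) (nat_lit 600) (nat_lit 573) (nat_lit 387)))) (XT.nd (nat_lit 156) (nat_lit 988) (nat_lit 0) (XT.nd (nat_lit 78) (nat_lit 912) (nat_lit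 0) (XT.lf (nat_lit 0) (nat_lit 9872750861) (nat_lit 1140) (nat_lit 4120038435) (nat_lit 1216) (nat_lit 1704988404) (nat_lit 454) (nat_lit 5) (nat_lit 469) (nat_lit 5) (nat_lit 470) (nat_lit 5) (nat_lit 601) (nat_lit 573) (nat_lit 386)) (XT.lf (nat_lit 0) (nat_lit 2834479952) (nat_lit 912) (nat_lit 13020541163) (nat_lit 988) (nat_lit 8473842) (nat_lit 442) (nat_lit 5) (nat_lit 454) (nat_lit 5) (nat_lit 455) (nat_lit 5) (nat_lit 602) (nat_lit 573) (nat_lit 385))) (XT.nd (nat_lit 78) (nat_lit 912) (nat_lit 0) (XT.lf (nat_lit 0) (nat_lit 1758255267) (nat_lit 988) (nat_lit 4331572400) (nat_lit 76) (nat_lit 9941298142) (nat_lit 441) (nat_lit 5) (nat_lit 454) (nat_lit 5) (nat_lit 442) (nat_lit 5) (nat_lit 603) (nat_lit 573) (nat_lit 384)) (XT.lf (nat_lit 0) (nat_lit 3588974099) (nat_lit 988) (nat_lit 11615323551) (nat_lit 76) (nat_lit 997235350) (nat_lit 429) (nat_lit 5) (nat_lit 442) (nat_lit 5) (nat_lit 430) (nat_lit 5) (nat_lit 604) (nat_lit 573) (nat_lit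 383))))) (XT.nd (nat_lit 312) (nat_lit 1748) (nat_lit 0) (XT.nd (nat_lit 156) (nat_lit 912) (nat_lit 0) (XT.nd (nat_lit 78) (nat_lit 836) (nat_lit 0) (XT.lf (nat_lit 0) (nat_lit 5518390948) (nat_lit 988) (nat_lit 2681431835) (nat_lit 76) (nat_lit 8174284090) (nat_lit 429) (nat_lit 5) (nat_lit 442) (nat_lit 5) (nat_lit 430) (nat_lit 5) (nat_lit 605) (nat_lit 573) (nat_lit 382)) (XT.lf (nat_lit 0) (nat_lit 6509446648) (nat_lit 836) (nat_lit 1011854335) (nat_lit 912) (nat_lit 9028133351) (nat_lit 418) (nat_lit 5) (nat_lit 429) (nat_lit 5) (nat_lit 430) (nat_lit 5) (nat_lit 606) (nat_lit 573) (nat_lit 381))) (XT.nd (nat_lit 78) (nat_lit 912) (nat_lit 0) (XT.lf (nat_lit 0) (nat_lit 9616156523) (nat_lit 912) (nat_lit 855734365) (nat_lit 76) (nat_lit 6255339911) (nat_lit 418) (nat_lit 5) (nat_lit 430) (nat_lit 5) (nat_lit 419) (nat_lit 5) (nat_lit 607) (nat_lit 573) (nat_lit 380)) (XT.lf (nat_lit 0) (nat_lit 8611419652) (nat_lit 912) (nat_lit 3196985425) (nat_lit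 988) (nat_lit 5099068397) (nat_lit 406) (nat_lit 5) (nat_lit 418) (nat_lit 5) (nat_lit 419) (nat_lit 5) (nat_lit 608) (nat_lit 573) (nat_lit 379)))) (XT.nd (nat_lit 156) (nat_lit 912) (nat_lit 0) (XT.nd (nat_lit 78) (nat_lit 0) (nat_lit 0) (XT.lf (nat_lit 0) (nat_lit 1169065159) (nat_lit 836) (nat_lit 12909203832) (nat_lit 912) (nat_lit 3012376797) (nat_lit 395) (nat_lit 5) (nat_lit 406) (nat_lit 5) (nat_lit 407) (nat_lit 5) (nat_lit 609) (nat_lit 573) (nat_lit 378)) (XT.lf (nat_lit 0) (nat_lit 10907416711) (nat_lit 836) (nat_lit 5555887279) (nat_lit 912) (nat_lit 812782275) (nat_lit 395) (nat_lit 5) (nat_lit 406) (nat_lit 5) (nat_lit 407) (nat_lit 5) (nat_lit 610) (nat_lit 573) (nat_lit 377))) (XT.nd (nat_lit 78) (nat_lit 0) (nat_lit 0) (XT.lf (nat_lit 0) (nat_lit 1440129923) (nat_lit 912) (nat_lit 14073951168) (nat_lit 76) (nat_lit 1950407027) (nat_lit 383) (nat_lit 5) (nat_lit 395) (nat_lit 5) (nat_lit 384) (nat_lit 5) (nat_lit 611) (nat_lit 573) (nat_lit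 376)) (XT.lf (nat_lit 0) (nat_lit 3800289633) (nat_lit 912) (nat_lit 4274117799) (nat_lit 76) (nat_lit 9580681857) (nat_lit 383) (nat_lit 5) (nat_lit 395) (nat_lit 5) (nat_lit 384) (nat_lit 5) (nat_lit 612) (nat_lit 573) (nat_lit 375)))))) (XT.nd (nat_lit 624) (nat_lit 2736) (nat_lit 0) (XT.nd (nat_lit 312) (nat_lit 1520) (nat_lit 0) (XT.nd (nat_lit 156) (nat_lit 1520) (nat_lit 0) (XT.nd (nat_lit 78) (nat_lit 0) (nat_lit 0) (XT.lf (nat_lit 0) (nat_lit 5790686104) (nat_lit 760) (nat_lit 447943941) (nat_lit 836) (nat_lit 11610253066) (nat_lit 373) (nat_lit 5) (nat_lit 383) (nat_lit 5) (nat_lit 384) (nat_lit 5) (nat_lit 613) (nat_lit 573) (nat_lit 374)) (XT.lf (nat_lit 0) (nat_lit 8795669636) (nat_lit 836) (nat_lit 1986098753) (nat_lit 76) (nat_lit 7263385945) (nat_lit 373) (nat_lit 5) (nat_lit 384) (nat_lit 5) (nat_lit 374) (nat_lit 5) (nat_lit 614) (nat_lit 573) (nat_lit 373))) (XT.nd (nat_lit 78) (nat_lit 760) (nat_lit 0) (XT.lf (nat_lit 0) (nat_lit 8387563194)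 (nat_lit 760) (nat_lit 3067301957) (nat_lit 836) (nat_lit 6789465696) (nat_lit 363) (nat_lit 5) (nat_lit 373) (nat_lit 5) (nat_lit 374) (nat_lit 5) (nat_lit 615) (nat_lit 573) (nat_lit 372)) (XT.lf (nat_lit 0) (nat_lit 516919283) (nat_lit 760) (nat_lit 13691940260) (nat_lit 836) (nat_lit 4237799215) (nat_lit 353) (nat_lit 5) (nat_lit 363) (nat_lit 5) (nat_lit 364) (nat_lit 5) (nat_lit 616) (nat_lit 573) (nat_lit 371)))) (XT.nd (nat_lit 156) (nat_lit 684) (nat_lit 0) (XT.nd (nat_lit 78) (nat_lit 836) (nat_lit 0) (XT.lf (nat_lit 0) (nat_lit 11204159986) (nat_lit 760) (nat_lit 5893845119) (nat_lit 836) (nat_lit 1553426859) (nat_lit 353) (nat_lit 5) (nat_lit 363) (nat_lit 5) (nat_lit 364) (nat_lit 5) (nat_lit 617) (nat_lit 573) (nat_lit 370)) (XT.lf (nat_lit 0) (nat_lit 1197740630) (nat_lit 836) (nat_lit 15600220459) (nat_lit 76) (nat_lit 2061612986) (nat_lit 342) (nat_lit 5) (nat_lit 353) (nat_lit 5) (nat_lit 343) (nat_lit 5) (nat_lit 618) (nat_lit 573) (nat_lit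 369))) (XT.nd (nat_lit 78) (nat_lit 684) (nat_lit 0) (XT.lf (nat_lit 0) (nat_lit 4066389730) (nat_lit 836) (nat_lit 4846434267) (nat_lit 76) (nat_lit 10157184649) (nat_lit 342) (nat_lit 5) (nat_lit 353) (nat_lit 5) (nat_lit 343) (nat_lit 5) (nat_lit 619) (nat_lit 573) (nat_lit 368)) (XT.lf (nat_lit 0) (nat_lit 6196871761) (nat_lit 684) (nat_lit 829794879) (nat_lit 760) (nat_lit 12257300322) (nat_lit 333) (nat_lit 5) (nat_lit 342) (nat_lit 5) (nat_lit 343) (nat_lit 5) (nat_lit 620) (nat_lit 573) (nat_lit 367))))) (XT.nd (nat_lit 312) (nat_lit 1368) (nat_lit 0) (XT.nd (nat_lit 156) (nat_lit 684) (nat_lit 0) (XT.nd (nat_lit 78) (nat_lit 684) (nat_lit 0) (XT.lf (nat_lit 0) (nat_lit 10121117130) (nat_lit 760) (nat_lit 2030069811) (nat_lit 76) (nat_lit 7349518289) (nat_lit 333) (nat_lit 5) (nat_lit 343) (nat_lit 5) (nat_lit 334) (nat_lit 5) (nat_lit 621) (nat_lit 573) (nat_lit 366)) (XT.lf (nat_lit 0) (nat_lit 9358578810) (nat_lit 684) (nat_lit 3979339293) (nat_lit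 760) (nat_lit 6382651077) (nat_lit 324) (nat_lit 5) (nat_lit 333) (nat_lit 5) (nat_lit 334) (nat_lit 5) (nat_lit 622) (nat_lit 573) (nat_lit 365))) (XT.nd (nat_lit 78) (nat_lit 0) (nat_lit 0) (XT.lf (nat_lit 0) (nat_lit 1036355535) (nat_lit 684) (nat_lit 15625690653) (nat_lit 760) (nat_lit 3281924540) (nat_lit 315) (nat_lit 5) (nat_lit 324) (nat_lit 5) (nat_lit 325) (nat_lit 5) (nat_lit 623) (nat_lit 573) (nat_lit 364)) (XT.lf (nat_lit 0) (nat_lit 12769644173) (nat_lit 684) (nat_lit 7373062955) (nat_lit 760) (nat_lit 27332311) (nat_lit 315) (nat_lit 5) (nat_lit 324) (nat_lit 5) (nat_lit 325) (nat_lit 5) (nat_lit 624) (nat_lit 573) (nat_lit 363)))) (XT.nd (nat_lit 156) (nat_lit 608) (nat_lit 0) (XT.nd (nat_lit 78) (nat_lit 0) (nat_lit 0) (XT.lf (nat_lit 0) (nat_lit 3279034281) (nat_lit 760) (nat_lit 16040717422) (nat_lit 76) (nat_lit 1079853187) (nat_lit 305) (nat_lit 5) (nat_lit 315) (nat_lit 5) (nat_lit 306) (nat_lit 5) (nat_lit 625) (nat_lit 573) (nat_lit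 362)) (XT.lf (nat_lit 0) (nat_lit 6744449153) (nat_lit 760) (nat_lit 4235216986) (nat_lit 76) (nat_lit 9652226289) (nat_lit 305) (nat_lit 5) (nat_lit 315) (nat_lit 5) (nat_lit 306) (nat_lit 5) (nat_lit 626) (nat_lit 573) (nat_lit 361))) (XT.nd (nat_lit 78) (nat_lit 0) (nat_lit 0) (XT.lf (nat_lit 0) (nat_lit 7903400333) (nat_lit 608) (nat_lit 2421663488) (nat_lit 684) (nat_lit 10542844196) (nat_lit 297) (nat_lit 5) (nat_lit 305) (nat_lit 5) (nat_lit 306) (nat_lit 5) (nat_lit 627) (nat_lit 573) (nat_lit 360)) (XT.lf (nat_lit 0) (nat_lit 14041484750) (nat_lit 684) (nat_lit 813719843) (nat_lit 76) (nat_lit 6252155569) (nat_lit 297) (nat_lit 5) (nat_lit 306) (nat_lit 5) (nat_lit 298) (nat_lit 5) (nat_lit 628) (nat_lit 573) (nat_lit 359))))))))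
noncomputable def xc164 : XT := (XT.nd (nat_lit 2418) (nat_lit 5548) (nat_lit 0) (XT.nd (nat_lit 1170) (nat_lit 4408) (nat_lit 0) (XT.nd (nat_lit 546) (nat_lit 2204) (nat_lit 0) (XT.nd (nat_lit 234) (nat_lit 1748) (nat_lit 0) (XT.nd (nat_lit 78) (nat_lit 684) (nat_lit 0) (XT.lf (nat_lit 0) (nat_lit 11711067301) (nat_lit 608) (nat_lit 6207978309) (nat_lit 684) (nat_lit 3430819635) (nat_lit 289) (nat_lit 5) (nat_lit 297) (nat_lit 5) (nat_lit 298) (nat_lit 5) (nat_lit 629) (nat_lit 573) (nat_lit 358)) (XT.nd (nat_lit 78) (nat_lit 0) (nat_lit 0) (XT.lf (nat_lit 0) (nat_lit 309716827) (nat_lit 684) (nat_lit 18683656652) (nat_lit 76) (nat_lit 2603082874) (nat_lit 280) (nat_lit 5) (nat_lit 289) (nat_lit 5) (nat_lit 281) (nat_lit 5) (nat_lit 630) (nat_lit 573) (nat_lit 357)) (XT.lf (nat_lit 0) (nat_lit 4180205850) (nat_lit 684) (nat_lit 6071510796) (nat_lit 76) (nat_lit 11593787588) (nat_lit 280) (nat_lit 5) (nat_lit 289) (nat_lit 5) (nat_lit 281) (nat_lit 5)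 (nat_lit 631) (nat_lit 573) (nat_lit 356)))) (XT.nd (nat_lit 156) (nat_lit 1140) (nat_lit 0) (XT.nd (nat_lit 78) (nat_lit 0) (nat_lit 0) (XT.lf (nat_lit 0) (nat_lit 6876546064) (nat_lit 608) (nat_lit 1291122713) (nat_lit 684) (nat_lit 13931073129) (nat_lit 272) (nat_lit 5) (nat_lit 280) (nat_lit 5) (nat_lit 281) (nat_lit 5) (nat_lit 632) (nat_lit 573) (nat_lit 355)) (XT.lf (nat_lit 0) (nat_lit 12321817896) (nat_lit 684) (nat_lit 2248160520) (nat_lit 76) (nat_lit 7785327287) (nat_lit 272) (nat_lit 5) (nat_lit 281) (nat_lit 5) (nat_lit 273) (nat_lit 5) (nat_lit 633) (nat_lit 573) (nat_lit 354))) (XT.nd (nat_lit 78) (nat_lit 608) (nat_lit 0) (XT.lf (nat_lit 0) (nat_lit 11116156832) (nat_lit 532) (nat_lit 5518681054) (nat_lit 608) (nat_lit 5980647242) (nat_lit 265) (nat_lit 5) (nat_lit 272) (nat_lit 5) (nat_lit 273) (nat_lit 5) (nat_lit 634) (nat_lit 573) (nat_lit 353)) (XT.lf (nat_lit 0) (nat_lit 1891784161) (nat_lit 608) (nat_lit 19189023874) (nat_lit 684)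 (nat_lit 1799126419) (nat_lit 257) (nat_lit 5) (nat_lit 265) (nat_lit 5) (nat_lit 266) (nat_lit 5) (nat_lit 635) (nat_lit 573) (nat_lit 352))))) (XT.nd (nat_lit 312) (nat_lit 1064) (nat_lit 0) (XT.nd (nat_lit 156) (nat_lit 532) (nat_lit 0) (XT.nd (nat_lit 78) (nat_lit 532) (nat_lit 0) (XT.lf (nat_lit 0) (nat_lit 2543038899) (nat_lit 684) (nat_lit 7501110070) (nat_lit 76) (nat_lit 13103016551) (nat_lit 256) (nat_lit 5) (nat_lit 265) (nat_lit 5) (nat_lit 257) (nat_lit 5) (nat_lit 636) (nat_lit 573) (nat_lit 351)) (XT.lf (nat_lit 0) (nat_lit 6320268990) (nat_lit 532) (nat_lit 663972894) (nat_lit 608) (nat_lit 16434535885) (nat_lit 249) (nat_lit 5) (nat_lit 256) (nat_lit 5) (nat_lit 257) (nat_lit 5) (nat_lit 637) (nat_lit 573) (nat_lit 350))) (XT.nd (nat_lit 78) (nat_lit 532) (nat_lit 0) (XT.lf (nat_lit 0) (nat_lit 11618016823) (nat_lit 608) (nat_lit 3239623902) (nat_lit 76) (nat_lit 8836106681) (nat_lit 249) (nat_lit 5) (nat_lit 257) (nat_lit 5) (nat_lit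 250) (nat_lit 5) (nat_lit 638) (nat_lit 573) (nat_lit 349)) (XT.lf (nat_lit 0) (nat_lit 11030412495) (nat_lit 532) (nat_lit 5385430184) (nat_lit 608) (nat_lit 7556946345) (nat_lit 242) (nat_lit 5) (nat_lit 249) (nat_lit 5) (nat_lit 250) (nat_lit 5) (nat_lit 639) (nat_lit 573) (nat_lit 348)))) (XT.nd (nat_lit 156) (nat_lit 532) (nat_lit 0) (XT.nd (nat_lit 78) (nat_lit 76) (nat_lit 0) (XT.lf (nat_lit 0) (nat_lit 1356332904) (nat_lit 456) (nat_lit 20007147032) (nat_lit 532) (nat_lit 2892854536) (nat_lit 236) (nat_lit 5) (nat_lit 242) (nat_lit 5) (nat_lit 243) (nat_lit 5) (nat_lit 640) (nat_lit 573) (nat_lit 347)) (XT.lf (nat_lit 0) (nat_lit 1958576159) (nat_lit 532) (nat_lit 8482059705) (nat_lit 76) (nat_lit 14102302732) (nat_lit 235) (nat_lit 5) (nat_lit 242) (nat_lit 5) (nat_lit 236) (nat_lit 5) (nat_lit 641) (nat_lit 573) (nat_lit 346))) (XT.nd (nat_lit 78) (nat_lit 0) (nat_lit 0) (XT.lf (nat_lit 0) (nat_lit 6281233344) (nat_lit 532) (nat_lit 623394873)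 (nat_lit 608) (nat_lit 17929537678) (nat_lit 228) (nat_lit 5) (nat_lit 235) (nat_lit 5) (nat_lit 236) (nat_lit 5) (nat_lit 642) (nat_lit 573) (nat_lit 345)) (XT.lf (nat_lit 0) (nat_lit 12063411153) (nat_lit 608) (nat_lit 3742920643) (nat_lit 76) (nat_lit 9322609835) (nat_lit 228) (nat_lit 5) (nat_lit 236) (nat_lit 5) (nat_lit 229) (nat_lit 5) (nat_lit 643) (nat_lit 573) (nat_lit 344)))))) (XT.nd (nat_lit 624) (nat_lit 2052) (nat_lit 0) (XT.nd (nat_lit 312) (nat_lit 912) (nat_lit 0) (XT.nd (nat_lit 156) (nat_lit 532) (nat_lit 0) (XT.nd (nat_lit 78) (nat_lit 456) (nat_lit 0) (XT.lf (nat_lit 0) (nat_lit 11503895787) (nat_lit 456) (nat_lit 5895927105) (nat_lit 532) (nat_lit 8028301013) (nat_lit 222) (nat_lit 5) (nat_lit 228) (nat_lit 5) (nat_lit 229) (nat_lit 5) (nat_lit 644) (nat_lit 573) (nat_lit 343)) (XT.lf (nat_lit 0) (nat_lit 1357708600) (nat_lit 456) (nat_lit 21542372466) (nat_lit 532) (nat_lit 2832066480) (nat_lit 216) (nat_lit 5) (nat_lit 222) (nat_lit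 5) (nat_lit 223) (nat_lit 5) (nat_lit 645) (nat_lit 573) (nat_lit 342))) (XT.nd (nat_lit 78) (nat_lit 456) (nat_lit 0) (XT.lf (nat_lit 0) (nat_lit 2564511658) (nat_lit 532) (nat_lit 8968235649) (nat_lit 76) (nat_lit 14506608177) (nat_lit 215) (nat_lit 5) (nat_lit 222) (nat_lit 5) (nat_lit 216) (nat_lit 5) (nat_lit 646) (nat_lit 573) (nat_lit 341)) (XT.lf (nat_lit 0) (nat_lit 6810585593) (nat_lit 456) (nat_lit 1260538117) (nat_lit 532) (nat_lit 18280409076) (nat_lit 209) (nat_lit 5) (nat_lit 215) (nat_lit 5) (nat_lit 216) (nat_lit 5) (nat_lit 647) (nat_lit 573) (nat_lit 340)))) (XT.nd (nat_lit 156) (nat_lit 456) (nat_lit 0) (XT.nd (nat_lit 78) (nat_lit 456) (nat_lit 0) (XT.lf (nat_lit 0) (nat_lit 13804092994) (nat_lit 532) (nat_lit 3708546774) (nat_lit 76) (nat_lit 9154989444) (nat_lit 209) (nat_lit 5) (nat_lit 216) (nat_lit 5) (nat_lit 210) (nat_lit 5) (nat_lit 648) (nat_lit 573) (nat_lit 339)) (XT.lf (nat_lit 0) (nat_lit 12591306014) (nat_lit 456) (nat_lit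 7146398253) (nat_lit 532) (nat_lit 7250623724) (nat_lit 203) (nat_lit 5) (nat_lit 209) (nat_lit 5) (nat_lit 210) (nat_lit 5) (nat_lit 649) (nat_lit 573) (nat_lit 338))) (XT.nd (nat_lit 78) (nat_lit 76) (nat_lit 0) (XT.lf (nat_lit 0) (nat_lit 1949621559) (nat_lit 380) (nat_lit 23896240525) (nat_lit 456) (nat_lit 1468461251) (nat_lit 198) (nat_lit 5) (nat_lit 203) (nat_lit 5) (nat_lit 204) (nat_lit 5) (nat_lit 650) (nat_lit 573) (nat_lit 337)) (XT.lf (nat_lit 0) (nat_lit 4511759359) (nat_lit 456) (nat_lit 8909307760) (nat_lit 76) (nat_lit 14222386244) (nat_lit 197) (nat_lit 5) (nat_lit 203) (nat_lit 5) (nat_lit 198) (nat_lit 5) (nat_lit 651) (nat_lit 573) (nat_lit 336))))) (XT.nd (nat_lit 312) (nat_lit 760) (nat_lit 0) (XT.nd (nat_lit 156) (nat_lit 836) (nat_lit 0) (XT.nd (nat_lit 78) (nat_lit 0) (nat_lit 0) (XT.lf (nat_lit 0) (nat_lit 7964007242) (nat_lit 456) (nat_lit 2675648275) (nat_lit 532) (nat_lit 17338361737) (nat_lit 191) (nat_lit 5) (nat_lit 197)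 (nat_lit 5) (nat_lit 198) (nat_lit 5) (nat_lit 652) (nat_lit 573) (nat_lit 335)) (XT.lf (nat_lit 0) (nat_lit 17000116825) (nat_lit 532) (nat_lit 3082644832) (nat_lit 76) (nat_lit 8234310691) (nat_lit 191) (nat_lit 5) (nat_lit 198) (nat_lit 5) (nat_lit 192) (nat_lit 5) (nat_lit 653) (nat_lit 573) (nat_lit 334))) (XT.nd (nat_lit 78) (nat_lit 456) (nat_lit 0) (XT.lf (nat_lit 0) (nat_lit 14352034976) (nat_lit 380) (nat_lit 9242768087) (nat_lit 456) (nat_lit 5065965236) (nat_lit 186) (nat_lit 5) (nat_lit 191) (nat_lit 5) (nat_lit 192) (nat_lit 5) (nat_lit 654) (nat_lit 573) (nat_lit 333)) (XT.lf (nat_lit 0) (nat_lit 1342645039) (nat_lit 456) (nat_lit 25828834023) (nat_lit 76) (nat_lit 1838693426) (nat_lit 180) (nat_lit 5) (nat_lit 186) (nat_lit 5) (nat_lit 181) (nat_lit 5) (nat_lit 655) (nat_lit 573) (nat_lit 332)))) (XT.nd (nat_lit 156) (nat_lit 380) (nat_lit 0) (XT.nd (nat_lit 78) (nat_lit 380) (nat_lit 0) (XT.lf (nat_lit 0) (nat_lit 7965674986) (nat_lit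 456) (nat_lit 8250731295) (nat_lit 76) (nat_lit 13146407206) (nat_lit 180) (nat_lit 5) (nat_lit 186) (nat_lit 5) (nat_lit 181) (nat_lit 5) (nat_lit 656) (nat_lit 573) (nat_lit 331)) (XT.lf (nat_lit 0) (nat_lit 9801738437) (nat_lit 380) (nat_lit 4979293862) (nat_lit 456) (nat_lit 14940277737) (nat_lit 175) (nat_lit 5) (nat_lit 180) (nat_lit 5) (nat_lit 181) (nat_lit 5) (nat_lit 657) (nat_lit 573) (nat_lit 330))) (XT.nd (nat_lit 78) (nat_lit 380) (nat_lit 0) (XT.lf (nat_lit 0) (nat_lit 21826770738) (nat_lit 456) (nat_lit 1806997302) (nat_lit 76) (nat_lit 6451327057) (nat_lit 175) (nat_lit 5) (nat_lit 181) (nat_lit 5) (nat_lit 176) (nat_lit 5) (nat_lit 658) (nat_lit 573) (nat_lit 329)) (XT.lf (nat_lit 0) (nat_lit 16850188661) (nat_lit 380) (nat_lit 12301938318) (nat_lit 456) (nat_lit 1301254880) (nat_lit 170) (nat_lit 5) (nat_lit 175) (nat_lit 5) (nat_lit 176) (nat_lit 5) (nat_lit 659) (nat_lit 573) (nat_lit 328))))))) (XT.nd (nat_lit 1170) (nat_lit 2204)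 (nat_lit 0) (XT.nd (nat_lit 546) (nat_lit 1748) (nat_lit 0) (XT.nd (nat_lit 234) (nat_lit 760) (nat_lit 0) (XT.nd (nat_lit 78) (nat_lit 380) (nat_lit 0) (XT.lf (nat_lit 0) (nat_lit 5099730569) (nat_lit 380) (nat_lit 660876953) (nat_lit 456) (nat_lit 25066841330) (nat_lit 164) (nat_lit 5) (nat_lit 169) (nat_lit 5) (nat_lit 170) (nat_lit 5) (nat_lit 660) (nat_lit 573) (nat_lit 327)) (XT.nd (nat_lit 78) (nat_lit 380) (nat_lit 0) (XT.lf (nat_lit 0) (nat_lit 13107349696) (nat_lit 456) (nat_lit 6933779663) (nat_lit 76) (nat_lit 11164474531) (nat_lit 164) (nat_lit 5) (nat_lit 170) (nat_lit 5) (nat_lit 165) (nat_lit 5) (nat_lit 661) (nat_lit 573) (nat_lit 326)) (XT.lf (nat_lit 0) (nat_lit 12388559381) (nat_lit 380) (nat_lit 8293708789) (nat_lit 456) (nat_lit 10907429084) (nat_lit 159) (nat_lit 5) (nat_lit 164) (nat_lit 5) (nat_lit 165) (nat_lit 5) (nat_lit 662) (nat_lit 573) (nat_lit 325)))) (XT.nd (nat_lit 156) (nat_lit 380) (nat_lit 0) (XT.nd (nat_lit 78) (nat_lit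 76) (nat_lit 0) (XT.lf (nat_lit 0) (nat_lit 183338770) (nat_lit 304) (nat_lit 28293774305) (nat_lit 380) (nat_lit 3502990905) (nat_lit 155) (nat_lit 5) (nat_lit 159) (nat_lit 5) (nat_lit 160) (nat_lit 5) (nat_lit 663) (nat_lit 573) (nat_lit 324)) (XT.lf (nat_lit 0) (nat_lit 4177515067) (nat_lit 380) (nat_lit 12247642359) (nat_lit 76) (nat_lit 15949013833) (nat_lit 154) (nat_lit 5) (nat_lit 159) (nat_lit 5) (nat_lit 155) (nat_lit 5) (nat_lit 664) (nat_lit 573) (nat_lit 323))) (XT.nd (nat_lit 78) (nat_lit 0) (nat_lit 0) (XT.lf (nat_lit 0) (nat_lit 7765610607) (nat_lit 380) (nat_lit 4246109385) (nat_lit 456) (nat_lit 20762996971) (nat_lit 149) (nat_lit 5) (nat_lit 154) (nat_lit 5) (nat_lit 155) (nat_lit 5) (nat_lit 665) (nat_lit 573) (nat_lit 322)) (XT.lf (nat_lit 0) (nat_lit 20134978742) (nat_lit 456) (nat_lit 4895633387) (nat_lit 76) (nat_lit 8150014106) (nat_lit 149) (nat_lit 5) (nat_lit 155) (nat_lit 5) (nat_lit 150) (nat_lit 5) (nat_lit 666) (nat_lit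 573) (nat_lit 321))))) (XT.nd (nat_lit 312) (nat_lit 684) (nat_lit 0) (XT.nd (nat_lit 156) (nat_lit 304) (nat_lit 0) (XT.nd (nat_lit 78) (nat_lit 456) (nat_lit 0) (XT.lf (nat_lit 0) (nat_lit 15793714221) (nat_lit 304) (nat_lit 12754269212) (nat_lit 380) (nat_lit 5044124696) (nat_lit 145) (nat_lit 5) (nat_lit 149) (nat_lit 5) (nat_lit 150) (nat_lit 5) (nat_lit 667) (nat_lit 573) (nat_lit 320)) (XT.lf (nat_lit 0) (nat_lit 2965055463) (nat_lit 380) (nat_lit 160435147) (nat_lit 456) (nat_lit 30884945335) (nat_lit 139) (nat_lit 5) (nat_lit 144) (nat_lit 5) (nat_lit 145) (nat_lit 5) (nat_lit 668) (nat_lit 573) (nat_lit 319))) (XT.nd (nat_lit 78) (nat_lit 304) (nat_lit 0) (XT.lf (nat_lit 0) (nat_lit 11590253959) (nat_lit 456) (nat_lit 10171702356) (nat_lit 76) (nat_lit 12670521285) (nat_lit 139) (nat_lit 5) (nat_lit 145) (nat_lit 5) (nat_lit 140) (nat_lit 5) (nat_lit 669) (nat_lit 573) (nat_lit 318)) (XT.lf (nat_lit 0) (nat_lit 11260740633) (nat_lit 304) (nat_lit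 9034457059) (nat_lit 380) (nat_lit 14566344740) (nat_lit 135) (nat_lit 5) (nat_lit 139) (nat_lit 5) (nat_lit 140) (nat_lit 5) (nat_lit 670) (nat_lit 573) (nat_lit 317)))) (XT.nd (nat_lit 156) (nat_lit 304) (nat_lit 0) (XT.nd (nat_lit 78) (nat_lit 380) (nat_lit 0) (XT.lf (nat_lit 0) (nat_lit 29265307505) (nat_lit 380) (nat_lit 2069543019) (nat_lit 76) (nat_lit 3962516736) (nat_lit 135) (nat_lit 5) (nat_lit 140) (nat_lit 5) (nat_lit 136) (nat_lit 5) (nat_lit 671) (nat_lit 573) (nat_lit 316)) (XT.lf (nat_lit 0) (nat_lit 2826158870) (nat_lit 380) (nat_lit 15666001342) (nat_lit 76) (nat_lit 17245635257) (nat_lit 130) (nat_lit 5) (nat_lit 135) (nat_lit 5) (nat_lit 131) (nat_lit 5) (nat_lit 672) (nat_lit 573) (nat_lit 315))) (XT.nd (nat_lit 78) (nat_lit 0) (nat_lit 0) (XT.lf (nat_lit 0) (nat_lit 6537707610) (nat_lit 304) (nat_lit 5296366769) (nat_lit 380) (nat_lit 24351094433) (nat_lit 126) (nat_lit 5) (nat_lit 130) (nat_lit 5) (nat_lit 131) (nat_lit 5) (nat_lit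 673) (nat_lit 573) (nat_lit 314)) (XT.lf (nat_lit 0) (nat_lit 21177788402) (nat_lit 380) (nat_lit 7300506175) (nat_lit 76) (nat_lit 8160082281) (nat_lit 126) (nat_lit 5) (nat_lit 131) (nat_lit 5) (nat_lit 127) (nat_lit 5) (nat_lit 674) (nat_lit 573) (nat_lit 313)))))) (XT.nd (nat_lit 624) (nat_lit 608) (nat_lit 0) (XT.nd (nat_lit 312) (nat_lit 608) (nat_lit 0) (XT.nd (nat_lit 156) (nat_lit 304) (nat_lit 0) (XT.nd (nat_lit 78) (nat_lit 380) (nat_lit 0) (XT.lf (nat_lit 0) (nat_lit 15658511607) (nat_lit 304) (nat_lit 15183483314) (nat_lit 380) (nat_lit 6255981820) (nat_lit 122) (nat_lit 5) (nat_lit 126) (nat_lit 5) (nat_lit 127) (nat_lit 5) (nat_lit 675) (nat_lit 573) (nat_lit 312)) (XT.lf (nat_lit 0) (nat_lit 1605095490) (nat_lit 304) (nat_lit 1543156207) (nat_lit 380) (nat_lit 34416977752) (nat_lit 117) (nat_lit 5) (nat_lit 121) (nat_lit 5) (nat_lit 122) (nat_lit 5) (nat_lit 676) (nat_lit 573) (nat_lit 311))) (XT.nd (nat_lit 78) (nat_lit 304) (nat_lit 0)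 (XT.lf (nat_lit 0) (nat_lit 12878916843) (nat_lit 380) (nat_lit 12765669271) (nat_lit 76) (nat_lit 12391971805) (nat_lit 117) (nat_lit 5) (nat_lit 122) (nat_lit 5) (nat_lit 118) (nat_lit 5) (nat_lit 677) (nat_lit 573) (nat_lit 310)) (XT.lf (nat_lit 0) (nat_lit 11021934336) (nat_lit 304) (nat_lit 11861002312) (nat_lit 380) (nat_lit 15632801521) (nat_lit 113) (nat_lit 5) (nat_lit 117) (nat_lit 5) (nat_lit 118) (nat_lit 5) (nat_lit 678) (nat_lit 573) (nat_lit 309)))) (XT.nd (nat_lit 156) (nat_lit 304) (nat_lit 0) (XT.nd (nat_lit 78) (nat_lit 304) (nat_lit 0) (XT.lf (nat_lit 0) (nat_lit 33184514679) (nat_lit 380) (nat_lit 3564395598) (nat_lit 76) (nat_lit 2253642226) (nat_lit 113) (nat_lit 5) (nat_lit 118) (nat_lit 5) (nat_lit 114) (nat_lit 5) (nat_lit 679) (nat_lit 573) (nat_lit 308)) (XT.lf (nat_lit 0) (nat_lit 4351595883) (nat_lit 304) (nat_lit 18487546630) (nat_lit 76) (nat_lit 16655144829) (nat_lit 109) (nat_lit 5) (nat_lit 113) (nat_lit 5) (nat_lit 110)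 (nat_lit 5) (nat_lit 680) (nat_lit 573) (nat_lit 307))) (XT.nd (nat_lit 78) (nat_lit 0) (nat_lit 0) (XT.lf (nat_lit 0) (nat_lit 6159324196) (nat_lit 304) (nat_lit 8548574556) (nat_lit 380) (nat_lit 25285965416) (nat_lit 105) (nat_lit 5) (nat_lit 109) (nat_lit 5) (nat_lit 110) (nat_lit 5) (nat_lit 681) (nat_lit 573) (nat_lit 306)) (XT.lf (nat_lit 0) (nat_lit 25432398888) (nat_lit 380) (nat_lit 8996191543) (nat_lit 76) (nat_lit 6071620710) (nat_lit 105) (nat_lit 5) (nat_lit 110) (nat_lit 5) (nat_lit 106) (nat_lit 5) (nat_lit 682) (nat_lit 573) (nat_lit 305))))) (XT.nd (nat_lit 72774) (nat_lit 0) (nat_lit 31084) (XT.nd (nat_lit 156) (nat_lit 0) (nat_lit 0) (XT.nd (nat_lit 78) (nat_lit 380) (nat_lit 0) (XT.lf (nat_lit 0) (nat_lit 16493709001) (nat_lit 228) (nat_lit 20038490940) (nat_lit 304) (nat_lit 4481268928) (nat_lit 102) (nat_lit 5) (nat_lit 105) (nat_lit 5) (nat_lit 106) (nat_lit 5) (nat_lit 683) (nat_lit 573) (nat_lit 304)) (XT.lf (nat_lit 0) (nat_lit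 1046960288) (nat_lit 304) (nat_lit 5251878523) (nat_lit 380) (nat_lit 35236039044) (nat_lit 97) (nat_lit 5) (nat_lit 101) (nat_lit 5) (nat_lit 102) (nat_lit 5) (nat_lit 684) (nat_lit 573) (nat_lit 303))) (XT.nd (nat_lit 72540) (nat_lit 0) (nat_lit 32832) (XT.lf (nat_lit 0) (nat_lit 17461183932) (nat_lit 380) (nat_lit 14705567766) (nat_lit 76) (nat_lit 9894838143) (nat_lit 97) (nat_lit 5) (nat_lit 102) (nat_lit 5) (nat_lit 98) (nat_lit 5) (nat_lit 685) (nat_lit 573) (nat_lit 302)) (XT.lf (nat_lit 0) (nat_lit 5690513487) (nat_lit 1748) (nat_lit 190837721) (nat_lit 1748) (nat_lit 190837721) (nat_lit 529) (nat_lit 3) (nat_lit 552) (nat_lit 3) (nat_lit 552) (nat_lit 5) (nat_lit 574) (nat_lit 574) (nat_lit 412)))) (XT.nd (nat_lit 156) (nat_lit 0) (nat_lit 76) (XT.nd (nat_lit 78) (nat_lit 1748) (nat_lit 0) (XT.lf (nat_lit 76) (nat_lit 5742240608) (nat_lit 0) (nat_lit 6251519199) (nat_lit 1748) (nat_lit 262068554) (nat_lit 530) (nat_lit 5) (nat_lit 529) (nat_lit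 3) (nat_lit 552) (nat_lit 5) (nat_lit 575) (nat_lit 574) (nat_lit 411)) (XT.lf (nat_lit 0) (nat_lit 236318347) (nat_lit 1748) (nat_lit 383703914) (nat_lit 1824) (nat_lit 11749646672) (nat_lit 506) (nat_lit 5) (nat_lit 529) (nat_lit 3) (nat_lit 530) (nat_lit 5) (nat_lit 576) (nat_lit 574) (nat_lit 410))) (XT.nd (nat_lit 78) (nat_lit 0) (nat_lit 0) (XT.lf (nat_lit 0) (nat_lit 801306976) (nat_lit 1748) (nat_lit 6580160128) (nat_lit 1824) (nat_lit 5103082080) (nat_lit 507) (nat_lit 5) (nat_lit 530) (nat_lit 5) (nat_lit 531) (nat_lit 5) (nat_lit 577) (nat_lit 574) (nat_lit 409)) (XT.lf (nat_lit 0) (nat_lit 1372533240) (nat_lit 1748) (nat_lit 288879342) (nat_lit 1824) (nat_lit 10940416067) (nat_lit 507) (nat_lit 5) (nat_lit 530) (nat_lit 5) (nat_lit 531) (nat_lit 5) (nat_lit 578) (nat_lit 574) (nat_lit 408))))))))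
noncomputable def xc165 : XT := (XT.nd (nat_lit 2418) (nat_lit 12464) (nat_lit 0) (XT.nd (nat_lit 1170) (nat_lit 6384) (nat_lit 0) (XT.nd (nat_lit 546) (nat_lit 1368) (nat_lit 0) (XT.nd (nat_lit 234) (nat_lit 0) (nat_lit 76) (XT.nd (nat_lit 78) (nat_lit 0) (nat_lit 0) (XT.lf (nat_lit 0) (nat_lit 2011323866) (nat_lit 1748) (nat_lit 6545088186) (nat_lit 1824) (nat_lit 4163919215) (nat_lit 508) (nat_lit 5) (nat_lit 531) (nat_lit 5) (nat_lit 532) (nat_lit 5) (nat_lit 579) (nat_lit 574) (nat_lit 407)) (XT.nd (nat_lit 78) (nat_lit 0) (nat_lit 76) (XT.lf (nat_lit 0) (nat_lit 2664532043) (nat_lit 1748) (nat_lit 86232273) (nat_lit 1824) (nat_lit 10090407137) (nat_lit 508) (nat_lit 5) (nat_lit 531) (nat_lit 5) (nat_lit 532) (nat_lit 5) (nat_lit 580) (nat_lit 574) (nat_lit 406)) (XT.lf (nat_lit 0) (nat_lit 3383347271) (nat_lit 1748) (nat_lit 6403062597) (nat_lit 1824) (nat_lit 3176968062) (nat_lit 509) (nat_lit 5) (nat_lit 532) (nat_lit 5) (nat_lit 533) (nat_lit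 5) (nat_lit 581) (nat_lit 574) (nat_lit 405)))) (XT.nd (nat_lit 156) (nat_lit 0) (nat_lit 76) (XT.nd (nat_lit 78) (nat_lit 0) (nat_lit 76) (XT.lf (nat_lit 76) (nat_lit 231064854) (nat_lit 0) (nat_lit 3894887767) (nat_lit 1824) (nat_lit 8961887981) (nat_lit 510) (nat_lit 5) (nat_lit 509) (nat_lit 5) (nat_lit 533) (nat_lit 5) (nat_lit 582) (nat_lit 574) (nat_lit 404)) (XT.lf (nat_lit 0) (nat_lit 4929701886) (nat_lit 1748) (nat_lit 6150163840) (nat_lit 1824) (nat_lit 2134001295) (nat_lit 510) (nat_lit 5) (nat_lit 533) (nat_lit 5) (nat_lit 534) (nat_lit 5) (nat_lit 583) (nat_lit 574) (nat_lit 403))) (XT.nd (nat_lit 78) (nat_lit 0) (nat_lit 76) (XT.lf (nat_lit 76) (nat_lit 666778658) (nat_lit 0) (nat_lit 5102391022) (nat_lit 1824) (nat_lit 7572851742) (nat_lit 511) (nat_lit 5) (nat_lit 510) (nat_lit 5) (nat_lit 534) (nat_lit 5) (nat_lit 584) (nat_lit 574) (nat_lit 402)) (XT.lf (nat_lit 0) (nat_lit 6663134582) (nat_lit 1748) (nat_lit 5782155828) (nat_lit 1824)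 (nat_lit 1026694666) (nat_lit 511) (nat_lit 5) (nat_lit 534) (nat_lit 5) (nat_lit 535) (nat_lit 5) (nat_lit 585) (nat_lit 574) (nat_lit 401))))) (XT.nd (nat_lit 312) (nat_lit 1596) (nat_lit 0) (XT.nd (nat_lit 156) (nat_lit 0) (nat_lit 76) (XT.nd (nat_lit 78) (nat_lit 0) (nat_lit 0) (XT.lf (nat_lit 76) (nat_lit 1224256270) (nat_lit 0) (nat_lit 6382369491) (nat_lit 1824) (nat_lit 5997289616) (nat_lit 512) (nat_lit 5) (nat_lit 511) (nat_lit 5) (nat_lit 535) (nat_lit 5) (nat_lit 586) (nat_lit 574) (nat_lit 400)) (XT.lf (nat_lit 76) (nat_lit 8442417759) (nat_lit 0) (nat_lit 155431956) (nat_lit 1824) (nat_lit 5140057616) (nat_lit 512) (nat_lit 5) (nat_lit 511) (nat_lit 5) (nat_lit 535) (nat_lit 5) (nat_lit 587) (nat_lit 574) (nat_lit 399))) (XT.nd (nat_lit 78) (nat_lit 0) (nat_lit 0) (XT.lf (nat_lit 76) (nat_lit 1908322096) (nat_lit 0) (nat_lit 7743471734) (nat_lit 1824) (nat_lit 4221927680) (nat_lit 513) (nat_lit 5) (nat_lit 512) (nat_lit 5) (nat_lit 536) (nat_lit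 5) (nat_lit 588) (nat_lit 574) (nat_lit 398)) (XT.lf (nat_lit 76) (nat_lit 9320153312) (nat_lit 0) (nat_lit 1433644908) (nat_lit 1824) (nat_lit 3257914421) (nat_lit 513) (nat_lit 5) (nat_lit 512) (nat_lit 5) (nat_lit 536) (nat_lit 5) (nat_lit 589) (nat_lit 574) (nat_lit 397)))) (XT.nd (nat_lit 156) (nat_lit 1748) (nat_lit 0) (XT.nd (nat_lit 78) (nat_lit 0) (nat_lit 0) (XT.lf (nat_lit 76) (nat_lit 2724138423) (nat_lit 0) (nat_lit 9194498719) (nat_lit 1824) (nat_lit 2233010851) (nat_lit 514) (nat_lit 5) (nat_lit 513) (nat_lit 5) (nat_lit 537) (nat_lit 5) (nat_lit 590) (nat_lit 574) (nat_lit 396)) (XT.lf (nat_lit 76) (nat_lit 10335302185) (nat_lit 0) (nat_lit 2803153591) (nat_lit 1824) (nat_lit 1155292902) (nat_lit 514) (nat_lit 5) (nat_lit 513) (nat_lit 5) (nat_lit 537) (nat_lit 5) (nat_lit 591) (nat_lit 574) (nat_lit 395))) (XT.nd (nat_lit 78) (nat_lit 1824) (nat_lit 0) (XT.lf (nat_lit 76) (nat_lit 3677212690) (nat_lit 0) (nat_lit 10744424428) (nat_lit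 1824) (nat_lit 16275211) (nat_lit 515) (nat_lit 5) (nat_lit 514) (nat_lit 5) (nat_lit 538) (nat_lit 5) (nat_lit 592) (nat_lit 574) (nat_lit 394)) (XT.lf (nat_lit 0) (nat_lit 1166840304) (nat_lit 1824) (nat_lit 3098322154) (nat_lit 1900) (nat_lit 10318921486) (nat_lit 490) (nat_lit 5) (nat_lit 514) (nat_lit 5) (nat_lit 515) (nat_lit 5) (nat_lit 593) (nat_lit 574) (nat_lit 393)))))) (XT.nd (nat_lit 624) (nat_lit 3648) (nat_lit 0) (XT.nd (nat_lit 312) (nat_lit 2812) (nat_lit 0) (XT.nd (nat_lit 156) (nat_lit 0) (nat_lit 76) (XT.nd (nat_lit 78) (nat_lit 0) (nat_lit 0) (XT.lf (nat_lit 0) (nat_lit 2411038963) (nat_lit 1824) (nat_lit 9975198223) (nat_lit 1900) (nat_lit 2346187141) (nat_lit 491) (nat_lit 5) (nat_lit 515) (nat_lit 5) (nat_lit 516) (nat_lit 5) (nat_lit 594) (nat_lit 574) (nat_lit 392)) (XT.lf (nat_lit 0) (nat_lit 3720651065) (nat_lit 1824) (nat_lit 2106779523) (nat_lit 1900) (nat_lit 9055490596) (nat_lit 491) (nat_lit 5) (nat_lit 515) (nat_lit 5)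 (nat_lit 516) (nat_lit 5) (nat_lit 595) (nat_lit 574) (nat_lit 391))) (XT.nd (nat_lit 78) (nat_lit 0) (nat_lit 0) (XT.lf (nat_lit 0) (nat_lit 5092743706) (nat_lit 1824) (nat_lit 9050938465) (nat_lit 1900) (nat_lit 892020293) (nat_lit 492) (nat_lit 5) (nat_lit 516) (nat_lit 5) (nat_lit 517) (nat_lit 5) (nat_lit 596) (nat_lit 574) (nat_lit 390)) (XT.lf (nat_lit 0) (nat_lit 6536757870) (nat_lit 1824) (nat_lit 970206155) (nat_lit 1900) (nat_lit 7683685998) (nat_lit 492) (nat_lit 5) (nat_lit 516) (nat_lit 5) (nat_lit 517) (nat_lit 5) (nat_lit 597) (nat_lit 574) (nat_lit 389)))) (XT.nd (nat_lit 156) (nat_lit 1140) (nat_lit 0) (XT.nd (nat_lit 78) (nat_lit 1748) (nat_lit 0) (XT.lf (nat_lit 76) (nat_lit 7361869513) (nat_lit 0) (nat_lit 687400734) (nat_lit 1900) (nat_lit 7298634170) (nat_lit 493) (nat_lit 5) (nat_lit 492) (nat_lit 5) (nat_lit 517) (nat_lit 5) (nat_lit 598) (nat_lit 574) (nat_lit 388)) (XT.lf (nat_lit 0) (nat_lit 322097554) (nat_lit 1824) (nat_lit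 9311224430) (nat_lit 1900) (nat_lit 5874156369) (nat_lit 469) (nat_lit 5) (nat_lit 493) (nat_lit 5) (nat_lit 494) (nat_lit 5) (nat_lit 599) (nat_lit 574) (nat_lit 387))) (XT.nd (nat_lit 78) (nat_lit 1140) (nat_lit 0) (XT.lf (nat_lit 0) (nat_lit 8893129864) (nat_lit 1824) (nat_lit 2406095416) (nat_lit 1900) (nat_lit 4370015310) (nat_lit 469) (nat_lit 5) (nat_lit 493) (nat_lit 5) (nat_lit 494) (nat_lit 5) (nat_lit 600) (nat_lit 574) (nat_lit 386)) (XT.lf (nat_lit 0) (nat_lit 1787754091) (nat_lit 1140) (nat_lit 11244627204) (nat_lit 1216) (nat_lit 2801178312) (nat_lit 454) (nat_lit 5) (nat_lit 469) (nat_lit 5) (nat_lit 470) (nat_lit 5) (nat_lit 601) (nat_lit 574) (nat_lit 385))))) (XT.nd (nat_lit 312) (nat_lit 1748) (nat_lit 0) (XT.nd (nat_lit 156) (nat_lit 912) (nat_lit 0) (XT.nd (nat_lit 78) (nat_lit 988) (nat_lit 0) (XT.lf (nat_lit 0) (nat_lit 10591717584) (nat_lit 1140) (nat_lit 4262111544) (nat_lit 1216) (nat_lit 1146263525) (nat_lit 454) (nat_lit 5)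 (nat_lit 469) (nat_lit 5) (nat_lit 470) (nat_lit 5) (nat_lit 602) (nat_lit 574) (nat_lit 384)) (XT.lf (nat_lit 0) (nat_lit 568129866) (nat_lit 988) (nat_lit 12751829807) (nat_lit 76) (nat_lit 2849256845) (nat_lit 441) (nat_lit 5) (nat_lit 454) (nat_lit 5) (nat_lit 442) (nat_lit 5) (nat_lit 603) (nat_lit 574) (nat_lit 383))) (XT.nd (nat_lit 78) (nat_lit 912) (nat_lit 0) (XT.lf (nat_lit 0) (nat_lit 2358773143) (nat_lit 988) (nat_lit 3891037789) (nat_lit 76) (nat_lit 10090614392) (nat_lit 441) (nat_lit 5) (nat_lit 454) (nat_lit 5) (nat_lit 442) (nat_lit 5) (nat_lit 604) (nat_lit 574) (nat_lit 382)) (XT.lf (nat_lit 0) (nat_lit 4218200644) (nat_lit 988) (nat_lit 11312542622) (nat_lit 76) (nat_lit 983655821) (nat_lit 429) (nat_lit 5) (nat_lit 442) (nat_lit 5) (nat_lit 430) (nat_lit 5) (nat_lit 605) (nat_lit 574) (nat_lit 381)))) (XT.nd (nat_lit 156) (nat_lit 912) (nat_lit 0) (XT.nd (nat_lit 78) (nat_lit 836) (nat_lit 0) (XT.lf (nat_lit 0) (nat_lit 6175275495)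 (nat_lit 988) (nat_lit 2210464982) (nat_lit 76) (nat_lit 8304902873) (nat_lit 429) (nat_lit 5) (nat_lit 442) (nat_lit 5) (nat_lit 430) (nat_lit 5) (nat_lit 606) (nat_lit 574) (nat_lit 380)) (XT.lf (nat_lit 0) (nat_lit 7160779785) (nat_lit 836) (nat_lit 1050131545) (nat_lit 912) (nat_lit 8658712978) (nat_lit 418) (nat_lit 5) (nat_lit 429) (nat_lit 5) (nat_lit 430) (nat_lit 5) (nat_lit 607) (nat_lit 574) (nat_lit 379))) (XT.nd (nat_lit 78) (nat_lit 912) (nat_lit 0) (XT.lf (nat_lit 0) (nat_lit 10336976907) (nat_lit 912) (nat_lit 351221557) (nat_lit 76) (nat_lit 6362992274) (nat_lit 418) (nat_lit 5) (nat_lit 430) (nat_lit 5) (nat_lit 419) (nat_lit 5) (nat_lit 608) (nat_lit 574) (nat_lit 378)) (XT.lf (nat_lit 0) (nat_lit 9301843780) (nat_lit 912) (nat_lit 3264228431) (nat_lit 988) (nat_lit 4669106309) (nat_lit 406) (nat_lit 5) (nat_lit 418) (nat_lit 5) (nat_lit 419) (nat_lit 5) (nat_lit 609) (nat_lit 574) (nat_lit 377))))))) (XT.nd (nat_lit 1170) (nat_lit 5548)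 (nat_lit 0) (XT.nd (nat_lit 546) (nat_lit 3648) (nat_lit 0) (XT.nd (nat_lit 234) (nat_lit 1520) (nat_lit 0) (XT.nd (nat_lit 78) (nat_lit 912) (nat_lit 0) (XT.lf (nat_lit 0) (nat_lit 1717630030) (nat_lit 836) (nat_lit 13156866716) (nat_lit 912) (nat_lit 2547654552) (nat_lit 395) (nat_lit 5) (nat_lit 406) (nat_lit 5) (nat_lit 407) (nat_lit 5) (nat_lit 610) (nat_lit 574) (nat_lit 376)) (XT.nd (nat_lit 78) (nat_lit 912) (nat_lit 0) (XT.lf (nat_lit 0) (nat_lit 11640450896) (nat_lit 836) (nat_lit 5656690129) (nat_lit 912) (nat_lit 314361664) (nat_lit 395) (nat_lit 5) (nat_lit 406) (nat_lit 5) (nat_lit 407) (nat_lit 5) (nat_lit 611) (nat_lit 574) (nat_lit 375)) (XT.lf (nat_lit 0) (nat_lit 1970373618) (nat_lit 912) (nat_lit 13827282229) (nat_lit 76) (nat_lit 2006079869) (nat_lit 383) (nat_lit 5) (nat_lit 395) (nat_lit 5) (nat_lit 384) (nat_lit 5) (nat_lit 612) (nat_lit 574) (nat_lit 374)))) (XT.nd (nat_lit 156) (nat_lit 760) (nat_lit 0) (XT.nd (nat_lit 78) (nat_lit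 760) (nat_lit 0) (XT.lf (nat_lit 0) (nat_lit 4367904344) (nat_lit 912) (nat_lit 3841808035) (nat_lit 76) (nat_lit 9788633437) (nat_lit 383) (nat_lit 5) (nat_lit 395) (nat_lit 5) (nat_lit 384) (nat_lit 5) (nat_lit 613) (nat_lit 574) (nat_lit 373)) (XT.lf (nat_lit 0) (nat_lit 6420885419) (nat_lit 760) (nat_lit 427826487) (nat_lit 836) (nat_lit 11347429858) (nat_lit 373) (nat_lit 5) (nat_lit 383) (nat_lit 5) (nat_lit 384) (nat_lit 5) (nat_lit 614) (nat_lit 574) (nat_lit 372))) (XT.nd (nat_lit 78) (nat_lit 760) (nat_lit 0) (XT.lf (nat_lit 0) (nat_lit 9447561502) (nat_lit 836) (nat_lit 1512177768) (nat_lit 76) (nat_lit 7436786008) (nat_lit 373) (nat_lit 5) (nat_lit 384) (nat_lit 5) (nat_lit 374) (nat_lit 5) (nat_lit 615) (nat_lit 574) (nat_lit 371)) (XT.lf (nat_lit 0) (nat_lit 9065578188) (nat_lit 760) (nat_lit 3088342799) (nat_lit 836) (nat_lit 6445884980) (nat_lit 363) (nat_lit 5) (nat_lit 373) (nat_lit 5) (nat_lit 374) (nat_lit 5) (nat_lit 616) (nat_lit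 574) (nat_lit 370))))) (XT.nd (nat_lit 312) (nat_lit 2052) (nat_lit 0) (XT.nd (nat_lit 156) (nat_lit 836) (nat_lit 0) (XT.nd (nat_lit 78) (nat_lit 0) (nat_lit 0) (XT.lf (nat_lit 0) (nat_lit 1043254013) (nat_lit 760) (nat_lit 13914133128) (nat_lit 836) (nat_lit 3848905699) (nat_lit 353) (nat_lit 5) (nat_lit 363) (nat_lit 5) (nat_lit 364) (nat_lit 5) (nat_lit 617) (nat_lit 574) (nat_lit 369)) (XT.lf (nat_lit 0) (nat_lit 11934121955) (nat_lit 760) (nat_lit 5961088750) (nat_lit 836) (nat_lit 1120133141) (nat_lit 353) (nat_lit 5) (nat_lit 363) (nat_lit 5) (nat_lit 364) (nat_lit 5) (nat_lit 618) (nat_lit 574) (nat_lit 368))) (XT.nd (nat_lit 78) (nat_lit 0) (nat_lit 0) (XT.lf (nat_lit 0) (nat_lit 1674647768) (nat_lit 836) (nat_lit 15394913167) (nat_lit 76) (nat_lit 2158134189) (nat_lit 342) (nat_lit 5) (nat_lit 353) (nat_lit 5) (nat_lit 343) (nat_lit 5) (nat_lit 619) (nat_lit 574) (nat_lit 367)) (XT.lf (nat_lit 0) (nat_lit 4591788431) (nat_lit 836) (nat_lit 4436194618)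 (nat_lit 76) (nat_lit 10414533188) (nat_lit 342) (nat_lit 5) (nat_lit 353) (nat_lit 5) (nat_lit 343) (nat_lit 5) (nat_lit 620) (nat_lit 574) (nat_lit 366)))) (XT.nd (nat_lit 156) (nat_lit 1368) (nat_lit 0) (XT.nd (nat_lit 78) (nat_lit 0) (nat_lit 0) (XT.lf (nat_lit 0) (nat_lit 6824640897) (nat_lit 684) (nat_lit 781193919) (nat_lit 760) (nat_lit 12055027843) (nat_lit 333) (nat_lit 5) (nat_lit 342) (nat_lit 5) (nat_lit 343) (nat_lit 5) (nat_lit 621) (nat_lit 574) (nat_lit 365)) (XT.lf (nat_lit 0) (nat_lit 10753988634) (nat_lit 760) (nat_lit 1568522146) (nat_lit 76) (nat_lit 7559588841) (nat_lit 333) (nat_lit 5) (nat_lit 343) (nat_lit 5) (nat_lit 334) (nat_lit 5) (nat_lit 622) (nat_lit 574) (nat_lit 364))) (XT.nd (nat_lit 78) (nat_lit 684) (nat_lit 0) (XT.lf (nat_lit 0) (nat_lit 10044595835) (nat_lit 684) (nat_lit 3985328448) (nat_lit 760) (nat_lit 6076540804) (nat_lit 324) (nat_lit 5) (nat_lit 333) (nat_lit 5) (nat_lit 334) (nat_lit 5) (nat_lit 623) (nat_lit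 574) (nat_lit 363)) (XT.lf (nat_lit 0) (nat_lit 1560630969) (nat_lit 684) (nat_lit 15855303612) (nat_lit 760) (nat_lit 2918492297) (nat_lit 315) (nat_lit 5) (nat_lit 324) (nat_lit 5) (nat_lit 325) (nat_lit 5) (nat_lit 624) (nat_lit 574) (nat_lit 362)))))) (XT.nd (nat_lit 624) (nat_lit 2888) (nat_lit 0) (XT.nd (nat_lit 312) (nat_lit 1292) (nat_lit 0) (XT.nd (nat_lit 156) (nat_lit 608) (nat_lit 0) (XT.nd (nat_lit 78) (nat_lit 684) (nat_lit 0) (XT.lf (nat_lit 0) (nat_lit 387627261) (nat_lit 760) (nat_lit 7049020423) (nat_lit 76) (nat_lit 13128483439) (nat_lit 314) (nat_lit 5) (nat_lit 324) (nat_lit 5) (nat_lit 315) (nat_lit 5) (nat_lit 625) (nat_lit 574) (nat_lit 361)) (XT.lf (nat_lit 0) (nat_lit 3755391765) (nat_lit 760) (nat_lit 15857956528) (nat_lit 76) (nat_lit 1186023440) (nat_lit 305) (nat_lit 5) (nat_lit 315) (nat_lit 5) (nat_lit 306) (nat_lit 5) (nat_lit 626) (nat_lit 574) (nat_lit 360))) (XT.nd (nat_lit 78) (nat_lit 608) (nat_lit 0) (XT.lf (nat_lit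 0) (nat_lit 7282060488) (nat_lit 760) (nat_lit 3826220108) (nat_lit 76) (nat_lit 9928185707) (nat_lit 305) (nat_lit 5) (nat_lit 315) (nat_lit 5) (nat_lit 306) (nat_lit 5) (nat_lit 627) (nat_lit 574) (nat_lit 359)) (XT.lf (nat_lit 0) (nat_lit 8551921524) (nat_lit 608) (nat_lit 2377653755) (nat_lit 684) (nat_lit 10347721352) (nat_lit 297) (nat_lit 5) (nat_lit 305) (nat_lit 5) (nat_lit 306) (nat_lit 5) (nat_lit 628) (nat_lit 574) (nat_lit 358)))) (XT.nd (nat_lit 156) (nat_lit 684) (nat_lit 0) (XT.nd (nat_lit 78) (nat_lit 608) (nat_lit 0) (XT.lf (nat_lit 0) (nat_lit 14713108939) (nat_lit 684) (nat_lit 341932938) (nat_lit 76) (nat_lit 6466640441) (nat_lit 297) (nat_lit 5) (nat_lit 306) (nat_lit 5) (nat_lit 298) (nat_lit 5) (nat_lit 629) (nat_lit 574) (nat_lit 357)) (XT.lf (nat_lit 0) (nat_lit 12430139020) (nat_lit 608) (nat_lit 6233567329) (nat_lit 684) (nat_lit 3105421626) (nat_lit 289) (nat_lit 5) (nat_lit 297) (nat_lit 5) (nat_lit 298) (nat_lit 5) (nat_lit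 630) (nat_lit 574) (nat_lit 356))) (XT.nd (nat_lit 78) (nat_lit 0) (nat_lit 0) (XT.lf (nat_lit 0) (nat_lit 700959173) (nat_lit 684) (nat_lit 18563495587) (nat_lit 76) (nat_lit 2756221130) (nat_lit 280) (nat_lit 5) (nat_lit 289) (nat_lit 5) (nat_lit 281) (nat_lit 5) (nat_lit 631) (nat_lit 574) (nat_lit 355)) (XT.lf (nat_lit 0) (nat_lit 4641308016) (nat_lit 684) (nat_lit 5708789837) (nat_lit 76) (nat_lit 11924758044) (nat_lit 280) (nat_lit 5) (nat_lit 289) (nat_lit 5) (nat_lit 281) (nat_lit 5) (nat_lit 632) (nat_lit 574) (nat_lit 354))))) (XT.nd (nat_lit 312) (nat_lit 1140) (nat_lit 0) (XT.nd (nat_lit 156) (nat_lit 1140) (nat_lit 0) (XT.nd (nat_lit 78) (nat_lit 0) (nat_lit 0) (XT.lf (nat_lit 0) (nat_lit 7495042955) (nat_lit 608) (nat_lit 1209198073) (nat_lit 684) (nat_lit 13829003043) (nat_lit 272) (nat_lit 5) (nat_lit 280) (nat_lit 5) (nat_lit 281) (nat_lit 5) (nat_lit 633) (nat_lit 574) (nat_lit 353)) (XT.lf (nat_lit 0) (nat_lit 12934840962) (nat_lit 684)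 (nat_lit 1814948165) (nat_lit 76) (nat_lit 8045282824) (nat_lit 272) (nat_lit 5) (nat_lit 281) (nat_lit 5) (nat_lit 273) (nat_lit 5) (nat_lit 634) (nat_lit 574) (nat_lit 352))) (XT.nd (nat_lit 78) (nat_lit 608) (nat_lit 0) (XT.lf (nat_lit 0) (nat_lit 11813509643) (nat_lit 532) (nat_lit 5516507942) (nat_lit 608) (nat_lit 5730519614) (nat_lit 265) (nat_lit 5) (nat_lit 272) (nat_lit 5) (nat_lit 273) (nat_lit 5) (nat_lit 635) (nat_lit 574) (nat_lit 351)) (XT.lf (nat_lit 0) (nat_lit 2408008287) (nat_lit 608) (nat_lit 19453613756) (nat_lit 684) (nat_lit 1468719327) (nat_lit 257) (nat_lit 5) (nat_lit 265) (nat_lit 5) (nat_lit 266) (nat_lit 5) (nat_lit 636) (nat_lit 574) (nat_lit 350)))) (XT.nd (nat_lit 156) (nat_lit 532) (nat_lit 0) (XT.nd (nat_lit 78) (nat_lit 532) (nat_lit 0) (XT.lf (nat_lit 0) (nat_lit 2948394143) (nat_lit 684) (nat_lit 7177405436) (nat_lit 76) (nat_lit 13477211848) (nat_lit 256) (nat_lit 5) (nat_lit 265) (nat_lit 5) (nat_lit 257) (nat_lit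 5) (nat_lit 637) (nat_lit 574) (nat_lit 349)) (XT.lf (nat_lit 0) (nat_lit 6917284581) (nat_lit 532) (nat_lit 557241248) (nat_lit 608) (nat_lit 16405608148) (nat_lit 249) (nat_lit 5) (nat_lit 256) (nat_lit 5) (nat_lit 257) (nat_lit 5) (nat_lit 638) (nat_lit 574) (nat_lit 348))) (XT.nd (nat_lit 78) (nat_lit 532) (nat_lit 0) (XT.lf (nat_lit 0) (nat_lit 12194865688) (nat_lit 608) (nat_lit 2836916020) (nat_lit 76) (nat_lit 9128943654) (nat_lit 249) (nat_lit 5) (nat_lit 257) (nat_lit 5) (nat_lit 250) (nat_lit 5) (nat_lit 639) (nat_lit 574) (nat_lit 347)) (XT.lf (nat_lit 0) (nat_lit 11715445445) (nat_lit 532) (nat_lit 5369463292) (nat_lit 608) (nat_lit 7360514003) (nat_lit 242) (nat_lit 5) (nat_lit 249) (nat_lit 5) (nat_lit 250) (nat_lit 5) (nat_lit 640) (nat_lit 574) (nat_lit 346))))))))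
noncomputable def xc166 : XT := (XT.nd (nat_lit 2418) (nat_lit 2888) (nat_lit 0) (XT.nd (nat_lit 1170) (nat_lit 3876) (nat_lit 0) (XT.nd (nat_lit 546) (nat_lit 2204) (nat_lit 0) (XT.nd (nat_lit 234) (nat_lit 988) (nat_lit 0) (XT.nd (nat_lit 78) (nat_lit 608) (nat_lit 0) (XT.lf (nat_lit 0) (nat_lit 1850808318) (nat_lit 456) (nat_lit 20277830642) (nat_lit 532) (nat_lit 2606057472) (nat_lit 236) (nat_lit 5) (nat_lit 242) (nat_lit 5) (nat_lit 243) (nat_lit 5) (nat_lit 641) (nat_lit 574) (nat_lit 345)) (XT.nd (nat_lit 78) (nat_lit 532) (nat_lit 0) (XT.lf (nat_lit 0) (nat_lit 2331212341) (nat_lit 532) (nat_lit 8189077603) (nat_lit 76) (nat_lit 14506831458) (nat_lit 235) (nat_lit 5) (nat_lit 242) (nat_lit 5) (nat_lit 236) (nat_lit 5) (nat_lit 642) (nat_lit 574) (nat_lit 344)) (XT.lf (nat_lit 0) (nat_lit 6866437732) (nat_lit 532) (nat_lit 506193082) (nat_lit 608) (nat_lit 17951613657) (nat_lit 228) (nat_lit 5) (nat_lit 235) (nat_lit 5) (nat_lit 236) (nat_lit 5)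 (nat_lit 643) (nat_lit 574) (nat_lit 343)))) (XT.nd (nat_lit 156) (nat_lit 532) (nat_lit 0) (XT.nd (nat_lit 78) (nat_lit 456) (nat_lit 0) (XT.lf (nat_lit 0) (nat_lit 12628945979) (nat_lit 608) (nat_lit 3361560858) (nat_lit 76) (nat_lit 9634521882) (nat_lit 228) (nat_lit 5) (nat_lit 236) (nat_lit 5) (nat_lit 229) (nat_lit 5) (nat_lit 644) (nat_lit 574) (nat_lit 342)) (XT.lf (nat_lit 0) (nat_lit 12187190465) (nat_lit 456) (nat_lit 5881479904) (nat_lit 532) (nat_lit 7861592708) (nat_lit 222) (nat_lit 5) (nat_lit 228) (nat_lit 5) (nat_lit 229) (nat_lit 5) (nat_lit 645) (nat_lit 574) (nat_lit 341))) (XT.nd (nat_lit 78) (nat_lit 76) (nat_lit 0) (XT.lf (nat_lit 0) (nat_lit 1840625140) (nat_lit 456) (nat_lit 21835819035) (nat_lit 532) (nat_lit 2563972929) (nat_lit 216) (nat_lit 5) (nat_lit 222) (nat_lit 5) (nat_lit 223) (nat_lit 5) (nat_lit 646) (nat_lit 574) (nat_lit 340)) (XT.lf (nat_lit 0) (nat_lit 2929993975) (nat_lit 532) (nat_lit 8696593138) (nat_lit 76)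 (nat_lit 14927265714) (nat_lit 215) (nat_lit 5) (nat_lit 222) (nat_lit 5) (nat_lit 216) (nat_lit 5) (nat_lit 647) (nat_lit 574) (nat_lit 339))))) (XT.nd (nat_lit 312) (nat_lit 912) (nat_lit 0) (XT.nd (nat_lit 156) (nat_lit 836) (nat_lit 0) (XT.nd (nat_lit 78) (nat_lit 0) (nat_lit 0) (XT.lf (nat_lit 0) (nat_lit 7394837375) (nat_lit 456) (nat_lit 1148649236) (nat_lit 532) (nat_lit 18328852213) (nat_lit 209) (nat_lit 5) (nat_lit 215) (nat_lit 5) (nat_lit 216) (nat_lit 5) (nat_lit 648) (nat_lit 574) (nat_lit 338)) (XT.lf (nat_lit 0) (nat_lit 14385891098) (nat_lit 532) (nat_lit 3338232861) (nat_lit 76) (nat_lit 9470737818) (nat_lit 209) (nat_lit 5) (nat_lit 216) (nat_lit 5) (nat_lit 210) (nat_lit 5) (nat_lit 649) (nat_lit 574) (nat_lit 337))) (XT.nd (nat_lit 78) (nat_lit 380) (nat_lit 0) (XT.lf (nat_lit 0) (nat_lit 13284692741) (nat_lit 456) (nat_lit 7150354325) (nat_lit 532) (nat_lit 7086990129) (nat_lit 203) (nat_lit 5) (nat_lit 209) (nat_lit 5) (nat_lit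 210) (nat_lit 5) (nat_lit 650) (nat_lit 574) (nat_lit 336)) (XT.lf (nat_lit 0) (nat_lit 2432390736) (nat_lit 380) (nat_lit 24230810089) (nat_lit 456) (nat_lit 1191395074) (nat_lit 198) (nat_lit 5) (nat_lit 203) (nat_lit 5) (nat_lit 204) (nat_lit 5) (nat_lit 651) (nat_lit 574) (nat_lit 335)))) (XT.nd (nat_lit 156) (nat_lit 380) (nat_lit 0) (XT.nd (nat_lit 78) (nat_lit 456) (nat_lit 0) (XT.lf (nat_lit 0) (nat_lit 4898481259) (nat_lit 456) (nat_lit 8648473261) (nat_lit 76) (nat_lit 14643432915) (nat_lit 197) (nat_lit 5) (nat_lit 203) (nat_lit 5) (nat_lit 198) (nat_lit 5) (nat_lit 652) (nat_lit 574) (nat_lit 334)) (XT.lf (nat_lit 0) (nat_lit 8559419747) (nat_lit 456) (nat_lit 2586533789) (nat_lit 532) (nat_lit 17385748808) (nat_lit 191) (nat_lit 5) (nat_lit 197) (nat_lit 5) (nat_lit 198) (nat_lit 5) (nat_lit 653) (nat_lit 574) (nat_lit 333))) (XT.nd (nat_lit 78) (nat_lit 380) (nat_lit 0) (XT.lf (nat_lit 0) (nat_lit 17628776946) (nat_lit 532) (nat_lit 2711864804)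 (nat_lit 76) (nat_lit 8536993834) (nat_lit 191) (nat_lit 5) (nat_lit 198) (nat_lit 5) (nat_lit 192) (nat_lit 5) (nat_lit 654) (nat_lit 574) (nat_lit 332)) (XT.lf (nat_lit 0) (nat_lit 15068663647) (nat_lit 380) (nat_lit 9283822475) (nat_lit 456) (nat_lit 4875776846) (nat_lit 186) (nat_lit 5) (nat_lit 191) (nat_lit 5) (nat_lit 192) (nat_lit 5) (nat_lit 655) (nat_lit 574) (nat_lit 331)))))) (XT.nd (nat_lit 624) (nat_lit 1824) (nat_lit 0) (XT.nd (nat_lit 312) (nat_lit 1216) (nat_lit 0) (XT.nd (nat_lit 156) (nat_lit 380) (nat_lit 0) (XT.nd (nat_lit 78) (nat_lit 0) (nat_lit 0) (XT.lf (nat_lit 0) (nat_lit 1655283243) (nat_lit 456) (nat_lit 25910090715) (nat_lit 76) (nat_lit 2019281508) (nat_lit 180) (nat_lit 5) (nat_lit 186) (nat_lit 5) (nat_lit 181) (nat_lit 5) (nat_lit 656) (nat_lit 574) (nat_lit 330)) (XT.lf (nat_lit 0) (nat_lit 8405170156) (nat_lit 456) (nat_lit 7988961620) (nat_lit 76) (nat_lit 13550329678) (nat_lit 180) (nat_lit 5) (nat_lit 186) (nat_lit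 5) (nat_lit 181) (nat_lit 5) (nat_lit 657) (nat_lit 574) (nat_lit 329))) (XT.nd (nat_lit 78) (nat_lit 0) (nat_lit 0) (XT.lf (nat_lit 0) (nat_lit 10421749716) (nat_lit 380) (nat_lit 4932343877) (nat_lit 456) (nat_lit 14956089251) (nat_lit 175) (nat_lit 5) (nat_lit 180) (nat_lit 5) (nat_lit 181) (nat_lit 5) (nat_lit 658) (nat_lit 574) (nat_lit 328)) (XT.lf (nat_lit 0) (nat_lit 22536239541) (nat_lit 456) (nat_lit 1422962254) (nat_lit 76) (nat_lit 6722132047) (nat_lit 175) (nat_lit 5) (nat_lit 181) (nat_lit 5) (nat_lit 176) (nat_lit 5) (nat_lit 659) (nat_lit 574) (nat_lit 327)))) (XT.nd (nat_lit 156) (nat_lit 380) (nat_lit 0) (XT.nd (nat_lit 78) (nat_lit 456) (nat_lit 0) (XT.lf (nat_lit 0) (nat_lit 17604603120) (nat_lit 380) (nat_lit 12400858259) (nat_lit 456) (nat_lit 1051577878) (nat_lit 170) (nat_lit 5) (nat_lit 175) (nat_lit 5) (nat_lit 176) (nat_lit 5) (nat_lit 660) (nat_lit 574) (nat_lit 326)) (XT.lf (nat_lit 0) (nat_lit 5619986124) (nat_lit 380) (nat_lit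 525300369) (nat_lit 456) (nat_lit 25293317769) (nat_lit 164) (nat_lit 5) (nat_lit 169) (nat_lit 5) (nat_lit 170) (nat_lit 5) (nat_lit 661) (nat_lit 574) (nat_lit 325))) (XT.nd (nat_lit 78) (nat_lit 380) (nat_lit 0) (XT.lf (nat_lit 0) (nat_lit 13634626975) (nat_lit 456) (nat_lit 6658054824) (nat_lit 76) (nat_lit 11531727415) (nat_lit 164) (nat_lit 5) (nat_lit 170) (nat_lit 5) (nat_lit 165) (nat_lit 5) (nat_lit 662) (nat_lit 574) (nat_lit 324)) (XT.lf (nat_lit 0) (nat_lit 13048004682) (nat_lit 380) (nat_lit 8310513365) (nat_lit 456) (nat_lit 10857716996) (nat_lit 159) (nat_lit 5) (nat_lit 164) (nat_lit 5) (nat_lit 165) (nat_lit 5) (nat_lit 663) (nat_lit 574) (nat_lit 323))))) (XT.nd (nat_lit 312) (nat_lit 1064) (nat_lit 0) (XT.nd (nat_lit 156) (nat_lit 380) (nat_lit 0) (XT.nd (nat_lit 78) (nat_lit 76) (nat_lit 0) (XT.lf (nat_lit 0) (nat_lit 600231362) (nat_lit 304) (nat_lit 28707511197) (nat_lit 380) (nat_lit 3306737770) (nat_lit 155) (nat_lit 5) (nat_lit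 159) (nat_lit 5) (nat_lit 160) (nat_lit 5) (nat_lit 664) (nat_lit 574) (nat_lit 322)) (XT.lf (nat_lit 0) (nat_lit 4518732242) (nat_lit 380) (nat_lit 12084043767) (nat_lit 76) (nat_lit 16413721505) (nat_lit 154) (nat_lit 5) (nat_lit 159) (nat_lit 5) (nat_lit 155) (nat_lit 5) (nat_lit 665) (nat_lit 574) (nat_lit 321))) (XT.nd (nat_lit 78) (nat_lit 0) (nat_lit 0) (XT.lf (nat_lit 0) (nat_lit 8326786419) (nat_lit 380) (nat_lit 4180417690) (nat_lit 456) (nat_lit 20917898441) (nat_lit 149) (nat_lit 5) (nat_lit 154) (nat_lit 5) (nat_lit 155) (nat_lit 5) (nat_lit 666) (nat_lit 574) (nat_lit 320)) (XT.lf (nat_lit 0) (nat_lit 20788881850) (nat_lit 456) (nat_lit 4591590696) (nat_lit 76) (nat_lit 8458738461) (nat_lit 149) (nat_lit 5) (nat_lit 155) (nat_lit 5) (nat_lit 150) (nat_lit 5) (nat_lit 667) (nat_lit 574) (nat_lit 319)))) (XT.nd (nat_lit 156) (nat_lit 304) (nat_lit 0) (XT.nd (nat_lit 78) (nat_lit 456) (nat_lit 0) (XT.lf (nat_lit 0) (nat_lit 16508899422) (nat_lit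 304) (nat_lit 12858914244) (nat_lit 380) (nat_lit 4891155603) (nat_lit 145) (nat_lit 5) (nat_lit 149) (nat_lit 5) (nat_lit 150) (nat_lit 5) (nat_lit 668) (nat_lit 574) (nat_lit 318)) (XT.lf (nat_lit 0) (nat_lit 3424351365) (nat_lit 380) (nat_lit 11856164) (nat_lit 456) (nat_lit 31249469521) (nat_lit 139) (nat_lit 5) (nat_lit 144) (nat_lit 5) (nat_lit 145) (nat_lit 5) (nat_lit 669) (nat_lit 574) (nat_lit 317))) (XT.nd (nat_lit 78) (nat_lit 304) (nat_lit 0) (XT.lf (nat_lit 0) (nat_lit 12066365522) (nat_lit 456) (nat_lit 9979080619) (nat_lit 76) (nat_lit 13070791479) (nat_lit 139) (nat_lit 5) (nat_lit 145) (nat_lit 5) (nat_lit 140) (nat_lit 5) (nat_lit 670) (nat_lit 574) (nat_lit 316)) (XT.lf (nat_lit 0) (nat_lit 11879405599) (nat_lit 304) (nat_lit 9063766746) (nat_lit 380) (nat_lit 14610756185) (nat_lit 135) (nat_lit 5) (nat_lit 139) (nat_lit 5) (nat_lit 140) (nat_lit 5) (nat_lit 671) (nat_lit 574) (nat_lit 315))))))) (XT.nd (nat_lit 73710) (nat_lit 0) (nat_lit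 31084) (XT.nd (nat_lit 546) (nat_lit 1520) (nat_lit 0) (XT.nd (nat_lit 234) (nat_lit 684) (nat_lit 0) (XT.nd (nat_lit 78) (nat_lit 684) (nat_lit 0) (XT.lf (nat_lit 0) (nat_lit 30088901455) (nat_lit 380) (nat_lit 1721412264) (nat_lit 76) (nat_lit 4188231860) (nat_lit 135) (nat_lit 5) (nat_lit 140) (nat_lit 5) (nat_lit 136) (nat_lit 5) (nat_lit 672) (nat_lit 574) (nat_lit 314)) (XT.nd (nat_lit 78) (nat_lit 304) (nat_lit 0) (XT.lf (nat_lit 0) (nat_lit 3120376857) (nat_lit 380) (nat_lit 15589200413) (nat_lit 76) (nat_lit 17738217069) (nat_lit 130) (nat_lit 5) (nat_lit 135) (nat_lit 5) (nat_lit 131) (nat_lit 5) (nat_lit 673) (nat_lit 574) (nat_lit 313)) (XT.lf (nat_lit 0) (nat_lit 7056016133) (nat_lit 304) (nat_lit 5250290121) (nat_lit 380) (nat_lit 24597851844) (nat_lit 126) (nat_lit 5) (nat_lit 130) (nat_lit 5) (nat_lit 131) (nat_lit 5) (nat_lit 674) (nat_lit 574) (nat_lit 312)))) (XT.nd (nat_lit 156) (nat_lit 380) (nat_lit 0) (XT.nd (nat_lit 78) (nat_lit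 304) (nat_lit 0) (XT.lf (nat_lit 0) (nat_lit 21833243481) (nat_lit 380) (nat_lit 7062906936) (nat_lit 76) (nat_lit 8470352970) (nat_lit 126) (nat_lit 5) (nat_lit 131) (nat_lit 5) (nat_lit 127) (nat_lit 5) (nat_lit 675) (nat_lit 574) (nat_lit 311)) (XT.lf (nat_lit 0) (nat_lit 16352767456) (nat_lit 304) (nat_lit 15335893891) (nat_lit 380) (nat_lit 6146675437) (nat_lit 122) (nat_lit 5) (nat_lit 126) (nat_lit 5) (nat_lit 127) (nat_lit 5) (nat_lit 676) (nat_lit 574) (nat_lit 310))) (XT.nd (nat_lit 78) (nat_lit 0) (nat_lit 0) (XT.lf (nat_lit 0) (nat_lit 2018833072) (nat_lit 304) (nat_lit 1421676669) (nat_lit 380) (nat_lit 34871435591) (nat_lit 117) (nat_lit 5) (nat_lit 121) (nat_lit 5) (nat_lit 122) (nat_lit 5) (nat_lit 677) (nat_lit 574) (nat_lit 309)) (XT.lf (nat_lit 0) (nat_lit 13362261962) (nat_lit 380) (nat_lit 12643301020) (nat_lit 76) (nat_lit 12787207968) (nat_lit 117) (nat_lit 5) (nat_lit 122) (nat_lit 5) (nat_lit 118) (nat_lit 5) (nat_lit 678) (nat_lit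 574) (nat_lit 308))))) (XT.nd (nat_lit 312) (nat_lit 608) (nat_lit 0) (XT.nd (nat_lit 156) (nat_lit 608) (nat_lit 0) (XT.nd (nat_lit 78) (nat_lit 0) (nat_lit 0) (XT.lf (nat_lit 0) (nat_lit 11617569911) (nat_lit 304) (nat_lit 11946801479) (nat_lit 380) (nat_lit 15717203285) (nat_lit 113) (nat_lit 5) (nat_lit 117) (nat_lit 5) (nat_lit 118) (nat_lit 5) (nat_lit 679) (nat_lit 574) (nat_lit 307)) (XT.lf (nat_lit 0) (nat_lit 34068557065) (nat_lit 380) (nat_lit 3264416822) (nat_lit 76) (nat_lit 2445219940) (nat_lit 113) (nat_lit 5) (nat_lit 118) (nat_lit 5) (nat_lit 114) (nat_lit 5) (nat_lit 680) (nat_lit 574) (nat_lit 306))) (XT.nd (nat_lit 78) (nat_lit 304) (nat_lit 0) (XT.lf (nat_lit 0) (nat_lit 4658503042) (nat_lit 304) (nat_lit 18485548815) (nat_lit 76) (nat_lit 17135721150) (nat_lit 109) (nat_lit 5) (nat_lit 113) (nat_lit 5) (nat_lit 110) (nat_lit 5) (nat_lit 681) (nat_lit 574) (nat_lit 305)) (XT.lf (nat_lit 0) (nat_lit 6651813713) (nat_lit 304) (nat_lit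 8568204737) (nat_lit 380) (nat_lit 25569361240) (nat_lit 105) (nat_lit 5) (nat_lit 109) (nat_lit 5) (nat_lit 110) (nat_lit 5) (nat_lit 682) (nat_lit 574) (nat_lit 304)))) (XT.nd (nat_lit 156) (nat_lit 380) (nat_lit 0) (XT.nd (nat_lit 78) (nat_lit 228) (nat_lit 0) (XT.lf (nat_lit 0) (nat_lit 26155698170) (nat_lit 380) (nat_lit 8810740681) (nat_lit 76) (nat_lit 6339481009) (nat_lit 105) (nat_lit 5) (nat_lit 110) (nat_lit 5) (nat_lit 106) (nat_lit 5) (nat_lit 683) (nat_lit 574) (nat_lit 303)) (XT.lf (nat_lit 0) (nat_lit 17186554094) (nat_lit 228) (nat_lit 20289088949) (nat_lit 304) (nat_lit 4353836792) (nat_lit 102) (nat_lit 5) (nat_lit 105) (nat_lit 5) (nat_lit 106) (nat_lit 5) (nat_lit 684) (nat_lit 574) (nat_lit 302))) (XT.nd (nat_lit 72618) (nat_lit 0) (nat_lit 31084) (XT.lf (nat_lit 0) (nat_lit 1431312826) (nat_lit 304) (nat_lit 5205872837) (nat_lit 380) (nat_lit 35724140011) (nat_lit 97) (nat_lit 5) (nat_lit 101) (nat_lit 5) (nat_lit 102) (nat_lit 5)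 (nat_lit 685) (nat_lit 574) (nat_lit 301)) (XT.lf (nat_lit 0) (nat_lit 39002450) (nat_lit 0) (nat_lit 39002450) (nat_lit 1748) (nat_lit 6106419760) (nat_lit 506) (nat_lit 5) (nat_lit 506) (nat_lit 3) (nat_lit 529) (nat_lit 3) (nat_lit 575) (nat_lit 575) (nat_lit 410)))))) (XT.nd (nat_lit 624) (nat_lit 0) (nat_lit 304) (XT.nd (nat_lit 312) (nat_lit 0) (nat_lit 152) (XT.nd (nat_lit 156) (nat_lit 0) (nat_lit 76) (XT.nd (nat_lit 78) (nat_lit 0) (nat_lit 0) (XT.lf (nat_lit 0) (nat_lit 644517202) (nat_lit 1748) (nat_lit 6165271917) (nat_lit 1824) (nat_lit 5672995777) (nat_lit 506) (nat_lit 5) (nat_lit 529) (nat_lit 3) (nat_lit 530) (nat_lit 5) (nat_lit 576) (nat_lit 575) (nat_lit 409)) (XT.lf (nat_lit 76) (nat_lit 77135653) (nat_lit 0) (nat_lit 1054920965) (nat_lit 1824) (nat_lit 11467157695) (nat_lit 507) (nat_lit 5) (nat_lit 506) (nat_lit 5) (nat_lit 530) (nat_lit 5) (nat_lit 577) (nat_lit 575) (nat_lit 408))) (XT.nd (nat_lit 78) (nat_lit 0) (nat_lit 0) (XT.lf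 (nat_lit 0) (nat_lit 1690725932) (nat_lit 1748) (nat_lit 6227115844) (nat_lit 1824) (nat_lit 4798903318) (nat_lit 507) (nat_lit 5) (nat_lit 530) (nat_lit 5) (nat_lit 531) (nat_lit 5) (nat_lit 578) (nat_lit 575) (nat_lit 407)) (XT.lf (nat_lit 76) (nat_lit 182886251) (nat_lit 0) (nat_lit 2074552539) (nat_lit 1824) (nat_lit 10579250651) (nat_lit 508) (nat_lit 5) (nat_lit 507) (nat_lit 5) (nat_lit 531) (nat_lit 5) (nat_lit 579) (nat_lit 575) (nat_lit 406)))) (XT.nd (nat_lit 156) (nat_lit 0) (nat_lit 76) (XT.nd (nat_lit 78) (nat_lit 0) (nat_lit 0) (XT.lf (nat_lit 0) (nat_lit 2891687224) (nat_lit 1748) (nat_lit 6184688607) (nat_lit 1824) (nat_lit 3881533163) (nat_lit 508) (nat_lit 5) (nat_lit 531) (nat_lit 5) (nat_lit 532) (nat_lit 5) (nat_lit 580) (nat_lit 575) (nat_lit 405)) (XT.lf (nat_lit 76) (nat_lit 398943276) (nat_lit 0) (nat_lit 3145133220) (nat_lit 1824) (nat_lit 9537367664) (nat_lit 509) (nat_lit 5) (nat_lit 508) (nat_lit 5) (nat_lit 532) (nat_lit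 5) (nat_lit 581) (nat_lit 575) (nat_lit 404))) (XT.nd (nat_lit 78) (nat_lit 0) (nat_lit 0) (XT.lf (nat_lit 0) (nat_lit 4259477942) (nat_lit 1748) (nat_lit 6034230840) (nat_lit 1824) (nat_lit 2912742289) (nat_lit 509) (nat_lit 5) (nat_lit 532) (nat_lit 5) (nat_lit 533) (nat_lit 5) (nat_lit 582) (nat_lit 575) (nat_lit 403)) (XT.lf (nat_lit 76) (nat_lit 729310127) (nat_lit 0) (nat_lit 4274977975) (nat_lit 1824) (nat_lit 8329368331) (nat_lit 510) (nat_lit 5) (nat_lit 509) (nat_lit 5) (nat_lit 533) (nat_lit 5) (nat_lit 583) (nat_lit 575) (nat_lit 402))))) (XT.nd (nat_lit 312) (nat_lit 0) (nat_lit 76) (XT.nd (nat_lit 156) (nat_lit 0) (nat_lit 76) (XT.nd (nat_lit 78) (nat_lit 0) (nat_lit 0) (XT.lf (nat_lit 0) (nat_lit 5806584547) (nat_lit 1748) (nat_lit 5771670068) (nat_lit 1824) (nat_lit 1884299806) (nat_lit 510) (nat_lit 5) (nat_lit 533) (nat_lit 5) (nat_lit 534) (nat_lit 5) (nat_lit 584) (nat_lit 575) (nat_lit 401)) (XT.lf (nat_lit 76) (nat_lit 1178311957)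 (nat_lit 0) (nat_lit 5472503809) (nat_lit 1824) (nat_lit 6942697137) (nat_lit 511) (nat_lit 5) (nat_lit 510) (nat_lit 5) (nat_lit 534) (nat_lit 5) (nat_lit 585) (nat_lit 575) (nat_lit 400))) (XT.nd (nat_lit 78) (nat_lit 0) (nat_lit 0) (XT.lf (nat_lit 0) (nat_lit 7545928878) (nat_lit 1748) (nat_lit 5392615485) (nat_lit 1824) (nat_lit 787866554) (nat_lit 511) (nat_lit 5) (nat_lit 534) (nat_lit 5) (nat_lit 535) (nat_lit 5) (nat_lit 586) (nat_lit 575) (nat_lit 399)) (XT.lf (nat_lit 76) (nat_lit 1750601280) (nat_lit 0) (nat_lit 6746250309) (nat_lit 1824) (nat_lit 5364357455) (nat_lit 512) (nat_lit 5) (nat_lit 511) (nat_lit 5) (nat_lit 535) (nat_lit 5) (nat_lit 587) (nat_lit 575) (nat_lit 398)))) (XT.nd (nat_lit 156) (nat_lit 0) (nat_lit 76) (XT.nd (nat_lit 78) (nat_lit 0) (nat_lit 76) (XT.lf (nat_lit 76) (nat_lit 9103285609) (nat_lit 0) (nat_lit 390141996) (nat_lit 1824) (nat_lit 4504743127) (nat_lit 512) (nat_lit 5) (nat_lit 511) (nat_lit 5) (nat_lit 535)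 (nat_lit 5) (nat_lit 588) (nat_lit 575) (nat_lit 397)) (XT.lf (nat_lit 76) (nat_lit 2451164264) (nat_lit 0) (nat_lit 8104900157) (nat_lit 1824) (nat_lit 3580884935) (nat_lit 513) (nat_lit 5) (nat_lit 512) (nat_lit 5) (nat_lit 536) (nat_lit 5) (nat_lit 589) (nat_lit 575) (nat_lit 396))) (XT.nd (nat_lit 78) (nat_lit 0) (nat_lit 76) (XT.lf (nat_lit 76) (nat_lit 10001336502) (nat_lit 0) (nat_lit 1664826618) (nat_lit 1824) (nat_lit 2611816535) (nat_lit 513) (nat_lit 5) (nat_lit 512) (nat_lit 5) (nat_lit 536) (nat_lit 5) (nat_lit 590) (nat_lit 575) (nat_lit 395)) (XT.lf (nat_lit 76) (nat_lit 3285327704) (nat_lit 0) (nat_lit 9557299620) (nat_lit 1824) (nat_lit 1578320242) (nat_lit 514) (nat_lit 5) (nat_lit 513) (nat_lit 5) (nat_lit 537) (nat_lit 5) (nat_lit 591) (nat_lit 575) (nat_lit 394))))))))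
noncomputable def xc167 : XT := (XT.nd (nat_lit 2418) (nat_lit 10336) (nat_lit 0) (XT.nd (nat_lit 1170) (nat_lit 7296) (nat_lit 0) (XT.nd (nat_lit 546) (nat_lit 4636) (nat_lit 0) (XT.nd (nat_lit 234) (nat_lit 0) (nat_lit 76) (XT.nd (nat_lit 78) (nat_lit 1748) (nat_lit 0) (XT.lf (nat_lit 76) (nat_lit 11038779319) (nat_lit 0) (nat_lit 3034619531) (nat_lit 1824) (nat_lit 492760696) (nat_lit 514) (nat_lit 5) (nat_lit 513) (nat_lit 5) (nat_lit 537) (nat_lit 5) (nat_lit 592) (nat_lit 575) (nat_lit 393)) (XT.nd (nat_lit 78) (nat_lit 0) (nat_lit 0) (XT.lf (nat_lit 0) (nat_lit 649191523) (nat_lit 1824) (nat_lit 10458931162) (nat_lit 1900) (nat_lit 3605218729) (nat_lit 490) (nat_lit 5) (nat_lit 514) (nat_lit 5) (nat_lit 515) (nat_lit 5) (nat_lit 593) (nat_lit 575) (nat_lit 392)) (XT.lf (nat_lit 0) (nat_lit 1842701146) (nat_lit 1824) (nat_lit 2653548709) (nat_lit 1900) (nat_lit 10366445850) (nat_lit 490) (nat_lit 5) (nat_lit 514) (nat_lit 5) (nat_lit 515) (nat_lit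 5) (nat_lit 594) (nat_lit 575) (nat_lit 391)))) (XT.nd (nat_lit 156) (nat_lit 0) (nat_lit 76) (XT.nd (nat_lit 78) (nat_lit 0) (nat_lit 0) (XT.lf (nat_lit 0) (nat_lit 3101351313) (nat_lit 1824) (nat_lit 9657510777) (nat_lit 1900) (nat_lit 2255349835) (nat_lit 491) (nat_lit 5) (nat_lit 515) (nat_lit 5) (nat_lit 516) (nat_lit 5) (nat_lit 595) (nat_lit 575) (nat_lit 390)) (XT.lf (nat_lit 0) (nat_lit 4424565627) (nat_lit 1824) (nat_lit 1641864712) (nat_lit 1900) (nat_lit 9101540556) (nat_lit 491) (nat_lit 5) (nat_lit 515) (nat_lit 5) (nat_lit 516) (nat_lit 5) (nat_lit 596) (nat_lit 575) (nat_lit 389))) (XT.nd (nat_lit 78) (nat_lit 0) (nat_lit 0) (XT.lf (nat_lit 0) (nat_lit 5814269616) (nat_lit 1824) (nat_lit 8715058011) (nat_lit 1900) (nat_lit 794677150) (nat_lit 492) (nat_lit 5) (nat_lit 516) (nat_lit 5) (nat_lit 517) (nat_lit 5) (nat_lit 597) (nat_lit 575) (nat_lit 388)) (XT.lf (nat_lit 0) (nat_lit 7275013650) (nat_lit 1824) (nat_lit 482846334) (nat_lit 1900)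 (nat_lit 7724434671) (nat_lit 492) (nat_lit 5) (nat_lit 516) (nat_lit 5) (nat_lit 517) (nat_lit 5) (nat_lit 598) (nat_lit 575) (nat_lit 387))))) (XT.nd (nat_lit 312) (nat_lit 1900) (nat_lit 0) (XT.nd (nat_lit 156) (nat_lit 1140) (nat_lit 0) (XT.nd (nat_lit 78) (nat_lit 1748) (nat_lit 0) (XT.lf (nat_lit 76) (nat_lit 8012536874) (nat_lit 0) (nat_lit 796595833) (nat_lit 1900) (nat_lit 6833734653) (nat_lit 493) (nat_lit 5) (nat_lit 492) (nat_lit 5) (nat_lit 517) (nat_lit 5) (nat_lit 599) (nat_lit 575) (nat_lit 386)) (XT.lf (nat_lit 0) (nat_lit 841189296) (nat_lit 1824) (nat_lit 9574654403) (nat_lit 1900) (nat_lit 5389969856) (nat_lit 469) (nat_lit 5) (nat_lit 493) (nat_lit 5) (nat_lit 494) (nat_lit 5) (nat_lit 600) (nat_lit 575) (nat_lit 385))) (XT.nd (nat_lit 78) (nat_lit 1140) (nat_lit 0) (XT.lf (nat_lit 0) (nat_lit 9573590296) (nat_lit 1824) (nat_lit 2529908975) (nat_lit 1900) (nat_lit 3867543420) (nat_lit 469) (nat_lit 5) (nat_lit 493) (nat_lit 5) (nat_lit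 494) (nat_lit 5) (nat_lit 601) (nat_lit 575) (nat_lit 384)) (XT.lf (nat_lit 0) (nat_lit 2334795158) (nat_lit 1140) (nat_lit 11528022042) (nat_lit 1216) (nat_lit 2276001244) (nat_lit 454) (nat_lit 5) (nat_lit 469) (nat_lit 5) (nat_lit 470) (nat_lit 5) (nat_lit 602) (nat_lit 575) (nat_lit 383)))) (XT.nd (nat_lit 156) (nat_lit 912) (nat_lit 0) (XT.nd (nat_lit 78) (nat_lit 988) (nat_lit 0) (XT.lf (nat_lit 0) (nat_lit 11304812706) (nat_lit 1140) (nat_lit 4404708965) (nat_lit 1216) (nat_lit 599384252) (nat_lit 454) (nat_lit 5) (nat_lit 469) (nat_lit 5) (nat_lit 470) (nat_lit 5) (nat_lit 603) (nat_lit 575) (nat_lit 382)) (XT.lf (nat_lit 0) (nat_lit 1133759886) (nat_lit 988) (nat_lit 12490036934) (nat_lit 76) (nat_lit 2857703047) (nat_lit 441) (nat_lit 5) (nat_lit 454) (nat_lit 5) (nat_lit 442) (nat_lit 5) (nat_lit 604) (nat_lit 575) (nat_lit 381))) (XT.nd (nat_lit 78) (nat_lit 912) (nat_lit 0) (XT.lf (nat_lit 0) (nat_lit 2949348040) (nat_lit 988) (nat_lit 3462162987)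 (nat_lit 76) (nat_lit 10244839489) (nat_lit 441) (nat_lit 5) (nat_lit 454) (nat_lit 5) (nat_lit 442) (nat_lit 5) (nat_lit 605) (nat_lit 575) (nat_lit 380)) (XT.lf (nat_lit 0) (nat_lit 4838365370) (nat_lit 988) (nat_lit 11024484170) (nat_lit 76) (nat_lit 971106489) (nat_lit 429) (nat_lit 5) (nat_lit 442) (nat_lit 5) (nat_lit 430) (nat_lit 5) (nat_lit 606) (nat_lit 575) (nat_lit 379)))))) (XT.nd (nat_lit 624) (nat_lit 3800) (nat_lit 0) (XT.nd (nat_lit 312) (nat_lit 1748) (nat_lit 0) (XT.nd (nat_lit 156) (nat_lit 912) (nat_lit 0) (XT.nd (nat_lit 78) (nat_lit 836) (nat_lit 0) (XT.lf (nat_lit 0) (nat_lit 6824075822) (nat_lit 988) (nat_lit 1750449473) (nat_lit 76) (nat_lit 8439410295) (nat_lit 429) (nat_lit 5) (nat_lit 442) (nat_lit 5) (nat_lit 430) (nat_lit 5) (nat_lit 607) (nat_lit 575) (nat_lit 378)) (XT.lf (nat_lit 0) (nat_lit 7804902920) (nat_lit 836) (nat_lit 1088473779) (nat_lit 912) (nat_lit 8303260710) (nat_lit 418) (nat_lit 5) (nat_lit 429) (nat_lit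 5) (nat_lit 430) (nat_lit 5) (nat_lit 608) (nat_lit 575) (nat_lit 377))) (XT.nd (nat_lit 78) (nat_lit 0) (nat_lit 0) (XT.lf (nat_lit 0) (nat_lit 145028144) (nat_lit 912) (nat_lit 10907604981) (nat_lit 988) (nat_lit 6329388936) (nat_lit 406) (nat_lit 5) (nat_lit 418) (nat_lit 5) (nat_lit 419) (nat_lit 5) (nat_lit 609) (nat_lit 575) (nat_lit 376)) (XT.lf (nat_lit 0) (nat_lit 9985954219) (nat_lit 912) (nat_lit 3332688027) (nat_lit 988) (nat_lit 4251200992) (nat_lit 406) (nat_lit 5) (nat_lit 418) (nat_lit 5) (nat_lit 419) (nat_lit 5) (nat_lit 610) (nat_lit 575) (nat_lit 375)))) (XT.nd (nat_lit 156) (nat_lit 836) (nat_lit 0) (XT.nd (nat_lit 78) (nat_lit 76) (nat_lit 0) (XT.lf (nat_lit 0) (nat_lit 2256772681) (nat_lit 836) (nat_lit 13409891408) (nat_lit 912) (nat_lit 2094023077) (nat_lit 395) (nat_lit 5) (nat_lit 406) (nat_lit 5) (nat_lit 407) (nat_lit 5) (nat_lit 611) (nat_lit 575) (nat_lit 374)) (XT.lf (nat_lit 0) (nat_lit 171759262) (nat_lit 912) (nat_lit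 5586997719) (nat_lit 76) (nat_lit 12195240263) (nat_lit 394) (nat_lit 5) (nat_lit 406) (nat_lit 5) (nat_lit 395) (nat_lit 5) (nat_lit 612) (nat_lit 575) (nat_lit 373))) (XT.nd (nat_lit 78) (nat_lit 0) (nat_lit 0) (XT.lf (nat_lit 0) (nat_lit 2491750618) (nat_lit 912) (nat_lit 13596188540) (nat_lit 76) (nat_lit 2062219057) (nat_lit 383) (nat_lit 5) (nat_lit 395) (nat_lit 5) (nat_lit 384) (nat_lit 5) (nat_lit 613) (nat_lit 575) (nat_lit 372)) (XT.lf (nat_lit 0) (nat_lit 4927781576) (nat_lit 912) (nat_lit 3420958575) (nat_lit 76) (nat_lit 10000109626) (nat_lit 383) (nat_lit 5) (nat_lit 395) (nat_lit 5) (nat_lit 384) (nat_lit 5) (nat_lit 614) (nat_lit 575) (nat_lit 371))))) (XT.nd (nat_lit 312) (nat_lit 1520) (nat_lit 0) (XT.nd (nat_lit 156) (nat_lit 1520) (nat_lit 0) (XT.nd (nat_lit 78) (nat_lit 0) (nat_lit 0) (XT.lf (nat_lit 0) (nat_lit 7043714501) (nat_lit 760) (nat_lit 408435754) (nat_lit 836) (nat_lit 11098572736) (nat_lit 373) (nat_lit 5) (nat_lit 383)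 (nat_lit 5) (nat_lit 384) (nat_lit 5) (nat_lit 615) (nat_lit 575) (nat_lit 370)) (XT.lf (nat_lit 0) (nat_lit 10094008381) (nat_lit 836) (nat_lit 1048723746) (nat_lit 76) (nat_lit 7612561659) (nat_lit 373) (nat_lit 5) (nat_lit 384) (nat_lit 5) (nat_lit 374) (nat_lit 5) (nat_lit 616) (nat_lit 575) (nat_lit 369))) (XT.nd (nat_lit 78) (nat_lit 760) (nat_lit 0) (XT.lf (nat_lit 0) (nat_lit 9737339319) (nat_lit 760) (nat_lit 3111369558) (nat_lit 836) (nat_lit 6114047173) (nat_lit 363) (nat_lit 5) (nat_lit 373) (nat_lit 5) (nat_lit 374) (nat_lit 5) (nat_lit 617) (nat_lit 575) (nat_lit 368)) (XT.lf (nat_lit 0) (nat_lit 1560078671) (nat_lit 760) (nat_lit 14142775328) (nat_lit 836) (nat_lit 3470626701) (nat_lit 353) (nat_lit 5) (nat_lit 363) (nat_lit 5) (nat_lit 364) (nat_lit 5) (nat_lit 618) (nat_lit 575) (nat_lit 367)))) (XT.nd (nat_lit 156) (nat_lit 684) (nat_lit 0) (XT.nd (nat_lit 78) (nat_lit 836) (nat_lit 0) (XT.lf (nat_lit 0) (nat_lit 12659039275) (nat_lit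 760) (nat_lit 6031643404) (nat_lit 836) (nat_lit 696205302) (nat_lit 353) (nat_lit 5) (nat_lit 363) (nat_lit 5) (nat_lit 364) (nat_lit 5) (nat_lit 619) (nat_lit 575) (nat_lit 366)) (XT.lf (nat_lit 0) (nat_lit 2143504357) (nat_lit 836) (nat_lit 15205587572) (nat_lit 76) (nat_lit 2254438878) (nat_lit 342) (nat_lit 5) (nat_lit 353) (nat_lit 5) (nat_lit 343) (nat_lit 5) (nat_lit 620) (nat_lit 575) (nat_lit 365))) (XT.nd (nat_lit 78) (nat_lit 684) (nat_lit 0) (XT.lf (nat_lit 0) (nat_lit 5110451292) (nat_lit 836) (nat_lit 4037444139) (nat_lit 76) (nat_lit 10674923857) (nat_lit 342) (nat_lit 5) (nat_lit 353) (nat_lit 5) (nat_lit 343) (nat_lit 5) (nat_lit 621) (nat_lit 575) (nat_lit 364)) (XT.lf (nat_lit 0) (nat_lit 7445401018) (nat_lit 684) (nat_lit 734152613) (nat_lit 760) (nat_lit 11866083719) (nat_lit 333) (nat_lit 5) (nat_lit 342) (nat_lit 5) (nat_lit 343) (nat_lit 5) (nat_lit 622) (nat_lit 575) (nat_lit 363))))))) (XT.nd (nat_lit 1170) (nat_lit 4560) (nat_lit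 0) (XT.nd (nat_lit 546) (nat_lit 3040) (nat_lit 0) (XT.nd (nat_lit 234) (nat_lit 1368) (nat_lit 0) (XT.nd (nat_lit 78) (nat_lit 1368) (nat_lit 0) (XT.lf (nat_lit 0) (nat_lit 11382802703) (nat_lit 760) (nat_lit 1117242588) (nat_lit 76) (nat_lit 7771411322) (nat_lit 333) (nat_lit 5) (nat_lit 343) (nat_lit 5) (nat_lit 334) (nat_lit 5) (nat_lit 623) (nat_lit 575) (nat_lit 362)) (XT.nd (nat_lit 78) (nat_lit 684) (nat_lit 0) (XT.lf (nat_lit 0) (nat_lit 10724962424) (nat_lit 684) (nat_lit 3994295271) (nat_lit 760) (nat_lit 5781151883) (nat_lit 324) (nat_lit 5) (nat_lit 333) (nat_lit 5) (nat_lit 334) (nat_lit 5) (nat_lit 624) (nat_lit 575) (nat_lit 361)) (XT.lf (nat_lit 0) (nat_lit 2075838517) (nat_lit 684) (nat_lit 16092727972) (nat_lit 760) (nat_lit 2564452749) (nat_lit 315) (nat_lit 5) (nat_lit 324) (nat_lit 5) (nat_lit 325) (nat_lit 5) (nat_lit 625) (nat_lit 575) (nat_lit 360)))) (XT.nd (nat_lit 156) (nat_lit 608) (nat_lit 0) (XT.nd (nat_lit 78) (nat_lit 684)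 (nat_lit 0) (XT.lf (nat_lit 0) (nat_lit 794399973) (nat_lit 760) (nat_lit 6710183703) (nat_lit 76) (nat_lit 13463860137) (nat_lit 314) (nat_lit 5) (nat_lit 324) (nat_lit 5) (nat_lit 315) (nat_lit 5) (nat_lit 626) (nat_lit 575) (nat_lit 359)) (XT.lf (nat_lit 0) (nat_lit 4225325435) (nat_lit 760) (nat_lit 15691094856) (nat_lit 76) (nat_lit 1291033018) (nat_lit 305) (nat_lit 5) (nat_lit 315) (nat_lit 5) (nat_lit 306) (nat_lit 5) (nat_lit 627) (nat_lit 575) (nat_lit 358))) (XT.nd (nat_lit 78) (nat_lit 608) (nat_lit 0) (XT.lf (nat_lit 0) (nat_lit 7814785849) (nat_lit 760) (nat_lit 3428214311) (nat_lit 76) (nat_lit 10206444626) (nat_lit 305) (nat_lit 5) (nat_lit 315) (nat_lit 5) (nat_lit 306) (nat_lit 5) (nat_lit 628) (nat_lit 575) (nat_lit 357)) (XT.lf (nat_lit 0) (nat_lit 9194368244) (nat_lit 608) (nat_lit 2336353503) (nat_lit 684) (nat_lit 10164460739) (nat_lit 297) (nat_lit 5) (nat_lit 305) (nat_lit 5) (nat_lit 306) (nat_lit 5) (nat_lit 629) (nat_lit 575)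 (nat_lit 356))))) (XT.nd (nat_lit 312) (nat_lit 1748) (nat_lit 0) (XT.nd (nat_lit 156) (nat_lit 684) (nat_lit 0) (XT.nd (nat_lit 78) (nat_lit 0) (nat_lit 0) (XT.lf (nat_lit 0) (nat_lit 121936914) (nat_lit 608) (nat_lit 15261845366) (nat_lit 684) (nat_lit 6560796658) (nat_lit 289) (nat_lit 5) (nat_lit 297) (nat_lit 5) (nat_lit 298) (nat_lit 5) (nat_lit 630) (nat_lit 575) (nat_lit 355)) (XT.lf (nat_lit 0) (nat_lit 13144764842) (nat_lit 608) (nat_lit 6263495744) (nat_lit 684) (nat_lit 2788815715) (nat_lit 289) (nat_lit 5) (nat_lit 297) (nat_lit 5) (nat_lit 298) (nat_lit 5) (nat_lit 631) (nat_lit 575) (nat_lit 354))) (XT.nd (nat_lit 78) (nat_lit 0) (nat_lit 0) (XT.lf (nat_lit 0) (nat_lit 1085074482) (nat_lit 684) (nat_lit 18460107484) (nat_lit 76) (nat_lit 2908497223) (nat_lit 280) (nat_lit 5) (nat_lit 289) (nat_lit 5) (nat_lit 281) (nat_lit 5) (nat_lit 632) (nat_lit 575) (nat_lit 353)) (XT.lf (nat_lit 0) (nat_lit 5096973516) (nat_lit 684) (nat_lit 5357614639)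 (nat_lit 76) (nat_lit 12258499941) (nat_lit 280) (nat_lit 5) (nat_lit 289) (nat_lit 5) (nat_lit 281) (nat_lit 5) (nat_lit 633) (nat_lit 575) (nat_lit 352)))) (XT.nd (nat_lit 156) (nat_lit 1140) (nat_lit 0) (XT.nd (nat_lit 78) (nat_lit 0) (nat_lit 0) (XT.lf (nat_lit 0) (nat_lit 8107233289) (nat_lit 608) (nat_lit 1129818892) (nat_lit 684) (nat_lit 13739674272) (nat_lit 272) (nat_lit 5) (nat_lit 280) (nat_lit 5) (nat_lit 281) (nat_lit 5) (nat_lit 634) (nat_lit 575) (nat_lit 351)) (XT.lf (nat_lit 0) (nat_lit 13545889480) (nat_lit 684) (nat_lit 1391639702) (nat_lit 76) (nat_lit 8306389356) (nat_lit 272) (nat_lit 5) (nat_lit 281) (nat_lit 5) (nat_lit 273) (nat_lit 5) (nat_lit 635) (nat_lit 575) (nat_lit 350))) (XT.nd (nat_lit 78) (nat_lit 608) (nat_lit 0) (XT.lf (nat_lit 0) (nat_lit 12506363528) (nat_lit 532) (nat_lit 5518661694) (nat_lit 608) (nat_lit 5489746911) (nat_lit 265) (nat_lit 5) (nat_lit 272) (nat_lit 5) (nat_lit 273) (nat_lit 5) (nat_lit 636) (nat_lit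 575) (nat_lit 349)) (XT.lf (nat_lit 0) (nat_lit 2915980488) (nat_lit 608) (nat_lit 19728123752) (nat_lit 684) (nat_lit 1145931448) (nat_lit 257) (nat_lit 5) (nat_lit 265) (nat_lit 5) (nat_lit 266) (nat_lit 5) (nat_lit 637) (nat_lit 575) (nat_lit 348)))))) (XT.nd (nat_lit 624) (nat_lit 2356) (nat_lit 0) (XT.nd (nat_lit 312) (nat_lit 1064) (nat_lit 0) (XT.nd (nat_lit 156) (nat_lit 532) (nat_lit 0) (XT.nd (nat_lit 78) (nat_lit 532) (nat_lit 0) (XT.lf (nat_lit 0) (nat_lit 3348091039) (nat_lit 684) (nat_lit 6865622100) (nat_lit 76) (nat_lit 13854536714) (nat_lit 256) (nat_lit 5) (nat_lit 265) (nat_lit 5) (nat_lit 257) (nat_lit 5) (nat_lit 638) (nat_lit 575) (nat_lit 347)) (XT.lf (nat_lit 0) (nat_lit 7507966115) (nat_lit 532) (nat_lit 453035147) (nat_lit 608) (nat_lit 16389988615) (nat_lit 249) (nat_lit 5) (nat_lit 256) (nat_lit 5) (nat_lit 257) (nat_lit 5) (nat_lit 639) (nat_lit 575) (nat_lit 346))) (XT.nd (nat_lit 78) (nat_lit 532) (nat_lit 0) (XT.lf (nat_lit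 0) (nat_lit 12769874621) (nat_lit 608) (nat_lit 2444307589) (nat_lit 76) (nat_lit 9423128486) (nat_lit 249) (nat_lit 5) (nat_lit 257) (nat_lit 5) (nat_lit 250) (nat_lit 5) (nat_lit 640) (nat_lit 575) (nat_lit 345)) (XT.lf (nat_lit 0) (nat_lit 12396144877) (nat_lit 532) (nat_lit 5357979533) (nat_lit 608) (nat_lit 7173649630) (nat_lit 242) (nat_lit 5) (nat_lit 249) (nat_lit 5) (nat_lit 250) (nat_lit 5) (nat_lit 641) (nat_lit 575) (nat_lit 344)))) (XT.nd (nat_lit 156) (nat_lit 532) (nat_lit 0) (XT.nd (nat_lit 78) (nat_lit 76) (nat_lit 0) (XT.lf (nat_lit 0) (nat_lit 2337025518) (nat_lit 456) (nat_lit 20558954987) (nat_lit 532) (nat_lit 2326907809) (nat_lit 236) (nat_lit 5) (nat_lit 242) (nat_lit 5) (nat_lit 243) (nat_lit 5) (nat_lit 642) (nat_lit 575) (nat_lit 343)) (XT.lf (nat_lit 0) (nat_lit 2698352409) (nat_lit 532) (nat_lit 7908200086) (nat_lit 76) (nat_lit 14914694607) (nat_lit 235) (nat_lit 5) (nat_lit 242) (nat_lit 5) (nat_lit 236) (nat_lit 5) (nat_lit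 643) (nat_lit 575) (nat_lit 342))) (XT.nd (nat_lit 78) (nat_lit 0) (nat_lit 0) (XT.lf (nat_lit 0) (nat_lit 7445500167) (nat_lit 532) (nat_lit 391682488) (nat_lit 608) (nat_lit 17987198434) (nat_lit 228) (nat_lit 5) (nat_lit 235) (nat_lit 5) (nat_lit 236) (nat_lit 5) (nat_lit 644) (nat_lit 575) (nat_lit 341)) (XT.lf (nat_lit 0) (nat_lit 13193199834) (nat_lit 608) (nat_lit 2990289387) (nat_lit 76) (nat_lit 9947800411) (nat_lit 228) (nat_lit 5) (nat_lit 236) (nat_lit 5) (nat_lit 229) (nat_lit 5) (nat_lit 645) (nat_lit 575) (nat_lit 340))))) (XT.nd (nat_lit 312) (nat_lit 912) (nat_lit 0) (XT.nd (nat_lit 156) (nat_lit 532) (nat_lit 0) (XT.nd (nat_lit 78) (nat_lit 456) (nat_lit 0) (XT.lf (nat_lit 0) (nat_lit 12866552076) (nat_lit 456) (nat_lit 5871883681) (nat_lit 532) (nat_lit 7704258698) (nat_lit 222) (nat_lit 5) (nat_lit 228) (nat_lit 5) (nat_lit 229) (nat_lit 5) (nat_lit 646) (nat_lit 575) (nat_lit 339)) (XT.lf (nat_lit 0) (nat_lit 2315502204) (nat_lit 456)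 (nat_lit 22140469979) (nat_lit 532) (nat_lit 2303127357) (nat_lit 216) (nat_lit 5) (nat_lit 222) (nat_lit 5) (nat_lit 223) (nat_lit 5) (nat_lit 647) (nat_lit 575) (nat_lit 338))) (XT.nd (nat_lit 78) (nat_lit 456) (nat_lit 0) (XT.lf (nat_lit 0) (nat_lit 3290585476) (nat_lit 532) (nat_lit 8437030938) (nat_lit 76) (nat_lit 15351267943) (nat_lit 215) (nat_lit 5) (nat_lit 222) (nat_lit 5) (nat_lit 216) (nat_lit 5) (nat_lit 648) (nat_lit 575) (nat_lit 337)) (XT.lf (nat_lit 0) (nat_lit 7973376251) (nat_lit 456) (nat_lit 1039846324) (nat_lit 532) (nat_lit 18390580119) (nat_lit 209) (nat_lit 5) (nat_lit 215) (nat_lit 5) (nat_lit 216) (nat_lit 5) (nat_lit 649) (nat_lit 575) (nat_lit 336)))) (XT.nd (nat_lit 156) (nat_lit 456) (nat_lit 0) (XT.nd (nat_lit 78) (nat_lit 456) (nat_lit 0) (XT.lf (nat_lit 0) (nat_lit 14967453831) (nat_lit 532) (nat_lit 2977772559) (nat_lit 76) (nat_lit 9787650252) (nat_lit 209) (nat_lit 5) (nat_lit 216) (nat_lit 5) (nat_lit 210) (nat_lit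 5) (nat_lit 650) (nat_lit 575) (nat_lit 335)) (XT.lf (nat_lit 0) (nat_lit 13974800865) (nat_lit 456) (nat_lit 7159785966) (nat_lit 532) (nat_lit 6932068965) (nat_lit 203) (nat_lit 5) (nat_lit 209) (nat_lit 5) (nat_lit 210) (nat_lit 5) (nat_lit 651) (nat_lit 575) (nat_lit 334))) (XT.nd (nat_lit 78) (nat_lit 76) (nat_lit 0) (XT.lf (nat_lit 0) (nat_lit 2907582905) (nat_lit 380) (nat_lit 24577637703) (nat_lit 456) (nat_lit 920686833) (nat_lit 198) (nat_lit 5) (nat_lit 203) (nat_lit 5) (nat_lit 204) (nat_lit 5) (nat_lit 652) (nat_lit 575) (nat_lit 333)) (XT.lf (nat_lit 0) (nat_lit 5281424656) (nat_lit 456) (nat_lit 8399469780) (nat_lit 76) (nat_lit 15067596217) (nat_lit 197) (nat_lit 5) (nat_lit 203) (nat_lit 5) (nat_lit 198) (nat_lit 5) (nat_lit 653) (nat_lit 575) (nat_lit 332))))))))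
noncomputable def xc168 : XT := (XT.nd (nat_lit 2418) (nat_lit 228) (nat_lit 0) (XT.nd (nat_lit 1170) (nat_lit 3344) (nat_lit 0) (XT.nd (nat_lit 546) (nat_lit 1976) (nat_lit 0) (XT.nd (nat_lit 234) (nat_lit 836) (nat_lit 0) (XT.nd (nat_lit 78) (nat_lit 380) (nat_lit 0) (XT.lf (nat_lit 0) (nat_lit 9149804951) (nat_lit 456) (nat_lit 2501175411) (nat_lit 532) (nat_lit 17445708917) (nat_lit 191) (nat_lit 5) (nat_lit 197) (nat_lit 5) (nat_lit 198) (nat_lit 5) (nat_lit 654) (nat_lit 575) (nat_lit 331)) (XT.nd (nat_lit 78) (nat_lit 380) (nat_lit 0) (XT.lf (nat_lit 0) (nat_lit 18258801336) (nat_lit 532) (nat_lit 2350461073) (nat_lit 76) (nat_lit 8840372050) (nat_lit 191) (nat_lit 5) (nat_lit 198) (nat_lit 5) (nat_lit 192) (nat_lit 5) (nat_lit 655) (nat_lit 575) (nat_lit 330)) (XT.lf (nat_lit 0) (nat_lit 15782943467) (nat_lit 380) (nat_lit 9331281918) (nat_lit 456) (nat_lit 4693104287) (nat_lit 186) (nat_lit 5) (nat_lit 191) (nat_lit 5) (nat_lit 192) (nat_lit 5)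 (nat_lit 656) (nat_lit 575) (nat_lit 329)))) (XT.nd (nat_lit 156) (nat_lit 380) (nat_lit 0) (XT.nd (nat_lit 78) (nat_lit 0) (nat_lit 0) (XT.lf (nat_lit 0) (nat_lit 1963076819) (nat_lit 456) (nat_lit 26009876548) (nat_lit 76) (nat_lit 2197896871) (nat_lit 180) (nat_lit 5) (nat_lit 186) (nat_lit 5) (nat_lit 181) (nat_lit 5) (nat_lit 657) (nat_lit 575) (nat_lit 328)) (XT.lf (nat_lit 0) (nat_lit 8842575433) (nat_lit 456) (nat_lit 7738529105) (nat_lit 76) (nat_lit 13956855617) (nat_lit 180) (nat_lit 5) (nat_lit 186) (nat_lit 5) (nat_lit 181) (nat_lit 5) (nat_lit 658) (nat_lit 575) (nat_lit 327))) (XT.nd (nat_lit 78) (nat_lit 0) (nat_lit 0) (XT.lf (nat_lit 0) (nat_lit 11037697696) (nat_lit 380) (nat_lit 4890145059) (nat_lit 456) (nat_lit 14983205998) (nat_lit 175) (nat_lit 5) (nat_lit 180) (nat_lit 5) (nat_lit 181) (nat_lit 5) (nat_lit 659) (nat_lit 575) (nat_lit 326)) (XT.lf (nat_lit 0) (nat_lit 23249299385) (nat_lit 456) (nat_lit 1047562411) (nat_lit 76) (nat_lit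 6992847706) (nat_lit 175) (nat_lit 5) (nat_lit 181) (nat_lit 5) (nat_lit 176) (nat_lit 5) (nat_lit 660) (nat_lit 575) (nat_lit 325))))) (XT.nd (nat_lit 312) (nat_lit 760) (nat_lit 0) (XT.nd (nat_lit 156) (nat_lit 380) (nat_lit 0) (XT.nd (nat_lit 78) (nat_lit 456) (nat_lit 0) (XT.lf (nat_lit 0) (nat_lit 18357897303) (nat_lit 380) (nat_lit 12507469403) (nat_lit 456) (nat_lit 807613185) (nat_lit 170) (nat_lit 5) (nat_lit 175) (nat_lit 5) (nat_lit 176) (nat_lit 5) (nat_lit 661) (nat_lit 575) (nat_lit 324)) (XT.lf (nat_lit 0) (nat_lit 6134405208) (nat_lit 380) (nat_lit 392790111) (nat_lit 456) (nat_lit 25534996900) (nat_lit 164) (nat_lit 5) (nat_lit 169) (nat_lit 5) (nat_lit 170) (nat_lit 5) (nat_lit 662) (nat_lit 575) (nat_lit 323))) (XT.nd (nat_lit 78) (nat_lit 380) (nat_lit 0) (XT.lf (nat_lit 0) (nat_lit 14162154467) (nat_lit 456) (nat_lit 6392907163) (nat_lit 76) (nat_lit 11900735083) (nat_lit 164) (nat_lit 5) (nat_lit 170) (nat_lit 5) (nat_lit 165) (nat_lit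 5) (nat_lit 663) (nat_lit 575) (nat_lit 322)) (XT.lf (nat_lit 0) (nat_lit 13704653082) (nat_lit 380) (nat_lit 8333442586) (nat_lit 456) (nat_lit 10817412022) (nat_lit 159) (nat_lit 5) (nat_lit 164) (nat_lit 5) (nat_lit 165) (nat_lit 5) (nat_lit 664) (nat_lit 575) (nat_lit 321)))) (XT.nd (nat_lit 156) (nat_lit 380) (nat_lit 0) (XT.nd (nat_lit 78) (nat_lit 76) (nat_lit 0) (XT.lf (nat_lit 0) (nat_lit 1009415743) (nat_lit 304) (nat_lit 29135430554) (nat_lit 380) (nat_lit 3116900828) (nat_lit 155) (nat_lit 5) (nat_lit 159) (nat_lit 5) (nat_lit 160) (nat_lit 5) (nat_lit 665) (nat_lit 575) (nat_lit 320)) (XT.lf (nat_lit 0) (nat_lit 4856768242) (nat_lit 380) (nat_lit 11933037754) (nat_lit 76) (nat_lit 16882064558) (nat_lit 154) (nat_lit 5) (nat_lit 159) (nat_lit 5) (nat_lit 155) (nat_lit 5) (nat_lit 666) (nat_lit 575) (nat_lit 319))) (XT.nd (nat_lit 78) (nat_lit 0) (nat_lit 0) (XT.lf (nat_lit 0) (nat_lit 8883425570) (nat_lit 380) (nat_lit 4119260682) (nat_lit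 456) (nat_lit 21086007977) (nat_lit 149) (nat_lit 5) (nat_lit 154) (nat_lit 5) (nat_lit 155) (nat_lit 5) (nat_lit 667) (nat_lit 575) (nat_lit 318)) (XT.lf (nat_lit 0) (nat_lit 21446108480) (nat_lit 456) (nat_lit 4297075567) (nat_lit 76) (nat_lit 8767978660) (nat_lit 149) (nat_lit 5) (nat_lit 155) (nat_lit 5) (nat_lit 150) (nat_lit 5) (nat_lit 668) (nat_lit 575) (nat_lit 317)))))) (XT.nd (nat_lit 624) (nat_lit 1596) (nat_lit 0) (XT.nd (nat_lit 312) (nat_lit 684) (nat_lit 0) (XT.nd (nat_lit 156) (nat_lit 304) (nat_lit 0) (XT.nd (nat_lit 78) (nat_lit 456) (nat_lit 0) (XT.lf (nat_lit 0) (nat_lit 17222882597) (nat_lit 304) (nat_lit 12971493960) (nat_lit 380) (nat_lit 4744984495) (nat_lit 145) (nat_lit 5) (nat_lit 149) (nat_lit 5) (nat_lit 150) (nat_lit 5) (nat_lit 669) (nat_lit 575) (nat_lit 316)) (XT.lf (nat_lit 0) (nat_lit 3744369324) (nat_lit 456) (nat_lit 31498183698) (nat_lit 76) (nat_lit 132045481) (nat_lit 139) (nat_lit 5) (nat_lit 145) (nat_lit 5) (nat_lit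 140) (nat_lit 5) (nat_lit 670) (nat_lit 575) (nat_lit 315))) (XT.nd (nat_lit 78) (nat_lit 304) (nat_lit 0) (XT.lf (nat_lit 0) (nat_lit 12542512598) (nat_lit 456) (nat_lit 9797985776) (nat_lit 76) (nat_lit 13473364332) (nat_lit 139) (nat_lit 5) (nat_lit 145) (nat_lit 5) (nat_lit 140) (nat_lit 5) (nat_lit 671) (nat_lit 575) (nat_lit 314)) (XT.lf (nat_lit 0) (nat_lit 12495165716) (nat_lit 304) (nat_lit 9099540876) (nat_lit 380) (nat_lit 14665643886) (nat_lit 135) (nat_lit 5) (nat_lit 139) (nat_lit 5) (nat_lit 140) (nat_lit 5) (nat_lit 672) (nat_lit 575) (nat_lit 313)))) (XT.nd (nat_lit 156) (nat_lit 304) (nat_lit 0) (XT.nd (nat_lit 78) (nat_lit 380) (nat_lit 0) (XT.lf (nat_lit 0) (nat_lit 30919714279) (nat_lit 380) (nat_lit 1381444493) (nat_lit 76) (nat_lit 4412773880) (nat_lit 135) (nat_lit 5) (nat_lit 140) (nat_lit 5) (nat_lit 136) (nat_lit 5) (nat_lit 673) (nat_lit 575) (nat_lit 312)) (XT.lf (nat_lit 0) (nat_lit 3411249224) (nat_lit 380) (nat_lit 15526012338)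 (nat_lit 76) (nat_lit 18234916346) (nat_lit 130) (nat_lit 5) (nat_lit 135) (nat_lit 5) (nat_lit 131) (nat_lit 5) (nat_lit 674) (nat_lit 575) (nat_lit 311))) (XT.nd (nat_lit 78) (nat_lit 0) (nat_lit 0) (XT.lf (nat_lit 0) (nat_lit 7569641618) (nat_lit 304) (nat_lit 5209194440) (nat_lit 380) (nat_lit 24858874167) (nat_lit 126) (nat_lit 5) (nat_lit 130) (nat_lit 5) (nat_lit 131) (nat_lit 5) (nat_lit 675) (nat_lit 575) (nat_lit 310)) (XT.lf (nat_lit 0) (nat_lit 22492802730) (nat_lit 380) (nat_lit 6835451731) (nat_lit 76) (nat_lit 8781118202) (nat_lit 126) (nat_lit 5) (nat_lit 131) (nat_lit 5) (nat_lit 127) (nat_lit 5) (nat_lit 676) (nat_lit 575) (nat_lit 309))))) (XT.nd (nat_lit 312) (nat_lit 608) (nat_lit 0) (XT.nd (nat_lit 156) (nat_lit 304) (nat_lit 0) (XT.nd (nat_lit 78) (nat_lit 380) (nat_lit 0) (XT.lf (nat_lit 0) (nat_lit 17046110402) (nat_lit 304) (nat_lit 15497226254) (nat_lit 380) (nat_lit 6044285974) (nat_lit 122) (nat_lit 5) (nat_lit 126) (nat_lit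 5) (nat_lit 127) (nat_lit 5) (nat_lit 677) (nat_lit 575) (nat_lit 308)) (XT.lf (nat_lit 0) (nat_lit 2426026026) (nat_lit 304) (nat_lit 1303683190) (nat_lit 380) (nat_lit 35344064499) (nat_lit 117) (nat_lit 5) (nat_lit 121) (nat_lit 5) (nat_lit 122) (nat_lit 5) (nat_lit 678) (nat_lit 575) (nat_lit 307))) (XT.nd (nat_lit 78) (nat_lit 304) (nat_lit 0) (XT.lf (nat_lit 0) (nat_lit 13846507185) (nat_lit 380) (nat_lit 12533151242) (nat_lit 76) (nat_lit 13184625260) (nat_lit 117) (nat_lit 5) (nat_lit 122) (nat_lit 5) (nat_lit 118) (nat_lit 5) (nat_lit 679) (nat_lit 575) (nat_lit 306)) (XT.lf (nat_lit 0) (nat_lit 12210548846) (nat_lit 304) (nat_lit 12040196487) (nat_lit 380) (nat_lit 15812156475) (nat_lit 113) (nat_lit 5) (nat_lit 117) (nat_lit 5) (nat_lit 118) (nat_lit 5) (nat_lit 680) (nat_lit 575) (nat_lit 305)))) (XT.nd (nat_lit 156) (nat_lit 304) (nat_lit 0) (XT.nd (nat_lit 78) (nat_lit 304) (nat_lit 0) (XT.lf (nat_lit 0) (nat_lit 34961723759) (nat_lit 380)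 (nat_lit 2972855210) (nat_lit 76) (nat_lit 2634940246) (nat_lit 113) (nat_lit 5) (nat_lit 118) (nat_lit 5) (nat_lit 114) (nat_lit 5) (nat_lit 681) (nat_lit 575) (nat_lit 304)) (XT.lf (nat_lit 0) (nat_lit 4963010320) (nat_lit 304) (nat_lit 18497946500) (nat_lit 76) (nat_lit 17620182423) (nat_lit 109) (nat_lit 5) (nat_lit 113) (nat_lit 5) (nat_lit 110) (nat_lit 5) (nat_lit 682) (nat_lit 575) (nat_lit 303))) (XT.nd (nat_lit 78) (nat_lit 0) (nat_lit 0) (XT.lf (nat_lit 0) (nat_lit 7139812533) (nat_lit 304) (nat_lit 8594104288) (nat_lit 380) (nat_lit 25867058072) (nat_lit 105) (nat_lit 5) (nat_lit 109) (nat_lit 5) (nat_lit 110) (nat_lit 5) (nat_lit 683) (nat_lit 575) (nat_lit 302)) (XT.lf (nat_lit 0) (nat_lit 26885128266) (nat_lit 380) (nat_lit 8635768746) (nat_lit 76) (nat_lit 6607012540) (nat_lit 105) (nat_lit 5) (nat_lit 110) (nat_lit 5) (nat_lit 106) (nat_lit 5) (nat_lit 684) (nat_lit 575) (nat_lit 301))))))) (XT.nd (nat_lit 73788) (nat_lit 0) (nat_lit 25764)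 (XT.nd (nat_lit 73164) (nat_lit 0) (nat_lit 30856) (XT.nd (nat_lit 72852) (nat_lit 0) (nat_lit 30704) (XT.nd (nat_lit 72696) (nat_lit 0) (nat_lit 30704) (XT.lf (nat_lit 0) (nat_lit 17879161485) (nat_lit 228) (nat_lit 20550530273) (nat_lit 304) (nat_lit 4232284620) (nat_lit 102) (nat_lit 5) (nat_lit 105) (nat_lit 5) (nat_lit 106) (nat_lit 5) (nat_lit 685) (nat_lit 575) (nat_lit 300)) (XT.nd (nat_lit 78) (nat_lit 0) (nat_lit 0) (XT.lf (nat_lit 0) (nat_lit 263135349) (nat_lit 0) (nat_lit 263135349) (nat_lit 1748) (nat_lit 5772894461) (nat_lit 506) (nat_lit 5) (nat_lit 506) (nat_lit 3) (nat_lit 529) (nat_lit 3) (nat_lit 576) (nat_lit 576) (nat_lit 408)) (XT.lf (nat_lit 0) (nat_lit 1530457634) (nat_lit 1748) (nat_lit 5830242063) (nat_lit 1824) (nat_lit 5354252679) (nat_lit 506) (nat_lit 5) (nat_lit 529) (nat_lit 3) (nat_lit 530) (nat_lit 5) (nat_lit 577) (nat_lit 576) (nat_lit 407)))) (XT.nd (nat_lit 156) (nat_lit 0) (nat_lit 76) (XT.nd (nat_lit 78) (nat_lit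 0) (nat_lit 76) (XT.lf (nat_lit 76) (nat_lit 533998294) (nat_lit 0) (nat_lit 1479587153) (nat_lit 1824) (nat_lit 10820408715) (nat_lit 507) (nat_lit 5) (nat_lit 506) (nat_lit 5) (nat_lit 530) (nat_lit 5) (nat_lit 578) (nat_lit 576) (nat_lit 406)) (XT.lf (nat_lit 0) (nat_lit 2564018360) (nat_lit 1748) (nat_lit 5885830127) (nat_lit 1824) (nat_lit 4504415792) (nat_lit 507) (nat_lit 5) (nat_lit 530) (nat_lit 5) (nat_lit 531) (nat_lit 5) (nat_lit 579) (nat_lit 576) (nat_lit 405))) (XT.nd (nat_lit 78) (nat_lit 0) (nat_lit 76) (XT.lf (nat_lit 76) (nat_lit 649307353) (nat_lit 0) (nat_lit 2479302339) (nat_lit 1824) (nat_lit 9948267450) (nat_lit 508) (nat_lit 5) (nat_lit 507) (nat_lit 5) (nat_lit 531) (nat_lit 5) (nat_lit 580) (nat_lit 576) (nat_lit 404)) (XT.lf (nat_lit 0) (nat_lit 3757034309) (nat_lit 1748) (nat_lit 5836158867) (nat_lit 1824) (nat_lit 3607698587) (nat_lit 508) (nat_lit 5) (nat_lit 531) (nat_lit 5) (nat_lit 532) (nat_lit 5) (nat_lit 581) (nat_lit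 576) (nat_lit 403))))) (XT.nd (nat_lit 312) (nat_lit 0) (nat_lit 152) (XT.nd (nat_lit 156) (nat_lit 0) (nat_lit 76) (XT.nd (nat_lit 78) (nat_lit 0) (nat_lit 76) (XT.lf (nat_lit 76) (nat_lit 876038920) (nat_lit 0) (nat_lit 3533644669) (nat_lit 1824) (nat_lit 8917470291) (nat_lit 509) (nat_lit 5) (nat_lit 508) (nat_lit 5) (nat_lit 532) (nat_lit 5) (nat_lit 582) (nat_lit 576) (nat_lit 402)) (XT.lf (nat_lit 0) (nat_lit 5121737594) (nat_lit 1748) (nat_lit 5677317409) (nat_lit 1824) (nat_lit 2655959520) (nat_lit 509) (nat_lit 5) (nat_lit 532) (nat_lit 5) (nat_lit 533) (nat_lit 5) (nat_lit 583) (nat_lit 576) (nat_lit 401))) (XT.nd (nat_lit 78) (nat_lit 0) (nat_lit 76) (XT.lf (nat_lit 76) (nat_lit 1218352285) (nat_lit 0) (nat_lit 4650935487) (nat_lit 1824) (nat_lit 7715719818) (nat_lit 510) (nat_lit 5) (nat_lit 509) (nat_lit 5) (nat_lit 533) (nat_lit 5) (nat_lit 584) (nat_lit 576) (nat_lit 400)) (XT.lf (nat_lit 0) (nat_lit 6670782965) (nat_lit 1748) (nat_lit 5405080162)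 (nat_lit 1824) (nat_lit 1640957818) (nat_lit 510) (nat_lit 5) (nat_lit 533) (nat_lit 5) (nat_lit 534) (nat_lit 5) (nat_lit 585) (nat_lit 576) (nat_lit 399)))) (XT.nd (nat_lit 156) (nat_lit 0) (nat_lit 76) (XT.nd (nat_lit 78) (nat_lit 0) (nat_lit 76) (XT.lf (nat_lit 76) (nat_lit 1680730297) (nat_lit 0) (nat_lit 5839609561) (nat_lit 1824) (nat_lit 6330290373) (nat_lit 511) (nat_lit 5) (nat_lit 510) (nat_lit 5) (nat_lit 534) (nat_lit 5) (nat_lit 586) (nat_lit 576) (nat_lit 398)) (XT.lf (nat_lit 0) (nat_lit 8417273834) (nat_lit 1748) (nat_lit 5014901224) (nat_lit 1824) (nat_lit 554333222) (nat_lit 511) (nat_lit 5) (nat_lit 534) (nat_lit 5) (nat_lit 535) (nat_lit 5) (nat_lit 587) (nat_lit 576) (nat_lit 397))) (XT.nd (nat_lit 78) (nat_lit 0) (nat_lit 0) (XT.lf (nat_lit 76) (nat_lit 2267985359) (nat_lit 0) (nat_lit 7108235512) (nat_lit 1824) (nat_lit 4748001819) (nat_lit 512) (nat_lit 5) (nat_lit 511) (nat_lit 5) (nat_lit 535) (nat_lit 5) (nat_lit 588) (nat_lit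 576) (nat_lit 396)) (XT.lf (nat_lit 76) (nat_lit 9758265099) (nat_lit 0) (nat_lit 620552872) (nat_lit 1824) (nat_lit 3885384279) (nat_lit 512) (nat_lit 5) (nat_lit 511) (nat_lit 5) (nat_lit 535) (nat_lit 5) (nat_lit 589) (nat_lit 576) (nat_lit 395)))))) (XT.nd (nat_lit 624) (nat_lit 3648) (nat_lit 0) (XT.nd (nat_lit 312) (nat_lit 0) (nat_lit 76) (XT.nd (nat_lit 156) (nat_lit 1748) (nat_lit 0) (XT.nd (nat_lit 78) (nat_lit 0) (nat_lit 0) (XT.lf (nat_lit 76) (nat_lit 2985266103) (nat_lit 0) (nat_lit 8465536211) (nat_lit 1824) (nat_lit 2955192659) (nat_lit 513) (nat_lit 5) (nat_lit 512) (nat_lit 5) (nat_lit 536) (nat_lit 5) (nat_lit 590) (nat_lit 576) (nat_lit 394)) (XT.lf (nat_lit 76) (nat_lit 10676930441) (nat_lit 0) (nat_lit 1892768298) (nat_lit 1824) (nat_lit 1980415635) (nat_lit 513) (nat_lit 5) (nat_lit 512) (nat_lit 5) (nat_lit 536) (nat_lit 5) (nat_lit 591) (nat_lit 576) (nat_lit 393))) (XT.nd (nat_lit 78) (nat_lit 1824) (nat_lit 0) (XT.lf (nat_lit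 76) (nat_lit 3838064738) (nat_lit 0) (nat_lit 9920409209) (nat_lit 1824) (nat_lit 937692466) (nat_lit 514) (nat_lit 5) (nat_lit 513) (nat_lit 5) (nat_lit 537) (nat_lit 5) (nat_lit 592) (nat_lit 576) (nat_lit 392)) (XT.lf (nat_lit 0) (nat_lit 154346805) (nat_lit 1824) (nat_lit 3108521130) (nat_lit 1900) (nat_lit 11581653215) (nat_lit 489) (nat_lit 5) (nat_lit 513) (nat_lit 5) (nat_lit 514) (nat_lit 5) (nat_lit 593) (nat_lit 576) (nat_lit 391)))) (XT.nd (nat_lit 156) (nat_lit 0) (nat_lit 76) (XT.nd (nat_lit 78) (nat_lit 0) (nat_lit 0) (XT.lf (nat_lit 0) (nat_lit 1301904801) (nat_lit 1824) (nat_lit 10171305973) (nat_lit 1900) (nat_lit 3521583823) (nat_lit 490) (nat_lit 5) (nat_lit 514) (nat_lit 5) (nat_lit 515) (nat_lit 5) (nat_lit 594) (nat_lit 576) (nat_lit 390)) (XT.lf (nat_lit 0) (nat_lit 2506740902) (nat_lit 1824) (nat_lit 2219557122) (nat_lit 1900) (nat_lit 10421089198) (nat_lit 490) (nat_lit 5) (nat_lit 514) (nat_lit 5) (nat_lit 515) (nat_lit 5) (nat_lit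 595) (nat_lit 576) (nat_lit 389))) (XT.nd (nat_lit 78) (nat_lit 0) (nat_lit 0) (XT.lf (nat_lit 0) (nat_lit 3780536712) (nat_lit 1824) (nat_lit 9353552755) (nat_lit 1900) (nat_lit 2168045213) (nat_lit 491) (nat_lit 5) (nat_lit 515) (nat_lit 5) (nat_lit 516) (nat_lit 5) (nat_lit 596) (nat_lit 576) (nat_lit 388)) (XT.lf (nat_lit 0) (nat_lit 5118114167) (nat_lit 1824) (nat_lit 1187340989) (nat_lit 1900) (nat_lit 9153756054) (nat_lit 491) (nat_lit 5) (nat_lit 515) (nat_lit 5) (nat_lit 516) (nat_lit 5) (nat_lit 597) (nat_lit 576) (nat_lit 387))))) (XT.nd (nat_lit 312) (nat_lit 2128) (nat_lit 0) (XT.nd (nat_lit 156) (nat_lit 1748) (nat_lit 0) (XT.nd (nat_lit 78) (nat_lit 0) (nat_lit 0) (XT.lf (nat_lit 0) (nat_lit 6526163462) (nat_lit 1824) (nat_lit 8392531775) (nat_lit 1900) (nat_lit 699859862) (nat_lit 492) (nat_lit 5) (nat_lit 516) (nat_lit 5) (nat_lit 517) (nat_lit 5) (nat_lit 598) (nat_lit 576) (nat_lit 386)) (XT.lf (nat_lit 0) (nat_lit 8004443779) (nat_lit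 1824) (nat_lit 5417578) (nat_lit 1900) (nat_lit 7770383333) (nat_lit 492) (nat_lit 5) (nat_lit 516) (nat_lit 5) (nat_lit 517) (nat_lit 5) (nat_lit 599) (nat_lit 576) (nat_lit 385))) (XT.nd (nat_lit 78) (nat_lit 1748) (nat_lit 0) (XT.lf (nat_lit 76) (nat_lit 8656668783) (nat_lit 0) (nat_lit 904268507) (nat_lit 1900) (nat_lit 6383258057) (nat_lit 493) (nat_lit 5) (nat_lit 492) (nat_lit 5) (nat_lit 517) (nat_lit 5) (nat_lit 600) (nat_lit 576) (nat_lit 384)) (XT.lf (nat_lit 0) (nat_lit 1350756056) (nat_lit 1824) (nat_lit 9840354993) (nat_lit 1900) (nat_lit 4919463178) (nat_lit 469) (nat_lit 5) (nat_lit 493) (nat_lit 5) (nat_lit 494) (nat_lit 5) (nat_lit 601) (nat_lit 576) (nat_lit 383)))) (XT.nd (nat_lit 156) (nat_lit 988) (nat_lit 0) (XT.nd (nat_lit 78) (nat_lit 1140) (nat_lit 0) (XT.lf (nat_lit 0) (nat_lit 10248143450) (nat_lit 1824) (nat_lit 2653259607) (nat_lit 1900) (nat_lit 3377927548) (nat_lit 469) (nat_lit 5) (nat_lit 493) (nat_lit 5) (nat_lit 494)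 (nat_lit 5) (nat_lit 602) (nat_lit 576) (nat_lit 382)) (XT.lf (nat_lit 0) (nat_lit 2872923189) (nat_lit 1140) (nat_lit 11814813061) (nat_lit 1216) (nat_lit 1762889363) (nat_lit 454) (nat_lit 5) (nat_lit 469) (nat_lit 5) (nat_lit 470) (nat_lit 5) (nat_lit 603) (nat_lit 576) (nat_lit 381))) (XT.nd (nat_lit 78) (nat_lit 988) (nat_lit 0) (XT.lf (nat_lit 0) (nat_lit 12012705164) (nat_lit 1140) (nat_lit 4547931162) (nat_lit 1216) (nat_lit 63693598) (nat_lit 454) (nat_lit 5) (nat_lit 469) (nat_lit 5) (nat_lit 470) (nat_lit 5) (nat_lit 604) (nat_lit 576) (nat_lit 380)) (XT.lf (nat_lit 0) (nat_lit 1689179627) (nat_lit 988) (nat_lit 12243077321) (nat_lit 76) (nat_lit 2868203000) (nat_lit 441) (nat_lit 5) (nat_lit 454) (nat_lit 5) (nat_lit 442) (nat_lit 5) (nat_lit 605) (nat_lit 576) (nat_lit 379))))))))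
noncomputable def xc169 : XT := (XT.nd (nat_lit 2418) (nat_lit 8968) (nat_lit 0) (XT.nd (nat_lit 1170) (nat_lit 6156) (nat_lit 0) (XT.nd (nat_lit 546) (nat_lit 3192) (nat_lit 0) (XT.nd (nat_lit 234) (nat_lit 2584) (nat_lit 0) (XT.nd (nat_lit 78) (nat_lit 912) (nat_lit 0) (XT.lf (nat_lit 0) (nat_lit 3530633573) (nat_lit 988) (nat_lit 3044386295) (nat_lit 76) (nat_lit 10403996957) (nat_lit 441) (nat_lit 5) (nat_lit 454) (nat_lit 5) (nat_lit 442) (nat_lit 5) (nat_lit 606) (nat_lit 576) (nat_lit 378)) (XT.nd (nat_lit 78) (nat_lit 0) (nat_lit 0) (XT.lf (nat_lit 0) (nat_lit 5450127596) (nat_lit 988) (nat_lit 10750635806) (nat_lit 76) (nat_lit 959557406) (nat_lit 429) (nat_lit 5) (nat_lit 442) (nat_lit 5) (nat_lit 430) (nat_lit 5) (nat_lit 607) (nat_lit 576) (nat_lit 377)) (XT.lf (nat_lit 0) (nat_lit 7465454318) (nat_lit 988) (nat_lit 1300813319) (nat_lit 76) (nat_lit 8577834567) (nat_lit 429) (nat_lit 5) (nat_lit 442) (nat_lit 5) (nat_lit 430) (nat_lit 5) (nat_lit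 608) (nat_lit 576) (nat_lit 376)))) (XT.nd (nat_lit 156) (nat_lit 836) (nat_lit 0) (XT.nd (nat_lit 78) (nat_lit 912) (nat_lit 0) (XT.lf (nat_lit 0) (nat_lit 8442457668) (nat_lit 836) (nat_lit 1126909540) (nat_lit 912) (nat_lit 7961226609) (nat_lit 418) (nat_lit 5) (nat_lit 429) (nat_lit 5) (nat_lit 430) (nat_lit 5) (nat_lit 609) (nat_lit 576) (nat_lit 375)) (XT.lf (nat_lit 0) (nat_lit 636236122) (nat_lit 912) (nat_lit 11128869852) (nat_lit 988) (nat_lit 5954714516) (nat_lit 406) (nat_lit 5) (nat_lit 418) (nat_lit 5) (nat_lit 419) (nat_lit 5) (nat_lit 610) (nat_lit 576) (nat_lit 374))) (XT.nd (nat_lit 78) (nat_lit 836) (nat_lit 0) (XT.lf (nat_lit 0) (nat_lit 10664406062) (nat_lit 912) (nat_lit 3402393524) (nat_lit 988) (nat_lit 3844791483) (nat_lit 406) (nat_lit 5) (nat_lit 418) (nat_lit 5) (nat_lit 419) (nat_lit 5) (nat_lit 611) (nat_lit 576) (nat_lit 373)) (XT.lf (nat_lit 0) (nat_lit 2787096572) (nat_lit 836) (nat_lit 13668369280) (nat_lit 912) (nat_lit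 1650912607) (nat_lit 395) (nat_lit 5) (nat_lit 406) (nat_lit 5) (nat_lit 407) (nat_lit 5) (nat_lit 612) (nat_lit 576) (nat_lit 372))))) (XT.nd (nat_lit 312) (nat_lit 1520) (nat_lit 0) (XT.nd (nat_lit 156) (nat_lit 760) (nat_lit 0) (XT.nd (nat_lit 78) (nat_lit 836) (nat_lit 0) (XT.lf (nat_lit 0) (nat_lit 644439730) (nat_lit 912) (nat_lit 5216814140) (nat_lit 76) (nat_lit 12442425841) (nat_lit 394) (nat_lit 5) (nat_lit 406) (nat_lit 5) (nat_lit 395) (nat_lit 5) (nat_lit 613) (nat_lit 576) (nat_lit 371)) (XT.lf (nat_lit 0) (nat_lit 3004839694) (nat_lit 912) (nat_lit 13380185232) (nat_lit 76) (nat_lit 2118859047) (nat_lit 383) (nat_lit 5) (nat_lit 395) (nat_lit 5) (nat_lit 384) (nat_lit 5) (nat_lit 614) (nat_lit 576) (nat_lit 370))) (XT.nd (nat_lit 78) (nat_lit 760) (nat_lit 0) (XT.lf (nat_lit 0) (nat_lit 5480507858) (nat_lit 912) (nat_lit 3011017865) (nat_lit 76) (nat_lit 10215205552) (nat_lit 383) (nat_lit 5) (nat_lit 395) (nat_lit 5) (nat_lit 384) (nat_lit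 5) (nat_lit 615) (nat_lit 576) (nat_lit 369)) (XT.lf (nat_lit 0) (nat_lit 7659801568) (nat_lit 760) (nat_lit 389742432) (nat_lit 836) (nat_lit 10863214588) (nat_lit 373) (nat_lit 5) (nat_lit 383) (nat_lit 5) (nat_lit 384) (nat_lit 5) (nat_lit 616) (nat_lit 576) (nat_lit 368)))) (XT.nd (nat_lit 156) (nat_lit 760) (nat_lit 0) (XT.nd (nat_lit 78) (nat_lit 760) (nat_lit 0) (XT.lf (nat_lit 0) (nat_lit 10735619084) (nat_lit 836) (nat_lit 595171521) (nat_lit 76) (nat_lit 7790802830) (nat_lit 373) (nat_lit 5) (nat_lit 384) (nat_lit 5) (nat_lit 374) (nat_lit 5) (nat_lit 617) (nat_lit 576) (nat_lit 367)) (XT.lf (nat_lit 0) (nat_lit 10403490919) (nat_lit 760) (nat_lit 3136361177) (nat_lit 836) (nat_lit 5793464307) (nat_lit 363) (nat_lit 5) (nat_lit 373) (nat_lit 5) (nat_lit 374) (nat_lit 5) (nat_lit 618) (nat_lit 576) (nat_lit 366))) (XT.nd (nat_lit 78) (nat_lit 0) (nat_lit 0) (XT.lf (nat_lit 0) (nat_lit 2067981108) (nat_lit 760) (nat_lit 14377917971) (nat_lit 836)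 (nat_lit 3102460311) (nat_lit 353) (nat_lit 5) (nat_lit 363) (nat_lit 5) (nat_lit 364) (nat_lit 5) (nat_lit 619) (nat_lit 576) (nat_lit 365)) (XT.lf (nat_lit 0) (nat_lit 13379573847) (nat_lit 760) (nat_lit 6105498955) (nat_lit 836) (nat_lit 281130463) (nat_lit 353) (nat_lit 5) (nat_lit 363) (nat_lit 5) (nat_lit 364) (nat_lit 5) (nat_lit 620) (nat_lit 576) (nat_lit 364)))))) (XT.nd (nat_lit 624) (nat_lit 2508) (nat_lit 0) (XT.nd (nat_lit 312) (nat_lit 2128) (nat_lit 0) (XT.nd (nat_lit 156) (nat_lit 684) (nat_lit 0) (XT.nd (nat_lit 78) (nat_lit 0) (nat_lit 0) (XT.lf (nat_lit 0) (nat_lit 2604832378) (nat_lit 836) (nat_lit 15031783274) (nat_lit 76) (nat_lit 2350606093) (nat_lit 342) (nat_lit 5) (nat_lit 353) (nat_lit 5) (nat_lit 343) (nat_lit 5) (nat_lit 621) (nat_lit 576) (nat_lit 363)) (XT.lf (nat_lit 0) (nat_lit 5622913194) (nat_lit 836) (nat_lit 3649647876) (nat_lit 76) (nat_lit 10938499233) (nat_lit 342) (nat_lit 5) (nat_lit 353) (nat_lit 5) (nat_lit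 343) (nat_lit 5) (nat_lit 622) (nat_lit 576) (nat_lit 362))) (XT.nd (nat_lit 78) (nat_lit 0) (nat_lit 0) (XT.lf (nat_lit 0) (nat_lit 8059771651) (nat_lit 684) (nat_lit 688603846) (nat_lit 760) (nat_lit 11690059872) (nat_lit 333) (nat_lit 5) (nat_lit 342) (nat_lit 5) (nat_lit 343) (nat_lit 5) (nat_lit 623) (nat_lit 576) (nat_lit 361)) (XT.lf (nat_lit 0) (nat_lit 12008127246) (nat_lit 760) (nat_lit 675679327) (nat_lit 76) (nat_lit 7985115890) (nat_lit 333) (nat_lit 5) (nat_lit 343) (nat_lit 5) (nat_lit 334) (nat_lit 5) (nat_lit 624) (nat_lit 576) (nat_lit 360)))) (XT.nd (nat_lit 156) (nat_lit 760) (nat_lit 0) (XT.nd (nat_lit 78) (nat_lit 684) (nat_lit 0) (XT.lf (nat_lit 0) (nat_lit 11400317758) (nat_lit 684) (nat_lit 4006188342) (nat_lit 760) (nat_lit 5496044686) (nat_lit 324) (nat_lit 5) (nat_lit 333) (nat_lit 5) (nat_lit 334) (nat_lit 5) (nat_lit 625) (nat_lit 576) (nat_lit 359)) (XT.lf (nat_lit 0) (nat_lit 2582556103) (nat_lit 684) (nat_lit 16337994957)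 (nat_lit 760) (nat_lit 2219346770) (nat_lit 315) (nat_lit 5) (nat_lit 324) (nat_lit 5) (nat_lit 325) (nat_lit 5) (nat_lit 626) (nat_lit 576) (nat_lit 358))) (XT.nd (nat_lit 78) (nat_lit 684) (nat_lit 0) (XT.lf (nat_lit 0) (nat_lit 1193813701) (nat_lit 760) (nat_lit 6383202132) (nat_lit 76) (nat_lit 13803117184) (nat_lit 314) (nat_lit 5) (nat_lit 324) (nat_lit 5) (nat_lit 315) (nat_lit 5) (nat_lit 627) (nat_lit 576) (nat_lit 357)) (XT.lf (nat_lit 0) (nat_lit 4689326210) (nat_lit 760) (nat_lit 15539691068) (nat_lit 76) (nat_lit 1394986233) (nat_lit 305) (nat_lit 5) (nat_lit 315) (nat_lit 5) (nat_lit 306) (nat_lit 5) (nat_lit 628) (nat_lit 576) (nat_lit 356))))) (XT.nd (nat_lit 312) (nat_lit 1292) (nat_lit 0) (XT.nd (nat_lit 156) (nat_lit 608) (nat_lit 0) (XT.nd (nat_lit 78) (nat_lit 608) (nat_lit 0) (XT.lf (nat_lit 0) (nat_lit 8343134768) (nat_lit 760) (nat_lit 3040674985) (nat_lit 76) (nat_lit 10487174062) (nat_lit 305) (nat_lit 5) (nat_lit 315) (nat_lit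 5) (nat_lit 306) (nat_lit 5) (nat_lit 629) (nat_lit 576) (nat_lit 355)) (XT.lf (nat_lit 0) (nat_lit 9831358540) (nat_lit 608) (nat_lit 2297677528) (nat_lit 684) (nat_lit 9992687440) (nat_lit 297) (nat_lit 5) (nat_lit 305) (nat_lit 5) (nat_lit 306) (nat_lit 5) (nat_lit 630) (nat_lit 576) (nat_lit 354))) (XT.nd (nat_lit 78) (nat_lit 0) (nat_lit 0) (XT.lf (nat_lit 0) (nat_lit 581260988) (nat_lit 608) (nat_lit 15474197046) (nat_lit 684) (nat_lit 6320724020) (nat_lit 289) (nat_lit 5) (nat_lit 297) (nat_lit 5) (nat_lit 298) (nat_lit 5) (nat_lit 631) (nat_lit 576) (nat_lit 353)) (XT.lf (nat_lit 0) (nat_lit 13855586938) (nat_lit 608) (nat_lit 6297701711) (nat_lit 684) (nat_lit 2480583626) (nat_lit 289) (nat_lit 5) (nat_lit 297) (nat_lit 5) (nat_lit 298) (nat_lit 5) (nat_lit 632) (nat_lit 576) (nat_lit 352)))) (XT.nd (nat_lit 156) (nat_lit 608) (nat_lit 0) (XT.nd (nat_lit 78) (nat_lit 0) (nat_lit 0) (XT.lf (nat_lit 0) (nat_lit 1462500814) (nat_lit 684) (nat_lit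 18373083168) (nat_lit 76) (nat_lit 3060046321) (nat_lit 280) (nat_lit 5) (nat_lit 289) (nat_lit 5) (nat_lit 281) (nat_lit 5) (nat_lit 633) (nat_lit 576) (nat_lit 351)) (XT.lf (nat_lit 0) (nat_lit 5547662832) (nat_lit 684) (nat_lit 5017486083) (nat_lit 76) (nat_lit 12595218129) (nat_lit 280) (nat_lit 5) (nat_lit 289) (nat_lit 5) (nat_lit 281) (nat_lit 5) (nat_lit 634) (nat_lit 576) (nat_lit 350))) (XT.nd (nat_lit 78) (nat_lit 0) (nat_lit 0) (XT.lf (nat_lit 0) (nat_lit 8713716167) (nat_lit 608) (nat_lit 1052873610) (nat_lit 684) (nat_lit 13662767611) (nat_lit 272) (nat_lit 5) (nat_lit 280) (nat_lit 5) (nat_lit 281) (nat_lit 5) (nat_lit 635) (nat_lit 576) (nat_lit 349)) (XT.lf (nat_lit 0) (nat_lit 14155476723) (nat_lit 684) (nat_lit 977712187) (nat_lit 76) (nat_lit 8568827097) (nat_lit 272) (nat_lit 5) (nat_lit 281) (nat_lit 5) (nat_lit 273) (nat_lit 5) (nat_lit 636) (nat_lit 576) (nat_lit 348))))))) (XT.nd (nat_lit 1170) (nat_lit 4180) (nat_lit 0) (XT.nd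 (nat_lit 546) (nat_lit 2052) (nat_lit 0) (XT.nd (nat_lit 234) (nat_lit 1520) (nat_lit 0) (XT.nd (nat_lit 78) (nat_lit 684) (nat_lit 0) (XT.lf (nat_lit 0) (nat_lit 13195344790) (nat_lit 532) (nat_lit 5525059144) (nat_lit 608) (nat_lit 5257958712) (nat_lit 265) (nat_lit 5) (nat_lit 272) (nat_lit 5) (nat_lit 273) (nat_lit 5) (nat_lit 637) (nat_lit 576) (nat_lit 347)) (XT.nd (nat_lit 78) (nat_lit 76) (nat_lit 0) (XT.lf (nat_lit 0) (nat_lit 3416257072) (nat_lit 608) (nat_lit 20012572541) (nat_lit 684) (nat_lit 830362701) (nat_lit 257) (nat_lit 5) (nat_lit 265) (nat_lit 5) (nat_lit 266) (nat_lit 5) (nat_lit 638) (nat_lit 576) (nat_lit 346)) (XT.lf (nat_lit 0) (nat_lit 3742550951) (nat_lit 684) (nat_lit 6565284173) (nat_lit 76) (nat_lit 14235222824) (nat_lit 256) (nat_lit 5) (nat_lit 265) (nat_lit 5) (nat_lit 257) (nat_lit 5) (nat_lit 639) (nat_lit 576) (nat_lit 345)))) (XT.nd (nat_lit 156) (nat_lit 988) (nat_lit 0) (XT.nd (nat_lit 78) (nat_lit 0) (nat_lit 0)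 (XT.lf (nat_lit 0) (nat_lit 8092896528) (nat_lit 532) (nat_lit 351224141) (nat_lit 608) (nat_lit 16387404213) (nat_lit 249) (nat_lit 5) (nat_lit 256) (nat_lit 5) (nat_lit 257) (nat_lit 5) (nat_lit 640) (nat_lit 576) (nat_lit 344)) (XT.lf (nat_lit 0) (nat_lit 13343526265) (nat_lit 608) (nat_lit 2061295672) (nat_lit 76) (nat_lit 9718863219) (nat_lit 249) (nat_lit 5) (nat_lit 257) (nat_lit 5) (nat_lit 250) (nat_lit 5) (nat_lit 641) (nat_lit 576) (nat_lit 343))) (XT.nd (nat_lit 78) (nat_lit 456) (nat_lit 0) (XT.lf (nat_lit 0) (nat_lit 13073124409) (nat_lit 532) (nat_lit 5350882084) (nat_lit 608) (nat_lit 6996020496) (nat_lit 242) (nat_lit 5) (nat_lit 249) (nat_lit 5) (nat_lit 250) (nat_lit 5) (nat_lit 642) (nat_lit 576) (nat_lit 342)) (XT.lf (nat_lit 0) (nat_lit 2815524038) (nat_lit 456) (nat_lit 20850533676) (nat_lit 532) (nat_lit 2055038801) (nat_lit 236) (nat_lit 5) (nat_lit 242) (nat_lit 5) (nat_lit 243) (nat_lit 5) (nat_lit 643) (nat_lit 576) (nat_lit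 341))))) (XT.nd (nat_lit 312) (nat_lit 988) (nat_lit 0) (XT.nd (nat_lit 156) (nat_lit 456) (nat_lit 0) (XT.nd (nat_lit 78) (nat_lit 532) (nat_lit 0) (XT.lf (nat_lit 0) (nat_lit 3060389258) (nat_lit 532) (nat_lit 7638971672) (nat_lit 76) (nat_lit 15326143555) (nat_lit 235) (nat_lit 5) (nat_lit 242) (nat_lit 5) (nat_lit 236) (nat_lit 5) (nat_lit 644) (nat_lit 576) (nat_lit 340)) (XT.lf (nat_lit 0) (nat_lit 8018990794) (nat_lit 532) (nat_lit 279721389) (nat_lit 608) (nat_lit 18036054768) (nat_lit 228) (nat_lit 5) (nat_lit 235) (nat_lit 5) (nat_lit 236) (nat_lit 5) (nat_lit 645) (nat_lit 576) (nat_lit 339))) (XT.nd (nat_lit 78) (nat_lit 456) (nat_lit 0) (XT.lf (nat_lit 0) (nat_lit 13756636048) (nat_lit 608) (nat_lit 2628620080) (nat_lit 76) (nat_lit 10262661927) (nat_lit 228) (nat_lit 5) (nat_lit 236) (nat_lit 5) (nat_lit 229) (nat_lit 5) (nat_lit 646) (nat_lit 576) (nat_lit 338)) (XT.lf (nat_lit 0) (nat_lit 13542585350) (nat_lit 456) (nat_lit 5867035868)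 (nat_lit 532) (nat_lit 7555992984) (nat_lit 222) (nat_lit 5) (nat_lit 228) (nat_lit 5) (nat_lit 229) (nat_lit 5) (nat_lit 647) (nat_lit 576) (nat_lit 337)))) (XT.nd (nat_lit 156) (nat_lit 456) (nat_lit 0) (XT.nd (nat_lit 78) (nat_lit 76) (nat_lit 0) (XT.lf (nat_lit 0) (nat_lit 2782866228) (nat_lit 456) (nat_lit 22456342203) (nat_lit 532) (nat_lit 2049185069) (nat_lit 216) (nat_lit 5) (nat_lit 222) (nat_lit 5) (nat_lit 223) (nat_lit 5) (nat_lit 648) (nat_lit 576) (nat_lit 336)) (XT.lf (nat_lit 0) (nat_lit 3646662105) (nat_lit 532) (nat_lit 8189110596) (nat_lit 76) (nat_lit 15778878572) (nat_lit 215) (nat_lit 5) (nat_lit 222) (nat_lit 5) (nat_lit 216) (nat_lit 5) (nat_lit 649) (nat_lit 576) (nat_lit 335))) (XT.nd (nat_lit 78) (nat_lit 0) (nat_lit 0) (XT.lf (nat_lit 0) (nat_lit 8546763546) (nat_lit 456) (nat_lit 933984373) (nat_lit 532) (nat_lit 18465380246) (nat_lit 209) (nat_lit 5) (nat_lit 215) (nat_lit 5) (nat_lit 216) (nat_lit 5) (nat_lit 650) (nat_lit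 576) (nat_lit 334)) (XT.lf (nat_lit 0) (nat_lit 15549237461) (nat_lit 532) (nat_lit 2626692716) (nat_lit 76) (nat_lit 10105950046) (nat_lit 209) (nat_lit 5) (nat_lit 216) (nat_lit 5) (nat_lit 210) (nat_lit 5) (nat_lit 651) (nat_lit 576) (nat_lit 333)))))) (XT.nd (nat_lit 624) (nat_lit 1976) (nat_lit 0) (XT.nd (nat_lit 312) (nat_lit 836) (nat_lit 0) (XT.nd (nat_lit 156) (nat_lit 532) (nat_lit 0) (XT.nd (nat_lit 78) (nat_lit 380) (nat_lit 0) (XT.lf (nat_lit 0) (nat_lit 14662230628) (nat_lit 456) (nat_lit 7174593138) (nat_lit 532) (nat_lit 6785569085) (nat_lit 203) (nat_lit 5) (nat_lit 209) (nat_lit 5) (nat_lit 210) (nat_lit 5) (nat_lit 652) (nat_lit 576) (nat_lit 332)) (XT.lf (nat_lit 0) (nat_lit 3375715680) (nat_lit 380) (nat_lit 24936752368) (nat_lit 456) (nat_lit 656001625) (nat_lit 198) (nat_lit 5) (nat_lit 203) (nat_lit 5) (nat_lit 204) (nat_lit 5) (nat_lit 653) (nat_lit 576) (nat_lit 331))) (XT.nd (nat_lit 78) (nat_lit 456) (nat_lit 0) (XT.lf (nat_lit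 0) (nat_lit 5660961043) (nat_lit 456) (nat_lit 8161871952) (nat_lit 76) (nat_lit 15495144453) (nat_lit 197) (nat_lit 5) (nat_lit 203) (nat_lit 5) (nat_lit 198) (nat_lit 5) (nat_lit 654) (nat_lit 576) (nat_lit 330)) (XT.lf (nat_lit 0) (nat_lit 9735719936) (nat_lit 456) (nat_lit 2419433200) (nat_lit 532) (nat_lit 17518042100) (nat_lit 191) (nat_lit 5) (nat_lit 197) (nat_lit 5) (nat_lit 198) (nat_lit 5) (nat_lit 655) (nat_lit 576) (nat_lit 329)))) (XT.nd (nat_lit 156) (nat_lit 456) (nat_lit 0) (XT.nd (nat_lit 78) (nat_lit 380) (nat_lit 0) (XT.lf (nat_lit 0) (nat_lit 18890652537) (nat_lit 532) (nat_lit 1997969114) (nat_lit 76) (nat_lit 9144667323) (nat_lit 191) (nat_lit 5) (nat_lit 198) (nat_lit 5) (nat_lit 192) (nat_lit 5) (nat_lit 656) (nat_lit 576) (nat_lit 328)) (XT.lf (nat_lit 0) (nat_lit 16495475219) (nat_lit 380) (nat_lit 9385057685) (nat_lit 456) (nat_lit 4517658322) (nat_lit 186) (nat_lit 5) (nat_lit 191) (nat_lit 5) (nat_lit 192) (nat_lit 5) (nat_lit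 657) (nat_lit 576) (nat_lit 327))) (XT.nd (nat_lit 78) (nat_lit 0) (nat_lit 0) (XT.lf (nat_lit 0) (nat_lit 2266359801) (nat_lit 456) (nat_lit 26127905699) (nat_lit 76) (nat_lit 2374716912) (nat_lit 180) (nat_lit 5) (nat_lit 186) (nat_lit 5) (nat_lit 181) (nat_lit 5) (nat_lit 658) (nat_lit 576) (nat_lit 326)) (XT.lf (nat_lit 0) (nat_lit 9278271496) (nat_lit 456) (nat_lit 7499016962) (nat_lit 76) (nat_lit 14366249694) (nat_lit 180) (nat_lit 5) (nat_lit 186) (nat_lit 5) (nat_lit 181) (nat_lit 5) (nat_lit 659) (nat_lit 576) (nat_lit 325))))) (XT.nd (nat_lit 312) (nat_lit 760) (nat_lit 0) (XT.nd (nat_lit 156) (nat_lit 836) (nat_lit 0) (XT.nd (nat_lit 78) (nat_lit 0) (nat_lit 0) (XT.lf (nat_lit 0) (nat_lit 11650140410) (nat_lit 380) (nat_lit 4852571475) (nat_lit 456) (nat_lit 15021427368) (nat_lit 175) (nat_lit 5) (nat_lit 180) (nat_lit 5) (nat_lit 181) (nat_lit 5) (nat_lit 660) (nat_lit 576) (nat_lit 324)) (XT.lf (nat_lit 0) (nat_lit 23966433635) (nat_lit 456)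 (nat_lit 680336912) (nat_lit 76) (nat_lit 7263686032) (nat_lit 175) (nat_lit 5) (nat_lit 181) (nat_lit 5) (nat_lit 176) (nat_lit 5) (nat_lit 661) (nat_lit 576) (nat_lit 323))) (XT.nd (nat_lit 78) (nat_lit 456) (nat_lit 0) (XT.lf (nat_lit 0) (nat_lit 19110678201) (nat_lit 380) (nat_lit 12621703737) (nat_lit 456) (nat_lit 569059325) (nat_lit 170) (nat_lit 5) (nat_lit 175) (nat_lit 5) (nat_lit 176) (nat_lit 5) (nat_lit 662) (nat_lit 576) (nat_lit 322)) (XT.lf (nat_lit 0) (nat_lit 6643501772) (nat_lit 380) (nat_lit 263183143) (nat_lit 456) (nat_lit 25791768326) (nat_lit 164) (nat_lit 5) (nat_lit 169) (nat_lit 5) (nat_lit 170) (nat_lit 5) (nat_lit 663) (nat_lit 576) (nat_lit 321)))) (XT.nd (nat_lit 156) (nat_lit 380) (nat_lit 0) (XT.nd (nat_lit 78) (nat_lit 380) (nat_lit 0) (XT.lf (nat_lit 0) (nat_lit 14690336957) (nat_lit 456) (nat_lit 6137923362) (nat_lit 76) (nat_lit 12271749707) (nat_lit 164) (nat_lit 5) (nat_lit 170) (nat_lit 5) (nat_lit 165) (nat_lit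 5) (nat_lit 664) (nat_lit 576) (nat_lit 320)) (XT.lf (nat_lit 0) (nat_lit 14359069390) (nat_lit 380) (nat_lit 8362394170) (nat_lit 456) (nat_lit 10786298408) (nat_lit 159) (nat_lit 5) (nat_lit 164) (nat_lit 5) (nat_lit 165) (nat_lit 5) (nat_lit 665) (nat_lit 576) (nat_lit 319))) (XT.nd (nat_lit 78) (nat_lit 76) (nat_lit 0) (XT.lf (nat_lit 0) (nat_lit 1411360839) (nat_lit 304) (nat_lit 29577586621) (nat_lit 380) (nat_lit 2933206841) (nat_lit 155) (nat_lit 5) (nat_lit 159) (nat_lit 5) (nat_lit 160) (nat_lit 5) (nat_lit 666) (nat_lit 576) (nat_lit 318)) (XT.lf (nat_lit 0) (nat_lit 5191947970) (nat_lit 380) (nat_lit 11794260132) (nat_lit 76) (nat_lit 17354335437) (nat_lit 154) (nat_lit 5) (nat_lit 159) (nat_lit 5) (nat_lit 155) (nat_lit 5) (nat_lit 667) (nat_lit 576) (nat_lit 317))))))))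
noncomputable def xc170 : XT := (XT.nd (nat_lit 75114) (nat_lit 0) (nat_lit 18848) (XT.nd (nat_lit 1170) (nat_lit 608) (nat_lit 0) (XT.nd (nat_lit 546) (nat_lit 1672) (nat_lit 0) (XT.nd (nat_lit 234) (nat_lit 760) (nat_lit 0) (XT.nd (nat_lit 78) (nat_lit 304) (nat_lit 0) (XT.lf (nat_lit 0) (nat_lit 9436049312) (nat_lit 380) (nat_lit 4062501949) (nat_lit 456) (nat_lit 21267197156) (nat_lit 149) (nat_lit 5) (nat_lit 154) (nat_lit 5) (nat_lit 155) (nat_lit 5) (nat_lit 668) (nat_lit 576) (nat_lit 316)) (XT.nd (nat_lit 78) (nat_lit 304) (nat_lit 0) (XT.lf (nat_lit 0) (nat_lit 22107103884) (nat_lit 456) (nat_lit 4011672459) (nat_lit 76) (nat_lit 9077964751) (nat_lit 149) (nat_lit 5) (nat_lit 155) (nat_lit 5) (nat_lit 150) (nat_lit 5) (nat_lit 669) (nat_lit 576) (nat_lit 315)) (XT.lf (nat_lit 0) (nat_lit 17936241812) (nat_lit 304) (nat_lit 13091940208) (nat_lit 380) (nat_lit 4605364558) (nat_lit 145) (nat_lit 5) (nat_lit 149) (nat_lit 5) (nat_lit 150) (nat_lit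 5) (nat_lit 670) (nat_lit 576) (nat_lit 314)))) (XT.nd (nat_lit 156) (nat_lit 304) (nat_lit 0) (XT.nd (nat_lit 78) (nat_lit 0) (nat_lit 0) (XT.lf (nat_lit 0) (nat_lit 4049472167) (nat_lit 456) (nat_lit 31754935161) (nat_lit 76) (nat_lit 273075630) (nat_lit 139) (nat_lit 5) (nat_lit 145) (nat_lit 5) (nat_lit 140) (nat_lit 5) (nat_lit 671) (nat_lit 576) (nat_lit 313)) (XT.lf (nat_lit 0) (nat_lit 13019064278) (nat_lit 456) (nat_lit 9628051167) (nat_lit 76) (nat_lit 13878507343) (nat_lit 139) (nat_lit 5) (nat_lit 145) (nat_lit 5) (nat_lit 140) (nat_lit 5) (nat_lit 672) (nat_lit 576) (nat_lit 312))) (XT.nd (nat_lit 78) (nat_lit 0) (nat_lit 0) (XT.lf (nat_lit 0) (nat_lit 13108556155) (nat_lit 304) (nat_lit 9141680478) (nat_lit 380) (nat_lit 14730845055) (nat_lit 135) (nat_lit 5) (nat_lit 139) (nat_lit 5) (nat_lit 140) (nat_lit 5) (nat_lit 673) (nat_lit 576) (nat_lit 311)) (XT.lf (nat_lit 0) (nat_lit 31758249658) (nat_lit 380) (nat_lit 1049215620) (nat_lit 76)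 (nat_lit 4636340183) (nat_lit 135) (nat_lit 5) (nat_lit 140) (nat_lit 5) (nat_lit 136) (nat_lit 5) (nat_lit 674) (nat_lit 576) (nat_lit 310))))) (XT.nd (nat_lit 312) (nat_lit 684) (nat_lit 0) (XT.nd (nat_lit 156) (nat_lit 304) (nat_lit 0) (XT.nd (nat_lit 78) (nat_lit 304) (nat_lit 0) (XT.lf (nat_lit 0) (nat_lit 3699067472) (nat_lit 380) (nat_lit 15476121124) (nat_lit 76) (nat_lit 18736038101) (nat_lit 130) (nat_lit 5) (nat_lit 135) (nat_lit 5) (nat_lit 131) (nat_lit 5) (nat_lit 675) (nat_lit 576) (nat_lit 309)) (XT.lf (nat_lit 0) (nat_lit 8079074783) (nat_lit 304) (nat_lit 5172950144) (nat_lit 380) (nat_lit 25134084413) (nat_lit 126) (nat_lit 5) (nat_lit 130) (nat_lit 5) (nat_lit 131) (nat_lit 5) (nat_lit 676) (nat_lit 576) (nat_lit 308))) (XT.nd (nat_lit 78) (nat_lit 304) (nat_lit 0) (XT.lf (nat_lit 0) (nat_lit 23156897902) (nat_lit 380) (nat_lit 6617765011) (nat_lit 76) (nat_lit 9092609629) (nat_lit 126) (nat_lit 5) (nat_lit 131) (nat_lit 5) (nat_lit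 127) (nat_lit 5) (nat_lit 677) (nat_lit 576) (nat_lit 307)) (XT.lf (nat_lit 0) (nat_lit 17739096814) (nat_lit 304) (nat_lit 15667430761) (nat_lit 380) (nat_lit 5948598287) (nat_lit 122) (nat_lit 5) (nat_lit 126) (nat_lit 5) (nat_lit 127) (nat_lit 5) (nat_lit 678) (nat_lit 576) (nat_lit 306)))) (XT.nd (nat_lit 156) (nat_lit 304) (nat_lit 0) (XT.nd (nat_lit 78) (nat_lit 0) (nat_lit 0) (XT.lf (nat_lit 0) (nat_lit 2827118916) (nat_lit 304) (nat_lit 1189015782) (nat_lit 380) (nat_lit 35834875236) (nat_lit 117) (nat_lit 5) (nat_lit 121) (nat_lit 5) (nat_lit 122) (nat_lit 5) (nat_lit 679) (nat_lit 576) (nat_lit 305)) (XT.lf (nat_lit 0) (nat_lit 14332010938) (nat_lit 380) (nat_lit 12434894815) (nat_lit 76) (nat_lit 13584489557) (nat_lit 117) (nat_lit 5) (nat_lit 122) (nat_lit 5) (nat_lit 118) (nat_lit 5) (nat_lit 680) (nat_lit 576) (nat_lit 304))) (XT.nd (nat_lit 78) (nat_lit 0) (nat_lit 0) (XT.lf (nat_lit 0) (nat_lit 12801383752) (nat_lit 304) (nat_lit 12141110930)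 (nat_lit 380) (nat_lit 15917527944) (nat_lit 113) (nat_lit 5) (nat_lit 117) (nat_lit 5) (nat_lit 118) (nat_lit 5) (nat_lit 681) (nat_lit 576) (nat_lit 303)) (XT.lf (nat_lit 0) (nat_lit 35864529508) (nat_lit 380) (nat_lit 2689319283) (nat_lit 76) (nat_lit 2822986904) (nat_lit 113) (nat_lit 5) (nat_lit 118) (nat_lit 5) (nat_lit 114) (nat_lit 5) (nat_lit 682) (nat_lit 576) (nat_lit 302)))))) (XT.nd (nat_lit 73320) (nat_lit 0) (nat_lit 30628) (XT.nd (nat_lit 73008) (nat_lit 0) (nat_lit 30476) (XT.nd (nat_lit 156) (nat_lit 0) (nat_lit 0) (XT.nd (nat_lit 78) (nat_lit 304) (nat_lit 0) (XT.lf (nat_lit 0) (nat_lit 5265401262) (nat_lit 304) (nat_lit 18524467049) (nat_lit 76) (nat_lit 18108828720) (nat_lit 109) (nat_lit 5) (nat_lit 113) (nat_lit 5) (nat_lit 110) (nat_lit 5) (nat_lit 683) (nat_lit 576) (nat_lit 301)) (XT.lf (nat_lit 0) (nat_lit 7623787702) (nat_lit 304) (nat_lit 8626170397) (nat_lit 380) (nat_lit 26179006699) (nat_lit 105) (nat_lit 5) (nat_lit 109)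 (nat_lit 5) (nat_lit 110) (nat_lit 5) (nat_lit 684) (nat_lit 576) (nat_lit 300))) (XT.nd (nat_lit 72774) (nat_lit 0) (nat_lit 30476) (XT.lf (nat_lit 0) (nat_lit 27621135457) (nat_lit 380) (nat_lit 8470934381) (nat_lit 76) (nat_lit 6874429523) (nat_lit 105) (nat_lit 5) (nat_lit 110) (nat_lit 5) (nat_lit 106) (nat_lit 5) (nat_lit 685) (nat_lit 576) (nat_lit 299)) (XT.lf (nat_lit 0) (nat_lit 483077842) (nat_lit 0) (nat_lit 483077842) (nat_lit 1748) (nat_lit 5450392245) (nat_lit 506) (nat_lit 5) (nat_lit 506) (nat_lit 3) (nat_lit 529) (nat_lit 3) (nat_lit 577) (nat_lit 577) (nat_lit 406)))) (XT.nd (nat_lit 156) (nat_lit 0) (nat_lit 76) (XT.nd (nat_lit 78) (nat_lit 0) (nat_lit 0) (XT.lf (nat_lit 0) (nat_lit 2400215274) (nat_lit 1748) (nat_lit 5506309330) (nat_lit 1824) (nat_lit 5045917689) (nat_lit 506) (nat_lit 5) (nat_lit 529) (nat_lit 3) (nat_lit 530) (nat_lit 5) (nat_lit 578) (nat_lit 577) (nat_lit 405)) (XT.lf (nat_lit 76) (nat_lit 982317561) (nat_lit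 0) (nat_lit 1897075636) (nat_lit 1824) (nat_lit 10194744480) (nat_lit 507) (nat_lit 5) (nat_lit 506) (nat_lit 5) (nat_lit 530) (nat_lit 5) (nat_lit 579) (nat_lit 577) (nat_lit 404))) (XT.nd (nat_lit 78) (nat_lit 0) (nat_lit 0) (XT.lf (nat_lit 0) (nat_lit 3422178686) (nat_lit 1748) (nat_lit 5555807365) (nat_lit 1824) (nat_lit 4219200770) (nat_lit 507) (nat_lit 5) (nat_lit 530) (nat_lit 5) (nat_lit 531) (nat_lit 5) (nat_lit 580) (nat_lit 577) (nat_lit 403)) (XT.lf (nat_lit 76) (nat_lit 1107087210) (nat_lit 0) (nat_lit 2878041354) (nat_lit 1824) (nat_lit 9337382535) (nat_lit 508) (nat_lit 5) (nat_lit 507) (nat_lit 5) (nat_lit 531) (nat_lit 5) (nat_lit 581) (nat_lit 577) (nat_lit 402))))) (XT.nd (nat_lit 312) (nat_lit 0) (nat_lit 152) (XT.nd (nat_lit 156) (nat_lit 0) (nat_lit 76) (XT.nd (nat_lit 78) (nat_lit 0) (nat_lit 0) (XT.lf (nat_lit 0) (nat_lit 4608331609) (nat_lit 1748) (nat_lit 5498995547) (nat_lit 1824) (nat_lit 3342035142) (nat_lit 508) (nat_lit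 5) (nat_lit 531) (nat_lit 5) (nat_lit 532) (nat_lit 5) (nat_lit 582) (nat_lit 577) (nat_lit 401)) (XT.lf (nat_lit 76) (nat_lit 1344460100) (nat_lit 0) (nat_lit 3917282561) (nat_lit 1824) (nat_lit 8316653294) (nat_lit 509) (nat_lit 5) (nat_lit 508) (nat_lit 5) (nat_lit 532) (nat_lit 5) (nat_lit 583) (nat_lit 577) (nat_lit 400))) (XT.nd (nat_lit 78) (nat_lit 0) (nat_lit 0) (XT.lf (nat_lit 0) (nat_lit 5971067861) (nat_lit 1748) (nat_lit 5331811423) (nat_lit 1824) (nat_lit 2406274390) (nat_lit 509) (nat_lit 5) (nat_lit 532) (nat_lit 5) (nat_lit 533) (nat_lit 5) (nat_lit 584) (nat_lit 577) (nat_lit 399)) (XT.lf (nat_lit 76) (nat_lit 1698751584) (nat_lit 0) (nat_lit 5023133312) (nat_lit 1824) (nat_lit 7120095845) (nat_lit 510) (nat_lit 5) (nat_lit 509) (nat_lit 5) (nat_lit 533) (nat_lit 5) (nat_lit 585) (nat_lit 577) (nat_lit 398)))) (XT.nd (nat_lit 156) (nat_lit 0) (nat_lit 76) (XT.nd (nat_lit 78) (nat_lit 0) (nat_lit 0) (XT.lf (nat_lit 0) (nat_lit 7523217009)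 (nat_lit 1748) (nat_lit 5049876011) (nat_lit 1824) (nat_lit 1403661649) (nat_lit 510) (nat_lit 5) (nat_lit 533) (nat_lit 5) (nat_lit 534) (nat_lit 5) (nat_lit 586) (nat_lit 577) (nat_lit 397)) (XT.lf (nat_lit 76) (nat_lit 2174602594) (nat_lit 0) (nat_lit 6204052345) (nat_lit 1824) (nat_lit 5734807842) (nat_lit 511) (nat_lit 5) (nat_lit 510) (nat_lit 5) (nat_lit 534) (nat_lit 5) (nat_lit 587) (nat_lit 577) (nat_lit 396))) (XT.nd (nat_lit 78) (nat_lit 0) (nat_lit 0) (XT.lf (nat_lit 0) (nat_lit 9278070655) (nat_lit 1748) (nat_lit 4648487819) (nat_lit 1824) (nat_lit 325809484) (nat_lit 511) (nat_lit 5) (nat_lit 534) (nat_lit 5) (nat_lit 535) (nat_lit 5) (nat_lit 588) (nat_lit 577) (nat_lit 395)) (XT.lf (nat_lit 76) (nat_lit 2776986025) (nat_lit 0) (nat_lit 7468643395) (nat_lit 1824) (nat_lit 4147419001) (nat_lit 512) (nat_lit 5) (nat_lit 511) (nat_lit 5) (nat_lit 535) (nat_lit 5) (nat_lit 589) (nat_lit 577) (nat_lit 394))))))) (XT.nd (nat_lit 1170) (nat_lit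 7676) (nat_lit 0) (XT.nd (nat_lit 546) (nat_lit 2660) (nat_lit 0) (XT.nd (nat_lit 234) (nat_lit 1672) (nat_lit 0) (XT.nd (nat_lit 78) (nat_lit 0) (nat_lit 76) (XT.lf (nat_lit 76) (nat_lit 10407980361) (nat_lit 0) (nat_lit 846927824) (nat_lit 1824) (nat_lit 3281187206) (nat_lit 512) (nat_lit 5) (nat_lit 511) (nat_lit 5) (nat_lit 535) (nat_lit 5) (nat_lit 590) (nat_lit 577) (nat_lit 393)) (XT.nd (nat_lit 78) (nat_lit 0) (nat_lit 0) (XT.lf (nat_lit 76) (nat_lit 3511213786) (nat_lit 0) (nat_lit 8825675512) (nat_lit 1824) (nat_lit 2344063933) (nat_lit 513) (nat_lit 5) (nat_lit 512) (nat_lit 5) (nat_lit 536) (nat_lit 5) (nat_lit 591) (nat_lit 577) (nat_lit 392)) (XT.lf (nat_lit 76) (nat_lit 11347569404) (nat_lit 0) (nat_lit 2117710504) (nat_lit 1824) (nat_lit 1362933183) (nat_lit 513) (nat_lit 5) (nat_lit 512) (nat_lit 5) (nat_lit 536) (nat_lit 5) (nat_lit 592) (nat_lit 577) (nat_lit 391)))) (XT.nd (nat_lit 156) (nat_lit 0) (nat_lit 76) (XT.nd (nat_lit 78) (nat_lit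 1824) (nat_lit 0) (XT.lf (nat_lit 76) (nat_lit 4382944527) (nat_lit 0) (nat_lit 10284103433) (nat_lit 1824) (nat_lit 310354253) (nat_lit 514) (nat_lit 5) (nat_lit 513) (nat_lit 5) (nat_lit 537) (nat_lit 5) (nat_lit 593) (nat_lit 577) (nat_lit 390)) (XT.lf (nat_lit 0) (nat_lit 782549867) (nat_lit 1824) (nat_lit 2703425706) (nat_lit 1900) (nat_lit 11642914995) (nat_lit 489) (nat_lit 5) (nat_lit 513) (nat_lit 5) (nat_lit 514) (nat_lit 5) (nat_lit 594) (nat_lit 577) (nat_lit 389))) (XT.nd (nat_lit 78) (nat_lit 0) (nat_lit 0) (XT.lf (nat_lit 0) (nat_lit 1942830871) (nat_lit 1824) (nat_lit 9897219778) (nat_lit 1900) (nat_lit 3442323765) (nat_lit 490) (nat_lit 5) (nat_lit 514) (nat_lit 5) (nat_lit 515) (nat_lit 5) (nat_lit 595) (nat_lit 577) (nat_lit 388)) (XT.lf (nat_lit 0) (nat_lit 3159707067) (nat_lit 1824) (nat_lit 1795798936) (nat_lit 1900) (nat_lit 10482754380) (nat_lit 490) (nat_lit 5) (nat_lit 514) (nat_lit 5) (nat_lit 515) (nat_lit 5) (nat_lit 596) (nat_lit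 577) (nat_lit 387))))) (XT.nd (nat_lit 312) (nat_lit 2812) (nat_lit 0) (XT.nd (nat_lit 156) (nat_lit 0) (nat_lit 76) (XT.nd (nat_lit 78) (nat_lit 0) (nat_lit 0) (XT.lf (nat_lit 0) (nat_lit 4449340808) (nat_lit 1824) (nat_lit 9062818892) (nat_lit 1900) (nat_lit 2084136203) (nat_lit 491) (nat_lit 5) (nat_lit 515) (nat_lit 5) (nat_lit 516) (nat_lit 5) (nat_lit 597) (nat_lit 577) (nat_lit 386)) (XT.lf (nat_lit 0) (nat_lit 5802038569) (nat_lit 1824) (nat_lit 742651614) (nat_lit 1900) (nat_lit 9212056750) (nat_lit 491) (nat_lit 5) (nat_lit 515) (nat_lit 5) (nat_lit 516) (nat_lit 5) (nat_lit 598) (nat_lit 577) (nat_lit 385))) (XT.nd (nat_lit 78) (nat_lit 0) (nat_lit 0) (XT.lf (nat_lit 0) (nat_lit 7229166983) (nat_lit 1824) (nat_lit 8082847427) (nat_lit 1900) (nat_lit 607445264) (nat_lit 492) (nat_lit 5) (nat_lit 516) (nat_lit 5) (nat_lit 517) (nat_lit 5) (nat_lit 599) (nat_lit 577) (nat_lit 384)) (XT.lf (nat_lit 76) (nat_lit 468793938) (nat_lit 0) (nat_lit 8260037586)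 (nat_lit 1900) (nat_lit 7355715494) (nat_lit 493) (nat_lit 5) (nat_lit 492) (nat_lit 5) (nat_lit 517) (nat_lit 5) (nat_lit 600) (nat_lit 577) (nat_lit 383)))) (XT.nd (nat_lit 156) (nat_lit 1140) (nat_lit 0) (XT.nd (nat_lit 78) (nat_lit 1748) (nat_lit 0) (XT.lf (nat_lit 76) (nat_lit 9294893635) (nat_lit 0) (nat_lit 1010532229) (nat_lit 1900) (nat_lit 5946571729) (nat_lit 493) (nat_lit 5) (nat_lit 492) (nat_lit 5) (nat_lit 517) (nat_lit 5) (nat_lit 601) (nat_lit 577) (nat_lit 382)) (XT.lf (nat_lit 0) (nat_lit 1851380342) (nat_lit 1824) (nat_lit 10108488026) (nat_lit 1900) (nat_lit 4462002696) (nat_lit 469) (nat_lit 5) (nat_lit 493) (nat_lit 5) (nat_lit 494) (nat_lit 5) (nat_lit 602) (nat_lit 577) (nat_lit 381))) (XT.nd (nat_lit 78) (nat_lit 1140) (nat_lit 0) (XT.lf (nat_lit 0) (nat_lit 10917429029) (nat_lit 1824) (nat_lit 2776252185) (nat_lit 1900) (nat_lit 2900535368) (nat_lit 469) (nat_lit 5) (nat_lit 493) (nat_lit 5) (nat_lit 494) (nat_lit 5) (nat_lit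 603) (nat_lit 577) (nat_lit 380)) (XT.lf (nat_lit 0) (nat_lit 3402730872) (nat_lit 1140) (nat_lit 12105156399) (nat_lit 1216) (nat_lit 1261207602) (nat_lit 454) (nat_lit 5) (nat_lit 469) (nat_lit 5) (nat_lit 470) (nat_lit 5) (nat_lit 604) (nat_lit 577) (nat_lit 379)))))) (XT.nd (nat_lit 624) (nat_lit 4028) (nat_lit 0) (XT.nd (nat_lit 312) (nat_lit 1748) (nat_lit 0) (XT.nd (nat_lit 156) (nat_lit 912) (nat_lit 0) (XT.nd (nat_lit 78) (nat_lit 912) (nat_lit 0) (XT.lf (nat_lit 0) (nat_lit 455391932) (nat_lit 1216) (nat_lit 4233429264) (nat_lit 76) (nat_lit 12257598886) (nat_lit 453) (nat_lit 5) (nat_lit 469) (nat_lit 5) (nat_lit 454) (nat_lit 5) (nat_lit 605) (nat_lit 577) (nat_lit 378)) (XT.lf (nat_lit 0) (nat_lit 2235020642) (nat_lit 988) (nat_lit 12010468326) (nat_lit 76) (nat_lit 2880724588) (nat_lit 441) (nat_lit 5) (nat_lit 454) (nat_lit 5) (nat_lit 442) (nat_lit 5) (nat_lit 606) (nat_lit 577) (nat_lit 377))) (XT.nd (nat_lit 78) (nat_lit 912) (nat_lit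 0) (XT.lf (nat_lit 0) (nat_lit 4103263326) (nat_lit 988) (nat_lit 2637165647) (nat_lit 76) (nat_lit 10568113688) (nat_lit 441) (nat_lit 5) (nat_lit 454) (nat_lit 5) (nat_lit 442) (nat_lit 5) (nat_lit 607) (nat_lit 577) (nat_lit 376)) (XT.lf (nat_lit 0) (nat_lit 6054127187) (nat_lit 988) (nat_lit 10490506224) (nat_lit 76) (nat_lit 948979992) (nat_lit 429) (nat_lit 5) (nat_lit 442) (nat_lit 5) (nat_lit 430) (nat_lit 5) (nat_lit 608) (nat_lit 577) (nat_lit 375)))) (XT.nd (nat_lit 156) (nat_lit 912) (nat_lit 0) (XT.nd (nat_lit 78) (nat_lit 836) (nat_lit 0) (XT.lf (nat_lit 0) (nat_lit 8100054618) (nat_lit 988) (nat_lit 861003802) (nat_lit 76) (nat_lit 8720206393) (nat_lit 429) (nat_lit 5) (nat_lit 442) (nat_lit 5) (nat_lit 430) (nat_lit 5) (nat_lit 609) (nat_lit 577) (nat_lit 374)) (XT.lf (nat_lit 0) (nat_lit 9074067960) (nat_lit 836) (nat_lit 1165466844) (nat_lit 912) (nat_lit 7632081942) (nat_lit 418) (nat_lit 5) (nat_lit 429) (nat_lit 5) (nat_lit 430) (nat_lit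 5) (nat_lit 610) (nat_lit 577) (nat_lit 373))) (XT.nd (nat_lit 78) (nat_lit 0) (nat_lit 0) (XT.lf (nat_lit 0) (nat_lit 1118306687) (nat_lit 912) (nat_lit 11354439148) (nat_lit 988) (nat_lit 5592011229) (nat_lit 406) (nat_lit 5) (nat_lit 418) (nat_lit 5) (nat_lit 419) (nat_lit 5) (nat_lit 611) (nat_lit 577) (nat_lit 372)) (XT.lf (nat_lit 0) (nat_lit 11337837167) (nat_lit 912) (nat_lit 3473374629) (nat_lit 988) (nat_lit 3449336747) (nat_lit 406) (nat_lit 5) (nat_lit 418) (nat_lit 5) (nat_lit 419) (nat_lit 5) (nat_lit 612) (nat_lit 577) (nat_lit 371))))) (XT.nd (nat_lit 312) (nat_lit 2280) (nat_lit 0) (XT.nd (nat_lit 156) (nat_lit 836) (nat_lit 0) (XT.nd (nat_lit 78) (nat_lit 76) (nat_lit 0) (XT.lf (nat_lit 0) (nat_lit 3309186482) (nat_lit 836) (nat_lit 13932394148) (nat_lit 912) (nat_lit 1217772717) (nat_lit 395) (nat_lit 5) (nat_lit 406) (nat_lit 5) (nat_lit 407) (nat_lit 5) (nat_lit 613) (nat_lit 577) (nat_lit 370)) (XT.lf (nat_lit 0) (nat_lit 1108352441)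 (nat_lit 912) (nat_lit 4857940567) (nat_lit 76) (nat_lit 12694427735) (nat_lit 394) (nat_lit 5) (nat_lit 406) (nat_lit 5) (nat_lit 395) (nat_lit 5) (nat_lit 614) (nat_lit 577) (nat_lit 369))) (XT.nd (nat_lit 78) (nat_lit 0) (nat_lit 0) (XT.lf (nat_lit 0) (nat_lit 3510201831) (nat_lit 912) (nat_lit 13178808661) (nat_lit 76) (nat_lit 2176034006) (nat_lit 383) (nat_lit 5) (nat_lit 395) (nat_lit 5) (nat_lit 384) (nat_lit 5) (nat_lit 615) (nat_lit 577) (nat_lit 368)) (XT.lf (nat_lit 0) (nat_lit 6026652666) (nat_lit 912) (nat_lit 2611453638) (nat_lit 76) (nat_lit 10434017289) (nat_lit 383) (nat_lit 5) (nat_lit 395) (nat_lit 5) (nat_lit 384) (nat_lit 5) (nat_lit 616) (nat_lit 577) (nat_lit 367)))) (XT.nd (nat_lit 156) (nat_lit 1520) (nat_lit 0) (XT.nd (nat_lit 78) (nat_lit 0) (nat_lit 0) (XT.lf (nat_lit 0) (nat_lit 8269757285) (nat_lit 760) (nat_lit 371718329) (nat_lit 836) (nat_lit 10640907943) (nat_lit 373) (nat_lit 5) (nat_lit 383) (nat_lit 5) (nat_lit 384)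 (nat_lit 5) (nat_lit 617) (nat_lit 577) (nat_lit 366)) (XT.lf (nat_lit 0) (nat_lit 11372986729) (nat_lit 836) (nat_lit 150974702) (nat_lit 76) (nat_lit 7971599604) (nat_lit 373) (nat_lit 5) (nat_lit 384) (nat_lit 5) (nat_lit 374) (nat_lit 5) (nat_lit 618) (nat_lit 577) (nat_lit 365))) (XT.nd (nat_lit 78) (nat_lit 760) (nat_lit 0) (XT.lf (nat_lit 0) (nat_lit 11064660327) (nat_lit 760) (nat_lit 3163298538) (nat_lit 836) (nat_lit 5483666725) (nat_lit 363) (nat_lit 5) (nat_lit 373) (nat_lit 5) (nat_lit 374) (nat_lit 5) (nat_lit 619) (nat_lit 577) (nat_lit 364)) (XT.lf (nat_lit 0) (nat_lit 2567530717) (nat_lit 760) (nat_lit 14619616216) (nat_lit 836) (nat_lit 2743922316) (nat_lit 353) (nat_lit 5) (nat_lit 363) (nat_lit 5) (nat_lit 364) (nat_lit 5) (nat_lit 620) (nat_lit 577) (nat_lit 363))))))))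
noncomputable def xc171 : XT := (XT.nd (nat_lit 2418) (nat_lit 7296) (nat_lit 0) (XT.nd (nat_lit 1170) (nat_lit 5396) (nat_lit 0) (XT.nd (nat_lit 546) (nat_lit 2660) (nat_lit 0) (XT.nd (nat_lit 234) (nat_lit 2052) (nat_lit 0) (XT.nd (nat_lit 78) (nat_lit 760) (nat_lit 0) (XT.lf (nat_lit 0) (nat_lit 123940220) (nat_lit 836) (nat_lit 6057876114) (nat_lit 76) (nat_lit 13971599270) (nat_lit 352) (nat_lit 5) (nat_lit 363) (nat_lit 5) (nat_lit 353) (nat_lit 5) (nat_lit 621) (nat_lit 577) (nat_lit 362)) (XT.nd (nat_lit 78) (nat_lit 0) (nat_lit 0) (XT.lf (nat_lit 0) (nat_lit 3059137727) (nat_lit 836) (nat_lit 14873060953) (nat_lit 76) (nat_lit 2446713214) (nat_lit 342) (nat_lit 5) (nat_lit 353) (nat_lit 5) (nat_lit 343) (nat_lit 5) (nat_lit 622) (nat_lit 577) (nat_lit 361)) (XT.lf (nat_lit 0) (nat_lit 6129693715) (nat_lit 836) (nat_lit 3272289866) (nat_lit 76) (nat_lit 11205401570) (nat_lit 342) (nat_lit 5) (nat_lit 353) (nat_lit 5) (nat_lit 343) (nat_lit 5) (nat_lit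 623) (nat_lit 577) (nat_lit 360)))) (XT.nd (nat_lit 156) (nat_lit 1368) (nat_lit 0) (XT.nd (nat_lit 78) (nat_lit 0) (nat_lit 0) (XT.lf (nat_lit 0) (nat_lit 8668355216) (nat_lit 684) (nat_lit 644482980) (nat_lit 760) (nat_lit 11526566258) (nat_lit 333) (nat_lit 5) (nat_lit 342) (nat_lit 5) (nat_lit 343) (nat_lit 5) (nat_lit 624) (nat_lit 577) (nat_lit 359)) (XT.lf (nat_lit 0) (nat_lit 12630516328) (nat_lit 760) (nat_lit 243298918) (nat_lit 76) (nat_lit 8200831607) (nat_lit 333) (nat_lit 5) (nat_lit 343) (nat_lit 5) (nat_lit 334) (nat_lit 5) (nat_lit 625) (nat_lit 577) (nat_lit 358))) (XT.nd (nat_lit 78) (nat_lit 684) (nat_lit 0) (XT.lf (nat_lit 0) (nat_lit 12071284596) (nat_lit 684) (nat_lit 4020959518) (nat_lit 760) (nat_lit 5220796187) (nat_lit 324) (nat_lit 5) (nat_lit 333) (nat_lit 5) (nat_lit 334) (nat_lit 5) (nat_lit 626) (nat_lit 577) (nat_lit 357)) (XT.lf (nat_lit 0) (nat_lit 3081343726) (nat_lit 684) (nat_lit 16591141270) (nat_lit 760) (nat_lit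 1882731173) (nat_lit 315) (nat_lit 5) (nat_lit 324) (nat_lit 5) (nat_lit 325) (nat_lit 5) (nat_lit 627) (nat_lit 577) (nat_lit 356))))) (XT.nd (nat_lit 312) (nat_lit 1292) (nat_lit 0) (XT.nd (nat_lit 156) (nat_lit 608) (nat_lit 0) (XT.nd (nat_lit 78) (nat_lit 684) (nat_lit 0) (XT.lf (nat_lit 0) (nat_lit 1586322931) (nat_lit 760) (nat_lit 6067589316) (nat_lit 76) (nat_lit 14146441969) (nat_lit 314) (nat_lit 5) (nat_lit 324) (nat_lit 5) (nat_lit 315) (nat_lit 5) (nat_lit 628) (nat_lit 577) (nat_lit 355)) (XT.lf (nat_lit 0) (nat_lit 5147870776) (nat_lit 760) (nat_lit 15403324485) (nat_lit 76) (nat_lit 1497984530) (nat_lit 305) (nat_lit 5) (nat_lit 315) (nat_lit 5) (nat_lit 306) (nat_lit 5) (nat_lit 629) (nat_lit 577) (nat_lit 354))) (XT.nd (nat_lit 78) (nat_lit 608) (nat_lit 0) (XT.lf (nat_lit 0) (nat_lit 8867603387) (nat_lit 760) (nat_lit 2663095931) (nat_lit 76) (nat_lit 10770543594) (nat_lit 305) (nat_lit 5) (nat_lit 315) (nat_lit 5) (nat_lit 306) (nat_lit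 5) (nat_lit 630) (nat_lit 577) (nat_lit 353)) (XT.lf (nat_lit 0) (nat_lit 10463494103) (nat_lit 608) (nat_lit 2261544338) (nat_lit 684) (nat_lit 9832042809) (nat_lit 297) (nat_lit 5) (nat_lit 305) (nat_lit 5) (nat_lit 306) (nat_lit 5) (nat_lit 631) (nat_lit 577) (nat_lit 352)))) (XT.nd (nat_lit 156) (nat_lit 684) (nat_lit 0) (XT.nd (nat_lit 78) (nat_lit 0) (nat_lit 0) (XT.lf (nat_lit 0) (nat_lit 1032030128) (nat_lit 608) (nat_lit 15694402606) (nat_lit 684) (nat_lit 6090267517) (nat_lit 289) (nat_lit 5) (nat_lit 297) (nat_lit 5) (nat_lit 298) (nat_lit 5) (nat_lit 632) (nat_lit 577) (nat_lit 351)) (XT.lf (nat_lit 0) (nat_lit 14563231932) (nat_lit 608) (nat_lit 6336127921) (nat_lit 684) (nat_lit 2180321786) (nat_lit 289) (nat_lit 5) (nat_lit 297) (nat_lit 5) (nat_lit 298) (nat_lit 5) (nat_lit 633) (nat_lit 577) (nat_lit 350))) (XT.nd (nat_lit 78) (nat_lit 0) (nat_lit 0) (XT.lf (nat_lit 0) (nat_lit 1833662444) (nat_lit 684) (nat_lit 18302034195) (nat_lit 76)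 (nat_lit 3211000374) (nat_lit 280) (nat_lit 5) (nat_lit 289) (nat_lit 5) (nat_lit 281) (nat_lit 5) (nat_lit 634) (nat_lit 577) (nat_lit 349)) (XT.lf (nat_lit 0) (nat_lit 5993823552) (nat_lit 684) (nat_lit 4687923417) (nat_lit 76) (nat_lit 12935115754) (nat_lit 280) (nat_lit 5) (nat_lit 289) (nat_lit 5) (nat_lit 281) (nat_lit 5) (nat_lit 635) (nat_lit 577) (nat_lit 348)))))) (XT.nd (nat_lit 624) (nat_lit 2508) (nat_lit 0) (XT.nd (nat_lit 312) (nat_lit 1140) (nat_lit 0) (XT.nd (nat_lit 156) (nat_lit 1140) (nat_lit 0) (XT.nd (nat_lit 78) (nat_lit 0) (nat_lit 0) (XT.lf (nat_lit 0) (nat_lit 9315074507) (nat_lit 608) (nat_lit 978254746) (nat_lit 684) (nat_lit 13597979762) (nat_lit 272) (nat_lit 5) (nat_lit 280) (nat_lit 5) (nat_lit 281) (nat_lit 5) (nat_lit 636) (nat_lit 577) (nat_lit 347)) (XT.lf (nat_lit 0) (nat_lit 14764104762) (nat_lit 684) (nat_lit 572660213) (nat_lit 76) (nat_lit 8832773760) (nat_lit 272) (nat_lit 5) (nat_lit 281) (nat_lit 5) (nat_lit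 273) (nat_lit 5) (nat_lit 637) (nat_lit 577) (nat_lit 346))) (XT.nd (nat_lit 78) (nat_lit 608) (nat_lit 0) (XT.lf (nat_lit 0) (nat_lit 13881064442) (nat_lit 532) (nat_lit 5535622048) (nat_lit 608) (nat_lit 5034798839) (nat_lit 265) (nat_lit 5) (nat_lit 272) (nat_lit 5) (nat_lit 273) (nat_lit 5) (nat_lit 638) (nat_lit 577) (nat_lit 345)) (XT.lf (nat_lit 0) (nat_lit 3909377460) (nat_lit 608) (nat_lit 20306986154) (nat_lit 684) (nat_lit 521626457) (nat_lit 257) (nat_lit 5) (nat_lit 265) (nat_lit 5) (nat_lit 266) (nat_lit 5) (nat_lit 639) (nat_lit 577) (nat_lit 344)))) (XT.nd (nat_lit 156) (nat_lit 532) (nat_lit 0) (XT.nd (nat_lit 78) (nat_lit 532) (nat_lit 0) (XT.lf (nat_lit 0) (nat_lit 4132182911) (nat_lit 684) (nat_lit 6275933984) (nat_lit 76) (nat_lit 14619499922) (nat_lit 256) (nat_lit 5) (nat_lit 265) (nat_lit 5) (nat_lit 257) (nat_lit 5) (nat_lit 640) (nat_lit 577) (nat_lit 343)) (XT.lf (nat_lit 0) (nat_lit 8672642858) (nat_lit 532) (nat_lit 251682199)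 (nat_lit 608) (nat_lit 16397597343) (nat_lit 249) (nat_lit 5) (nat_lit 256) (nat_lit 5) (nat_lit 257) (nat_lit 5) (nat_lit 641) (nat_lit 577) (nat_lit 342))) (XT.nd (nat_lit 78) (nat_lit 532) (nat_lit 0) (XT.lf (nat_lit 0) (nat_lit 13916292745) (nat_lit 608) (nat_lit 1687394644) (nat_lit 76) (nat_lit 10016347137) (nat_lit 249) (nat_lit 5) (nat_lit 257) (nat_lit 5) (nat_lit 250) (nat_lit 5) (nat_lit 642) (nat_lit 577) (nat_lit 341)) (XT.lf (nat_lit 0) (nat_lit 13746982740) (nat_lit 532) (nat_lit 5348079425) (nat_lit 608) (nat_lit 6827307566) (nat_lit 242) (nat_lit 5) (nat_lit 249) (nat_lit 5) (nat_lit 250) (nat_lit 5) (nat_lit 643) (nat_lit 577) (nat_lit 340))))) (XT.nd (nat_lit 312) (nat_lit 1444) (nat_lit 0) (XT.nd (nat_lit 156) (nat_lit 532) (nat_lit 0) (XT.nd (nat_lit 78) (nat_lit 76) (nat_lit 0) (XT.lf (nat_lit 0) (nat_lit 3286826839) (nat_lit 456) (nat_lit 21152588168) (nat_lit 532) (nat_lit 1790096551) (nat_lit 236) (nat_lit 5) (nat_lit 242) (nat_lit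 5) (nat_lit 243) (nat_lit 5) (nat_lit 644) (nat_lit 577) (nat_lit 339)) (XT.lf (nat_lit 0) (nat_lit 3417704117) (nat_lit 532) (nat_lit 7380954858) (nat_lit 76) (nat_lit 15741427533) (nat_lit 235) (nat_lit 5) (nat_lit 242) (nat_lit 5) (nat_lit 236) (nat_lit 5) (nat_lit 645) (nat_lit 577) (nat_lit 338))) (XT.nd (nat_lit 78) (nat_lit 0) (nat_lit 0) (XT.lf (nat_lit 0) (nat_lit 8587464251) (nat_lit 532) (nat_lit 170172845) (nat_lit 608) (nat_lit 18097960373) (nat_lit 228) (nat_lit 5) (nat_lit 235) (nat_lit 5) (nat_lit 236) (nat_lit 5) (nat_lit 646) (nat_lit 577) (nat_lit 337)) (XT.lf (nat_lit 0) (nat_lit 14319708233) (nat_lit 608) (nat_lit 2276083778) (nat_lit 76) (nat_lit 10579319922) (nat_lit 228) (nat_lit 5) (nat_lit 236) (nat_lit 5) (nat_lit 229) (nat_lit 5) (nat_lit 647) (nat_lit 577) (nat_lit 336)))) (XT.nd (nat_lit 156) (nat_lit 532) (nat_lit 0) (XT.nd (nat_lit 78) (nat_lit 456) (nat_lit 0) (XT.lf (nat_lit 0) (nat_lit 14215880572) (nat_lit 456) (nat_lit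 5866839593) (nat_lit 532) (nat_lit 7416502609) (nat_lit 222) (nat_lit 5) (nat_lit 228) (nat_lit 5) (nat_lit 229) (nat_lit 5) (nat_lit 648) (nat_lit 577) (nat_lit 335)) (XT.lf (nat_lit 0) (nat_lit 3243227493) (nat_lit 456) (nat_lit 22783460998) (nat_lit 532) (nat_lit 1801813489) (nat_lit 216) (nat_lit 5) (nat_lit 222) (nat_lit 5) (nat_lit 223) (nat_lit 5) (nat_lit 649) (nat_lit 577) (nat_lit 334))) (XT.nd (nat_lit 78) (nat_lit 456) (nat_lit 0) (XT.lf (nat_lit 0) (nat_lit 3998588925) (nat_lit 532) (nat_lit 7952411301) (nat_lit 76) (nat_lit 16210358940) (nat_lit 215) (nat_lit 5) (nat_lit 222) (nat_lit 5) (nat_lit 216) (nat_lit 5) (nat_lit 650) (nat_lit 577) (nat_lit 333)) (XT.lf (nat_lit 0) (nat_lit 9115545577) (nat_lit 456) (nat_lit 830923501) (nat_lit 532) (nat_lit 18553054368) (nat_lit 209) (nat_lit 5) (nat_lit 215) (nat_lit 5) (nat_lit 216) (nat_lit 5) (nat_lit 651) (nat_lit 577) (nat_lit 332))))))) (XT.nd (nat_lit 1170) (nat_lit 3496) (nat_lit 0) (XT.nd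 (nat_lit 546) (nat_lit 2052) (nat_lit 0) (XT.nd (nat_lit 234) (nat_lit 912) (nat_lit 0) (XT.nd (nat_lit 78) (nat_lit 836) (nat_lit 0) (XT.lf (nat_lit 0) (nat_lit 16131689487) (nat_lit 532) (nat_lit 2284536745) (nat_lit 76) (nat_lit 10425857194) (nat_lit 209) (nat_lit 5) (nat_lit 216) (nat_lit 5) (nat_lit 210) (nat_lit 5) (nat_lit 652) (nat_lit 577) (nat_lit 331)) (XT.nd (nat_lit 78) (nat_lit 380) (nat_lit 0) (XT.lf (nat_lit 0) (nat_lit 15347568422) (nat_lit 456) (nat_lit 7194681937) (nat_lit 532) (nat_lit 6647211590) (nat_lit 203) (nat_lit 5) (nat_lit 209) (nat_lit 5) (nat_lit 210) (nat_lit 5) (nat_lit 653) (nat_lit 577) (nat_lit 330)) (XT.lf (nat_lit 0) (nat_lit 3837291044) (nat_lit 380) (nat_lit 25308192059) (nat_lit 456) (nat_lit 397015790) (nat_lit 198) (nat_lit 5) (nat_lit 203) (nat_lit 5) (nat_lit 204) (nat_lit 5) (nat_lit 654) (nat_lit 577) (nat_lit 329)))) (XT.nd (nat_lit 156) (nat_lit 380) (nat_lit 0) (XT.nd (nat_lit 78) (nat_lit 456) (nat_lit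 0) (XT.lf (nat_lit 0) (nat_lit 6037451980) (nat_lit 456) (nat_lit 7935271614) (nat_lit 76) (nat_lit 15926343297) (nat_lit 197) (nat_lit 5) (nat_lit 203) (nat_lit 5) (nat_lit 198) (nat_lit 5) (nat_lit 655) (nat_lit 577) (nat_lit 328)) (XT.lf (nat_lit 0) (nat_lit 10317707390) (nat_lit 456) (nat_lit 2341172768) (nat_lit 532) (nat_lit 17602561925) (nat_lit 191) (nat_lit 5) (nat_lit 197) (nat_lit 5) (nat_lit 198) (nat_lit 5) (nat_lit 656) (nat_lit 577) (nat_lit 327))) (XT.nd (nat_lit 78) (nat_lit 380) (nat_lit 0) (XT.lf (nat_lit 0) (nat_lit 19524785439) (nat_lit 532) (nat_lit 1653940434) (nat_lit 76) (nat_lit 9450097992) (nat_lit 191) (nat_lit 5) (nat_lit 198) (nat_lit 5) (nat_lit 192) (nat_lit 5) (nat_lit 657) (nat_lit 577) (nat_lit 326)) (XT.lf (nat_lit 0) (nat_lit 17206846549) (nat_lit 380) (nat_lit 9445067689) (nat_lit 456) (nat_lit 4349160997) (nat_lit 186) (nat_lit 5) (nat_lit 191) (nat_lit 5) (nat_lit 192) (nat_lit 5) (nat_lit 658) (nat_lit 577) (nat_lit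 325))))) (XT.nd (nat_lit 312) (nat_lit 1216) (nat_lit 0) (XT.nd (nat_lit 156) (nat_lit 380) (nat_lit 0) (XT.nd (nat_lit 78) (nat_lit 0) (nat_lit 0) (XT.lf (nat_lit 0) (nat_lit 2565456168) (nat_lit 456) (nat_lit 26263912122) (nat_lit 76) (nat_lit 2549914156) (nat_lit 180) (nat_lit 5) (nat_lit 186) (nat_lit 5) (nat_lit 181) (nat_lit 5) (nat_lit 659) (nat_lit 577) (nat_lit 324)) (XT.lf (nat_lit 0) (nat_lit 9712630230) (nat_lit 456) (nat_lit 7270025055) (nat_lit 76) (nat_lit 14778773615) (nat_lit 180) (nat_lit 5) (nat_lit 186) (nat_lit 5) (nat_lit 181) (nat_lit 5) (nat_lit 660) (nat_lit 577) (nat_lit 323))) (XT.nd (nat_lit 78) (nat_lit 0) (nat_lit 0) (XT.lf (nat_lit 0) (nat_lit 12259622226) (nat_lit 380) (nat_lit 4819503253) (nat_lit 456) (nat_lit 15070565306) (nat_lit 175) (nat_lit 5) (nat_lit 180) (nat_lit 5) (nat_lit 181) (nat_lit 5) (nat_lit 661) (nat_lit 577) (nat_lit 322)) (XT.lf (nat_lit 0) (nat_lit 24688119346) (nat_lit 456) (nat_lit 320840279) (nat_lit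 76) (nat_lit 7534854958) (nat_lit 175) (nat_lit 5) (nat_lit 181) (nat_lit 5) (nat_lit 176) (nat_lit 5) (nat_lit 662) (nat_lit 577) (nat_lit 321)))) (XT.nd (nat_lit 156) (nat_lit 380) (nat_lit 0) (XT.nd (nat_lit 78) (nat_lit 456) (nat_lit 0) (XT.lf (nat_lit 0) (nat_lit 19863540509) (nat_lit 380) (nat_lit 12743500505) (nat_lit 456) (nat_lit 335624937) (nat_lit 170) (nat_lit 5) (nat_lit 175) (nat_lit 5) (nat_lit 176) (nat_lit 5) (nat_lit 663) (nat_lit 577) (nat_lit 320)) (XT.lf (nat_lit 0) (nat_lit 7147775556) (nat_lit 380) (nat_lit 136321883) (nat_lit 456) (nat_lit 26063535534) (nat_lit 164) (nat_lit 5) (nat_lit 169) (nat_lit 5) (nat_lit 170) (nat_lit 5) (nat_lit 664) (nat_lit 577) (nat_lit 319))) (XT.nd (nat_lit 78) (nat_lit 380) (nat_lit 0) (XT.lf (nat_lit 0) (nat_lit 15219571802) (nat_lit 456) (nat_lit 5892706105) (nat_lit 76) (nat_lit 12645020075) (nat_lit 164) (nat_lit 5) (nat_lit 170) (nat_lit 5) (nat_lit 165) (nat_lit 5) (nat_lit 665) (nat_lit 577)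 (nat_lit 318)) (XT.lf (nat_lit 0) (nat_lit 15011805609) (nat_lit 380) (nat_lit 8397272514) (nat_lit 456) (nat_lit 10764171766) (nat_lit 159) (nat_lit 5) (nat_lit 164) (nat_lit 5) (nat_lit 165) (nat_lit 5) (nat_lit 666) (nat_lit 577) (nat_lit 317)))))) (XT.nd (nat_lit 624) (nat_lit 1672) (nat_lit 0) (XT.nd (nat_lit 312) (nat_lit 1064) (nat_lit 0) (XT.nd (nat_lit 156) (nat_lit 380) (nat_lit 0) (XT.nd (nat_lit 78) (nat_lit 76) (nat_lit 0) (XT.lf (nat_lit 0) (nat_lit 1806520755) (nat_lit 304) (nat_lit 30034043635) (nat_lit 380) (nat_lit 2755392696) (nat_lit 155) (nat_lit 5) (nat_lit 159) (nat_lit 5) (nat_lit 160) (nat_lit 5) (nat_lit 667) (nat_lit 577) (nat_lit 316)) (XT.lf (nat_lit 0) (nat_lit 5524587740) (nat_lit 380) (nat_lit 11667363348) (nat_lit 76) (nat_lit 17830823903) (nat_lit 154) (nat_lit 5) (nat_lit 159) (nat_lit 5) (nat_lit 155) (nat_lit 5) (nat_lit 668) (nat_lit 577) (nat_lit 315))) (XT.nd (nat_lit 78) (nat_lit 0) (nat_lit 0) (XT.lf (nat_lit 0)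 (nat_lit 9985165560) (nat_lit 380) (nat_lit 4010011171) (nat_lit 456) (nat_lit 21461350230) (nat_lit 149) (nat_lit 5) (nat_lit 154) (nat_lit 5) (nat_lit 155) (nat_lit 5) (nat_lit 669) (nat_lit 577) (nat_lit 314)) (XT.lf (nat_lit 0) (nat_lit 22772307509) (nat_lit 456) (nat_lit 3734981052) (nat_lit 76) (nat_lit 9388922852) (nat_lit 149) (nat_lit 5) (nat_lit 155) (nat_lit 5) (nat_lit 150) (nat_lit 5) (nat_lit 670) (nat_lit 577) (nat_lit 313)))) (XT.nd (nat_lit 156) (nat_lit 304) (nat_lit 0) (XT.nd (nat_lit 78) (nat_lit 456) (nat_lit 0) (XT.lf (nat_lit 0) (nat_lit 18649543314) (nat_lit 304) (nat_lit 13220192286) (nat_lit 380) (nat_lit 4472058905) (nat_lit 145) (nat_lit 5) (nat_lit 149) (nat_lit 5) (nat_lit 150) (nat_lit 5) (nat_lit 671) (nat_lit 577) (nat_lit 312)) (XT.lf (nat_lit 0) (nat_lit 4351737520) (nat_lit 456) (nat_lit 32031313939) (nat_lit 76) (nat_lit 411552559) (nat_lit 139) (nat_lit 5) (nat_lit 145) (nat_lit 5) (nat_lit 140) (nat_lit 5) (nat_lit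 672) (nat_lit 577) (nat_lit 311))) (XT.nd (nat_lit 78) (nat_lit 304) (nat_lit 0) (XT.lf (nat_lit 0) (nat_lit 13496382729) (nat_lit 456) (nat_lit 9468925989) (nat_lit 76) (nat_lit 14286484761) (nat_lit 139) (nat_lit 5) (nat_lit 145) (nat_lit 5) (nat_lit 140) (nat_lit 5) (nat_lit 673) (nat_lit 577) (nat_lit 310)) (XT.lf (nat_lit 0) (nat_lit 13720099755) (nat_lit 304) (nat_lit 9190093465) (nat_lit 380) (nat_lit 14806208103) (nat_lit 135) (nat_lit 5) (nat_lit 139) (nat_lit 5) (nat_lit 140) (nat_lit 5) (nat_lit 674) (nat_lit 577) (nat_lit 309))))) (XT.nd (nat_lit 312) (nat_lit 988) (nat_lit 0) (XT.nd (nat_lit 156) (nat_lit 304) (nat_lit 0) (XT.nd (nat_lit 78) (nat_lit 380) (nat_lit 0) (XT.lf (nat_lit 0) (nat_lit 32605007399) (nat_lit 380) (nat_lit 724315885) (nat_lit 76) (nat_lit 4859123528) (nat_lit 135) (nat_lit 5) (nat_lit 140) (nat_lit 5) (nat_lit 136) (nat_lit 5) (nat_lit 675) (nat_lit 577) (nat_lit 308)) (XT.lf (nat_lit 0) (nat_lit 3984115010) (nat_lit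 380) (nat_lit 15439227302) (nat_lit 76) (nat_lit 19241884804) (nat_lit 130) (nat_lit 5) (nat_lit 135) (nat_lit 5) (nat_lit 131) (nat_lit 5) (nat_lit 676) (nat_lit 577) (nat_lit 307))) (XT.nd (nat_lit 78) (nat_lit 0) (nat_lit 0) (XT.lf (nat_lit 0) (nat_lit 8584793468) (nat_lit 304) (nat_lit 5141433959) (nat_lit 380) (nat_lit 25423418121) (nat_lit 126) (nat_lit 5) (nat_lit 130) (nat_lit 5) (nat_lit 131) (nat_lit 5) (nat_lit 677) (nat_lit 577) (nat_lit 306)) (XT.lf (nat_lit 0) (nat_lit 23825955813) (nat_lit 380) (nat_lit 6409486176) (nat_lit 76) (nat_lit 9405054923) (nat_lit 126) (nat_lit 5) (nat_lit 131) (nat_lit 5) (nat_lit 127) (nat_lit 5) (nat_lit 678) (nat_lit 577) (nat_lit 305)))) (XT.nd (nat_lit 156) (nat_lit 304) (nat_lit 0) (XT.nd (nat_lit 78) (nat_lit 380) (nat_lit 0) (XT.lf (nat_lit 0) (nat_lit 18432271872) (nat_lit 304) (nat_lit 15846465633) (nat_lit 380) (nat_lit 5859406657) (nat_lit 122) (nat_lit 5) (nat_lit 126) (nat_lit 5) (nat_lit 127) (nat_lit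 5) (nat_lit 679) (nat_lit 577) (nat_lit 304)) (XT.lf (nat_lit 0) (nat_lit 3222542849) (nat_lit 304) (nat_lit 1077520173) (nat_lit 380) (nat_lit 36343892470) (nat_lit 117) (nat_lit 5) (nat_lit 121) (nat_lit 5) (nat_lit 122) (nat_lit 5) (nat_lit 680) (nat_lit 577) (nat_lit 303))) (XT.nd (nat_lit 78) (nat_lit 304) (nat_lit 0) (XT.lf (nat_lit 0) (nat_lit 14819125599) (nat_lit 380) (nat_lit 12348222227) (nat_lit 76) (nat_lit 13987063423) (nat_lit 117) (nat_lit 5) (nat_lit 122) (nat_lit 5) (nat_lit 118) (nat_lit 5) (nat_lit 681) (nat_lit 577) (nat_lit 302)) (XT.lf (nat_lit 0) (nat_lit 13390575528) (nat_lit 304) (nat_lit 12249475742) (nat_lit 380) (nat_lit 16033195246) (nat_lit 113) (nat_lit 5) (nat_lit 117) (nat_lit 5) (nat_lit 118) (nat_lit 5) (nat_lit 682) (nat_lit 577) (nat_lit 301))))))))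
noncomputable def xc172 : XT := (XT.nd (nat_lit 75192) (nat_lit 0) (nat_lit 13300) (XT.nd (nat_lit 73944) (nat_lit 0) (nat_lit 26524) (XT.nd (nat_lit 73320) (nat_lit 0) (nat_lit 30552) (XT.nd (nat_lit 73008) (nat_lit 0) (nat_lit 30476) (XT.nd (nat_lit 78) (nat_lit 608) (nat_lit 0) (XT.lf (nat_lit 0) (nat_lit 36777486450) (nat_lit 380) (nat_lit 2413431475) (nat_lit 76) (nat_lit 3009538774) (nat_lit 113) (nat_lit 5) (nat_lit 118) (nat_lit 5) (nat_lit 114) (nat_lit 5) (nat_lit 683) (nat_lit 577) (nat_lit 300)) (XT.nd (nat_lit 78) (nat_lit 304) (nat_lit 0) (XT.lf (nat_lit 0) (nat_lit 5565952209) (nat_lit 304) (nat_lit 18564854140) (nat_lit 76) (nat_lit 18601957474) (nat_lit 109) (nat_lit 5) (nat_lit 113) (nat_lit 5) (nat_lit 110) (nat_lit 5) (nat_lit 684) (nat_lit 577) (nat_lit 299)) (XT.lf (nat_lit 0) (nat_lit 8104193980) (nat_lit 304) (nat_lit 8664307052) (nat_lit 380) (nat_lit 26505169941) (nat_lit 105) (nat_lit 5) (nat_lit 109) (nat_lit 5) (nat_lit 110)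 (nat_lit 5) (nat_lit 685) (nat_lit 577) (nat_lit 298)))) (XT.nd (nat_lit 156) (nat_lit 0) (nat_lit 0) (XT.nd (nat_lit 78) (nat_lit 0) (nat_lit 0) (XT.lf (nat_lit 0) (nat_lit 699082907) (nat_lit 0) (nat_lit 699082907) (nat_lit 1748) (nat_lit 5138446509) (nat_lit 506) (nat_lit 5) (nat_lit 506) (nat_lit 3) (nat_lit 529) (nat_lit 3) (nat_lit 578) (nat_lit 578) (nat_lit 404)) (XT.lf (nat_lit 0) (nat_lit 3254782909) (nat_lit 1748) (nat_lit 5193004554) (nat_lit 1824) (nat_lit 4747547266) (nat_lit 506) (nat_lit 5) (nat_lit 529) (nat_lit 3) (nat_lit 530) (nat_lit 5) (nat_lit 579) (nat_lit 578) (nat_lit 403))) (XT.nd (nat_lit 78) (nat_lit 0) (nat_lit 76) (XT.lf (nat_lit 76) (nat_lit 1422609145) (nat_lit 0) (nat_lit 2307851386) (nat_lit 1824) (nat_lit 9589265659) (nat_lit 507) (nat_lit 5) (nat_lit 506) (nat_lit 5) (nat_lit 530) (nat_lit 5) (nat_lit 580) (nat_lit 578) (nat_lit 402)) (XT.lf (nat_lit 0) (nat_lit 4266170086) (nat_lit 1748) (nat_lit 5236570414) (nat_lit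 1824) (nat_lit 3942854934) (nat_lit 507) (nat_lit 5) (nat_lit 530) (nat_lit 5) (nat_lit 531) (nat_lit 5) (nat_lit 581) (nat_lit 578) (nat_lit 401))))) (XT.nd (nat_lit 312) (nat_lit 0) (nat_lit 152) (XT.nd (nat_lit 156) (nat_lit 0) (nat_lit 76) (XT.nd (nat_lit 78) (nat_lit 0) (nat_lit 76) (XT.lf (nat_lit 76) (nat_lit 1556750783) (nat_lit 0) (nat_lit 3271197114) (nat_lit 1824) (nat_lit 8745727395) (nat_lit 508) (nat_lit 5) (nat_lit 507) (nat_lit 5) (nat_lit 531) (nat_lit 5) (nat_lit 582) (nat_lit 578) (nat_lit 400)) (XT.lf (nat_lit 0) (nat_lit 5446515748) (nat_lit 1748) (nat_lit 5172713926) (nat_lit 1824) (nat_lit 3084176291) (nat_lit 508) (nat_lit 5) (nat_lit 531) (nat_lit 5) (nat_lit 532) (nat_lit 5) (nat_lit 583) (nat_lit 578) (nat_lit 399))) (XT.nd (nat_lit 78) (nat_lit 0) (nat_lit 76) (XT.lf (nat_lit 76) (nat_lit 1804740693) (nat_lit 0) (nat_lit 4296440399) (nat_lit 1824) (nat_lit 7734075938) (nat_lit 509) (nat_lit 5) (nat_lit 508) (nat_lit 5) (nat_lit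 532) (nat_lit 5) (nat_lit 584) (nat_lit 578) (nat_lit 398)) (XT.lf (nat_lit 0) (nat_lit 6808381869) (nat_lit 1748) (nat_lit 4997220879) (nat_lit 1824) (nat_lit 2163353818) (nat_lit 509) (nat_lit 5) (nat_lit 532) (nat_lit 5) (nat_lit 533) (nat_lit 5) (nat_lit 585) (nat_lit 578) (nat_lit 397)))) (XT.nd (nat_lit 156) (nat_lit 0) (nat_lit 76) (XT.nd (nat_lit 78) (nat_lit 0) (nat_lit 76) (XT.lf (nat_lit 76) (nat_lit 2171050580) (nat_lit 0) (nat_lit 5391934229) (nat_lit 1824) (nat_lit 6541680413) (nat_lit 510) (nat_lit 5) (nat_lit 509) (nat_lit 5) (nat_lit 533) (nat_lit 5) (nat_lit 586) (nat_lit 578) (nat_lit 396)) (XT.lf (nat_lit 0) (nat_lit 8364779374) (nat_lit 1748) (nat_lit 4705558503) (nat_lit 1824) (nat_lit 1172108465) (nat_lit 510) (nat_lit 5) (nat_lit 533) (nat_lit 5) (nat_lit 534) (nat_lit 5) (nat_lit 587) (nat_lit 578) (nat_lit 395))) (XT.nd (nat_lit 78) (nat_lit 0) (nat_lit 76) (XT.lf (nat_lit 76) (nat_lit 2660479969) (nat_lit 0) (nat_lit 6566167411)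 (nat_lit 1824) (nat_lit 5155455231) (nat_lit 511) (nat_lit 5) (nat_lit 510) (nat_lit 5) (nat_lit 534) (nat_lit 5) (nat_lit 588) (nat_lit 578) (nat_lit 394)) (XT.lf (nat_lit 0) (nat_lit 10129194683) (nat_lit 1748) (nat_lit 4292869121) (nat_lit 1824) (nat_lit 102019635) (nat_lit 511) (nat_lit 5) (nat_lit 534) (nat_lit 5) (nat_lit 535) (nat_lit 5) (nat_lit 589) (nat_lit 578) (nat_lit 393)))))) (XT.nd (nat_lit 624) (nat_lit 2660) (nat_lit 0) (XT.nd (nat_lit 312) (nat_lit 1672) (nat_lit 0) (XT.nd (nat_lit 156) (nat_lit 0) (nat_lit 76) (XT.nd (nat_lit 78) (nat_lit 0) (nat_lit 0) (XT.lf (nat_lit 76) (nat_lit 3278162961) (nat_lit 0) (nat_lit 7827784788) (nat_lit 1824) (nat_lit 3561833304) (nat_lit 512) (nat_lit 5) (nat_lit 511) (nat_lit 5) (nat_lit 535) (nat_lit 5) (nat_lit 590) (nat_lit 578) (nat_lit 392)) (XT.lf (nat_lit 76) (nat_lit 11053039199) (nat_lit 0) (nat_lit 1069521797) (nat_lit 1824) (nat_lit 2691385384) (nat_lit 512) (nat_lit 5) (nat_lit 511) (nat_lit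 5) (nat_lit 535) (nat_lit 5) (nat_lit 591) (nat_lit 578) (nat_lit 391))) (XT.nd (nat_lit 78) (nat_lit 0) (nat_lit 0) (XT.lf (nat_lit 76) (nat_lit 4029575664) (nat_lit 0) (nat_lit 9185607492) (nat_lit 1824) (nat_lit 1746738580) (nat_lit 513) (nat_lit 5) (nat_lit 512) (nat_lit 5) (nat_lit 536) (nat_lit 5) (nat_lit 592) (nat_lit 578) (nat_lit 390)) (XT.lf (nat_lit 76) (nat_lit 12013871383) (nat_lit 0) (nat_lit 2339886744) (nat_lit 1824) (nat_lit 758616718) (nat_lit 513) (nat_lit 5) (nat_lit 512) (nat_lit 5) (nat_lit 536) (nat_lit 5) (nat_lit 593) (nat_lit 578) (nat_lit 389)))) (XT.nd (nat_lit 156) (nat_lit 0) (nat_lit 76) (XT.nd (nat_lit 78) (nat_lit 0) (nat_lit 0) (XT.lf (nat_lit 0) (nat_lit 300449367) (nat_lit 1824) (nat_lit 10346187744) (nat_lit 1900) (nat_lit 4618078759) (nat_lit 489) (nat_lit 5) (nat_lit 513) (nat_lit 5) (nat_lit 514) (nat_lit 5) (nat_lit 594) (nat_lit 578) (nat_lit 388)) (XT.lf (nat_lit 0) (nat_lit 1399042969) (nat_lit 1824) (nat_lit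 2308372876) (nat_lit 1900) (nat_lit 11712017735) (nat_lit 489) (nat_lit 5) (nat_lit 513) (nat_lit 5) (nat_lit 514) (nat_lit 5) (nat_lit 595) (nat_lit 578) (nat_lit 387))) (XT.nd (nat_lit 78) (nat_lit 0) (nat_lit 0) (XT.lf (nat_lit 0) (nat_lit 2572698612) (nat_lit 1824) (nat_lit 9636194244) (nat_lit 1900) (nat_lit 3367291219) (nat_lit 490) (nat_lit 5) (nat_lit 514) (nat_lit 5) (nat_lit 515) (nat_lit 5) (nat_lit 596) (nat_lit 578) (nat_lit 386)) (XT.lf (nat_lit 0) (nat_lit 3802323879) (nat_lit 1824) (nat_lit 1381744395) (nat_lit 1900) (nat_lit 10551351603) (nat_lit 490) (nat_lit 5) (nat_lit 514) (nat_lit 5) (nat_lit 515) (nat_lit 5) (nat_lit 597) (nat_lit 578) (nat_lit 385))))) (XT.nd (nat_lit 312) (nat_lit 2812) (nat_lit 0) (XT.nd (nat_lit 156) (nat_lit 0) (nat_lit 76) (XT.nd (nat_lit 78) (nat_lit 0) (nat_lit 0) (XT.lf (nat_lit 0) (nat_lit 5108486564) (nat_lit 1824) (nat_lit 8784824098) (nat_lit 1900) (nat_lit 2003491058) (nat_lit 491) (nat_lit 5) (nat_lit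 515) (nat_lit 5) (nat_lit 516) (nat_lit 5) (nat_lit 598) (nat_lit 578) (nat_lit 384)) (XT.lf (nat_lit 0) (nat_lit 6477058694) (nat_lit 1824) (nat_lit 307258400) (nat_lit 1900) (nat_lit 9276368602) (nat_lit 491) (nat_lit 5) (nat_lit 515) (nat_lit 5) (nat_lit 516) (nat_lit 5) (nat_lit 599) (nat_lit 578) (nat_lit 383))) (XT.nd (nat_lit 78) (nat_lit 0) (nat_lit 0) (XT.lf (nat_lit 0) (nat_lit 7924000468) (nat_lit 1824) (nat_lit 7785512658) (nat_lit 1900) (nat_lit 517314474) (nat_lit 492) (nat_lit 5) (nat_lit 516) (nat_lit 5) (nat_lit 517) (nat_lit 5) (nat_lit 600) (nat_lit 578) (nat_lit 382)) (XT.lf (nat_lit 76) (nat_lit 934141852) (nat_lit 0) (nat_lit 8511687703) (nat_lit 1900) (nat_lit 6949544030) (nat_lit 493) (nat_lit 5) (nat_lit 492) (nat_lit 5) (nat_lit 517) (nat_lit 5) (nat_lit 601) (nat_lit 578) (nat_lit 381)))) (XT.nd (nat_lit 156) (nat_lit 1140) (nat_lit 0) (XT.nd (nat_lit 78) (nat_lit 1748) (nat_lit 0) (XT.lf (nat_lit 76) (nat_lit 9927822915) (nat_lit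 0) (nat_lit 1115497153) (nat_lit 1900) (nat_lit 5523066131) (nat_lit 493) (nat_lit 5) (nat_lit 492) (nat_lit 5) (nat_lit 517) (nat_lit 5) (nat_lit 602) (nat_lit 578) (nat_lit 380)) (XT.lf (nat_lit 0) (nat_lit 2343626292) (nat_lit 1824) (nat_lit 10379214048) (nat_lit 1900) (nat_lit 4016977328) (nat_lit 469) (nat_lit 5) (nat_lit 493) (nat_lit 5) (nat_lit 494) (nat_lit 5) (nat_lit 603) (nat_lit 578) (nat_lit 379))) (XT.nd (nat_lit 78) (nat_lit 1140) (nat_lit 0) (XT.lf (nat_lit 0) (nat_lit 11582070103) (nat_lit 1824) (nat_lit 2898989249) (nat_lit 1900) (nat_lit 2434756445) (nat_lit 469) (nat_lit 5) (nat_lit 493) (nat_lit 5) (nat_lit 494) (nat_lit 5) (nat_lit 604) (nat_lit 578) (nat_lit 378)) (XT.lf (nat_lit 0) (nat_lit 3924792813) (nat_lit 1140) (nat_lit 12399207890) (nat_lit 1216) (nat_lit 770342223) (nat_lit 454) (nat_lit 5) (nat_lit 469) (nat_lit 5) (nat_lit 470) (nat_lit 5) (nat_lit 605) (nat_lit 578) (nat_lit 377))))))) (XT.nd (nat_lit 1170) (nat_lit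 6308) (nat_lit 0) (XT.nd (nat_lit 546) (nat_lit 3268) (nat_lit 0) (XT.nd (nat_lit 234) (nat_lit 2660) (nat_lit 0) (XT.nd (nat_lit 78) (nat_lit 912) (nat_lit 0) (XT.lf (nat_lit 0) (nat_lit 963834010) (nat_lit 1216) (nat_lit 3866342582) (nat_lit 76) (nat_lit 12445171048) (nat_lit 453) (nat_lit 5) (nat_lit 469) (nat_lit 5) (nat_lit 454) (nat_lit 5) (nat_lit 606) (nat_lit 578) (nat_lit 376)) (XT.nd (nat_lit 78) (nat_lit 0) (nat_lit 0) (XT.lf (nat_lit 0) (nat_lit 2771894665) (nat_lit 988) (nat_lit 11791747915) (nat_lit 76) (nat_lit 2895237895) (nat_lit 441) (nat_lit 5) (nat_lit 454) (nat_lit 5) (nat_lit 442) (nat_lit 5) (nat_lit 607) (nat_lit 578) (nat_lit 375)) (XT.lf (nat_lit 0) (nat_lit 4667851739) (nat_lit 988) (nat_lit 2239977804) (nat_lit 76) (nat_lit 10737219898) (nat_lit 441) (nat_lit 5) (nat_lit 454) (nat_lit 5) (nat_lit 442) (nat_lit 5) (nat_lit 608) (nat_lit 578) (nat_lit 374)))) (XT.nd (nat_lit 156) (nat_lit 1748) (nat_lit 0) (XT.nd (nat_lit 78)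 (nat_lit 0) (nat_lit 0) (XT.lf (nat_lit 0) (nat_lit 6650985430) (nat_lit 988) (nat_lit 10243624405) (nat_lit 76) (nat_lit 939346979) (nat_lit 429) (nat_lit 5) (nat_lit 442) (nat_lit 5) (nat_lit 430) (nat_lit 5) (nat_lit 609) (nat_lit 578) (nat_lit 373)) (XT.lf (nat_lit 0) (nat_lit 8728502476) (nat_lit 988) (nat_lit 430486679) (nat_lit 76) (nat_lit 8866558940) (nat_lit 429) (nat_lit 5) (nat_lit 442) (nat_lit 5) (nat_lit 430) (nat_lit 5) (nat_lit 610) (nat_lit 578) (nat_lit 372))) (XT.nd (nat_lit 78) (nat_lit 912) (nat_lit 0) (XT.lf (nat_lit 0) (nat_lit 9700340880) (nat_lit 836) (nat_lit 1204173252) (nat_lit 912) (nat_lit 7315318352) (nat_lit 418) (nat_lit 5) (nat_lit 429) (nat_lit 5) (nat_lit 430) (nat_lit 5) (nat_lit 611) (nat_lit 578) (nat_lit 371)) (XT.lf (nat_lit 0) (nat_lit 1591793392) (nat_lit 912) (nat_lit 11584403650) (nat_lit 988) (nat_lit 5240762664) (nat_lit 406) (nat_lit 5) (nat_lit 418) (nat_lit 5) (nat_lit 419) (nat_lit 5) (nat_lit 612) (nat_lit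 578) (nat_lit 370))))) (XT.nd (nat_lit 312) (nat_lit 1520) (nat_lit 0) (XT.nd (nat_lit 156) (nat_lit 912) (nat_lit 0) (XT.nd (nat_lit 78) (nat_lit 836) (nat_lit 0) (XT.lf (nat_lit 0) (nat_lit 12006868980) (nat_lit 912) (nat_lit 3545661455) (nat_lit 988) (nat_lit 3064314865) (nat_lit 406) (nat_lit 5) (nat_lit 418) (nat_lit 5) (nat_lit 419) (nat_lit 5) (nat_lit 613) (nat_lit 578) (nat_lit 369)) (XT.lf (nat_lit 0) (nat_lit 3823609330) (nat_lit 836) (nat_lit 14202062294) (nat_lit 912) (nat_lit 794071518) (nat_lit 395) (nat_lit 5) (nat_lit 406) (nat_lit 5) (nat_lit 407) (nat_lit 5) (nat_lit 614) (nat_lit 578) (nat_lit 368))) (XT.nd (nat_lit 78) (nat_lit 836) (nat_lit 0) (XT.lf (nat_lit 0) (nat_lit 1564029598) (nat_lit 912) (nat_lit 4509876525) (nat_lit 76) (nat_lit 12951347216) (nat_lit 394) (nat_lit 5) (nat_lit 406) (nat_lit 5) (nat_lit 395) (nat_lit 5) (nat_lit 615) (nat_lit 578) (nat_lit 367)) (XT.lf (nat_lit 0) (nat_lit 4008381015) (nat_lit 912) (nat_lit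 12991615633) (nat_lit 76) (nat_lit 2233777848) (nat_lit 383) (nat_lit 5) (nat_lit 395) (nat_lit 5) (nat_lit 384) (nat_lit 5) (nat_lit 616) (nat_lit 578) (nat_lit 366)))) (XT.nd (nat_lit 156) (nat_lit 760) (nat_lit 0) (XT.nd (nat_lit 78) (nat_lit 760) (nat_lit 0) (XT.lf (nat_lit 0) (nat_lit 6566769197) (nat_lit 912) (nat_lit 2221752122) (nat_lit 76) (nat_lit 10656641911) (nat_lit 383) (nat_lit 5) (nat_lit 395) (nat_lit 5) (nat_lit 384) (nat_lit 5) (nat_lit 617) (nat_lit 578) (nat_lit 365)) (XT.lf (nat_lit 0) (nat_lit 8874175581) (nat_lit 760) (nat_lit 354336326) (nat_lit 836) (nat_lit 10431224241) (nat_lit 373) (nat_lit 5) (nat_lit 383) (nat_lit 5) (nat_lit 384) (nat_lit 5) (nat_lit 618) (nat_lit 578) (nat_lit 364))) (XT.nd (nat_lit 78) (nat_lit 0) (nat_lit 0) (XT.lf (nat_lit 0) (nat_lit 288174585) (nat_lit 760) (nat_lit 11720385943) (nat_lit 836) (nat_lit 7868738716) (nat_lit 363) (nat_lit 5) (nat_lit 373) (nat_lit 5) (nat_lit 374) (nat_lit 5) (nat_lit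 619) (nat_lit 578) (nat_lit 363)) (XT.lf (nat_lit 0) (nat_lit 11721458714) (nat_lit 760) (nat_lit 3192164411) (nat_lit 836) (nat_lit 5184202355) (nat_lit 363) (nat_lit 5) (nat_lit 373) (nat_lit 5) (nat_lit 374) (nat_lit 5) (nat_lit 620) (nat_lit 578) (nat_lit 362)))))) (XT.nd (nat_lit 624) (nat_lit 2660) (nat_lit 0) (XT.nd (nat_lit 312) (nat_lit 2052) (nat_lit 0) (XT.nd (nat_lit 156) (nat_lit 760) (nat_lit 0) (XT.nd (nat_lit 78) (nat_lit 76) (nat_lit 0) (XT.lf (nat_lit 0) (nat_lit 3059279243) (nat_lit 760) (nat_lit 14867929230) (nat_lit 836) (nat_lit 2394545475) (nat_lit 353) (nat_lit 5) (nat_lit 363) (nat_lit 5) (nat_lit 364) (nat_lit 5) (nat_lit 621) (nat_lit 578) (nat_lit 361)) (XT.lf (nat_lit 0) (nat_lit 517549815) (nat_lit 836) (nat_lit 5742063142) (nat_lit 76) (nat_lit 14289038429) (nat_lit 352) (nat_lit 5) (nat_lit 363) (nat_lit 5) (nat_lit 353) (nat_lit 5) (nat_lit 622) (nat_lit 578) (nat_lit 360))) (XT.nd (nat_lit 78) (nat_lit 0) (nat_lit 0) (XT.lf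 (nat_lit 0) (nat_lit 3506910930) (nat_lit 836) (nat_lit 14729001615) (nat_lit 76) (nat_lit 2542836058) (nat_lit 342) (nat_lit 5) (nat_lit 353) (nat_lit 5) (nat_lit 343) (nat_lit 5) (nat_lit 623) (nat_lit 578) (nat_lit 359)) (XT.lf (nat_lit 0) (nat_lit 6631297832) (nat_lit 836) (nat_lit 2904872372) (nat_lit 76) (nat_lit 11475772916) (nat_lit 342) (nat_lit 5) (nat_lit 353) (nat_lit 5) (nat_lit 343) (nat_lit 5) (nat_lit 624) (nat_lit 578) (nat_lit 358)))) (XT.nd (nat_lit 156) (nat_lit 684) (nat_lit 0) (XT.nd (nat_lit 78) (nat_lit 684) (nat_lit 0) (XT.lf (nat_lit 0) (nat_lit 9271737826) (nat_lit 684) (nat_lit 601727749) (nat_lit 760) (nat_lit 11375230213) (nat_lit 333) (nat_lit 5) (nat_lit 342) (nat_lit 5) (nat_lit 343) (nat_lit 5) (nat_lit 625) (nat_lit 578) (nat_lit 357)) (XT.lf (nat_lit 0) (nat_lit 182812105) (nat_lit 684) (nat_lit 13068885701) (nat_lit 760) (nat_lit 8237061402) (nat_lit 324) (nat_lit 5) (nat_lit 333) (nat_lit 5) (nat_lit 334) (nat_lit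 5) (nat_lit 626) (nat_lit 578) (nat_lit 356))) (XT.nd (nat_lit 78) (nat_lit 684) (nat_lit 0) (XT.lf (nat_lit 0) (nat_lit 12738470075) (nat_lit 684) (nat_lit 4038563839) (nat_lit 760) (nat_lit 4954999316) (nat_lit 324) (nat_lit 5) (nat_lit 333) (nat_lit 5) (nat_lit 334) (nat_lit 5) (nat_lit 627) (nat_lit 578) (nat_lit 355)) (XT.lf (nat_lit 0) (nat_lit 3572744246) (nat_lit 684) (nat_lit 16852209015) (nat_lit 760) (nat_lit 1554178057) (nat_lit 315) (nat_lit 5) (nat_lit 324) (nat_lit 5) (nat_lit 325) (nat_lit 5) (nat_lit 628) (nat_lit 578) (nat_lit 354))))) (XT.nd (nat_lit 312) (nat_lit 1292) (nat_lit 0) (XT.nd (nat_lit 156) (nat_lit 608) (nat_lit 0) (XT.nd (nat_lit 78) (nat_lit 684) (nat_lit 0) (XT.lf (nat_lit 0) (nat_lit 1972367879) (nat_lit 760) (nat_lit 5762877223) (nat_lit 76) (nat_lit 14494021367) (nat_lit 314) (nat_lit 5) (nat_lit 324) (nat_lit 5) (nat_lit 315) (nat_lit 5) (nat_lit 629) (nat_lit 578) (nat_lit 353)) (XT.lf (nat_lit 0) (nat_lit 5601422233)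 (nat_lit 760) (nat_lit 15281594353) (nat_lit 76) (nat_lit 1600126623) (nat_lit 305) (nat_lit 5) (nat_lit 315) (nat_lit 5) (nat_lit 306) (nat_lit 5) (nat_lit 630) (nat_lit 578) (nat_lit 352))) (XT.nd (nat_lit 78) (nat_lit 608) (nat_lit 0) (XT.lf (nat_lit 0) (nat_lit 9388675104) (nat_lit 760) (nat_lit 2294988613) (nat_lit 76) (nat_lit 11056721527) (nat_lit 305) (nat_lit 5) (nat_lit 315) (nat_lit 5) (nat_lit 306) (nat_lit 5) (nat_lit 631) (nat_lit 578) (nat_lit 351)) (XT.lf (nat_lit 0) (nat_lit 11091361055) (nat_lit 608) (nat_lit 2227876013) (nat_lit 684) (nat_lit 9682183877) (nat_lit 297) (nat_lit 5) (nat_lit 305) (nat_lit 5) (nat_lit 306) (nat_lit 5) (nat_lit 632) (nat_lit 578) (nat_lit 350)))) (XT.nd (nat_lit 156) (nat_lit 684) (nat_lit 0) (XT.nd (nat_lit 78) (nat_lit 0) (nat_lit 0) (XT.lf (nat_lit 0) (nat_lit 1474762158) (nat_lit 608) (nat_lit 15922479066) (nat_lit 684) (nat_lit 5869059619) (nat_lit 289) (nat_lit 5) (nat_lit 297) (nat_lit 5) (nat_lit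 298) (nat_lit 5) (nat_lit 633) (nat_lit 578) (nat_lit 349)) (XT.lf (nat_lit 0) (nat_lit 15268311696) (nat_lit 608) (nat_lit 6378721467) (nat_lit 684) (nat_lit 1887640723) (nat_lit 289) (nat_lit 5) (nat_lit 297) (nat_lit 5) (nat_lit 298) (nat_lit 5) (nat_lit 634) (nat_lit 578) (nat_lit 348))) (XT.nd (nat_lit 78) (nat_lit 0) (nat_lit 0) (XT.lf (nat_lit 0) (nat_lit 2198970462) (nat_lit 684) (nat_lit 18246592146) (nat_lit 76) (nat_lit 3361488285) (nat_lit 280) (nat_lit 5) (nat_lit 289) (nat_lit 5) (nat_lit 281) (nat_lit 5) (nat_lit 635) (nat_lit 578) (nat_lit 347)) (XT.lf (nat_lit 0) (nat_lit 6435890973) (nat_lit 684) (nat_lit 4368463519) (nat_lit 76) (nat_lit 13278394445) (nat_lit 280) (nat_lit 5) (nat_lit 289) (nat_lit 5) (nat_lit 281) (nat_lit 5) (nat_lit 636) (nat_lit 578) (nat_lit 346))))))))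
noncomputable def xc173 : XT := (XT.nd (nat_lit 2418) (nat_lit 4104) (nat_lit 0) (XT.nd (nat_lit 1170) (nat_lit 4256) (nat_lit 0) (XT.nd (nat_lit 546) (nat_lit 2584) (nat_lit 0) (XT.nd (nat_lit 234) (nat_lit 1216) (nat_lit 0) (XT.nd (nat_lit 78) (nat_lit 532) (nat_lit 0) (XT.lf (nat_lit 0) (nat_lit 9911875821) (nat_lit 608) (nat_lit 905858734) (nat_lit 684) (nat_lit 13545022786) (nat_lit 272) (nat_lit 5) (nat_lit 280) (nat_lit 5) (nat_lit 281) (nat_lit 5) (nat_lit 637) (nat_lit 578) (nat_lit 345)) (XT.nd (nat_lit 78) (nat_lit 532) (nat_lit 0) (XT.lf (nat_lit 0) (nat_lit 15372265083) (nat_lit 684) (nat_lit 175995176) (nat_lit 76) (nat_lit 9098404746) (nat_lit 272) (nat_lit 5) (nat_lit 281) (nat_lit 5) (nat_lit 273) (nat_lit 5) (nat_lit 638) (nat_lit 578) (nat_lit 344)) (XT.lf (nat_lit 0) (nat_lit 14564118984) (nat_lit 532) (nat_lit 5550276936) (nat_lit 608) (nat_lit 4819924798) (nat_lit 265) (nat_lit 5) (nat_lit 272) (nat_lit 5) (nat_lit 273) (nat_lit 5)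 (nat_lit 639) (nat_lit 578) (nat_lit 343)))) (XT.nd (nat_lit 156) (nat_lit 532) (nat_lit 0) (XT.nd (nat_lit 78) (nat_lit 76) (nat_lit 0) (XT.lf (nat_lit 0) (nat_lit 4395864939) (nat_lit 608) (nat_lit 20611397852) (nat_lit 684) (nat_lit 219348973) (nat_lit 257) (nat_lit 5) (nat_lit 265) (nat_lit 5) (nat_lit 266) (nat_lit 5) (nat_lit 640) (nat_lit 578) (nat_lit 342)) (XT.lf (nat_lit 0) (nat_lit 4517384182) (nat_lit 684) (nat_lit 5997131372) (nat_lit 76) (nat_lit 15007596035) (nat_lit 256) (nat_lit 5) (nat_lit 265) (nat_lit 5) (nat_lit 257) (nat_lit 5) (nat_lit 641) (nat_lit 578) (nat_lit 341))) (XT.nd (nat_lit 78) (nat_lit 0) (nat_lit 0) (XT.lf (nat_lit 0) (nat_lit 9247756999) (nat_lit 532) (nat_lit 154287522) (nat_lit 608) (nat_lit 16420325382) (nat_lit 249) (nat_lit 5) (nat_lit 256) (nat_lit 5) (nat_lit 257) (nat_lit 5) (nat_lit 642) (nat_lit 578) (nat_lit 340)) (XT.lf (nat_lit 0) (nat_lit 14488636242) (nat_lit 608) (nat_lit 1322135481) (nat_lit 76) (nat_lit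 10315776978) (nat_lit 249) (nat_lit 5) (nat_lit 257) (nat_lit 5) (nat_lit 250) (nat_lit 5) (nat_lit 643) (nat_lit 578) (nat_lit 339))))) (XT.nd (nat_lit 312) (nat_lit 988) (nat_lit 0) (XT.nd (nat_lit 156) (nat_lit 608) (nat_lit 0) (XT.nd (nat_lit 78) (nat_lit 456) (nat_lit 0) (XT.lf (nat_lit 0) (nat_lit 14418304404) (nat_lit 532) (nat_lit 5349485170) (nat_lit 608) (nat_lit 6667204986) (nat_lit 242) (nat_lit 5) (nat_lit 249) (nat_lit 5) (nat_lit 250) (nat_lit 5) (nat_lit 644) (nat_lit 578) (nat_lit 338)) (XT.lf (nat_lit 0) (nat_lit 3751441039) (nat_lit 456) (nat_lit 21465147639) (nat_lit 532) (nat_lit 1531739481) (nat_lit 236) (nat_lit 5) (nat_lit 242) (nat_lit 5) (nat_lit 243) (nat_lit 5) (nat_lit 645) (nat_lit 578) (nat_lit 337))) (XT.nd (nat_lit 78) (nat_lit 532) (nat_lit 0) (XT.lf (nat_lit 0) (nat_lit 3770667076) (nat_lit 532) (nat_lit 7133729426) (nat_lit 76) (nat_lit 16160793865) (nat_lit 235) (nat_lit 5) (nat_lit 242) (nat_lit 5) (nat_lit 236) (nat_lit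 5) (nat_lit 646) (nat_lit 578) (nat_lit 336)) (XT.lf (nat_lit 0) (nat_lit 9151460403) (nat_lit 532) (nat_lit 62904471) (nat_lit 608) (nat_lit 18172707461) (nat_lit 228) (nat_lit 5) (nat_lit 235) (nat_lit 5) (nat_lit 236) (nat_lit 5) (nat_lit 647) (nat_lit 578) (nat_lit 335)))) (XT.nd (nat_lit 156) (nat_lit 532) (nat_lit 0) (XT.nd (nat_lit 78) (nat_lit 456) (nat_lit 0) (XT.lf (nat_lit 0) (nat_lit 14882860821) (nat_lit 608) (nat_lit 1932227615) (nat_lit 76) (nat_lit 10897985094) (nat_lit 228) (nat_lit 5) (nat_lit 236) (nat_lit 5) (nat_lit 229) (nat_lit 5) (nat_lit 648) (nat_lit 578) (nat_lit 334)) (XT.lf (nat_lit 0) (nat_lit 14887014325) (nat_lit 456) (nat_lit 5871203497) (nat_lit 532) (nat_lit 7285507176) (nat_lit 222) (nat_lit 5) (nat_lit 228) (nat_lit 5) (nat_lit 229) (nat_lit 5) (nat_lit 649) (nat_lit 578) (nat_lit 333))) (XT.nd (nat_lit 78) (nat_lit 76) (nat_lit 0) (XT.lf (nat_lit 0) (nat_lit 3697080836) (nat_lit 456) (nat_lit 23121859889) (nat_lit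 532) (nat_lit 1560691664) (nat_lit 216) (nat_lit 5) (nat_lit 222) (nat_lit 5) (nat_lit 223) (nat_lit 5) (nat_lit 650) (nat_lit 578) (nat_lit 332)) (XT.lf (nat_lit 0) (nat_lit 4346720622) (nat_lit 532) (nat_lit 7726529205) (nat_lit 76) (nat_lit 16645968269) (nat_lit 215) (nat_lit 5) (nat_lit 222) (nat_lit 5) (nat_lit 216) (nat_lit 5) (nat_lit 651) (nat_lit 578) (nat_lit 331)))))) (XT.nd (nat_lit 624) (nat_lit 2052) (nat_lit 0) (XT.nd (nat_lit 312) (nat_lit 912) (nat_lit 0) (XT.nd (nat_lit 156) (nat_lit 836) (nat_lit 0) (XT.nd (nat_lit 78) (nat_lit 0) (nat_lit 0) (XT.lf (nat_lit 0) (nat_lit 9680254375) (nat_lit 456) (nat_lit 730528746) (nat_lit 532) (nat_lit 18653418144) (nat_lit 209) (nat_lit 5) (nat_lit 215) (nat_lit 5) (nat_lit 216) (nat_lit 5) (nat_lit 652) (nat_lit 578) (nat_lit 330)) (XT.lf (nat_lit 0) (nat_lit 16715249148) (nat_lit 532) (nat_lit 1950863942) (nat_lit 76) (nat_lit 10747588627) (nat_lit 209) (nat_lit 5) (nat_lit 216) (nat_lit 5) (nat_lit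 210) (nat_lit 5) (nat_lit 653) (nat_lit 578) (nat_lit 329))) (XT.nd (nat_lit 78) (nat_lit 380) (nat_lit 0) (XT.lf (nat_lit 0) (nat_lit 16031387516) (nat_lit 456) (nat_lit 7219964403) (nat_lit 532) (nat_lit 6516729373) (nat_lit 203) (nat_lit 5) (nat_lit 209) (nat_lit 5) (nat_lit 210) (nat_lit 5) (nat_lit 654) (nat_lit 578) (nat_lit 328)) (XT.lf (nat_lit 0) (nat_lit 4292796045) (nat_lit 380) (nat_lit 25692003578) (nat_lit 456) (nat_lit 143416440) (nat_lit 198) (nat_lit 5) (nat_lit 203) (nat_lit 5) (nat_lit 204) (nat_lit 5) (nat_lit 655) (nat_lit 578) (nat_lit 327)))) (XT.nd (nat_lit 156) (nat_lit 380) (nat_lit 0) (XT.nd (nat_lit 78) (nat_lit 456) (nat_lit 0) (XT.lf (nat_lit 0) (nat_lit 6411249574) (nat_lit 456) (nat_lit 7719277146) (nat_lit 76) (nat_lit 16361456049) (nat_lit 197) (nat_lit 5) (nat_lit 203) (nat_lit 5) (nat_lit 198) (nat_lit 5) (nat_lit 656) (nat_lit 578) (nat_lit 326)) (XT.lf (nat_lit 0) (nat_lit 10896296308) (nat_lit 456) (nat_lit 2266265067)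 (nat_lit 532) (nat_lit 17699095076) (nat_lit 191) (nat_lit 5) (nat_lit 197) (nat_lit 5) (nat_lit 198) (nat_lit 5) (nat_lit 657) (nat_lit 578) (nat_lit 325))) (XT.nd (nat_lit 78) (nat_lit 380) (nat_lit 0) (XT.lf (nat_lit 0) (nat_lit 20161647788) (nat_lit 532) (nat_lit 1317941905) (nat_lit 76) (nat_lit 9756879002) (nat_lit 191) (nat_lit 5) (nat_lit 198) (nat_lit 5) (nat_lit 192) (nat_lit 5) (nat_lit 658) (nat_lit 578) (nat_lit 324)) (XT.lf (nat_lit 0) (nat_lit 17917632677) (nat_lit 380) (nat_lit 9511236297) (nat_lit 456) (nat_lit 4187345206) (nat_lit 186) (nat_lit 5) (nat_lit 191) (nat_lit 5) (nat_lit 192) (nat_lit 5) (nat_lit 659) (nat_lit 578) (nat_lit 323))))) (XT.nd (nat_lit 312) (nat_lit 836) (nat_lit 0) (XT.nd (nat_lit 156) (nat_lit 760) (nat_lit 0) (XT.nd (nat_lit 78) (nat_lit 0) (nat_lit 0) (XT.lf (nat_lit 0) (nat_lit 2860680296) (nat_lit 456) (nat_lit 26417648947) (nat_lit 76) (nat_lit 2723656486) (nat_lit 180) (nat_lit 5) (nat_lit 186) (nat_lit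 5) (nat_lit 181) (nat_lit 5) (nat_lit 660) (nat_lit 578) (nat_lit 322)) (XT.lf (nat_lit 0) (nat_lit 10146015193) (nat_lit 456) (nat_lit 7051169264) (nat_lit 76) (nat_lit 15194686388) (nat_lit 180) (nat_lit 5) (nat_lit 186) (nat_lit 5) (nat_lit 181) (nat_lit 5) (nat_lit 661) (nat_lit 578) (nat_lit 321))) (XT.nd (nat_lit 78) (nat_lit 380) (nat_lit 0) (XT.lf (nat_lit 0) (nat_lit 12866674539) (nat_lit 380) (nat_lit 4790826370) (nat_lit 456) (nat_lit 15130443923) (nat_lit 175) (nat_lit 5) (nat_lit 180) (nat_lit 5) (nat_lit 181) (nat_lit 5) (nat_lit 662) (nat_lit 578) (nat_lit 320)) (XT.lf (nat_lit 0) (nat_lit 31774961) (nat_lit 380) (nat_lit 25383259095) (nat_lit 456) (nat_lit 7774989941) (nat_lit 170) (nat_lit 5) (nat_lit 175) (nat_lit 5) (nat_lit 176) (nat_lit 5) (nat_lit 663) (nat_lit 578) (nat_lit 319)))) (XT.nd (nat_lit 156) (nat_lit 380) (nat_lit 0) (XT.nd (nat_lit 78) (nat_lit 456) (nat_lit 0) (XT.lf (nat_lit 0) (nat_lit 20617067320) (nat_lit 380) (nat_lit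 12872806015) (nat_lit 456) (nat_lit 107028349) (nat_lit 170) (nat_lit 5) (nat_lit 175) (nat_lit 5) (nat_lit 176) (nat_lit 5) (nat_lit 664) (nat_lit 578) (nat_lit 318)) (XT.lf (nat_lit 0) (nat_lit 7647712755) (nat_lit 380) (nat_lit 12053969) (nat_lit 456) (nat_lit 26350215551) (nat_lit 164) (nat_lit 5) (nat_lit 169) (nat_lit 5) (nat_lit 170) (nat_lit 5) (nat_lit 665) (nat_lit 578) (nat_lit 317))) (XT.nd (nat_lit 78) (nat_lit 380) (nat_lit 0) (XT.lf (nat_lit 0) (nat_lit 15750249383) (nat_lit 456) (nat_lit 5656873449) (nat_lit 76) (nat_lit 13020791846) (nat_lit 164) (nat_lit 5) (nat_lit 170) (nat_lit 5) (nat_lit 165) (nat_lit 5) (nat_lit 666) (nat_lit 578) (nat_lit 316)) (XT.lf (nat_lit 0) (nat_lit 15663401613) (nat_lit 380) (nat_lit 8437988496) (nat_lit 456) (nat_lit 10750838699) (nat_lit 159) (nat_lit 5) (nat_lit 164) (nat_lit 5) (nat_lit 165) (nat_lit 5) (nat_lit 667) (nat_lit 578) (nat_lit 315))))))) (XT.nd (nat_lit 1170) (nat_lit 912) (nat_lit 0) (XT.nd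 (nat_lit 546) (nat_lit 1672) (nat_lit 0) (XT.nd (nat_lit 234) (nat_lit 760) (nat_lit 0) (XT.nd (nat_lit 78) (nat_lit 456) (nat_lit 0) (XT.lf (nat_lit 0) (nat_lit 2195335426) (nat_lit 304) (nat_lit 30504875683) (nat_lit 380) (nat_lit 2583205009) (nat_lit 155) (nat_lit 5) (nat_lit 159) (nat_lit 5) (nat_lit 160) (nat_lit 5) (nat_lit 668) (nat_lit 578) (nat_lit 314)) (XT.nd (nat_lit 78) (nat_lit 380) (nat_lit 0) (XT.lf (nat_lit 0) (nat_lit 5854995690) (nat_lit 380) (nat_lit 11552015896) (nat_lit 76) (nat_lit 18311817310) (nat_lit 154) (nat_lit 5) (nat_lit 159) (nat_lit 5) (nat_lit 155) (nat_lit 5) (nat_lit 669) (nat_lit 578) (nat_lit 313)) (XT.lf (nat_lit 0) (nat_lit 10531269546) (nat_lit 380) (nat_lit 3961663896) (nat_lit 456) (nat_lit 21668363788) (nat_lit 149) (nat_lit 5) (nat_lit 154) (nat_lit 5) (nat_lit 155) (nat_lit 5) (nat_lit 670) (nat_lit 578) (nat_lit 312)))) (XT.nd (nat_lit 156) (nat_lit 456) (nat_lit 0) (XT.nd (nat_lit 78) (nat_lit 304) (nat_lit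 0) (XT.lf (nat_lit 0) (nat_lit 23442153456) (nat_lit 456) (nat_lit 3466615645) (nat_lit 76) (nat_lit 9701075402) (nat_lit 149) (nat_lit 5) (nat_lit 155) (nat_lit 5) (nat_lit 150) (nat_lit 5) (nat_lit 671) (nat_lit 578) (nat_lit 311)) (XT.lf (nat_lit 0) (nat_lit 19363342202) (nat_lit 304) (nat_lit 13356196740) (nat_lit 380) (nat_lit 4344840198) (nat_lit 145) (nat_lit 5) (nat_lit 149) (nat_lit 5) (nat_lit 150) (nat_lit 5) (nat_lit 672) (nat_lit 578) (nat_lit 310))) (XT.nd (nat_lit 78) (nat_lit 0) (nat_lit 0) (XT.lf (nat_lit 0) (nat_lit 4651455766) (nat_lit 456) (nat_lit 32327149823) (nat_lit 76) (nat_lit 547633876) (nat_lit 139) (nat_lit 5) (nat_lit 145) (nat_lit 5) (nat_lit 140) (nat_lit 5) (nat_lit 673) (nat_lit 578) (nat_lit 309)) (XT.lf (nat_lit 0) (nat_lit 13974823616) (nat_lit 456) (nat_lit 9320274711) (nat_lit 76) (nat_lit 14697557854) (nat_lit 139) (nat_lit 5) (nat_lit 145) (nat_lit 5) (nat_lit 140) (nat_lit 5) (nat_lit 674) (nat_lit 578) (nat_lit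 308))))) (XT.nd (nat_lit 312) (nat_lit 684) (nat_lit 0) (XT.nd (nat_lit 156) (nat_lit 684) (nat_lit 0) (XT.nd (nat_lit 78) (nat_lit 0) (nat_lit 0) (XT.lf (nat_lit 0) (nat_lit 14330307668) (nat_lit 304) (nat_lit 9244694428) (nat_lit 380) (nat_lit 14891592306) (nat_lit 135) (nat_lit 5) (nat_lit 139) (nat_lit 5) (nat_lit 140) (nat_lit 5) (nat_lit 675) (nat_lit 578) (nat_lit 307)) (XT.lf (nat_lit 0) (nat_lit 33460483889) (nat_lit 380) (nat_lit 406349254) (nat_lit 76) (nat_lit 5081312285) (nat_lit 135) (nat_lit 5) (nat_lit 140) (nat_lit 5) (nat_lit 136) (nat_lit 5) (nat_lit 676) (nat_lit 578) (nat_lit 306))) (XT.nd (nat_lit 78) (nat_lit 304) (nat_lit 0) (XT.lf (nat_lit 0) (nat_lit 4266667541) (nat_lit 380) (nat_lit 15415047369) (nat_lit 76) (nat_lit 19752756660) (nat_lit 130) (nat_lit 5) (nat_lit 135) (nat_lit 5) (nat_lit 131) (nat_lit 5) (nat_lit 677) (nat_lit 578) (nat_lit 305)) (XT.lf (nat_lit 0) (nat_lit 9087263261) (nat_lit 304) (nat_lit 5114528702) (nat_lit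 380) (nat_lit 25726823066) (nat_lit 126) (nat_lit 5) (nat_lit 130) (nat_lit 5) (nat_lit 131) (nat_lit 5) (nat_lit 678) (nat_lit 578) (nat_lit 304)))) (XT.nd (nat_lit 156) (nat_lit 380) (nat_lit 0) (XT.nd (nat_lit 78) (nat_lit 304) (nat_lit 0) (XT.lf (nat_lit 0) (nat_lit 24500398759) (nat_lit 380) (nat_lit 6210269002) (nat_lit 76) (nat_lit 9718678034) (nat_lit 126) (nat_lit 5) (nat_lit 131) (nat_lit 5) (nat_lit 127) (nat_lit 5) (nat_lit 679) (nat_lit 578) (nat_lit 303)) (XT.lf (nat_lit 0) (nat_lit 19126170214) (nat_lit 304) (nat_lit 16034296769) (nat_lit 380) (nat_lit 5776514439) (nat_lit 122) (nat_lit 5) (nat_lit 126) (nat_lit 5) (nat_lit 127) (nat_lit 5) (nat_lit 680) (nat_lit 578) (nat_lit 302))) (XT.nd (nat_lit 78) (nat_lit 0) (nat_lit 0) (XT.lf (nat_lit 0) (nat_lit 3612716077) (nat_lit 304) (nat_lit 969047580) (nat_lit 380) (nat_lit 36871154527) (nat_lit 117) (nat_lit 5) (nat_lit 121) (nat_lit 5) (nat_lit 122) (nat_lit 5) (nat_lit 681) (nat_lit 578)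 (nat_lit 301)) (XT.lf (nat_lit 0) (nat_lit 15308197886) (nat_lit 380) (nat_lit 12272839031) (nat_lit 76) (nat_lit 14392606379) (nat_lit 117) (nat_lit 5) (nat_lit 122) (nat_lit 5) (nat_lit 118) (nat_lit 5) (nat_lit 682) (nat_lit 578) (nat_lit 300)))))) (XT.nd (nat_lit 73398) (nat_lit 0) (nat_lit 30552) (XT.nd (nat_lit 73086) (nat_lit 0) (nat_lit 30476) (XT.nd (nat_lit 156) (nat_lit 608) (nat_lit 0) (XT.nd (nat_lit 78) (nat_lit 0) (nat_lit 0) (XT.lf (nat_lit 0) (nat_lit 13978613970) (nat_lit 304) (nat_lit 12365228994) (nat_lit 380) (nat_lit 16159046332) (nat_lit 113) (nat_lit 5) (nat_lit 117) (nat_lit 5) (nat_lit 118) (nat_lit 5) (nat_lit 683) (nat_lit 578) (nat_lit 299)) (XT.lf (nat_lit 0) (nat_lit 37701104569) (nat_lit 380) (nat_lit 2144827562) (nat_lit 76) (nat_lit 3194770045) (nat_lit 113) (nat_lit 5) (nat_lit 118) (nat_lit 5) (nat_lit 114) (nat_lit 5) (nat_lit 684) (nat_lit 578) (nat_lit 298))) (XT.nd (nat_lit 78) (nat_lit 304) (nat_lit 0) (XT.lf (nat_lit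 0) (nat_lit 5864932654) (nat_lit 304) (nat_lit 18618867246) (nat_lit 76) (nat_lit 19099863770) (nat_lit 109) (nat_lit 5) (nat_lit 113) (nat_lit 5) (nat_lit 110) (nat_lit 5) (nat_lit 685) (nat_lit 578) (nat_lit 297)) (XT.lf (nat_lit 0) (nat_lit 8581474442) (nat_lit 304) (nat_lit 8708424841) (nat_lit 380) (nat_lit 26845522386) (nat_lit 105) (nat_lit 5) (nat_lit 109) (nat_lit 5) (nat_lit 110) (nat_lit 5) (nat_lit 686) (nat_lit 578) (nat_lit 296)))) (XT.nd (nat_lit 156) (nat_lit 0) (nat_lit 0) (XT.nd (nat_lit 78) (nat_lit 0) (nat_lit 0) (XT.lf (nat_lit 0) (nat_lit 911395504) (nat_lit 0) (nat_lit 911395504) (nat_lit 1748) (nat_lit 4836607999) (nat_lit 506) (nat_lit 5) (nat_lit 506) (nat_lit 3) (nat_lit 529) (nat_lit 3) (nat_lit 579) (nat_lit 579) (nat_lit 402)) (XT.lf (nat_lit 0) (nat_lit 4095122060) (nat_lit 1748) (nat_lit 4889876022) (nat_lit 1824) (nat_lit 4458714304) (nat_lit 506) (nat_lit 5) (nat_lit 529) (nat_lit 3) (nat_lit 530) (nat_lit 5) (nat_lit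 580) (nat_lit 579) (nat_lit 401))) (XT.nd (nat_lit 78) (nat_lit 0) (nat_lit 76) (XT.lf (nat_lit 76) (nat_lit 1855372394) (nat_lit 0) (nat_lit 2712365043) (nat_lit 1824) (nat_lit 9003106230) (nat_lit 507) (nat_lit 5) (nat_lit 506) (nat_lit 5) (nat_lit 530) (nat_lit 5) (nat_lit 581) (nat_lit 579) (nat_lit 400)) (XT.lf (nat_lit 0) (nat_lit 5096925847) (nat_lit 1748) (nat_lit 4927659858) (nat_lit 1824) (nat_lit 3674989760) (nat_lit 507) (nat_lit 5) (nat_lit 530) (nat_lit 5) (nat_lit 531) (nat_lit 5) (nat_lit 582) (nat_lit 579) (nat_lit 399))))) (XT.nd (nat_lit 312) (nat_lit 0) (nat_lit 152) (XT.nd (nat_lit 156) (nat_lit 0) (nat_lit 76) (XT.nd (nat_lit 78) (nat_lit 0) (nat_lit 76) (XT.lf (nat_lit 76) (nat_lit 1998806433) (nat_lit 0) (nat_lit 3659184429) (nat_lit 1824) (nat_lit 8172465482) (nat_lit 508) (nat_lit 5) (nat_lit 507) (nat_lit 5) (nat_lit 531) (nat_lit 5) (nat_lit 583) (nat_lit 579) (nat_lit 398)) (XT.lf (nat_lit 0) (nat_lit 6272494801) (nat_lit 1748)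 (nat_lit 4856847240) (nat_lit 1824) (nat_lit 2833768742) (nat_lit 508) (nat_lit 5) (nat_lit 531) (nat_lit 5) (nat_lit 532) (nat_lit 5) (nat_lit 584) (nat_lit 579) (nat_lit 397))) (XT.nd (nat_lit 78) (nat_lit 0) (nat_lit 76) (XT.lf (nat_lit 76) (nat_lit 2257397781) (nat_lit 0) (nat_lit 4671500490) (nat_lit 1824) (nat_lit 7168928139) (nat_lit 509) (nat_lit 5) (nat_lit 508) (nat_lit 5) (nat_lit 532) (nat_lit 5) (nat_lit 585) (nat_lit 579) (nat_lit 396)) (XT.lf (nat_lit 0) (nat_lit 7634565512) (nat_lit 1748) (nat_lit 4673071898) (nat_lit 1824) (nat_lit 1926876509) (nat_lit 509) (nat_lit 5) (nat_lit 532) (nat_lit 5) (nat_lit 533) (nat_lit 5) (nat_lit 586) (nat_lit 579) (nat_lit 395)))) (XT.nd (nat_lit 156) (nat_lit 0) (nat_lit 76) (XT.nd (nat_lit 78) (nat_lit 0) (nat_lit 76) (XT.lf (nat_lit 76) (nat_lit 2635774902) (nat_lit 0) (nat_lit 5757691263) (nat_lit 1824) (nat_lit 5979686889) (nat_lit 510) (nat_lit 5) (nat_lit 509) (nat_lit 5) (nat_lit 533) (nat_lit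 5) (nat_lit 587) (nat_lit 579) (nat_lit 394)) (XT.lf (nat_lit 0) (nat_lit 9196336807) (nat_lit 1748) (nat_lit 4371646771) (nat_lit 1824) (nat_lit 946005827) (nat_lit 510) (nat_lit 5) (nat_lit 533) (nat_lit 5) (nat_lit 534) (nat_lit 5) (nat_lit 588) (nat_lit 579) (nat_lit 393))) (XT.nd (nat_lit 78) (nat_lit 0) (nat_lit 0) (XT.lf (nat_lit 76) (nat_lit 3138896531) (nat_lit 0) (nat_lit 6926281626) (nat_lit 1824) (nat_lit 4591466327) (nat_lit 511) (nat_lit 5) (nat_lit 510) (nat_lit 5) (nat_lit 534) (nat_lit 5) (nat_lit 589) (nat_lit 579) (nat_lit 392)) (XT.lf (nat_lit 76) (nat_lit 10853406473) (nat_lit 0) (nat_lit 118861840) (nat_lit 1824) (nat_lit 3829467173) (nat_lit 511) (nat_lit 5) (nat_lit 510) (nat_lit 5) (nat_lit 534) (nat_lit 5) (nat_lit 590) (nat_lit 579) (nat_lit 391))))))))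
noncomputable def xc174 : XT := (XT.nd (nat_lit 2418) (nat_lit 11248) (nat_lit 0) (XT.nd (nat_lit 1170) (nat_lit 8056) (nat_lit 0) (XT.nd (nat_lit 546) (nat_lit 1520) (nat_lit 0) (XT.nd (nat_lit 234) (nat_lit 1672) (nat_lit 0) (XT.nd (nat_lit 78) (nat_lit 0) (nat_lit 0) (XT.lf (nat_lit 76) (nat_lit 3772058800) (nat_lit 0) (nat_lit 8185963440) (nat_lit 1824) (nat_lit 2990495886) (nat_lit 512) (nat_lit 5) (nat_lit 511) (nat_lit 5) (nat_lit 535) (nat_lit 5) (nat_lit 591) (nat_lit 579) (nat_lit 390)) (XT.nd (nat_lit 78) (nat_lit 0) (nat_lit 76) (XT.lf (nat_lit 76) (nat_lit 11694033884) (nat_lit 0) (nat_lit 1288581798) (nat_lit 1824) (nat_lit 2115238500) (nat_lit 512) (nat_lit 5) (nat_lit 511) (nat_lit 5) (nat_lit 535) (nat_lit 5) (nat_lit 592) (nat_lit 579) (nat_lit 389)) (XT.lf (nat_lit 76) (nat_lit 4540903051) (nat_lit 0) (nat_lit 9545615750) (nat_lit 1824) (nat_lit 1162482049) (nat_lit 513) (nat_lit 5) (nat_lit 512) (nat_lit 5) (nat_lit 536) (nat_lit 5)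 (nat_lit 593) (nat_lit 579) (nat_lit 388)))) (XT.nd (nat_lit 156) (nat_lit 0) (nat_lit 0) (XT.nd (nat_lit 78) (nat_lit 1748) (nat_lit 0) (XT.lf (nat_lit 76) (nat_lit 12676438882) (nat_lit 0) (nat_lit 2559523800) (nat_lit 1824) (nat_lit 166738756) (nat_lit 513) (nat_lit 5) (nat_lit 512) (nat_lit 5) (nat_lit 536) (nat_lit 5) (nat_lit 594) (nat_lit 579) (nat_lit 387)) (XT.lf (nat_lit 0) (nat_lit 895519241) (nat_lit 1824) (nat_lit 10112796455) (nat_lit 1900) (nat_lit 4549895667) (nat_lit 489) (nat_lit 5) (nat_lit 513) (nat_lit 5) (nat_lit 514) (nat_lit 5) (nat_lit 595) (nat_lit 579) (nat_lit 386))) (XT.nd (nat_lit 78) (nat_lit 0) (nat_lit 76) (XT.lf (nat_lit 0) (nat_lit 2004534502) (nat_lit 1824) (nat_lit 1922858918) (nat_lit 1900) (nat_lit 11788861358) (nat_lit 489) (nat_lit 5) (nat_lit 513) (nat_lit 5) (nat_lit 514) (nat_lit 5) (nat_lit 596) (nat_lit 579) (nat_lit 385)) (XT.lf (nat_lit 0) (nat_lit 3192214026) (nat_lit 1824) (nat_lit 9387770561) (nat_lit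 1900) (nat_lit 3296345019) (nat_lit 490) (nat_lit 5) (nat_lit 514) (nat_lit 5) (nat_lit 515) (nat_lit 5) (nat_lit 597) (nat_lit 579) (nat_lit 384))))) (XT.nd (nat_lit 312) (nat_lit 1596) (nat_lit 0) (XT.nd (nat_lit 156) (nat_lit 0) (nat_lit 76) (XT.nd (nat_lit 78) (nat_lit 0) (nat_lit 76) (XT.lf (nat_lit 0) (nat_lit 4435293339) (nat_lit 1824) (nat_lit 976881668) (nat_lit 1900) (nat_lit 10626798219) (nat_lit 490) (nat_lit 5) (nat_lit 514) (nat_lit 5) (nat_lit 515) (nat_lit 5) (nat_lit 598) (nat_lit 579) (nat_lit 383)) (XT.lf (nat_lit 0) (nat_lit 5758675268) (nat_lit 1824) (nat_lit 8519102692) (nat_lit 1900) (nat_lit 1925983151) (nat_lit 491) (nat_lit 5) (nat_lit 515) (nat_lit 5) (nat_lit 516) (nat_lit 5) (nat_lit 599) (nat_lit 579) (nat_lit 382))) (XT.nd (nat_lit 78) (nat_lit 0) (nat_lit 76) (XT.lf (nat_lit 76) (nat_lit 120945286) (nat_lit 0) (nat_lit 7023713341) (nat_lit 1900) (nat_lit 9226463661) (nat_lit 492) (nat_lit 5) (nat_lit 491) (nat_lit 5) (nat_lit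 516) (nat_lit 5) (nat_lit 600) (nat_lit 579) (nat_lit 381)) (XT.lf (nat_lit 0) (nat_lit 8611363739) (nat_lit 1824) (nat_lit 7500054402) (nat_lit 1900) (nat_lit 429352714) (nat_lit 492) (nat_lit 5) (nat_lit 516) (nat_lit 5) (nat_lit 517) (nat_lit 5) (nat_lit 601) (nat_lit 579) (nat_lit 380)))) (XT.nd (nat_lit 156) (nat_lit 1748) (nat_lit 0) (XT.nd (nat_lit 78) (nat_lit 0) (nat_lit 0) (XT.lf (nat_lit 76) (nat_lit 1391090775) (nat_lit 0) (nat_lit 8765013887) (nat_lit 1900) (nat_lit 6556733899) (nat_lit 493) (nat_lit 5) (nat_lit 492) (nat_lit 5) (nat_lit 517) (nat_lit 5) (nat_lit 602) (nat_lit 579) (nat_lit 379)) (XT.lf (nat_lit 76) (nat_lit 10556052006) (nat_lit 0) (nat_lit 1219270263) (nat_lit 1900) (nat_lit 5112153912) (nat_lit 493) (nat_lit 5) (nat_lit 492) (nat_lit 5) (nat_lit 517) (nat_lit 5) (nat_lit 603) (nat_lit 579) (nat_lit 378))) (XT.nd (nat_lit 78) (nat_lit 0) (nat_lit 0) (XT.lf (nat_lit 0) (nat_lit 2828040479) (nat_lit 1824) (nat_lit 10652692466)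 (nat_lit 1900) (nat_lit 3583797630) (nat_lit 469) (nat_lit 5) (nat_lit 493) (nat_lit 5) (nat_lit 494) (nat_lit 5) (nat_lit 604) (nat_lit 579) (nat_lit 377)) (XT.lf (nat_lit 0) (nat_lit 12242673918) (nat_lit 1824) (nat_lit 3021571130) (nat_lit 1900) (nat_lit 1980001334) (nat_lit 469) (nat_lit 5) (nat_lit 493) (nat_lit 5) (nat_lit 494) (nat_lit 5) (nat_lit 605) (nat_lit 579) (nat_lit 376)))))) (XT.nd (nat_lit 624) (nat_lit 3268) (nat_lit 0) (XT.nd (nat_lit 312) (nat_lit 2660) (nat_lit 0) (XT.nd (nat_lit 156) (nat_lit 912) (nat_lit 0) (XT.nd (nat_lit 78) (nat_lit 76) (nat_lit 0) (XT.lf (nat_lit 0) (nat_lit 4439666335) (nat_lit 1140) (nat_lit 12697123192) (nat_lit 1216) (nat_lit 289699922) (nat_lit 454) (nat_lit 5) (nat_lit 469) (nat_lit 5) (nat_lit 470) (nat_lit 5) (nat_lit 606) (nat_lit 579) (nat_lit 375)) (XT.lf (nat_lit 0) (nat_lit 1463055172) (nat_lit 1216) (nat_lit 3509456374) (nat_lit 76) (nat_lit 12638730548) (nat_lit 453) (nat_lit 5) (nat_lit 469)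 (nat_lit 5) (nat_lit 454) (nat_lit 5) (nat_lit 607) (nat_lit 579) (nat_lit 374))) (XT.nd (nat_lit 78) (nat_lit 0) (nat_lit 0) (XT.lf (nat_lit 0) (nat_lit 3300394466) (nat_lit 988) (nat_lit 11586473897) (nat_lit 76) (nat_lit 2911715139) (nat_lit 441) (nat_lit 5) (nat_lit 454) (nat_lit 5) (nat_lit 442) (nat_lit 5) (nat_lit 608) (nat_lit 579) (nat_lit 373)) (XT.lf (nat_lit 0) (nat_lit 5224994958) (nat_lit 988) (nat_lit 1852317581) (nat_lit 76) (nat_lit 10911349087) (nat_lit 441) (nat_lit 5) (nat_lit 454) (nat_lit 5) (nat_lit 442) (nat_lit 5) (nat_lit 609) (nat_lit 579) (nat_lit 372)))) (XT.nd (nat_lit 156) (nat_lit 1748) (nat_lit 0) (XT.nd (nat_lit 78) (nat_lit 0) (nat_lit 0) (XT.lf (nat_lit 0) (nat_lit 7241305889) (nat_lit 988) (nat_lit 10009538854) (nat_lit 76) (nat_lit 930632369) (nat_lit 429) (nat_lit 5) (nat_lit 442) (nat_lit 5) (nat_lit 430) (nat_lit 5) (nat_lit 610) (nat_lit 579) (nat_lit 371)) (XT.lf (nat_lit 0) (nat_lit 9351406594) (nat_lit 988)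 (nat_lit 8745394) (nat_lit 76) (nat_lit 9016927815) (nat_lit 429) (nat_lit 5) (nat_lit 442) (nat_lit 5) (nat_lit 430) (nat_lit 5) (nat_lit 611) (nat_lit 579) (nat_lit 370))) (XT.nd (nat_lit 78) (nat_lit 912) (nat_lit 0) (XT.lf (nat_lit 0) (nat_lit 10321867459) (nat_lit 836) (nat_lit 1243055901) (nat_lit 912) (nat_lit 7010447067) (nat_lit 418) (nat_lit 5) (nat_lit 429) (nat_lit 5) (nat_lit 430) (nat_lit 5) (nat_lit 612) (nat_lit 579) (nat_lit 369)) (XT.lf (nat_lit 0) (nat_lit 2057232270) (nat_lit 912) (nat_lit 11818855775) (nat_lit 988) (nat_lit 4900471429) (nat_lit 406) (nat_lit 5) (nat_lit 418) (nat_lit 5) (nat_lit 419) (nat_lit 5) (nat_lit 613) (nat_lit 579) (nat_lit 368))))) (XT.nd (nat_lit 312) (nat_lit 1520) (nat_lit 0) (XT.nd (nat_lit 156) (nat_lit 912) (nat_lit 0) (XT.nd (nat_lit 78) (nat_lit 836) (nat_lit 0) (XT.lf (nat_lit 0) (nat_lit 12672107350) (nat_lit 912) (nat_lit 3619284539) (nat_lit 988) (nat_lit 2689222252) (nat_lit 406) (nat_lit 5) (nat_lit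 418) (nat_lit 5) (nat_lit 419) (nat_lit 5) (nat_lit 614) (nat_lit 579) (nat_lit 367)) (XT.lf (nat_lit 0) (nat_lit 4330914964) (nat_lit 836) (nat_lit 14477472497) (nat_lit 912) (nat_lit 379294880) (nat_lit 395) (nat_lit 5) (nat_lit 406) (nat_lit 5) (nat_lit 407) (nat_lit 5) (nat_lit 615) (nat_lit 579) (nat_lit 366))) (XT.nd (nat_lit 78) (nat_lit 836) (nat_lit 0) (XT.lf (nat_lit 0) (nat_lit 2011986572) (nat_lit 912) (nat_lit 4172139749) (nat_lit 76) (nat_lit 13213287393) (nat_lit 394) (nat_lit 5) (nat_lit 406) (nat_lit 5) (nat_lit 395) (nat_lit 5) (nat_lit 616) (nat_lit 579) (nat_lit 365)) (XT.lf (nat_lit 0) (nat_lit 4499904987) (nat_lit 912) (nat_lit 12818182663) (nat_lit 76) (nat_lit 2292124265) (nat_lit 383) (nat_lit 5) (nat_lit 395) (nat_lit 5) (nat_lit 384) (nat_lit 5) (nat_lit 617) (nat_lit 579) (nat_lit 364)))) (XT.nd (nat_lit 156) (nat_lit 760) (nat_lit 0) (XT.nd (nat_lit 78) (nat_lit 760) (nat_lit 0) (XT.lf (nat_lit 0) (nat_lit 7101395122) (nat_lit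 912) (nat_lit 1841417279) (nat_lit 76) (nat_lit 10883177553) (nat_lit 383) (nat_lit 5) (nat_lit 395) (nat_lit 5) (nat_lit 384) (nat_lit 5) (nat_lit 618) (nat_lit 579) (nat_lit 363)) (XT.lf (nat_lit 0) (nat_lit 9473634439) (nat_lit 760) (nat_lit 337570332) (nat_lit 836) (nat_lit 10233753126) (nat_lit 373) (nat_lit 5) (nat_lit 383) (nat_lit 5) (nat_lit 384) (nat_lit 5) (nat_lit 619) (nat_lit 579) (nat_lit 362))) (XT.nd (nat_lit 78) (nat_lit 0) (nat_lit 0) (XT.lf (nat_lit 0) (nat_lit 720903940) (nat_lit 760) (nat_lit 11921068076) (nat_lit 836) (nat_lit 7624998094) (nat_lit 363) (nat_lit 5) (nat_lit 373) (nat_lit 5) (nat_lit 374) (nat_lit 5) (nat_lit 620) (nat_lit 579) (nat_lit 361)) (XT.lf (nat_lit 0) (nat_lit 12374481872) (nat_lit 760) (nat_lit 3222943400) (nat_lit 836) (nat_lit 4894636013) (nat_lit 363) (nat_lit 5) (nat_lit 373) (nat_lit 5) (nat_lit 374) (nat_lit 5) (nat_lit 621) (nat_lit 579) (nat_lit 360))))))) (XT.nd (nat_lit 1170) (nat_lit 4940) (nat_lit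 0) (XT.nd (nat_lit 546) (nat_lit 3344) (nat_lit 0) (XT.nd (nat_lit 234) (nat_lit 1368) (nat_lit 0) (XT.nd (nat_lit 78) (nat_lit 836) (nat_lit 0) (XT.lf (nat_lit 0) (nat_lit 3543761552) (nat_lit 760) (nat_lit 15122920158) (nat_lit 836) (nat_lit 2053878823) (nat_lit 353) (nat_lit 5) (nat_lit 363) (nat_lit 5) (nat_lit 364) (nat_lit 5) (nat_lit 622) (nat_lit 579) (nat_lit 359)) (XT.nd (nat_lit 78) (nat_lit 760) (nat_lit 0) (XT.lf (nat_lit 0) (nat_lit 903843517) (nat_lit 836) (nat_lit 5436902007) (nat_lit 76) (nat_lit 14611350507) (nat_lit 352) (nat_lit 5) (nat_lit 363) (nat_lit 5) (nat_lit 353) (nat_lit 5) (nat_lit 623) (nat_lit 579) (nat_lit 358)) (XT.lf (nat_lit 0) (nat_lit 3948627818) (nat_lit 836) (nat_lit 14599205873) (nat_lit 76) (nat_lit 2639048970) (nat_lit 342) (nat_lit 5) (nat_lit 353) (nat_lit 5) (nat_lit 343) (nat_lit 5) (nat_lit 624) (nat_lit 579) (nat_lit 357)))) (XT.nd (nat_lit 156) (nat_lit 684) (nat_lit 0) (XT.nd (nat_lit 78) (nat_lit 684)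 (nat_lit 0) (XT.lf (nat_lit 0) (nat_lit 7128216602) (nat_lit 836) (nat_lit 2546915138) (nat_lit 76) (nat_lit 11749755227) (nat_lit 342) (nat_lit 5) (nat_lit 353) (nat_lit 5) (nat_lit 343) (nat_lit 5) (nat_lit 625) (nat_lit 579) (nat_lit 356)) (XT.lf (nat_lit 0) (nat_lit 9870490062) (nat_lit 684) (nat_lit 560278173) (nat_lit 760) (nat_lit 11235695823) (nat_lit 333) (nat_lit 5) (nat_lit 342) (nat_lit 5) (nat_lit 343) (nat_lit 5) (nat_lit 626) (nat_lit 579) (nat_lit 355))) (XT.nd (nat_lit 78) (nat_lit 0) (nat_lit 0) (XT.lf (nat_lit 0) (nat_lit 603879904) (nat_lit 684) (nat_lit 13268680210) (nat_lit 760) (nat_lit 8038848909) (nat_lit 324) (nat_lit 5) (nat_lit 333) (nat_lit 5) (nat_lit 334) (nat_lit 5) (nat_lit 627) (nat_lit 579) (nat_lit 354)) (XT.lf (nat_lit 0) (nat_lit 13402466493) (nat_lit 684) (nat_lit 4058959424) (nat_lit 760) (nat_lit 4698262321) (nat_lit 324) (nat_lit 5) (nat_lit 333) (nat_lit 5) (nat_lit 334) (nat_lit 5) (nat_lit 628) (nat_lit 579)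 (nat_lit 353))))) (XT.nd (nat_lit 312) (nat_lit 1900) (nat_lit 0) (XT.nd (nat_lit 156) (nat_lit 684) (nat_lit 0) (XT.nd (nat_lit 78) (nat_lit 76) (nat_lit 0) (XT.lf (nat_lit 0) (nat_lit 4057284142) (nat_lit 684) (nat_lit 17121245621) (nat_lit 760) (nat_lit 1233274172) (nat_lit 315) (nat_lit 5) (nat_lit 324) (nat_lit 5) (nat_lit 325) (nat_lit 5) (nat_lit 629) (nat_lit 579) (nat_lit 352)) (XT.lf (nat_lit 0) (nat_lit 2352375107) (nat_lit 760) (nat_lit 5468615469) (nat_lit 76) (nat_lit 14846041893) (nat_lit 314) (nat_lit 5) (nat_lit 324) (nat_lit 5) (nat_lit 315) (nat_lit 5) (nat_lit 630) (nat_lit 579) (nat_lit 351))) (XT.nd (nat_lit 78) (nat_lit 0) (nat_lit 0) (XT.lf (nat_lit 0) (nat_lit 6050430726) (nat_lit 760) (nat_lit 15174119146) (nat_lit 76) (nat_lit 1701508628) (nat_lit 305) (nat_lit 5) (nat_lit 315) (nat_lit 5) (nat_lit 306) (nat_lit 5) (nat_lit 631) (nat_lit 579) (nat_lit 350)) (XT.lf (nat_lit 0) (nat_lit 9906821202) (nat_lit 760) (nat_lit 1935881430)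 (nat_lit 76) (nat_lit 11345875048) (nat_lit 305) (nat_lit 5) (nat_lit 315) (nat_lit 5) (nat_lit 306) (nat_lit 5) (nat_lit 632) (nat_lit 579) (nat_lit 349)))) (XT.nd (nat_lit 156) (nat_lit 684) (nat_lit 0) (XT.nd (nat_lit 78) (nat_lit 608) (nat_lit 0) (XT.lf (nat_lit 0) (nat_lit 11715530712) (nat_lit 608) (nat_lit 2196598074) (nat_lit 684) (nat_lit 9542782775) (nat_lit 297) (nat_lit 5) (nat_lit 305) (nat_lit 5) (nat_lit 306) (nat_lit 5) (nat_lit 633) (nat_lit 579) (nat_lit 348)) (XT.lf (nat_lit 0) (nat_lit 1909958503) (nat_lit 608) (nat_lit 16158449224) (nat_lit 684) (nat_lit 5656747185) (nat_lit 289) (nat_lit 5) (nat_lit 297) (nat_lit 5) (nat_lit 298) (nat_lit 5) (nat_lit 634) (nat_lit 579) (nat_lit 347))) (XT.nd (nat_lit 78) (nat_lit 684) (nat_lit 0) (XT.lf (nat_lit 0) (nat_lit 15971424108) (nat_lit 608) (nat_lit 6425433717) (nat_lit 684) (nat_lit 1602164493) (nat_lit 289) (nat_lit 5) (nat_lit 297) (nat_lit 5) (nat_lit 298) (nat_lit 5) (nat_lit 635) (nat_lit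 579) (nat_lit 346)) (XT.lf (nat_lit 0) (nat_lit 2558823351) (nat_lit 684) (nat_lit 18206407944) (nat_lit 76) (nat_lit 3511636067) (nat_lit 280) (nat_lit 5) (nat_lit 289) (nat_lit 5) (nat_lit 281) (nat_lit 5) (nat_lit 636) (nat_lit 579) (nat_lit 345)))))) (XT.nd (nat_lit 624) (nat_lit 2584) (nat_lit 0) (XT.nd (nat_lit 312) (nat_lit 1216) (nat_lit 0) (XT.nd (nat_lit 156) (nat_lit 532) (nat_lit 0) (XT.nd (nat_lit 78) (nat_lit 608) (nat_lit 0) (XT.lf (nat_lit 0) (nat_lit 6874288675) (nat_lit 684) (nat_lit 4058660196) (nat_lit 76) (nat_lit 13625254506) (nat_lit 280) (nat_lit 5) (nat_lit 289) (nat_lit 5) (nat_lit 281) (nat_lit 5) (nat_lit 637) (nat_lit 579) (nat_lit 344)) (XT.lf (nat_lit 0) (nat_lit 10504672954) (nat_lit 608) (nat_lit 835585764) (nat_lit 684) (nat_lit 13503623577) (nat_lit 272) (nat_lit 5) (nat_lit 280) (nat_lit 5) (nat_lit 281) (nat_lit 5) (nat_lit 638) (nat_lit 579) (nat_lit 343))) (XT.nd (nat_lit 78) (nat_lit 0) (nat_lit 0) (XT.lf (nat_lit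 0) (nat_lit 215582839) (nat_lit 532) (nat_lit 15766256034) (nat_lit 608) (nat_lit 9151710191) (nat_lit 265) (nat_lit 5) (nat_lit 272) (nat_lit 5) (nat_lit 273) (nat_lit 5) (nat_lit 639) (nat_lit 579) (nat_lit 342)) (XT.lf (nat_lit 0) (nat_lit 15245091149) (nat_lit 532) (nat_lit 5568954954) (nat_lit 608) (nat_lit 4613007244) (nat_lit 265) (nat_lit 5) (nat_lit 272) (nat_lit 5) (nat_lit 273) (nat_lit 5) (nat_lit 640) (nat_lit 579) (nat_lit 341)))) (XT.nd (nat_lit 156) (nat_lit 532) (nat_lit 0) (XT.nd (nat_lit 78) (nat_lit 0) (nat_lit 0) (XT.lf (nat_lit 0) (nat_lit 75823495) (nat_lit 684) (nat_lit 20849515697) (nat_lit 76) (nat_lit 4799895072) (nat_lit 256) (nat_lit 5) (nat_lit 265) (nat_lit 5) (nat_lit 257) (nat_lit 5) (nat_lit 641) (nat_lit 579) (nat_lit 340)) (XT.lf (nat_lit 0) (nat_lit 4898540798) (nat_lit 684) (nat_lit 5728452996) (nat_lit 76) (nat_lit 15399737685) (nat_lit 256) (nat_lit 5) (nat_lit 265) (nat_lit 5) (nat_lit 257) (nat_lit 5) (nat_lit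 642) (nat_lit 579) (nat_lit 339))) (XT.nd (nat_lit 78) (nat_lit 0) (nat_lit 0) (XT.lf (nat_lit 0) (nat_lit 9818776426) (nat_lit 532) (nat_lit 58922368) (nat_lit 608) (nat_lit 16455360197) (nat_lit 249) (nat_lit 5) (nat_lit 256) (nat_lit 5) (nat_lit 257) (nat_lit 5) (nat_lit 643) (nat_lit 579) (nat_lit 338)) (XT.lf (nat_lit 0) (nat_lit 15061009546) (nat_lit 608) (nat_lit 965065066) (nat_lit 76) (nat_lit 10617347128) (nat_lit 249) (nat_lit 5) (nat_lit 257) (nat_lit 5) (nat_lit 250) (nat_lit 5) (nat_lit 644) (nat_lit 579) (nat_lit 337))))) (XT.nd (nat_lit 312) (nat_lit 988) (nat_lit 0) (XT.nd (nat_lit 156) (nat_lit 608) (nat_lit 0) (XT.nd (nat_lit 78) (nat_lit 456) (nat_lit 0) (XT.lf (nat_lit 0) (nat_lit 15087660505) (nat_lit 532) (nat_lit 5355017891) (nat_lit 608) (nat_lit 6515419586) (nat_lit 242) (nat_lit 5) (nat_lit 249) (nat_lit 5) (nat_lit 250) (nat_lit 5) (nat_lit 645) (nat_lit 579) (nat_lit 336)) (XT.lf (nat_lit 0) (nat_lit 4209858617) (nat_lit 456)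 (nat_lit 21788248850) (nat_lit 532) (nat_lit 1279637821) (nat_lit 236) (nat_lit 5) (nat_lit 242) (nat_lit 5) (nat_lit 243) (nat_lit 5) (nat_lit 646) (nat_lit 579) (nat_lit 335))) (XT.nd (nat_lit 78) (nat_lit 532) (nat_lit 0) (XT.lf (nat_lit 0) (nat_lit 4119637584) (nat_lit 532) (nat_lit 6896891781) (nat_lit 76) (nat_lit 16584488193) (nat_lit 235) (nat_lit 5) (nat_lit 242) (nat_lit 5) (nat_lit 236) (nat_lit 5) (nat_lit 647) (nat_lit 579) (nat_lit 334)) (XT.lf (nat_lit 0) (nat_lit 9669567374) (nat_lit 608) (nat_lit 18218164606) (nat_lit 76) (nat_lit 41658132) (nat_lit 228) (nat_lit 5) (nat_lit 236) (nat_lit 5) (nat_lit 229) (nat_lit 5) (nat_lit 648) (nat_lit 579) (nat_lit 333)))) (XT.nd (nat_lit 156) (nat_lit 532) (nat_lit 0) (XT.nd (nat_lit 78) (nat_lit 456) (nat_lit 0) (XT.lf (nat_lit 0) (nat_lit 15446529594) (nat_lit 608) (nat_lit 1596614345) (nat_lit 76) (nat_lit 11218865571) (nat_lit 228) (nat_lit 5) (nat_lit 236) (nat_lit 5) (nat_lit 229) (nat_lit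 5) (nat_lit 649) (nat_lit 579) (nat_lit 332)) (XT.lf (nat_lit 0) (nat_lit 15556550212) (nat_lit 456) (nat_lit 5880041554) (nat_lit 532) (nat_lit 7162738383) (nat_lit 222) (nat_lit 5) (nat_lit 228) (nat_lit 5) (nat_lit 229) (nat_lit 5) (nat_lit 650) (nat_lit 579) (nat_lit 331))) (XT.nd (nat_lit 78) (nat_lit 76) (nat_lit 0) (XT.lf (nat_lit 0) (nat_lit 4144906337) (nat_lit 456) (nat_lit 23471580508) (nat_lit 532) (nat_lit 1325509790) (nat_lit 216) (nat_lit 5) (nat_lit 222) (nat_lit 5) (nat_lit 223) (nat_lit 5) (nat_lit 651) (nat_lit 579) (nat_lit 330)) (XT.lf (nat_lit 0) (nat_lit 4691401976) (nat_lit 532) (nat_lit 7511076780) (nat_lit 76) (nat_lit 17085963903) (nat_lit 215) (nat_lit 5) (nat_lit 222) (nat_lit 5) (nat_lit 216) (nat_lit 5) (nat_lit 652) (nat_lit 579) (nat_lit 329))))))))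
noncomputable def xc175 : XT := (XT.nd (nat_lit 2418) (nat_lit 608) (nat_lit 0) (XT.nd (nat_lit 1170) (nat_lit 3572) (nat_lit 0) (XT.nd (nat_lit 546) (nat_lit 2052) (nat_lit 0) (XT.nd (nat_lit 234) (nat_lit 912) (nat_lit 0) (XT.nd (nat_lit 78) (nat_lit 456) (nat_lit 0) (XT.lf (nat_lit 0) (nat_lit 10241408372) (nat_lit 456) (nat_lit 632669862) (nat_lit 532) (nat_lit 18766300702) (nat_lit 209) (nat_lit 5) (nat_lit 215) (nat_lit 5) (nat_lit 216) (nat_lit 5) (nat_lit 653) (nat_lit 579) (nat_lit 328)) (XT.nd (nat_lit 78) (nat_lit 456) (nat_lit 0) (XT.lf (nat_lit 0) (nat_lit 17300347932) (nat_lit 532) (nat_lit 1625248831) (nat_lit 76) (nat_lit 11071358441) (nat_lit 209) (nat_lit 5) (nat_lit 216) (nat_lit 5) (nat_lit 210) (nat_lit 5) (nat_lit 654) (nat_lit 579) (nat_lit 327)) (XT.lf (nat_lit 0) (nat_lit 16714248758) (nat_lit 456) (nat_lit 7250358335) (nat_lit 532) (nat_lit 6393866682) (nat_lit 203) (nat_lit 5) (nat_lit 209) (nat_lit 5) (nat_lit 210) (nat_lit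 5) (nat_lit 655) (nat_lit 579) (nat_lit 326)))) (XT.nd (nat_lit 156) (nat_lit 456) (nat_lit 0) (XT.nd (nat_lit 78) (nat_lit 0) (nat_lit 0) (XT.lf (nat_lit 0) (nat_lit 103720599) (nat_lit 456) (nat_lit 25983825797) (nat_lit 76) (nat_lit 4638286845) (nat_lit 197) (nat_lit 5) (nat_lit 203) (nat_lit 5) (nat_lit 198) (nat_lit 5) (nat_lit 656) (nat_lit 579) (nat_lit 325)) (XT.lf (nat_lit 0) (nat_lit 6782696936) (nat_lit 456) (nat_lit 7513512842) (nat_lit 76) (nat_lit 16800743884) (nat_lit 197) (nat_lit 5) (nat_lit 203) (nat_lit 5) (nat_lit 198) (nat_lit 5) (nat_lit 657) (nat_lit 579) (nat_lit 324))) (XT.nd (nat_lit 78) (nat_lit 0) (nat_lit 0) (XT.lf (nat_lit 0) (nat_lit 11472002674) (nat_lit 456) (nat_lit 2194586180) (nat_lit 532) (nat_lit 17807480969) (nat_lit 191) (nat_lit 5) (nat_lit 197) (nat_lit 5) (nat_lit 198) (nat_lit 5) (nat_lit 658) (nat_lit 579) (nat_lit 323)) (XT.lf (nat_lit 0) (nat_lit 20801680666) (nat_lit 532) (nat_lit 989555129) (nat_lit 76)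 (nat_lit 10065222128) (nat_lit 191) (nat_lit 5) (nat_lit 198) (nat_lit 5) (nat_lit 192) (nat_lit 5) (nat_lit 659) (nat_lit 579) (nat_lit 322))))) (XT.nd (nat_lit 312) (nat_lit 836) (nat_lit 0) (XT.nd (nat_lit 156) (nat_lit 380) (nat_lit 0) (XT.nd (nat_lit 78) (nat_lit 456) (nat_lit 0) (XT.lf (nat_lit 0) (nat_lit 18628397093) (nat_lit 380) (nat_lit 9583494139) (nat_lit 456) (nat_lit 4031954269) (nat_lit 186) (nat_lit 5) (nat_lit 191) (nat_lit 5) (nat_lit 192) (nat_lit 5) (nat_lit 660) (nat_lit 579) (nat_lit 321)) (XT.lf (nat_lit 0) (nat_lit 3152337389) (nat_lit 456) (nat_lit 26588887914) (nat_lit 76) (nat_lit 2896107362) (nat_lit 180) (nat_lit 5) (nat_lit 186) (nat_lit 5) (nat_lit 181) (nat_lit 5) (nat_lit 661) (nat_lit 579) (nat_lit 320))) (XT.nd (nat_lit 78) (nat_lit 380) (nat_lit 0) (XT.lf (nat_lit 0) (nat_lit 10578782053) (nat_lit 456) (nat_lit 6842080873) (nat_lit 76) (nat_lit 15614244573) (nat_lit 180) (nat_lit 5) (nat_lit 186) (nat_lit 5) (nat_lit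 181) (nat_lit 5) (nat_lit 662) (nat_lit 579) (nat_lit 319)) (XT.lf (nat_lit 0) (nat_lit 13471816439) (nat_lit 380) (nat_lit 4766432453) (nat_lit 456) (nat_lit 15200899121) (nat_lit 175) (nat_lit 5) (nat_lit 180) (nat_lit 5) (nat_lit 181) (nat_lit 5) (nat_lit 663) (nat_lit 579) (nat_lit 318)))) (XT.nd (nat_lit 156) (nat_lit 380) (nat_lit 0) (XT.nd (nat_lit 78) (nat_lit 76) (nat_lit 0) (XT.lf (nat_lit 0) (nat_lit 381681049) (nat_lit 380) (nat_lit 25767821826) (nat_lit 456) (nat_lit 7699794556) (nat_lit 170) (nat_lit 5) (nat_lit 175) (nat_lit 5) (nat_lit 176) (nat_lit 5) (nat_lit 664) (nat_lit 579) (nat_lit 317)) (XT.lf (nat_lit 0) (nat_lit 115468319) (nat_lit 456) (nat_lit 12893330285) (nat_lit 76) (nat_lit 21255587640) (nat_lit 169) (nat_lit 5) (nat_lit 175) (nat_lit 5) (nat_lit 170) (nat_lit 5) (nat_lit 665) (nat_lit 579) (nat_lit 316))) (XT.nd (nat_lit 78) (nat_lit 0) (nat_lit 0) (XT.lf (nat_lit 0) (nat_lit 8034731393) (nat_lit 456) (nat_lit 26542683339)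 (nat_lit 76) (nat_lit 108328330) (nat_lit 164) (nat_lit 5) (nat_lit 170) (nat_lit 5) (nat_lit 165) (nat_lit 5) (nat_lit 666) (nat_lit 579) (nat_lit 315)) (XT.lf (nat_lit 0) (nat_lit 16282753550) (nat_lit 456) (nat_lit 5430058228) (nat_lit 76) (nat_lit 13399307809) (nat_lit 164) (nat_lit 5) (nat_lit 170) (nat_lit 5) (nat_lit 165) (nat_lit 5) (nat_lit 667) (nat_lit 579) (nat_lit 314)))))) (XT.nd (nat_lit 624) (nat_lit 1672) (nat_lit 0) (XT.nd (nat_lit 312) (nat_lit 760) (nat_lit 0) (XT.nd (nat_lit 156) (nat_lit 456) (nat_lit 0) (XT.nd (nat_lit 78) (nat_lit 304) (nat_lit 0) (XT.lf (nat_lit 0) (nat_lit 16314385805) (nat_lit 380) (nat_lit 8484459273) (nat_lit 456) (nat_lit 10746116428) (nat_lit 159) (nat_lit 5) (nat_lit 164) (nat_lit 5) (nat_lit 165) (nat_lit 5) (nat_lit 668) (nat_lit 579) (nat_lit 313)) (XT.lf (nat_lit 0) (nat_lit 2578231230) (nat_lit 304) (nat_lit 30990166559) (nat_lit 380) (nat_lit 2416399730) (nat_lit 155) (nat_lit 5) (nat_lit 159) (nat_lit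 5) (nat_lit 160) (nat_lit 5) (nat_lit 669) (nat_lit 579) (nat_lit 312))) (XT.nd (nat_lit 78) (nat_lit 380) (nat_lit 0) (XT.lf (nat_lit 0) (nat_lit 6183472186) (nat_lit 380) (nat_lit 11447901736) (nat_lit 76) (nat_lit 18797600877) (nat_lit 154) (nat_lit 5) (nat_lit 159) (nat_lit 5) (nat_lit 155) (nat_lit 5) (nat_lit 670) (nat_lit 579) (nat_lit 311)) (XT.lf (nat_lit 0) (nat_lit 11074844452) (nat_lit 380) (nat_lit 3917341332) (nat_lit 456) (nat_lit 21888146436) (nat_lit 149) (nat_lit 5) (nat_lit 154) (nat_lit 5) (nat_lit 155) (nat_lit 5) (nat_lit 671) (nat_lit 579) (nat_lit 310)))) (XT.nd (nat_lit 156) (nat_lit 456) (nat_lit 0) (XT.nd (nat_lit 78) (nat_lit 304) (nat_lit 0) (XT.lf (nat_lit 0) (nat_lit 24117070916) (nat_lit 456) (nat_lit 3206204562) (nat_lit 76) (nat_lit 10014641406) (nat_lit 149) (nat_lit 5) (nat_lit 155) (nat_lit 5) (nat_lit 150) (nat_lit 5) (nat_lit 672) (nat_lit 579) (nat_lit 309)) (XT.lf (nat_lit 0) (nat_lit 20078183077) (nat_lit 304)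 (nat_lit 13499907188) (nat_lit 380) (nat_lit 4223490285) (nat_lit 145) (nat_lit 5) (nat_lit 149) (nat_lit 5) (nat_lit 150) (nat_lit 5) (nat_lit 673) (nat_lit 579) (nat_lit 308))) (XT.nd (nat_lit 78) (nat_lit 0) (nat_lit 0) (XT.lf (nat_lit 0) (nat_lit 4948909619) (nat_lit 456) (nat_lit 32642291057) (nat_lit 76) (nat_lit 681472237) (nat_lit 139) (nat_lit 5) (nat_lit 145) (nat_lit 5) (nat_lit 140) (nat_lit 5) (nat_lit 674) (nat_lit 579) (nat_lit 307)) (XT.lf (nat_lit 0) (nat_lit 14454736497) (nat_lit 456) (nat_lit 9181776516) (nat_lit 76) (nat_lit 15111985172) (nat_lit 139) (nat_lit 5) (nat_lit 145) (nat_lit 5) (nat_lit 140) (nat_lit 5) (nat_lit 675) (nat_lit 579) (nat_lit 306))))) (XT.nd (nat_lit 312) (nat_lit 684) (nat_lit 0) (XT.nd (nat_lit 156) (nat_lit 684) (nat_lit 0) (XT.nd (nat_lit 78) (nat_lit 0) (nat_lit 0) (XT.lf (nat_lit 0) (nat_lit 14939679986) (nat_lit 304) (nat_lit 9305404439) (nat_lit 380) (nat_lit 14986867482) (nat_lit 135) (nat_lit 5) (nat_lit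 139) (nat_lit 5) (nat_lit 140) (nat_lit 5) (nat_lit 676) (nat_lit 579) (nat_lit 305)) (XT.lf (nat_lit 0) (nat_lit 34325172559) (nat_lit 380) (nat_lit 94932844) (nat_lit 76) (nat_lit 5303090672) (nat_lit 135) (nat_lit 5) (nat_lit 140) (nat_lit 5) (nat_lit 136) (nat_lit 5) (nat_lit 677) (nat_lit 579) (nat_lit 304))) (XT.nd (nat_lit 78) (nat_lit 304) (nat_lit 0) (XT.lf (nat_lit 0) (nat_lit 4546993425) (nat_lit 380) (nat_lit 15403313254) (nat_lit 76) (nat_lit 20268951894) (nat_lit 130) (nat_lit 5) (nat_lit 135) (nat_lit 5) (nat_lit 131) (nat_lit 5) (nat_lit 678) (nat_lit 579) (nat_lit 303)) (XT.lf (nat_lit 0) (nat_lit 9586938096) (nat_lit 304) (nat_lit 5092123067) (nat_lit 380) (nat_lit 26044258973) (nat_lit 126) (nat_lit 5) (nat_lit 130) (nat_lit 5) (nat_lit 131) (nat_lit 5) (nat_lit 679) (nat_lit 579) (nat_lit 302)))) (XT.nd (nat_lit 156) (nat_lit 380) (nat_lit 0) (XT.nd (nat_lit 78) (nat_lit 304) (nat_lit 0) (XT.lf (nat_lit 0) (nat_lit 25180644940) (nat_lit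 380) (nat_lit 6019781094) (nat_lit 76) (nat_lit 10033699434) (nat_lit 126) (nat_lit 5) (nat_lit 131) (nat_lit 5) (nat_lit 127) (nat_lit 5) (nat_lit 680) (nat_lit 579) (nat_lit 301)) (XT.lf (nat_lit 0) (nat_lit 19821316556) (nat_lit 304) (nat_lit 16230897568) (nat_lit 380) (nat_lit 5699733741) (nat_lit 122) (nat_lit 5) (nat_lit 126) (nat_lit 5) (nat_lit 127) (nat_lit 5) (nat_lit 681) (nat_lit 579) (nat_lit 300))) (XT.nd (nat_lit 78) (nat_lit 0) (nat_lit 0) (XT.lf (nat_lit 0) (nat_lit 3998044573) (nat_lit 304) (nat_lit 863454487) (nat_lit 380) (nat_lit 37416713149) (nat_lit 117) (nat_lit 5) (nat_lit 121) (nat_lit 5) (nat_lit 122) (nat_lit 5) (nat_lit 682) (nat_lit 579) (nat_lit 299)) (XT.lf (nat_lit 0) (nat_lit 15799569240) (nat_lit 380) (nat_lit 12208465323) (nat_lit 76) (nat_lit 14801375161) (nat_lit 117) (nat_lit 5) (nat_lit 122) (nat_lit 5) (nat_lit 118) (nat_lit 5) (nat_lit 683) (nat_lit 579) (nat_lit 298))))))) (XT.nd (nat_lit 74100) (nat_lit 0) (nat_lit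 26144) (XT.nd (nat_lit 73476) (nat_lit 0) (nat_lit 30324) (XT.nd (nat_lit 73164) (nat_lit 0) (nat_lit 30172) (XT.nd (nat_lit 156) (nat_lit 304) (nat_lit 0) (XT.nd (nat_lit 78) (nat_lit 0) (nat_lit 0) (XT.lf (nat_lit 0) (nat_lit 14565978379) (nat_lit 304) (nat_lit 12488315714) (nat_lit 380) (nat_lit 16294979259) (nat_lit 113) (nat_lit 5) (nat_lit 117) (nat_lit 5) (nat_lit 118) (nat_lit 5) (nat_lit 684) (nat_lit 579) (nat_lit 297)) (XT.lf (nat_lit 0) (nat_lit 38635892125) (nat_lit 380) (nat_lit 1883156118) (nat_lit 76) (nat_lit 3378850466) (nat_lit 113) (nat_lit 5) (nat_lit 118) (nat_lit 5) (nat_lit 114) (nat_lit 5) (nat_lit 685) (nat_lit 579) (nat_lit 296))) (XT.nd (nat_lit 72930) (nat_lit 0) (nat_lit 30172) (XT.lf (nat_lit 0) (nat_lit 6162605587) (nat_lit 304) (nat_lit 18686281137) (nat_lit 76) (nat_lit 19602840618) (nat_lit 109) (nat_lit 5) (nat_lit 113) (nat_lit 5) (nat_lit 110) (nat_lit 5) (nat_lit 686) (nat_lit 579) (nat_lit 295)) (XT.lf (nat_lit 0)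 (nat_lit 1120252920) (nat_lit 0) (nat_lit 1120252920) (nat_lit 1748) (nat_lit 4544444119) (nat_lit 506) (nat_lit 5) (nat_lit 506) (nat_lit 3) (nat_lit 529) (nat_lit 3) (nat_lit 580) (nat_lit 580) (nat_lit 400)))) (XT.nd (nat_lit 156) (nat_lit 0) (nat_lit 76) (XT.nd (nat_lit 78) (nat_lit 0) (nat_lit 0) (XT.lf (nat_lit 0) (nat_lit 4922164344) (nat_lit 1748) (nat_lit 4596488784) (nat_lit 1824) (nat_lit 4179007480) (nat_lit 506) (nat_lit 5) (nat_lit 529) (nat_lit 3) (nat_lit 530) (nat_lit 5) (nat_lit 581) (nat_lit 580) (nat_lit 399)) (XT.lf (nat_lit 76) (nat_lit 2281091017) (nat_lit 0) (nat_lit 3111053548) (nat_lit 1824) (nat_lit 8435432154) (nat_lit 507) (nat_lit 5) (nat_lit 506) (nat_lit 5) (nat_lit 530) (nat_lit 5) (nat_lit 582) (nat_lit 580) (nat_lit 398))) (XT.nd (nat_lit 78) (nat_lit 0) (nat_lit 0) (XT.lf (nat_lit 0) (nat_lit 5915350676) (nat_lit 1748) (nat_lit 4628633314) (nat_lit 1824) (nat_lit 3415230932) (nat_lit 507) (nat_lit 5) (nat_lit 530) (nat_lit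 5) (nat_lit 531) (nat_lit 5) (nat_lit 583) (nat_lit 580) (nat_lit 397)) (XT.lf (nat_lit 76) (nat_lit 2433746647) (nat_lit 0) (nat_lit 4042405962) (nat_lit 1824) (nat_lit 7616790933) (nat_lit 508) (nat_lit 5) (nat_lit 507) (nat_lit 5) (nat_lit 531) (nat_lit 5) (nat_lit 584) (nat_lit 580) (nat_lit 396))))) (XT.nd (nat_lit 312) (nat_lit 0) (nat_lit 152) (XT.nd (nat_lit 156) (nat_lit 0) (nat_lit 76) (XT.nd (nat_lit 78) (nat_lit 0) (nat_lit 0) (XT.lf (nat_lit 0) (nat_lit 7087149558) (nat_lit 1748) (nat_lit 4550945964) (nat_lit 1824) (nat_lit 2590471919) (nat_lit 508) (nat_lit 5) (nat_lit 531) (nat_lit 5) (nat_lit 532) (nat_lit 5) (nat_lit 585) (nat_lit 580) (nat_lit 395)) (XT.lf (nat_lit 76) (nat_lit 2702932390) (nat_lit 0) (nat_lit 5042834463) (nat_lit 1824) (nat_lit 6620429234) (nat_lit 509) (nat_lit 5) (nat_lit 508) (nat_lit 5) (nat_lit 532) (nat_lit 5) (nat_lit 586) (nat_lit 580) (nat_lit 394))) (XT.nd (nat_lit 78) (nat_lit 0) (nat_lit 0) (XT.lf (nat_lit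 0) (nat_lit 8450478664) (nat_lit 1748) (nat_lit 4358908001) (nat_lit 1824) (nat_lit 1696532468) (nat_lit 509) (nat_lit 5) (nat_lit 532) (nat_lit 5) (nat_lit 533) (nat_lit 5) (nat_lit 587) (nat_lit 580) (nat_lit 393)) (XT.lf (nat_lit 76) (nat_lit 3093433990) (nat_lit 0) (nat_lit 6120748153) (nat_lit 1824) (nat_lit 5433356816) (nat_lit 510) (nat_lit 5) (nat_lit 509) (nat_lit 5) (nat_lit 533) (nat_lit 5) (nat_lit 588) (nat_lit 580) (nat_lit 392)))) (XT.nd (nat_lit 156) (nat_lit 0) (nat_lit 0) (XT.nd (nat_lit 78) (nat_lit 0) (nat_lit 0) (XT.lf (nat_lit 0) (nat_lit 10018731292) (nat_lit 1748) (nat_lit 4047677455) (nat_lit 1824) (nat_lit 725071265) (nat_lit 510) (nat_lit 5) (nat_lit 533) (nat_lit 5) (nat_lit 534) (nat_lit 5) (nat_lit 589) (nat_lit 580) (nat_lit 391)) (XT.lf (nat_lit 76) (nat_lit 3610370119) (nat_lit 0) (nat_lit 7284713898) (nat_lit 1824) (nat_lit 4042101874) (nat_lit 511) (nat_lit 5) (nat_lit 510) (nat_lit 5) (nat_lit 534) (nat_lit 5) (nat_lit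 590) (nat_lit 580) (nat_lit 390))) (XT.nd (nat_lit 78) (nat_lit 0) (nat_lit 76) (XT.lf (nat_lit 76) (nat_lit 11471156620) (nat_lit 0) (nat_lit 336833822) (nat_lit 1824) (nat_lit 3277435164) (nat_lit 511) (nat_lit 5) (nat_lit 510) (nat_lit 5) (nat_lit 534) (nat_lit 5) (nat_lit 591) (nat_lit 580) (nat_lit 389)) (XT.lf (nat_lit 76) (nat_lit 4259199879) (nat_lit 0) (nat_lit 8543476401) (nat_lit 1824) (nat_lit 2432683655) (nat_lit 512) (nat_lit 5) (nat_lit 511) (nat_lit 5) (nat_lit 535) (nat_lit 5) (nat_lit 592) (nat_lit 580) (nat_lit 388)))))) (XT.nd (nat_lit 624) (nat_lit 2660) (nat_lit 0) (XT.nd (nat_lit 312) (nat_lit 0) (nat_lit 76) (XT.nd (nat_lit 156) (nat_lit 1748) (nat_lit 0) (XT.nd (nat_lit 78) (nat_lit 0) (nat_lit 76) (XT.lf (nat_lit 76) (nat_lit 12331541918) (nat_lit 0) (nat_lit 1504347250) (nat_lit 1824) (nat_lit 1552031359) (nat_lit 512) (nat_lit 5) (nat_lit 511) (nat_lit 5) (nat_lit 535) (nat_lit 5) (nat_lit 593) (nat_lit 580) (nat_lit 387)) (XT.lf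 (nat_lit 76) (nat_lit 5045730986) (nat_lit 0) (nat_lit 9905978380) (nat_lit 1824) (nat_lit 590584340) (nat_lit 513) (nat_lit 5) (nat_lit 512) (nat_lit 5) (nat_lit 536) (nat_lit 5) (nat_lit 594) (nat_lit 580) (nat_lit 386))) (XT.nd (nat_lit 78) (nat_lit 0) (nat_lit 76) (XT.lf (nat_lit 0) (nat_lit 407982391) (nat_lit 1824) (nat_lit 2366121868) (nat_lit 1900) (nat_lit 12925139525) (nat_lit 488) (nat_lit 5) (nat_lit 512) (nat_lit 5) (nat_lit 513) (nat_lit 5) (nat_lit 595) (nat_lit 580) (nat_lit 385)) (XT.lf (nat_lit 0) (nat_lit 1479616561) (nat_lit 1824) (nat_lit 9891835311) (nat_lit 1900) (nat_lit 4486583059) (nat_lit 489) (nat_lit 5) (nat_lit 513) (nat_lit 5) (nat_lit 514) (nat_lit 5) (nat_lit 596) (nat_lit 580) (nat_lit 384)))) (XT.nd (nat_lit 156) (nat_lit 0) (nat_lit 76) (XT.nd (nat_lit 78) (nat_lit 0) (nat_lit 76) (XT.lf (nat_lit 0) (nat_lit 2599710422) (nat_lit 1824) (nat_lit 1546397397) (nat_lit 1900) (nat_lit 11873353760) (nat_lit 489) (nat_lit 5)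 (nat_lit 513) (nat_lit 5) (nat_lit 514) (nat_lit 5) (nat_lit 597) (nat_lit 580) (nat_lit 383)) (XT.lf (nat_lit 0) (nat_lit 3802061230) (nat_lit 1824) (nat_lit 9151508702) (nat_lit 1900) (nat_lit 3229349943) (nat_lit 490) (nat_lit 5) (nat_lit 514) (nat_lit 5) (nat_lit 515) (nat_lit 5) (nat_lit 598) (nat_lit 580) (nat_lit 382))) (XT.nd (nat_lit 78) (nat_lit 0) (nat_lit 76) (XT.lf (nat_lit 0) (nat_lit 5059296189) (nat_lit 1824) (nat_lit 580716095) (nat_lit 1900) (nat_lit 10709018521) (nat_lit 490) (nat_lit 5) (nat_lit 514) (nat_lit 5) (nat_lit 515) (nat_lit 5) (nat_lit 599) (nat_lit 580) (nat_lit 381)) (XT.lf (nat_lit 0) (nat_lit 6400587502) (nat_lit 1824) (nat_lit 8265207651) (nat_lit 1900) (nat_lit 1851490772) (nat_lit 491) (nat_lit 5) (nat_lit 515) (nat_lit 5) (nat_lit 516) (nat_lit 5) (nat_lit 600) (nat_lit 580) (nat_lit 380))))) (XT.nd (nat_lit 312) (nat_lit 2888) (nat_lit 0) (XT.nd (nat_lit 156) (nat_lit 0) (nat_lit 76) (XT.nd (nat_lit 78) (nat_lit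 0) (nat_lit 76) (XT.lf (nat_lit 76) (nat_lit 544849989) (nat_lit 0) (nat_lit 7261848894) (nat_lit 1900) (nat_lit 8881447583) (nat_lit 492) (nat_lit 5) (nat_lit 491) (nat_lit 5) (nat_lit 516) (nat_lit 5) (nat_lit 601) (nat_lit 580) (nat_lit 379)) (XT.lf (nat_lit 0) (nat_lit 9291937094) (nat_lit 1824) (nat_lit 7226018091) (nat_lit 1900) (nat_lit 343449140) (nat_lit 492) (nat_lit 5) (nat_lit 516) (nat_lit 5) (nat_lit 517) (nat_lit 5) (nat_lit 602) (nat_lit 580) (nat_lit 378))) (XT.nd (nat_lit 78) (nat_lit 0) (nat_lit 0) (XT.lf (nat_lit 76) (nat_lit 1840160269) (nat_lit 0) (nat_lit 9020180015) (nat_lit 1900) (nat_lit 6176718046) (nat_lit 493) (nat_lit 5) (nat_lit 492) (nat_lit 5) (nat_lit 517) (nat_lit 5) (nat_lit 603) (nat_lit 580) (nat_lit 377)) (XT.lf (nat_lit 76) (nat_lit 11180160967) (nat_lit 0) (nat_lit 1321955521) (nat_lit 1900) (nat_lit 4713269019) (nat_lit 493) (nat_lit 5) (nat_lit 492) (nat_lit 5) (nat_lit 517) (nat_lit 5) (nat_lit 604) (nat_lit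 580) (nat_lit 376)))) (XT.nd (nat_lit 156) (nat_lit 1216) (nat_lit 0) (XT.nd (nat_lit 78) (nat_lit 0) (nat_lit 0) (XT.lf (nat_lit 0) (nat_lit 3305152673) (nat_lit 1824) (nat_lit 10929081703) (nat_lit 1900) (nat_lit 3161894915) (nat_lit 469) (nat_lit 5) (nat_lit 493) (nat_lit 5) (nat_lit 494) (nat_lit 5) (nat_lit 605) (nat_lit 580) (nat_lit 375)) (XT.lf (nat_lit 0) (nat_lit 12899832675) (nat_lit 1824) (nat_lit 3144096070) (nat_lit 1900) (nat_lit 1535700707) (nat_lit 469) (nat_lit 5) (nat_lit 493) (nat_lit 5) (nat_lit 494) (nat_lit 5) (nat_lit 606) (nat_lit 580) (nat_lit 374))) (XT.nd (nat_lit 78) (nat_lit 0) (nat_lit 0) (XT.lf (nat_lit 0) (nat_lit 178915340) (nat_lit 1216) (nat_lit 12818941957) (nat_lit 76) (nat_lit 4767776295) (nat_lit 453) (nat_lit 5) (nat_lit 469) (nat_lit 5) (nat_lit 454) (nat_lit 5) (nat_lit 607) (nat_lit 580) (nat_lit 373)) (XT.lf (nat_lit 0) (nat_lit 1953623928) (nat_lit 1216) (nat_lit 3162293464) (nat_lit 76) (nat_lit 12838310309)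 (nat_lit 453) (nat_lit 5) (nat_lit 469) (nat_lit 5) (nat_lit 454) (nat_lit 5) (nat_lit 608) (nat_lit 580) (nat_lit 372))))))))
noncomputable def xc176 : XT := (XT.nd (nat_lit 2418) (nat_lit 8892) (nat_lit 0) (XT.nd (nat_lit 1170) (nat_lit 6156) (nat_lit 0) (XT.nd (nat_lit 546) (nat_lit 4028) (nat_lit 0) (XT.nd (nat_lit 234) (nat_lit 1748) (nat_lit 0) (XT.nd (nat_lit 78) (nat_lit 912) (nat_lit 0) (XT.lf (nat_lit 0) (nat_lit 3821094693) (nat_lit 988) (nat_lit 11394223199) (nat_lit 76) (nat_lit 2930130610) (nat_lit 441) (nat_lit 5) (nat_lit 454) (nat_lit 5) (nat_lit 442) (nat_lit 5) (nat_lit 609) (nat_lit 580) (nat_lit 371)) (XT.nd (nat_lit 78) (nat_lit 912) (nat_lit 0) (XT.lf (nat_lit 0) (nat_lit 5775271659) (nat_lit 988) (nat_lit 1473697092) (nat_lit 76) (nat_lit 11090537998) (nat_lit 441) (nat_lit 5) (nat_lit 454) (nat_lit 5) (nat_lit 442) (nat_lit 5) (nat_lit 610) (nat_lit 580) (nat_lit 370)) (XT.lf (nat_lit 0) (nat_lit 7825675211) (nat_lit 988) (nat_lit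 9787816868) (nat_lit 76) (nat_lit 922811385) (nat_lit 429) (nat_lit 5) (nat_lit 442) (nat_lit 5) (nat_lit 430) (nat_lit 5) (nat_lit 611) (nat_lit 580) (nat_lit 369)))) (XT.nd (nat_lit 156) (nat_lit 912) (nat_lit 0) (XT.nd (nat_lit 78) (nat_lit 0) (nat_lit 0) (XT.lf (nat_lit 0) (nat_lit 410098173) (nat_lit 836) (nat_lit 9561923892) (nat_lit 912) (nat_lit 8763915502) (nat_lit 418) (nat_lit 5) (nat_lit 429) (nat_lit 5) (nat_lit 430) (nat_lit 5) (nat_lit 612) (nat_lit 580) (nat_lit 368)) (XT.lf (nat_lit 0) (nat_lit 10939223457) (nat_lit 836) (nat_lit 1282141533) (nat_lit 912) (nat_lit 6716998136) (nat_lit 418) (nat_lit 5) (nat_lit 429) (nat_lit 5) (nat_lit 430) (nat_lit 5) (nat_lit 613) (nat_lit 580) (nat_lit 367))) (XT.nd (nat_lit 78) (nat_lit 0) (nat_lit 0) (XT.lf (nat_lit 0) (nat_lit 2515142592) (nat_lit 912) (nat_lit 12057889611) (nat_lit 988) (nat_lit 4570658397) (nat_lit 406) (nat_lit 5) (nat_lit 418) (nat_lit 5) (nat_lit 419) (nat_lit 5) (nat_lit 614)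 (nat_lit 580) (nat_lit 366)) (XT.lf (nat_lit 0) (nat_lit 13334143298) (nat_lit 912) (nat_lit 3694274857) (nat_lit 988) (nat_lit 2323572913) (nat_lit 406) (nat_lit 5) (nat_lit 418) (nat_lit 5) (nat_lit 419) (nat_lit 5) (nat_lit 615) (nat_lit 580) (nat_lit 365))))) (XT.nd (nat_lit 312) (nat_lit 2280) (nat_lit 0) (XT.nd (nat_lit 156) (nat_lit 836) (nat_lit 0) (XT.nd (nat_lit 78) (nat_lit 0) (nat_lit 0) (XT.lf (nat_lit 0) (nat_lit 26699489) (nat_lit 912) (nat_lit 14731847401) (nat_lit 76) (nat_lit 4804758265) (nat_lit 394) (nat_lit 5) (nat_lit 406) (nat_lit 5) (nat_lit 395) (nat_lit 5) (nat_lit 616) (nat_lit 580) (nat_lit 364)) (XT.lf (nat_lit 0) (nat_lit 2452722634) (nat_lit 912) (nat_lit 3844265448) (nat_lit 76) (nat_lit 13480353249) (nat_lit 394) (nat_lit 5) (nat_lit 406) (nat_lit 5) (nat_lit 395) (nat_lit 5) (nat_lit 617) (nat_lit 580) (nat_lit 363))) (XT.nd (nat_lit 78) (nat_lit 0) (nat_lit 0) (XT.lf (nat_lit 0) (nat_lit 4985285969) (nat_lit 912) (nat_lit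 12658105252) (nat_lit 76) (nat_lit 2351106753) (nat_lit 383) (nat_lit 5) (nat_lit 395) (nat_lit 5) (nat_lit 384) (nat_lit 5) (nat_lit 618) (nat_lit 580) (nat_lit 362)) (XT.lf (nat_lit 0) (nat_lit 7631053301) (nat_lit 912) (nat_lit 1469970071) (nat_lit 76) (nat_lit 11113723461) (nat_lit 383) (nat_lit 5) (nat_lit 395) (nat_lit 5) (nat_lit 384) (nat_lit 5) (nat_lit 619) (nat_lit 580) (nat_lit 361)))) (XT.nd (nat_lit 156) (nat_lit 760) (nat_lit 0) (XT.nd (nat_lit 78) (nat_lit 760) (nat_lit 0) (XT.lf (nat_lit 0) (nat_lit 10068696658) (nat_lit 760) (nat_lit 321395249) (nat_lit 836) (nat_lit 10048101777) (nat_lit 373) (nat_lit 5) (nat_lit 383) (nat_lit 5) (nat_lit 384) (nat_lit 5) (nat_lit 620) (nat_lit 580) (nat_lit 360)) (XT.lf (nat_lit 0) (nat_lit 1145708277) (nat_lit 760) (nat_lit 12127073457) (nat_lit 836) (nat_lit 7391958459) (nat_lit 363) (nat_lit 5) (nat_lit 373) (nat_lit 5) (nat_lit 374) (nat_lit 5) (nat_lit 621) (nat_lit 580) (nat_lit 359))) (XT.nd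 (nat_lit 78) (nat_lit 760) (nat_lit 0) (XT.lf (nat_lit 0) (nat_lit 13024310979) (nat_lit 760) (nat_lit 3255621895) (nat_lit 836) (nat_lit 4614548737) (nat_lit 363) (nat_lit 5) (nat_lit 373) (nat_lit 5) (nat_lit 374) (nat_lit 5) (nat_lit 622) (nat_lit 580) (nat_lit 358)) (XT.lf (nat_lit 0) (nat_lit 4021496380) (nat_lit 760) (nat_lit 15384656092) (nat_lit 836) (nat_lit 1721487001) (nat_lit 353) (nat_lit 5) (nat_lit 363) (nat_lit 5) (nat_lit 364) (nat_lit 5) (nat_lit 623) (nat_lit 580) (nat_lit 357)))))) (XT.nd (nat_lit 624) (nat_lit 3192) (nat_lit 0) (XT.nd (nat_lit 312) (nat_lit 1444) (nat_lit 0) (XT.nd (nat_lit 156) (nat_lit 684) (nat_lit 0) (XT.nd (nat_lit 78) (nat_lit 760) (nat_lit 0) (XT.lf (nat_lit 0) (nat_lit 1283264779) (nat_lit 836) (nat_lit 5141946854) (nat_lit 76) (nat_lit 14938690272) (nat_lit 352) (nat_lit 5) (nat_lit 363) (nat_lit 5) (nat_lit 353) (nat_lit 5) (nat_lit 624) (nat_lit 580) (nat_lit 356)) (XT.lf (nat_lit 0) (nat_lit 4384750192)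 (nat_lit 836) (nat_lit 14483293244) (nat_lit 76) (nat_lit 2735424903) (nat_lit 342) (nat_lit 5) (nat_lit 353) (nat_lit 5) (nat_lit 343) (nat_lit 5) (nat_lit 625) (nat_lit 580) (nat_lit 355))) (XT.nd (nat_lit 78) (nat_lit 684) (nat_lit 0) (XT.lf (nat_lit 0) (nat_lit 7620927814) (nat_lit 836) (nat_lit 2197954670) (nat_lit 76) (nat_lit 12027490483) (nat_lit 342) (nat_lit 5) (nat_lit 353) (nat_lit 5) (nat_lit 343) (nat_lit 5) (nat_lit 626) (nat_lit 580) (nat_lit 354)) (XT.lf (nat_lit 0) (nat_lit 10465167722) (nat_lit 684) (nat_lit 520076459) (nat_lit 760) (nat_lit 11107623317) (nat_lit 333) (nat_lit 5) (nat_lit 342) (nat_lit 5) (nat_lit 343) (nat_lit 5) (nat_lit 627) (nat_lit 580) (nat_lit 353)))) (XT.nd (nat_lit 156) (nat_lit 760) (nat_lit 0) (XT.nd (nat_lit 78) (nat_lit 0) (nat_lit 0) (XT.lf (nat_lit 0) (nat_lit 1017160458) (nat_lit 684) (nat_lit 13474861960) (nat_lit 760) (nat_lit 7850766102) (nat_lit 324) (nat_lit 5) (nat_lit 333) (nat_lit 5) (nat_lit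 334) (nat_lit 5) (nat_lit 628) (nat_lit 580) (nat_lit 352)) (XT.lf (nat_lit 0) (nat_lit 14063852054) (nat_lit 684) (nat_lit 4082107383) (nat_lit 760) (nat_lit 4450208171) (nat_lit 324) (nat_lit 5) (nat_lit 333) (nat_lit 5) (nat_lit 334) (nat_lit 5) (nat_lit 629) (nat_lit 580) (nat_lit 351))) (XT.nd (nat_lit 78) (nat_lit 76) (nat_lit 0) (XT.lf (nat_lit 0) (nat_lit 4535474242) (nat_lit 684) (nat_lit 17398303776) (nat_lit 760) (nat_lit 919620310) (nat_lit 315) (nat_lit 5) (nat_lit 324) (nat_lit 5) (nat_lit 325) (nat_lit 5) (nat_lit 630) (nat_lit 580) (nat_lit 350)) (XT.lf (nat_lit 0) (nat_lit 2726758125) (nat_lit 760) (nat_lit 5184370612) (nat_lit 76) (nat_lit 15202689853) (nat_lit 314) (nat_lit 5) (nat_lit 324) (nat_lit 5) (nat_lit 315) (nat_lit 5) (nat_lit 631) (nat_lit 580) (nat_lit 349))))) (XT.nd (nat_lit 312) (nat_lit 1292) (nat_lit 0) (XT.nd (nat_lit 156) (nat_lit 1216) (nat_lit 0) (XT.nd (nat_lit 78) (nat_lit 0) (nat_lit 0) (XT.lf (nat_lit 0) (nat_lit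 6495334043) (nat_lit 760) (nat_lit 15080535886) (nat_lit 76) (nat_lit 1802224183) (nat_lit 305) (nat_lit 5) (nat_lit 315) (nat_lit 5) (nat_lit 306) (nat_lit 5) (nat_lit 632) (nat_lit 580) (nat_lit 348)) (XT.lf (nat_lit 0) (nat_lit 10422501452) (nat_lit 760) (nat_lit 1585319017) (nat_lit 76) (nat_lit 11638170376) (nat_lit 305) (nat_lit 5) (nat_lit 315) (nat_lit 5) (nat_lit 306) (nat_lit 5) (nat_lit 633) (nat_lit 580) (nat_lit 347))) (XT.nd (nat_lit 78) (nat_lit 608) (nat_lit 0) (XT.lf (nat_lit 0) (nat_lit 12336560315) (nat_lit 608) (nat_lit 2167639359) (nat_lit 684) (nat_lit 9413526186) (nat_lit 297) (nat_lit 5) (nat_lit 305) (nat_lit 5) (nat_lit 306) (nat_lit 5) (nat_lit 634) (nat_lit 580) (nat_lit 346)) (XT.lf (nat_lit 0) (nat_lit 2338104908) (nat_lit 608) (nat_lit 16402341562) (nat_lit 684) (nat_lit 5452990908) (nat_lit 289) (nat_lit 5) (nat_lit 297) (nat_lit 5) (nat_lit 298) (nat_lit 5) (nat_lit 635) (nat_lit 580) (nat_lit 345)))) (XT.nd (nat_lit 156)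 (nat_lit 608) (nat_lit 0) (XT.nd (nat_lit 78) (nat_lit 684) (nat_lit 0) (XT.lf (nat_lit 0) (nat_lit 16673153801) (nat_lit 608) (nat_lit 6476220188) (nat_lit 684) (nat_lit 1323530115) (nat_lit 289) (nat_lit 5) (nat_lit 297) (nat_lit 5) (nat_lit 298) (nat_lit 5) (nat_lit 636) (nat_lit 580) (nat_lit 344)) (XT.lf (nat_lit 0) (nat_lit 2913607546) (nat_lit 684) (nat_lit 18181151207) (nat_lit 76) (nat_lit 3661566996) (nat_lit 280) (nat_lit 5) (nat_lit 289) (nat_lit 5) (nat_lit 281) (nat_lit 5) (nat_lit 637) (nat_lit 580) (nat_lit 343))) (XT.nd (nat_lit 78) (nat_lit 608) (nat_lit 0) (XT.lf (nat_lit 0) (nat_lit 7309429083) (nat_lit 684) (nat_lit 3758083503) (nat_lit 76) (nat_lit 13975895094) (nat_lit 280) (nat_lit 5) (nat_lit 289) (nat_lit 5) (nat_lit 281) (nat_lit 5) (nat_lit 638) (nat_lit 580) (nat_lit 342)) (XT.lf (nat_lit 0) (nat_lit 11094004798) (nat_lit 608) (nat_lit 767339631) (nat_lit 684) (nat_lit 13473523360) (nat_lit 272) (nat_lit 5) (nat_lit 280) (nat_lit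 5) (nat_lit 281) (nat_lit 5) (nat_lit 639) (nat_lit 580) (nat_lit 341))))))) (XT.nd (nat_lit 1170) (nat_lit 4104) (nat_lit 0) (XT.nd (nat_lit 546) (nat_lit 2508) (nat_lit 0) (XT.nd (nat_lit 234) (nat_lit 1064) (nat_lit 0) (XT.nd (nat_lit 78) (nat_lit 684) (nat_lit 0) (XT.lf (nat_lit 0) (nat_lit 601943305) (nat_lit 532) (nat_lit 15991063977) (nat_lit 608) (nat_lit 9037375718) (nat_lit 265) (nat_lit 5) (nat_lit 272) (nat_lit 5) (nat_lit 273) (nat_lit 5) (nat_lit 640) (nat_lit 580) (nat_lit 340)) (XT.nd (nat_lit 78) (nat_lit 684) (nat_lit 0) (XT.lf (nat_lit 0) (nat_lit 15924550628) (nat_lit 532) (nat_lit 5591591722) (nat_lit 608) (nat_lit 4413729470) (nat_lit 265) (nat_lit 5) (nat_lit 272) (nat_lit 5) (nat_lit 273) (nat_lit 5) (nat_lit 641) (nat_lit 580) (nat_lit 339)) (XT.lf (nat_lit 0) (nat_lit 362446761) (nat_lit 684) (nat_lit 20885505027) (nat_lit 76) (nat_lit 4986078982) (nat_lit 256) (nat_lit 5) (nat_lit 265) (nat_lit 5) (nat_lit 257) (nat_lit 5) (nat_lit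 642) (nat_lit 580) (nat_lit 338)))) (XT.nd (nat_lit 156) (nat_lit 532) (nat_lit 0) (XT.nd (nat_lit 78) (nat_lit 532) (nat_lit 0) (XT.lf (nat_lit 0) (nat_lit 5276028081) (nat_lit 684) (nat_lit 5469491679) (nat_lit 76) (nat_lit 15796150094) (nat_lit 256) (nat_lit 5) (nat_lit 265) (nat_lit 5) (nat_lit 257) (nat_lit 5) (nat_lit 643) (nat_lit 580) (nat_lit 337)) (XT.lf (nat_lit 0) (nat_lit 10351921946) (nat_lit 608) (nat_lit 16468184742) (nat_lit 76) (nat_lit 34074291) (nat_lit 249) (nat_lit 5) (nat_lit 257) (nat_lit 5) (nat_lit 250) (nat_lit 5) (nat_lit 644) (nat_lit 580) (nat_lit 336))) (XT.nd (nat_lit 78) (nat_lit 532) (nat_lit 0) (XT.lf (nat_lit 0) (nat_lit 15633856590) (nat_lit 608) (nat_lit 615745523) (nat_lit 76) (nat_lit 10921249829) (nat_lit 249) (nat_lit 5) (nat_lit 257) (nat_lit 5) (nat_lit 250) (nat_lit 5) (nat_lit 645) (nat_lit 580) (nat_lit 335)) (XT.lf (nat_lit 0) (nat_lit 15755609421) (nat_lit 532) (nat_lit 5364600965) (nat_lit 608) (nat_lit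 6371670405) (nat_lit 242) (nat_lit 5) (nat_lit 249) (nat_lit 5) (nat_lit 250) (nat_lit 5) (nat_lit 646) (nat_lit 580) (nat_lit 334))))) (XT.nd (nat_lit 312) (nat_lit 1444) (nat_lit 0) (XT.nd (nat_lit 156) (nat_lit 532) (nat_lit 0) (XT.nd (nat_lit 78) (nat_lit 76) (nat_lit 0) (XT.lf (nat_lit 0) (nat_lit 4662557094) (nat_lit 456) (nat_lit 22121936028) (nat_lit 532) (nat_lit 1033473129) (nat_lit 236) (nat_lit 5) (nat_lit 242) (nat_lit 5) (nat_lit 243) (nat_lit 5) (nat_lit 647) (nat_lit 580) (nat_lit 333)) (XT.lf (nat_lit 0) (nat_lit 4464964944) (nat_lit 532) (nat_lit 6670054305) (nat_lit 76) (nat_lit 17012754708) (nat_lit 235) (nat_lit 5) (nat_lit 242) (nat_lit 5) (nat_lit 236) (nat_lit 5) (nat_lit 648) (nat_lit 580) (nat_lit 332))) (XT.nd (nat_lit 78) (nat_lit 0) (nat_lit 0) (XT.lf (nat_lit 0) (nat_lit 10123754365) (nat_lit 608) (nat_lit 18215608465) (nat_lit 76) (nat_lit 143394015) (nat_lit 228) (nat_lit 5) (nat_lit 236) (nat_lit 5) (nat_lit 229) (nat_lit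 5) (nat_lit 649) (nat_lit 580) (nat_lit 331)) (XT.lf (nat_lit 0) (nat_lit 16011142189) (nat_lit 608) (nat_lit 1268821697) (nat_lit 76) (nat_lit 11542167118) (nat_lit 228) (nat_lit 5) (nat_lit 236) (nat_lit 5) (nat_lit 229) (nat_lit 5) (nat_lit 650) (nat_lit 580) (nat_lit 330)))) (XT.nd (nat_lit 156) (nat_lit 532) (nat_lit 0) (XT.nd (nat_lit 78) (nat_lit 456) (nat_lit 0) (XT.lf (nat_lit 0) (nat_lit 16225039540) (nat_lit 456) (nat_lit 5893272899) (nat_lit 532) (nat_lit 7047939579) (nat_lit 222) (nat_lit 5) (nat_lit 228) (nat_lit 5) (nat_lit 229) (nat_lit 5) (nat_lit 651) (nat_lit 580) (nat_lit 329)) (XT.lf (nat_lit 0) (nat_lit 4587169981) (nat_lit 456) (nat_lit 23832672462) (nat_lit 532) (nat_lit 1095968747) (nat_lit 216) (nat_lit 5) (nat_lit 222) (nat_lit 5) (nat_lit 223) (nat_lit 5) (nat_lit 652) (nat_lit 580) (nat_lit 328))) (XT.nd (nat_lit 78) (nat_lit 456) (nat_lit 0) (XT.lf (nat_lit 0) (nat_lit 5032968329) (nat_lit 532) (nat_lit 7305682198) (nat_lit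 76) (nat_lit 17530601548) (nat_lit 215) (nat_lit 5) (nat_lit 222) (nat_lit 5) (nat_lit 216) (nat_lit 5) (nat_lit 653) (nat_lit 580) (nat_lit 327)) (XT.lf (nat_lit 0) (nat_lit 10799513078) (nat_lit 456) (nat_lit 537221127) (nat_lit 532) (nat_lit 18891544243) (nat_lit 209) (nat_lit 5) (nat_lit 215) (nat_lit 5) (nat_lit 216) (nat_lit 5) (nat_lit 654) (nat_lit 580) (nat_lit 326)))))) (XT.nd (nat_lit 624) (nat_lit 1900) (nat_lit 0) (XT.nd (nat_lit 312) (nat_lit 1292) (nat_lit 0) (XT.nd (nat_lit 156) (nat_lit 456) (nat_lit 0) (XT.nd (nat_lit 78) (nat_lit 456) (nat_lit 0) (XT.lf (nat_lit 0) (nat_lit 17887410063) (nat_lit 532) (nat_lit 1307280538) (nat_lit 76) (nat_lit 11397378113) (nat_lit 209) (nat_lit 5) (nat_lit 216) (nat_lit 5) (nat_lit 210) (nat_lit 5) (nat_lit 655) (nat_lit 580) (nat_lit 325)) (XT.lf (nat_lit 0) (nat_lit 17396701258) (nat_lit 456) (nat_lit 7285787113) (nat_lit 532) (nat_lit 6278378697) (nat_lit 203) (nat_lit 5) (nat_lit 209) (nat_lit 5)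 (nat_lit 210) (nat_lit 5) (nat_lit 656) (nat_lit 580) (nat_lit 324))) (XT.nd (nat_lit 78) (nat_lit 0) (nat_lit 0) (XT.lf (nat_lit 0) (nat_lit 344248315) (nat_lit 456) (nat_lit 26150414228) (nat_lit 76) (nat_lit 4840914066) (nat_lit 197) (nat_lit 5) (nat_lit 203) (nat_lit 5) (nat_lit 198) (nat_lit 5) (nat_lit 657) (nat_lit 580) (nat_lit 323)) (XT.lf (nat_lit 0) (nat_lit 7152128624) (nat_lit 456) (nat_lit 7317618309) (nat_lit 76) (nat_lit 17244466098) (nat_lit 197) (nat_lit 5) (nat_lit 203) (nat_lit 5) (nat_lit 198) (nat_lit 5) (nat_lit 658) (nat_lit 580) (nat_lit 322)))) (XT.nd (nat_lit 156) (nat_lit 836) (nat_lit 0) (XT.nd (nat_lit 78) (nat_lit 0) (nat_lit 0) (XT.lf (nat_lit 0) (nat_lit 12045330117) (nat_lit 456) (nat_lit 2126017132) (nat_lit 532) (nat_lit 17927571373) (nat_lit 191) (nat_lit 5) (nat_lit 197) (nat_lit 5) (nat_lit 198) (nat_lit 5) (nat_lit 659) (nat_lit 580) (nat_lit 321)) (XT.lf (nat_lit 0) (nat_lit 21445318973) (nat_lit 532) (nat_lit 668375821)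 (nat_lit 76) (nat_lit 10375336207) (nat_lit 191) (nat_lit 5) (nat_lit 198) (nat_lit 5) (nat_lit 192) (nat_lit 5) (nat_lit 660) (nat_lit 580) (nat_lit 320))) (XT.nd (nat_lit 78) (nat_lit 456) (nat_lit 0) (XT.lf (nat_lit 0) (nat_lit 19339692218) (nat_lit 380) (nat_lit 9661777935) (nat_lit 456) (nat_lit 3882741526) (nat_lit 186) (nat_lit 5) (nat_lit 191) (nat_lit 5) (nat_lit 192) (nat_lit 5) (nat_lit 661) (nat_lit 580) (nat_lit 319)) (XT.lf (nat_lit 0) (nat_lit 3440723898) (nat_lit 456) (nat_lit 26777418833) (nat_lit 76) (nat_lit 3067426035) (nat_lit 180) (nat_lit 5) (nat_lit 186) (nat_lit 5) (nat_lit 181) (nat_lit 5) (nat_lit 662) (nat_lit 580) (nat_lit 318))))) (XT.nd (nat_lit 312) (nat_lit 1064) (nat_lit 0) (XT.nd (nat_lit 156) (nat_lit 456) (nat_lit 0) (XT.nd (nat_lit 78) (nat_lit 380) (nat_lit 0) (XT.lf (nat_lit 0) (nat_lit 11011279029) (nat_lit 456) (nat_lit 6642405981) (nat_lit 76) (nat_lit 16037702529) (nat_lit 180) (nat_lit 5) (nat_lit 186) (nat_lit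 5) (nat_lit 181) (nat_lit 5) (nat_lit 663) (nat_lit 580) (nat_lit 317)) (XT.lf (nat_lit 0) (nat_lit 14075555353) (nat_lit 380) (nat_lit 4746218575) (nat_lit 456) (nat_lit 15281778233) (nat_lit 175) (nat_lit 5) (nat_lit 180) (nat_lit 5) (nat_lit 181) (nat_lit 5) (nat_lit 664) (nat_lit 580) (nat_lit 316))) (XT.nd (nat_lit 78) (nat_lit 76) (nat_lit 0) (XT.lf (nat_lit 0) (nat_lit 725022657) (nat_lit 380) (nat_lit 26164856029) (nat_lit 456) (nat_lit 7632053438) (nat_lit 170) (nat_lit 5) (nat_lit 175) (nat_lit 5) (nat_lit 176) (nat_lit 5) (nat_lit 665) (nat_lit 580) (nat_lit 315)) (XT.lf (nat_lit 0) (nat_lit 332315810) (nat_lit 456) (nat_lit 12819216912) (nat_lit 76) (nat_lit 21793847081) (nat_lit 169) (nat_lit 5) (nat_lit 175) (nat_lit 5) (nat_lit 170) (nat_lit 5) (nat_lit 666) (nat_lit 580) (nat_lit 314)))) (XT.nd (nat_lit 156) (nat_lit 684) (nat_lit 0) (XT.nd (nat_lit 78) (nat_lit 0) (nat_lit 0) (XT.lf (nat_lit 0) (nat_lit 8408660510) (nat_lit 456) (nat_lit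 26740250055) (nat_lit 76) (nat_lit 226279333) (nat_lit 164) (nat_lit 5) (nat_lit 170) (nat_lit 5) (nat_lit 165) (nat_lit 5) (nat_lit 667) (nat_lit 580) (nat_lit 313)) (XT.lf (nat_lit 0) (nat_lit 16817462041) (nat_lit 456) (nat_lit 5211907480) (nat_lit 76) (nat_lit 13780808118) (nat_lit 164) (nat_lit 5) (nat_lit 170) (nat_lit 5) (nat_lit 165) (nat_lit 5) (nat_lit 668) (nat_lit 580) (nat_lit 312))) (XT.nd (nat_lit 78) (nat_lit 304) (nat_lit 0) (XT.lf (nat_lit 0) (nat_lit 16965275750) (nat_lit 380) (nat_lit 8536608096) (nat_lit 456) (nat_lit 10749832446) (nat_lit 159) (nat_lit 5) (nat_lit 164) (nat_lit 5) (nat_lit 165) (nat_lit 5) (nat_lit 669) (nat_lit 580) (nat_lit 311)) (XT.lf (nat_lit 0) (nat_lit 2955621591) (nat_lit 304) (nat_lit 31490009647) (nat_lit 380) (nat_lit 2254741778) (nat_lit 155) (nat_lit 5) (nat_lit 159) (nat_lit 5) (nat_lit 160) (nat_lit 5) (nat_lit 670) (nat_lit 580) (nat_lit 310))))))))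
noncomputable def xc177 : XT := (XT.nd (nat_lit 75348) (nat_lit 0) (nat_lit 17404) (XT.nd (nat_lit 1170) (nat_lit 0) (nat_lit 0) (XT.nd (nat_lit 546) (nat_lit 1672) (nat_lit 0) (XT.nd (nat_lit 234) (nat_lit 1064) (nat_lit 0) (XT.nd (nat_lit 78) (nat_lit 380) (nat_lit 0) (XT.lf (nat_lit 0) (nat_lit 6510310201) (nat_lit 380) (nat_lit 11354719750) (nat_lit 76) (nat_lit 19288457951) (nat_lit 154) (nat_lit 5) (nat_lit 159) (nat_lit 5) (nat_lit 155) (nat_lit 5) (nat_lit 671) (nat_lit 580) (nat_lit 309)) (XT.nd (nat_lit 78) (nat_lit 0) (nat_lit 0) (XT.lf (nat_lit 0) (nat_lit 11616362020) (nat_lit 380) (nat_lit 3876930140) (nat_lit 456) (nat_lit 22120618489) (nat_lit 149) (nat_lit 5) (nat_lit 154) (nat_lit 5) (nat_lit 155) (nat_lit 5) (nat_lit 672) (nat_lit 580) (nat_lit 308)) (XT.lf (nat_lit 0) (nat_lit 24797484605) (nat_lit 456) (nat_lit 2953389596) (nat_lit 76) (nat_lit 10329836671) (nat_lit 149) (nat_lit 5) (nat_lit 155) (nat_lit 5) (nat_lit 150) (nat_lit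 5) (nat_lit 673) (nat_lit 580) (nat_lit 307)))) (XT.nd (nat_lit 156) (nat_lit 304) (nat_lit 0) (XT.nd (nat_lit 78) (nat_lit 456) (nat_lit 0) (XT.lf (nat_lit 0) (nat_lit 20794600671) (nat_lit 304) (nat_lit 13651284141) (nat_lit 380) (nat_lit 4107799847) (nat_lit 145) (nat_lit 5) (nat_lit 149) (nat_lit 5) (nat_lit 150) (nat_lit 5) (nat_lit 674) (nat_lit 580) (nat_lit 306)) (XT.lf (nat_lit 0) (nat_lit 5244374486) (nat_lit 456) (nat_lit 32976603850) (nat_lit 76) (nat_lit 813215565) (nat_lit 139) (nat_lit 5) (nat_lit 145) (nat_lit 5) (nat_lit 140) (nat_lit 5) (nat_lit 675) (nat_lit 580) (nat_lit 305))) (XT.nd (nat_lit 78) (nat_lit 304) (nat_lit 0) (XT.lf (nat_lit 0) (nat_lit 14936465222) (nat_lit 456) (nat_lit 9053124763) (nat_lit 76) (nat_lit 15530022800) (nat_lit 139) (nat_lit 5) (nat_lit 145) (nat_lit 5) (nat_lit 140) (nat_lit 5) (nat_lit 676) (nat_lit 580) (nat_lit 304)) (XT.lf (nat_lit 0) (nat_lit 15548706347) (nat_lit 304) (nat_lit 9372150862) (nat_lit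 380) (nat_lit 15091913684) (nat_lit 135) (nat_lit 5) (nat_lit 139) (nat_lit 5) (nat_lit 140) (nat_lit 5) (nat_lit 677) (nat_lit 580) (nat_lit 303))))) (XT.nd (nat_lit 312) (nat_lit 988) (nat_lit 0) (XT.nd (nat_lit 156) (nat_lit 304) (nat_lit 0) (XT.nd (nat_lit 78) (nat_lit 76) (nat_lit 0) (XT.lf (nat_lit 0) (nat_lit 213098458) (nat_lit 304) (nat_lit 34987849432) (nat_lit 380) (nat_lit 5312924090) (nat_lit 131) (nat_lit 5) (nat_lit 135) (nat_lit 5) (nat_lit 136) (nat_lit 5) (nat_lit 678) (nat_lit 580) (nat_lit 302)) (XT.lf (nat_lit 0) (nat_lit 4825354029) (nat_lit 380) (nat_lit 15403771807) (nat_lit 76) (nat_lit 20790767014) (nat_lit 130) (nat_lit 5) (nat_lit 135) (nat_lit 5) (nat_lit 131) (nat_lit 5) (nat_lit 679) (nat_lit 580) (nat_lit 301))) (XT.nd (nat_lit 78) (nat_lit 0) (nat_lit 0) (XT.lf (nat_lit 0) (nat_lit 10084260834) (nat_lit 304) (nat_lit 5074111425) (nat_lit 380) (nat_lit 26375697252) (nat_lit 126) (nat_lit 5) (nat_lit 130) (nat_lit 5) (nat_lit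 131) (nat_lit 5) (nat_lit 680) (nat_lit 580) (nat_lit 300)) (XT.lf (nat_lit 0) (nat_lit 25867108863) (nat_lit 380) (nat_lit 5837703352) (nat_lit 76) (nat_lit 10350336359) (nat_lit 126) (nat_lit 5) (nat_lit 131) (nat_lit 5) (nat_lit 127) (nat_lit 5) (nat_lit 681) (nat_lit 580) (nat_lit 299)))) (XT.nd (nat_lit 156) (nat_lit 304) (nat_lit 0) (XT.nd (nat_lit 78) (nat_lit 380) (nat_lit 0) (XT.lf (nat_lit 0) (nat_lit 20518226295) (nat_lit 304) (nat_lit 16436248759) (nat_lit 380) (nat_lit 5628885100) (nat_lit 122) (nat_lit 5) (nat_lit 126) (nat_lit 5) (nat_lit 127) (nat_lit 5) (nat_lit 682) (nat_lit 580) (nat_lit 298)) (XT.lf (nat_lit 0) (nat_lit 4378922587) (nat_lit 304) (nat_lit 760602427) (nat_lit 380) (nat_lit 37980633275) (nat_lit 117) (nat_lit 5) (nat_lit 121) (nat_lit 5) (nat_lit 122) (nat_lit 5) (nat_lit 683) (nat_lit 580) (nat_lit 297))) (XT.nd (nat_lit 78) (nat_lit 304) (nat_lit 0) (XT.lf (nat_lit 0) (nat_lit 16293576192) (nat_lit 380) (nat_lit 12154835237)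 (nat_lit 76) (nat_lit 15213623977) (nat_lit 117) (nat_lit 5) (nat_lit 122) (nat_lit 5) (nat_lit 118) (nat_lit 5) (nat_lit 684) (nat_lit 580) (nat_lit 296)) (XT.lf (nat_lit 0) (nat_lit 15153138133) (nat_lit 304) (nat_lit 12618687698) (nat_lit 380) (nat_lit 16440901913) (nat_lit 113) (nat_lit 5) (nat_lit 117) (nat_lit 5) (nat_lit 118) (nat_lit 5) (nat_lit 685) (nat_lit 580) (nat_lit 295)))))) (XT.nd (nat_lit 73554) (nat_lit 0) (nat_lit 30096) (XT.nd (nat_lit 73242) (nat_lit 0) (nat_lit 29944) (XT.nd (nat_lit 73086) (nat_lit 0) (nat_lit 29868) (XT.nd (nat_lit 73008) (nat_lit 0) (nat_lit 29868) (XT.lf (nat_lit 0) (nat_lit 39582356089) (nat_lit 380) (nat_lit 1628077991) (nat_lit 76) (nat_lit 3561945565) (nat_lit 113) (nat_lit 5) (nat_lit 118) (nat_lit 5) (nat_lit 114) (nat_lit 5) (nat_lit 686) (nat_lit 580) (nat_lit 294)) (XT.lf (nat_lit 0) (nat_lit 1325885109) (nat_lit 0) (nat_lit 1325885109) (nat_lit 1748) (nat_lit 4261538268) (nat_lit 506) (nat_lit 5) (nat_lit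 506) (nat_lit 3) (nat_lit 529) (nat_lit 3) (nat_lit 581) (nat_lit 581) (nat_lit 398))) (XT.nd (nat_lit 78) (nat_lit 0) (nat_lit 0) (XT.lf (nat_lit 0) (nat_lit 5736812786) (nat_lit 1748) (nat_lit 4312423982) (nat_lit 1824) (nat_lit 3908030622) (nat_lit 506) (nat_lit 5) (nat_lit 529) (nat_lit 3) (nat_lit 530) (nat_lit 5) (nat_lit 582) (nat_lit 581) (nat_lit 397)) (XT.lf (nat_lit 76) (nat_lit 2700233766) (nat_lit 0) (nat_lit 3504340752) (nat_lit 1824) (nat_lit 7885440104) (nat_lit 507) (nat_lit 5) (nat_lit 506) (nat_lit 5) (nat_lit 530) (nat_lit 5) (nat_lit 583) (nat_lit 581) (nat_lit 396)))) (XT.nd (nat_lit 156) (nat_lit 0) (nat_lit 76) (XT.nd (nat_lit 78) (nat_lit 0) (nat_lit 0) (XT.lf (nat_lit 0) (nat_lit 6722321965) (nat_lit 1748) (nat_lit 4339064744) (nat_lit 1824) (nat_lit 3163217765) (nat_lit 507) (nat_lit 5) (nat_lit 530) (nat_lit 5) (nat_lit 531) (nat_lit 5) (nat_lit 584) (nat_lit 581) (nat_lit 395)) (XT.lf (nat_lit 76) (nat_lit 2862048729) (nat_lit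 0) (nat_lit 4421252778) (nat_lit 1824) (nat_lit 7077927350) (nat_lit 508) (nat_lit 5) (nat_lit 507) (nat_lit 5) (nat_lit 531) (nat_lit 5) (nat_lit 585) (nat_lit 581) (nat_lit 394))) (XT.nd (nat_lit 78) (nat_lit 0) (nat_lit 0) (XT.lf (nat_lit 0) (nat_lit 7891334746) (nat_lit 1748) (nat_lit 4254577128) (nat_lit 1824) (nat_lit 2353957445) (nat_lit 508) (nat_lit 5) (nat_lit 531) (nat_lit 5) (nat_lit 532) (nat_lit 5) (nat_lit 586) (nat_lit 581) (nat_lit 393)) (XT.lf (nat_lit 76) (nat_lit 3141830189) (nat_lit 0) (nat_lit 5410803765) (nat_lit 1824) (nat_lit 6087826796) (nat_lit 509) (nat_lit 5) (nat_lit 508) (nat_lit 5) (nat_lit 532) (nat_lit 5) (nat_lit 587) (nat_lit 581) (nat_lit 392))))) (XT.nd (nat_lit 312) (nat_lit 0) (nat_lit 76) (XT.nd (nat_lit 156) (nat_lit 0) (nat_lit 76) (XT.nd (nat_lit 78) (nat_lit 0) (nat_lit 0) (XT.lf (nat_lit 0) (nat_lit 9256956368) (nat_lit 1748) (nat_lit 4054289414) (nat_lit 1824) (nat_lit 1472022545) (nat_lit 509) (nat_lit 5)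 (nat_lit 532) (nat_lit 5) (nat_lit 533) (nat_lit 5) (nat_lit 588) (nat_lit 581) (nat_lit 391)) (XT.lf (nat_lit 76) (nat_lit 3544521806) (nat_lit 0) (nat_lit 6481439803) (nat_lit 1824) (nat_lit 4901958775) (nat_lit 510) (nat_lit 5) (nat_lit 509) (nat_lit 5) (nat_lit 533) (nat_lit 5) (nat_lit 589) (nat_lit 581) (nat_lit 390))) (XT.nd (nat_lit 78) (nat_lit 0) (nat_lit 0) (XT.lf (nat_lit 0) (nat_lit 10832781186) (nat_lit 1748) (nat_lit 3733204004) (nat_lit 1824) (nat_lit 509031861) (nat_lit 510) (nat_lit 5) (nat_lit 533) (nat_lit 5) (nat_lit 534) (nat_lit 5) (nat_lit 590) (nat_lit 581) (nat_lit 389)) (XT.lf (nat_lit 76) (nat_lit 4075403028) (nat_lit 0) (nat_lit 7641775572) (nat_lit 1824) (nat_lit 3506648467) (nat_lit 511) (nat_lit 5) (nat_lit 510) (nat_lit 5) (nat_lit 534) (nat_lit 5) (nat_lit 591) (nat_lit 581) (nat_lit 388)))) (XT.nd (nat_lit 156) (nat_lit 0) (nat_lit 76) (XT.nd (nat_lit 78) (nat_lit 0) (nat_lit 76) (XT.lf (nat_lit 76) (nat_lit 12085702798)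 (nat_lit 0) (nat_lit 550793436) (nat_lit 1824) (nat_lit 2738772648) (nat_lit 511) (nat_lit 5) (nat_lit 510) (nat_lit 5) (nat_lit 534) (nat_lit 5) (nat_lit 592) (nat_lit 581) (nat_lit 387)) (XT.lf (nat_lit 76) (nat_lit 4740096971) (nat_lit 0) (nat_lit 8900614375) (nat_lit 1824) (nat_lit 1887698199) (nat_lit 512) (nat_lit 5) (nat_lit 511) (nat_lit 5) (nat_lit 535) (nat_lit 5) (nat_lit 593) (nat_lit 581) (nat_lit 386))) (XT.nd (nat_lit 78) (nat_lit 0) (nat_lit 76) (XT.lf (nat_lit 76) (nat_lit 12966126770) (nat_lit 0) (nat_lit 1717050319) (nat_lit 1824) (nat_lit 1001072840) (nat_lit 512) (nat_lit 5) (nat_lit 511) (nat_lit 5) (nat_lit 535) (nat_lit 5) (nat_lit 594) (nat_lit 581) (nat_lit 385)) (XT.lf (nat_lit 76) (nat_lit 5544578972) (nat_lit 0) (nat_lit 10266968300) (nat_lit 1824) (nat_lit 30358974) (nat_lit 513) (nat_lit 5) (nat_lit 512) (nat_lit 5) (nat_lit 536) (nat_lit 5) (nat_lit 595) (nat_lit 581) (nat_lit 384))))))) (XT.nd (nat_lit 1170) (nat_lit 7524)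 (nat_lit 0) (XT.nd (nat_lit 546) (nat_lit 3572) (nat_lit 0) (XT.nd (nat_lit 234) (nat_lit 0) (nat_lit 152) (XT.nd (nat_lit 78) (nat_lit 0) (nat_lit 76) (XT.lf (nat_lit 0) (nat_lit 969607415) (nat_lit 1824) (nat_lit 2015941701) (nat_lit 1900) (nat_lit 13016593646) (nat_lit 488) (nat_lit 5) (nat_lit 512) (nat_lit 5) (nat_lit 513) (nat_lit 5) (nat_lit 596) (nat_lit 581) (nat_lit 383)) (XT.nd (nat_lit 78) (nat_lit 0) (nat_lit 0) (XT.lf (nat_lit 0) (nat_lit 2053410098) (nat_lit 1824) (nat_lit 9682888978) (nat_lit 1900) (nat_lit 4427996265) (nat_lit 489) (nat_lit 5) (nat_lit 513) (nat_lit 5) (nat_lit 514) (nat_lit 5) (nat_lit 597) (nat_lit 581) (nat_lit 382)) (XT.lf (nat_lit 0) (nat_lit 3185235225) (nat_lit 1824) (nat_lit 1178518445) (nat_lit 1900) (nat_lit 11965410585) (nat_lit 489) (nat_lit 5) (nat_lit 513) (nat_lit 5) (nat_lit 514) (nat_lit 5) (nat_lit 598) (nat_lit 581) (nat_lit 381)))) (XT.nd (nat_lit 156) (nat_lit 0) (nat_lit 76) (XT.nd (nat_lit 78) (nat_lit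 0) (nat_lit 0) (XT.lf (nat_lit 0) (nat_lit 4402903420) (nat_lit 1824) (nat_lit 8926986713) (nat_lit 1900) (nat_lit 3166176489) (nat_lit 490) (nat_lit 5) (nat_lit 514) (nat_lit 5) (nat_lit 515) (nat_lit 5) (nat_lit 599) (nat_lit 581) (nat_lit 380)) (XT.lf (nat_lit 0) (nat_lit 5674992863) (nat_lit 1824) (nat_lit 192769473) (nat_lit 1900) (nat_lit 10797943544) (nat_lit 490) (nat_lit 5) (nat_lit 514) (nat_lit 5) (nat_lit 515) (nat_lit 5) (nat_lit 600) (nat_lit 581) (nat_lit 379))) (XT.nd (nat_lit 78) (nat_lit 0) (nat_lit 0) (XT.lf (nat_lit 0) (nat_lit 7034884074) (nat_lit 1824) (nat_lit 8022709907) (nat_lit 1900) (nat_lit 1779896941) (nat_lit 491) (nat_lit 5) (nat_lit 515) (nat_lit 5) (nat_lit 516) (nat_lit 5) (nat_lit 601) (nat_lit 581) (nat_lit 378)) (XT.lf (nat_lit 76) (nat_lit 960865979) (nat_lit 0) (nat_lit 7500954852) (nat_lit 1900) (nat_lit 8550094075) (nat_lit 492) (nat_lit 5) (nat_lit 491) (nat_lit 5) (nat_lit 516) (nat_lit 5) (nat_lit 602) (nat_lit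 581) (nat_lit 377))))) (XT.nd (nat_lit 312) (nat_lit 2128) (nat_lit 0) (XT.nd (nat_lit 156) (nat_lit 1748) (nat_lit 0) (XT.nd (nat_lit 78) (nat_lit 0) (nat_lit 0) (XT.lf (nat_lit 0) (nat_lit 9966382219) (nat_lit 1824) (nat_lit 6962966943) (nat_lit 1900) (nat_lit 259496681) (nat_lit 492) (nat_lit 5) (nat_lit 516) (nat_lit 5) (nat_lit 517) (nat_lit 5) (nat_lit 603) (nat_lit 581) (nat_lit 376)) (XT.lf (nat_lit 76) (nat_lit 2281853593) (nat_lit 0) (nat_lit 9277348177) (nat_lit 1900) (nat_lit 5808950474) (nat_lit 493) (nat_lit 5) (nat_lit 492) (nat_lit 5) (nat_lit 517) (nat_lit 5) (nat_lit 604) (nat_lit 581) (nat_lit 375))) (XT.nd (nat_lit 78) (nat_lit 1748) (nat_lit 0) (XT.lf (nat_lit 76) (nat_lit 11800715283) (nat_lit 0) (nat_lit 1423654006) (nat_lit 1900) (nat_lit 4325865838) (nat_lit 493) (nat_lit 5) (nat_lit 492) (nat_lit 5) (nat_lit 517) (nat_lit 5) (nat_lit 605) (nat_lit 581) (nat_lit 374)) (XT.lf (nat_lit 0) (nat_lit 3775476588) (nat_lit 1824) (nat_lit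 11208539335) (nat_lit 1900) (nat_lit 2750720408) (nat_lit 469) (nat_lit 5) (nat_lit 493) (nat_lit 5) (nat_lit 494) (nat_lit 5) (nat_lit 606) (nat_lit 581) (nat_lit 373)))) (XT.nd (nat_lit 156) (nat_lit 912) (nat_lit 0) (XT.nd (nat_lit 78) (nat_lit 1216) (nat_lit 0) (XT.lf (nat_lit 0) (nat_lit 13554124291) (nat_lit 1824) (nat_lit 3266660342) (nat_lit 1900) (nat_lit 1101304520) (nat_lit 469) (nat_lit 5) (nat_lit 493) (nat_lit 5) (nat_lit 494) (nat_lit 5) (nat_lit 607) (nat_lit 581) (nat_lit 372)) (XT.lf (nat_lit 0) (nat_lit 634756052) (nat_lit 1216) (nat_lit 12666152132) (nat_lit 76) (nat_lit 4810980007) (nat_lit 453) (nat_lit 5) (nat_lit 469) (nat_lit 5) (nat_lit 454) (nat_lit 5) (nat_lit 608) (nat_lit 581) (nat_lit 371))) (XT.nd (nat_lit 78) (nat_lit 912) (nat_lit 0) (XT.lf (nat_lit 0) (nat_lit 2436090921) (nat_lit 1216) (nat_lit 2824393584) (nat_lit 76) (nat_lit 13043947287) (nat_lit 453) (nat_lit 5) (nat_lit 469) (nat_lit 5) (nat_lit 454) (nat_lit 5)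 (nat_lit 609) (nat_lit 581) (nat_lit 370)) (XT.lf (nat_lit 0) (nat_lit 4334552667) (nat_lit 988) (nat_lit 11214591153) (nat_lit 76) (nat_lit 2950460604) (nat_lit 441) (nat_lit 5) (nat_lit 454) (nat_lit 5) (nat_lit 442) (nat_lit 5) (nat_lit 610) (nat_lit 581) (nat_lit 369)))))) (XT.nd (nat_lit 624) (nat_lit 3952) (nat_lit 0) (XT.nd (nat_lit 312) (nat_lit 1824) (nat_lit 0) (XT.nd (nat_lit 156) (nat_lit 836) (nat_lit 0) (XT.nd (nat_lit 78) (nat_lit 912) (nat_lit 0) (XT.lf (nat_lit 0) (nat_lit 6319243838) (nat_lit 988) (nat_lit 1103645045) (nat_lit 76) (nat_lit 11274826583) (nat_lit 441) (nat_lit 5) (nat_lit 454) (nat_lit 5) (nat_lit 442) (nat_lit 5) (nat_lit 611) (nat_lit 581) (nat_lit 368)) (XT.lf (nat_lit 0) (nat_lit 8404663922) (nat_lit 988) (nat_lit 9578043829) (nat_lit 76) (nat_lit 915860431) (nat_lit 429) (nat_lit 5) (nat_lit 442) (nat_lit 5) (nat_lit 430) (nat_lit 5) (nat_lit 612) (nat_lit 581) (nat_lit 367))) (XT.nd (nat_lit 78) (nat_lit 0) (nat_lit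 0) (XT.lf (nat_lit 0) (nat_lit 821161556) (nat_lit 836) (nat_lit 9767107972) (nat_lit 912) (nat_lit 8514039035) (nat_lit 418) (nat_lit 5) (nat_lit 429) (nat_lit 5) (nat_lit 430) (nat_lit 5) (nat_lit 613) (nat_lit 581) (nat_lit 366)) (XT.lf (nat_lit 0) (nat_lit 11552970103) (nat_lit 836) (nat_lit 1321456523) (nat_lit 912) (nat_lit 6434519689) (nat_lit 418) (nat_lit 5) (nat_lit 429) (nat_lit 5) (nat_lit 430) (nat_lit 5) (nat_lit 614) (nat_lit 581) (nat_lit 365)))) (XT.nd (nat_lit 156) (nat_lit 912) (nat_lit 0) (XT.nd (nat_lit 78) (nat_lit 0) (nat_lit 0) (XT.lf (nat_lit 0) (nat_lit 2966027602) (nat_lit 912) (nat_lit 12301600960) (nat_lit 988) (nat_lit 4250861973) (nat_lit 406) (nat_lit 5) (nat_lit 418) (nat_lit 5) (nat_lit 419) (nat_lit 5) (nat_lit 615) (nat_lit 581) (nat_lit 364)) (XT.lf (nat_lit 0) (nat_lit 13993553769) (nat_lit 912) (nat_lit 3770663841) (nat_lit 988) (nat_lit 1966897711) (nat_lit 406) (nat_lit 5) (nat_lit 418) (nat_lit 5) (nat_lit 419)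 (nat_lit 5) (nat_lit 616) (nat_lit 581) (nat_lit 363))) (XT.nd (nat_lit 78) (nat_lit 0) (nat_lit 0) (XT.lf (nat_lit 0) (nat_lit 419876940) (nat_lit 912) (nat_lit 14623232294) (nat_lit 76) (nat_lit 4903598635) (nat_lit 394) (nat_lit 5) (nat_lit 406) (nat_lit 5) (nat_lit 395) (nat_lit 5) (nat_lit 617) (nat_lit 581) (nat_lit 362)) (XT.lf (nat_lit 0) (nat_lit 2886721656) (nat_lit 912) (nat_lit 3525805605) (nat_lit 76) (nat_lit 13752651691) (nat_lit 394) (nat_lit 5) (nat_lit 406) (nat_lit 5) (nat_lit 395) (nat_lit 5) (nat_lit 618) (nat_lit 581) (nat_lit 361))))) (XT.nd (nat_lit 312) (nat_lit 1596) (nat_lit 0) (XT.nd (nat_lit 156) (nat_lit 1520) (nat_lit 0) (XT.nd (nat_lit 78) (nat_lit 0) (nat_lit 0) (XT.lf (nat_lit 0) (nat_lit 5465021372) (nat_lit 912) (nat_lit 12510997207) (nat_lit 76) (nat_lit 2410758650) (nat_lit 383) (nat_lit 5) (nat_lit 395) (nat_lit 5) (nat_lit 384) (nat_lit 5) (nat_lit 619) (nat_lit 581) (nat_lit 360)) (XT.lf (nat_lit 0) (nat_lit 8156252488)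 (nat_lit 912) (nat_lit 1106947757) (nat_lit 76) (nat_lit 11348380048) (nat_lit 383) (nat_lit 5) (nat_lit 395) (nat_lit 5) (nat_lit 384) (nat_lit 5) (nat_lit 620) (nat_lit 581) (nat_lit 359))) (XT.nd (nat_lit 78) (nat_lit 760) (nat_lit 0) (XT.lf (nat_lit 0) (nat_lit 10659910585) (nat_lit 760) (nat_lit 305786928) (nat_lit 836) (nat_lit 9873894250) (nat_lit 373) (nat_lit 5) (nat_lit 383) (nat_lit 5) (nat_lit 384) (nat_lit 5) (nat_lit 621) (nat_lit 581) (nat_lit 358)) (XT.lf (nat_lit 0) (nat_lit 1563072903) (nat_lit 760) (nat_lit 12338457697) (nat_lit 836) (nat_lit 7169229003) (nat_lit 363) (nat_lit 5) (nat_lit 373) (nat_lit 5) (nat_lit 374) (nat_lit 5) (nat_lit 622) (nat_lit 581) (nat_lit 357)))) (XT.nd (nat_lit 156) (nat_lit 836) (nat_lit 0) (XT.nd (nat_lit 78) (nat_lit 760) (nat_lit 0) (XT.lf (nat_lit 0) (nat_lit 13671513335) (nat_lit 760) (nat_lit 3290188030) (nat_lit 836) (nat_lit 4343537138) (nat_lit 363) (nat_lit 5) (nat_lit 373) (nat_lit 5) (nat_lit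 374) (nat_lit 5) (nat_lit 623) (nat_lit 581) (nat_lit 356)) (XT.lf (nat_lit 0) (nat_lit 4492987050) (nat_lit 760) (nat_lit 15653208047) (nat_lit 836) (nat_lit 1396949615) (nat_lit 353) (nat_lit 5) (nat_lit 363) (nat_lit 5) (nat_lit 364) (nat_lit 5) (nat_lit 624) (nat_lit 581) (nat_lit 355))) (XT.nd (nat_lit 78) (nat_lit 760) (nat_lit 0) (XT.lf (nat_lit 0) (nat_lit 1656243024) (nat_lit 836) (nat_lit 4856768498) (nat_lit 76) (nat_lit 15271213360) (nat_lit 352) (nat_lit 5) (nat_lit 363) (nat_lit 5) (nat_lit 353) (nat_lit 5) (nat_lit 625) (nat_lit 581) (nat_lit 354)) (XT.lf (nat_lit 0) (nat_lit 4815726450) (nat_lit 836) (nat_lit 14380901490) (nat_lit 76) (nat_lit 2832035510) (nat_lit 342) (nat_lit 5) (nat_lit 353) (nat_lit 5) (nat_lit 343) (nat_lit 5) (nat_lit 626) (nat_lit 581) (nat_lit 353))))))))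
noncomputable def xc178 : XT := (XT.nd (nat_lit 2418) (nat_lit 6840) (nat_lit 0) (XT.nd (nat_lit 1170) (nat_lit 4712) (nat_lit 0) (XT.nd (nat_lit 546) (nat_lit 3040) (nat_lit 0) (XT.nd (nat_lit 234) (nat_lit 1444) (nat_lit 0) (XT.nd (nat_lit 78) (nat_lit 1368) (nat_lit 0) (XT.lf (nat_lit 0) (nat_lit 8109896619) (nat_lit 836) (nat_lit 1857543549) (nat_lit 76) (nat_lit 12309120792) (nat_lit 342) (nat_lit 5) (nat_lit 353) (nat_lit 5) (nat_lit 343) (nat_lit 5) (nat_lit 627) (nat_lit 581) (nat_lit 352)) (XT.nd (nat_lit 78) (nat_lit 684) (nat_lit 0) (XT.lf (nat_lit 0) (nat_lit 11056312539) (nat_lit 684) (nat_lit 481066918) (nat_lit 760) (nat_lit 10990688488) (nat_lit 333) (nat_lit 5) (nat_lit 342) (nat_lit 5) (nat_lit 343) (nat_lit 5) (nat_lit 628) (nat_lit 581) (nat_lit 351)) (XT.lf (nat_lit 0) (nat_lit 1423127424) (nat_lit 684) (nat_lit 13687465836) (nat_lit 760) (nat_lit 7672468289) (nat_lit 324) (nat_lit 5) (nat_lit 333) (nat_lit 5) (nat_lit 334) (nat_lit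 5) (nat_lit 629) (nat_lit 581) (nat_lit 350)))) (XT.nd (nat_lit 156) (nat_lit 760) (nat_lit 0) (XT.nd (nat_lit 78) (nat_lit 684) (nat_lit 0) (XT.lf (nat_lit 0) (nat_lit 14723191602) (nat_lit 684) (nat_lit 4107971724) (nat_lit 760) (nat_lit 4210473967) (nat_lit 324) (nat_lit 5) (nat_lit 333) (nat_lit 5) (nat_lit 334) (nat_lit 5) (nat_lit 630) (nat_lit 581) (nat_lit 349)) (XT.lf (nat_lit 0) (nat_lit 5007810425) (nat_lit 684) (nat_lit 17683441365) (nat_lit 760) (nat_lit 612830724) (nat_lit 315) (nat_lit 5) (nat_lit 324) (nat_lit 5) (nat_lit 325) (nat_lit 5) (nat_lit 631) (nat_lit 581) (nat_lit 348))) (XT.nd (nat_lit 78) (nat_lit 684) (nat_lit 0) (XT.lf (nat_lit 0) (nat_lit 3095917966) (nat_lit 760) (nat_lit 4909725493) (nat_lit 76) (nat_lit 15564151496) (nat_lit 314) (nat_lit 5) (nat_lit 324) (nat_lit 5) (nat_lit 315) (nat_lit 5) (nat_lit 632) (nat_lit 581) (nat_lit 347)) (XT.lf (nat_lit 0) (nat_lit 6936558200) (nat_lit 760) (nat_lit 15000499504) (nat_lit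 76) (nat_lit 1902364575) (nat_lit 305) (nat_lit 5) (nat_lit 315) (nat_lit 5) (nat_lit 306) (nat_lit 5) (nat_lit 633) (nat_lit 581) (nat_lit 346))))) (XT.nd (nat_lit 312) (nat_lit 1824) (nat_lit 0) (XT.nd (nat_lit 156) (nat_lit 608) (nat_lit 0) (XT.nd (nat_lit 78) (nat_lit 608) (nat_lit 0) (XT.lf (nat_lit 0) (nat_lit 10936164693) (nat_lit 760) (nat_lit 1242861574) (nat_lit 76) (nat_lit 11933772909) (nat_lit 305) (nat_lit 5) (nat_lit 315) (nat_lit 5) (nat_lit 306) (nat_lit 5) (nat_lit 634) (nat_lit 581) (nat_lit 345)) (XT.lf (nat_lit 0) (nat_lit 12954993740) (nat_lit 608) (nat_lit 2140931903) (nat_lit 684) (nat_lit 9294114814) (nat_lit 297) (nat_lit 5) (nat_lit 305) (nat_lit 5) (nat_lit 306) (nat_lit 5) (nat_lit 635) (nat_lit 581) (nat_lit 344))) (XT.nd (nat_lit 78) (nat_lit 0) (nat_lit 0) (XT.lf (nat_lit 0) (nat_lit 2759672114) (nat_lit 608) (nat_lit 16654190155) (nat_lit 684) (nat_lit 5257464778) (nat_lit 289) (nat_lit 5) (nat_lit 297) (nat_lit 5) (nat_lit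 298) (nat_lit 5) (nat_lit 636) (nat_lit 581) (nat_lit 343)) (XT.lf (nat_lit 0) (nat_lit 17374072865) (nat_lit 608) (nat_lit 6531040437) (nat_lit 684) (nat_lit 1051387043) (nat_lit 289) (nat_lit 5) (nat_lit 297) (nat_lit 5) (nat_lit 298) (nat_lit 5) (nat_lit 637) (nat_lit 581) (nat_lit 342)))) (XT.nd (nat_lit 156) (nat_lit 1140) (nat_lit 0) (XT.nd (nat_lit 78) (nat_lit 0) (nat_lit 0) (XT.lf (nat_lit 0) (nat_lit 3263697966) (nat_lit 684) (nat_lit 18170509626) (nat_lit 76) (nat_lit 3811401766) (nat_lit 280) (nat_lit 5) (nat_lit 289) (nat_lit 5) (nat_lit 281) (nat_lit 5) (nat_lit 638) (nat_lit 581) (nat_lit 341)) (XT.lf (nat_lit 0) (nat_lit 7741714008) (nat_lit 684) (nat_lit 3466319089) (nat_lit 76) (nat_lit 14330514398) (nat_lit 280) (nat_lit 5) (nat_lit 289) (nat_lit 5) (nat_lit 281) (nat_lit 5) (nat_lit 639) (nat_lit 581) (nat_lit 340))) (XT.nd (nat_lit 78) (nat_lit 532) (nat_lit 0) (XT.lf (nat_lit 0) (nat_lit 11680396990) (nat_lit 608) (nat_lit 701027592)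 (nat_lit 684) (nat_lit 13454477211) (nat_lit 272) (nat_lit 5) (nat_lit 280) (nat_lit 5) (nat_lit 281) (nat_lit 5) (nat_lit 640) (nat_lit 581) (nat_lit 339)) (XT.lf (nat_lit 0) (nat_lit 981195560) (nat_lit 532) (nat_lit 16223882971) (nat_lit 608) (nat_lit 8932301744) (nat_lit 265) (nat_lit 5) (nat_lit 272) (nat_lit 5) (nat_lit 273) (nat_lit 5) (nat_lit 641) (nat_lit 581) (nat_lit 338)))))) (XT.nd (nat_lit 624) (nat_lit 2432) (nat_lit 0) (XT.nd (nat_lit 312) (nat_lit 1064) (nat_lit 0) (XT.nd (nat_lit 156) (nat_lit 532) (nat_lit 0) (XT.nd (nat_lit 78) (nat_lit 684) (nat_lit 0) (XT.lf (nat_lit 0) (nat_lit 16603054766) (nat_lit 532) (nat_lit 5618127198) (nat_lit 608) (nat_lit 4221786914) (nat_lit 265) (nat_lit 5) (nat_lit 272) (nat_lit 5) (nat_lit 273) (nat_lit 5) (nat_lit 642) (nat_lit 581) (nat_lit 337)) (XT.lf (nat_lit 0) (nat_lit 643731448) (nat_lit 684) (nat_lit 20937008876) (nat_lit 76) (nat_lit 5172484539) (nat_lit 256) (nat_lit 5) (nat_lit 265) (nat_lit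 5) (nat_lit 257) (nat_lit 5) (nat_lit 643) (nat_lit 581) (nat_lit 336))) (XT.nd (nat_lit 78) (nat_lit 532) (nat_lit 0) (XT.lf (nat_lit 0) (nat_lit 5650211145) (nat_lit 684) (nat_lit 5219855776) (nat_lit 76) (nat_lit 16197057387) (nat_lit 256) (nat_lit 5) (nat_lit 265) (nat_lit 5) (nat_lit 257) (nat_lit 5) (nat_lit 644) (nat_lit 581) (nat_lit 335)) (XT.lf (nat_lit 0) (nat_lit 10825261222) (nat_lit 608) (nat_lit 16436155453) (nat_lit 76) (nat_lit 124516324) (nat_lit 249) (nat_lit 5) (nat_lit 257) (nat_lit 5) (nat_lit 250) (nat_lit 5) (nat_lit 645) (nat_lit 581) (nat_lit 334)))) (XT.nd (nat_lit 156) (nat_lit 532) (nat_lit 0) (XT.nd (nat_lit 78) (nat_lit 532) (nat_lit 0) (XT.lf (nat_lit 0) (nat_lit 16207612974) (nat_lit 608) (nat_lit 273753587) (nat_lit 76) (nat_lit 11227675363) (nat_lit 249) (nat_lit 5) (nat_lit 257) (nat_lit 5) (nat_lit 250) (nat_lit 5) (nat_lit 646) (nat_lit 581) (nat_lit 333)) (XT.lf (nat_lit 0) (nat_lit 16422697491) (nat_lit 532) (nat_lit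 5378162415) (nat_lit 608) (nat_lit 6235688229) (nat_lit 242) (nat_lit 5) (nat_lit 249) (nat_lit 5) (nat_lit 250) (nat_lit 5) (nat_lit 647) (nat_lit 581) (nat_lit 332))) (XT.nd (nat_lit 78) (nat_lit 76) (nat_lit 0) (XT.lf (nat_lit 0) (nat_lit 5110000185) (nat_lit 456) (nat_lit 22466260755) (nat_lit 532) (nat_lit 792937816) (nat_lit 236) (nat_lit 5) (nat_lit 242) (nat_lit 5) (nat_lit 243) (nat_lit 5) (nat_lit 648) (nat_lit 581) (nat_lit 331)) (XT.lf (nat_lit 0) (nat_lit 4806988780) (nat_lit 532) (nat_lit 6452844749) (nat_lit 76) (nat_lit 17445836359) (nat_lit 235) (nat_lit 5) (nat_lit 242) (nat_lit 5) (nat_lit 236) (nat_lit 5) (nat_lit 649) (nat_lit 581) (nat_lit 330))))) (XT.nd (nat_lit 312) (nat_lit 988) (nat_lit 0) (XT.nd (nat_lit 156) (nat_lit 912) (nat_lit 0) (XT.nd (nat_lit 78) (nat_lit 0) (nat_lit 0) (XT.lf (nat_lit 0) (nat_lit 10576898083) (nat_lit 608) (nat_lit 18227249129) (nat_lit 76) (nat_lit 243246440) (nat_lit 228) (nat_lit 5) (nat_lit 236)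 (nat_lit 5) (nat_lit 229) (nat_lit 5) (nat_lit 650) (nat_lit 581) (nat_lit 329)) (XT.lf (nat_lit 0) (nat_lit 16577118592) (nat_lit 608) (nat_lit 948441753) (nat_lit 76) (nat_lit 11868093347) (nat_lit 228) (nat_lit 5) (nat_lit 236) (nat_lit 5) (nat_lit 229) (nat_lit 5) (nat_lit 651) (nat_lit 581) (nat_lit 328))) (XT.nd (nat_lit 78) (nat_lit 456) (nat_lit 0) (XT.lf (nat_lit 0) (nat_lit 16893021995) (nat_lit 456) (nat_lit 5910821666) (nat_lit 532) (nat_lit 6940865333) (nat_lit 222) (nat_lit 5) (nat_lit 228) (nat_lit 5) (nat_lit 229) (nat_lit 5) (nat_lit 652) (nat_lit 581) (nat_lit 327)) (XT.lf (nat_lit 0) (nat_lit 5024324297) (nat_lit 456) (nat_lit 24205193215) (nat_lit 532) (nat_lit 871779666) (nat_lit 216) (nat_lit 5) (nat_lit 222) (nat_lit 5) (nat_lit 223) (nat_lit 5) (nat_lit 653) (nat_lit 581) (nat_lit 326)))) (XT.nd (nat_lit 156) (nat_lit 456) (nat_lit 0) (XT.nd (nat_lit 78) (nat_lit 456) (nat_lit 0) (XT.lf (nat_lit 0) (nat_lit 5371746029) (nat_lit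 532) (nat_lit 7109988731) (nat_lit 76) (nat_lit 17980135500) (nat_lit 215) (nat_lit 5) (nat_lit 222) (nat_lit 5) (nat_lit 216) (nat_lit 5) (nat_lit 654) (nat_lit 581) (nat_lit 325)) (XT.lf (nat_lit 0) (nat_lit 11355061719) (nat_lit 456) (nat_lit 444061154) (nat_lit 532) (nat_lit 19029003663) (nat_lit 209) (nat_lit 5) (nat_lit 215) (nat_lit 5) (nat_lit 216) (nat_lit 5) (nat_lit 655) (nat_lit 581) (nat_lit 324))) (XT.nd (nat_lit 78) (nat_lit 456) (nat_lit 0) (XT.lf (nat_lit 0) (nat_lit 18476852971) (nat_lit 532) (nat_lit 996562184) (nat_lit 76) (nat_lit 11725856725) (nat_lit 209) (nat_lit 5) (nat_lit 216) (nat_lit 5) (nat_lit 210) (nat_lit 5) (nat_lit 656) (nat_lit 581) (nat_lit 323)) (XT.lf (nat_lit 0) (nat_lit 18079283038) (nat_lit 456) (nat_lit 7326179528) (nat_lit 532) (nat_lit 6170031123) (nat_lit 203) (nat_lit 5) (nat_lit 209) (nat_lit 5) (nat_lit 210) (nat_lit 5) (nat_lit 657) (nat_lit 581) (nat_lit 322))))))) (XT.nd (nat_lit 1170) (nat_lit 3116)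 (nat_lit 0) (XT.nd (nat_lit 546) (nat_lit 1976) (nat_lit 0) (XT.nd (nat_lit 234) (nat_lit 836) (nat_lit 0) (XT.nd (nat_lit 78) (nat_lit 456) (nat_lit 0) (XT.lf (nat_lit 0) (nat_lit 580327154) (nat_lit 456) (nat_lit 26334045268) (nat_lit 76) (nat_lit 5043327776) (nat_lit 197) (nat_lit 5) (nat_lit 203) (nat_lit 5) (nat_lit 198) (nat_lit 5) (nat_lit 658) (nat_lit 581) (nat_lit 321)) (XT.nd (nat_lit 78) (nat_lit 456) (nat_lit 0) (XT.lf (nat_lit 0) (nat_lit 7519871071) (nat_lit 456) (nat_lit 7131247886) (nat_lit 76) (nat_lit 17692880350) (nat_lit 197) (nat_lit 5) (nat_lit 203) (nat_lit 5) (nat_lit 198) (nat_lit 5) (nat_lit 659) (nat_lit 581) (nat_lit 320)) (XT.lf (nat_lit 0) (nat_lit 12616770542) (nat_lit 456) (nat_lit 2060443691) (nat_lit 532) (nat_lit 18059230051) (nat_lit 191) (nat_lit 5) (nat_lit 197) (nat_lit 5) (nat_lit 198) (nat_lit 5) (nat_lit 660) (nat_lit 581) (nat_lit 319)))) (XT.nd (nat_lit 156) (nat_lit 456) (nat_lit 0) (XT.nd (nat_lit 78) (nat_lit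 380) (nat_lit 0) (XT.lf (nat_lit 0) (nat_lit 22092991878) (nat_lit 532) (nat_lit 354013224) (nat_lit 76) (nat_lit 10687427357) (nat_lit 191) (nat_lit 5) (nat_lit 198) (nat_lit 5) (nat_lit 192) (nat_lit 5) (nat_lit 661) (nat_lit 581) (nat_lit 318)) (XT.lf (nat_lit 0) (nat_lit 20052060057) (nat_lit 380) (nat_lit 9746030328) (nat_lit 456) (nat_lit 3739469955) (nat_lit 186) (nat_lit 5) (nat_lit 191) (nat_lit 5) (nat_lit 192) (nat_lit 5) (nat_lit 662) (nat_lit 581) (nat_lit 317))) (XT.nd (nat_lit 78) (nat_lit 0) (nat_lit 0) (XT.lf (nat_lit 0) (nat_lit 3726127920) (nat_lit 456) (nat_lit 26983049063) (nat_lit 76) (nat_lit 3237767757) (nat_lit 180) (nat_lit 5) (nat_lit 186) (nat_lit 5) (nat_lit 181) (nat_lit 5) (nat_lit 663) (nat_lit 581) (nat_lit 316)) (XT.lf (nat_lit 0) (nat_lit 11443847299) (nat_lit 456) (nat_lit 6451804938) (nat_lit 76) (nat_lit 16465312659) (nat_lit 180) (nat_lit 5) (nat_lit 186) (nat_lit 5) (nat_lit 181) (nat_lit 5) (nat_lit 664) (nat_lit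 581) (nat_lit 315))))) (XT.nd (nat_lit 312) (nat_lit 760) (nat_lit 0) (XT.nd (nat_lit 156) (nat_lit 456) (nat_lit 0) (XT.nd (nat_lit 78) (nat_lit 380) (nat_lit 0) (XT.lf (nat_lit 0) (nat_lit 14678387668) (nat_lit 380) (nat_lit 4730087076) (nat_lit 456) (nat_lit 15372939682) (nat_lit 175) (nat_lit 5) (nat_lit 180) (nat_lit 5) (nat_lit 181) (nat_lit 5) (nat_lit 665) (nat_lit 581) (nat_lit 314)) (XT.lf (nat_lit 0) (nat_lit 1062195146) (nat_lit 380) (nat_lit 26574425513) (nat_lit 456) (nat_lit 7571567817) (nat_lit 170) (nat_lit 5) (nat_lit 175) (nat_lit 5) (nat_lit 176) (nat_lit 5) (nat_lit 666) (nat_lit 581) (nat_lit 313))) (XT.nd (nat_lit 78) (nat_lit 380) (nat_lit 0) (XT.lf (nat_lit 0) (nat_lit 545169475) (nat_lit 456) (nat_lit 12756512459) (nat_lit 76) (nat_lit 22338478048) (nat_lit 169) (nat_lit 5) (nat_lit 175) (nat_lit 5) (nat_lit 170) (nat_lit 5) (nat_lit 667) (nat_lit 581) (nat_lit 312)) (XT.lf (nat_lit 0) (nat_lit 8781788054) (nat_lit 456) (nat_lit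 26954710044) (nat_lit 76) (nat_lit 342093305) (nat_lit 164) (nat_lit 5) (nat_lit 170) (nat_lit 5) (nat_lit 165) (nat_lit 5) (nat_lit 668) (nat_lit 581) (nat_lit 311)))) (XT.nd (nat_lit 156) (nat_lit 380) (nat_lit 0) (XT.nd (nat_lit 78) (nat_lit 380) (nat_lit 0) (XT.lf (nat_lit 0) (nat_lit 17354746903) (nat_lit 456) (nat_lit 5002081892) (nat_lit 76) (nat_lit 14165530541) (nat_lit 164) (nat_lit 5) (nat_lit 170) (nat_lit 5) (nat_lit 165) (nat_lit 5) (nat_lit 669) (nat_lit 581) (nat_lit 310)) (XT.lf (nat_lit 0) (nat_lit 17616578793) (nat_lit 380) (nat_lit 8594364132) (nat_lit 456) (nat_lit 10761824183) (nat_lit 159) (nat_lit 5) (nat_lit 164) (nat_lit 5) (nat_lit 165) (nat_lit 5) (nat_lit 670) (nat_lit 581) (nat_lit 309))) (XT.nd (nat_lit 78) (nat_lit 76) (nat_lit 0) (XT.lf (nat_lit 0) (nat_lit 3327907549) (nat_lit 304) (nat_lit 32004507799) (nat_lit 380) (nat_lit 2098004677) (nat_lit 155) (nat_lit 5) (nat_lit 159) (nat_lit 5) (nat_lit 160) (nat_lit 5) (nat_lit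 671) (nat_lit 581) (nat_lit 308)) (XT.lf (nat_lit 0) (nat_lit 6835795694) (nat_lit 380) (nat_lit 11272183213) (nat_lit 76) (nat_lit 19784670264) (nat_lit 154) (nat_lit 5) (nat_lit 159) (nat_lit 5) (nat_lit 155) (nat_lit 5) (nat_lit 672) (nat_lit 581) (nat_lit 307)))))) (XT.nd (nat_lit 624) (nat_lit 1292) (nat_lit 0) (XT.nd (nat_lit 312) (nat_lit 684) (nat_lit 0) (XT.nd (nat_lit 156) (nat_lit 760) (nat_lit 0) (XT.nd (nat_lit 78) (nat_lit 0) (nat_lit 0) (XT.lf (nat_lit 0) (nat_lit 12156283146) (nat_lit 380) (nat_lit 3840322243) (nat_lit 456) (nat_lit 22365711678) (nat_lit 149) (nat_lit 5) (nat_lit 154) (nat_lit 5) (nat_lit 155) (nat_lit 5) (nat_lit 673) (nat_lit 581) (nat_lit 306)) (XT.lf (nat_lit 0) (nat_lit 25483815181) (nat_lit 456) (nat_lit 2707825460) (nat_lit 76) (nat_lit 10646874040) (nat_lit 149) (nat_lit 5) (nat_lit 155) (nat_lit 5) (nat_lit 150) (nat_lit 5) (nat_lit 674) (nat_lit 581) (nat_lit 305))) (XT.nd (nat_lit 78) (nat_lit 456) (nat_lit 0)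 (XT.lf (nat_lit 0) (nat_lit 21513120454) (nat_lit 304) (nat_lit 13810294839) (nat_lit 380) (nat_lit 3997568066) (nat_lit 145) (nat_lit 5) (nat_lit 149) (nat_lit 5) (nat_lit 150) (nat_lit 5) (nat_lit 675) (nat_lit 581) (nat_lit 304)) (XT.lf (nat_lit 0) (nat_lit 5538118834) (nat_lit 456) (nat_lit 33329971924) (nat_lit 76) (nat_lit 943007253) (nat_lit 139) (nat_lit 5) (nat_lit 145) (nat_lit 5) (nat_lit 140) (nat_lit 5) (nat_lit 676) (nat_lit 581) (nat_lit 303)))) (XT.nd (nat_lit 156) (nat_lit 380) (nat_lit 0) (XT.nd (nat_lit 78) (nat_lit 304) (nat_lit 0) (XT.lf (nat_lit 0) (nat_lit 15420348309) (nat_lit 456) (nat_lit 8934026472) (nat_lit 76) (nat_lit 15951924606) (nat_lit 139) (nat_lit 5) (nat_lit 145) (nat_lit 5) (nat_lit 140) (nat_lit 5) (nat_lit 677) (nat_lit 581) (nat_lit 302)) (XT.lf (nat_lit 0) (nat_lit 16157866519) (nat_lit 304) (nat_lit 9444867172) (nat_lit 380) (nat_lit 15206620905) (nat_lit 135) (nat_lit 5) (nat_lit 139) (nat_lit 5) (nat_lit 140)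 (nat_lit 5) (nat_lit 678) (nat_lit 581) (nat_lit 301))) (XT.nd (nat_lit 78) (nat_lit 76) (nat_lit 0) (XT.lf (nat_lit 0) (nat_lit 516492300) (nat_lit 304) (nat_lit 35571009083) (nat_lit 380) (nat_lit 5232994868) (nat_lit 131) (nat_lit 5) (nat_lit 135) (nat_lit 5) (nat_lit 136) (nat_lit 5) (nat_lit 679) (nat_lit 581) (nat_lit 300)) (XT.lf (nat_lit 0) (nat_lit 5102004069) (nat_lit 380) (nat_lit 15416184315) (nat_lit 76) (nat_lit 21318497082) (nat_lit 130) (nat_lit 5) (nat_lit 135) (nat_lit 5) (nat_lit 131) (nat_lit 5) (nat_lit 680) (nat_lit 581) (nat_lit 299))))) (XT.nd (nat_lit 312) (nat_lit 304) (nat_lit 0) (XT.nd (nat_lit 156) (nat_lit 684) (nat_lit 0) (XT.nd (nat_lit 78) (nat_lit 0) (nat_lit 0) (XT.lf (nat_lit 0) (nat_lit 10579663829) (nat_lit 304) (nat_lit 5060393630) (nat_lit 380) (nat_lit 26721120751) (nat_lit 126) (nat_lit 5) (nat_lit 130) (nat_lit 5) (nat_lit 131) (nat_lit 5) (nat_lit 681) (nat_lit 581) (nat_lit 298)) (XT.lf (nat_lit 0) (nat_lit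 26560201737) (nat_lit 380) (nat_lit 5663729464) (nat_lit 76) (nat_lit 10668803041) (nat_lit 126) (nat_lit 5) (nat_lit 131) (nat_lit 5) (nat_lit 127) (nat_lit 5) (nat_lit 682) (nat_lit 581) (nat_lit 297))) (XT.nd (nat_lit 78) (nat_lit 380) (nat_lit 0) (XT.lf (nat_lit 0) (nat_lit 21217406091) (nat_lit 304) (nat_lit 16650338248) (nat_lit 380) (nat_lit 5563797176) (nat_lit 122) (nat_lit 5) (nat_lit 126) (nat_lit 5) (nat_lit 127) (nat_lit 5) (nat_lit 683) (nat_lit 581) (nat_lit 296)) (XT.lf (nat_lit 0) (nat_lit 4755733183) (nat_lit 304) (nat_lit 660357776) (nat_lit 380) (nat_lit 38562992829) (nat_lit 117) (nat_lit 5) (nat_lit 121) (nat_lit 5) (nat_lit 122) (nat_lit 5) (nat_lit 684) (nat_lit 581) (nat_lit 295)))) (XT.nd (nat_lit 73164) (nat_lit 0) (nat_lit 29868) (XT.nd (nat_lit 78) (nat_lit 304) (nat_lit 0) (XT.lf (nat_lit 0) (nat_lit 16790550721) (nat_lit 380) (nat_lit 12111696462) (nat_lit 76) (nat_lit 15629604755) (nat_lit 117) (nat_lit 5) (nat_lit 122)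 (nat_lit 5) (nat_lit 118) (nat_lit 5) (nat_lit 685) (nat_lit 581) (nat_lit 294)) (XT.lf (nat_lit 0) (nat_lit 15740553247) (nat_lit 304) (nat_lit 12756303350) (nat_lit 380) (nat_lit 16596731743) (nat_lit 113) (nat_lit 5) (nat_lit 117) (nat_lit 5) (nat_lit 118) (nat_lit 5) (nat_lit 686) (nat_lit 581) (nat_lit 293))) (XT.nd (nat_lit 78) (nat_lit 0) (nat_lit 0) (XT.lf (nat_lit 0) (nat_lit 1528515009) (nat_lit 0) (nat_lit 1528515009) (nat_lit 1748) (nat_lit 3987489205) (nat_lit 506) (nat_lit 5) (nat_lit 506) (nat_lit 3) (nat_lit 529) (nat_lit 3) (nat_lit 582) (nat_lit 582) (nat_lit 396)) (XT.lf (nat_lit 0) (nat_lit 6539943077) (nat_lit 1748) (nat_lit 4037278212) (nat_lit 1824) (nat_lit 3645402108) (nat_lit 506) (nat_lit 5) (nat_lit 529) (nat_lit 3) (nat_lit 530) (nat_lit 5) (nat_lit 583) (nat_lit 582) (nat_lit 395))))))))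
noncomputable def xc179 : XT := (XT.nd (nat_lit 2418) (nat_lit 12312) (nat_lit 0) (XT.nd (nat_lit 1170) (nat_lit 5320) (nat_lit 0) (XT.nd (nat_lit 546) (nat_lit 1368) (nat_lit 0) (XT.nd (nat_lit 234) (nat_lit 0) (nat_lit 152) (XT.nd (nat_lit 78) (nat_lit 0) (nat_lit 76) (XT.lf (nat_lit 76) (nat_lit 3113255098) (nat_lit 0) (nat_lit 3892637998) (nat_lit 1824) (nat_lit 7352356237) (nat_lit 507) (nat_lit 5) (nat_lit 506) (nat_lit 5) (nat_lit 530) (nat_lit 5) (nat_lit 584) (nat_lit 582) (nat_lit 394)) (XT.nd (nat_lit 78) (nat_lit 0) (nat_lit 0) (XT.lf (nat_lit 0) (nat_lit 7518691007) (nat_lit 1748) (nat_lit 4058543813) (nat_lit 1824) (nat_lit 2918602665) (nat_lit 507) (nat_lit 5) (nat_lit 530) (nat_lit 5) (nat_lit 531) (nat_lit 5) (nat_lit 585) (nat_lit 582) (nat_lit 393)) (XT.lf (nat_lit 76) (nat_lit 3284175468) (nat_lit 0) (nat_lit 4796104878) (nat_lit 1824) (nat_lit 6555126610) (nat_lit 508) (nat_lit 5) (nat_lit 507) (nat_lit 5) (nat_lit 531) (nat_lit 5)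 (nat_lit 586) (nat_lit 582) (nat_lit 392)))) (XT.nd (nat_lit 156) (nat_lit 0) (nat_lit 76) (XT.nd (nat_lit 78) (nat_lit 0) (nat_lit 0) (XT.lf (nat_lit 0) (nat_lit 8685880199) (nat_lit 1748) (nat_lit 3967323654) (nat_lit 1824) (nat_lit 2123908651) (nat_lit 508) (nat_lit 5) (nat_lit 531) (nat_lit 5) (nat_lit 532) (nat_lit 5) (nat_lit 587) (nat_lit 582) (nat_lit 391)) (XT.lf (nat_lit 76) (nat_lit 3574562171) (nat_lit 0) (nat_lit 5775760145) (nat_lit 1824) (nat_lit 5570395498) (nat_lit 509) (nat_lit 5) (nat_lit 508) (nat_lit 5) (nat_lit 532) (nat_lit 5) (nat_lit 588) (nat_lit 582) (nat_lit 390))) (XT.nd (nat_lit 78) (nat_lit 0) (nat_lit 0) (XT.lf (nat_lit 0) (nat_lit 10054809961) (nat_lit 1748) (nat_lit 3758792401) (nat_lit 1824) (nat_lit 1253057987) (nat_lit 509) (nat_lit 5) (nat_lit 532) (nat_lit 5) (nat_lit 533) (nat_lit 5) (nat_lit 589) (nat_lit 582) (nat_lit 389)) (XT.lf (nat_lit 76) (nat_lit 3989517526) (nat_lit 0) (nat_lit 6840092712) (nat_lit 1824)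 (nat_lit 4384787284) (nat_lit 510) (nat_lit 5) (nat_lit 509) (nat_lit 5) (nat_lit 533) (nat_lit 5) (nat_lit 590) (nat_lit 582) (nat_lit 388))))) (XT.nd (nat_lit 312) (nat_lit 1672) (nat_lit 0) (XT.nd (nat_lit 156) (nat_lit 0) (nat_lit 0) (XT.nd (nat_lit 78) (nat_lit 0) (nat_lit 0) (XT.lf (nat_lit 0) (nat_lit 11639282319) (nat_lit 1748) (nat_lit 3427795996) (nat_lit 1824) (nat_lit 297623851) (nat_lit 510) (nat_lit 5) (nat_lit 533) (nat_lit 5) (nat_lit 534) (nat_lit 5) (nat_lit 591) (nat_lit 582) (nat_lit 387)) (XT.lf (nat_lit 76) (nat_lit 4534482703) (nat_lit 0) (nat_lit 7997770826) (nat_lit 1824) (nat_lit 2984417496) (nat_lit 511) (nat_lit 5) (nat_lit 510) (nat_lit 5) (nat_lit 534) (nat_lit 5) (nat_lit 592) (nat_lit 582) (nat_lit 386))) (XT.nd (nat_lit 78) (nat_lit 0) (nat_lit 76) (XT.lf (nat_lit 76) (nat_lit 12697585103) (nat_lit 0) (nat_lit 760985523) (nat_lit 1824) (nat_lit 2212799139) (nat_lit 511) (nat_lit 5) (nat_lit 510) (nat_lit 5) (nat_lit 534)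 (nat_lit 5) (nat_lit 593) (nat_lit 582) (nat_lit 385)) (XT.lf (nat_lit 76) (nat_lit 5215245983) (nat_lit 0) (nat_lit 9257662078) (nat_lit 1824) (nat_lit 1354864766) (nat_lit 512) (nat_lit 5) (nat_lit 511) (nat_lit 5) (nat_lit 535) (nat_lit 5) (nat_lit 594) (nat_lit 582) (nat_lit 384)))) (XT.nd (nat_lit 156) (nat_lit 0) (nat_lit 0) (XT.nd (nat_lit 78) (nat_lit 1748) (nat_lit 0) (XT.lf (nat_lit 76) (nat_lit 13598338592) (nat_lit 0) (nat_lit 1926916243) (nat_lit 1824) (nat_lit 461694888) (nat_lit 512) (nat_lit 5) (nat_lit 511) (nat_lit 5) (nat_lit 535) (nat_lit 5) (nat_lit 595) (nat_lit 582) (nat_lit 383)) (XT.lf (nat_lit 0) (nat_lit 512053087) (nat_lit 1824) (nat_lit 10113364331) (nat_lit 1900) (nat_lit 5522462447) (nat_lit 488) (nat_lit 5) (nat_lit 512) (nat_lit 5) (nat_lit 513) (nat_lit 5) (nat_lit 596) (nat_lit 582) (nat_lit 382))) (XT.nd (nat_lit 78) (nat_lit 0) (nat_lit 76) (XT.lf (nat_lit 0) (nat_lit 1520973205) (nat_lit 1824) (nat_lit 1674193442)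 (nat_lit 1900) (nat_lit 13116363554) (nat_lit 488) (nat_lit 5) (nat_lit 512) (nat_lit 5) (nat_lit 513) (nat_lit 5) (nat_lit 597) (nat_lit 582) (nat_lit 381)) (XT.lf (nat_lit 0) (nat_lit 2617547510) (nat_lit 1824) (nat_lit 9485559601) (nat_lit 1900) (nat_lit 4373997121) (nat_lit 489) (nat_lit 5) (nat_lit 513) (nat_lit 5) (nat_lit 514) (nat_lit 5) (nat_lit 598) (nat_lit 582) (nat_lit 380)))))) (XT.nd (nat_lit 624) (nat_lit 5396) (nat_lit 0) (XT.nd (nat_lit 312) (nat_lit 0) (nat_lit 152) (XT.nd (nat_lit 156) (nat_lit 0) (nat_lit 76) (XT.nd (nat_lit 78) (nat_lit 0) (nat_lit 76) (XT.lf (nat_lit 0) (nat_lit 3761752881) (nat_lit 1824) (nat_lit 818768071) (nat_lit 1900) (nat_lit 12064955003) (nat_lit 489) (nat_lit 5) (nat_lit 513) (nat_lit 5) (nat_lit 514) (nat_lit 5) (nat_lit 599) (nat_lit 582) (nat_lit 379)) (XT.lf (nat_lit 0) (nat_lit 4995383792) (nat_lit 1824) (nat_lit 8713800032) (nat_lit 1900) (nat_lit 3106700659) (nat_lit 490) (nat_lit 5) (nat_lit 514)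 (nat_lit 5) (nat_lit 515) (nat_lit 5) (nat_lit 600) (nat_lit 582) (nat_lit 378))) (XT.nd (nat_lit 78) (nat_lit 0) (nat_lit 76) (XT.lf (nat_lit 76) (nat_lit 189911364) (nat_lit 0) (nat_lit 6094346057) (nat_lit 1900) (nat_lit 10704832552) (nat_lit 491) (nat_lit 5) (nat_lit 490) (nat_lit 5) (nat_lit 515) (nat_lit 5) (nat_lit 601) (nat_lit 582) (nat_lit 377)) (XT.lf (nat_lit 0) (nat_lit 7662206921) (nat_lit 1824) (nat_lit 7791197653) (nat_lit 1900) (nat_lit 1711089222) (nat_lit 491) (nat_lit 5) (nat_lit 515) (nat_lit 5) (nat_lit 516) (nat_lit 5) (nat_lit 602) (nat_lit 582) (nat_lit 376)))) (XT.nd (nat_lit 156) (nat_lit 0) (nat_lit 76) (XT.nd (nat_lit 78) (nat_lit 0) (nat_lit 76) (XT.lf (nat_lit 76) (nat_lit 1369471025) (nat_lit 0) (nat_lit 7741197882) (nat_lit 1900) (nat_lit 8231877906) (nat_lit 492) (nat_lit 5) (nat_lit 491) (nat_lit 5) (nat_lit 516) (nat_lit 5) (nat_lit 603) (nat_lit 582) (nat_lit 375)) (XT.lf (nat_lit 0) (nat_lit 10635343064) (nat_lit 1824)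 (nat_lit 6710481270) (nat_lit 1900) (nat_lit 177391879) (nat_lit 492) (nat_lit 5) (nat_lit 516) (nat_lit 5) (nat_lit 517) (nat_lit 5) (nat_lit 604) (nat_lit 582) (nat_lit 374))) (XT.nd (nat_lit 78) (nat_lit 0) (nat_lit 0) (XT.lf (nat_lit 76) (nat_lit 2716658407) (nat_lit 0) (nat_lit 9536678841) (nat_lit 1900) (nat_lit 5452905403) (nat_lit 493) (nat_lit 5) (nat_lit 492) (nat_lit 5) (nat_lit 517) (nat_lit 5) (nat_lit 605) (nat_lit 582) (nat_lit 373)) (XT.lf (nat_lit 76) (nat_lit 12418266590) (nat_lit 0) (nat_lit 1524464047) (nat_lit 1900) (nat_lit 3949418370) (nat_lit 493) (nat_lit 5) (nat_lit 492) (nat_lit 5) (nat_lit 517) (nat_lit 5) (nat_lit 606) (nat_lit 582) (nat_lit 372))))) (XT.nd (nat_lit 312) (nat_lit 2660) (nat_lit 0) (XT.nd (nat_lit 156) (nat_lit 1216) (nat_lit 0) (XT.nd (nat_lit 78) (nat_lit 0) (nat_lit 0) (XT.lf (nat_lit 0) (nat_lit 4239510593) (nat_lit 1824) (nat_lit 11491222230) (nat_lit 1900) (nat_lit 2349744423) (nat_lit 469) (nat_lit 5)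 (nat_lit 493) (nat_lit 5) (nat_lit 494) (nat_lit 5) (nat_lit 607) (nat_lit 582) (nat_lit 371)) (XT.lf (nat_lit 0) (nat_lit 14206113123) (nat_lit 1824) (nat_lit 3389358361) (nat_lit 1900) (nat_lit 676281205) (nat_lit 469) (nat_lit 5) (nat_lit 493) (nat_lit 5) (nat_lit 494) (nat_lit 5) (nat_lit 608) (nat_lit 582) (nat_lit 370))) (XT.nd (nat_lit 78) (nat_lit 0) (nat_lit 0) (XT.lf (nat_lit 0) (nat_lit 1082151677) (nat_lit 1216) (nat_lit 12526195028) (nat_lit 76) (nat_lit 4857072913) (nat_lit 453) (nat_lit 5) (nat_lit 469) (nat_lit 5) (nat_lit 454) (nat_lit 5) (nat_lit 609) (nat_lit 582) (nat_lit 369)) (XT.lf (nat_lit 0) (nat_lit 2910989705) (nat_lit 1216) (nat_lit 2495312685) (nat_lit 76) (nat_lit 13255682415) (nat_lit 453) (nat_lit 5) (nat_lit 469) (nat_lit 5) (nat_lit 454) (nat_lit 5) (nat_lit 610) (nat_lit 582) (nat_lit 368)))) (XT.nd (nat_lit 156) (nat_lit 1748) (nat_lit 0) (XT.nd (nat_lit 78) (nat_lit 0) (nat_lit 0) (XT.lf (nat_lit 0) (nat_lit 4841309157)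 (nat_lit 988) (nat_lit 11047190830) (nat_lit 76) (nat_lit 2972683370) (nat_lit 441) (nat_lit 5) (nat_lit 454) (nat_lit 5) (nat_lit 442) (nat_lit 5) (nat_lit 611) (nat_lit 582) (nat_lit 367)) (XT.lf (nat_lit 0) (nat_lit 6857457574) (nat_lit 988) (nat_lit 741706037) (nat_lit 76) (nat_lit 11464257971) (nat_lit 441) (nat_lit 5) (nat_lit 454) (nat_lit 5) (nat_lit 442) (nat_lit 5) (nat_lit 612) (nat_lit 582) (nat_lit 366))) (XT.nd (nat_lit 78) (nat_lit 836) (nat_lit 0) (XT.lf (nat_lit 0) (nat_lit 8978827179) (nat_lit 988) (nat_lit 9379822529) (nat_lit 76) (nat_lit 909757050) (nat_lit 429) (nat_lit 5) (nat_lit 442) (nat_lit 5) (nat_lit 430) (nat_lit 5) (nat_lit 613) (nat_lit 582) (nat_lit 365)) (XT.lf (nat_lit 0) (nat_lit 1224802608) (nat_lit 836) (nat_lit 9975854208) (nat_lit 912) (nat_lit 8275674316) (nat_lit 418) (nat_lit 5) (nat_lit 429) (nat_lit 5) (nat_lit 430) (nat_lit 5) (nat_lit 614) (nat_lit 582) (nat_lit 364))))))) (XT.nd (nat_lit 1170) (nat_lit 5852)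 (nat_lit 0) (XT.nd (nat_lit 546) (nat_lit 3800) (nat_lit 0) (XT.nd (nat_lit 234) (nat_lit 1748) (nat_lit 0) (XT.nd (nat_lit 78) (nat_lit 912) (nat_lit 0) (XT.lf (nat_lit 0) (nat_lit 12163654819) (nat_lit 836) (nat_lit 1361026906) (nat_lit 912) (nat_lit 6162577240) (nat_lit 418) (nat_lit 5) (nat_lit 429) (nat_lit 5) (nat_lit 430) (nat_lit 5) (nat_lit 615) (nat_lit 582) (nat_lit 363)) (XT.nd (nat_lit 78) (nat_lit 0) (nat_lit 0) (XT.lf (nat_lit 0) (nat_lit 3410375218) (nat_lit 912) (nat_lit 12550087379) (nat_lit 988) (nat_lit 3940637389) (nat_lit 406) (nat_lit 5) (nat_lit 418) (nat_lit 5) (nat_lit 419) (nat_lit 5) (nat_lit 616) (nat_lit 582) (nat_lit 362)) (XT.lf (nat_lit 0) (nat_lit 14650902359) (nat_lit 912) (nat_lit 3848483392) (nat_lit 988) (nat_lit 1618743682) (nat_lit 406) (nat_lit 5) (nat_lit 418) (nat_lit 5) (nat_lit 419) (nat_lit 5) (nat_lit 617) (nat_lit 582) (nat_lit 361)))) (XT.nd (nat_lit 156) (nat_lit 836) (nat_lit 0) (XT.nd (nat_lit 78) (nat_lit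 0) (nat_lit 0) (XT.lf (nat_lit 0) (nat_lit 805671116) (nat_lit 912) (nat_lit 14528103654) (nat_lit 76) (nat_lit 5004309212) (nat_lit 394) (nat_lit 5) (nat_lit 406) (nat_lit 5) (nat_lit 395) (nat_lit 5) (nat_lit 618) (nat_lit 582) (nat_lit 360)) (XT.lf (nat_lit 0) (nat_lit 3314452792) (nat_lit 912) (nat_lit 3216328300) (nat_lit 76) (nat_lit 14030291592) (nat_lit 394) (nat_lit 5) (nat_lit 406) (nat_lit 5) (nat_lit 395) (nat_lit 5) (nat_lit 619) (nat_lit 582) (nat_lit 359))) (XT.nd (nat_lit 78) (nat_lit 0) (nat_lit 0) (XT.lf (nat_lit 0) (nat_lit 5939594467) (nat_lit 912) (nat_lit 12376489979) (nat_lit 76) (nat_lit 2471113155) (nat_lit 383) (nat_lit 5) (nat_lit 395) (nat_lit 5) (nat_lit 384) (nat_lit 5) (nat_lit 620) (nat_lit 582) (nat_lit 358)) (XT.lf (nat_lit 0) (nat_lit 8677487996) (nat_lit 912) (nat_lit 751903210) (nat_lit 76) (nat_lit 11587248955) (nat_lit 383) (nat_lit 5) (nat_lit 395) (nat_lit 5) (nat_lit 384) (nat_lit 5) (nat_lit 621) (nat_lit 582)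 (nat_lit 357))))) (XT.nd (nat_lit 312) (nat_lit 1520) (nat_lit 0) (XT.nd (nat_lit 156) (nat_lit 760) (nat_lit 0) (XT.nd (nat_lit 78) (nat_lit 760) (nat_lit 0) (XT.lf (nat_lit 0) (nat_lit 11247810828) (nat_lit 760) (nat_lit 290722133) (nat_lit 836) (nat_lit 9710770865) (nat_lit 373) (nat_lit 5) (nat_lit 383) (nat_lit 5) (nat_lit 384) (nat_lit 5) (nat_lit 622) (nat_lit 582) (nat_lit 356)) (XT.lf (nat_lit 0) (nat_lit 1973467828) (nat_lit 760) (nat_lit 12555279496) (nat_lit 836) (nat_lit 6956434590) (nat_lit 363) (nat_lit 5) (nat_lit 373) (nat_lit 5) (nat_lit 374) (nat_lit 5) (nat_lit 623) (nat_lit 582) (nat_lit 355))) (XT.nd (nat_lit 78) (nat_lit 760) (nat_lit 0) (XT.lf (nat_lit 0) (nat_lit 14316643080) (nat_lit 760) (nat_lit 3326631638) (nat_lit 836) (nat_lit 4081212790) (nat_lit 363) (nat_lit 5) (nat_lit 373) (nat_lit 5) (nat_lit 374) (nat_lit 5) (nat_lit 624) (nat_lit 582) (nat_lit 354)) (XT.lf (nat_lit 0) (nat_lit 4958722168) (nat_lit 760) (nat_lit 15928650941)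 (nat_lit 836) (nat_lit 1079860612) (nat_lit 353) (nat_lit 5) (nat_lit 363) (nat_lit 5) (nat_lit 364) (nat_lit 5) (nat_lit 625) (nat_lit 582) (nat_lit 353)))) (XT.nd (nat_lit 156) (nat_lit 684) (nat_lit 0) (XT.nd (nat_lit 78) (nat_lit 760) (nat_lit 0) (XT.lf (nat_lit 0) (nat_lit 2023194248) (nat_lit 836) (nat_lit 4580953758) (nat_lit 76) (nat_lit 15609076385) (nat_lit 352) (nat_lit 5) (nat_lit 363) (nat_lit 5) (nat_lit 353) (nat_lit 5) (nat_lit 626) (nat_lit 582) (nat_lit 352)) (XT.lf (nat_lit 0) (nat_lit 5241992204) (nat_lit 836) (nat_lit 14291685976) (nat_lit 76) (nat_lit 2928951220) (nat_lit 342) (nat_lit 5) (nat_lit 353) (nat_lit 5) (nat_lit 343) (nat_lit 5) (nat_lit 627) (nat_lit 582) (nat_lit 351))) (XT.nd (nat_lit 78) (nat_lit 684) (nat_lit 0) (XT.lf (nat_lit 0) (nat_lit 8595576145) (nat_lit 836) (nat_lit 1525249769) (nat_lit 76) (nat_lit 12594788501) (nat_lit 342) (nat_lit 5) (nat_lit 353) (nat_lit 5) (nat_lit 343) (nat_lit 5) (nat_lit 628) (nat_lit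 582) (nat_lit 350)) (XT.lf (nat_lit 0) (nat_lit 11644452884) (nat_lit 684) (nat_lit 443195878) (nat_lit 760) (nat_lit 10884582134) (nat_lit 333) (nat_lit 5) (nat_lit 342) (nat_lit 5) (nat_lit 343) (nat_lit 5) (nat_lit 629) (nat_lit 582) (nat_lit 349)))))) (XT.nd (nat_lit 624) (nat_lit 2508) (nat_lit 0) (XT.nd (nat_lit 312) (nat_lit 1900) (nat_lit 0) (XT.nd (nat_lit 156) (nat_lit 760) (nat_lit 0) (XT.nd (nat_lit 78) (nat_lit 0) (nat_lit 0) (XT.lf (nat_lit 0) (nat_lit 1822239489) (nat_lit 684) (nat_lit 13906531029) (nat_lit 760) (nat_lit 7503625138) (nat_lit 324) (nat_lit 5) (nat_lit 333) (nat_lit 5) (nat_lit 334) (nat_lit 5) (nat_lit 630) (nat_lit 582) (nat_lit 348)) (XT.lf (nat_lit 0) (nat_lit 15381037313) (nat_lit 684) (nat_lit 4136519272) (nat_lit 760) (nat_lit 3978710390) (nat_lit 324) (nat_lit 5) (nat_lit 333) (nat_lit 5) (nat_lit 334) (nat_lit 5) (nat_lit 631) (nat_lit 582) (nat_lit 347))) (XT.nd (nat_lit 78) (nat_lit 76) (nat_lit 0) (XT.lf (nat_lit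 0) (nat_lit 5474774302) (nat_lit 684) (nat_lit 17976721413) (nat_lit 760) (nat_lit 312532559) (nat_lit 315) (nat_lit 5) (nat_lit 324) (nat_lit 5) (nat_lit 325) (nat_lit 5) (nat_lit 632) (nat_lit 582) (nat_lit 346)) (XT.lf (nat_lit 0) (nat_lit 3460243744) (nat_lit 760) (nat_lit 4644278585) (nat_lit 76) (nat_lit 15930613155) (nat_lit 314) (nat_lit 5) (nat_lit 324) (nat_lit 5) (nat_lit 315) (nat_lit 5) (nat_lit 633) (nat_lit 582) (nat_lit 345)))) (XT.nd (nat_lit 156) (nat_lit 1216) (nat_lit 0) (XT.nd (nat_lit 78) (nat_lit 0) (nat_lit 0) (XT.lf (nat_lit 0) (nat_lit 7374518004) (nat_lit 760) (nat_lit 14933682217) (nat_lit 76) (nat_lit 2002018852) (nat_lit 305) (nat_lit 5) (nat_lit 315) (nat_lit 5) (nat_lit 306) (nat_lit 5) (nat_lit 634) (nat_lit 582) (nat_lit 344)) (XT.lf (nat_lit 0) (nat_lit 11448249398) (nat_lit 760) (nat_lit 908084220) (nat_lit 76) (nat_lit 12232847372) (nat_lit 305) (nat_lit 5) (nat_lit 315) (nat_lit 5) (nat_lit 306) (nat_lit 5) (nat_lit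 635) (nat_lit 582) (nat_lit 343))) (XT.nd (nat_lit 78) (nat_lit 608) (nat_lit 0) (XT.lf (nat_lit 0) (nat_lit 13571362184) (nat_lit 608) (nat_lit 2116410823) (nat_lit 684) (nat_lit 9184262877) (nat_lit 297) (nat_lit 5) (nat_lit 305) (nat_lit 5) (nat_lit 306) (nat_lit 5) (nat_lit 636) (nat_lit 582) (nat_lit 342)) (XT.lf (nat_lit 0) (nat_lit 3175116525) (nat_lit 608) (nat_lit 16914034590) (nat_lit 684) (nat_lit 5069855569) (nat_lit 289) (nat_lit 5) (nat_lit 297) (nat_lit 5) (nat_lit 298) (nat_lit 5) (nat_lit 637) (nat_lit 582) (nat_lit 341))))) (XT.nd (nat_lit 312) (nat_lit 1216) (nat_lit 0) (XT.nd (nat_lit 156) (nat_lit 608) (nat_lit 0) (XT.nd (nat_lit 78) (nat_lit 684) (nat_lit 0) (XT.lf (nat_lit 0) (nat_lit 18074741546) (nat_lit 608) (nat_lit 6589857944) (nat_lit 684) (nat_lit 785396642) (nat_lit 289) (nat_lit 5) (nat_lit 297) (nat_lit 5) (nat_lit 298) (nat_lit 5) (nat_lit 638) (nat_lit 582) (nat_lit 340)) (XT.lf (nat_lit 0) (nat_lit 3609458536) (nat_lit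 684) (nat_lit 18174188364) (nat_lit 76) (nat_lit 3961258626) (nat_lit 280) (nat_lit 5) (nat_lit 289) (nat_lit 5) (nat_lit 281) (nat_lit 5) (nat_lit 639) (nat_lit 582) (nat_lit 339))) (XT.nd (nat_lit 78) (nat_lit 608) (nat_lit 0) (XT.lf (nat_lit 0) (nat_lit 8171535161) (nat_lit 684) (nat_lit 3182967574) (nat_lit 76) (nat_lit 14689309808) (nat_lit 280) (nat_lit 5) (nat_lit 289) (nat_lit 5) (nat_lit 281) (nat_lit 5) (nat_lit 640) (nat_lit 582) (nat_lit 338)) (XT.lf (nat_lit 0) (nat_lit 12264362577) (nat_lit 608) (nat_lit 636560225) (nat_lit 684) (nat_lit 13446253590) (nat_lit 272) (nat_lit 5) (nat_lit 280) (nat_lit 5) (nat_lit 281) (nat_lit 5) (nat_lit 641) (nat_lit 582) (nat_lit 337)))) (XT.nd (nat_lit 156) (nat_lit 684) (nat_lit 0) (XT.nd (nat_lit 78) (nat_lit 0) (nat_lit 0) (XT.lf (nat_lit 0) (nat_lit 1353773516) (nat_lit 532) (nat_lit 16464736750) (nat_lit 608) (nat_lit 8836225087) (nat_lit 265) (nat_lit 5) (nat_lit 272) (nat_lit 5) (nat_lit 273) (nat_lit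 5) (nat_lit 642) (nat_lit 582) (nat_lit 336)) (XT.lf (nat_lit 0) (nat_lit 17281149239) (nat_lit 532) (nat_lit 5648505545) (nat_lit 608) (nat_lit 4036886680) (nat_lit 265) (nat_lit 5) (nat_lit 272) (nat_lit 5) (nat_lit 273) (nat_lit 5) (nat_lit 643) (nat_lit 582) (nat_lit 335))) (XT.nd (nat_lit 78) (nat_lit 0) (nat_lit 0) (XT.lf (nat_lit 0) (nat_lit 920000687) (nat_lit 684) (nat_lit 21003763037) (nat_lit 76) (nat_lit 5359252161) (nat_lit 256) (nat_lit 5) (nat_lit 265) (nat_lit 5) (nat_lit 257) (nat_lit 5) (nat_lit 644) (nat_lit 582) (nat_lit 334)) (XT.lf (nat_lit 0) (nat_lit 6021445377) (nat_lit 684) (nat_lit 4979168562) (nat_lit 76) (nat_lit 16602682782) (nat_lit 256) (nat_lit 5) (nat_lit 265) (nat_lit 5) (nat_lit 257) (nat_lit 5) (nat_lit 645) (nat_lit 582) (nat_lit 333))))))))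
noncomputable def xc180 : XT := (XT.nd (nat_lit 2418) (nat_lit 2128) (nat_lit 0) (XT.nd (nat_lit 1170) (nat_lit 3952) (nat_lit 0) (XT.nd (nat_lit 546) (nat_lit 2356) (nat_lit 0) (XT.nd (nat_lit 234) (nat_lit 1064) (nat_lit 0) (XT.nd (nat_lit 78) (nat_lit 532) (nat_lit 0) (XT.lf (nat_lit 0) (nat_lit 11297726498) (nat_lit 608) (nat_lit 16417518908) (nat_lit 76) (nat_lit 213281687) (nat_lit 249) (nat_lit 5) (nat_lit 257) (nat_lit 5) (nat_lit 250) (nat_lit 5) (nat_lit 646) (nat_lit 582) (nat_lit 332)) (XT.nd (nat_lit 78) (nat_lit 0) (nat_lit 0) (XT.lf (nat_lit 0) (nat_lit 62134931) (nat_lit 532) (nat_lit 16720974950) (nat_lit 608) (nat_lit 11475080728) (nat_lit 242) (nat_lit 5) (nat_lit 249) (nat_lit 5) (nat_lit 250) (nat_lit 5) (nat_lit 647) (nat_lit 582) (nat_lit 331)) (XT.lf (nat_lit 0) (nat_lit 17089459669) (nat_lit 532) (nat_lit 5395634767) (nat_lit 608) (nat_lit 6107215158) (nat_lit 242) (nat_lit 5) (nat_lit 249) (nat_lit 5) (nat_lit 250) (nat_lit 5)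 (nat_lit 648) (nat_lit 582) (nat_lit 330)))) (XT.nd (nat_lit 156) (nat_lit 532) (nat_lit 0) (XT.nd (nat_lit 78) (nat_lit 76) (nat_lit 0) (XT.lf (nat_lit 0) (nat_lit 5552638433) (nat_lit 456) (nat_lit 22821281862) (nat_lit 532) (nat_lit 557734697) (nat_lit 236) (nat_lit 5) (nat_lit 242) (nat_lit 5) (nat_lit 243) (nat_lit 5) (nat_lit 649) (nat_lit 582) (nat_lit 329)) (XT.lf (nat_lit 0) (nat_lit 5146039491) (nat_lit 532) (nat_lit 6244905641) (nat_lit 76) (nat_lit 17883975076) (nat_lit 235) (nat_lit 5) (nat_lit 242) (nat_lit 5) (nat_lit 236) (nat_lit 5) (nat_lit 650) (nat_lit 582) (nat_lit 328))) (XT.nd (nat_lit 78) (nat_lit 0) (nat_lit 0) (XT.lf (nat_lit 0) (nat_lit 11029370907) (nat_lit 608) (nat_lit 18252817271) (nat_lit 76) (nat_lit 341329885) (nat_lit 228) (nat_lit 5) (nat_lit 236) (nat_lit 5) (nat_lit 229) (nat_lit 5) (nat_lit 651) (nat_lit 582) (nat_lit 327)) (XT.lf (nat_lit 0) (nat_lit 17144871614) (nat_lit 608) (nat_lit 635080353) (nat_lit 76) (nat_lit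 12196845916) (nat_lit 228) (nat_lit 5) (nat_lit 236) (nat_lit 5) (nat_lit 229) (nat_lit 5) (nat_lit 652) (nat_lit 582) (nat_lit 326))))) (XT.nd (nat_lit 312) (nat_lit 912) (nat_lit 0) (XT.nd (nat_lit 156) (nat_lit 532) (nat_lit 0) (XT.nd (nat_lit 78) (nat_lit 456) (nat_lit 0) (XT.lf (nat_lit 0) (nat_lit 17561026288) (nat_lit 456) (nat_lit 5932616828) (nat_lit 532) (nat_lit 6841281028) (nat_lit 222) (nat_lit 5) (nat_lit 228) (nat_lit 5) (nat_lit 229) (nat_lit 5) (nat_lit 653) (nat_lit 582) (nat_lit 325)) (XT.lf (nat_lit 0) (nat_lit 5456808973) (nat_lit 456) (nat_lit 24589207984) (nat_lit 532) (nat_lit 652663494) (nat_lit 216) (nat_lit 5) (nat_lit 222) (nat_lit 5) (nat_lit 223) (nat_lit 5) (nat_lit 654) (nat_lit 582) (nat_lit 324))) (XT.nd (nat_lit 78) (nat_lit 456) (nat_lit 0) (XT.lf (nat_lit 0) (nat_lit 5708052857) (nat_lit 532) (nat_lit 6923654182) (nat_lit 76) (nat_lit 18434818872) (nat_lit 215) (nat_lit 5) (nat_lit 222) (nat_lit 5) (nat_lit 216) (nat_lit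 5) (nat_lit 655) (nat_lit 582) (nat_lit 323)) (XT.lf (nat_lit 0) (nat_lit 11908535867) (nat_lit 456) (nat_lit 353072716) (nat_lit 532) (nat_lit 19178546187) (nat_lit 209) (nat_lit 5) (nat_lit 215) (nat_lit 5) (nat_lit 216) (nat_lit 5) (nat_lit 656) (nat_lit 582) (nat_lit 322)))) (XT.nd (nat_lit 156) (nat_lit 456) (nat_lit 0) (XT.nd (nat_lit 78) (nat_lit 456) (nat_lit 0) (XT.lf (nat_lit 0) (nat_lit 19069087749) (nat_lit 532) (nat_lit 692710301) (nat_lit 76) (nat_lit 12057001166) (nat_lit 209) (nat_lit 5) (nat_lit 216) (nat_lit 5) (nat_lit 210) (nat_lit 5) (nat_lit 657) (nat_lit 582) (nat_lit 321)) (XT.lf (nat_lit 0) (nat_lit 18762521673) (nat_lit 456) (nat_lit 7371469625) (nat_lit 532) (nat_lit 6068599808) (nat_lit 203) (nat_lit 5) (nat_lit 209) (nat_lit 5) (nat_lit 210) (nat_lit 5) (nat_lit 658) (nat_lit 582) (nat_lit 320))) (XT.nd (nat_lit 78) (nat_lit 0) (nat_lit 0) (XT.lf (nat_lit 0) (nat_lit 812227692) (nat_lit 456) (nat_lit 26534527361) (nat_lit 76)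 (nat_lit 5245689361) (nat_lit 197) (nat_lit 5) (nat_lit 203) (nat_lit 5) (nat_lit 198) (nat_lit 5) (nat_lit 659) (nat_lit 582) (nat_lit 319)) (XT.lf (nat_lit 0) (nat_lit 7886242997) (nat_lit 456) (nat_lit 6954070087) (nat_lit 76) (nat_lit 18146242888) (nat_lit 197) (nat_lit 5) (nat_lit 203) (nat_lit 5) (nat_lit 198) (nat_lit 5) (nat_lit 660) (nat_lit 582) (nat_lit 318)))))) (XT.nd (nat_lit 624) (nat_lit 1824) (nat_lit 0) (XT.nd (nat_lit 312) (nat_lit 836) (nat_lit 0) (XT.nd (nat_lit 156) (nat_lit 836) (nat_lit 0) (XT.nd (nat_lit 78) (nat_lit 0) (nat_lit 0) (XT.lf (nat_lit 0) (nat_lit 13186804745) (nat_lit 456) (nat_lit 1997756194) (nat_lit 532) (nat_lit 18202332426) (nat_lit 191) (nat_lit 5) (nat_lit 197) (nat_lit 5) (nat_lit 198) (nat_lit 5) (nat_lit 661) (nat_lit 582) (nat_lit 317)) (XT.lf (nat_lit 0) (nat_lit 22745123270) (nat_lit 532) (nat_lit 46089534) (nat_lit 76) (nat_lit 11001699189) (nat_lit 191) (nat_lit 5) (nat_lit 198) (nat_lit 5) (nat_lit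 192) (nat_lit 5) (nat_lit 662) (nat_lit 582) (nat_lit 316))) (XT.nd (nat_lit 78) (nat_lit 456) (nat_lit 0) (XT.lf (nat_lit 0) (nat_lit 20766032818) (nat_lit 380) (nat_lit 9836199717) (nat_lit 456) (nat_lit 3601911794) (nat_lit 186) (nat_lit 5) (nat_lit 191) (nat_lit 5) (nat_lit 192) (nat_lit 5) (nat_lit 663) (nat_lit 582) (nat_lit 315)) (XT.lf (nat_lit 0) (nat_lit 4008829586) (nat_lit 456) (nat_lit 27205603021) (nat_lit 76) (nat_lit 3407283974) (nat_lit 180) (nat_lit 5) (nat_lit 186) (nat_lit 5) (nat_lit 181) (nat_lit 5) (nat_lit 664) (nat_lit 582) (nat_lit 314)))) (XT.nd (nat_lit 156) (nat_lit 456) (nat_lit 0) (XT.nd (nat_lit 78) (nat_lit 380) (nat_lit 0) (XT.lf (nat_lit 0) (nat_lit 11876821410) (nat_lit 456) (nat_lit 6269951799) (nat_lit 76) (nat_lit 16897325639) (nat_lit 180) (nat_lit 5) (nat_lit 186) (nat_lit 5) (nat_lit 181) (nat_lit 5) (nat_lit 665) (nat_lit 582) (nat_lit 313)) (XT.lf (nat_lit 0) (nat_lit 15280799336) (nat_lit 380) (nat_lit 4717945383)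 (nat_lit 456) (nat_lit 15474252652) (nat_lit 175) (nat_lit 5) (nat_lit 180) (nat_lit 5) (nat_lit 181) (nat_lit 5) (nat_lit 666) (nat_lit 582) (nat_lit 312))) (XT.nd (nat_lit 78) (nat_lit 76) (nat_lit 0) (XT.lf (nat_lit 0) (nat_lit 1393581337) (nat_lit 380) (nat_lit 26996602569) (nat_lit 456) (nat_lit 7518148452) (nat_lit 170) (nat_lit 5) (nat_lit 175) (nat_lit 5) (nat_lit 176) (nat_lit 5) (nat_lit 667) (nat_lit 582) (nat_lit 311)) (XT.lf (nat_lit 0) (nat_lit 754272930) (nat_lit 456) (nat_lit 12704944523) (nat_lit 76) (nat_lit 22889778583) (nat_lit 169) (nat_lit 5) (nat_lit 175) (nat_lit 5) (nat_lit 170) (nat_lit 5) (nat_lit 668) (nat_lit 582) (nat_lit 310))))) (XT.nd (nat_lit 312) (nat_lit 760) (nat_lit 0) (XT.nd (nat_lit 156) (nat_lit 684) (nat_lit 0) (XT.nd (nat_lit 78) (nat_lit 0) (nat_lit 0) (XT.lf (nat_lit 0) (nat_lit 9154419522) (nat_lit 456) (nat_lit 27185898620) (nat_lit 76) (nat_lit 455902094) (nat_lit 164) (nat_lit 5) (nat_lit 170) (nat_lit 5)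 (nat_lit 165) (nat_lit 5) (nat_lit 669) (nat_lit 582) (nat_lit 309)) (XT.lf (nat_lit 0) (nat_lit 17894974887) (nat_lit 456) (nat_lit 4800255270) (nat_lit 76) (nat_lit 14553710683) (nat_lit 164) (nat_lit 5) (nat_lit 170) (nat_lit 5) (nat_lit 165) (nat_lit 5) (nat_lit 670) (nat_lit 582) (nat_lit 308))) (XT.nd (nat_lit 78) (nat_lit 304) (nat_lit 0) (XT.lf (nat_lit 0) (nat_lit 18268792654) (nat_lit 380) (nat_lit 8657662288) (nat_lit 456) (nat_lit 10781938683) (nat_lit 159) (nat_lit 5) (nat_lit 164) (nat_lit 5) (nat_lit 165) (nat_lit 5) (nat_lit 671) (nat_lit 582) (nat_lit 307)) (XT.lf (nat_lit 0) (nat_lit 3695478316) (nat_lit 304) (nat_lit 32533773233) (nat_lit 380) (nat_lit 1945970215) (nat_lit 155) (nat_lit 5) (nat_lit 159) (nat_lit 5) (nat_lit 160) (nat_lit 5) (nat_lit 672) (nat_lit 582) (nat_lit 306)))) (XT.nd (nat_lit 156) (nat_lit 304) (nat_lit 0) (XT.nd (nat_lit 78) (nat_lit 380) (nat_lit 0) (XT.lf (nat_lit 0) (nat_lit 7160207963) (nat_lit 380) (nat_lit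 11200019292) (nat_lit 76) (nat_lit 20286518180) (nat_lit 154) (nat_lit 5) (nat_lit 159) (nat_lit 5) (nat_lit 155) (nat_lit 5) (nat_lit 673) (nat_lit 582) (nat_lit 305)) (XT.lf (nat_lit 0) (nat_lit 12695058450) (nat_lit 380) (nat_lit 3807414636) (nat_lit 456) (nat_lit 22623368874) (nat_lit 149) (nat_lit 5) (nat_lit 154) (nat_lit 5) (nat_lit 155) (nat_lit 5) (nat_lit 674) (nat_lit 582) (nat_lit 304))) (XT.nd (nat_lit 78) (nat_lit 304) (nat_lit 0) (XT.lf (nat_lit 0) (nat_lit 26176479646) (nat_lit 456) (nat_lit 2469179271) (nat_lit 76) (nat_lit 10965963611) (nat_lit 149) (nat_lit 5) (nat_lit 155) (nat_lit 5) (nat_lit 150) (nat_lit 5) (nat_lit 675) (nat_lit 582) (nat_lit 303)) (XT.lf (nat_lit 0) (nat_lit 22234259228) (nat_lit 304) (nat_lit 13976913091) (nat_lit 380) (nat_lit 3892602302) (nat_lit 145) (nat_lit 5) (nat_lit 149) (nat_lit 5) (nat_lit 150) (nat_lit 5) (nat_lit 676) (nat_lit 582) (nat_lit 302))))))) (XT.nd (nat_lit 74256) (nat_lit 0) (nat_lit 28120)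 (XT.nd (nat_lit 546) (nat_lit 684) (nat_lit 0) (XT.nd (nat_lit 234) (nat_lit 684) (nat_lit 0) (XT.nd (nat_lit 78) (nat_lit 304) (nat_lit 0) (XT.lf (nat_lit 0) (nat_lit 5830404527) (nat_lit 456) (nat_lit 33702296081) (nat_lit 76) (nat_lit 1070986369) (nat_lit 139) (nat_lit 5) (nat_lit 145) (nat_lit 5) (nat_lit 140) (nat_lit 5) (nat_lit 677) (nat_lit 582) (nat_lit 301)) (XT.nd (nat_lit 78) (nat_lit 304) (nat_lit 0) (XT.lf (nat_lit 0) (nat_lit 15906719311) (nat_lit 456) (nat_lit 8824201823) (nat_lit 76) (nat_lit 16377942481) (nat_lit 139) (nat_lit 5) (nat_lit 145) (nat_lit 5) (nat_lit 140) (nat_lit 5) (nat_lit 678) (nat_lit 582) (nat_lit 300)) (XT.lf (nat_lit 0) (nat_lit 16767630967) (nat_lit 304) (nat_lit 9523492786) (nat_lit 380) (nat_lit 15330888797) (nat_lit 135) (nat_lit 5) (nat_lit 139) (nat_lit 5) (nat_lit 140) (nat_lit 5) (nat_lit 679) (nat_lit 582) (nat_lit 299)))) (XT.nd (nat_lit 156) (nat_lit 304) (nat_lit 0) (XT.nd (nat_lit 78) (nat_lit 76) (nat_lit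 0) (XT.lf (nat_lit 0) (nat_lit 814338363) (nat_lit 304) (nat_lit 36170359544) (nat_lit 380) (nat_lit 5158696956) (nat_lit 131) (nat_lit 5) (nat_lit 135) (nat_lit 5) (nat_lit 136) (nat_lit 5) (nat_lit 680) (nat_lit 582) (nat_lit 298)) (XT.lf (nat_lit 0) (nat_lit 5377191940) (nat_lit 380) (nat_lit 15440326024) (nat_lit 76) (nat_lit 21852435966) (nat_lit 130) (nat_lit 5) (nat_lit 135) (nat_lit 5) (nat_lit 131) (nat_lit 5) (nat_lit 681) (nat_lit 582) (nat_lit 297))) (XT.nd (nat_lit 78) (nat_lit 0) (nat_lit 0) (XT.lf (nat_lit 0) (nat_lit 11073569464) (nat_lit 304) (nat_lit 5050874838) (nat_lit 380) (nat_lit 27080523513) (nat_lit 126) (nat_lit 5) (nat_lit 130) (nat_lit 5) (nat_lit 131) (nat_lit 5) (nat_lit 682) (nat_lit 582) (nat_lit 296)) (XT.lf (nat_lit 0) (nat_lit 27260331854) (nat_lit 380) (nat_lit 5497565419) (nat_lit 76) (nat_lit 10989310930) (nat_lit 126) (nat_lit 5) (nat_lit 131) (nat_lit 5) (nat_lit 127) (nat_lit 5) (nat_lit 683) (nat_lit 582) (nat_lit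 295))))) (XT.nd (nat_lit 73398) (nat_lit 0) (nat_lit 29564) (XT.nd (nat_lit 156) (nat_lit 0) (nat_lit 0) (XT.nd (nat_lit 78) (nat_lit 380) (nat_lit 0) (XT.lf (nat_lit 0) (nat_lit 21919354435) (nat_lit 304) (nat_lit 16873160962) (nat_lit 380) (nat_lit 5504306467) (nat_lit 122) (nat_lit 5) (nat_lit 126) (nat_lit 5) (nat_lit 127) (nat_lit 5) (nat_lit 684) (nat_lit 582) (nat_lit 294)) (XT.lf (nat_lit 0) (nat_lit 5128848754) (nat_lit 304) (nat_lit 562591557) (nat_lit 380) (nat_lit 39163882529) (nat_lit 117) (nat_lit 5) (nat_lit 121) (nat_lit 5) (nat_lit 122) (nat_lit 5) (nat_lit 685) (nat_lit 582) (nat_lit 293))) (XT.nd (nat_lit 73164) (nat_lit 0) (nat_lit 29564) (XT.lf (nat_lit 0) (nat_lit 17290820604) (nat_lit 380) (nat_lit 12078809784) (nat_lit 76) (nat_lit 16049567379) (nat_lit 117) (nat_lit 5) (nat_lit 122) (nat_lit 5) (nat_lit 118) (nat_lit 5) (nat_lit 686) (nat_lit 582) (nat_lit 292)) (XT.lf (nat_lit 0) (nat_lit 1728358856) (nat_lit 0) (nat_lit 1728358856)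 (nat_lit 1748) (nat_lit 3721910435) (nat_lit 506) (nat_lit 5) (nat_lit 506) (nat_lit 3) (nat_lit 529) (nat_lit 3) (nat_lit 583) (nat_lit 583) (nat_lit 394)))) (XT.nd (nat_lit 156) (nat_lit 0) (nat_lit 76) (XT.nd (nat_lit 78) (nat_lit 0) (nat_lit 0) (XT.lf (nat_lit 0) (nat_lit 7332404795) (nat_lit 1748) (nat_lit 3770662905) (nat_lit 1824) (nat_lit 3390754281) (nat_lit 506) (nat_lit 5) (nat_lit 529) (nat_lit 3) (nat_lit 530) (nat_lit 5) (nat_lit 584) (nat_lit 583) (nat_lit 393)) (XT.lf (nat_lit 76) (nat_lit 3520595802) (nat_lit 0) (nat_lit 4276344691) (nat_lit 1824) (nat_lit 6835435015) (nat_lit 507) (nat_lit 5) (nat_lit 506) (nat_lit 5) (nat_lit 530) (nat_lit 5) (nat_lit 585) (nat_lit 583) (nat_lit 392))) (XT.nd (nat_lit 78) (nat_lit 0) (nat_lit 0) (XT.lf (nat_lit 0) (nat_lit 8305284168) (nat_lit 1748) (nat_lit 3786675256) (nat_lit 1824) (nat_lit 2681050598) (nat_lit 507) (nat_lit 5) (nat_lit 530) (nat_lit 5) (nat_lit 531) (nat_lit 5) (nat_lit 586) (nat_lit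 583) (nat_lit 391)) (XT.lf (nat_lit 76) (nat_lit 3700575782) (nat_lit 0) (nat_lit 5167331708) (nat_lit 1824) (nat_lit 6047667737) (nat_lit 508) (nat_lit 5) (nat_lit 507) (nat_lit 5) (nat_lit 531) (nat_lit 5) (nat_lit 587) (nat_lit 583) (nat_lit 390)))))) (XT.nd (nat_lit 624) (nat_lit 1596) (nat_lit 0) (XT.nd (nat_lit 312) (nat_lit 0) (nat_lit 152) (XT.nd (nat_lit 156) (nat_lit 0) (nat_lit 76) (XT.nd (nat_lit 78) (nat_lit 0) (nat_lit 0) (XT.lf (nat_lit 0) (nat_lit 9471591996) (nat_lit 1748) (nat_lit 3688783721) (nat_lit 1824) (nat_lit 1900020097) (nat_lit 508) (nat_lit 5) (nat_lit 531) (nat_lit 5) (nat_lit 532) (nat_lit 5) (nat_lit 588) (nat_lit 583) (nat_lit 389)) (XT.lf (nat_lit 76) (nat_lit 4001585305) (nat_lit 0) (nat_lit 6138046114) (nat_lit 1824) (nat_lit 5067436016) (nat_lit 509) (nat_lit 5) (nat_lit 508) (nat_lit 5) (nat_lit 532) (nat_lit 5) (nat_lit 589) (nat_lit 583) (nat_lit 388))) (XT.nd (nat_lit 78) (nat_lit 0) (nat_lit 0) (XT.lf (nat_lit 0)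 (nat_lit 10844828176) (nat_lit 1748) (nat_lit 3472008616) (nat_lit 1824) (nat_lit 1039360007) (nat_lit 509) (nat_lit 5) (nat_lit 532) (nat_lit 5) (nat_lit 533) (nat_lit 5) (nat_lit 590) (nat_lit 583) (nat_lit 387)) (XT.lf (nat_lit 76) (nat_lit 4428886195) (nat_lit 0) (nat_lit 7197025394) (nat_lit 1824) (nat_lit 3881161744) (nat_lit 510) (nat_lit 5) (nat_lit 509) (nat_lit 5) (nat_lit 533) (nat_lit 5) (nat_lit 591) (nat_lit 583) (nat_lit 386)))) (XT.nd (nat_lit 156) (nat_lit 0) (nat_lit 0) (XT.nd (nat_lit 78) (nat_lit 0) (nat_lit 0) (XT.lf (nat_lit 0) (nat_lit 12439009055) (nat_lit 1748) (nat_lit 3131038490) (nat_lit 1824) (nat_lit 90592237) (nat_lit 510) (nat_lit 5) (nat_lit 533) (nat_lit 5) (nat_lit 534) (nat_lit 5) (nat_lit 592) (nat_lit 583) (nat_lit 385)) (XT.lf (nat_lit 76) (nat_lit 4988082405) (nat_lit 0) (nat_lit 8352997045) (nat_lit 1824) (nat_lit 2474744119) (nat_lit 511) (nat_lit 5) (nat_lit 510) (nat_lit 5) (nat_lit 534) (nat_lit 5) (nat_lit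 593) (nat_lit 583) (nat_lit 384))) (XT.nd (nat_lit 78) (nat_lit 0) (nat_lit 76) (XT.lf (nat_lit 76) (nat_lit 13307330970) (nat_lit 0) (nat_lit 967647196) (nat_lit 1824) (nat_lit 1698857350) (nat_lit 511) (nat_lit 5) (nat_lit 510) (nat_lit 5) (nat_lit 534) (nat_lit 5) (nat_lit 594) (nat_lit 583) (nat_lit 383)) (XT.lf (nat_lit 76) (nat_lit 5685128635) (nat_lit 0) (nat_lit 9614898572) (nat_lit 1824) (nat_lit 833531268) (nat_lit 512) (nat_lit 5) (nat_lit 511) (nat_lit 5) (nat_lit 535) (nat_lit 5) (nat_lit 595) (nat_lit 583) (nat_lit 382))))) (XT.nd (nat_lit 312) (nat_lit 0) (nat_lit 152) (XT.nd (nat_lit 156) (nat_lit 0) (nat_lit 76) (XT.nd (nat_lit 78) (nat_lit 0) (nat_lit 76) (XT.lf (nat_lit 0) (nat_lit 65873044) (nat_lit 1824) (nat_lit 2067848551) (nat_lit 1900) (nat_lit 14162399818) (nat_lit 487) (nat_lit 5) (nat_lit 511) (nat_lit 5) (nat_lit 512) (nat_lit 5) (nat_lit 596) (nat_lit 583) (nat_lit 381)) (XT.lf (nat_lit 0) (nat_lit 1043836934) (nat_lit 1824)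 (nat_lit 9941056036) (nat_lit 1900) (nat_lit 5475498004) (nat_lit 488) (nat_lit 5) (nat_lit 512) (nat_lit 5) (nat_lit 513) (nat_lit 5) (nat_lit 597) (nat_lit 583) (nat_lit 380))) (XT.nd (nat_lit 78) (nat_lit 0) (nat_lit 76) (XT.lf (nat_lit 0) (nat_lit 2062709125) (nat_lit 1824) (nat_lit 1340446348) (nat_lit 1900) (nat_lit 13224363676) (nat_lit 488) (nat_lit 5) (nat_lit 512) (nat_lit 5) (nat_lit 513) (nat_lit 5) (nat_lit 598) (nat_lit 583) (nat_lit 379)) (XT.lf (nat_lit 0) (nat_lit 3172656256) (nat_lit 1824) (nat_lit 9299466143) (nat_lit 1900) (nat_lit 4324453736) (nat_lit 489) (nat_lit 5) (nat_lit 513) (nat_lit 5) (nat_lit 514) (nat_lit 5) (nat_lit 599) (nat_lit 583) (nat_lit 378)))) (XT.nd (nat_lit 156) (nat_lit 0) (nat_lit 76) (XT.nd (nat_lit 78) (nat_lit 0) (nat_lit 76) (XT.lf (nat_lit 0) (nat_lit 4329887738) (nat_lit 1824) (nat_lit 466707501) (nat_lit 1900) (nat_lit 12171917508) (nat_lit 489) (nat_lit 5) (nat_lit 513) (nat_lit 5) (nat_lit 514) (nat_lit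 5) (nat_lit 600) (nat_lit 583) (nat_lit 377)) (XT.lf (nat_lit 0) (nat_lit 5580126438) (nat_lit 1824) (nat_lit 8511560831) (nat_lit 1900) (nat_lit 3050803761) (nat_lit 490) (nat_lit 5) (nat_lit 514) (nat_lit 5) (nat_lit 515) (nat_lit 5) (nat_lit 601) (nat_lit 583) (nat_lit 376))) (XT.nd (nat_lit 78) (nat_lit 0) (nat_lit 76) (XT.lf (nat_lit 76) (nat_lit 567747719) (nat_lit 0) (nat_lit 6319951756) (nat_lit 1900) (nat_lit 10431603000) (nat_lit 491) (nat_lit 5) (nat_lit 490) (nat_lit 5) (nat_lit 515) (nat_lit 5) (nat_lit 602) (nat_lit 583) (nat_lit 375)) (XT.lf (nat_lit 0) (nat_lit 8283179976) (nat_lit 1824) (nat_lit 7570275688) (nat_lit 1900) (nat_lit 1644959547) (nat_lit 491) (nat_lit 5) (nat_lit 515) (nat_lit 5) (nat_lit 516) (nat_lit 5) (nat_lit 603) (nat_lit 583) (nat_lit 374))))))))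
noncomputable def xc181 : XT := (XT.nd (nat_lit 2418) (nat_lit 10184) (nat_lit 0) (XT.nd (nat_lit 1170) (nat_lit 6992) (nat_lit 0) (XT.nd (nat_lit 546) (nat_lit 3572) (nat_lit 0) (XT.nd (nat_lit 234) (nat_lit 2888) (nat_lit 0) (XT.nd (nat_lit 78) (nat_lit 0) (nat_lit 76) (XT.lf (nat_lit 76) (nat_lit 1771127771) (nat_lit 0) (nat_lit 7982742267) (nat_lit 1900) (nat_lit 7926294346) (nat_lit 492) (nat_lit 5) (nat_lit 491) (nat_lit 5) (nat_lit 516) (nat_lit 5) (nat_lit 604) (nat_lit 583) (nat_lit 373)) (XT.nd (nat_lit 78) (nat_lit 0) (nat_lit 0) (XT.lf (nat_lit 0) (nat_lit 11299446697) (nat_lit 1824) (nat_lit 6468157820) (nat_lit 1900) (nat_lit 97034743) (nat_lit 492) (nat_lit 5) (nat_lit 516) (nat_lit 5) (nat_lit 517) (nat_lit 5) (nat_lit 605) (nat_lit 583) (nat_lit 372)) (XT.lf (nat_lit 76) (nat_lit 3145047459) (nat_lit 0) (nat_lit 9798331007) (nat_lit 1900) (nat_lit 5108076468) (nat_lit 493) (nat_lit 5) (nat_lit 492) (nat_lit 5) (nat_lit 517) (nat_lit 5)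 (nat_lit 606) (nat_lit 583) (nat_lit 371)))) (XT.nd (nat_lit 156) (nat_lit 1216) (nat_lit 0) (XT.nd (nat_lit 78) (nat_lit 1748) (nat_lit 0) (XT.lf (nat_lit 76) (nat_lit 13033353377) (nat_lit 0) (nat_lit 1624481357) (nat_lit 1900) (nat_lit 3583419440) (nat_lit 493) (nat_lit 5) (nat_lit 492) (nat_lit 5) (nat_lit 517) (nat_lit 5) (nat_lit 607) (nat_lit 583) (nat_lit 370)) (XT.lf (nat_lit 0) (nat_lit 4697738399) (nat_lit 1824) (nat_lit 11777286687) (nat_lit 1900) (nat_lit 1958455580) (nat_lit 469) (nat_lit 5) (nat_lit 493) (nat_lit 5) (nat_lit 494) (nat_lit 5) (nat_lit 608) (nat_lit 583) (nat_lit 369))) (XT.nd (nat_lit 78) (nat_lit 1216) (nat_lit 0) (XT.lf (nat_lit 0) (nat_lit 14856350674) (nat_lit 1824) (nat_lit 3512282795) (nat_lit 1900) (nat_lit 260116897) (nat_lit 469) (nat_lit 5) (nat_lit 493) (nat_lit 5) (nat_lit 494) (nat_lit 5) (nat_lit 609) (nat_lit 583) (nat_lit 368)) (XT.lf (nat_lit 0) (nat_lit 1521615265) (nat_lit 1216) (nat_lit 12398710330) (nat_lit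 76) (nat_lit 4906034158) (nat_lit 453) (nat_lit 5) (nat_lit 469) (nat_lit 5) (nat_lit 454) (nat_lit 5) (nat_lit 610) (nat_lit 583) (nat_lit 367))))) (XT.nd (nat_lit 312) (nat_lit 1748) (nat_lit 0) (XT.nd (nat_lit 156) (nat_lit 912) (nat_lit 0) (XT.nd (nat_lit 78) (nat_lit 912) (nat_lit 0) (XT.lf (nat_lit 0) (nat_lit 3378837493) (nat_lit 1216) (nat_lit 2174622273) (nat_lit 76) (nat_lit 13473560559) (nat_lit 453) (nat_lit 5) (nat_lit 469) (nat_lit 5) (nat_lit 454) (nat_lit 5) (nat_lit 611) (nat_lit 583) (nat_lit 366)) (XT.lf (nat_lit 0) (nat_lit 5341889124) (nat_lit 988) (nat_lit 10891652383) (nat_lit 76) (nat_lit 2996779054) (nat_lit 441) (nat_lit 5) (nat_lit 454) (nat_lit 5) (nat_lit 442) (nat_lit 5) (nat_lit 612) (nat_lit 583) (nat_lit 365))) (XT.nd (nat_lit 78) (nat_lit 912) (nat_lit 0) (XT.lf (nat_lit 0) (nat_lit 7390443768) (nat_lit 988) (nat_lit 387439899) (nat_lit 76) (nat_lit 11658878441) (nat_lit 441) (nat_lit 5) (nat_lit 454) (nat_lit 5) (nat_lit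 442) (nat_lit 5) (nat_lit 613) (nat_lit 583) (nat_lit 364)) (XT.lf (nat_lit 0) (nat_lit 9548705509) (nat_lit 988) (nat_lit 9192772520) (nat_lit 76) (nat_lit 904479883) (nat_lit 429) (nat_lit 5) (nat_lit 442) (nat_lit 5) (nat_lit 430) (nat_lit 5) (nat_lit 614) (nat_lit 583) (nat_lit 363)))) (XT.nd (nat_lit 156) (nat_lit 912) (nat_lit 0) (XT.nd (nat_lit 78) (nat_lit 0) (nat_lit 0) (XT.lf (nat_lit 0) (nat_lit 1621480340) (nat_lit 836) (nat_lit 10188254873) (nat_lit 912) (nat_lit 8048410505) (nat_lit 418) (nat_lit 5) (nat_lit 429) (nat_lit 5) (nat_lit 430) (nat_lit 5) (nat_lit 615) (nat_lit 583) (nat_lit 362)) (XT.lf (nat_lit 0) (nat_lit 12771811915) (nat_lit 836) (nat_lit 1400878405) (nat_lit 912) (nat_lit 5900753003) (nat_lit 418) (nat_lit 5) (nat_lit 429) (nat_lit 5) (nat_lit 430) (nat_lit 5) (nat_lit 616) (nat_lit 583) (nat_lit 361))) (XT.nd (nat_lit 78) (nat_lit 0) (nat_lit 0) (XT.lf (nat_lit 0) (nat_lit 3848658716) (nat_lit 912) (nat_lit 12803448218)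 (nat_lit 988) (nat_lit 3639556035) (nat_lit 406) (nat_lit 5) (nat_lit 418) (nat_lit 5) (nat_lit 419) (nat_lit 5) (nat_lit 617) (nat_lit 583) (nat_lit 360)) (XT.lf (nat_lit 0) (nat_lit 15306740008) (nat_lit 912) (nat_lit 3927765895) (nat_lit 988) (nat_lit 1278673358) (nat_lit 406) (nat_lit 5) (nat_lit 418) (nat_lit 5) (nat_lit 419) (nat_lit 5) (nat_lit 618) (nat_lit 583) (nat_lit 359)))))) (XT.nd (nat_lit 624) (nat_lit 2964) (nat_lit 0) (XT.nd (nat_lit 312) (nat_lit 2280) (nat_lit 0) (XT.nd (nat_lit 156) (nat_lit 836) (nat_lit 0) (XT.nd (nat_lit 78) (nat_lit 0) (nat_lit 0) (XT.lf (nat_lit 0) (nat_lit 1184526404) (nat_lit 912) (nat_lit 14446123160) (nat_lit 76) (nat_lit 5106931541) (nat_lit 394) (nat_lit 5) (nat_lit 406) (nat_lit 5) (nat_lit 395) (nat_lit 5) (nat_lit 619) (nat_lit 583) (nat_lit 358)) (XT.lf (nat_lit 0) (nat_lit 3736371128) (nat_lit 912) (nat_lit 2915417056) (nat_lit 76) (nat_lit 14313383840) (nat_lit 394) (nat_lit 5) (nat_lit 406) (nat_lit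 5) (nat_lit 395) (nat_lit 5) (nat_lit 620) (nat_lit 583) (nat_lit 357))) (XT.nd (nat_lit 78) (nat_lit 0) (nat_lit 0) (XT.lf (nat_lit 0) (nat_lit 6409475041) (nat_lit 912) (nat_lit 12254232032) (nat_lit 76) (nat_lit 2532203365) (nat_lit 383) (nat_lit 5) (nat_lit 395) (nat_lit 5) (nat_lit 384) (nat_lit 5) (nat_lit 621) (nat_lit 583) (nat_lit 356)) (XT.lf (nat_lit 0) (nat_lit 9195242349) (nat_lit 912) (nat_lit 404404267) (nat_lit 76) (nat_lit 11830433098) (nat_lit 383) (nat_lit 5) (nat_lit 395) (nat_lit 5) (nat_lit 384) (nat_lit 5) (nat_lit 622) (nat_lit 583) (nat_lit 355)))) (XT.nd (nat_lit 156) (nat_lit 760) (nat_lit 0) (XT.nd (nat_lit 78) (nat_lit 760) (nat_lit 0) (XT.lf (nat_lit 0) (nat_lit 11832918940) (nat_lit 760) (nat_lit 276178509) (nat_lit 836) (nat_lit 9558387598) (nat_lit 373) (nat_lit 5) (nat_lit 383) (nat_lit 5) (nat_lit 384) (nat_lit 5) (nat_lit 623) (nat_lit 583) (nat_lit 354)) (XT.lf (nat_lit 0) (nat_lit 2377348438) (nat_lit 760) (nat_lit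 12777600623) (nat_lit 836) (nat_lit 6753215153) (nat_lit 363) (nat_lit 5) (nat_lit 373) (nat_lit 5) (nat_lit 374) (nat_lit 5) (nat_lit 624) (nat_lit 583) (nat_lit 353))) (XT.nd (nat_lit 78) (nat_lit 760) (nat_lit 0) (XT.lf (nat_lit 0) (nat_lit 14960241876) (nat_lit 760) (nat_lit 3364944209) (nat_lit 836) (nat_lit 3827201625) (nat_lit 363) (nat_lit 5) (nat_lit 373) (nat_lit 5) (nat_lit 374) (nat_lit 5) (nat_lit 625) (nat_lit 583) (nat_lit 352)) (XT.lf (nat_lit 0) (nat_lit 5419176289) (nat_lit 760) (nat_lit 16211063573) (nat_lit 836) (nat_lit 769827686) (nat_lit 353) (nat_lit 5) (nat_lit 363) (nat_lit 5) (nat_lit 364) (nat_lit 5) (nat_lit 626) (nat_lit 583) (nat_lit 351))))) (XT.nd (nat_lit 312) (nat_lit 1444) (nat_lit 0) (XT.nd (nat_lit 156) (nat_lit 684) (nat_lit 0) (XT.nd (nat_lit 78) (nat_lit 760) (nat_lit 0) (XT.lf (nat_lit 0) (nat_lit 2384521612) (nat_lit 836) (nat_lit 4314104831) (nat_lit 76) (nat_lit 15952437033) (nat_lit 352) (nat_lit 5) (nat_lit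 363) (nat_lit 5) (nat_lit 353) (nat_lit 5) (nat_lit 627) (nat_lit 583) (nat_lit 350)) (XT.lf (nat_lit 0) (nat_lit 5663970865) (nat_lit 836) (nat_lit 14215319058) (nat_lit 76) (nat_lit 3026241316) (nat_lit 342) (nat_lit 5) (nat_lit 353) (nat_lit 5) (nat_lit 343) (nat_lit 5) (nat_lit 628) (nat_lit 583) (nat_lit 349))) (XT.nd (nat_lit 78) (nat_lit 684) (nat_lit 0) (XT.lf (nat_lit 0) (nat_lit 9078408076) (nat_lit 836) (nat_lit 1200656100) (nat_lit 76) (nat_lit 12884636302) (nat_lit 342) (nat_lit 5) (nat_lit 353) (nat_lit 5) (nat_lit 343) (nat_lit 5) (nat_lit 629) (nat_lit 583) (nat_lit 348)) (XT.lf (nat_lit 0) (nat_lit 12230104430) (nat_lit 684) (nat_lit 406411605) (nat_lit 760) (nat_lit 10789009530) (nat_lit 333) (nat_lit 5) (nat_lit 342) (nat_lit 5) (nat_lit 343) (nat_lit 5) (nat_lit 630) (nat_lit 583) (nat_lit 347)))) (XT.nd (nat_lit 156) (nat_lit 760) (nat_lit 0) (XT.nd (nat_lit 78) (nat_lit 0) (nat_lit 0) (XT.lf (nat_lit 0) (nat_lit 2214941023) (nat_lit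 684) (nat_lit 14132100976) (nat_lit 760) (nat_lit 7343920135) (nat_lit 324) (nat_lit 5) (nat_lit 333) (nat_lit 5) (nat_lit 334) (nat_lit 5) (nat_lit 631) (nat_lit 583) (nat_lit 346)) (XT.lf (nat_lit 0) (nat_lit 16037929377) (nat_lit 684) (nat_lit 4167719586) (nat_lit 760) (nat_lit 3754581161) (nat_lit 324) (nat_lit 5) (nat_lit 333) (nat_lit 5) (nat_lit 334) (nat_lit 5) (nat_lit 632) (nat_lit 583) (nat_lit 345))) (XT.nd (nat_lit 78) (nat_lit 76) (nat_lit 0) (XT.lf (nat_lit 0) (nat_lit 5936833868) (nat_lit 684) (nat_lit 18278212031) (nat_lit 760) (nat_lit 18365313) (nat_lit 315) (nat_lit 5) (nat_lit 324) (nat_lit 5) (nat_lit 325) (nat_lit 5) (nat_lit 633) (nat_lit 583) (nat_lit 344)) (XT.lf (nat_lit 0) (nat_lit 3820113190) (nat_lit 760) (nat_lit 4387643378) (nat_lit 76) (nat_lit 16302261394) (nat_lit 314) (nat_lit 5) (nat_lit 324) (nat_lit 5) (nat_lit 315) (nat_lit 5) (nat_lit 634) (nat_lit 583) (nat_lit 343))))))) (XT.nd (nat_lit 1170) (nat_lit 4712) (nat_lit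 0) (XT.nd (nat_lit 546) (nat_lit 2888) (nat_lit 0) (XT.nd (nat_lit 234) (nat_lit 1292) (nat_lit 0) (XT.nd (nat_lit 78) (nat_lit 608) (nat_lit 0) (XT.lf (nat_lit 0) (nat_lit 7809617590) (nat_lit 760) (nat_lit 14879772934) (nat_lit 76) (nat_lit 2101273940) (nat_lit 305) (nat_lit 5) (nat_lit 315) (nat_lit 5) (nat_lit 306) (nat_lit 5) (nat_lit 635) (nat_lit 583) (nat_lit 342)) (XT.nd (nat_lit 78) (nat_lit 608) (nat_lit 0) (XT.lf (nat_lit 0) (nat_lit 11959184216) (nat_lit 760) (nat_lit 580576367) (nat_lit 76) (nat_lit 12535557959) (nat_lit 305) (nat_lit 5) (nat_lit 315) (nat_lit 5) (nat_lit 306) (nat_lit 5) (nat_lit 636) (nat_lit 583) (nat_lit 341)) (XT.lf (nat_lit 0) (nat_lit 14186184823) (nat_lit 608) (nat_lit 2094014205) (nat_lit 684) (nat_lit 9083697622) (nat_lit 297) (nat_lit 5) (nat_lit 305) (nat_lit 5) (nat_lit 306) (nat_lit 5) (nat_lit 637) (nat_lit 583) (nat_lit 340)))) (XT.nd (nat_lit 156) (nat_lit 684) (nat_lit 0) (XT.nd (nat_lit 78) (nat_lit 0)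 (nat_lit 0) (XT.lf (nat_lit 0) (nat_lit 3584880840) (nat_lit 608) (nat_lit 17181919888) (nat_lit 684) (nat_lit 4889862346) (nat_lit 289) (nat_lit 5) (nat_lit 297) (nat_lit 5) (nat_lit 298) (nat_lit 5) (nat_lit 638) (nat_lit 583) (nat_lit 339)) (XT.lf (nat_lit 0) (nat_lit 18775708911) (nat_lit 608) (nat_lit 6652640011) (nat_lit 684) (nat_lit 525231697) (nat_lit 289) (nat_lit 5) (nat_lit 297) (nat_lit 5) (nat_lit 298) (nat_lit 5) (nat_lit 639) (nat_lit 583) (nat_lit 338))) (XT.nd (nat_lit 78) (nat_lit 0) (nat_lit 0) (XT.lf (nat_lit 0) (nat_lit 3951242681) (nat_lit 684) (nat_lit 18191909487) (nat_lit 76) (nat_lit 4111253527) (nat_lit 280) (nat_lit 5) (nat_lit 289) (nat_lit 5) (nat_lit 281) (nat_lit 5) (nat_lit 640) (nat_lit 583) (nat_lit 337)) (XT.lf (nat_lit 0) (nat_lit 8599274662) (nat_lit 684) (nat_lit 2907643942) (nat_lit 76) (nat_lit 15052478091) (nat_lit 280) (nat_lit 5) (nat_lit 289) (nat_lit 5) (nat_lit 281) (nat_lit 5) (nat_lit 641) (nat_lit 583)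 (nat_lit 336))))) (XT.nd (nat_lit 312) (nat_lit 1064) (nat_lit 0) (XT.nd (nat_lit 156) (nat_lit 684) (nat_lit 0) (XT.nd (nat_lit 78) (nat_lit 532) (nat_lit 0) (XT.lf (nat_lit 0) (nat_lit 12846402661) (nat_lit 608) (nat_lit 573851291) (nat_lit 684) (nat_lit 13448633905) (nat_lit 272) (nat_lit 5) (nat_lit 280) (nat_lit 5) (nat_lit 281) (nat_lit 5) (nat_lit 642) (nat_lit 583) (nat_lit 335)) (XT.lf (nat_lit 0) (nat_lit 1720097395) (nat_lit 532) (nat_lit 16713654822) (nat_lit 608) (nat_lit 8748894714) (nat_lit 265) (nat_lit 5) (nat_lit 272) (nat_lit 5) (nat_lit 273) (nat_lit 5) (nat_lit 643) (nat_lit 583) (nat_lit 334))) (XT.nd (nat_lit 78) (nat_lit 684) (nat_lit 0) (XT.lf (nat_lit 0) (nat_lit 17959368703) (nat_lit 532) (nat_lit 5682675006) (nat_lit 608) (nat_lit 3858747086) (nat_lit 265) (nat_lit 5) (nat_lit 272) (nat_lit 5) (nat_lit 273) (nat_lit 5) (nat_lit 644) (nat_lit 583) (nat_lit 333)) (XT.lf (nat_lit 0) (nat_lit 1191567377) (nat_lit 684) (nat_lit 21085520328)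 (nat_lit 76) (nat_lit 5546519799) (nat_lit 256) (nat_lit 5) (nat_lit 265) (nat_lit 5) (nat_lit 257) (nat_lit 5) (nat_lit 645) (nat_lit 583) (nat_lit 332)))) (XT.nd (nat_lit 156) (nat_lit 532) (nat_lit 0) (XT.nd (nat_lit 78) (nat_lit 532) (nat_lit 0) (XT.lf (nat_lit 0) (nat_lit 6390076908) (nat_lit 684) (nat_lit 4747067649) (nat_lit 76) (nat_lit 17013248785) (nat_lit 256) (nat_lit 5) (nat_lit 265) (nat_lit 5) (nat_lit 257) (nat_lit 5) (nat_lit 646) (nat_lit 583) (nat_lit 331)) (XT.lf (nat_lit 0) (nat_lit 11769701838) (nat_lit 608) (nat_lit 16411998031) (nat_lit 76) (nat_lit 300472192) (nat_lit 249) (nat_lit 5) (nat_lit 257) (nat_lit 5) (nat_lit 250) (nat_lit 5) (nat_lit 647) (nat_lit 583) (nat_lit 330))) (XT.nd (nat_lit 78) (nat_lit 0) (nat_lit 0) (XT.lf (nat_lit 0) (nat_lit 395052364) (nat_lit 532) (nat_lit 16967070040) (nat_lit 608) (nat_lit 11456359955) (nat_lit 242) (nat_lit 5) (nat_lit 249) (nat_lit 5) (nat_lit 250) (nat_lit 5) (nat_lit 648) (nat_lit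 583) (nat_lit 329)) (XT.lf (nat_lit 0) (nat_lit 17756420170) (nat_lit 532) (nat_lit 5416954905) (nat_lit 608) (nat_lit 5986004179) (nat_lit 242) (nat_lit 5) (nat_lit 249) (nat_lit 5) (nat_lit 250) (nat_lit 5) (nat_lit 649) (nat_lit 583) (nat_lit 328)))))) (XT.nd (nat_lit 624) (nat_lit 2204) (nat_lit 0) (XT.nd (nat_lit 312) (nat_lit 1444) (nat_lit 0) (XT.nd (nat_lit 156) (nat_lit 532) (nat_lit 0) (XT.nd (nat_lit 78) (nat_lit 76) (nat_lit 0) (XT.lf (nat_lit 0) (nat_lit 5990909815) (nat_lit 456) (nat_lit 23187065335) (nat_lit 532) (nat_lit 327576554) (nat_lit 236) (nat_lit 5) (nat_lit 242) (nat_lit 5) (nat_lit 243) (nat_lit 5) (nat_lit 650) (nat_lit 583) (nat_lit 327)) (XT.lf (nat_lit 0) (nat_lit 5482438689) (nat_lit 532) (nat_lit 6045893716) (nat_lit 76) (nat_lit 18327411968) (nat_lit 235) (nat_lit 5) (nat_lit 242) (nat_lit 5) (nat_lit 236) (nat_lit 5) (nat_lit 651) (nat_lit 583) (nat_lit 326))) (XT.nd (nat_lit 78) (nat_lit 0) (nat_lit 0) (XT.lf (nat_lit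 0) (nat_lit 11481537393) (nat_lit 608) (nat_lit 18292059660) (nat_lit 76) (nat_lit 437755210) (nat_lit 228) (nat_lit 5) (nat_lit 236) (nat_lit 5) (nat_lit 229) (nat_lit 5) (nat_lit 652) (nat_lit 583) (nat_lit 325)) (XT.lf (nat_lit 0) (nat_lit 17714807348) (nat_lit 608) (nat_lit 328356512) (nat_lit 76) (nat_lit 12528624725) (nat_lit 228) (nat_lit 5) (nat_lit 236) (nat_lit 5) (nat_lit 229) (nat_lit 5) (nat_lit 653) (nat_lit 583) (nat_lit 324)))) (XT.nd (nat_lit 156) (nat_lit 532) (nat_lit 0) (XT.nd (nat_lit 78) (nat_lit 456) (nat_lit 0) (XT.lf (nat_lit 0) (nat_lit 18229570778) (nat_lit 456) (nat_lit 5958592048) (nat_lit 532) (nat_lit 6748962462) (nat_lit 222) (nat_lit 5) (nat_lit 228) (nat_lit 5) (nat_lit 229) (nat_lit 5) (nat_lit 654) (nat_lit 583) (nat_lit 323)) (XT.lf (nat_lit 0) (nat_lit 5885051447) (nat_lit 456) (nat_lit 24984789629) (nat_lit 532) (nat_lit 438350593) (nat_lit 216) (nat_lit 5) (nat_lit 222) (nat_lit 5) (nat_lit 223) (nat_lit 5) (nat_lit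 655) (nat_lit 583) (nat_lit 322))) (XT.nd (nat_lit 78) (nat_lit 456) (nat_lit 0) (XT.lf (nat_lit 0) (nat_lit 6042198447) (nat_lit 532) (nat_lit 6746350330) (nat_lit 76) (nat_lit 18894903814) (nat_lit 215) (nat_lit 5) (nat_lit 222) (nat_lit 5) (nat_lit 216) (nat_lit 5) (nat_lit 656) (nat_lit 583) (nat_lit 321)) (XT.lf (nat_lit 0) (nat_lit 12460406040) (nat_lit 456) (nat_lit 264142571) (nat_lit 532) (nat_lit 19340051032) (nat_lit 209) (nat_lit 5) (nat_lit 215) (nat_lit 5) (nat_lit 216) (nat_lit 5) (nat_lit 657) (nat_lit 583) (nat_lit 320))))) (XT.nd (nat_lit 312) (nat_lit 1292) (nat_lit 0) (XT.nd (nat_lit 156) (nat_lit 456) (nat_lit 0) (XT.nd (nat_lit 78) (nat_lit 456) (nat_lit 0) (XT.lf (nat_lit 0) (nat_lit 19664519599) (nat_lit 532) (nat_lit 395354273) (nat_lit 76) (nat_lit 12391016339) (nat_lit 209) (nat_lit 5) (nat_lit 216) (nat_lit 5) (nat_lit 210) (nat_lit 5) (nat_lit 658) (nat_lit 583) (nat_lit 319)) (XT.lf (nat_lit 0) (nat_lit 19446934905) (nat_lit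 456) (nat_lit 7421596544) (nat_lit 532) (nat_lit 5973870365) (nat_lit 203) (nat_lit 5) (nat_lit 209) (nat_lit 5) (nat_lit 210) (nat_lit 5) (nat_lit 659) (nat_lit 583) (nat_lit 318))) (XT.nd (nat_lit 78) (nat_lit 0) (nat_lit 0) (XT.lf (nat_lit 0) (nat_lit 1040211956) (nat_lit 456) (nat_lit 26751685793) (nat_lit 76) (nat_lit 5448157002) (nat_lit 197) (nat_lit 5) (nat_lit 203) (nat_lit 5) (nat_lit 198) (nat_lit 5) (nat_lit 660) (nat_lit 583) (nat_lit 317)) (XT.lf (nat_lit 0) (nat_lit 8251555809) (nat_lit 456) (nat_lit 6785767062) (nat_lit 76) (nat_lit 18604808779) (nat_lit 197) (nat_lit 5) (nat_lit 203) (nat_lit 5) (nat_lit 198) (nat_lit 5) (nat_lit 661) (nat_lit 583) (nat_lit 316)))) (XT.nd (nat_lit 156) (nat_lit 456) (nat_lit 0) (XT.nd (nat_lit 78) (nat_lit 380) (nat_lit 0) (XT.lf (nat_lit 0) (nat_lit 13755903001) (nat_lit 456) (nat_lit 1937849371) (nat_lit 532) (nat_lit 18356765246) (nat_lit 191) (nat_lit 5) (nat_lit 197) (nat_lit 5) (nat_lit 198) (nat_lit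 5) (nat_lit 662) (nat_lit 583) (nat_lit 315)) (XT.lf (nat_lit 0) (nat_lit 259159565) (nat_lit 380) (nat_lit 23144655260) (nat_lit 456) (nat_lit 11060876086) (nat_lit 186) (nat_lit 5) (nat_lit 191) (nat_lit 5) (nat_lit 192) (nat_lit 5) (nat_lit 663) (nat_lit 583) (nat_lit 314))) (XT.nd (nat_lit 78) (nat_lit 456) (nat_lit 0) (XT.lf (nat_lit 0) (nat_lit 21482133520) (nat_lit 380) (nat_lit 9932240112) (nat_lit 456) (nat_lit 3469848184) (nat_lit 186) (nat_lit 5) (nat_lit 191) (nat_lit 5) (nat_lit 192) (nat_lit 5) (nat_lit 664) (nat_lit 583) (nat_lit 313)) (XT.lf (nat_lit 0) (nat_lit 4289101437) (nat_lit 456) (nat_lit 27444921711) (nat_lit 76) (nat_lit 3576122523) (nat_lit 180) (nat_lit 5) (nat_lit 186) (nat_lit 5) (nat_lit 181) (nat_lit 5) (nat_lit 665) (nat_lit 583) (nat_lit 312))))))))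
noncomputable def xc182 : XT := (XT.nd (nat_lit 75582) (nat_lit 0) (nat_lit 19456) (XT.nd (nat_lit 1170) (nat_lit 1368) (nat_lit 0) (XT.nd (nat_lit 546) (nat_lit 1824) (nat_lit 0) (XT.nd (nat_lit 234) (nat_lit 836) (nat_lit 0) (XT.nd (nat_lit 78) (nat_lit 760) (nat_lit 0) (XT.lf (nat_lit 0) (nat_lit 12310529661) (nat_lit 456) (nat_lit 6096533805) (nat_lit 76) (nat_lit 17333990652) (nat_lit 180) (nat_lit 5) (nat_lit 186) (nat_lit 5) (nat_lit 181) (nat_lit 5) (nat_lit 666) (nat_lit 583) (nat_lit 311)) (XT.nd (nat_lit 78) (nat_lit 380) (nat_lit 0) (XT.lf (nat_lit 0) (nat_lit 15883266451) (nat_lit 380) (nat_lit 4709705833) (nat_lit 456) (nat_lit 15585596774) (nat_lit 175) (nat_lit 5) (nat_lit 180) (nat_lit 5) (nat_lit 181) (nat_lit 5) (nat_lit 667) (nat_lit 583) (nat_lit 310)) (XT.lf (nat_lit 0) (nat_lit 1719552048) (nat_lit 380) (nat_lit 27431467863) (nat_lit 456) (nat_lit 7471615304) (nat_lit 170) (nat_lit 5) (nat_lit 175) (nat_lit 5) (nat_lit 176) (nat_lit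 5) (nat_lit 668) (nat_lit 583) (nat_lit 309)))) (XT.nd (nat_lit 156) (nat_lit 380) (nat_lit 0) (XT.nd (nat_lit 78) (nat_lit 380) (nat_lit 0) (XT.lf (nat_lit 0) (nat_lit 959862104) (nat_lit 456) (nat_lit 12664254694) (nat_lit 76) (nat_lit 23448046064) (nat_lit 169) (nat_lit 5) (nat_lit 175) (nat_lit 5) (nat_lit 170) (nat_lit 5) (nat_lit 669) (nat_lit 583) (nat_lit 308)) (XT.lf (nat_lit 0) (nat_lit 9526854036) (nat_lit 456) (nat_lit 27433667318) (nat_lit 76) (nat_lit 567833402) (nat_lit 164) (nat_lit 5) (nat_lit 170) (nat_lit 5) (nat_lit 165) (nat_lit 5) (nat_lit 670) (nat_lit 583) (nat_lit 307))) (XT.nd (nat_lit 78) (nat_lit 380) (nat_lit 0) (XT.lf (nat_lit 0) (nat_lit 18438507840) (nat_lit 456) (nat_lit 4606114028) (nat_lit 76) (nat_lit 14945582216) (nat_lit 164) (nat_lit 5) (nat_lit 170) (nat_lit 5) (nat_lit 165) (nat_lit 5) (nat_lit 671) (nat_lit 583) (nat_lit 306)) (XT.lf (nat_lit 0) (nat_lit 18922405997) (nat_lit 380) (nat_lit 8726443056) (nat_lit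 456) (nat_lit 10810032297) (nat_lit 159) (nat_lit 5) (nat_lit 164) (nat_lit 5) (nat_lit 165) (nat_lit 5) (nat_lit 672) (nat_lit 583) (nat_lit 305))))) (XT.nd (nat_lit 312) (nat_lit 1064) (nat_lit 0) (XT.nd (nat_lit 156) (nat_lit 380) (nat_lit 0) (XT.nd (nat_lit 78) (nat_lit 76) (nat_lit 0) (XT.lf (nat_lit 0) (nat_lit 4058711812) (nat_lit 304) (nat_lit 33077927435) (nat_lit 380) (nat_lit 1798428108) (nat_lit 155) (nat_lit 5) (nat_lit 159) (nat_lit 5) (nat_lit 160) (nat_lit 5) (nat_lit 673) (nat_lit 583) (nat_lit 304)) (XT.lf (nat_lit 0) (nat_lit 7483820000) (nat_lit 380) (nat_lit 11137968558) (nat_lit 76) (nat_lit 20794280946) (nat_lit 154) (nat_lit 5) (nat_lit 159) (nat_lit 5) (nat_lit 155) (nat_lit 5) (nat_lit 674) (nat_lit 583) (nat_lit 303))) (XT.nd (nat_lit 78) (nat_lit 0) (nat_lit 0) (XT.lf (nat_lit 0) (nat_lit 13233128824) (nat_lit 380) (nat_lit 3778109207) (nat_lit 456) (nat_lit 22893543829) (nat_lit 149) (nat_lit 5) (nat_lit 154) (nat_lit 5) (nat_lit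 155) (nat_lit 5) (nat_lit 675) (nat_lit 583) (nat_lit 302)) (XT.lf (nat_lit 0) (nat_lit 26875891747) (nat_lit 456) (nat_lit 2237130043) (nat_lit 76) (nat_lit 11287312959) (nat_lit 149) (nat_lit 5) (nat_lit 155) (nat_lit 5) (nat_lit 150) (nat_lit 5) (nat_lit 676) (nat_lit 583) (nat_lit 301)))) (XT.nd (nat_lit 156) (nat_lit 304) (nat_lit 0) (XT.nd (nat_lit 78) (nat_lit 456) (nat_lit 0) (XT.lf (nat_lit 0) (nat_lit 22958525694) (nat_lit 304) (nat_lit 14151119131) (nat_lit 380) (nat_lit 3792717780) (nat_lit 145) (nat_lit 5) (nat_lit 149) (nat_lit 5) (nat_lit 150) (nat_lit 5) (nat_lit 677) (nat_lit 583) (nat_lit 300)) (XT.lf (nat_lit 0) (nat_lit 6121487162) (nat_lit 456) (nat_lit 34093493789) (nat_lit 76) (nat_lit 1197287844) (nat_lit 139) (nat_lit 5) (nat_lit 145) (nat_lit 5) (nat_lit 140) (nat_lit 5) (nat_lit 678) (nat_lit 583) (nat_lit 299))) (XT.nd (nat_lit 78) (nat_lit 304) (nat_lit 0) (XT.lf (nat_lit 0) (nat_lit 16395907172) (nat_lit 456) (nat_lit 8723383690)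 (nat_lit 76) (nat_lit 16808326573) (nat_lit 139) (nat_lit 5) (nat_lit 145) (nat_lit 5) (nat_lit 140) (nat_lit 5) (nat_lit 679) (nat_lit 583) (nat_lit 298)) (XT.lf (nat_lit 0) (nat_lit 17378461400) (nat_lit 304) (nat_lit 9607972898) (nat_lit 380) (nat_lit 15464626406) (nat_lit 135) (nat_lit 5) (nat_lit 139) (nat_lit 5) (nat_lit 140) (nat_lit 5) (nat_lit 680) (nat_lit 583) (nat_lit 297)))))) (XT.nd (nat_lit 73788) (nat_lit 0) (nat_lit 29564) (XT.nd (nat_lit 312) (nat_lit 684) (nat_lit 0) (XT.nd (nat_lit 156) (nat_lit 304) (nat_lit 0) (XT.nd (nat_lit 78) (nat_lit 76) (nat_lit 0) (XT.lf (nat_lit 0) (nat_lit 1106976742) (nat_lit 304) (nat_lit 36786048818) (nat_lit 380) (nat_lit 5089862237) (nat_lit 131) (nat_lit 5) (nat_lit 135) (nat_lit 5) (nat_lit 136) (nat_lit 5) (nat_lit 681) (nat_lit 583) (nat_lit 296)) (XT.lf (nat_lit 0) (nat_lit 5651160028) (nat_lit 380) (nat_lit 15475985700) (nat_lit 76) (nat_lit 22392876595) (nat_lit 130) (nat_lit 5) (nat_lit 135)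 (nat_lit 5) (nat_lit 131) (nat_lit 5) (nat_lit 682) (nat_lit 583) (nat_lit 295))) (XT.nd (nat_lit 78) (nat_lit 0) (nat_lit 0) (XT.lf (nat_lit 0) (nat_lit 11566390679) (nat_lit 304) (nat_lit 5045465320) (nat_lit 380) (nat_lit 27453910558) (nat_lit 126) (nat_lit 5) (nat_lit 130) (nat_lit 5) (nat_lit 131) (nat_lit 5) (nat_lit 683) (nat_lit 583) (nat_lit 294)) (XT.lf (nat_lit 0) (nat_lit 27967904968) (nat_lit 380) (nat_lit 5338929036) (nat_lit 76) (nat_lit 11312068918) (nat_lit 126) (nat_lit 5) (nat_lit 131) (nat_lit 5) (nat_lit 127) (nat_lit 5) (nat_lit 684) (nat_lit 583) (nat_lit 293)))) (XT.nd (nat_lit 73320) (nat_lit 0) (nat_lit 29564) (XT.nd (nat_lit 78) (nat_lit 380) (nat_lit 0) (XT.lf (nat_lit 0) (nat_lit 22624562191) (nat_lit 304) (nat_lit 17104718712) (nat_lit 380) (nat_lit 5450257021) (nat_lit 122) (nat_lit 5) (nat_lit 126) (nat_lit 5) (nat_lit 127) (nat_lit 5) (nat_lit 685) (nat_lit 583) (nat_lit 292)) (XT.lf (nat_lit 0) (nat_lit 5498631522) (nat_lit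 304) (nat_lit 467179244) (nat_lit 380) (nat_lit 39783405704) (nat_lit 117) (nat_lit 5) (nat_lit 121) (nat_lit 5) (nat_lit 122) (nat_lit 5) (nat_lit 686) (nat_lit 583) (nat_lit 291))) (XT.nd (nat_lit 78) (nat_lit 0) (nat_lit 0) (XT.lf (nat_lit 0) (nat_lit 1925626481) (nat_lit 0) (nat_lit 1925626481) (nat_lit 1748) (nat_lit 3464429618) (nat_lit 506) (nat_lit 5) (nat_lit 506) (nat_lit 3) (nat_lit 529) (nat_lit 3) (nat_lit 584) (nat_lit 584) (nat_lit 392)) (XT.lf (nat_lit 0) (nat_lit 8115022572) (nat_lit 1748) (nat_lit 3512203738) (nat_lit 1824) (nat_lit 3143732890) (nat_lit 506) (nat_lit 5) (nat_lit 529) (nat_lit 3) (nat_lit 530) (nat_lit 5) (nat_lit 585) (nat_lit 584) (nat_lit 391))))) (XT.nd (nat_lit 312) (nat_lit 0) (nat_lit 152) (XT.nd (nat_lit 156) (nat_lit 0) (nat_lit 76) (XT.nd (nat_lit 78) (nat_lit 0) (nat_lit 76) (XT.lf (nat_lit 76) (nat_lit 3922683614) (nat_lit 0) (nat_lit 4655848836) (nat_lit 1824) (nat_lit 6333958068) (nat_lit 507) (nat_lit 5)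 (nat_lit 506) (nat_lit 5) (nat_lit 530) (nat_lit 5) (nat_lit 586) (nat_lit 584) (nat_lit 390)) (XT.lf (nat_lit 0) (nat_lit 9082904020) (nat_lit 1748) (nat_lit 3523078280) (nat_lit 1824) (nat_lit 2450238583) (nat_lit 507) (nat_lit 5) (nat_lit 530) (nat_lit 5) (nat_lit 531) (nat_lit 5) (nat_lit 587) (nat_lit 584) (nat_lit 389))) (XT.nd (nat_lit 78) (nat_lit 0) (nat_lit 76) (XT.lf (nat_lit 76) (nat_lit 4111685342) (nat_lit 0) (nat_lit 5535292657) (nat_lit 1824) (nat_lit 5554855803) (nat_lit 508) (nat_lit 5) (nat_lit 507) (nat_lit 5) (nat_lit 531) (nat_lit 5) (nat_lit 588) (nat_lit 584) (nat_lit 388)) (XT.lf (nat_lit 0) (nat_lit 10249253549) (nat_lit 1748) (nat_lit 3418570155) (nat_lit 1824) (nat_lit 1681997116) (nat_lit 508) (nat_lit 5) (nat_lit 531) (nat_lit 5) (nat_lit 532) (nat_lit 5) (nat_lit 589) (nat_lit 584) (nat_lit 387)))) (XT.nd (nat_lit 156) (nat_lit 0) (nat_lit 76) (XT.nd (nat_lit 78) (nat_lit 0) (nat_lit 76) (XT.lf (nat_lit 76) (nat_lit 4423343165)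 (nat_lit 0) (nat_lit 6497995393) (nat_lit 1824) (nat_lit 4578273980) (nat_lit 509) (nat_lit 5) (nat_lit 508) (nat_lit 5) (nat_lit 532) (nat_lit 5) (nat_lit 590) (nat_lit 584) (nat_lit 386)) (XT.lf (nat_lit 0) (nat_lit 11627778196) (nat_lit 1748) (nat_lit 3193544490) (nat_lit 1824) (nat_lit 830659375) (nat_lit 509) (nat_lit 5) (nat_lit 532) (nat_lit 5) (nat_lit 533) (nat_lit 5) (nat_lit 591) (nat_lit 584) (nat_lit 385))) (XT.nd (nat_lit 78) (nat_lit 0) (nat_lit 0) (XT.lf (nat_lit 76) (nat_lit 4863079374) (nat_lit 0) (nat_lit 7552548781) (nat_lit 1824) (nat_lit 3390425418) (nat_lit 510) (nat_lit 5) (nat_lit 509) (nat_lit 5) (nat_lit 533) (nat_lit 5) (nat_lit 592) (nat_lit 584) (nat_lit 384)) (XT.lf (nat_lit 76) (nat_lit 13119652080) (nat_lit 0) (nat_lit 113802111) (nat_lit 1824) (nat_lit 2729468167) (nat_lit 510) (nat_lit 5) (nat_lit 509) (nat_lit 5) (nat_lit 533) (nat_lit 5) (nat_lit 593) (nat_lit 584) (nat_lit 383))))))) (XT.nd (nat_lit 1170) (nat_lit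 8664) (nat_lit 0) (XT.nd (nat_lit 546) (nat_lit 0) (nat_lit 152) (XT.nd (nat_lit 234) (nat_lit 1748) (nat_lit 0) (XT.nd (nat_lit 78) (nat_lit 0) (nat_lit 0) (XT.lf (nat_lit 76) (nat_lit 5436661861) (nat_lit 0) (nat_lit 8707745185) (nat_lit 1824) (nat_lit 1976986284) (nat_lit 511) (nat_lit 5) (nat_lit 510) (nat_lit 5) (nat_lit 534) (nat_lit 5) (nat_lit 594) (nat_lit 584) (nat_lit 382)) (XT.nd (nat_lit 78) (nat_lit 0) (nat_lit 76) (XT.lf (nat_lit 76) (nat_lit 13915455833) (nat_lit 0) (nat_lit 1171008178) (nat_lit 1824) (nat_lit 1196312226) (nat_lit 511) (nat_lit 5) (nat_lit 510) (nat_lit 5) (nat_lit 534) (nat_lit 5) (nat_lit 595) (nat_lit 584) (nat_lit 381)) (XT.lf (nat_lit 76) (nat_lit 6150213110) (nat_lit 0) (nat_lit 9972597594) (nat_lit 1824) (nat_lit 323067336) (nat_lit 512) (nat_lit 5) (nat_lit 511) (nat_lit 5) (nat_lit 535) (nat_lit 5) (nat_lit 596) (nat_lit 584) (nat_lit 380)))) (XT.nd (nat_lit 156) (nat_lit 0) (nat_lit 76) (XT.nd (nat_lit 78) (nat_lit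 0) (nat_lit 76) (XT.lf (nat_lit 0) (nat_lit 577211184) (nat_lit 1824) (nat_lit 1757920228) (nat_lit 1900) (nat_lit 14276696690) (nat_lit 487) (nat_lit 5) (nat_lit 511) (nat_lit 5) (nat_lit 512) (nat_lit 5) (nat_lit 597) (nat_lit 584) (nat_lit 379)) (XT.lf (nat_lit 0) (nat_lit 1566004316) (nat_lit 1824) (nat_lit 9779846801) (nat_lit 1900) (nat_lit 5433706838) (nat_lit 488) (nat_lit 5) (nat_lit 512) (nat_lit 5) (nat_lit 513) (nat_lit 5) (nat_lit 598) (nat_lit 584) (nat_lit 378))) (XT.nd (nat_lit 78) (nat_lit 0) (nat_lit 76) (XT.lf (nat_lit 0) (nat_lit 2595424723) (nat_lit 1824) (nat_lit 1014284338) (nat_lit 1900) (nat_lit 13340516511) (nat_lit 488) (nat_lit 5) (nat_lit 512) (nat_lit 5) (nat_lit 513) (nat_lit 5) (nat_lit 599) (nat_lit 584) (nat_lit 377)) (XT.lf (nat_lit 0) (nat_lit 3719344478) (nat_lit 1824) (nat_lit 9124243769) (nat_lit 1900) (nat_lit 4279240267) (nat_lit 489) (nat_lit 5) (nat_lit 513) (nat_lit 5) (nat_lit 514) (nat_lit 5) (nat_lit 600)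 (nat_lit 584) (nat_lit 376))))) (XT.nd (nat_lit 312) (nat_lit 0) (nat_lit 152) (XT.nd (nat_lit 156) (nat_lit 0) (nat_lit 76) (XT.nd (nat_lit 78) (nat_lit 0) (nat_lit 76) (XT.lf (nat_lit 0) (nat_lit 4890245392) (nat_lit 1824) (nat_lit 121912537) (nat_lit 1900) (nat_lit 12286235717) (nat_lit 489) (nat_lit 5) (nat_lit 513) (nat_lit 5) (nat_lit 514) (nat_lit 5) (nat_lit 601) (nat_lit 584) (nat_lit 375)) (XT.lf (nat_lit 0) (nat_lit 6157737205) (nat_lit 1824) (nat_lit 8319897390) (nat_lit 1900) (nat_lit 2998372209) (nat_lit 490) (nat_lit 5) (nat_lit 514) (nat_lit 5) (nat_lit 515) (nat_lit 5) (nat_lit 602) (nat_lit 584) (nat_lit 374))) (XT.nd (nat_lit 78) (nat_lit 0) (nat_lit 76) (XT.lf (nat_lit 76) (nat_lit 938616445) (nat_lit 0) (nat_lit 6546042044) (nat_lit 1900) (nat_lit 10171832327) (nat_lit 491) (nat_lit 5) (nat_lit 490) (nat_lit 5) (nat_lit 515) (nat_lit 5) (nat_lit 603) (nat_lit 584) (nat_lit 373)) (XT.lf (nat_lit 0) (nat_lit 8898410009) (nat_lit 1824)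 (nat_lit 7359564787) (nat_lit 1900) (nat_lit 1581404049) (nat_lit 491) (nat_lit 5) (nat_lit 515) (nat_lit 5) (nat_lit 516) (nat_lit 5) (nat_lit 604) (nat_lit 584) (nat_lit 372)))) (XT.nd (nat_lit 156) (nat_lit 0) (nat_lit 76) (XT.nd (nat_lit 78) (nat_lit 0) (nat_lit 76) (XT.lf (nat_lit 76) (nat_lit 2166284396) (nat_lit 0) (nat_lit 8225750079) (nat_lit 1900) (nat_lit 7632858374) (nat_lit 492) (nat_lit 5) (nat_lit 491) (nat_lit 5) (nat_lit 516) (nat_lit 5) (nat_lit 605) (nat_lit 584) (nat_lit 371)) (XT.lf (nat_lit 0) (nat_lit 11959304115) (nat_lit 1824) (nat_lit 6235609139) (nat_lit 1900) (nat_lit 18328596) (nat_lit 492) (nat_lit 5) (nat_lit 516) (nat_lit 5) (nat_lit 517) (nat_lit 5) (nat_lit 606) (nat_lit 584) (nat_lit 370))) (XT.nd (nat_lit 78) (nat_lit 0) (nat_lit 0) (XT.lf (nat_lit 76) (nat_lit 3567479246) (nat_lit 0) (nat_lit 10062462361) (nat_lit 1900) (nat_lit 4773975941) (nat_lit 493) (nat_lit 5) (nat_lit 492) (nat_lit 5) (nat_lit 517) (nat_lit 5)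 (nat_lit 607) (nat_lit 584) (nat_lit 369)) (XT.lf (nat_lit 76) (nat_lit 13646501658) (nat_lit 0) (nat_lit 1723799155) (nat_lit 1900) (nat_lit 3227379931) (nat_lit 493) (nat_lit 5) (nat_lit 492) (nat_lit 5) (nat_lit 517) (nat_lit 5) (nat_lit 608) (nat_lit 584) (nat_lit 368)))))) (XT.nd (nat_lit 624) (nat_lit 3420) (nat_lit 0) (XT.nd (nat_lit 312) (nat_lit 2660) (nat_lit 0) (XT.nd (nat_lit 156) (nat_lit 1140) (nat_lit 0) (XT.nd (nat_lit 78) (nat_lit 76) (nat_lit 0) (XT.lf (nat_lit 0) (nat_lit 5150629724) (nat_lit 1824) (nat_lit 12066888564) (nat_lit 1900) (nat_lit 1576360052) (nat_lit 469) (nat_lit 5) (nat_lit 493) (nat_lit 5) (nat_lit 494) (nat_lit 5) (nat_lit 609) (nat_lit 584) (nat_lit 367)) (XT.lf (nat_lit 0) (nat_lit 145748394) (nat_lit 1900) (nat_lit 3488798228) (nat_lit 76) (nat_lit 15358649830) (nat_lit 468) (nat_lit 5) (nat_lit 493) (nat_lit 5) (nat_lit 469) (nat_lit 5) (nat_lit 610) (nat_lit 584) (nat_lit 366))) (XT.nd (nat_lit 78) (nat_lit 0)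 (nat_lit 0) (XT.lf (nat_lit 0) (nat_lit 1953643643) (nat_lit 1216) (nat_lit 12283354473) (nat_lit 76) (nat_lit 4957845523) (nat_lit 453) (nat_lit 5) (nat_lit 469) (nat_lit 5) (nat_lit 454) (nat_lit 5) (nat_lit 611) (nat_lit 584) (nat_lit 365)) (XT.lf (nat_lit 0) (nat_lit 3840135883) (nat_lit 1216) (nat_lit 1861908773) (nat_lit 76) (nat_lit 13697630479) (nat_lit 453) (nat_lit 5) (nat_lit 469) (nat_lit 5) (nat_lit 454) (nat_lit 5) (nat_lit 612) (nat_lit 584) (nat_lit 364)))) (XT.nd (nat_lit 156) (nat_lit 1748) (nat_lit 0) (XT.nd (nat_lit 78) (nat_lit 0) (nat_lit 0) (XT.lf (nat_lit 0) (nat_lit 5836802439) (nat_lit 988) (nat_lit 10747622432) (nat_lit 76) (nat_lit 3022729645) (nat_lit 441) (nat_lit 5) (nat_lit 454) (nat_lit 5) (nat_lit 442) (nat_lit 5) (nat_lit 613) (nat_lit 584) (nat_lit 363)) (XT.lf (nat_lit 0) (nat_lit 7918718852) (nat_lit 988) (nat_lit 40421052) (nat_lit 76) (nat_lit 11858737392) (nat_lit 441) (nat_lit 5) (nat_lit 454) (nat_lit 5) (nat_lit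 442) (nat_lit 5) (nat_lit 614) (nat_lit 584) (nat_lit 362))) (XT.nd (nat_lit 78) (nat_lit 836) (nat_lit 0) (XT.lf (nat_lit 0) (nat_lit 10114825512) (nat_lit 988) (nat_lit 9016529489) (nat_lit 76) (nat_lit 900008631) (nat_lit 429) (nat_lit 5) (nat_lit 442) (nat_lit 5) (nat_lit 430) (nat_lit 5) (nat_lit 615) (nat_lit 584) (nat_lit 361)) (XT.lf (nat_lit 0) (nat_lit 2011639359) (nat_lit 836) (nat_lit 10404403266) (nat_lit 912) (nat_lit 7831853440) (nat_lit 418) (nat_lit 5) (nat_lit 429) (nat_lit 5) (nat_lit 430) (nat_lit 5) (nat_lit 616) (nat_lit 584) (nat_lit 360))))) (XT.nd (nat_lit 312) (nat_lit 1596) (nat_lit 0) (XT.nd (nat_lit 156) (nat_lit 912) (nat_lit 0) (XT.nd (nat_lit 78) (nat_lit 912) (nat_lit 0) (XT.lf (nat_lit 0) (nat_lit 13377963263) (nat_lit 836) (nat_lit 1441036459) (nat_lit 912) (nat_lit 5648645244) (nat_lit 418) (nat_lit 5) (nat_lit 429) (nat_lit 5) (nat_lit 430) (nat_lit 5) (nat_lit 617) (nat_lit 584) (nat_lit 359)) (XT.lf (nat_lit 0) (nat_lit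 4281337383) (nat_lit 912) (nat_lit 13061784668) (nat_lit 988) (nat_lit 3347204805) (nat_lit 406) (nat_lit 5) (nat_lit 418) (nat_lit 5) (nat_lit 419) (nat_lit 5) (nat_lit 618) (nat_lit 584) (nat_lit 358))) (XT.nd (nat_lit 78) (nat_lit 912) (nat_lit 0) (XT.lf (nat_lit 0) (nat_lit 15961605682) (nat_lit 912) (nat_lit 4008544238) (nat_lit 988) (nat_lit 946264129) (nat_lit 406) (nat_lit 5) (nat_lit 418) (nat_lit 5) (nat_lit 419) (nat_lit 5) (nat_lit 619) (nat_lit 584) (nat_lit 357)) (XT.lf (nat_lit 0) (nat_lit 1556873089) (nat_lit 912) (nat_lit 14376969339) (nat_lit 76) (nat_lit 5211507834) (nat_lit 394) (nat_lit 5) (nat_lit 406) (nat_lit 5) (nat_lit 395) (nat_lit 5) (nat_lit 620) (nat_lit 584) (nat_lit 356)))) (XT.nd (nat_lit 156) (nat_lit 760) (nat_lit 0) (XT.nd (nat_lit 78) (nat_lit 836) (nat_lit 0) (XT.lf (nat_lit 0) (nat_lit 4152918313) (nat_lit 912) (nat_lit 2622670216) (nat_lit 76) (nat_lit 14602041382) (nat_lit 394) (nat_lit 5) (nat_lit 406) (nat_lit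 5) (nat_lit 395) (nat_lit 5) (nat_lit 621) (nat_lit 584) (nat_lit 355)) (XT.lf (nat_lit 0) (nat_lit 6875120025) (nat_lit 912) (nat_lit 12143888234) (nat_lit 76) (nat_lit 2594062298) (nat_lit 383) (nat_lit 5) (nat_lit 395) (nat_lit 5) (nat_lit 384) (nat_lit 5) (nat_lit 622) (nat_lit 584) (nat_lit 354))) (XT.nd (nat_lit 78) (nat_lit 760) (nat_lit 0) (XT.lf (nat_lit 0) (nat_lit 9709985905) (nat_lit 912) (nat_lit 64033099) (nat_lit 76) (nat_lit 12078036727) (nat_lit 383) (nat_lit 5) (nat_lit 395) (nat_lit 5) (nat_lit 384) (nat_lit 5) (nat_lit 623) (nat_lit 584) (nat_lit 353)) (XT.lf (nat_lit 0) (nat_lit 12415744077) (nat_lit 760) (nat_lit 262134541) (nat_lit 836) (nat_lit 9416415516) (nat_lit 373) (nat_lit 5) (nat_lit 383) (nat_lit 5) (nat_lit 384) (nat_lit 5) (nat_lit 624) (nat_lit 584) (nat_lit 352))))))))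
noncomputable def xc183 : XT := (XT.nd (nat_lit 2418) (nat_lit 7600) (nat_lit 0) (XT.nd (nat_lit 1170) (nat_lit 5092) (nat_lit 0) (XT.nd (nat_lit 546) (nat_lit 3344) (nat_lit 0) (XT.nd (nat_lit 234) (nat_lit 1520) (nat_lit 0) (XT.nd (nat_lit 78) (nat_lit 760) (nat_lit 0) (XT.lf (nat_lit 0) (nat_lit 2775156127) (nat_lit 760) (nat_lit 13005485908) (nat_lit 836) (nat_lit 6559225122) (nat_lit 363) (nat_lit 5) (nat_lit 373) (nat_lit 5) (nat_lit 374) (nat_lit 5) (nat_lit 625) (nat_lit 584) (nat_lit 351)) (XT.nd (nat_lit 78) (nat_lit 760) (nat_lit 0) (XT.lf (nat_lit 0) (nat_lit 15602839576) (nat_lit 760) (nat_lit 3405118851) (nat_lit 836) (nat_lit 3581143370) (nat_lit 363) (nat_lit 5) (nat_lit 373) (nat_lit 5) (nat_lit 374) (nat_lit 5) (nat_lit 626) (nat_lit 584) (nat_lit 350)) (XT.lf (nat_lit 0) (nat_lit 5874810563) (nat_lit 760) (nat_lit 16500528609) (nat_lit 836) (nat_lit 466471705) (nat_lit 353) (nat_lit 5) (nat_lit 363) (nat_lit 5) (nat_lit 364) (nat_lit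 5) (nat_lit 627) (nat_lit 584) (nat_lit 349)))) (XT.nd (nat_lit 156) (nat_lit 684) (nat_lit 0) (XT.nd (nat_lit 78) (nat_lit 760) (nat_lit 0) (XT.lf (nat_lit 0) (nat_lit 2740616004) (nat_lit 836) (nat_lit 4055838675) (nat_lit 76) (nat_lit 16301454172) (nat_lit 352) (nat_lit 5) (nat_lit 363) (nat_lit 5) (nat_lit 353) (nat_lit 5) (nat_lit 628) (nat_lit 584) (nat_lit 348)) (XT.lf (nat_lit 0) (nat_lit 6082074212) (nat_lit 836) (nat_lit 14151489493) (nat_lit 76) (nat_lit 3123974016) (nat_lit 342) (nat_lit 5) (nat_lit 353) (nat_lit 5) (nat_lit 343) (nat_lit 5) (nat_lit 629) (nat_lit 584) (nat_lit 347))) (XT.nd (nat_lit 78) (nat_lit 684) (nat_lit 0) (XT.lf (nat_lit 0) (nat_lit 9558823228) (nat_lit 836) (nat_lit 883359472) (nat_lit 76) (nat_lit 13178807335) (nat_lit 342) (nat_lit 5) (nat_lit 353) (nat_lit 5) (nat_lit 343) (nat_lit 5) (nat_lit 630) (nat_lit 584) (nat_lit 346)) (XT.lf (nat_lit 0) (nat_lit 12813770811) (nat_lit 684) (nat_lit 370664221) (nat_lit 760)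 (nat_lit 10703689905) (nat_lit 333) (nat_lit 5) (nat_lit 342) (nat_lit 5) (nat_lit 343) (nat_lit 5) (nat_lit 631) (nat_lit 584) (nat_lit 345))))) (XT.nd (nat_lit 312) (nat_lit 1900) (nat_lit 0) (XT.nd (nat_lit 156) (nat_lit 760) (nat_lit 0) (XT.nd (nat_lit 78) (nat_lit 0) (nat_lit 0) (XT.lf (nat_lit 0) (nat_lit 2601662704) (nat_lit 684) (nat_lit 14364223318) (nat_lit 760) (nat_lit 7193050070) (nat_lit 324) (nat_lit 5) (nat_lit 333) (nat_lit 5) (nat_lit 334) (nat_lit 5) (nat_lit 632) (nat_lit 584) (nat_lit 344)) (XT.lf (nat_lit 0) (nat_lit 16694396651) (nat_lit 684) (nat_lit 4201544882) (nat_lit 760) (nat_lit 3537762522) (nat_lit 324) (nat_lit 5) (nat_lit 333) (nat_lit 5) (nat_lit 334) (nat_lit 5) (nat_lit 633) (nat_lit 584) (nat_lit 343))) (XT.nd (nat_lit 78) (nat_lit 0) (nat_lit 0) (XT.lf (nat_lit 0) (nat_lit 266478326) (nat_lit 760) (nat_lit 18319719837) (nat_lit 76) (nat_lit 6126177595) (nat_lit 314) (nat_lit 5) (nat_lit 324) (nat_lit 5) (nat_lit 315)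 (nat_lit 5) (nat_lit 634) (nat_lit 584) (nat_lit 342)) (XT.lf (nat_lit 0) (nat_lit 4175893164) (nat_lit 760) (nat_lit 4139447785) (nat_lit 76) (nat_lit 16679283147) (nat_lit 314) (nat_lit 5) (nat_lit 324) (nat_lit 5) (nat_lit 315) (nat_lit 5) (nat_lit 635) (nat_lit 584) (nat_lit 341)))) (XT.nd (nat_lit 156) (nat_lit 1216) (nat_lit 0) (XT.nd (nat_lit 78) (nat_lit 0) (nat_lit 0) (XT.lf (nat_lit 0) (nat_lit 8242250952) (nat_lit 760) (nat_lit 14838476690) (nat_lit 76) (nat_lit 2200214751) (nat_lit 305) (nat_lit 5) (nat_lit 315) (nat_lit 5) (nat_lit 306) (nat_lit 5) (nat_lit 636) (nat_lit 584) (nat_lit 340)) (XT.lf (nat_lit 0) (nat_lit 12469388498) (nat_lit 760) (nat_lit 259941128) (nat_lit 76) (nat_lit 12842068463) (nat_lit 305) (nat_lit 5) (nat_lit 315) (nat_lit 5) (nat_lit 306) (nat_lit 5) (nat_lit 637) (nat_lit 584) (nat_lit 339))) (XT.nd (nat_lit 78) (nat_lit 608) (nat_lit 0) (XT.lf (nat_lit 0) (nat_lit 14799969453) (nat_lit 608) (nat_lit 2073682999) (nat_lit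 684) (nat_lit 8992158856) (nat_lit 297) (nat_lit 5) (nat_lit 305) (nat_lit 5) (nat_lit 306) (nat_lit 5) (nat_lit 638) (nat_lit 584) (nat_lit 338)) (XT.lf (nat_lit 0) (nat_lit 3989394667) (nat_lit 608) (nat_lit 17457896431) (nat_lit 684) (nat_lit 4717195987) (nat_lit 289) (nat_lit 5) (nat_lit 297) (nat_lit 5) (nat_lit 298) (nat_lit 5) (nat_lit 639) (nat_lit 584) (nat_lit 337)))))) (XT.nd (nat_lit 624) (nat_lit 2584) (nat_lit 0) (XT.nd (nat_lit 312) (nat_lit 1216) (nat_lit 0) (XT.nd (nat_lit 156) (nat_lit 608) (nat_lit 0) (XT.nd (nat_lit 78) (nat_lit 684) (nat_lit 0) (XT.lf (nat_lit 0) (nat_lit 19477513491) (nat_lit 608) (nat_lit 6719357660) (nat_lit 684) (nat_lit 270575934) (nat_lit 289) (nat_lit 5) (nat_lit 297) (nat_lit 5) (nat_lit 298) (nat_lit 5) (nat_lit 640) (nat_lit 584) (nat_lit 336)) (XT.lf (nat_lit 0) (nat_lit 4289393807) (nat_lit 684) (nat_lit 18223411418) (nat_lit 76) (nat_lit 4261500250) (nat_lit 280) (nat_lit 5) (nat_lit 289) (nat_lit 5) (nat_lit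 281) (nat_lit 5) (nat_lit 641) (nat_lit 584) (nat_lit 335))) (XT.nd (nat_lit 78) (nat_lit 608) (nat_lit 0) (XT.lf (nat_lit 0) (nat_lit 9025305520) (nat_lit 684) (nat_lit 2639976959) (nat_lit 76) (nat_lit 15420215548) (nat_lit 280) (nat_lit 5) (nat_lit 289) (nat_lit 5) (nat_lit 281) (nat_lit 5) (nat_lit 642) (nat_lit 584) (nat_lit 334)) (XT.lf (nat_lit 0) (nat_lit 13427007025) (nat_lit 608) (nat_lit 512817612) (nat_lit 684) (nat_lit 13461412084) (nat_lit 272) (nat_lit 5) (nat_lit 280) (nat_lit 5) (nat_lit 281) (nat_lit 5) (nat_lit 643) (nat_lit 584) (nat_lit 333)))) (XT.nd (nat_lit 156) (nat_lit 684) (nat_lit 0) (XT.nd (nat_lit 78) (nat_lit 0) (nat_lit 0) (XT.lf (nat_lit 0) (nat_lit 2080574323) (nat_lit 532) (nat_lit 16970672379) (nat_lit 608) (nat_lit 8670071306) (nat_lit 265) (nat_lit 5) (nat_lit 272) (nat_lit 5) (nat_lit 273) (nat_lit 5) (nat_lit 644) (nat_lit 584) (nat_lit 332)) (XT.lf (nat_lit 0) (nat_lit 18638237430) (nat_lit 532) (nat_lit 5720587781)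 (nat_lit 608) (nat_lit 3687097221) (nat_lit 265) (nat_lit 5) (nat_lit 272) (nat_lit 5) (nat_lit 273) (nat_lit 5) (nat_lit 645) (nat_lit 584) (nat_lit 331))) (XT.nd (nat_lit 78) (nat_lit 0) (nat_lit 0) (XT.lf (nat_lit 0) (nat_lit 1458734630) (nat_lit 684) (nat_lit 21182050063) (nat_lit 76) (nat_lit 5734423086) (nat_lit 256) (nat_lit 5) (nat_lit 265) (nat_lit 5) (nat_lit 257) (nat_lit 5) (nat_lit 646) (nat_lit 584) (nat_lit 330)) (XT.lf (nat_lit 0) (nat_lit 6756443060) (nat_lit 684) (nat_lit 4523204422) (nat_lit 76) (nat_lit 17428977379) (nat_lit 256) (nat_lit 5) (nat_lit 265) (nat_lit 5) (nat_lit 257) (nat_lit 5) (nat_lit 647) (nat_lit 584) (nat_lit 329))))) (XT.nd (nat_lit 312) (nat_lit 1064) (nat_lit 0) (XT.nd (nat_lit 156) (nat_lit 456) (nat_lit 0) (XT.nd (nat_lit 78) (nat_lit 532) (nat_lit 0) (XT.lf (nat_lit 0) (nat_lit 12241563397) (nat_lit 608) (nat_lit 16419331365) (nat_lit 76) (nat_lit 386186433) (nat_lit 249) (nat_lit 5) (nat_lit 257) (nat_lit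 5) (nat_lit 250) (nat_lit 5) (nat_lit 648) (nat_lit 584) (nat_lit 328)) (XT.lf (nat_lit 0) (nat_lit 721748810) (nat_lit 532) (nat_lit 17221516777) (nat_lit 608) (nat_lit 11446903544) (nat_lit 242) (nat_lit 5) (nat_lit 249) (nat_lit 5) (nat_lit 250) (nat_lit 5) (nat_lit 649) (nat_lit 584) (nat_lit 327))) (XT.nd (nat_lit 78) (nat_lit 456) (nat_lit 0) (XT.lf (nat_lit 0) (nat_lit 18424093082) (nat_lit 532) (nat_lit 5442063941) (nat_lit 608) (nat_lit 5871818762) (nat_lit 242) (nat_lit 5) (nat_lit 249) (nat_lit 5) (nat_lit 250) (nat_lit 5) (nat_lit 650) (nat_lit 584) (nat_lit 326)) (XT.lf (nat_lit 0) (nat_lit 6425240326) (nat_lit 456) (nat_lit 23563684223) (nat_lit 532) (nat_lit 102185719) (nat_lit 236) (nat_lit 5) (nat_lit 242) (nat_lit 5) (nat_lit 243) (nat_lit 5) (nat_lit 651) (nat_lit 584) (nat_lit 325)))) (XT.nd (nat_lit 156) (nat_lit 456) (nat_lit 0) (XT.nd (nat_lit 78) (nat_lit 532) (nat_lit 0) (XT.lf (nat_lit 0) (nat_lit 5816499619) (nat_lit 532) (nat_lit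 5855479375) (nat_lit 76) (nat_lit 18776387534) (nat_lit 235) (nat_lit 5) (nat_lit 242) (nat_lit 5) (nat_lit 236) (nat_lit 5) (nat_lit 652) (nat_lit 584) (nat_lit 324)) (XT.lf (nat_lit 0) (nat_lit 11933754711) (nat_lit 608) (nat_lit 18344738649) (nat_lit 76) (nat_lit 532629815) (nat_lit 228) (nat_lit 5) (nat_lit 236) (nat_lit 5) (nat_lit 229) (nat_lit 5) (nat_lit 653) (nat_lit 584) (nat_lit 323))) (XT.nd (nat_lit 78) (nat_lit 456) (nat_lit 0) (XT.lf (nat_lit 0) (nat_lit 18287325623) (nat_lit 608) (nat_lit 27901874) (nat_lit 76) (nat_lit 12863628102) (nat_lit 228) (nat_lit 5) (nat_lit 236) (nat_lit 5) (nat_lit 229) (nat_lit 5) (nat_lit 654) (nat_lit 584) (nat_lit 322)) (XT.lf (nat_lit 0) (nat_lit 18899164082) (nat_lit 456) (nat_lit 5988685538) (nat_lit 532) (nat_lit 6663695472) (nat_lit 222) (nat_lit 5) (nat_lit 228) (nat_lit 5) (nat_lit 229) (nat_lit 5) (nat_lit 655) (nat_lit 584) (nat_lit 321))))))) (XT.nd (nat_lit 1248) (nat_lit 3192) (nat_lit 0) (XT.nd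 (nat_lit 624) (nat_lit 2052) (nat_lit 0) (XT.nd (nat_lit 312) (nat_lit 1368) (nat_lit 0) (XT.nd (nat_lit 156) (nat_lit 456) (nat_lit 0) (XT.nd (nat_lit 78) (nat_lit 76) (nat_lit 0) (XT.lf (nat_lit 0) (nat_lit 6309467485) (nat_lit 456) (nat_lit 25392018567) (nat_lit 532) (nat_lit 228580338) (nat_lit 216) (nat_lit 5) (nat_lit 222) (nat_lit 5) (nat_lit 223) (nat_lit 5) (nat_lit 656) (nat_lit 584) (nat_lit 320)) (XT.lf (nat_lit 0) (nat_lit 6374484681) (nat_lit 532) (nat_lit 6577762405) (nat_lit 76) (nat_lit 19360641725) (nat_lit 215) (nat_lit 5) (nat_lit 222) (nat_lit 5) (nat_lit 216) (nat_lit 5) (nat_lit 657) (nat_lit 584) (nat_lit 319))) (XT.nd (nat_lit 78) (nat_lit 0) (nat_lit 0) (XT.lf (nat_lit 0) (nat_lit 13011132284) (nat_lit 456) (nat_lit 177161293) (nat_lit 532) (nat_lit 19513409070) (nat_lit 209) (nat_lit 5) (nat_lit 215) (nat_lit 5) (nat_lit 216) (nat_lit 5) (nat_lit 658) (nat_lit 584) (nat_lit 318)) (XT.lf (nat_lit 0) (nat_lit 20263548259) (nat_lit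 532) (nat_lit 104135798) (nat_lit 76) (nat_lit 12728105361) (nat_lit 209) (nat_lit 5) (nat_lit 216) (nat_lit 5) (nat_lit 210) (nat_lit 5) (nat_lit 659) (nat_lit 584) (nat_lit 317)))) (XT.nd (nat_lit 156) (nat_lit 456) (nat_lit 0) (XT.nd (nat_lit 78) (nat_lit 456) (nat_lit 0) (XT.lf (nat_lit 0) (nat_lit 20133031232) (nat_lit 456) (nat_lit 7476504374) (nat_lit 532) (nat_lit 5885637816) (nat_lit 203) (nat_lit 5) (nat_lit 209) (nat_lit 5) (nat_lit 210) (nat_lit 5) (nat_lit 660) (nat_lit 584) (nat_lit 316)) (XT.lf (nat_lit 0) (nat_lit 1264533794) (nat_lit 456) (nat_lit 26985362228) (nat_lit 76) (nat_lit 5650885861) (nat_lit 197) (nat_lit 5) (nat_lit 203) (nat_lit 5) (nat_lit 198) (nat_lit 5) (nat_lit 661) (nat_lit 584) (nat_lit 315))) (XT.nd (nat_lit 78) (nat_lit 456) (nat_lit 0) (XT.lf (nat_lit 0) (nat_lit 8616113983) (nat_lit 456) (nat_lit 6626034088) (nat_lit 76) (nat_lit 19068832130) (nat_lit 197) (nat_lit 5) (nat_lit 203) (nat_lit 5) (nat_lit 198) (nat_lit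 5) (nat_lit 662) (nat_lit 584) (nat_lit 314)) (XT.lf (nat_lit 0) (nat_lit 14324525637) (nat_lit 456) (nat_lit 1880622172) (nat_lit 532) (nat_lit 18522426283) (nat_lit 191) (nat_lit 5) (nat_lit 197) (nat_lit 5) (nat_lit 198) (nat_lit 5) (nat_lit 663) (nat_lit 584) (nat_lit 313))))) (XT.nd (nat_lit 312) (nat_lit 1216) (nat_lit 0) (XT.nd (nat_lit 156) (nat_lit 456) (nat_lit 0) (XT.nd (nat_lit 78) (nat_lit 0) (nat_lit 0) (XT.lf (nat_lit 0) (nat_lit 559225154) (nat_lit 380) (nat_lit 23508838954) (nat_lit 456) (nat_lit 11081993760) (nat_lit 186) (nat_lit 5) (nat_lit 191) (nat_lit 5) (nat_lit 192) (nat_lit 5) (nat_lit 664) (nat_lit 584) (nat_lit 312)) (XT.lf (nat_lit 0) (nat_lit 22200876580) (nat_lit 380) (nat_lit 10034110981) (nat_lit 456) (nat_lit 3343068826) (nat_lit 186) (nat_lit 5) (nat_lit 191) (nat_lit 5) (nat_lit 192) (nat_lit 5) (nat_lit 665) (nat_lit 584) (nat_lit 311))) (XT.nd (nat_lit 78) (nat_lit 0) (nat_lit 0) (XT.lf (nat_lit 0) (nat_lit 4567208783)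 (nat_lit 456) (nat_lit 27700862273) (nat_lit 76) (nat_lit 3744427817) (nat_lit 180) (nat_lit 5) (nat_lit 186) (nat_lit 5) (nat_lit 181) (nat_lit 5) (nat_lit 666) (nat_lit 584) (nat_lit 310)) (XT.lf (nat_lit 0) (nat_lit 12745294486) (nat_lit 456) (nat_lit 5931250880) (nat_lit 76) (nat_lit 17775555606) (nat_lit 180) (nat_lit 5) (nat_lit 186) (nat_lit 5) (nat_lit 181) (nat_lit 5) (nat_lit 667) (nat_lit 584) (nat_lit 309)))) (XT.nd (nat_lit 156) (nat_lit 456) (nat_lit 0) (XT.nd (nat_lit 78) (nat_lit 380) (nat_lit 0) (XT.lf (nat_lit 0) (nat_lit 16486255817) (nat_lit 380) (nat_lit 4705285516) (nat_lit 456) (nat_lit 15706861832) (nat_lit 175) (nat_lit 5) (nat_lit 180) (nat_lit 5) (nat_lit 181) (nat_lit 5) (nat_lit 668) (nat_lit 584) (nat_lit 308)) (XT.lf (nat_lit 0) (nat_lit 2040466623) (nat_lit 380) (nat_lit 27879110333) (nat_lit 456) (nat_lit 7431797208) (nat_lit 170) (nat_lit 5) (nat_lit 175) (nat_lit 5) (nat_lit 176) (nat_lit 5) (nat_lit 669) (nat_lit 584)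 (nat_lit 307))) (XT.nd (nat_lit 78) (nat_lit 380) (nat_lit 0) (XT.lf (nat_lit 0) (nat_lit 1162165570) (nat_lit 456) (nat_lit 12634198072) (nat_lit 76) (nat_lit 24013577448) (nat_lit 169) (nat_lit 5) (nat_lit 175) (nat_lit 5) (nat_lit 170) (nat_lit 5) (nat_lit 670) (nat_lit 584) (nat_lit 306)) (XT.lf (nat_lit 0) (nat_lit 9899384699) (nat_lit 456) (nat_lit 27697883461) (nat_lit 76) (nat_lit 678010971) (nat_lit 164) (nat_lit 5) (nat_lit 170) (nat_lit 5) (nat_lit 165) (nat_lit 5) (nat_lit 671) (nat_lit 584) (nat_lit 305)))))) (XT.nd (nat_lit 624) (nat_lit 1292) (nat_lit 0) (XT.nd (nat_lit 312) (nat_lit 1140) (nat_lit 0) (XT.nd (nat_lit 156) (nat_lit 380) (nat_lit 0) (XT.nd (nat_lit 78) (nat_lit 380) (nat_lit 0) (XT.lf (nat_lit 0) (nat_lit 18985703078) (nat_lit 456) (nat_lit 4419356697) (nat_lit 76) (nat_lit 15341377098) (nat_lit 164) (nat_lit 5) (nat_lit 170) (nat_lit 5) (nat_lit 165) (nat_lit 5) (nat_lit 672) (nat_lit 584) (nat_lit 304)) (XT.lf (nat_lit 0)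 (nat_lit 19577898994) (nat_lit 380) (nat_lit 8800652349) (nat_lit 456) (nat_lit 10845970391) (nat_lit 159) (nat_lit 5) (nat_lit 164) (nat_lit 5) (nat_lit 165) (nat_lit 5) (nat_lit 673) (nat_lit 584) (nat_lit 303))) (XT.nd (nat_lit 78) (nat_lit 76) (nat_lit 0) (XT.lf (nat_lit 0) (nat_lit 4417975177) (nat_lit 304) (nat_lit 33637101071) (nat_lit 380) (nat_lit 1655175687) (nat_lit 155) (nat_lit 5) (nat_lit 159) (nat_lit 5) (nat_lit 160) (nat_lit 5) (nat_lit 674) (nat_lit 584) (nat_lit 302)) (XT.lf (nat_lit 0) (nat_lit 7806898819) (nat_lit 380) (nat_lit 11085784523) (nat_lit 76) (nat_lit 21308236924) (nat_lit 154) (nat_lit 5) (nat_lit 159) (nat_lit 5) (nat_lit 155) (nat_lit 5) (nat_lit 675) (nat_lit 584) (nat_lit 301)))) (XT.nd (nat_lit 156) (nat_lit 760) (nat_lit 0) (XT.nd (nat_lit 78) (nat_lit 0) (nat_lit 0) (XT.lf (nat_lit 0) (nat_lit 13770925968) (nat_lit 380) (nat_lit 3752312565) (nat_lit 456) (nat_lit 23176200919) (nat_lit 149) (nat_lit 5) (nat_lit 154)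 (nat_lit 5) (nat_lit 155) (nat_lit 5) (nat_lit 676) (nat_lit 584) (nat_lit 300)) (XT.lf (nat_lit 0) (nat_lit 27582462358) (nat_lit 456) (nat_lit 2011368210) (nat_lit 76) (nat_lit 11611127342) (nat_lit 149) (nat_lit 5) (nat_lit 155) (nat_lit 5) (nat_lit 150) (nat_lit 5) (nat_lit 677) (nat_lit 584) (nat_lit 299))) (XT.nd (nat_lit 78) (nat_lit 456) (nat_lit 0) (XT.lf (nat_lit 0) (nat_lit 23686421008) (nat_lit 304) (nat_lit 14332899469) (nat_lit 380) (nat_lit 3697737295) (nat_lit 145) (nat_lit 5) (nat_lit 149) (nat_lit 5) (nat_lit 150) (nat_lit 5) (nat_lit 678) (nat_lit 584) (nat_lit 298)) (XT.lf (nat_lit 0) (nat_lit 6411616391) (nat_lit 456) (nat_lit 34503498792) (nat_lit 76) (nat_lit 1322042663) (nat_lit 139) (nat_lit 5) (nat_lit 145) (nat_lit 5) (nat_lit 140) (nat_lit 5) (nat_lit 679) (nat_lit 584) (nat_lit 297))))) (XT.nd (nat_lit 312) (nat_lit 608) (nat_lit 0) (XT.nd (nat_lit 156) (nat_lit 380) (nat_lit 0) (XT.nd (nat_lit 78) (nat_lit 304) (nat_lit 0)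 (XT.lf (nat_lit 0) (nat_lit 16888236576) (nat_lit 456) (nat_lit 8631317175) (nat_lit 76) (nat_lit 17243325518) (nat_lit 139) (nat_lit 5) (nat_lit 145) (nat_lit 5) (nat_lit 140) (nat_lit 5) (nat_lit 680) (nat_lit 584) (nat_lit 296)) (XT.lf (nat_lit 0) (nat_lit 17990811302) (nat_lit 304) (nat_lit 9698258323) (nat_lit 380) (nat_lit 15607751915) (nat_lit 135) (nat_lit 5) (nat_lit 139) (nat_lit 5) (nat_lit 140) (nat_lit 5) (nat_lit 681) (nat_lit 584) (nat_lit 295))) (XT.nd (nat_lit 78) (nat_lit 76) (nat_lit 0) (XT.lf (nat_lit 0) (nat_lit 1394736819) (nat_lit 304) (nat_lit 37418234695) (nat_lit 380) (nat_lit 5026330128) (nat_lit 131) (nat_lit 5) (nat_lit 135) (nat_lit 5) (nat_lit 136) (nat_lit 5) (nat_lit 682) (nat_lit 584) (nat_lit 294)) (XT.lf (nat_lit 0) (nat_lit 5924145021) (nat_lit 380) (nat_lit 15522965194) (nat_lit 76) (nat_lit 22940111202) (nat_lit 130) (nat_lit 5) (nat_lit 135) (nat_lit 5) (nat_lit 131) (nat_lit 5) (nat_lit 683) (nat_lit 584) (nat_lit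 293)))) (XT.nd (nat_lit 156) (nat_lit 304) (nat_lit 0) (XT.nd (nat_lit 78) (nat_lit 0) (nat_lit 0) (XT.lf (nat_lit 0) (nat_lit 12058531474) (nat_lit 304) (nat_lit 5044080303) (nat_lit 380) (nat_lit 27841297664) (nat_lit 126) (nat_lit 5) (nat_lit 130) (nat_lit 5) (nat_lit 131) (nat_lit 5) (nat_lit 684) (nat_lit 584) (nat_lit 292)) (XT.lf (nat_lit 0) (nat_lit 28683324657) (nat_lit 380) (nat_lit 5187549513) (nat_lit 76) (nat_lit 11637283547) (nat_lit 126) (nat_lit 5) (nat_lit 131) (nat_lit 5) (nat_lit 127) (nat_lit 5) (nat_lit 685) (nat_lit 584) (nat_lit 291))) (XT.nd (nat_lit 73320) (nat_lit 0) (nat_lit 29184) (XT.lf (nat_lit 0) (nat_lit 23333513130) (nat_lit 304) (nat_lit 17345020055) (nat_lit 380) (nat_lit 5401500171) (nat_lit 122) (nat_lit 5) (nat_lit 126) (nat_lit 5) (nat_lit 127) (nat_lit 5) (nat_lit 686) (nat_lit 584) (nat_lit 290)) (XT.lf (nat_lit 0) (nat_lit 2120521602) (nat_lit 0) (nat_lit 2120521602) (nat_lit 1748) (nat_lit 3214688005) (nat_lit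 506) (nat_lit 5) (nat_lit 506) (nat_lit 3) (nat_lit 529) (nat_lit 3) (nat_lit 585) (nat_lit 585) (nat_lit 390))))))))
noncomputable def xc184 : XT := (XT.nd (nat_lit 2418) (nat_lit 13148) (nat_lit 0) (XT.nd (nat_lit 1170) (nat_lit 4408) (nat_lit 0) (XT.nd (nat_lit 546) (nat_lit 1444) (nat_lit 0) (XT.nd (nat_lit 234) (nat_lit 0) (nat_lit 76) (XT.nd (nat_lit 78) (nat_lit 0) (nat_lit 0) (XT.lf (nat_lit 0) (nat_lit 8888597226) (nat_lit 1748) (nat_lit 3261540061) (nat_lit 1824) (nat_lit 2903996557) (nat_lit 506) (nat_lit 5) (nat_lit 529) (nat_lit 3) (nat_lit 530) (nat_lit 5) (nat_lit 586) (nat_lit 585) (nat_lit 389)) (XT.nd (nat_lit 78) (nat_lit 0) (nat_lit 76) (XT.lf (nat_lit 76) (nat_lit 4319933802) (nat_lit 0) (nat_lit 5031527570) (nat_lit 1824) (nat_lit 5847233108) (nat_lit 507) (nat_lit 5) (nat_lit 506) (nat_lit 5) (nat_lit 530) (nat_lit 5) (nat_lit 587) (nat_lit 585) (nat_lit 388)) (XT.lf (nat_lit 0) (nat_lit 9852330428) (nat_lit 1748) (nat_lit 3267385980)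 (nat_lit 1824) (nat_lit 2225855210) (nat_lit 507) (nat_lit 5) (nat_lit 530) (nat_lit 5) (nat_lit 531) (nat_lit 5) (nat_lit 588) (nat_lit 585) (nat_lit 387)))) (XT.nd (nat_lit 156) (nat_lit 0) (nat_lit 76) (XT.nd (nat_lit 78) (nat_lit 0) (nat_lit 76) (XT.lf (nat_lit 76) (nat_lit 4517927165) (nat_lit 0) (nat_lit 5900337529) (nat_lit 1824) (nat_lit 5076020885) (nat_lit 508) (nat_lit 5) (nat_lit 507) (nat_lit 5) (nat_lit 531) (nat_lit 5) (nat_lit 589) (nat_lit 585) (nat_lit 386)) (XT.lf (nat_lit 0) (nat_lit 11019626656) (nat_lit 1748) (nat_lit 3156309839) (nat_lit 1824) (nat_lit 1469555376) (nat_lit 508) (nat_lit 5) (nat_lit 531) (nat_lit 5) (nat_lit 532) (nat_lit 5) (nat_lit 590) (nat_lit 585) (nat_lit 385))) (XT.nd (nat_lit 78) (nat_lit 0) (nat_lit 76) (XT.lf (nat_lit 76) (nat_lit 4840266538) (nat_lit 0) (nat_lit 6855933344) (nat_lit 1824) (nat_lit 4102258955) (nat_lit 509) (nat_lit 5) (nat_lit 508) (nat_lit 5) (nat_lit 532) (nat_lit 5) (nat_lit 591) (nat_lit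 585) (nat_lit 384)) (XT.lf (nat_lit 0) (nat_lit 12404406671) (nat_lit 1748) (nat_lit 2923020629) (nat_lit 1824) (nat_lit 626696023) (nat_lit 509) (nat_lit 5) (nat_lit 532) (nat_lit 5) (nat_lit 533) (nat_lit 5) (nat_lit 592) (nat_lit 585) (nat_lit 383))))) (XT.nd (nat_lit 312) (nat_lit 1672) (nat_lit 0) (XT.nd (nat_lit 156) (nat_lit 0) (nat_lit 76) (XT.nd (nat_lit 78) (nat_lit 0) (nat_lit 0) (XT.lf (nat_lit 76) (nat_lit 5292535747) (nat_lit 0) (nat_lit 7906966615) (nat_lit 1824) (nat_lit 2911944461) (nat_lit 510) (nat_lit 5) (nat_lit 509) (nat_lit 5) (nat_lit 533) (nat_lit 5) (nat_lit 593) (nat_lit 585) (nat_lit 382)) (XT.lf (nat_lit 76) (nat_lit 13707726284) (nat_lit 0) (nat_lit 315457425) (nat_lit 1824) (nat_lit 2248479623) (nat_lit 510) (nat_lit 5) (nat_lit 509) (nat_lit 5) (nat_lit 533) (nat_lit 5) (nat_lit 594) (nat_lit 585) (nat_lit 381))) (XT.nd (nat_lit 78) (nat_lit 0) (nat_lit 0) (XT.lf (nat_lit 76) (nat_lit 5880667887) (nat_lit 0) (nat_lit 9062300126)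 (nat_lit 1824) (nat_lit 1490523783) (nat_lit 511) (nat_lit 5) (nat_lit 510) (nat_lit 5) (nat_lit 534) (nat_lit 5) (nat_lit 595) (nat_lit 585) (nat_lit 380)) (XT.lf (nat_lit 76) (nat_lit 14522463761) (nat_lit 0) (nat_lit 1371291124) (nat_lit 1824) (nat_lit 704550012) (nat_lit 511) (nat_lit 5) (nat_lit 510) (nat_lit 5) (nat_lit 534) (nat_lit 5) (nat_lit 596) (nat_lit 585) (nat_lit 379)))) (XT.nd (nat_lit 156) (nat_lit 0) (nat_lit 76) (XT.nd (nat_lit 78) (nat_lit 0) (nat_lit 0) (XT.lf (nat_lit 0) (nat_lit 174813418) (nat_lit 1824) (nat_lit 10155041362) (nat_lit 1900) (nat_lit 6434968179) (nat_lit 487) (nat_lit 5) (nat_lit 511) (nat_lit 5) (nat_lit 512) (nat_lit 5) (nat_lit 597) (nat_lit 585) (nat_lit 378)) (XT.lf (nat_lit 0) (nat_lit 1078971362) (nat_lit 1824) (nat_lit 1455434174) (nat_lit 1900) (nat_lit 14399840077) (nat_lit 487) (nat_lit 5) (nat_lit 511) (nat_lit 5) (nat_lit 512) (nat_lit 5) (nat_lit 598) (nat_lit 585) (nat_lit 377))) (XT.nd (nat_lit 78)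 (nat_lit 0) (nat_lit 0) (XT.lf (nat_lit 0) (nat_lit 2079149320) (nat_lit 1824) (nat_lit 9629393799) (nat_lit 1900) (nat_lit 5396955055) (nat_lit 488) (nat_lit 5) (nat_lit 512) (nat_lit 5) (nat_lit 513) (nat_lit 5) (nat_lit 599) (nat_lit 585) (nat_lit 376)) (XT.lf (nat_lit 0) (nat_lit 3119710587) (nat_lit 1824) (nat_lit 695305379) (nat_lit 1900) (nat_lit 13464752411) (nat_lit 488) (nat_lit 5) (nat_lit 512) (nat_lit 5) (nat_lit 513) (nat_lit 5) (nat_lit 600) (nat_lit 585) (nat_lit 375)))))) (XT.nd (nat_lit 624) (nat_lit 4560) (nat_lit 0) (XT.nd (nat_lit 312) (nat_lit 0) (nat_lit 152) (XT.nd (nat_lit 156) (nat_lit 0) (nat_lit 76) (XT.nd (nat_lit 78) (nat_lit 0) (nat_lit 0) (XT.lf (nat_lit 0) (nat_lit 4258201857) (nat_lit 1824) (nat_lit 8959543237) (nat_lit 1900) (nat_lit 4238236698) (nat_lit 489) (nat_lit 5) (nat_lit 513) (nat_lit 5) (nat_lit 514) (nat_lit 5) (nat_lit 601) (nat_lit 585) (nat_lit 374)) (XT.lf (nat_lit 76) (nat_lit 218897947) (nat_lit 0) (nat_lit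 5225936808) (nat_lit 1900) (nat_lit 12190377465) (nat_lit 490) (nat_lit 5) (nat_lit 489) (nat_lit 5) (nat_lit 514) (nat_lit 5) (nat_lit 602) (nat_lit 585) (nat_lit 373))) (XT.nd (nat_lit 78) (nat_lit 0) (nat_lit 0) (XT.lf (nat_lit 0) (nat_lit 6728804520) (nat_lit 1824) (nat_lit 8138453491) (nat_lit 1900) (nat_lit 2949297336) (nat_lit 490) (nat_lit 5) (nat_lit 514) (nat_lit 5) (nat_lit 515) (nat_lit 5) (nat_lit 603) (nat_lit 585) (nat_lit 372)) (XT.lf (nat_lit 76) (nat_lit 1302942187) (nat_lit 0) (nat_lit 6772783004) (nat_lit 1900) (nat_lit 9925054889) (nat_lit 491) (nat_lit 5) (nat_lit 490) (nat_lit 5) (nat_lit 515) (nat_lit 5) (nat_lit 604) (nat_lit 585) (nat_lit 371)))) (XT.nd (nat_lit 156) (nat_lit 0) (nat_lit 0) (XT.nd (nat_lit 78) (nat_lit 0) (nat_lit 0) (XT.lf (nat_lit 0) (nat_lit 9508487430) (nat_lit 1824) (nat_lit 7158701090) (nat_lit 1900) (nat_lit 1520322893) (nat_lit 491) (nat_lit 5) (nat_lit 515) (nat_lit 5) (nat_lit 516) (nat_lit 5) (nat_lit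 605) (nat_lit 585) (nat_lit 370)) (XT.lf (nat_lit 76) (nat_lit 2555375242) (nat_lit 0) (nat_lit 8470381351) (nat_lit 1900) (nat_lit 7351103913) (nat_lit 492) (nat_lit 5) (nat_lit 491) (nat_lit 5) (nat_lit 516) (nat_lit 5) (nat_lit 606) (nat_lit 585) (nat_lit 369))) (XT.nd (nat_lit 78) (nat_lit 0) (nat_lit 76) (XT.lf (nat_lit 76) (nat_lit 12556296269) (nat_lit 0) (nat_lit 59601745) (nat_lit 1900) (nat_lit 5953248192) (nat_lit 492) (nat_lit 5) (nat_lit 491) (nat_lit 5) (nat_lit 516) (nat_lit 5) (nat_lit 607) (nat_lit 585) (nat_lit 368)) (XT.lf (nat_lit 76) (nat_lit 3984398649) (nat_lit 0) (nat_lit 10329229423) (nat_lit 1900) (nat_lit 4450133991) (nat_lit 493) (nat_lit 5) (nat_lit 492) (nat_lit 5) (nat_lit 517) (nat_lit 5) (nat_lit 608) (nat_lit 585) (nat_lit 367))))) (XT.nd (nat_lit 312) (nat_lit 1824) (nat_lit 0) (XT.nd (nat_lit 156) (nat_lit 1216) (nat_lit 0) (XT.nd (nat_lit 78) (nat_lit 1748) (nat_lit 0) (XT.lf (nat_lit 76) (nat_lit 14258225630) (nat_lit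 0) (nat_lit 1822508289) (nat_lit 1900) (nat_lit 2880828050) (nat_lit 493) (nat_lit 5) (nat_lit 492) (nat_lit 5) (nat_lit 517) (nat_lit 5) (nat_lit 609) (nat_lit 585) (nat_lit 366)) (XT.lf (nat_lit 0) (nat_lit 5598640932) (nat_lit 1824) (nat_lit 12360183413) (nat_lit 1900) (nat_lit 1202980833) (nat_lit 469) (nat_lit 5) (nat_lit 493) (nat_lit 5) (nat_lit 494) (nat_lit 5) (nat_lit 610) (nat_lit 585) (nat_lit 365))) (XT.nd (nat_lit 78) (nat_lit 1140) (nat_lit 0) (XT.lf (nat_lit 0) (nat_lit 540424145) (nat_lit 1900) (nat_lit 3215122799) (nat_lit 76) (nat_lit 15609667056) (nat_lit 468) (nat_lit 5) (nat_lit 493) (nat_lit 5) (nat_lit 469) (nat_lit 5) (nat_lit 611) (nat_lit 585) (nat_lit 364)) (XT.lf (nat_lit 0) (nat_lit 2378718123) (nat_lit 1216) (nat_lit 12179800047) (nat_lit 76) (nat_lit 5012491364) (nat_lit 453) (nat_lit 5) (nat_lit 469) (nat_lit 5) (nat_lit 454) (nat_lit 5) (nat_lit 612) (nat_lit 585) (nat_lit 363)))) (XT.nd (nat_lit 156) (nat_lit 912) (nat_lit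 0) (XT.nd (nat_lit 78) (nat_lit 912) (nat_lit 0) (XT.lf (nat_lit 0) (nat_lit 4295371549) (nat_lit 1216) (nat_lit 1556772914) (nat_lit 76) (nat_lit 13927944784) (nat_lit 453) (nat_lit 5) (nat_lit 469) (nat_lit 5) (nat_lit 454) (nat_lit 5) (nat_lit 613) (nat_lit 585) (nat_lit 362)) (XT.lf (nat_lit 0) (nat_lit 6326544574) (nat_lit 988) (nat_lit 10614763464) (nat_lit 76) (nat_lit 3050518926) (nat_lit 441) (nat_lit 5) (nat_lit 454) (nat_lit 5) (nat_lit 442) (nat_lit 5) (nat_lit 614) (nat_lit 585) (nat_lit 361))) (XT.nd (nat_lit 78) (nat_lit 0) (nat_lit 0) (XT.lf (nat_lit 0) (nat_lit 303745792) (nat_lit 912) (nat_lit 8141011797) (nat_lit 988) (nat_lit 11762113652) (nat_lit 429) (nat_lit 5) (nat_lit 441) (nat_lit 5) (nat_lit 442) (nat_lit 5) (nat_lit 615) (nat_lit 585) (nat_lit 360)) (XT.lf (nat_lit 0) (nat_lit 10677700543) (nat_lit 988) (nat_lit 8850744661) (nat_lit 76) (nat_lit 896324019) (nat_lit 429) (nat_lit 5) (nat_lit 442) (nat_lit 5) (nat_lit 430) (nat_lit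 5) (nat_lit 616) (nat_lit 585) (nat_lit 359))))))) (XT.nd (nat_lit 1170) (nat_lit 6536) (nat_lit 0) (XT.nd (nat_lit 546) (nat_lit 3116) (nat_lit 0) (XT.nd (nat_lit 234) (nat_lit 1748) (nat_lit 0) (XT.nd (nat_lit 78) (nat_lit 912) (nat_lit 0) (XT.lf (nat_lit 0) (nat_lit 2395710489) (nat_lit 836) (nat_lit 10624393768) (nat_lit 912) (nat_lit 7625625000) (nat_lit 418) (nat_lit 5) (nat_lit 429) (nat_lit 5) (nat_lit 430) (nat_lit 5) (nat_lit 617) (nat_lit 585) (nat_lit 358)) (XT.nd (nat_lit 78) (nat_lit 912) (nat_lit 0) (XT.lf (nat_lit 0) (nat_lit 13982618943) (nat_lit 836) (nat_lit 1481526244) (nat_lit 912) (nat_lit 5405867650) (nat_lit 418) (nat_lit 5) (nat_lit 429) (nat_lit 5) (nat_lit 430) (nat_lit 5) (nat_lit 618) (nat_lit 585) (nat_lit 357)) (XT.lf (nat_lit 0) (nat_lit 4708857145) (nat_lit 912) (nat_lit 13325199797) (nat_lit 988) (nat_lit 3063185473) (nat_lit 406) (nat_lit 5) (nat_lit 418) (nat_lit 5) (nat_lit 419) (nat_lit 5) (nat_lit 619) (nat_lit 585)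 (nat_lit 356)))) (XT.nd (nat_lit 156) (nat_lit 836) (nat_lit 0) (XT.nd (nat_lit 78) (nat_lit 912) (nat_lit 0) (XT.lf (nat_lit 0) (nat_lit 16616027026) (nat_lit 912) (nat_lit 4090851824) (nat_lit 988) (nat_lit 621107619) (nat_lit 406) (nat_lit 5) (nat_lit 418) (nat_lit 5) (nat_lit 419) (nat_lit 5) (nat_lit 620) (nat_lit 585) (nat_lit 355)) (XT.lf (nat_lit 0) (nat_lit 1923127965) (nat_lit 912) (nat_lit 14320336980) (nat_lit 76) (nat_lit 5318080996) (nat_lit 394) (nat_lit 5) (nat_lit 406) (nat_lit 5) (nat_lit 395) (nat_lit 5) (nat_lit 621) (nat_lit 585) (nat_lit 354))) (XT.nd (nat_lit 78) (nat_lit 836) (nat_lit 0) (XT.lf (nat_lit 0) (nat_lit 4564523163) (nat_lit 912) (nat_lit 2337700340) (nat_lit 76) (nat_lit 14896379274) (nat_lit 394) (nat_lit 5) (nat_lit 406) (nat_lit 5) (nat_lit 395) (nat_lit 5) (nat_lit 622) (nat_lit 585) (nat_lit 353)) (XT.lf (nat_lit 0) (nat_lit 7336974102) (nat_lit 912) (nat_lit 12045139280) (nat_lit 76) (nat_lit 2656722924) (nat_lit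 383) (nat_lit 5) (nat_lit 395) (nat_lit 5) (nat_lit 384) (nat_lit 5) (nat_lit 623) (nat_lit 585) (nat_lit 352))))) (XT.nd (nat_lit 312) (nat_lit 1596) (nat_lit 0) (XT.nd (nat_lit 156) (nat_lit 760) (nat_lit 0) (XT.nd (nat_lit 78) (nat_lit 0) (nat_lit 0) (XT.lf (nat_lit 0) (nat_lit 273197427) (nat_lit 760) (nat_lit 9950753814) (nat_lit 836) (nat_lit 12058741833) (nat_lit 373) (nat_lit 5) (nat_lit 383) (nat_lit 5) (nat_lit 384) (nat_lit 5) (nat_lit 624) (nat_lit 585) (nat_lit 351)) (XT.lf (nat_lit 0) (nat_lit 12996783640) (nat_lit 760) (nat_lit 248569525) (nat_lit 836) (nat_lit 9284540217) (nat_lit 373) (nat_lit 5) (nat_lit 383) (nat_lit 5) (nat_lit 384) (nat_lit 5) (nat_lit 625) (nat_lit 585) (nat_lit 350))) (XT.nd (nat_lit 78) (nat_lit 0) (nat_lit 0) (XT.lf (nat_lit 0) (nat_lit 3167318919) (nat_lit 760) (nat_lit 13239003232) (nat_lit 836) (nat_lit 6374132872) (nat_lit 363) (nat_lit 5) (nat_lit 373) (nat_lit 5) (nat_lit 374) (nat_lit 5) (nat_lit 626) (nat_lit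 585) (nat_lit 349)) (XT.lf (nat_lit 0) (nat_lit 16244954867) (nat_lit 760) (nat_lit 3447150253) (nat_lit 836) (nat_lit 3342690989) (nat_lit 363) (nat_lit 5) (nat_lit 373) (nat_lit 5) (nat_lit 374) (nat_lit 5) (nat_lit 627) (nat_lit 585) (nat_lit 348)))) (XT.nd (nat_lit 156) (nat_lit 760) (nat_lit 0) (XT.nd (nat_lit 78) (nat_lit 76) (nat_lit 0) (XT.lf (nat_lit 0) (nat_lit 6326073352) (nat_lit 760) (nat_lit 16797132573) (nat_lit 836) (nat_lit 169426153) (nat_lit 353) (nat_lit 5) (nat_lit 363) (nat_lit 5) (nat_lit 364) (nat_lit 5) (nat_lit 628) (nat_lit 585) (nat_lit 347)) (XT.lf (nat_lit 0) (nat_lit 3091856581) (nat_lit 836) (nat_lit 3805786424) (nat_lit 76) (nat_lit 16656287943) (nat_lit 352) (nat_lit 5) (nat_lit 363) (nat_lit 5) (nat_lit 353) (nat_lit 5) (nat_lit 629) (nat_lit 585) (nat_lit 346))) (XT.nd (nat_lit 78) (nat_lit 0) (nat_lit 0) (XT.lf (nat_lit 0) (nat_lit 6496702941) (nat_lit 836) (nat_lit 14099901881) (nat_lit 76) (nat_lit 3222216542) (nat_lit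 342) (nat_lit 5) (nat_lit 353) (nat_lit 5) (nat_lit 343) (nat_lit 5) (nat_lit 630) (nat_lit 585) (nat_lit 345)) (XT.lf (nat_lit 0) (nat_lit 10037242090) (nat_lit 836) (nat_lit 572970384) (nat_lit 76) (nat_lit 13477445292) (nat_lit 342) (nat_lit 5) (nat_lit 353) (nat_lit 5) (nat_lit 343) (nat_lit 5) (nat_lit 631) (nat_lit 585) (nat_lit 344)))))) (XT.nd (nat_lit 624) (nat_lit 3116) (nat_lit 0) (XT.nd (nat_lit 312) (nat_lit 1292) (nat_lit 0) (XT.nd (nat_lit 156) (nat_lit 760) (nat_lit 0) (XT.nd (nat_lit 78) (nat_lit 684) (nat_lit 0) (XT.lf (nat_lit 0) (nat_lit 13395944239) (nat_lit 684) (nat_lit 335905632) (nat_lit 760) (nat_lit 10628355961) (nat_lit 333) (nat_lit 5) (nat_lit 342) (nat_lit 5) (nat_lit 343) (nat_lit 5) (nat_lit 632) (nat_lit 585) (nat_lit 343)) (XT.lf (nat_lit 0) (nat_lit 2982822122) (nat_lit 684) (nat_lit 14602949847) (nat_lit 760) (nat_lit 7050724540) (nat_lit 324) (nat_lit 5) (nat_lit 333) (nat_lit 5) (nat_lit 334) (nat_lit 5) (nat_lit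 633) (nat_lit 585) (nat_lit 342))) (XT.nd (nat_lit 78) (nat_lit 760) (nat_lit 0) (XT.lf (nat_lit 0) (nat_lit 17350957294) (nat_lit 684) (nat_lit 4237969958) (nat_lit 760) (nat_lit 3327942741) (nat_lit 324) (nat_lit 5) (nat_lit 333) (nat_lit 5) (nat_lit 334) (nat_lit 5) (nat_lit 634) (nat_lit 585) (nat_lit 341)) (XT.lf (nat_lit 0) (nat_lit 545707609) (nat_lit 760) (nat_lit 18356752998) (nat_lit 76) (nat_lit 6298678132) (nat_lit 314) (nat_lit 5) (nat_lit 324) (nat_lit 5) (nat_lit 315) (nat_lit 5) (nat_lit 635) (nat_lit 585) (nat_lit 340)))) (XT.nd (nat_lit 156) (nat_lit 608) (nat_lit 0) (XT.nd (nat_lit 78) (nat_lit 684) (nat_lit 0) (XT.lf (nat_lit 0) (nat_lit 4527940161) (nat_lit 760) (nat_lit 3899333568) (nat_lit 76) (nat_lit 17061865853) (nat_lit 314) (nat_lit 5) (nat_lit 324) (nat_lit 5) (nat_lit 315) (nat_lit 5) (nat_lit 636) (nat_lit 585) (nat_lit 339)) (XT.lf (nat_lit 0) (nat_lit 8672802439) (nat_lit 760) (nat_lit 14809514099) (nat_lit 76) (nat_lit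 2298924287) (nat_lit 305) (nat_lit 5) (nat_lit 315) (nat_lit 5) (nat_lit 306) (nat_lit 5) (nat_lit 637) (nat_lit 585) (nat_lit 338))) (XT.nd (nat_lit 78) (nat_lit 0) (nat_lit 0) (XT.lf (nat_lit 0) (nat_lit 54925629) (nat_lit 608) (nat_lit 12924703790) (nat_lit 684) (nat_lit 13097973405) (nat_lit 297) (nat_lit 5) (nat_lit 305) (nat_lit 5) (nat_lit 306) (nat_lit 5) (nat_lit 638) (nat_lit 585) (nat_lit 337)) (XT.lf (nat_lit 0) (nat_lit 15413213107) (nat_lit 608) (nat_lit 2055360917) (nat_lit 684) (nat_lit 8909398498) (nat_lit 297) (nat_lit 5) (nat_lit 305) (nat_lit 5) (nat_lit 306) (nat_lit 5) (nat_lit 639) (nat_lit 585) (nat_lit 336))))) (XT.nd (nat_lit 312) (nat_lit 1824) (nat_lit 0) (XT.nd (nat_lit 156) (nat_lit 684) (nat_lit 0) (XT.nd (nat_lit 78) (nat_lit 0) (nat_lit 0) (XT.lf (nat_lit 0) (nat_lit 4389075111) (nat_lit 608) (nat_lit 17742019897) (nat_lit 684) (nat_lit 4551578733) (nat_lit 289) (nat_lit 5) (nat_lit 297) (nat_lit 5) (nat_lit 298) (nat_lit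 5) (nat_lit 640) (nat_lit 585) (nat_lit 335)) (XT.lf (nat_lit 0) (nat_lit 20180683909) (nat_lit 608) (nat_lit 6789985536) (nat_lit 684) (nat_lit 21123556) (nat_lit 289) (nat_lit 5) (nat_lit 297) (nat_lit 5) (nat_lit 298) (nat_lit 5) (nat_lit 641) (nat_lit 585) (nat_lit 334))) (XT.nd (nat_lit 78) (nat_lit 0) (nat_lit 0) (XT.lf (nat_lit 0) (nat_lit 4624245766) (nat_lit 684) (nat_lit 18268448410) (nat_lit 76) (nat_lit 4412110545) (nat_lit 280) (nat_lit 5) (nat_lit 289) (nat_lit 5) (nat_lit 281) (nat_lit 5) (nat_lit 642) (nat_lit 585) (nat_lit 333)) (XT.lf (nat_lit 0) (nat_lit 9449992105) (nat_lit 684) (nat_lit 2379608619) (nat_lit 76) (nat_lit 15792718182) (nat_lit 280) (nat_lit 5) (nat_lit 289) (nat_lit 5) (nat_lit 281) (nat_lit 5) (nat_lit 643) (nat_lit 585) (nat_lit 332)))) (XT.nd (nat_lit 156) (nat_lit 684) (nat_lit 0) (XT.nd (nat_lit 78) (nat_lit 532) (nat_lit 0) (XT.lf (nat_lit 0) (nat_lit 14006654729) (nat_lit 608) (nat_lit 453378938) (nat_lit 684)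 (nat_lit 13484394171) (nat_lit 272) (nat_lit 5) (nat_lit 280) (nat_lit 5) (nat_lit 281) (nat_lit 5) (nat_lit 644) (nat_lit 585) (nat_lit 331)) (XT.lf (nat_lit 0) (nat_lit 2435598900) (nat_lit 532) (nat_lit 17235830213) (nat_lit 608) (nat_lit 8599526844) (nat_lit 265) (nat_lit 5) (nat_lit 272) (nat_lit 5) (nat_lit 273) (nat_lit 5) (nat_lit 645) (nat_lit 585) (nat_lit 330))) (XT.nd (nat_lit 78) (nat_lit 684) (nat_lit 0) (XT.lf (nat_lit 0) (nat_lit 19318269915) (nat_lit 532) (nat_lit 5762199916) (nat_lit 608) (nat_lit 3521676530) (nat_lit 265) (nat_lit 5) (nat_lit 272) (nat_lit 5) (nat_lit 273) (nat_lit 5) (nat_lit 646) (nat_lit 585) (nat_lit 329)) (XT.lf (nat_lit 0) (nat_lit 1721796198) (nat_lit 684) (nat_lit 21293137555) (nat_lit 76) (nat_lit 5923095487) (nat_lit 256) (nat_lit 5) (nat_lit 265) (nat_lit 5) (nat_lit 257) (nat_lit 5) (nat_lit 647) (nat_lit 585) (nat_lit 328))))))))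
noncomputable def xc185 : XT := (XT.nd (nat_lit 2418) (nat_lit 1748) (nat_lit 0) (XT.nd (nat_lit 1170) (nat_lit 3648) (nat_lit 0) (XT.nd (nat_lit 546) (nat_lit 2356) (nat_lit 0) (XT.nd (nat_lit 234) (nat_lit 1064) (nat_lit 0) (XT.nd (nat_lit 78) (nat_lit 1064) (nat_lit 0) (XT.lf (nat_lit 0) (nat_lit 7120872779) (nat_lit 684) (nat_lit 4307243501) (nat_lit 76) (nat_lit 17850090200) (nat_lit 256) (nat_lit 5) (nat_lit 265) (nat_lit 5) (nat_lit 257) (nat_lit 5) (nat_lit 648) (nat_lit 585) (nat_lit 327)) (XT.nd (nat_lit 78) (nat_lit 532) (nat_lit 0) (XT.lf (nat_lit 0) (nat_lit 12713679866) (nat_lit 608) (nat_lit 16439272560) (nat_lit 76) (nat_lit 470519925) (nat_lit 249) (nat_lit 5) (nat_lit 257) (nat_lit 5) (nat_lit 250) (nat_lit 5) (nat_lit 649) (nat_lit 585) (nat_lit 326)) (XT.lf (nat_lit 0) (nat_lit 1042599972) (nat_lit 532) (nat_lit 17484349012) (nat_lit 608) (nat_lit 11446522497) (nat_lit 242) (nat_lit 5) (nat_lit 249) (nat_lit 5) (nat_lit 250) (nat_lit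 5) (nat_lit 650) (nat_lit 585) (nat_lit 325)))) (XT.nd (nat_lit 156) (nat_lit 532) (nat_lit 0) (XT.nd (nat_lit 78) (nat_lit 532) (nat_lit 0) (XT.lf (nat_lit 0) (nat_lit 19092982969) (nat_lit 532) (nat_lit 5470907081) (nat_lit 608) (nat_lit 5764432473) (nat_lit 242) (nat_lit 5) (nat_lit 249) (nat_lit 5) (nat_lit 250) (nat_lit 5) (nat_lit 651) (nat_lit 585) (nat_lit 324)) (XT.lf (nat_lit 0) (nat_lit 117149471) (nat_lit 532) (nat_lit 23833282953) (nat_lit 76) (nat_lit 6738108944) (nat_lit 235) (nat_lit 5) (nat_lit 242) (nat_lit 5) (nat_lit 236) (nat_lit 5) (nat_lit 652) (nat_lit 585) (nat_lit 323))) (XT.nd (nat_lit 78) (nat_lit 532) (nat_lit 0) (XT.lf (nat_lit 0) (nat_lit 6148527570) (nat_lit 532) (nat_lit 5673346155) (nat_lit 76) (nat_lit 19231141858) (nat_lit 235) (nat_lit 5) (nat_lit 242) (nat_lit 5) (nat_lit 236) (nat_lit 5) (nat_lit 653) (nat_lit 585) (nat_lit 322)) (XT.lf (nat_lit 0) (nat_lit 12386373068) (nat_lit 608) (nat_lit 18410631688) (nat_lit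 76) (nat_lit 626057786) (nat_lit 228) (nat_lit 5) (nat_lit 236) (nat_lit 5) (nat_lit 229) (nat_lit 5) (nat_lit 654) (nat_lit 585) (nat_lit 321))))) (XT.nd (nat_lit 312) (nat_lit 1368) (nat_lit 0) (XT.nd (nat_lit 156) (nat_lit 532) (nat_lit 0) (XT.nd (nat_lit 78) (nat_lit 0) (nat_lit 0) (XT.lf (nat_lit 0) (nat_lit 270183330) (nat_lit 456) (nat_lit 18594391311) (nat_lit 532) (nat_lit 12933623871) (nat_lit 222) (nat_lit 5) (nat_lit 228) (nat_lit 5) (nat_lit 229) (nat_lit 5) (nat_lit 655) (nat_lit 585) (nat_lit 320)) (XT.lf (nat_lit 0) (nat_lit 19570305657) (nat_lit 456) (nat_lit 6022839918) (nat_lit 532) (nat_lit 6585275573) (nat_lit 222) (nat_lit 5) (nat_lit 228) (nat_lit 5) (nat_lit 229) (nat_lit 5) (nat_lit 656) (nat_lit 585) (nat_lit 319))) (XT.nd (nat_lit 78) (nat_lit 76) (nat_lit 0) (XT.lf (nat_lit 0) (nat_lit 6730461726) (nat_lit 456) (nat_lit 25810982686) (nat_lit 532) (nat_lit 23100748) (nat_lit 216) (nat_lit 5) (nat_lit 222) (nat_lit 5) (nat_lit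 223) (nat_lit 5) (nat_lit 657) (nat_lit 585) (nat_lit 318)) (XT.lf (nat_lit 0) (nat_lit 6705206079) (nat_lit 532) (nat_lit 6417588575) (nat_lit 76) (nat_lit 19832283467) (nat_lit 215) (nat_lit 5) (nat_lit 222) (nat_lit 5) (nat_lit 216) (nat_lit 5) (nat_lit 658) (nat_lit 585) (nat_lit 317)))) (XT.nd (nat_lit 156) (nat_lit 456) (nat_lit 0) (XT.nd (nat_lit 78) (nat_lit 456) (nat_lit 0) (XT.lf (nat_lit 0) (nat_lit 13561164737) (nat_lit 456) (nat_lit 92023118) (nat_lit 532) (nat_lit 19698522520) (nat_lit 209) (nat_lit 5) (nat_lit 215) (nat_lit 5) (nat_lit 216) (nat_lit 5) (nat_lit 659) (nat_lit 585) (nat_lit 316)) (XT.lf (nat_lit 0) (nat_lit 183700906) (nat_lit 456) (nat_lit 20684060227) (nat_lit 532) (nat_lit 12885961552) (nat_lit 203) (nat_lit 5) (nat_lit 209) (nat_lit 5) (nat_lit 210) (nat_lit 5) (nat_lit 660) (nat_lit 585) (nat_lit 315))) (XT.nd (nat_lit 78) (nat_lit 456) (nat_lit 0) (XT.lf (nat_lit 0) (nat_lit 20821310493) (nat_lit 456) (nat_lit 7536142017)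 (nat_lit 532) (nat_lit 5803706246) (nat_lit 203) (nat_lit 5) (nat_lit 209) (nat_lit 5) (nat_lit 210) (nat_lit 5) (nat_lit 661) (nat_lit 585) (nat_lit 314)) (XT.lf (nat_lit 0) (nat_lit 1485439233) (nat_lit 456) (nat_lit 27235414262) (nat_lit 76) (nat_lit 5854028260) (nat_lit 197) (nat_lit 5) (nat_lit 203) (nat_lit 5) (nat_lit 198) (nat_lit 5) (nat_lit 662) (nat_lit 585) (nat_lit 313)))))) (XT.nd (nat_lit 624) (nat_lit 1596) (nat_lit 0) (XT.nd (nat_lit 312) (nat_lit 1216) (nat_lit 0) (XT.nd (nat_lit 156) (nat_lit 380) (nat_lit 0) (XT.nd (nat_lit 78) (nat_lit 456) (nat_lit 0) (XT.lf (nat_lit 0) (nat_lit 8980215442) (nat_lit 456) (nat_lit 6474579074) (nat_lit 76) (nat_lit 19538566303) (nat_lit 197) (nat_lit 5) (nat_lit 203) (nat_lit 5) (nat_lit 198) (nat_lit 5) (nat_lit 663) (nat_lit 585) (nat_lit 312)) (XT.lf (nat_lit 0) (nat_lit 14893123585) (nat_lit 456) (nat_lit 1825977611) (nat_lit 532) (nat_lit 18699224032) (nat_lit 191) (nat_lit 5) (nat_lit 197) (nat_lit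 5) (nat_lit 198) (nat_lit 5) (nat_lit 664) (nat_lit 585) (nat_lit 311))) (XT.nd (nat_lit 78) (nat_lit 0) (nat_lit 0) (XT.lf (nat_lit 0) (nat_lit 853841412) (nat_lit 380) (nat_lit 23884139328) (nat_lit 456) (nat_lit 11111303907) (nat_lit 186) (nat_lit 5) (nat_lit 191) (nat_lit 5) (nat_lit 192) (nat_lit 5) (nat_lit 665) (nat_lit 585) (nat_lit 310)) (XT.lf (nat_lit 0) (nat_lit 22922768381) (nat_lit 380) (nat_lit 10141777117) (nat_lit 456) (nat_lit 3221371646) (nat_lit 186) (nat_lit 5) (nat_lit 191) (nat_lit 5) (nat_lit 192) (nat_lit 5) (nat_lit 666) (nat_lit 585) (nat_lit 309)))) (XT.nd (nat_lit 156) (nat_lit 760) (nat_lit 0) (XT.nd (nat_lit 78) (nat_lit 0) (nat_lit 0) (XT.lf (nat_lit 0) (nat_lit 4843410049) (nat_lit 456) (nat_lit 27973297557) (nat_lit 76) (nat_lit 3912341021) (nat_lit 180) (nat_lit 5) (nat_lit 186) (nat_lit 5) (nat_lit 181) (nat_lit 5) (nat_lit 667) (nat_lit 585) (nat_lit 308)) (XT.lf (nat_lit 0) (nat_lit 13181432817) (nat_lit 456) (nat_lit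 5773815152) (nat_lit 76) (nat_lit 18222267353) (nat_lit 180) (nat_lit 5) (nat_lit 186) (nat_lit 5) (nat_lit 181) (nat_lit 5) (nat_lit 668) (nat_lit 585) (nat_lit 307))) (XT.nd (nat_lit 78) (nat_lit 380) (nat_lit 0) (XT.lf (nat_lit 0) (nat_lit 17090225491) (nat_lit 380) (nat_lit 4704606110) (nat_lit 456) (nat_lit 15837947476) (nat_lit 175) (nat_lit 5) (nat_lit 180) (nat_lit 5) (nat_lit 181) (nat_lit 5) (nat_lit 669) (nat_lit 585) (nat_lit 306)) (XT.lf (nat_lit 0) (nat_lit 2356673432) (nat_lit 380) (nat_lit 28339627097) (nat_lit 456) (nat_lit 7398531574) (nat_lit 170) (nat_lit 5) (nat_lit 175) (nat_lit 5) (nat_lit 176) (nat_lit 5) (nat_lit 670) (nat_lit 585) (nat_lit 305))))) (XT.nd (nat_lit 312) (nat_lit 760) (nat_lit 0) (XT.nd (nat_lit 156) (nat_lit 380) (nat_lit 0) (XT.nd (nat_lit 78) (nat_lit 380) (nat_lit 0) (XT.lf (nat_lit 0) (nat_lit 1361404868) (nat_lit 456) (nat_lit 12614542823) (nat_lit 76) (nat_lit 24586669510) (nat_lit 169) (nat_lit 5) (nat_lit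 175) (nat_lit 5) (nat_lit 170) (nat_lit 5) (nat_lit 671) (nat_lit 585) (nat_lit 304)) (XT.lf (nat_lit 0) (nat_lit 10272298944) (nat_lit 456) (nat_lit 27978429746) (nat_lit 76) (nat_lit 786554756) (nat_lit 164) (nat_lit 5) (nat_lit 170) (nat_lit 5) (nat_lit 165) (nat_lit 5) (nat_lit 672) (nat_lit 585) (nat_lit 303))) (XT.nd (nat_lit 78) (nat_lit 380) (nat_lit 0) (XT.lf (nat_lit 0) (nat_lit 19536913757) (nat_lit 456) (nat_lit 4239693455) (nat_lit 76) (nat_lit 15741325782) (nat_lit 164) (nat_lit 5) (nat_lit 170) (nat_lit 5) (nat_lit 165) (nat_lit 5) (nat_lit 673) (nat_lit 585) (nat_lit 302)) (XT.lf (nat_lit 0) (nat_lit 20235743860) (nat_lit 380) (nat_lit 8880241360) (nat_lit 456) (nat_lit 10889627061) (nat_lit 159) (nat_lit 5) (nat_lit 164) (nat_lit 5) (nat_lit 165) (nat_lit 5) (nat_lit 674) (nat_lit 585) (nat_lit 301)))) (XT.nd (nat_lit 156) (nat_lit 380) (nat_lit 0) (XT.nd (nat_lit 78) (nat_lit 76) (nat_lit 0) (XT.lf (nat_lit 0) (nat_lit 4773625270) (nat_lit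 304) (nat_lit 34211433911) (nat_lit 380) (nat_lit 1516017586) (nat_lit 155) (nat_lit 5) (nat_lit 159) (nat_lit 5) (nat_lit 160) (nat_lit 5) (nat_lit 675) (nat_lit 585) (nat_lit 300)) (XT.lf (nat_lit 0) (nat_lit 8129705788) (nat_lit 380) (nat_lit 11043233194) (nat_lit 76) (nat_lit 21828663831) (nat_lit 154) (nat_lit 5) (nat_lit 159) (nat_lit 5) (nat_lit 155) (nat_lit 5) (nat_lit 676) (nat_lit 585) (nat_lit 299))) (XT.nd (nat_lit 78) (nat_lit 0) (nat_lit 0) (XT.lf (nat_lit 0) (nat_lit 14308872908) (nat_lit 380) (nat_lit 3729935878) (nat_lit 456) (nat_lit 23471314917) (nat_lit 149) (nat_lit 5) (nat_lit 154) (nat_lit 5) (nat_lit 155) (nat_lit 5) (nat_lit 677) (nat_lit 585) (nat_lit 298)) (XT.lf (nat_lit 0) (nat_lit 28296599856) (nat_lit 456) (nat_lit 1791595157) (nat_lit 76) (nat_lit 11937609907) (nat_lit 149) (nat_lit 5) (nat_lit 155) (nat_lit 5) (nat_lit 150) (nat_lit 5) (nat_lit 678) (nat_lit 585) (nat_lit 297))))))) (XT.nd (nat_lit 74490) (nat_lit 0) (nat_lit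 27436) (XT.nd (nat_lit 546) (nat_lit 0) (nat_lit 0) (XT.nd (nat_lit 234) (nat_lit 988) (nat_lit 0) (XT.nd (nat_lit 78) (nat_lit 456) (nat_lit 0) (XT.lf (nat_lit 0) (nat_lit 24418439316) (nat_lit 304) (nat_lit 14522246767) (nat_lit 380) (nat_lit 3607490925) (nat_lit 145) (nat_lit 5) (nat_lit 149) (nat_lit 5) (nat_lit 150) (nat_lit 5) (nat_lit 679) (nat_lit 585) (nat_lit 296)) (XT.nd (nat_lit 78) (nat_lit 0) (nat_lit 0) (XT.lf (nat_lit 0) (nat_lit 6701036229) (nat_lit 456) (nat_lit 34932260740) (nat_lit 76) (nat_lit 1445378039) (nat_lit 139) (nat_lit 5) (nat_lit 145) (nat_lit 5) (nat_lit 140) (nat_lit 5) (nat_lit 680) (nat_lit 585) (nat_lit 295)) (XT.lf (nat_lit 0) (nat_lit 17384028278) (nat_lit 456) (nat_lit 8547759177) (nat_lit 76) (nat_lit 17683186659) (nat_lit 139) (nat_lit 5) (nat_lit 145) (nat_lit 5) (nat_lit 140) (nat_lit 5) (nat_lit 681) (nat_lit 585) (nat_lit 294)))) (XT.nd (nat_lit 156) (nat_lit 380) (nat_lit 0) (XT.nd (nat_lit 78) (nat_lit 304)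 (nat_lit 0) (XT.lf (nat_lit 0) (nat_lit 18605126446) (nat_lit 304) (nat_lit 9794305350) (nat_lit 380) (nat_lit 15760192401) (nat_lit 135) (nat_lit 5) (nat_lit 139) (nat_lit 5) (nat_lit 140) (nat_lit 5) (nat_lit 682) (nat_lit 585) (nat_lit 293)) (XT.lf (nat_lit 0) (nat_lit 1677937728) (nat_lit 304) (nat_lit 38067084684) (nat_lit 380) (nat_lit 4967947318) (nat_lit 131) (nat_lit 5) (nat_lit 135) (nat_lit 5) (nat_lit 136) (nat_lit 5) (nat_lit 683) (nat_lit 585) (nat_lit 292))) (XT.nd (nat_lit 78) (nat_lit 304) (nat_lit 0) (XT.lf (nat_lit 0) (nat_lit 6196378203) (nat_lit 380) (nat_lit 15581079035) (nat_lit 76) (nat_lit 23494431569) (nat_lit 130) (nat_lit 5) (nat_lit 135) (nat_lit 5) (nat_lit 131) (nat_lit 5) (nat_lit 684) (nat_lit 585) (nat_lit 291)) (XT.lf (nat_lit 0) (nat_lit 12550387399) (nat_lit 304) (nat_lit 5046639799) (nat_lit 380) (nat_lit 28242711174) (nat_lit 126) (nat_lit 5) (nat_lit 130) (nat_lit 5) (nat_lit 131) (nat_lit 5) (nat_lit 685) (nat_lit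 585) (nat_lit 290))))) (XT.nd (nat_lit 73632) (nat_lit 0) (nat_lit 28956) (XT.nd (nat_lit 73476) (nat_lit 0) (nat_lit 28880) (XT.nd (nat_lit 73398) (nat_lit 0) (nat_lit 28880) (XT.lf (nat_lit 0) (nat_lit 29406992677) (nat_lit 380) (nat_lit 5043166993) (nat_lit 76) (nat_lit 11965159216) (nat_lit 126) (nat_lit 5) (nat_lit 131) (nat_lit 5) (nat_lit 127) (nat_lit 5) (nat_lit 686) (nat_lit 585) (nat_lit 289)) (XT.lf (nat_lit 0) (nat_lit 2313242099) (nat_lit 0) (nat_lit 2313242099) (nat_lit 1748) (nat_lit 2972339891) (nat_lit 506) (nat_lit 5) (nat_lit 506) (nat_lit 3) (nat_lit 529) (nat_lit 3) (nat_lit 586) (nat_lit 586) (nat_lit 388))) (XT.nd (nat_lit 78) (nat_lit 0) (nat_lit 0) (XT.lf (nat_lit 0) (nat_lit 9653906852) (nat_lit 1748) (nat_lit 3018324350) (nat_lit 1824) (nat_lit 2671216250) (nat_lit 506) (nat_lit 5) (nat_lit 529) (nat_lit 3) (nat_lit 530) (nat_lit 5) (nat_lit 587) (nat_lit 586) (nat_lit 387)) (XT.lf (nat_lit 76) (nat_lit 4712749738) (nat_lit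 0) (nat_lit 5403747660) (nat_lit 1824) (nat_lit 5374592879) (nat_lit 507) (nat_lit 5) (nat_lit 506) (nat_lit 5) (nat_lit 530) (nat_lit 5) (nat_lit 588) (nat_lit 586) (nat_lit 386)))) (XT.nd (nat_lit 156) (nat_lit 0) (nat_lit 76) (XT.nd (nat_lit 78) (nat_lit 0) (nat_lit 0) (XT.lf (nat_lit 0) (nat_lit 10614321605) (nat_lit 1748) (nat_lit 3019244786) (nat_lit 1824) (nat_lit 2007600163) (nat_lit 507) (nat_lit 5) (nat_lit 530) (nat_lit 5) (nat_lit 531) (nat_lit 5) (nat_lit 589) (nat_lit 586) (nat_lit 385)) (XT.lf (nat_lit 76) (nat_lit 4919712195) (nat_lit 0) (nat_lit 6262807003) (nat_lit 1824) (nat_lit 4610517048) (nat_lit 508) (nat_lit 5) (nat_lit 507) (nat_lit 5) (nat_lit 531) (nat_lit 5) (nat_lit 590) (nat_lit 586) (nat_lit 384))) (XT.nd (nat_lit 78) (nat_lit 0) (nat_lit 0) (XT.lf (nat_lit 0) (nat_lit 11783452519) (nat_lit 1748) (nat_lit 2901643149) (nat_lit 1824) (nat_lit 1262420452) (nat_lit 508) (nat_lit 5) (nat_lit 531) (nat_lit 5) (nat_lit 532) (nat_lit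 5) (nat_lit 591) (nat_lit 586) (nat_lit 383)) (XT.lf (nat_lit 76) (nat_lit 5252774013) (nat_lit 0) (nat_lit 7212177389) (nat_lit 1824) (nat_lit 3638763472) (nat_lit 509) (nat_lit 5) (nat_lit 508) (nat_lit 5) (nat_lit 532) (nat_lit 5) (nat_lit 592) (nat_lit 586) (nat_lit 382)))))) (XT.nd (nat_lit 624) (nat_lit 0) (nat_lit 76) (XT.nd (nat_lit 312) (nat_lit 1672) (nat_lit 0) (XT.nd (nat_lit 156) (nat_lit 0) (nat_lit 0) (XT.nd (nat_lit 78) (nat_lit 0) (nat_lit 0) (XT.lf (nat_lit 0) (nat_lit 13175440701) (nat_lit 1748) (nat_lit 2660071246) (nat_lit 1824) (nat_lit 427218660) (nat_lit 509) (nat_lit 5) (nat_lit 532) (nat_lit 5) (nat_lit 533) (nat_lit 5) (nat_lit 593) (nat_lit 586) (nat_lit 381)) (XT.lf (nat_lit 76) (nat_lit 5717681718) (nat_lit 0) (nat_lit 8260575823) (nat_lit 1824) (nat_lit 2445106970) (nat_lit 510) (nat_lit 5) (nat_lit 509) (nat_lit 5) (nat_lit 533) (nat_lit 5) (nat_lit 594) (nat_lit 586) (nat_lit 380))) (XT.nd (nat_lit 78) (nat_lit 0) (nat_lit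 76) (XT.lf (nat_lit 76) (nat_lit 14294915375) (nat_lit 0) (nat_lit 513403706) (nat_lit 1824) (nat_lit 1778668451) (nat_lit 510) (nat_lit 5) (nat_lit 509) (nat_lit 5) (nat_lit 533) (nat_lit 5) (nat_lit 595) (nat_lit 586) (nat_lit 379)) (XT.lf (nat_lit 76) (nat_lit 6320534981) (nat_lit 0) (nat_lit 9416941013) (nat_lit 1824) (nat_lit 1014757339) (nat_lit 511) (nat_lit 5) (nat_lit 510) (nat_lit 5) (nat_lit 534) (nat_lit 5) (nat_lit 596) (nat_lit 586) (nat_lit 378)))) (XT.nd (nat_lit 156) (nat_lit 0) (nat_lit 0) (XT.nd (nat_lit 78) (nat_lit 1748) (nat_lit 0) (XT.lf (nat_lit 76) (nat_lit 15128848073) (nat_lit 0) (nat_lit 1568711931) (nat_lit 1824) (nat_lit 222977366) (nat_lit 511) (nat_lit 5) (nat_lit 510) (nat_lit 5) (nat_lit 534) (nat_lit 5) (nat_lit 597) (nat_lit 586) (nat_lit 377)) (XT.lf (nat_lit 0) (nat_lit 658913564) (nat_lit 1824) (nat_lit 10027118211) (nat_lit 1900) (nat_lit 6404461125) (nat_lit 487) (nat_lit 5) (nat_lit 511) (nat_lit 5) (nat_lit 512)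 (nat_lit 5) (nat_lit 598) (nat_lit 586) (nat_lit 376))) (XT.nd (nat_lit 78) (nat_lit 0) (nat_lit 76) (XT.lf (nat_lit 0) (nat_lit 1571731061) (nat_lit 1824) (nat_lit 1160009545) (nat_lit 1900) (nat_lit 14531752155) (nat_lit 487) (nat_lit 5) (nat_lit 511) (nat_lit 5) (nat_lit 512) (nat_lit 5) (nat_lit 599) (nat_lit 586) (nat_lit 375)) (XT.lf (nat_lit 0) (nat_lit 2583847374) (nat_lit 1824) (nat_lit 9489369278) (nat_lit 1900) (nat_lit 5365115302) (nat_lit 488) (nat_lit 5) (nat_lit 512) (nat_lit 5) (nat_lit 513) (nat_lit 5) (nat_lit 600) (nat_lit 586) (nat_lit 374))))) (XT.nd (nat_lit 312) (nat_lit 0) (nat_lit 152) (XT.nd (nat_lit 156) (nat_lit 0) (nat_lit 76) (XT.nd (nat_lit 78) (nat_lit 0) (nat_lit 76) (XT.lf (nat_lit 0) (nat_lit 3636139180) (nat_lit 1824) (nat_lit 383120901) (nat_lit 1900) (nat_lit 13597009367) (nat_lit 488) (nat_lit 5) (nat_lit 512) (nat_lit 5) (nat_lit 513) (nat_lit 5) (nat_lit 601) (nat_lit 586) (nat_lit 373)) (XT.lf (nat_lit 0) (nat_lit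 4789800429) (nat_lit 1824) (nat_lit 8805030328) (nat_lit 1900) (nat_lit 4201328639) (nat_lit 489) (nat_lit 5) (nat_lit 513) (nat_lit 5) (nat_lit 514) (nat_lit 5) (nat_lit 602) (nat_lit 586) (nat_lit 372))) (XT.nd (nat_lit 78) (nat_lit 0) (nat_lit 76) (XT.lf (nat_lit 76) (nat_lit 554784261) (nat_lit 0) (nat_lit 5438780477) (nat_lit 1900) (nat_lit 11985541980) (nat_lit 490) (nat_lit 5) (nat_lit 489) (nat_lit 5) (nat_lit 514) (nat_lit 5) (nat_lit 603) (nat_lit 586) (nat_lit 371)) (XT.lf (nat_lit 0) (nat_lit 7293900189) (nat_lit 1824) (nat_lit 7966887837) (nat_lit 1900) (nat_lit 2903475212) (nat_lit 490) (nat_lit 5) (nat_lit 514) (nat_lit 5) (nat_lit 515) (nat_lit 5) (nat_lit 604) (nat_lit 586) (nat_lit 370)))) (XT.nd (nat_lit 156) (nat_lit 0) (nat_lit 76) (XT.nd (nat_lit 78) (nat_lit 0) (nat_lit 76) (XT.lf (nat_lit 76) (nat_lit 1661136184) (nat_lit 0) (nat_lit 7000337971) (nat_lit 1900) (nat_lit 9690824264) (nat_lit 491) (nat_lit 5) (nat_lit 490) (nat_lit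 5) (nat_lit 515) (nat_lit 5) (nat_lit 605) (nat_lit 586) (nat_lit 369)) (XT.lf (nat_lit 0) (nat_lit 10113987071) (nat_lit 1824) (nat_lit 6967335519) (nat_lit 1900) (nat_lit 1461620127) (nat_lit 491) (nat_lit 5) (nat_lit 515) (nat_lit 5) (nat_lit 516) (nat_lit 5) (nat_lit 606) (nat_lit 586) (nat_lit 368))) (XT.nd (nat_lit 78) (nat_lit 0) (nat_lit 0) (XT.lf (nat_lit 76) (nat_lit 2938821421) (nat_lit 0) (nat_lit 8716794236) (nat_lit 1900) (nat_lit 7080583096) (nat_lit 492) (nat_lit 5) (nat_lit 491) (nat_lit 5) (nat_lit 516) (nat_lit 5) (nat_lit 607) (nat_lit 586) (nat_lit 367)) (XT.lf (nat_lit 76) (nat_lit 13133244425) (nat_lit 0) (nat_lit 136289131) (nat_lit 1900) (nat_lit 5662957375) (nat_lit 492) (nat_lit 5) (nat_lit 491) (nat_lit 5) (nat_lit 516) (nat_lit 5) (nat_lit 608) (nat_lit 586) (nat_lit 366))))))))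
noncomputable def xc186 : XT := (XT.nd (nat_lit 2418) (nat_lit 9272) (nat_lit 0) (XT.nd (nat_lit 1170) (nat_lit 7372) (nat_lit 0) (XT.nd (nat_lit 546) (nat_lit 3572) (nat_lit 0) (XT.nd (nat_lit 234) (nat_lit 2128) (nat_lit 0) (XT.nd (nat_lit 78) (nat_lit 1748) (nat_lit 0) (XT.lf (nat_lit 76) (nat_lit 4396237542) (nat_lit 0) (nat_lit 10598787689) (nat_lit 1900) (nat_lit 4136097965) (nat_lit 493) (nat_lit 5) (nat_lit 492) (nat_lit 5) (nat_lit 517) (nat_lit 5) (nat_lit 609) (nat_lit 586) (nat_lit 365)) (XT.nd (nat_lit 78) (nat_lit 1748) (nat_lit 0) (XT.lf (nat_lit 76) (nat_lit 14869028300) (nat_lit 0) (nat_lit 1920697355) (nat_lit 1900) (nat_lit 2543308625) (nat_lit 493) (nat_lit 5) (nat_lit 492) (nat_lit 5) (nat_lit 517) (nat_lit 5) (nat_lit 610) (nat_lit 586) (nat_lit 364)) (XT.lf (nat_lit 0) (nat_lit 6042215647) (nat_lit 1824) (nat_lit 12657326603) (nat_lit 1900) (nat_lit 837857039) (nat_lit 469) (nat_lit 5) (nat_lit 493) (nat_lit 5) (nat_lit 494) (nat_lit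 5) (nat_lit 611) (nat_lit 586) (nat_lit 363)))) (XT.nd (nat_lit 156) (nat_lit 912) (nat_lit 0) (XT.nd (nat_lit 78) (nat_lit 1140) (nat_lit 0) (XT.lf (nat_lit 0) (nat_lit 927780864) (nat_lit 1900) (nat_lit 2949310498) (nat_lit 76) (nat_lit 15867885224) (nat_lit 468) (nat_lit 5) (nat_lit 493) (nat_lit 5) (nat_lit 469) (nat_lit 5) (nat_lit 612) (nat_lit 586) (nat_lit 362)) (XT.lf (nat_lit 0) (nat_lit 2797305180) (nat_lit 1216) (nat_lit 12087735230) (nat_lit 76) (nat_lit 5069958540) (nat_lit 453) (nat_lit 5) (nat_lit 469) (nat_lit 5) (nat_lit 454) (nat_lit 5) (nat_lit 613) (nat_lit 586) (nat_lit 361))) (XT.nd (nat_lit 78) (nat_lit 912) (nat_lit 0) (XT.lf (nat_lit 0) (nat_lit 4745016916) (nat_lit 1216) (nat_lit 1258829140) (nat_lit 76) (nat_lit 14164559904) (nat_lit 453) (nat_lit 5) (nat_lit 469) (nat_lit 5) (nat_lit 454) (nat_lit 5) (nat_lit 614) (nat_lit 586) (nat_lit 360)) (XT.lf (nat_lit 0) (nat_lit 6811597271) (nat_lit 988) (nat_lit 10492753257) (nat_lit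 76) (nat_lit 3080132427) (nat_lit 441) (nat_lit 5) (nat_lit 454) (nat_lit 5) (nat_lit 442) (nat_lit 5) (nat_lit 615) (nat_lit 586) (nat_lit 359))))) (XT.nd (nat_lit 312) (nat_lit 1824) (nat_lit 0) (XT.nd (nat_lit 156) (nat_lit 836) (nat_lit 0) (XT.nd (nat_lit 78) (nat_lit 0) (nat_lit 0) (XT.lf (nat_lit 0) (nat_lit 641926805) (nat_lit 912) (nat_lit 8325374154) (nat_lit 988) (nat_lit 11636624828) (nat_lit 429) (nat_lit 5) (nat_lit 441) (nat_lit 5) (nat_lit 442) (nat_lit 5) (nat_lit 616) (nat_lit 586) (nat_lit 358)) (XT.lf (nat_lit 0) (nat_lit 11237831371) (nat_lit 988) (nat_lit 8695084219) (nat_lit 76) (nat_lit 893407762) (nat_lit 429) (nat_lit 5) (nat_lit 442) (nat_lit 5) (nat_lit 430) (nat_lit 5) (nat_lit 617) (nat_lit 586) (nat_lit 357))) (XT.nd (nat_lit 78) (nat_lit 0) (nat_lit 0) (XT.lf (nat_lit 0) (nat_lit 2774111380) (nat_lit 836) (nat_lit 10848321895) (nat_lit 912) (nat_lit 7429362500) (nat_lit 418) (nat_lit 5) (nat_lit 429) (nat_lit 5) (nat_lit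 430) (nat_lit 5) (nat_lit 618) (nat_lit 586) (nat_lit 356)) (XT.lf (nat_lit 0) (nat_lit 14586277872) (nat_lit 836) (nat_lit 1522372701) (nat_lit 912) (nat_lit 5172048729) (nat_lit 418) (nat_lit 5) (nat_lit 429) (nat_lit 5) (nat_lit 430) (nat_lit 5) (nat_lit 619) (nat_lit 586) (nat_lit 355)))) (XT.nd (nat_lit 156) (nat_lit 912) (nat_lit 0) (XT.nd (nat_lit 78) (nat_lit 0) (nat_lit 0) (XT.lf (nat_lit 0) (nat_lit 5131651179) (nat_lit 912) (nat_lit 13593798599) (nat_lit 988) (nat_lit 2787114093) (nat_lit 406) (nat_lit 5) (nat_lit 418) (nat_lit 5) (nat_lit 419) (nat_lit 5) (nat_lit 620) (nat_lit 586) (nat_lit 354)) (XT.lf (nat_lit 0) (nat_lit 17270520990) (nat_lit 912) (nat_lit 4174722592) (nat_lit 988) (nat_lit 302809095) (nat_lit 406) (nat_lit 5) (nat_lit 418) (nat_lit 5) (nat_lit 419) (nat_lit 5) (nat_lit 621) (nat_lit 586) (nat_lit 353))) (XT.nd (nat_lit 78) (nat_lit 0) (nat_lit 0) (XT.lf (nat_lit 0) (nat_lit 2283694920) (nat_lit 912) (nat_lit 14275936582)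 (nat_lit 76) (nat_lit 5426694639) (nat_lit 394) (nat_lit 5) (nat_lit 406) (nat_lit 5) (nat_lit 395) (nat_lit 5) (nat_lit 622) (nat_lit 586) (nat_lit 352)) (XT.lf (nat_lit 0) (nat_lit 4971602249) (nat_lit 912) (nat_lit 2060133624) (nat_lit 76) (nat_lit 15196514725) (nat_lit 394) (nat_lit 5) (nat_lit 406) (nat_lit 5) (nat_lit 395) (nat_lit 5) (nat_lit 623) (nat_lit 586) (nat_lit 351)))))) (XT.nd (nat_lit 624) (nat_lit 3420) (nat_lit 0) (XT.nd (nat_lit 312) (nat_lit 1596) (nat_lit 0) (XT.nd (nat_lit 156) (nat_lit 760) (nat_lit 0) (XT.nd (nat_lit 78) (nat_lit 760) (nat_lit 0) (XT.lf (nat_lit 0) (nat_lit 7795470288) (nat_lit 912) (nat_lit 11957681128) (nat_lit 76) (nat_lit 2720218185) (nat_lit 383) (nat_lit 5) (nat_lit 395) (nat_lit 5) (nat_lit 384) (nat_lit 5) (nat_lit 624) (nat_lit 586) (nat_lit 350)) (XT.lf (nat_lit 0) (nat_lit 604862043) (nat_lit 760) (nat_lit 10131329962) (nat_lit 836) (nat_lit 11985991563) (nat_lit 373) (nat_lit 5) (nat_lit 383) (nat_lit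 5) (nat_lit 384) (nat_lit 5) (nat_lit 625) (nat_lit 586) (nat_lit 349))) (XT.nd (nat_lit 78) (nat_lit 760) (nat_lit 0) (XT.lf (nat_lit 0) (nat_lit 13576523889) (nat_lit 760) (nat_lit 235463534) (nat_lit 836) (nat_lit 9162461309) (nat_lit 373) (nat_lit 5) (nat_lit 383) (nat_lit 5) (nat_lit 384) (nat_lit 5) (nat_lit 626) (nat_lit 586) (nat_lit 348)) (XT.lf (nat_lit 0) (nat_lit 3554252061) (nat_lit 760) (nat_lit 13478223517) (nat_lit 836) (nat_lit 6197620188) (nat_lit 363) (nat_lit 5) (nat_lit 373) (nat_lit 5) (nat_lit 374) (nat_lit 5) (nat_lit 627) (nat_lit 586) (nat_lit 347)))) (XT.nd (nat_lit 156) (nat_lit 760) (nat_lit 0) (XT.nd (nat_lit 78) (nat_lit 836) (nat_lit 0) (XT.lf (nat_lit 0) (nat_lit 16887095890) (nat_lit 760) (nat_lit 3491034651) (nat_lit 836) (nat_lit 3111510161) (nat_lit 363) (nat_lit 5) (nat_lit 373) (nat_lit 5) (nat_lit 374) (nat_lit 5) (nat_lit 628) (nat_lit 586) (nat_lit 346)) (XT.lf (nat_lit 0) (nat_lit 120067757) (nat_lit 836) (nat_lit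 16980092359) (nat_lit 76) (nat_lit 6652527359) (nat_lit 352) (nat_lit 5) (nat_lit 363) (nat_lit 5) (nat_lit 353) (nat_lit 5) (nat_lit 629) (nat_lit 586) (nat_lit 345))) (XT.nd (nat_lit 78) (nat_lit 760) (nat_lit 0) (XT.lf (nat_lit 0) (nat_lit 3438611300) (nat_lit 836) (nat_lit 3563592825) (nat_lit 76) (nat_lit 17017099869) (nat_lit 352) (nat_lit 5) (nat_lit 363) (nat_lit 5) (nat_lit 353) (nat_lit 5) (nat_lit 630) (nat_lit 586) (nat_lit 344)) (XT.lf (nat_lit 0) (nat_lit 6908247194) (nat_lit 836) (nat_lit 14060276117) (nat_lit 76) (nat_lit 3321035197) (nat_lit 342) (nat_lit 5) (nat_lit 353) (nat_lit 5) (nat_lit 343) (nat_lit 5) (nat_lit 631) (nat_lit 586) (nat_lit 343))))) (XT.nd (nat_lit 312) (nat_lit 2052) (nat_lit 0) (XT.nd (nat_lit 156) (nat_lit 684) (nat_lit 0) (XT.nd (nat_lit 78) (nat_lit 684) (nat_lit 0) (XT.lf (nat_lit 0) (nat_lit 10514075356) (nat_lit 836) (nat_lit 269112340) (nat_lit 76) (nat_lit 13780694516) (nat_lit 342) (nat_lit 5) (nat_lit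 353) (nat_lit 5) (nat_lit 343) (nat_lit 5) (nat_lit 632) (nat_lit 586) (nat_lit 342)) (XT.lf (nat_lit 0) (nat_lit 13977106119) (nat_lit 684) (nat_lit 302089458) (nat_lit 760) (nat_lit 10562753394) (nat_lit 333) (nat_lit 5) (nat_lit 342) (nat_lit 5) (nat_lit 343) (nat_lit 5) (nat_lit 633) (nat_lit 586) (nat_lit 341))) (XT.nd (nat_lit 78) (nat_lit 0) (nat_lit 0) (XT.lf (nat_lit 0) (nat_lit 3358824357) (nat_lit 684) (nat_lit 14848336471) (nat_lit 760) (nat_lit 6916665471) (nat_lit 324) (nat_lit 5) (nat_lit 333) (nat_lit 5) (nat_lit 334) (nat_lit 5) (nat_lit 634) (nat_lit 586) (nat_lit 340)) (XT.lf (nat_lit 0) (nat_lit 18008119374) (nat_lit 684) (nat_lit 4276972129) (nat_lit 760) (nat_lit 3124821635) (nat_lit 324) (nat_lit 5) (nat_lit 333) (nat_lit 5) (nat_lit 334) (nat_lit 5) (nat_lit 635) (nat_lit 586) (nat_lit 339)))) (XT.nd (nat_lit 156) (nat_lit 1292) (nat_lit 0) (XT.nd (nat_lit 78) (nat_lit 0) (nat_lit 0) (XT.lf (nat_lit 0) (nat_lit 819885618) (nat_lit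 760) (nat_lit 18407316320) (nat_lit 76) (nat_lit 6472688012) (nat_lit 314) (nat_lit 5) (nat_lit 324) (nat_lit 5) (nat_lit 315) (nat_lit 5) (nat_lit 636) (nat_lit 586) (nat_lit 338)) (XT.lf (nat_lit 0) (nat_lit 4876600785) (nat_lit 760) (nat_lit 3666955790) (nat_lit 76) (nat_lit 17450197599) (nat_lit 314) (nat_lit 5) (nat_lit 324) (nat_lit 5) (nat_lit 315) (nat_lit 5) (nat_lit 637) (nat_lit 586) (nat_lit 337))) (XT.nd (nat_lit 78) (nat_lit 608) (nat_lit 0) (XT.lf (nat_lit 0) (nat_lit 9101647250) (nat_lit 760) (nat_lit 14792620831) (nat_lit 76) (nat_lit 2397483741) (nat_lit 305) (nat_lit 5) (nat_lit 315) (nat_lit 5) (nat_lit 306) (nat_lit 5) (nat_lit 638) (nat_lit 586) (nat_lit 336)) (XT.lf (nat_lit 0) (nat_lit 367047931) (nat_lit 608) (nat_lit 13124574589) (nat_lit 684) (nat_lit 13102478426) (nat_lit 297) (nat_lit 5) (nat_lit 305) (nat_lit 5) (nat_lit 306) (nat_lit 5) (nat_lit 639) (nat_lit 586) (nat_lit 335))))))) (XT.nd (nat_lit 1170) (nat_lit 4560) (nat_lit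 0) (XT.nd (nat_lit 546) (nat_lit 2280) (nat_lit 0) (XT.nd (nat_lit 234) (nat_lit 1748) (nat_lit 0) (XT.nd (nat_lit 78) (nat_lit 684) (nat_lit 0) (XT.lf (nat_lit 0) (nat_lit 16026402652) (nat_lit 608) (nat_lit 2038994334) (nat_lit 684) (nat_lit 8835180147) (nat_lit 297) (nat_lit 5) (nat_lit 305) (nat_lit 5) (nat_lit 306) (nat_lit 5) (nat_lit 640) (nat_lit 586) (nat_lit 334)) (XT.nd (nat_lit 78) (nat_lit 76) (nat_lit 0) (XT.lf (nat_lit 0) (nat_lit 4784327346) (nat_lit 608) (nat_lit 18034351200) (nat_lit 684) (nat_lit 4392743743) (nat_lit 289) (nat_lit 5) (nat_lit 297) (nat_lit 5) (nat_lit 298) (nat_lit 5) (nat_lit 641) (nat_lit 586) (nat_lit 333)) (XT.lf (nat_lit 0) (nat_lit 220490983) (nat_lit 684) (nat_lit 6642531226) (nat_lit 76) (nat_lit 20663768888) (nat_lit 288) (nat_lit 5) (nat_lit 297) (nat_lit 5) (nat_lit 289) (nat_lit 5) (nat_lit 642) (nat_lit 586) (nat_lit 332)))) (XT.nd (nat_lit 156) (nat_lit 1140) (nat_lit 0) (XT.nd (nat_lit 78) (nat_lit 0)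 (nat_lit 0) (XT.lf (nat_lit 0) (nat_lit 4956123303) (nat_lit 684) (nat_lit 18326790045) (nat_lit 76) (nat_lit 4563194249) (nat_lit 280) (nat_lit 5) (nat_lit 289) (nat_lit 5) (nat_lit 281) (nat_lit 5) (nat_lit 643) (nat_lit 586) (nat_lit 331)) (XT.lf (nat_lit 0) (nat_lit 9873690595) (nat_lit 684) (nat_lit 2126193602) (nat_lit 76) (nat_lit 16170181852) (nat_lit 280) (nat_lit 5) (nat_lit 289) (nat_lit 5) (nat_lit 281) (nat_lit 5) (nat_lit 644) (nat_lit 586) (nat_lit 330))) (XT.nd (nat_lit 78) (nat_lit 532) (nat_lit 0) (XT.lf (nat_lit 0) (nat_lit 14585814702) (nat_lit 608) (nat_lit 395457833) (nat_lit 684) (nat_lit 13517397938) (nat_lit 272) (nat_lit 5) (nat_lit 280) (nat_lit 5) (nat_lit 281) (nat_lit 5) (nat_lit 645) (nat_lit 586) (nat_lit 329)) (XT.lf (nat_lit 0) (nat_lit 2785553757) (nat_lit 532) (nat_lit 17509174641) (nat_lit 608) (nat_lit 8537044209) (nat_lit 265) (nat_lit 5) (nat_lit 272) (nat_lit 5) (nat_lit 273) (nat_lit 5) (nat_lit 646) (nat_lit 586)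 (nat_lit 328))))) (XT.nd (nat_lit 312) (nat_lit 1064) (nat_lit 0) (XT.nd (nat_lit 156) (nat_lit 532) (nat_lit 0) (XT.nd (nat_lit 78) (nat_lit 684) (nat_lit 0) (XT.lf (nat_lit 0) (nat_lit 19999971469) (nat_lit 532) (nat_lit 5807471192) (nat_lit 608) (nat_lit 3362234402) (nat_lit 265) (nat_lit 5) (nat_lit 272) (nat_lit 5) (nat_lit 273) (nat_lit 5) (nat_lit 647) (nat_lit 586) (nat_lit 327)) (XT.lf (nat_lit 0) (nat_lit 1981036885) (nat_lit 684) (nat_lit 21418583630) (nat_lit 76) (nat_lit 6112668449) (nat_lit 256) (nat_lit 5) (nat_lit 265) (nat_lit 5) (nat_lit 257) (nat_lit 5) (nat_lit 648) (nat_lit 586) (nat_lit 326))) (XT.nd (nat_lit 78) (nat_lit 532) (nat_lit 0) (XT.lf (nat_lit 0) (nat_lit 7483687062) (nat_lit 684) (nat_lit 4098862219) (nat_lit 76) (nat_lit 18276808722) (nat_lit 256) (nat_lit 5) (nat_lit 265) (nat_lit 5) (nat_lit 257) (nat_lit 5) (nat_lit 649) (nat_lit 586) (nat_lit 325)) (XT.lf (nat_lit 0) (nat_lit 13186412902) (nat_lit 608) (nat_lit 16471589892)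 (nat_lit 76) (nat_lit 553565236) (nat_lit 249) (nat_lit 5) (nat_lit 257) (nat_lit 5) (nat_lit 250) (nat_lit 5) (nat_lit 650) (nat_lit 586) (nat_lit 324)))) (XT.nd (nat_lit 156) (nat_lit 532) (nat_lit 0) (XT.nd (nat_lit 78) (nat_lit 0) (nat_lit 0) (XT.lf (nat_lit 0) (nat_lit 1357969643) (nat_lit 532) (nat_lit 17755606445) (nat_lit 608) (nat_lit 11455038570) (nat_lit 242) (nat_lit 5) (nat_lit 249) (nat_lit 5) (nat_lit 250) (nat_lit 5) (nat_lit 651) (nat_lit 586) (nat_lit 323)) (XT.lf (nat_lit 0) (nat_lit 19763585444) (nat_lit 532) (nat_lit 5503433510) (nat_lit 608) (nat_lit 5663628596) (nat_lit 242) (nat_lit 5) (nat_lit 249) (nat_lit 5) (nat_lit 250) (nat_lit 5) (nat_lit 652) (nat_lit 586) (nat_lit 322))) (XT.nd (nat_lit 78) (nat_lit 0) (nat_lit 0) (XT.lf (nat_lit 0) (nat_lit 330961048) (nat_lit 532) (nat_lit 24016573311) (nat_lit 76) (nat_lit 6950544234) (nat_lit 235) (nat_lit 5) (nat_lit 242) (nat_lit 5) (nat_lit 236) (nat_lit 5) (nat_lit 653) (nat_lit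 586) (nat_lit 321)) (XT.lf (nat_lit 0) (nat_lit 6478820266) (nat_lit 532) (nat_lit 5499190235) (nat_lit 76) (nat_lit 19691914804) (nat_lit 235) (nat_lit 5) (nat_lit 242) (nat_lit 5) (nat_lit 236) (nat_lit 5) (nat_lit 654) (nat_lit 586) (nat_lit 320)))))) (XT.nd (nat_lit 624) (nat_lit 2128) (nat_lit 0) (XT.nd (nat_lit 312) (nat_lit 912) (nat_lit 0) (XT.nd (nat_lit 156) (nat_lit 532) (nat_lit 0) (XT.nd (nat_lit 78) (nat_lit 456) (nat_lit 0) (XT.lf (nat_lit 0) (nat_lit 12839736115) (nat_lit 608) (nat_lit 18489530853) (nat_lit 76) (nat_lit 718140048) (nat_lit 228) (nat_lit 5) (nat_lit 236) (nat_lit 5) (nat_lit 229) (nat_lit 5) (nat_lit 655) (nat_lit 586) (nat_lit 319)) (XT.lf (nat_lit 0) (nat_lit 562997088) (nat_lit 456) (nat_lit 18882338618) (nat_lit 532) (nat_lit 12984753399) (nat_lit 222) (nat_lit 5) (nat_lit 228) (nat_lit 5) (nat_lit 229) (nat_lit 5) (nat_lit 656) (nat_lit 586) (nat_lit 318))) (XT.nd (nat_lit 78) (nat_lit 532) (nat_lit 0) (XT.lf (nat_lit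 0) (nat_lit 20243486369) (nat_lit 456) (nat_lit 6061002090) (nat_lit 532) (nat_lit 6513507604) (nat_lit 222) (nat_lit 5) (nat_lit 228) (nat_lit 5) (nat_lit 229) (nat_lit 5) (nat_lit 657) (nat_lit 586) (nat_lit 317)) (XT.lf (nat_lit 0) (nat_lit 175993035) (nat_lit 532) (nat_lit 26064603218) (nat_lit 76) (nat_lit 6971254177) (nat_lit 215) (nat_lit 5) (nat_lit 222) (nat_lit 5) (nat_lit 216) (nat_lit 5) (nat_lit 658) (nat_lit 586) (nat_lit 316)))) (XT.nd (nat_lit 156) (nat_lit 456) (nat_lit 0) (XT.nd (nat_lit 78) (nat_lit 456) (nat_lit 0) (XT.lf (nat_lit 0) (nat_lit 7034650170) (nat_lit 532) (nat_lit 6265539465) (nat_lit 76) (nat_lit 20310079566) (nat_lit 215) (nat_lit 5) (nat_lit 222) (nat_lit 5) (nat_lit 216) (nat_lit 5) (nat_lit 659) (nat_lit 586) (nat_lit 315)) (XT.lf (nat_lit 0) (nat_lit 14110944171) (nat_lit 456) (nat_lit 8625786) (nat_lit 532) (nat_lit 19895304647) (nat_lit 209) (nat_lit 5) (nat_lit 215) (nat_lit 5) (nat_lit 216) (nat_lit 5) (nat_lit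 660) (nat_lit 586) (nat_lit 314))) (XT.nd (nat_lit 78) (nat_lit 0) (nat_lit 0) (XT.lf (nat_lit 0) (nat_lit 467393196) (nat_lit 456) (nat_lit 21009611583) (nat_lit 532) (nat_lit 12947951051) (nat_lit 203) (nat_lit 5) (nat_lit 209) (nat_lit 5) (nat_lit 210) (nat_lit 5) (nat_lit 661) (nat_lit 586) (nat_lit 313)) (XT.lf (nat_lit 0) (nat_lit 21512264420) (nat_lit 456) (nat_lit 7600463045) (nat_lit 532) (nat_lit 5727888478) (nat_lit 203) (nat_lit 5) (nat_lit 209) (nat_lit 5) (nat_lit 210) (nat_lit 5) (nat_lit 662) (nat_lit 586) (nat_lit 312))))) (XT.nd (nat_lit 312) (nat_lit 836) (nat_lit 0) (XT.nd (nat_lit 156) (nat_lit 836) (nat_lit 0) (XT.nd (nat_lit 78) (nat_lit 0) (nat_lit 0) (XT.lf (nat_lit 0) (nat_lit 1703166821) (nat_lit 456) (nat_lit 27501715001) (nat_lit 76) (nat_lit 6057733855) (nat_lit 197) (nat_lit 5) (nat_lit 203) (nat_lit 5) (nat_lit 198) (nat_lit 5) (nat_lit 663) (nat_lit 586) (nat_lit 311)) (XT.lf (nat_lit 0) (nat_lit 9344151911) (nat_lit 456)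 (nat_lit 6331122081) (nat_lit 76) (nat_lit 20014264130) (nat_lit 197) (nat_lit 5) (nat_lit 203) (nat_lit 5) (nat_lit 198) (nat_lit 5) (nat_lit 664) (nat_lit 586) (nat_lit 310))) (XT.nd (nat_lit 78) (nat_lit 380) (nat_lit 0) (XT.lf (nat_lit 0) (nat_lit 15462138916) (nat_lit 456) (nat_lit 1773822612) (nat_lit 532) (nat_lit 18887077432) (nat_lit 191) (nat_lit 5) (nat_lit 197) (nat_lit 5) (nat_lit 198) (nat_lit 5) (nat_lit 665) (nat_lit 586) (nat_lit 309)) (XT.lf (nat_lit 0) (nat_lit 1143343994) (nat_lit 380) (nat_lit 24270629876) (nat_lit 456) (nat_lit 11148668655) (nat_lit 186) (nat_lit 5) (nat_lit 191) (nat_lit 5) (nat_lit 192) (nat_lit 5) (nat_lit 666) (nat_lit 586) (nat_lit 308)))) (XT.nd (nat_lit 156) (nat_lit 380) (nat_lit 0) (XT.nd (nat_lit 78) (nat_lit 456) (nat_lit 0) (XT.lf (nat_lit 0) (nat_lit 23648307822) (nat_lit 380) (nat_lit 10255208505) (nat_lit 456) (nat_lit 3104562481) (nat_lit 186) (nat_lit 5) (nat_lit 191) (nat_lit 5) (nat_lit 192) (nat_lit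 5) (nat_lit 667) (nat_lit 586) (nat_lit 307)) (XT.lf (nat_lit 0) (nat_lit 5117957114) (nat_lit 456) (nat_lit 28262115718) (nat_lit 76) (nat_lit 4080000228) (nat_lit 180) (nat_lit 5) (nat_lit 186) (nat_lit 5) (nat_lit 181) (nat_lit 5) (nat_lit 668) (nat_lit 586) (nat_lit 306))) (XT.nd (nat_lit 78) (nat_lit 380) (nat_lit 0) (XT.lf (nat_lit 0) (nat_lit 13619256438) (nat_lit 456) (nat_lit 5623950484) (nat_lit 76) (nat_lit 18674371903) (nat_lit 180) (nat_lit 5) (nat_lit 186) (nat_lit 5) (nat_lit 181) (nat_lit 5) (nat_lit 669) (nat_lit 586) (nat_lit 305)) (XT.lf (nat_lit 0) (nat_lit 17695625307) (nat_lit 380) (nat_lit 4707593738) (nat_lit 456) (nat_lit 15978762950) (nat_lit 175) (nat_lit 5) (nat_lit 180) (nat_lit 5) (nat_lit 181) (nat_lit 5) (nat_lit 670) (nat_lit 586) (nat_lit 304))))))))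
noncomputable def xc187 : XT := (XT.nd (nat_lit 75816) (nat_lit 0) (nat_lit 16416) (XT.nd (nat_lit 1170) (nat_lit 304) (nat_lit 0) (XT.nd (nat_lit 546) (nat_lit 1824) (nat_lit 0) (XT.nd (nat_lit 234) (nat_lit 760) (nat_lit 0) (XT.nd (nat_lit 78) (nat_lit 456) (nat_lit 0) (XT.lf (nat_lit 0) (nat_lit 2668510357) (nat_lit 380) (nat_lit 28813123366) (nat_lit 456) (nat_lit 7371664088) (nat_lit 170) (nat_lit 5) (nat_lit 175) (nat_lit 5) (nat_lit 176) (nat_lit 5) (nat_lit 671) (nat_lit 586) (nat_lit 303)) (XT.nd (nat_lit 78) (nat_lit 380) (nat_lit 0) (XT.lf (nat_lit 0) (nat_lit 1557794813) (nat_lit 456) (nat_lit 12605069732) (nat_lit 76) (nat_lit 25167619080) (nat_lit 169) (nat_lit 5) (nat_lit 175) (nat_lit 5) (nat_lit 170) (nat_lit 5) (nat_lit 672) (nat_lit 586) (nat_lit 302)) (XT.lf (nat_lit 0) (nat_lit 10645878862) (nat_lit 456) (nat_lit 28275203855) (nat_lit 76) (nat_lit 893581089) (nat_lit 164) (nat_lit 5) (nat_lit 170) (nat_lit 5) (nat_lit 165) (nat_lit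 5) (nat_lit 673) (nat_lit 586) (nat_lit 301)))) (XT.nd (nat_lit 156) (nat_lit 380) (nat_lit 0) (XT.nd (nat_lit 78) (nat_lit 380) (nat_lit 0) (XT.lf (nat_lit 0) (nat_lit 20092489228) (nat_lit 456) (nat_lit 4066845671) (nat_lit 76) (nat_lit 16145657433) (nat_lit 164) (nat_lit 5) (nat_lit 170) (nat_lit 5) (nat_lit 165) (nat_lit 5) (nat_lit 674) (nat_lit 586) (nat_lit 300)) (XT.lf (nat_lit 0) (nat_lit 20896405380) (nat_lit 380) (nat_lit 8965166414) (nat_lit 456) (nat_lit 10940884868) (nat_lit 159) (nat_lit 5) (nat_lit 164) (nat_lit 5) (nat_lit 165) (nat_lit 5) (nat_lit 675) (nat_lit 586) (nat_lit 299))) (XT.nd (nat_lit 78) (nat_lit 76) (nat_lit 0) (XT.lf (nat_lit 0) (nat_lit 5126009145) (nat_lit 304) (nat_lit 34801074756) (nat_lit 380) (nat_lit 1380765452) (nat_lit 155) (nat_lit 5) (nat_lit 159) (nat_lit 5) (nat_lit 160) (nat_lit 5) (nat_lit 676) (nat_lit 586) (nat_lit 298)) (XT.lf (nat_lit 0) (nat_lit 8452496936) (nat_lit 380) (nat_lit 11010092650) (nat_lit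 76) (nat_lit 22355838961) (nat_lit 154) (nat_lit 5) (nat_lit 159) (nat_lit 5) (nat_lit 155) (nat_lit 5) (nat_lit 677) (nat_lit 586) (nat_lit 297))))) (XT.nd (nat_lit 312) (nat_lit 684) (nat_lit 0) (XT.nd (nat_lit 156) (nat_lit 760) (nat_lit 0) (XT.nd (nat_lit 78) (nat_lit 0) (nat_lit 0) (XT.lf (nat_lit 0) (nat_lit 14847384487) (nat_lit 380) (nat_lit 3710894709) (nat_lit 456) (nat_lit 23778870760) (nat_lit 149) (nat_lit 5) (nat_lit 154) (nat_lit 5) (nat_lit 155) (nat_lit 5) (nat_lit 678) (nat_lit 586) (nat_lit 296)) (XT.lf (nat_lit 0) (nat_lit 29018710487) (nat_lit 456) (nat_lit 1577522777) (nat_lit 76) (nat_lit 12266961893) (nat_lit 149) (nat_lit 5) (nat_lit 155) (nat_lit 5) (nat_lit 150) (nat_lit 5) (nat_lit 679) (nat_lit 586) (nat_lit 295))) (XT.nd (nat_lit 78) (nat_lit 456) (nat_lit 0) (XT.lf (nat_lit 0) (nat_lit 25155068279) (nat_lit 304) (nat_lit 14719159703) (nat_lit 380) (nat_lit 3521815758) (nat_lit 145) (nat_lit 5) (nat_lit 149) (nat_lit 5) (nat_lit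 150) (nat_lit 5) (nat_lit 680) (nat_lit 586) (nat_lit 294)) (XT.lf (nat_lit 0) (nat_lit 6989985356) (nat_lit 456) (nat_lit 35379744836) (nat_lit 76) (nat_lit 1567417591) (nat_lit 139) (nat_lit 5) (nat_lit 145) (nat_lit 5) (nat_lit 140) (nat_lit 5) (nat_lit 681) (nat_lit 586) (nat_lit 293)))) (XT.nd (nat_lit 156) (nat_lit 380) (nat_lit 0) (XT.nd (nat_lit 78) (nat_lit 304) (nat_lit 0) (XT.lf (nat_lit 0) (nat_lit 17883599434) (nat_lit 456) (nat_lit 8472477969) (nat_lit 76) (nat_lit 18128156266) (nat_lit 139) (nat_lit 5) (nat_lit 145) (nat_lit 5) (nat_lit 140) (nat_lit 5) (nat_lit 682) (nat_lit 586) (nat_lit 292)) (XT.lf (nat_lit 0) (nat_lit 19221845390) (nat_lit 304) (nat_lit 9896075598) (nat_lit 380) (nat_lit 15921883608) (nat_lit 135) (nat_lit 5) (nat_lit 139) (nat_lit 5) (nat_lit 140) (nat_lit 5) (nat_lit 683) (nat_lit 586) (nat_lit 291))) (XT.nd (nat_lit 78) (nat_lit 76) (nat_lit 0) (XT.lf (nat_lit 0) (nat_lit 1956888805) (nat_lit 304) (nat_lit 38732775951)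 (nat_lit 380) (nat_lit 4914567498) (nat_lit 131) (nat_lit 5) (nat_lit 135) (nat_lit 5) (nat_lit 136) (nat_lit 5) (nat_lit 684) (nat_lit 586) (nat_lit 290)) (XT.lf (nat_lit 0) (nat_lit 6468085738) (nat_lit 380) (nat_lit 15650154034) (nat_lit 76) (nat_lit 24056129257) (nat_lit 130) (nat_lit 5) (nat_lit 135) (nat_lit 5) (nat_lit 131) (nat_lit 5) (nat_lit 685) (nat_lit 586) (nat_lit 289)))))) (XT.nd (nat_lit 74022) (nat_lit 0) (nat_lit 27360) (XT.nd (nat_lit 73710) (nat_lit 0) (nat_lit 28956) (XT.nd (nat_lit 73554) (nat_lit 0) (nat_lit 28880) (XT.nd (nat_lit 73476) (nat_lit 0) (nat_lit 28880) (XT.lf (nat_lit 0) (nat_lit 13042346027) (nat_lit 304) (nat_lit 5053068452) (nat_lit 380) (nat_lit 28658187810) (nat_lit 126) (nat_lit 5) (nat_lit 130) (nat_lit 5) (nat_lit 131) (nat_lit 5) (nat_lit 686) (nat_lit 586) (nat_lit 288)) (XT.lf (nat_lit 0) (nat_lit 2503980283) (nat_lit 0) (nat_lit 2503980283) (nat_lit 1748) (nat_lit 2737052093) (nat_lit 506) (nat_lit 5) (nat_lit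 506) (nat_lit 3) (nat_lit 529) (nat_lit 3) (nat_lit 587) (nat_lit 587) (nat_lit 386))) (XT.nd (nat_lit 78) (nat_lit 0) (nat_lit 0) (XT.lf (nat_lit 0) (nat_lit 10411707866) (nat_lit 1748) (nat_lit 2782221678) (nat_lit 1824) (nat_lit 2445074794) (nat_lit 506) (nat_lit 5) (nat_lit 529) (nat_lit 3) (nat_lit 530) (nat_lit 5) (nat_lit 588) (nat_lit 587) (nat_lit 385)) (XT.lf (nat_lit 76) (nat_lit 5101523436) (nat_lit 0) (nat_lit 5772866000) (nat_lit 1824) (nat_lit 4915394145) (nat_lit 507) (nat_lit 5) (nat_lit 506) (nat_lit 5) (nat_lit 530) (nat_lit 5) (nat_lit 589) (nat_lit 587) (nat_lit 384)))) (XT.nd (nat_lit 156) (nat_lit 0) (nat_lit 76) (XT.nd (nat_lit 78) (nat_lit 0) (nat_lit 0) (XT.lf (nat_lit 0) (nat_lit 11369615118) (nat_lit 1748) (nat_lit 2778313925) (nat_lit 1824) (nat_lit 1795183779) (nat_lit 507) (nat_lit 5) (nat_lit 530) (nat_lit 5) (nat_lit 531) (nat_lit 5) (nat_lit 590) (nat_lit 587) (nat_lit 383)) (XT.lf (nat_lit 76) (nat_lit 5317439855) (nat_lit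 0) (nat_lit 6623033082) (nat_lit 1824) (nat_lit 4157721378) (nat_lit 508) (nat_lit 5) (nat_lit 507) (nat_lit 5) (nat_lit 531) (nat_lit 5) (nat_lit 591) (nat_lit 587) (nat_lit 382))) (XT.nd (nat_lit 78) (nat_lit 0) (nat_lit 0) (XT.lf (nat_lit 0) (nat_lit 12541452721) (nat_lit 1748) (nat_lit 2654223411) (nat_lit 1824) (nat_lit 1060327424) (nat_lit 508) (nat_lit 5) (nat_lit 531) (nat_lit 5) (nat_lit 532) (nat_lit 5) (nat_lit 592) (nat_lit 587) (nat_lit 381)) (XT.lf (nat_lit 76) (nat_lit 5661272538) (nat_lit 0) (nat_lit 7567037409) (nat_lit 1824) (nat_lit 3187182088) (nat_lit 509) (nat_lit 5) (nat_lit 508) (nat_lit 5) (nat_lit 532) (nat_lit 5) (nat_lit 593) (nat_lit 587) (nat_lit 380))))) (XT.nd (nat_lit 312) (nat_lit 1748) (nat_lit 0) (XT.nd (nat_lit 156) (nat_lit 0) (nat_lit 0) (XT.nd (nat_lit 78) (nat_lit 0) (nat_lit 0) (XT.lf (nat_lit 0) (nat_lit 13941588785) (nat_lit 1748) (nat_lit 2404343610) (nat_lit 1824) (nat_lit 231984406) (nat_lit 509) (nat_lit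 5) (nat_lit 532) (nat_lit 5) (nat_lit 533) (nat_lit 5) (nat_lit 594) (nat_lit 587) (nat_lit 379)) (XT.lf (nat_lit 76) (nat_lit 6138931986) (nat_lit 0) (nat_lit 8613666881) (nat_lit 1824) (nat_lit 1989322085) (nat_lit 510) (nat_lit 5) (nat_lit 509) (nat_lit 5) (nat_lit 533) (nat_lit 5) (nat_lit 595) (nat_lit 587) (nat_lit 378))) (XT.nd (nat_lit 78) (nat_lit 0) (nat_lit 76) (XT.lf (nat_lit 76) (nat_lit 14881692734) (nat_lit 0) (nat_lit 707867410) (nat_lit 1824) (nat_lit 1319450619) (nat_lit 510) (nat_lit 5) (nat_lit 509) (nat_lit 5) (nat_lit 533) (nat_lit 5) (nat_lit 596) (nat_lit 587) (nat_lit 377)) (XT.lf (nat_lit 76) (nat_lit 6756685912) (nat_lit 0) (nat_lit 9771941583) (nat_lit 1824) (nat_lit 549107734) (nat_lit 511) (nat_lit 5) (nat_lit 510) (nat_lit 5) (nat_lit 534) (nat_lit 5) (nat_lit 597) (nat_lit 587) (nat_lit 376)))) (XT.nd (nat_lit 156) (nat_lit 0) (nat_lit 76) (XT.nd (nat_lit 78) (nat_lit 0) (nat_lit 76) (XT.lf (nat_lit 0) (nat_lit 245714098)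 (nat_lit 1824) (nat_lit 1516117072) (nat_lit 1900) (nat_lit 15487728958) (nat_lit 486) (nat_lit 5) (nat_lit 510) (nat_lit 5) (nat_lit 511) (nat_lit 5) (nat_lit 598) (nat_lit 587) (nat_lit 375)) (XT.lf (nat_lit 0) (nat_lit 1134033278) (nat_lit 1824) (nat_lit 9909490661) (nat_lit 1900) (nat_lit 6379526109) (nat_lit 487) (nat_lit 5) (nat_lit 511) (nat_lit 5) (nat_lit 512) (nat_lit 5) (nat_lit 599) (nat_lit 587) (nat_lit 374))) (XT.nd (nat_lit 78) (nat_lit 0) (nat_lit 76) (XT.lf (nat_lit 0) (nat_lit 2056049450) (nat_lit 1824) (nat_lit 871278448) (nat_lit 1900) (nat_lit 14672363435) (nat_lit 487) (nat_lit 5) (nat_lit 511) (nat_lit 5) (nat_lit 512) (nat_lit 5) (nat_lit 600) (nat_lit 587) (nat_lit 373)) (XT.lf (nat_lit 0) (nat_lit 3080656068) (nat_lit 1824) (nat_lit 9359460011) (nat_lit 1900) (nat_lit 5338066538) (nat_lit 488) (nat_lit 5) (nat_lit 512) (nat_lit 5) (nat_lit 513) (nat_lit 5) (nat_lit 601) (nat_lit 587) (nat_lit 372))))))) (XT.nd (nat_lit 1170)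 (nat_lit 7524) (nat_lit 0) (XT.nd (nat_lit 546) (nat_lit 3572) (nat_lit 0) (XT.nd (nat_lit 234) (nat_lit 0) (nat_lit 152) (XT.nd (nat_lit 78) (nat_lit 0) (nat_lit 76) (XT.lf (nat_lit 0) (nat_lit 4145265636) (nat_lit 1824) (nat_lit 77355229) (nat_lit 1900) (nat_lit 13737232819) (nat_lit 488) (nat_lit 5) (nat_lit 512) (nat_lit 5) (nat_lit 513) (nat_lit 5) (nat_lit 602) (nat_lit 587) (nat_lit 371)) (XT.nd (nat_lit 78) (nat_lit 0) (nat_lit 0) (XT.lf (nat_lit 0) (nat_lit 5314695375) (nat_lit 1824) (nat_lit 8660385285) (nat_lit 1900) (nat_lit 4168407121) (nat_lit 489) (nat_lit 5) (nat_lit 513) (nat_lit 5) (nat_lit 514) (nat_lit 5) (nat_lit 603) (nat_lit 587) (nat_lit 370)) (XT.lf (nat_lit 76) (nat_lit 884515427) (nat_lit 0) (nat_lit 5651674631) (nat_lit 1900) (nat_lit 11794031141) (nat_lit 490) (nat_lit 5) (nat_lit 489) (nat_lit 5) (nat_lit 514) (nat_lit 5) (nat_lit 604) (nat_lit 587) (nat_lit 369)))) (XT.nd (nat_lit 156) (nat_lit 0) (nat_lit 76) (XT.nd (nat_lit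 78) (nat_lit 0) (nat_lit 0) (XT.lf (nat_lit 0) (nat_lit 7853580172) (nat_lit 1824) (nat_lit 7804873495) (nat_lit 1900) (nat_lit 2860806470) (nat_lit 490) (nat_lit 5) (nat_lit 514) (nat_lit 5) (nat_lit 515) (nat_lit 5) (nat_lit 605) (nat_lit 587) (nat_lit 368)) (XT.lf (nat_lit 76) (nat_lit 2013596849) (nat_lit 0) (nat_lit 7228867709) (nat_lit 1900) (nat_lit 9468712527) (nat_lit 491) (nat_lit 5) (nat_lit 490) (nat_lit 5) (nat_lit 515) (nat_lit 5) (nat_lit 606) (nat_lit 587) (nat_lit 367))) (XT.nd (nat_lit 78) (nat_lit 0) (nat_lit 0) (XT.lf (nat_lit 0) (nat_lit 10715468940) (nat_lit 1824) (nat_lit 6785133216) (nat_lit 1900) (nat_lit 1405203526) (nat_lit 491) (nat_lit 5) (nat_lit 515) (nat_lit 5) (nat_lit 516) (nat_lit 5) (nat_lit 607) (nat_lit 587) (nat_lit 366)) (XT.lf (nat_lit 76) (nat_lit 3317031409) (nat_lit 0) (nat_lit 8965145171) (nat_lit 1900) (nat_lit 6820865561) (nat_lit 492) (nat_lit 5) (nat_lit 491) (nat_lit 5) (nat_lit 516) (nat_lit 5) (nat_lit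 608) (nat_lit 587) (nat_lit 365))))) (XT.nd (nat_lit 312) (nat_lit 2128) (nat_lit 0) (XT.nd (nat_lit 156) (nat_lit 1672) (nat_lit 0) (XT.nd (nat_lit 78) (nat_lit 0) (nat_lit 76) (XT.lf (nat_lit 76) (nat_lit 13709079469) (nat_lit 0) (nat_lit 211578687) (nat_lit 1900) (nat_lit 5382756526) (nat_lit 492) (nat_lit 5) (nat_lit 491) (nat_lit 5) (nat_lit 516) (nat_lit 5) (nat_lit 609) (nat_lit 587) (nat_lit 364)) (XT.lf (nat_lit 76) (nat_lit 4803415388) (nat_lit 0) (nat_lit 10871291776) (nat_lit 1900) (nat_lit 3831431703) (nat_lit 493) (nat_lit 5) (nat_lit 492) (nat_lit 5) (nat_lit 517) (nat_lit 5) (nat_lit 610) (nat_lit 587) (nat_lit 363))) (XT.nd (nat_lit 78) (nat_lit 1748) (nat_lit 0) (XT.lf (nat_lit 76) (nat_lit 15479402097) (nat_lit 0) (nat_lit 2018452805) (nat_lit 1900) (nat_lit 2214382424) (nat_lit 493) (nat_lit 5) (nat_lit 492) (nat_lit 5) (nat_lit 517) (nat_lit 5) (nat_lit 611) (nat_lit 587) (nat_lit 362)) (XT.lf (nat_lit 0) (nat_lit 6481785351) (nat_lit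 1824) (nat_lit 12958473443) (nat_lit 1900) (nat_lit 480543236) (nat_lit 469) (nat_lit 5) (nat_lit 493) (nat_lit 5) (nat_lit 494) (nat_lit 5) (nat_lit 612) (nat_lit 587) (nat_lit 361)))) (XT.nd (nat_lit 156) (nat_lit 912) (nat_lit 0) (XT.nd (nat_lit 78) (nat_lit 1140) (nat_lit 0) (XT.lf (nat_lit 0) (nat_lit 1308262889) (nat_lit 1900) (nat_lit 2691000709) (nat_lit 76) (nat_lit 16133363677) (nat_lit 468) (nat_lit 5) (nat_lit 493) (nat_lit 5) (nat_lit 469) (nat_lit 5) (nat_lit 613) (nat_lit 587) (nat_lit 360)) (XT.lf (nat_lit 0) (nat_lit 3209857104) (nat_lit 1216) (nat_lit 12006863235) (nat_lit 76) (nat_lit 5130236362) (nat_lit 453) (nat_lit 5) (nat_lit 469) (nat_lit 5) (nat_lit 454) (nat_lit 5) (nat_lit 614) (nat_lit 587) (nat_lit 359))) (XT.nd (nat_lit 78) (nat_lit 912) (nat_lit 0) (XT.lf (nat_lit 0) (nat_lit 5189530803) (nat_lit 1216) (nat_lit 967705037) (nat_lit 76) (nat_lit 14407536055) (nat_lit 453) (nat_lit 5) (nat_lit 469) (nat_lit 5) (nat_lit 454)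 (nat_lit 5) (nat_lit 615) (nat_lit 587) (nat_lit 358)) (XT.lf (nat_lit 0) (nat_lit 7292429183) (nat_lit 988) (nat_lit 10381284336) (nat_lit 76) (nat_lit 3111557377) (nat_lit 441) (nat_lit 5) (nat_lit 454) (nat_lit 5) (nat_lit 442) (nat_lit 5) (nat_lit 616) (nat_lit 587) (nat_lit 357)))))) (XT.nd (nat_lit 624) (nat_lit 3952) (nat_lit 0) (XT.nd (nat_lit 312) (nat_lit 1824) (nat_lit 0) (XT.nd (nat_lit 156) (nat_lit 836) (nat_lit 0) (XT.nd (nat_lit 78) (nat_lit 0) (nat_lit 0) (XT.lf (nat_lit 0) (nat_lit 973975355) (nat_lit 912) (nat_lit 8512587252) (nat_lit 988) (nat_lit 11522633856) (nat_lit 429) (nat_lit 5) (nat_lit 441) (nat_lit 5) (nat_lit 442) (nat_lit 5) (nat_lit 617) (nat_lit 587) (nat_lit 356)) (XT.lf (nat_lit 0) (nat_lit 11795706815) (nat_lit 988) (nat_lit 8549228758) (nat_lit 76) (nat_lit 891242528) (nat_lit 429) (nat_lit 5) (nat_lit 442) (nat_lit 5) (nat_lit 430) (nat_lit 5) (nat_lit 618) (nat_lit 587) (nat_lit 355))) (XT.nd (nat_lit 78) (nat_lit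 0) (nat_lit 0) (XT.lf (nat_lit 0) (nat_lit 3147247088) (nat_lit 836) (nat_lit 11076284345) (nat_lit 912) (nat_lit 7242718110) (nat_lit 418) (nat_lit 5) (nat_lit 429) (nat_lit 5) (nat_lit 430) (nat_lit 5) (nat_lit 619) (nat_lit 587) (nat_lit 354)) (XT.lf (nat_lit 0) (nat_lit 15189428411) (nat_lit 836) (nat_lit 1563600559) (nat_lit 912) (nat_lit 4946831232) (nat_lit 418) (nat_lit 5) (nat_lit 429) (nat_lit 5) (nat_lit 430) (nat_lit 5) (nat_lit 620) (nat_lit 587) (nat_lit 353)))) (XT.nd (nat_lit 156) (nat_lit 836) (nat_lit 0) (XT.nd (nat_lit 78) (nat_lit 76) (nat_lit 0) (XT.lf (nat_lit 0) (nat_lit 5550140501) (nat_lit 912) (nat_lit 13867688033) (nat_lit 988) (nat_lit 2518620417) (nat_lit 406) (nat_lit 5) (nat_lit 418) (nat_lit 5) (nat_lit 419) (nat_lit 5) (nat_lit 621) (nat_lit 587) (nat_lit 352)) (XT.lf (nat_lit 0) (nat_lit 8894904) (nat_lit 988) (nat_lit 4251236433) (nat_lit 76) (nat_lit 17916639853) (nat_lit 405) (nat_lit 5) (nat_lit 418) (nat_lit 5) (nat_lit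 406) (nat_lit 5) (nat_lit 622) (nat_lit 587) (nat_lit 351))) (XT.nd (nat_lit 78) (nat_lit 0) (nat_lit 0) (XT.lf (nat_lit 0) (nat_lit 2638965508) (nat_lit 912) (nat_lit 14243493820) (nat_lit 76) (nat_lit 5537393107) (nat_lit 394) (nat_lit 5) (nat_lit 406) (nat_lit 5) (nat_lit 395) (nat_lit 5) (nat_lit 623) (nat_lit 587) (nat_lit 350)) (XT.lf (nat_lit 0) (nat_lit 5374560460) (nat_lit 912) (nat_lit 1789609342) (nat_lit 76) (nat_lit 15502567152) (nat_lit 394) (nat_lit 5) (nat_lit 406) (nat_lit 5) (nat_lit 395) (nat_lit 5) (nat_lit 624) (nat_lit 587) (nat_lit 349))))) (XT.nd (nat_lit 312) (nat_lit 1596) (nat_lit 0) (XT.nd (nat_lit 156) (nat_lit 760) (nat_lit 0) (XT.nd (nat_lit 78) (nat_lit 760) (nat_lit 0) (XT.lf (nat_lit 0) (nat_lit 8251030506) (nat_lit 912) (nat_lit 11881224469) (nat_lit 76) (nat_lit 2784581030) (nat_lit 383) (nat_lit 5) (nat_lit 395) (nat_lit 5) (nat_lit 384) (nat_lit 5) (nat_lit 625) (nat_lit 587) (nat_lit 348)) (XT.lf (nat_lit 0) (nat_lit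 930493182) (nat_lit 760) (nat_lit 10316233639) (nat_lit 836) (nat_lit 11923976382) (nat_lit 373) (nat_lit 5) (nat_lit 383) (nat_lit 5) (nat_lit 384) (nat_lit 5) (nat_lit 626) (nat_lit 587) (nat_lit 347))) (XT.nd (nat_lit 78) (nat_lit 760) (nat_lit 0) (XT.lf (nat_lit 0) (nat_lit 14155440541) (nat_lit 760) (nat_lit 222797391) (nat_lit 836) (nat_lit 9049891896) (nat_lit 373) (nat_lit 5) (nat_lit 383) (nat_lit 5) (nat_lit 384) (nat_lit 5) (nat_lit 627) (nat_lit 587) (nat_lit 346)) (XT.lf (nat_lit 0) (nat_lit 3936358598) (nat_lit 760) (nat_lit 13723220725) (nat_lit 836) (nat_lit 6029381761) (nat_lit 363) (nat_lit 5) (nat_lit 373) (nat_lit 5) (nat_lit 374) (nat_lit 5) (nat_lit 628) (nat_lit 587) (nat_lit 345)))) (XT.nd (nat_lit 156) (nat_lit 760) (nat_lit 0) (XT.nd (nat_lit 78) (nat_lit 836) (nat_lit 0) (XT.lf (nat_lit 0) (nat_lit 17529760843) (nat_lit 760) (nat_lit 3536769793) (nat_lit 836) (nat_lit 2887278764) (nat_lit 363) (nat_lit 5) (nat_lit 373) (nat_lit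 5) (nat_lit 374) (nat_lit 5) (nat_lit 629) (nat_lit 587) (nat_lit 344)) (XT.lf (nat_lit 0) (nat_lit 401800080) (nat_lit 836) (nat_lit 17007626238) (nat_lit 76) (nat_lit 6812721207) (nat_lit 352) (nat_lit 5) (nat_lit 363) (nat_lit 5) (nat_lit 353) (nat_lit 5) (nat_lit 630) (nat_lit 587) (nat_lit 343))) (XT.nd (nat_lit 78) (nat_lit 760) (nat_lit 0) (XT.lf (nat_lit 0) (nat_lit 3781237416) (nat_lit 836) (nat_lit 3328915694) (nat_lit 76) (nat_lit 17384052946) (nat_lit 352) (nat_lit 5) (nat_lit 363) (nat_lit 5) (nat_lit 353) (nat_lit 5) (nat_lit 631) (nat_lit 587) (nat_lit 342)) (XT.lf (nat_lit 0) (nat_lit 7317087064) (nat_lit 836) (nat_lit 14032346883) (nat_lit 76) (nat_lit 3420495428) (nat_lit 342) (nat_lit 5) (nat_lit 353) (nat_lit 5) (nat_lit 343) (nat_lit 5) (nat_lit 632) (nat_lit 587) (nat_lit 341))))))))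
noncomputable def xc188 : XT := (XT.nd (nat_lit 2418) (nat_lit 5548) (nat_lit 0) (XT.nd (nat_lit 1170) (nat_lit 4712) (nat_lit 0) (XT.nd (nat_lit 546) (nat_lit 3040) (nat_lit 0) (XT.nd (nat_lit 234) (nat_lit 1444) (nat_lit 0) (XT.nd (nat_lit 78) (nat_lit 684) (nat_lit 0) (XT.lf (nat_lit 0) (nat_lit 28958499) (nat_lit 684) (nat_lit 10960953957) (nat_lit 760) (nat_lit 14059929617) (nat_lit 333) (nat_lit 5) (nat_lit 342) (nat_lit 5) (nat_lit 343) (nat_lit 5) (nat_lit 633) (nat_lit 587) (nat_lit 340)) (XT.nd (nat_lit 78) (nat_lit 684) (nat_lit 0) (XT.lf (nat_lit 0) (nat_lit 14557727629) (nat_lit 684) (nat_lit 269170955) (nat_lit 760) (nat_lit 10506640443) (nat_lit 333) (nat_lit 5) (nat_lit 342) (nat_lit 5) (nat_lit 343) (nat_lit 5) (nat_lit 634) (nat_lit 587) (nat_lit 339)) (XT.lf (nat_lit 0) (nat_lit 3730062545) (nat_lit 684) (nat_lit 15100443172) (nat_lit 760) (nat_lit 6790606662) (nat_lit 324) (nat_lit 5) (nat_lit 333) (nat_lit 5) (nat_lit 334) (nat_lit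 5) (nat_lit 635) (nat_lit 587) (nat_lit 338)))) (XT.nd (nat_lit 156) (nat_lit 684) (nat_lit 0) (XT.nd (nat_lit 78) (nat_lit 760) (nat_lit 0) (XT.lf (nat_lit 0) (nat_lit 18666381468) (nat_lit 684) (nat_lit 4318531152) (nat_lit 760) (nat_lit 2928110109) (nat_lit 324) (nat_lit 5) (nat_lit 333) (nat_lit 5) (nat_lit 334) (nat_lit 5) (nat_lit 636) (nat_lit 587) (nat_lit 337)) (XT.lf (nat_lit 0) (nat_lit 1089324331) (nat_lit 760) (nat_lit 18471183775) (nat_lit 76) (nat_lit 6648312781) (nat_lit 314) (nat_lit 5) (nat_lit 324) (nat_lit 5) (nat_lit 315) (nat_lit 5) (nat_lit 637) (nat_lit 587) (nat_lit 336))) (XT.nd (nat_lit 78) (nat_lit 684) (nat_lit 0) (XT.lf (nat_lit 0) (nat_lit 5222212213) (nat_lit 760) (nat_lit 3441982287) (nat_lit 76) (nat_lit 17844467246) (nat_lit 314) (nat_lit 5) (nat_lit 324) (nat_lit 5) (nat_lit 315) (nat_lit 5) (nat_lit 638) (nat_lit 587) (nat_lit 335)) (XT.lf (nat_lit 0) (nat_lit 9529151901) (nat_lit 760) (nat_lit 14787547115) (nat_lit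 76) (nat_lit 2495972602) (nat_lit 305) (nat_lit 5) (nat_lit 315) (nat_lit 5) (nat_lit 306) (nat_lit 5) (nat_lit 639) (nat_lit 587) (nat_lit 334))))) (XT.nd (nat_lit 312) (nat_lit 1748) (nat_lit 0) (XT.nd (nat_lit 156) (nat_lit 684) (nat_lit 0) (XT.nd (nat_lit 78) (nat_lit 0) (nat_lit 0) (XT.lf (nat_lit 0) (nat_lit 673335246) (nat_lit 608) (nat_lit 13330719217) (nat_lit 684) (nat_lit 13117070818) (nat_lit 297) (nat_lit 5) (nat_lit 305) (nat_lit 5) (nat_lit 306) (nat_lit 5) (nat_lit 640) (nat_lit 587) (nat_lit 333)) (XT.lf (nat_lit 0) (nat_lit 16640015368) (nat_lit 608) (nat_lit 2024532198) (nat_lit 684) (nat_lit 8769278675) (nat_lit 297) (nat_lit 5) (nat_lit 305) (nat_lit 5) (nat_lit 306) (nat_lit 5) (nat_lit 641) (nat_lit 587) (nat_lit 332))) (XT.nd (nat_lit 78) (nat_lit 76) (nat_lit 0) (XT.lf (nat_lit 0) (nat_lit 5175545163) (nat_lit 608) (nat_lit 18334956433) (nat_lit 684) (nat_lit 4240434676) (nat_lit 289) (nat_lit 5) (nat_lit 297) (nat_lit 5) (nat_lit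 298) (nat_lit 5) (nat_lit 642) (nat_lit 587) (nat_lit 331)) (XT.lf (nat_lit 0) (nat_lit 457267615) (nat_lit 684) (nat_lit 6482552019) (nat_lit 76) (nat_lit 21132854689) (nat_lit 288) (nat_lit 5) (nat_lit 297) (nat_lit 5) (nat_lit 289) (nat_lit 5) (nat_lit 643) (nat_lit 587) (nat_lit 330)))) (XT.nd (nat_lit 156) (nat_lit 1140) (nat_lit 0) (XT.nd (nat_lit 78) (nat_lit 0) (nat_lit 0) (XT.lf (nat_lit 0) (nat_lit 5285342483) (nat_lit 684) (nat_lit 18398220759) (nat_lit 76) (nat_lit 4714859415) (nat_lit 280) (nat_lit 5) (nat_lit 289) (nat_lit 5) (nat_lit 281) (nat_lit 5) (nat_lit 644) (nat_lit 587) (nat_lit 329)) (XT.lf (nat_lit 0) (nat_lit 10296749421) (nat_lit 684) (nat_lit 1879398761) (nat_lit 76) (nat_lit 16552802432) (nat_lit 280) (nat_lit 5) (nat_lit 289) (nat_lit 5) (nat_lit 281) (nat_lit 5) (nat_lit 645) (nat_lit 587) (nat_lit 328))) (XT.nd (nat_lit 78) (nat_lit 532) (nat_lit 0) (XT.lf (nat_lit 0) (nat_lit 15164946297) (nat_lit 608) (nat_lit 338979559)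 (nat_lit 684) (nat_lit 13560252513) (nat_lit 272) (nat_lit 5) (nat_lit 280) (nat_lit 5) (nat_lit 281) (nat_lit 5) (nat_lit 646) (nat_lit 587) (nat_lit 327)) (XT.lf (nat_lit 0) (nat_lit 3130810083) (nat_lit 532) (nat_lit 17790757425) (nat_lit 608) (nat_lit 8482416800) (nat_lit 265) (nat_lit 5) (nat_lit 272) (nat_lit 5) (nat_lit 273) (nat_lit 5) (nat_lit 647) (nat_lit 587) (nat_lit 326)))))) (XT.nd (nat_lit 624) (nat_lit 2432) (nat_lit 0) (XT.nd (nat_lit 312) (nat_lit 1064) (nat_lit 0) (XT.nd (nat_lit 156) (nat_lit 532) (nat_lit 0) (XT.nd (nat_lit 78) (nat_lit 684) (nat_lit 0) (XT.lf (nat_lit 0) (nat_lit 20683838791) (nat_lit 532) (nat_lit 5856365020) (nat_lit 608) (nat_lit 3208529783) (nat_lit 265) (nat_lit 5) (nat_lit 272) (nat_lit 5) (nat_lit 273) (nat_lit 5) (nat_lit 648) (nat_lit 587) (nat_lit 325)) (XT.lf (nat_lit 0) (nat_lit 2236732943) (nat_lit 684) (nat_lit 21558204173) (nat_lit 76) (nat_lit 6303271542) (nat_lit 256) (nat_lit 5) (nat_lit 265) (nat_lit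 5) (nat_lit 257) (nat_lit 5) (nat_lit 649) (nat_lit 587) (nat_lit 324))) (XT.nd (nat_lit 78) (nat_lit 532) (nat_lit 0) (XT.lf (nat_lit 0) (nat_lit 7845199352) (nat_lit 684) (nat_lit 3897750120) (nat_lit 76) (nat_lit 18709354430) (nat_lit 256) (nat_lit 5) (nat_lit 265) (nat_lit 5) (nat_lit 257) (nat_lit 5) (nat_lit 650) (nat_lit 587) (nat_lit 323)) (XT.lf (nat_lit 0) (nat_lit 13660117553) (nat_lit 608) (nat_lit 16516065788) (nat_lit 76) (nat_lit 635412119) (nat_lit 249) (nat_lit 5) (nat_lit 257) (nat_lit 5) (nat_lit 250) (nat_lit 5) (nat_lit 651) (nat_lit 587) (nat_lit 322)))) (XT.nd (nat_lit 156) (nat_lit 532) (nat_lit 0) (XT.nd (nat_lit 78) (nat_lit 0) (nat_lit 0) (XT.lf (nat_lit 0) (nat_lit 1668210228) (nat_lit 532) (nat_lit 18035334542) (nat_lit 608) (nat_lit 11472283923) (nat_lit 242) (nat_lit 5) (nat_lit 249) (nat_lit 5) (nat_lit 250) (nat_lit 5) (nat_lit 652) (nat_lit 587) (nat_lit 321)) (XT.lf (nat_lit 0) (nat_lit 20436387733) (nat_lit 532) (nat_lit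 5539596267) (nat_lit 608) (nat_lit 5569199778) (nat_lit 242) (nat_lit 5) (nat_lit 249) (nat_lit 5) (nat_lit 250) (nat_lit 5) (nat_lit 653) (nat_lit 587) (nat_lit 320))) (XT.nd (nat_lit 78) (nat_lit 0) (nat_lit 0) (XT.lf (nat_lit 0) (nat_lit 540837273) (nat_lit 532) (nat_lit 24214921597) (nat_lit 76) (nat_lit 7164212088) (nat_lit 235) (nat_lit 5) (nat_lit 242) (nat_lit 5) (nat_lit 236) (nat_lit 5) (nat_lit 654) (nat_lit 587) (nat_lit 319)) (XT.lf (nat_lit 0) (nat_lit 6807668244) (nat_lit 532) (nat_lit 5332719941) (nat_lit 76) (nat_lit 20158946207) (nat_lit 235) (nat_lit 5) (nat_lit 242) (nat_lit 5) (nat_lit 236) (nat_lit 5) (nat_lit 655) (nat_lit 587) (nat_lit 318))))) (XT.nd (nat_lit 312) (nat_lit 912) (nat_lit 0) (XT.nd (nat_lit 156) (nat_lit 532) (nat_lit 0) (XT.nd (nat_lit 78) (nat_lit 456) (nat_lit 0) (XT.lf (nat_lit 0) (nat_lit 13294181342) (nat_lit 608) (nat_lit 18581242395) (nat_lit 76) (nat_lit 808974500) (nat_lit 228) (nat_lit 5) (nat_lit 236)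 (nat_lit 5) (nat_lit 229) (nat_lit 5) (nat_lit 656) (nat_lit 587) (nat_lit 317)) (XT.lf (nat_lit 0) (nat_lit 850506637) (nat_lit 456) (nat_lit 19179304383) (nat_lit 532) (nat_lit 13044964662) (nat_lit 222) (nat_lit 5) (nat_lit 228) (nat_lit 5) (nat_lit 229) (nat_lit 5) (nat_lit 657) (nat_lit 587) (nat_lit 316))) (XT.nd (nat_lit 78) (nat_lit 532) (nat_lit 0) (XT.lf (nat_lit 0) (nat_lit 20919189045) (nat_lit 456) (nat_lit 6103123105) (nat_lit 532) (nat_lit 6448205399) (nat_lit 222) (nat_lit 5) (nat_lit 228) (nat_lit 5) (nat_lit 229) (nat_lit 5) (nat_lit 658) (nat_lit 587) (nat_lit 315)) (XT.lf (nat_lit 0) (nat_lit 371022670) (nat_lit 532) (nat_lit 26310992457) (nat_lit 76) (nat_lit 7190238506) (nat_lit 215) (nat_lit 5) (nat_lit 222) (nat_lit 5) (nat_lit 216) (nat_lit 5) (nat_lit 659) (nat_lit 587) (nat_lit 314)))) (XT.nd (nat_lit 156) (nat_lit 456) (nat_lit 0) (XT.nd (nat_lit 78) (nat_lit 456) (nat_lit 0) (XT.lf (nat_lit 0) (nat_lit 7363097854) (nat_lit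 532) (nat_lit 6121337680) (nat_lit 76) (nat_lit 20794280417) (nat_lit 215) (nat_lit 5) (nat_lit 222) (nat_lit 5) (nat_lit 216) (nat_lit 5) (nat_lit 660) (nat_lit 587) (nat_lit 313)) (XT.lf (nat_lit 0) (nat_lit 14588247721) (nat_lit 532) (nat_lit 20031024681) (nat_lit 76) (nat_lit 72170496) (nat_lit 209) (nat_lit 5) (nat_lit 216) (nat_lit 5) (nat_lit 210) (nat_lit 5) (nat_lit 661) (nat_lit 587) (nat_lit 312))) (XT.nd (nat_lit 78) (nat_lit 0) (nat_lit 0) (XT.lf (nat_lit 0) (nat_lit 745885880) (nat_lit 456) (nat_lit 21345096156) (nat_lit 532) (nat_lit 13018780765) (nat_lit 203) (nat_lit 5) (nat_lit 209) (nat_lit 5) (nat_lit 210) (nat_lit 5) (nat_lit 662) (nat_lit 587) (nat_lit 311)) (XT.lf (nat_lit 0) (nat_lit 22206377180) (nat_lit 456) (nat_lit 7669425581) (nat_lit 532) (nat_lit 5658005750) (nat_lit 203) (nat_lit 5) (nat_lit 209) (nat_lit 5) (nat_lit 210) (nat_lit 5) (nat_lit 663) (nat_lit 587) (nat_lit 310))))))) (XT.nd (nat_lit 1170) (nat_lit 1824) (nat_lit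 0) (XT.nd (nat_lit 546) (nat_lit 1976) (nat_lit 0) (XT.nd (nat_lit 234) (nat_lit 836) (nat_lit 0) (XT.nd (nat_lit 78) (nat_lit 456) (nat_lit 0) (XT.lf (nat_lit 0) (nat_lit 1917947962) (nat_lit 456) (nat_lit 27784152660) (nat_lit 76) (nat_lit 6262149807) (nat_lit 197) (nat_lit 5) (nat_lit 203) (nat_lit 5) (nat_lit 198) (nat_lit 5) (nat_lit 664) (nat_lit 587) (nat_lit 309)) (XT.nd (nat_lit 78) (nat_lit 456) (nat_lit 0) (XT.lf (nat_lit 0) (nat_lit 9708209267) (nat_lit 456) (nat_lit 6195394874) (nat_lit 76) (nat_lit 20496178113) (nat_lit 197) (nat_lit 5) (nat_lit 203) (nat_lit 5) (nat_lit 198) (nat_lit 5) (nat_lit 665) (nat_lit 587) (nat_lit 308)) (XT.lf (nat_lit 0) (nat_lit 16032005358) (nat_lit 456) (nat_lit 1724067854) (nat_lit 532) (nat_lit 19085915596) (nat_lit 191) (nat_lit 5) (nat_lit 197) (nat_lit 5) (nat_lit 198) (nat_lit 5) (nat_lit 666) (nat_lit 587) (nat_lit 307)))) (XT.nd (nat_lit 156) (nat_lit 456) (nat_lit 0) (XT.nd (nat_lit 78) (nat_lit 0)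 (nat_lit 0) (XT.lf (nat_lit 0) (nat_lit 1428058005) (nat_lit 380) (nat_lit 24668391341) (nat_lit 456) (nat_lit 11193959089) (nat_lit 186) (nat_lit 5) (nat_lit 191) (nat_lit 5) (nat_lit 192) (nat_lit 5) (nat_lit 667) (nat_lit 587) (nat_lit 306)) (XT.lf (nat_lit 0) (nat_lit 24377986851) (nat_lit 380) (nat_lit 10374380192) (nat_lit 456) (nat_lit 2992454770) (nat_lit 186) (nat_lit 5) (nat_lit 191) (nat_lit 5) (nat_lit 192) (nat_lit 5) (nat_lit 668) (nat_lit 587) (nat_lit 305))) (XT.nd (nat_lit 78) (nat_lit 0) (nat_lit 0) (XT.lf (nat_lit 0) (nat_lit 5391095633) (nat_lit 456) (nat_lit 28567219825) (nat_lit 76) (nat_lit 4247540628) (nat_lit 180) (nat_lit 5) (nat_lit 186) (nat_lit 5) (nat_lit 181) (nat_lit 5) (nat_lit 669) (nat_lit 587) (nat_lit 304)) (XT.lf (nat_lit 0) (nat_lit 14059072329) (nat_lit 456) (nat_lit 5481392036) (nat_lit 76) (nat_lit 19132114630) (nat_lit 180) (nat_lit 5) (nat_lit 186) (nat_lit 5) (nat_lit 181) (nat_lit 5) (nat_lit 670) (nat_lit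 587) (nat_lit 303))))) (XT.nd (nat_lit 312) (nat_lit 760) (nat_lit 0) (XT.nd (nat_lit 156) (nat_lit 456) (nat_lit 0) (XT.nd (nat_lit 78) (nat_lit 380) (nat_lit 0) (XT.lf (nat_lit 0) (nat_lit 18302897393) (nat_lit 380) (nat_lit 4714178818) (nat_lit 456) (nat_lit 16129226832) (nat_lit 175) (nat_lit 5) (nat_lit 180) (nat_lit 5) (nat_lit 181) (nat_lit 5) (nat_lit 671) (nat_lit 587) (nat_lit 302)) (XT.lf (nat_lit 0) (nat_lit 2976305263) (nat_lit 380) (nat_lit 29299712367) (nat_lit 456) (nat_lit 7351048429) (nat_lit 170) (nat_lit 5) (nat_lit 175) (nat_lit 5) (nat_lit 176) (nat_lit 5) (nat_lit 672) (nat_lit 587) (nat_lit 301))) (XT.nd (nat_lit 78) (nat_lit 380) (nat_lit 0) (XT.lf (nat_lit 0) (nat_lit 1751543796) (nat_lit 456) (nat_lit 12605571792) (nat_lit 76) (nat_lit 25756723269) (nat_lit 169) (nat_lit 5) (nat_lit 175) (nat_lit 5) (nat_lit 170) (nat_lit 5) (nat_lit 673) (nat_lit 587) (nat_lit 300)) (XT.lf (nat_lit 0) (nat_lit 11020401532) (nat_lit 456) (nat_lit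 28588118076) (nat_lit 76) (nat_lit 999202844) (nat_lit 164) (nat_lit 5) (nat_lit 170) (nat_lit 5) (nat_lit 165) (nat_lit 5) (nat_lit 674) (nat_lit 587) (nat_lit 299)))) (XT.nd (nat_lit 156) (nat_lit 380) (nat_lit 0) (XT.nd (nat_lit 78) (nat_lit 380) (nat_lit 0) (XT.lf (nat_lit 0) (nat_lit 20652775378) (nat_lit 456) (nat_lit 3900545471) (nat_lit 76) (nat_lit 16554600124) (nat_lit 164) (nat_lit 5) (nat_lit 170) (nat_lit 5) (nat_lit 165) (nat_lit 5) (nat_lit 675) (nat_lit 587) (nat_lit 298)) (XT.lf (nat_lit 0) (nat_lit 21560341410) (nat_lit 380) (nat_lit 9055388837) (nat_lit 456) (nat_lit 10999634578) (nat_lit 159) (nat_lit 5) (nat_lit 164) (nat_lit 5) (nat_lit 165) (nat_lit 5) (nat_lit 676) (nat_lit 587) (nat_lit 297))) (XT.nd (nat_lit 78) (nat_lit 76) (nat_lit 0) (XT.lf (nat_lit 0) (nat_lit 5475464515) (nat_lit 304) (nat_lit 35406181379) (nat_lit 380) (nat_lit 1249237657) (nat_lit 155) (nat_lit 5) (nat_lit 159) (nat_lit 5) (nat_lit 160) (nat_lit 5) (nat_lit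 677) (nat_lit 587) (nat_lit 296)) (XT.lf (nat_lit 0) (nat_lit 8775523261) (nat_lit 380) (nat_lit 10986152626) (nat_lit 76) (nat_lit 22890039413) (nat_lit 154) (nat_lit 5) (nat_lit 159) (nat_lit 5) (nat_lit 155) (nat_lit 5) (nat_lit 678) (nat_lit 587) (nat_lit 295)))))) (XT.nd (nat_lit 74100) (nat_lit 0) (nat_lit 28576) (XT.nd (nat_lit 312) (nat_lit 684) (nat_lit 0) (XT.nd (nat_lit 156) (nat_lit 760) (nat_lit 0) (XT.nd (nat_lit 78) (nat_lit 0) (nat_lit 0) (XT.lf (nat_lit 0) (nat_lit 15386867857) (nat_lit 380) (nat_lit 3695108867) (nat_lit 456) (nat_lit 24098863348) (nat_lit 149) (nat_lit 5) (nat_lit 154) (nat_lit 5) (nat_lit 155) (nat_lit 5) (nat_lit 679) (nat_lit 587) (nat_lit 294)) (XT.lf (nat_lit 0) (nat_lit 29749198724) (nat_lit 456) (nat_lit 1368873036) (nat_lit 76) (nat_lit 12599382818) (nat_lit 149) (nat_lit 5) (nat_lit 155) (nat_lit 5) (nat_lit 150) (nat_lit 5) (nat_lit 680) (nat_lit 587) (nat_lit 293))) (XT.nd (nat_lit 78) (nat_lit 456) (nat_lit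 0) (XT.lf (nat_lit 0) (nat_lit 25896789576) (nat_lit 304) (nat_lit 14923642859) (nat_lit 380) (nat_lit 3440555623) (nat_lit 145) (nat_lit 5) (nat_lit 149) (nat_lit 5) (nat_lit 150) (nat_lit 5) (nat_lit 681) (nat_lit 587) (nat_lit 292)) (XT.lf (nat_lit 0) (nat_lit 7278697407) (nat_lit 456) (nat_lit 35845931506) (nat_lit 76) (nat_lit 1688281505) (nat_lit 139) (nat_lit 5) (nat_lit 145) (nat_lit 5) (nat_lit 140) (nat_lit 5) (nat_lit 682) (nat_lit 587) (nat_lit 291)))) (XT.nd (nat_lit 156) (nat_lit 380) (nat_lit 0) (XT.nd (nat_lit 78) (nat_lit 304) (nat_lit 0) (XT.lf (nat_lit 0) (nat_lit 18387263917) (nat_lit 456) (nat_lit 8405252796) (nat_lit 76) (nat_lit 18578479746) (nat_lit 139) (nat_lit 5) (nat_lit 145) (nat_lit 5) (nat_lit 140) (nat_lit 5) (nat_lit 683) (nat_lit 587) (nat_lit 290)) (XT.lf (nat_lit 0) (nat_lit 19841399960) (nat_lit 304) (nat_lit 10003535884) (nat_lit 380) (nat_lit 16092769722) (nat_lit 135) (nat_lit 5) (nat_lit 139) (nat_lit 5) (nat_lit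 140) (nat_lit 5) (nat_lit 684) (nat_lit 587) (nat_lit 289))) (XT.nd (nat_lit 78) (nat_lit 76) (nat_lit 0) (XT.lf (nat_lit 0) (nat_lit 2231890021) (nat_lit 304) (nat_lit 39415495265) (nat_lit 380) (nat_lit 4866051114) (nat_lit 131) (nat_lit 5) (nat_lit 135) (nat_lit 5) (nat_lit 136) (nat_lit 5) (nat_lit 685) (nat_lit 587) (nat_lit 288)) (XT.lf (nat_lit 0) (nat_lit 6739488947) (nat_lit 380) (nat_lit 15730028913) (nat_lit 76) (nat_lit 24625495841) (nat_lit 130) (nat_lit 5) (nat_lit 135) (nat_lit 5) (nat_lit 131) (nat_lit 5) (nat_lit 686) (nat_lit 587) (nat_lit 287))))) (XT.nd (nat_lit 312) (nat_lit 0) (nat_lit 76) (XT.nd (nat_lit 156) (nat_lit 0) (nat_lit 0) (XT.nd (nat_lit 78) (nat_lit 0) (nat_lit 0) (XT.lf (nat_lit 0) (nat_lit 2692923155) (nat_lit 0) (nat_lit 2692923155) (nat_lit 1748) (nat_lit 2508503443) (nat_lit 506) (nat_lit 5) (nat_lit 506) (nat_lit 3) (nat_lit 529) (nat_lit 3) (nat_lit 588) (nat_lit 588) (nat_lit 384)) (XT.lf (nat_lit 0) (nat_lit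 11162736022) (nat_lit 1748) (nat_lit 2552909212) (nat_lit 1824) (nat_lit 2225266389) (nat_lit 506) (nat_lit 5) (nat_lit 529) (nat_lit 3) (nat_lit 530) (nat_lit 5) (nat_lit 589) (nat_lit 588) (nat_lit 383))) (XT.nd (nat_lit 78) (nat_lit 0) (nat_lit 76) (XT.lf (nat_lit 76) (nat_lit 5486636088) (nat_lit 0) (nat_lit 6139230073) (nat_lit 1824) (nat_lit 4469016723) (nat_lit 507) (nat_lit 5) (nat_lit 506) (nat_lit 5) (nat_lit 530) (nat_lit 5) (nat_lit 590) (nat_lit 588) (nat_lit 382)) (XT.lf (nat_lit 0) (nat_lit 12118928875) (nat_lit 1748) (nat_lit 2544264905) (nat_lit 1824) (nat_lit 1588326605) (nat_lit 507) (nat_lit 5) (nat_lit 530) (nat_lit 5) (nat_lit 531) (nat_lit 5) (nat_lit 591) (nat_lit 588) (nat_lit 381)))) (XT.nd (nat_lit 156) (nat_lit 0) (nat_lit 76) (XT.nd (nat_lit 78) (nat_lit 0) (nat_lit 76) (XT.lf (nat_lit 76) (nat_lit 5711498587) (nat_lit 0) (nat_lit 6981339513) (nat_lit 1824) (nat_lit 3717033042) (nat_lit 508) (nat_lit 5) (nat_lit 507) (nat_lit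 5) (nat_lit 531) (nat_lit 5) (nat_lit 592) (nat_lit 588) (nat_lit 380)) (XT.lf (nat_lit 0) (nat_lit 13294330171) (nat_lit 1748) (nat_lit 2413716374) (nat_lit 1824) (nat_lit 863020481) (nat_lit 508) (nat_lit 5) (nat_lit 531) (nat_lit 5) (nat_lit 532) (nat_lit 5) (nat_lit 593) (nat_lit 588) (nat_lit 379))) (XT.nd (nat_lit 78) (nat_lit 0) (nat_lit 76) (XT.lf (nat_lit 76) (nat_lit 6066157970) (nat_lit 0) (nat_lit 7920816136) (nat_lit 1824) (nat_lit 2746930485) (nat_lit 509) (nat_lit 5) (nat_lit 508) (nat_lit 5) (nat_lit 532) (nat_lit 5) (nat_lit 594) (nat_lit 588) (nat_lit 378)) (XT.lf (nat_lit 0) (nat_lit 14703541736) (nat_lit 1748) (nat_lit 2155497514) (nat_lit 1824) (nat_lit 40758439) (nat_lit 509) (nat_lit 5) (nat_lit 532) (nat_lit 5) (nat_lit 533) (nat_lit 5) (nat_lit 595) (nat_lit 588) (nat_lit 377))))))))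
noncomputable def xc189 : XT := (XT.nd (nat_lit 2418) (nat_lit 11780) (nat_lit 0) (XT.nd (nat_lit 1170) (nat_lit 7828) (nat_lit 0) (XT.nd (nat_lit 546) (nat_lit 0) (nat_lit 152) (XT.nd (nat_lit 234) (nat_lit 1748) (nat_lit 0) (XT.nd (nat_lit 78) (nat_lit 0) (nat_lit 0) (XT.lf (nat_lit 76) (nat_lit 6556690088) (nat_lit 0) (nat_lit 8966524168) (nat_lit 1824) (nat_lit 1544019115) (nat_lit 510) (nat_lit 5) (nat_lit 509) (nat_lit 5) (nat_lit 533) (nat_lit 5) (nat_lit 596) (nat_lit 588) (nat_lit 376)) (XT.nd (nat_lit 78) (nat_lit 0) (nat_lit 76) (XT.lf (nat_lit 76) (nat_lit 15468522141) (nat_lit 0) (nat_lit 899067846) (nat_lit 1824) (nat_lit 870261777) (nat_lit 510) (nat_lit 5) (nat_lit 509) (nat_lit 5) (nat_lit 533) (nat_lit 5) (nat_lit 597) (nat_lit 588) (nat_lit 375)) (XT.lf (nat_lit 76) (nat_lit 7189532271) (nat_lit 0) (nat_lit 10127570485) (nat_lit 1824) (nat_lit 93014964) (nat_lit 511) (nat_lit 5) (nat_lit 510) (nat_lit 5) (nat_lit 534) (nat_lit 5) (nat_lit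 598) (nat_lit 588) (nat_lit 374)))) (XT.nd (nat_lit 156) (nat_lit 0) (nat_lit 76) (XT.nd (nat_lit 78) (nat_lit 0) (nat_lit 76) (XT.lf (nat_lit 0) (nat_lit 702539314) (nat_lit 1824) (nat_lit 1248545008) (nat_lit 1900) (nat_lit 15634415181) (nat_lit 486) (nat_lit 5) (nat_lit 510) (nat_lit 5) (nat_lit 511) (nat_lit 5) (nat_lit 599) (nat_lit 588) (nat_lit 373)) (XT.lf (nat_lit 0) (nat_lit 1600717637) (nat_lit 1824) (nat_lit 9801865485) (nat_lit 1900) (nat_lit 6360034510) (nat_lit 487) (nat_lit 5) (nat_lit 511) (nat_lit 5) (nat_lit 512) (nat_lit 5) (nat_lit 600) (nat_lit 588) (nat_lit 372))) (XT.nd (nat_lit 78) (nat_lit 0) (nat_lit 76) (XT.lf (nat_lit 0) (nat_lit 2532468178) (nat_lit 1824) (nat_lit 588885400) (nat_lit 1900) (nat_lit 14821612545) (nat_lit 487) (nat_lit 5) (nat_lit 511) (nat_lit 5) (nat_lit 512) (nat_lit 5) (nat_lit 601) (nat_lit 588) (nat_lit 371)) (XT.lf (nat_lit 0) (nat_lit 3570115927) (nat_lit 1824) (nat_lit 9239366769) (nat_lit 1900) (nat_lit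 5315693814) (nat_lit 488) (nat_lit 5) (nat_lit 512) (nat_lit 5) (nat_lit 513) (nat_lit 5) (nat_lit 602) (nat_lit 588) (nat_lit 370))))) (XT.nd (nat_lit 312) (nat_lit 0) (nat_lit 152) (XT.nd (nat_lit 156) (nat_lit 0) (nat_lit 76) (XT.nd (nat_lit 78) (nat_lit 0) (nat_lit 76) (XT.lf (nat_lit 76) (nat_lit 225309942) (nat_lit 0) (nat_lit 4423781453) (nat_lit 1900) (nat_lit 13661528380) (nat_lit 489) (nat_lit 5) (nat_lit 488) (nat_lit 5) (nat_lit 513) (nat_lit 5) (nat_lit 603) (nat_lit 588) (nat_lit 369)) (XT.lf (nat_lit 0) (nat_lit 5833425785) (nat_lit 1824) (nat_lit 8525302285) (nat_lit 1900) (nat_lit 4139368410) (nat_lit 489) (nat_lit 5) (nat_lit 513) (nat_lit 5) (nat_lit 514) (nat_lit 5) (nat_lit 604) (nat_lit 588) (nat_lit 368))) (XT.nd (nat_lit 78) (nat_lit 0) (nat_lit 76) (XT.lf (nat_lit 76) (nat_lit 1208468213) (nat_lit 0) (nat_lit 5864783618) (nat_lit 1900) (nat_lit 11615434948) (nat_lit 490) (nat_lit 5) (nat_lit 489) (nat_lit 5) (nat_lit 514) (nat_lit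 5) (nat_lit 605) (nat_lit 588) (nat_lit 367)) (XT.lf (nat_lit 0) (nat_lit 8408385320) (nat_lit 1824) (nat_lit 7652097360) (nat_lit 1900) (nat_lit 2821196143) (nat_lit 490) (nat_lit 5) (nat_lit 514) (nat_lit 5) (nat_lit 515) (nat_lit 5) (nat_lit 606) (nat_lit 588) (nat_lit 366)))) (XT.nd (nat_lit 156) (nat_lit 0) (nat_lit 76) (XT.nd (nat_lit 78) (nat_lit 0) (nat_lit 76) (XT.lf (nat_lit 76) (nat_lit 2360710328) (nat_lit 0) (nat_lit 7458530587) (nat_lit 1900) (nat_lit 9258309556) (nat_lit 491) (nat_lit 5) (nat_lit 490) (nat_lit 5) (nat_lit 515) (nat_lit 5) (nat_lit 607) (nat_lit 588) (nat_lit 365)) (XT.lf (nat_lit 0) (nat_lit 11313478940) (nat_lit 1824) (nat_lit 6611773008) (nat_lit 1900) (nat_lit 1350984448) (nat_lit 491) (nat_lit 5) (nat_lit 515) (nat_lit 5) (nat_lit 516) (nat_lit 5) (nat_lit 608) (nat_lit 588) (nat_lit 364))) (XT.nd (nat_lit 78) (nat_lit 0) (nat_lit 0) (XT.lf (nat_lit 76) (nat_lit 3690401601) (nat_lit 0) (nat_lit 9215589029) (nat_lit 1900)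 (nat_lit 6571537778) (nat_lit 492) (nat_lit 5) (nat_lit 491) (nat_lit 5) (nat_lit 516) (nat_lit 5) (nat_lit 609) (nat_lit 588) (nat_lit 363)) (XT.lf (nat_lit 76) (nat_lit 14284270436) (nat_lit 0) (nat_lit 285556296) (nat_lit 1900) (nat_lit 5112230192) (nat_lit 492) (nat_lit 5) (nat_lit 491) (nat_lit 5) (nat_lit 516) (nat_lit 5) (nat_lit 610) (nat_lit 588) (nat_lit 362)))))) (XT.nd (nat_lit 624) (nat_lit 3496) (nat_lit 0) (XT.nd (nat_lit 312) (nat_lit 2964) (nat_lit 0) (XT.nd (nat_lit 156) (nat_lit 1824) (nat_lit 0) (XT.nd (nat_lit 78) (nat_lit 0) (nat_lit 0) (XT.lf (nat_lit 76) (nat_lit 5206339804) (nat_lit 0) (nat_lit 11146895556) (nat_lit 1900) (nat_lit 3535714873) (nat_lit 493) (nat_lit 5) (nat_lit 492) (nat_lit 5) (nat_lit 517) (nat_lit 5) (nat_lit 611) (nat_lit 588) (nat_lit 361)) (XT.lf (nat_lit 76) (nat_lit 16089829461) (nat_lit 0) (nat_lit 2115859061) (nat_lit 1900) (nat_lit 1893625499) (nat_lit 493) (nat_lit 5) (nat_lit 492) (nat_lit 5) (nat_lit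 517) (nat_lit 5) (nat_lit 612) (nat_lit 588) (nat_lit 360))) (XT.nd (nat_lit 78) (nat_lit 76) (nat_lit 0) (XT.lf (nat_lit 0) (nat_lit 6917769953) (nat_lit 1824) (nat_lit 13263779310) (nat_lit 1900) (nat_lit 130608787) (nat_lit 469) (nat_lit 5) (nat_lit 493) (nat_lit 5) (nat_lit 494) (nat_lit 5) (nat_lit 613) (nat_lit 588) (nat_lit 359)) (XT.lf (nat_lit 0) (nat_lit 1682300512) (nat_lit 1900) (nat_lit 2439845714) (nat_lit 76) (nat_lit 16406166234) (nat_lit 468) (nat_lit 5) (nat_lit 493) (nat_lit 5) (nat_lit 469) (nat_lit 5) (nat_lit 614) (nat_lit 588) (nat_lit 358)))) (XT.nd (nat_lit 156) (nat_lit 1824) (nat_lit 0) (XT.nd (nat_lit 78) (nat_lit 0) (nat_lit 0) (XT.lf (nat_lit 0) (nat_lit 3616812627) (nat_lit 1216) (nat_lit 11936901789) (nat_lit 76) (nat_lit 5193316533) (nat_lit 453) (nat_lit 5) (nat_lit 469) (nat_lit 5) (nat_lit 454) (nat_lit 5) (nat_lit 615) (nat_lit 588) (nat_lit 357)) (XT.lf (nat_lit 0) (nat_lit 5629359048) (nat_lit 1216) (nat_lit 683040793)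 (nat_lit 76) (nat_lit 14656937211) (nat_lit 453) (nat_lit 5) (nat_lit 469) (nat_lit 5) (nat_lit 454) (nat_lit 5) (nat_lit 616) (nat_lit 588) (nat_lit 356))) (XT.nd (nat_lit 78) (nat_lit 912) (nat_lit 0) (XT.lf (nat_lit 0) (nat_lit 7769496497) (nat_lit 988) (nat_lit 10280063438) (nat_lit 76) (nat_lit 3144782663) (nat_lit 441) (nat_lit 5) (nat_lit 454) (nat_lit 5) (nat_lit 442) (nat_lit 5) (nat_lit 617) (nat_lit 588) (nat_lit 355)) (XT.lf (nat_lit 0) (nat_lit 1300269561) (nat_lit 912) (nat_lit 8702740588) (nat_lit 988) (nat_lit 11419826759) (nat_lit 429) (nat_lit 5) (nat_lit 441) (nat_lit 5) (nat_lit 442) (nat_lit 5) (nat_lit 618) (nat_lit 588) (nat_lit 354))))) (XT.nd (nat_lit 312) (nat_lit 1748) (nat_lit 0) (XT.nd (nat_lit 156) (nat_lit 912) (nat_lit 0) (XT.nd (nat_lit 78) (nat_lit 836) (nat_lit 0) (XT.lf (nat_lit 0) (nat_lit 12351804359) (nat_lit 988) (nat_lit 8412872747) (nat_lit 76) (nat_lit 889811910) (nat_lit 429) (nat_lit 5) (nat_lit 442) (nat_lit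 5) (nat_lit 430) (nat_lit 5) (nat_lit 619) (nat_lit 588) (nat_lit 353)) (XT.lf (nat_lit 0) (nat_lit 3515510638) (nat_lit 836) (nat_lit 11308379055) (nat_lit 912) (nat_lit 7065358284) (nat_lit 418) (nat_lit 5) (nat_lit 429) (nat_lit 5) (nat_lit 430) (nat_lit 5) (nat_lit 620) (nat_lit 588) (nat_lit 352))) (XT.nd (nat_lit 78) (nat_lit 912) (nat_lit 0) (XT.lf (nat_lit 0) (nat_lit 15792548948) (nat_lit 836) (nat_lit 1605234358) (nat_lit 912) (nat_lit 4729871595) (nat_lit 418) (nat_lit 5) (nat_lit 429) (nat_lit 5) (nat_lit 430) (nat_lit 5) (nat_lit 621) (nat_lit 588) (nat_lit 351)) (XT.lf (nat_lit 0) (nat_lit 5964734523) (nat_lit 912) (nat_lit 14146977071) (nat_lit 988) (nat_lit 2257347345) (nat_lit 406) (nat_lit 5) (nat_lit 418) (nat_lit 5) (nat_lit 419) (nat_lit 5) (nat_lit 622) (nat_lit 588) (nat_lit 350)))) (XT.nd (nat_lit 156) (nat_lit 836) (nat_lit 0) (XT.nd (nat_lit 78) (nat_lit 836) (nat_lit 0) (XT.lf (nat_lit 0) (nat_lit 310600443) (nat_lit 988) (nat_lit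 4034607442) (nat_lit 76) (nat_lit 18269060043) (nat_lit 405) (nat_lit 5) (nat_lit 418) (nat_lit 5) (nat_lit 406) (nat_lit 5) (nat_lit 623) (nat_lit 588) (nat_lit 349)) (XT.lf (nat_lit 0) (nat_lit 2989319491) (nat_lit 912) (nat_lit 14222749036) (nat_lit 76) (nat_lit 5650221491) (nat_lit 394) (nat_lit 5) (nat_lit 406) (nat_lit 5) (nat_lit 395) (nat_lit 5) (nat_lit 624) (nat_lit 588) (nat_lit 348))) (XT.nd (nat_lit 78) (nat_lit 836) (nat_lit 0) (XT.lf (nat_lit 0) (nat_lit 5773791545) (nat_lit 912) (nat_lit 1525779312) (nat_lit 76) (nat_lit 15814658222) (nat_lit 394) (nat_lit 5) (nat_lit 406) (nat_lit 5) (nat_lit 395) (nat_lit 5) (nat_lit 625) (nat_lit 588) (nat_lit 347)) (XT.lf (nat_lit 0) (nat_lit 8704066122) (nat_lit 912) (nat_lit 11815494209) (nat_lit 76) (nat_lit 2849844431) (nat_lit 383) (nat_lit 5) (nat_lit 395) (nat_lit 5) (nat_lit 384) (nat_lit 5) (nat_lit 626) (nat_lit 588) (nat_lit 346))))))) (XT.nd (nat_lit 1170) (nat_lit 5244) (nat_lit 0) (XT.nd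 (nat_lit 546) (nat_lit 3420) (nat_lit 0) (XT.nd (nat_lit 234) (nat_lit 1596) (nat_lit 0) (XT.nd (nat_lit 78) (nat_lit 760) (nat_lit 0) (XT.lf (nat_lit 0) (nat_lit 1250462040) (nat_lit 760) (nat_lit 10505523592) (nat_lit 836) (nat_lit 11872437636) (nat_lit 373) (nat_lit 5) (nat_lit 383) (nat_lit 5) (nat_lit 384) (nat_lit 5) (nat_lit 627) (nat_lit 588) (nat_lit 345)) (XT.nd (nat_lit 78) (nat_lit 760) (nat_lit 0) (XT.lf (nat_lit 0) (nat_lit 14733999347) (nat_lit 760) (nat_lit 210552633) (nat_lit 836) (nat_lit 8946558093) (nat_lit 373) (nat_lit 5) (nat_lit 383) (nat_lit 5) (nat_lit 384) (nat_lit 5) (nat_lit 628) (nat_lit 588) (nat_lit 344)) (XT.lf (nat_lit 0) (nat_lit 4314029922) (nat_lit 760) (nat_lit 13974071855) (nat_lit 836) (nat_lit 5869124690) (nat_lit 363) (nat_lit 5) (nat_lit 373) (nat_lit 5) (nat_lit 374) (nat_lit 5) (nat_lit 629) (nat_lit 588) (nat_lit 343)))) (XT.nd (nat_lit 156) (nat_lit 760) (nat_lit 0) (XT.nd (nat_lit 78) (nat_lit 836) (nat_lit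 0) (XT.lf (nat_lit 0) (nat_lit 18173438562) (nat_lit 760) (nat_lit 3584354909) (nat_lit 836) (nat_lit 2669686393) (nat_lit 363) (nat_lit 5) (nat_lit 373) (nat_lit 5) (nat_lit 374) (nat_lit 5) (nat_lit 630) (nat_lit 588) (nat_lit 342)) (XT.lf (nat_lit 0) (nat_lit 678320288) (nat_lit 836) (nat_lit 17047828775) (nat_lit 76) (nat_lit 6975064925) (nat_lit 352) (nat_lit 5) (nat_lit 363) (nat_lit 5) (nat_lit 353) (nat_lit 5) (nat_lit 631) (nat_lit 588) (nat_lit 341))) (XT.nd (nat_lit 78) (nat_lit 760) (nat_lit 0) (XT.lf (nat_lit 0) (nat_lit 4120081974) (nat_lit 836) (nat_lit 3101425391) (nat_lit 76) (nat_lit 17757311744) (nat_lit 352) (nat_lit 5) (nat_lit 363) (nat_lit 5) (nat_lit 353) (nat_lit 5) (nat_lit 632) (nat_lit 588) (nat_lit 340)) (XT.lf (nat_lit 0) (nat_lit 7723593094) (nat_lit 836) (nat_lit 14015863143) (nat_lit 76) (nat_lit 3520661899) (nat_lit 342) (nat_lit 5) (nat_lit 353) (nat_lit 5) (nat_lit 343) (nat_lit 5) (nat_lit 633) (nat_lit 588) (nat_lit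 339))))) (XT.nd (nat_lit 312) (nat_lit 2052) (nat_lit 0) (XT.nd (nat_lit 156) (nat_lit 684) (nat_lit 0) (XT.nd (nat_lit 78) (nat_lit 0) (nat_lit 0) (XT.lf (nat_lit 0) (nat_lit 324713539) (nat_lit 684) (nat_lit 11141976672) (nat_lit 760) (nat_lit 14079002701) (nat_lit 333) (nat_lit 5) (nat_lit 342) (nat_lit 5) (nat_lit 343) (nat_lit 5) (nat_lit 634) (nat_lit 588) (nat_lit 338)) (XT.lf (nat_lit 0) (nat_lit 15138270290) (nat_lit 684) (nat_lit 237106959) (nat_lit 760) (nat_lit 10459787459) (nat_lit 333) (nat_lit 5) (nat_lit 342) (nat_lit 5) (nat_lit 343) (nat_lit 5) (nat_lit 635) (nat_lit 588) (nat_lit 337))) (XT.nd (nat_lit 78) (nat_lit 0) (nat_lit 0) (XT.lf (nat_lit 0) (nat_lit 4096918410) (nat_lit 684) (nat_lit 15359333977) (nat_lit 760) (nat_lit 6672293345) (nat_lit 324) (nat_lit 5) (nat_lit 333) (nat_lit 5) (nat_lit 334) (nat_lit 5) (nat_lit 636) (nat_lit 588) (nat_lit 336)) (XT.lf (nat_lit 0) (nat_lit 19326233229) (nat_lit 684) (nat_lit 4362629168) (nat_lit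 760) (nat_lit 2737529713) (nat_lit 324) (nat_lit 5) (nat_lit 333) (nat_lit 5) (nat_lit 334) (nat_lit 5) (nat_lit 637) (nat_lit 588) (nat_lit 335)))) (XT.nd (nat_lit 156) (nat_lit 1292) (nat_lit 0) (XT.nd (nat_lit 78) (nat_lit 0) (nat_lit 0) (XT.lf (nat_lit 0) (nat_lit 1354325927) (nat_lit 760) (nat_lit 18548144098) (nat_lit 76) (nat_lit 6825657168) (nat_lit 314) (nat_lit 5) (nat_lit 324) (nat_lit 5) (nat_lit 315) (nat_lit 5) (nat_lit 638) (nat_lit 588) (nat_lit 334)) (XT.lf (nat_lit 0) (nat_lit 5565102643) (nat_lit 760) (nat_lit 3224093156) (nat_lit 76) (nat_lit 18244864563) (nat_lit 314) (nat_lit 5) (nat_lit 324) (nat_lit 5) (nat_lit 315) (nat_lit 5) (nat_lit 639) (nat_lit 588) (nat_lit 333))) (XT.nd (nat_lit 78) (nat_lit 608) (nat_lit 0) (XT.lf (nat_lit 0) (nat_lit 9955674679) (nat_lit 760) (nat_lit 14794057252) (nat_lit 76) (nat_lit 2594468742) (nat_lit 305) (nat_lit 5) (nat_lit 315) (nat_lit 5) (nat_lit 306) (nat_lit 5) (nat_lit 640) (nat_lit 588)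 (nat_lit 332)) (XT.lf (nat_lit 0) (nat_lit 974139855) (nat_lit 608) (nat_lit 13543174755) (nat_lit 684) (nat_lit 13141564122) (nat_lit 297) (nat_lit 5) (nat_lit 305) (nat_lit 5) (nat_lit 306) (nat_lit 5) (nat_lit 641) (nat_lit 588) (nat_lit 331)))))) (XT.nd (nat_lit 624) (nat_lit 2812) (nat_lit 0) (XT.nd (nat_lit 312) (nat_lit 1140) (nat_lit 0) (XT.nd (nat_lit 156) (nat_lit 684) (nat_lit 0) (XT.nd (nat_lit 78) (nat_lit 608) (nat_lit 0) (XT.lf (nat_lit 0) (nat_lit 17254519504) (nat_lit 608) (nat_lit 2011925934) (nat_lit 684) (nat_lit 8711479824) (nat_lit 297) (nat_lit 5) (nat_lit 305) (nat_lit 5) (nat_lit 306) (nat_lit 5) (nat_lit 642) (nat_lit 588) (nat_lit 330)) (XT.lf (nat_lit 0) (nat_lit 5563111496) (nat_lit 608) (nat_lit 18643906821) (nat_lit 684) (nat_lit 4094405287) (nat_lit 289) (nat_lit 5) (nat_lit 297) (nat_lit 5) (nat_lit 298) (nat_lit 5) (nat_lit 643) (nat_lit 588) (nat_lit 329))) (XT.nd (nat_lit 78) (nat_lit 608) (nat_lit 0) (XT.lf (nat_lit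 0) (nat_lit 689756692) (nat_lit 684) (nat_lit 6330744166) (nat_lit 76) (nat_lit 21609155020) (nat_lit 288) (nat_lit 5) (nat_lit 297) (nat_lit 5) (nat_lit 289) (nat_lit 5) (nat_lit 644) (nat_lit 588) (nat_lit 328)) (XT.lf (nat_lit 0) (nat_lit 5612211111) (nat_lit 684) (nat_lit 18482539377) (nat_lit 76) (nat_lit 4867212430) (nat_lit 280) (nat_lit 5) (nat_lit 289) (nat_lit 5) (nat_lit 281) (nat_lit 5) (nat_lit 645) (nat_lit 588) (nat_lit 327)))) (XT.nd (nat_lit 156) (nat_lit 532) (nat_lit 0) (XT.nd (nat_lit 78) (nat_lit 608) (nat_lit 0) (XT.lf (nat_lit 0) (nat_lit 10719509682) (nat_lit 684) (nat_lit 1638902622) (nat_lit 76) (nat_lit 16940775957) (nat_lit 280) (nat_lit 5) (nat_lit 289) (nat_lit 5) (nat_lit 281) (nat_lit 5) (nat_lit 646) (nat_lit 588) (nat_lit 326)) (XT.lf (nat_lit 0) (nat_lit 15744499837) (nat_lit 608) (nat_lit 283871961) (nat_lit 684) (nat_lit 13612798025) (nat_lit 272) (nat_lit 5) (nat_lit 280) (nat_lit 5) (nat_lit 281) (nat_lit 5) (nat_lit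 647) (nat_lit 588) (nat_lit 325))) (XT.nd (nat_lit 78) (nat_lit 0) (nat_lit 0) (XT.lf (nat_lit 0) (nat_lit 3471728140) (nat_lit 532) (nat_lit 18080635715) (nat_lit 608) (nat_lit 8435448169) (nat_lit 265) (nat_lit 5) (nat_lit 272) (nat_lit 5) (nat_lit 273) (nat_lit 5) (nat_lit 648) (nat_lit 588) (nat_lit 324)) (XT.lf (nat_lit 0) (nat_lit 21370360523) (nat_lit 532) (nat_lit 5908848341) (nat_lit 608) (nat_lit 3060330803) (nat_lit 265) (nat_lit 5) (nat_lit 272) (nat_lit 5) (nat_lit 273) (nat_lit 5) (nat_lit 649) (nat_lit 588) (nat_lit 323))))) (XT.nd (nat_lit 312) (nat_lit 1064) (nat_lit 0) (XT.nd (nat_lit 156) (nat_lit 1064) (nat_lit 0) (XT.nd (nat_lit 78) (nat_lit 0) (nat_lit 0) (XT.lf (nat_lit 0) (nat_lit 2489152454) (nat_lit 684) (nat_lit 21711829685) (nat_lit 76) (nat_lit 6495032593) (nat_lit 256) (nat_lit 5) (nat_lit 265) (nat_lit 5) (nat_lit 257) (nat_lit 5) (nat_lit 650) (nat_lit 588) (nat_lit 322)) (XT.lf (nat_lit 0) (nat_lit 8205715939) (nat_lit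 684) (nat_lit 3703608483) (nat_lit 76) (nat_lit 19147948990) (nat_lit 256) (nat_lit 5) (nat_lit 265) (nat_lit 5) (nat_lit 257) (nat_lit 5) (nat_lit 651) (nat_lit 588) (nat_lit 321))) (XT.nd (nat_lit 78) (nat_lit 532) (nat_lit 0) (XT.lf (nat_lit 0) (nat_lit 14135142657) (nat_lit 608) (nat_lit 16572496387) (nat_lit 76) (nat_lit 716147639) (nat_lit 249) (nat_lit 5) (nat_lit 257) (nat_lit 5) (nat_lit 250) (nat_lit 5) (nat_lit 652) (nat_lit 588) (nat_lit 320)) (XT.lf (nat_lit 0) (nat_lit 1973663236) (nat_lit 532) (nat_lit 18323584455) (nat_lit 608) (nat_lit 11498100788) (nat_lit 242) (nat_lit 5) (nat_lit 249) (nat_lit 5) (nat_lit 250) (nat_lit 5) (nat_lit 653) (nat_lit 588) (nat_lit 319)))) (XT.nd (nat_lit 156) (nat_lit 532) (nat_lit 0) (XT.nd (nat_lit 78) (nat_lit 532) (nat_lit 0) (XT.lf (nat_lit 0) (nat_lit 21111869217) (nat_lit 532) (nat_lit 5579352135) (nat_lit 608) (nat_lit 5480947681) (nat_lit 242) (nat_lit 5) (nat_lit 249) (nat_lit 5) (nat_lit 250) (nat_lit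 5) (nat_lit 654) (nat_lit 588) (nat_lit 318)) (XT.lf (nat_lit 0) (nat_lit 747018306) (nat_lit 532) (nat_lit 24428186599) (nat_lit 76) (nat_lit 7379254278) (nat_lit 235) (nat_lit 5) (nat_lit 242) (nat_lit 5) (nat_lit 236) (nat_lit 5) (nat_lit 655) (nat_lit 588) (nat_lit 317))) (XT.nd (nat_lit 78) (nat_lit 532) (nat_lit 0) (XT.lf (nat_lit 0) (nat_lit 7135355224) (nat_lit 532) (nat_lit 5173655291) (nat_lit 76) (nat_lit 20632476061) (nat_lit 235) (nat_lit 5) (nat_lit 242) (nat_lit 5) (nat_lit 236) (nat_lit 5) (nat_lit 656) (nat_lit 588) (nat_lit 316)) (XT.lf (nat_lit 0) (nat_lit 13750040463) (nat_lit 608) (nat_lit 18685586317) (nat_lit 76) (nat_lit 898656155) (nat_lit 228) (nat_lit 5) (nat_lit 236) (nat_lit 5) (nat_lit 229) (nat_lit 5) (nat_lit 657) (nat_lit 588) (nat_lit 315))))))))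
noncomputable def xc190 : XT := (XT.nd (nat_lit 75972) (nat_lit 0) (nat_lit 21812) (XT.nd (nat_lit 1170) (nat_lit 3344) (nat_lit 0) (XT.nd (nat_lit 546) (nat_lit 2128) (nat_lit 0) (XT.nd (nat_lit 234) (nat_lit 912) (nat_lit 0) (XT.nd (nat_lit 78) (nat_lit 532) (nat_lit 0) (XT.lf (nat_lit 0) (nat_lit 1133039268) (nat_lit 456) (nat_lit 19485342406) (nat_lit 532) (nat_lit 13114126351) (nat_lit 222) (nat_lit 5) (nat_lit 228) (nat_lit 5) (nat_lit 229) (nat_lit 5) (nat_lit 658) (nat_lit 588) (nat_lit 314)) (XT.nd (nat_lit 78) (nat_lit 532) (nat_lit 0) (XT.lf (nat_lit 0) (nat_lit 21597889001) (nat_lit 456) (nat_lit 6149158052) (nat_lit 532) (nat_lit 6389191463) (nat_lit 222) (nat_lit 5) (nat_lit 228) (nat_lit 5) (nat_lit 229) (nat_lit 5) (nat_lit 659) (nat_lit 588) (nat_lit 313)) (XT.lf (nat_lit 0) (nat_lit 562516340) (nat_lit 532) (nat_lit 26572984292) (nat_lit 76) (nat_lit 7410513138) (nat_lit 215) (nat_lit 5) (nat_lit 222) (nat_lit 5) (nat_lit 216) (nat_lit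 5) (nat_lit 660) (nat_lit 588) (nat_lit 312)))) (XT.nd (nat_lit 156) (nat_lit 456) (nat_lit 0) (XT.nd (nat_lit 78) (nat_lit 456) (nat_lit 0) (XT.lf (nat_lit 0) (nat_lit 7690823749) (nat_lit 532) (nat_lit 5984717362) (nat_lit 76) (nat_lit 21285136479) (nat_lit 215) (nat_lit 5) (nat_lit 222) (nat_lit 5) (nat_lit 216) (nat_lit 5) (nat_lit 661) (nat_lit 588) (nat_lit 311)) (XT.lf (nat_lit 0) (nat_lit 15059120220) (nat_lit 532) (nat_lit 20171238373) (nat_lit 76) (nat_lit 151327677) (nat_lit 209) (nat_lit 5) (nat_lit 216) (nat_lit 5) (nat_lit 210) (nat_lit 5) (nat_lit 662) (nat_lit 588) (nat_lit 310))) (XT.nd (nat_lit 78) (nat_lit 0) (nat_lit 0) (XT.lf (nat_lit 0) (nat_lit 1019497197) (nat_lit 456) (nat_lit 21690579722) (nat_lit 532) (nat_lit 13098332363) (nat_lit 203) (nat_lit 5) (nat_lit 209) (nat_lit 5) (nat_lit 210) (nat_lit 5) (nat_lit 663) (nat_lit 588) (nat_lit 309)) (XT.lf (nat_lit 0) (nat_lit 22904125899) (nat_lit 456) (nat_lit 7742992174) (nat_lit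 532) (nat_lit 5593887417) (nat_lit 203) (nat_lit 5) (nat_lit 209) (nat_lit 5) (nat_lit 210) (nat_lit 5) (nat_lit 664) (nat_lit 588) (nat_lit 308))))) (XT.nd (nat_lit 312) (nat_lit 836) (nat_lit 0) (XT.nd (nat_lit 156) (nat_lit 836) (nat_lit 0) (XT.nd (nat_lit 78) (nat_lit 0) (nat_lit 0) (XT.lf (nat_lit 0) (nat_lit 2130007232) (nat_lit 456) (nat_lit 28082630176) (nat_lit 76) (nat_lit 6467420941) (nat_lit 197) (nat_lit 5) (nat_lit 203) (nat_lit 5) (nat_lit 198) (nat_lit 5) (nat_lit 665) (nat_lit 588) (nat_lit 307)) (XT.lf (nat_lit 0) (nat_lit 10072667875) (nat_lit 456) (nat_lit 6067140480) (nat_lit 76) (nat_lit 20984560634) (nat_lit 197) (nat_lit 5) (nat_lit 203) (nat_lit 5) (nat_lit 198) (nat_lit 5) (nat_lit 666) (nat_lit 588) (nat_lit 306))) (XT.nd (nat_lit 78) (nat_lit 380) (nat_lit 0) (XT.lf (nat_lit 0) (nat_lit 16603148795) (nat_lit 456) (nat_lit 1676627632) (nat_lit 532) (nat_lit 19295677561) (nat_lit 191) (nat_lit 5) (nat_lit 197) (nat_lit 5) (nat_lit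 198) (nat_lit 5) (nat_lit 667) (nat_lit 588) (nat_lit 305)) (XT.lf (nat_lit 0) (nat_lit 1708298452) (nat_lit 380) (nat_lit 25077511636) (nat_lit 456) (nat_lit 11247054977) (nat_lit 186) (nat_lit 5) (nat_lit 191) (nat_lit 5) (nat_lit 192) (nat_lit 5) (nat_lit 668) (nat_lit 588) (nat_lit 304)))) (XT.nd (nat_lit 156) (nat_lit 380) (nat_lit 0) (XT.nd (nat_lit 78) (nat_lit 456) (nat_lit 0) (XT.lf (nat_lit 0) (nat_lit 25112290987) (nat_lit 380) (nat_lit 10499272176) (nat_lit 456) (nat_lit 2884869264) (nat_lit 186) (nat_lit 5) (nat_lit 191) (nat_lit 5) (nat_lit 192) (nat_lit 5) (nat_lit 669) (nat_lit 588) (nat_lit 303)) (XT.lf (nat_lit 0) (nat_lit 5663065351) (nat_lit 456) (nat_lit 28888527499) (nat_lit 76) (nat_lit 4415094665) (nat_lit 180) (nat_lit 5) (nat_lit 186) (nat_lit 5) (nat_lit 181) (nat_lit 5) (nat_lit 670) (nat_lit 588) (nat_lit 302))) (XT.nd (nat_lit 78) (nat_lit 380) (nat_lit 0) (XT.lf (nat_lit 0) (nat_lit 14501182997) (nat_lit 456) (nat_lit 5345885834)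 (nat_lit 76) (nat_lit 19595740476) (nat_lit 180) (nat_lit 5) (nat_lit 186) (nat_lit 5) (nat_lit 181) (nat_lit 5) (nat_lit 671) (nat_lit 588) (nat_lit 301)) (XT.lf (nat_lit 0) (nat_lit 18912476659) (nat_lit 380) (nat_lit 4724295924) (nat_lit 456) (nat_lit 16289266793) (nat_lit 175) (nat_lit 5) (nat_lit 180) (nat_lit 5) (nat_lit 181) (nat_lit 5) (nat_lit 672) (nat_lit 588) (nat_lit 300)))))) (XT.nd (nat_lit 624) (nat_lit 1368) (nat_lit 0) (XT.nd (nat_lit 312) (nat_lit 1140) (nat_lit 0) (XT.nd (nat_lit 156) (nat_lit 380) (nat_lit 0) (XT.nd (nat_lit 78) (nat_lit 76) (nat_lit 0) (XT.lf (nat_lit 0) (nat_lit 3280376445) (nat_lit 380) (nat_lit 29799515279) (nat_lit 456) (nat_lit 7336546002) (nat_lit 170) (nat_lit 5) (nat_lit 175) (nat_lit 5) (nat_lit 176) (nat_lit 5) (nat_lit 673) (nat_lit 588) (nat_lit 299)) (XT.lf (nat_lit 0) (nat_lit 1942854071) (nat_lit 456) (nat_lit 12615853803) (nat_lit 76) (nat_lit 26354279694) (nat_lit 169) (nat_lit 5) (nat_lit 175) (nat_lit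 5) (nat_lit 170) (nat_lit 5) (nat_lit 674) (nat_lit 588) (nat_lit 298))) (XT.nd (nat_lit 78) (nat_lit 0) (nat_lit 0) (XT.lf (nat_lit 0) (nat_lit 11396139334) (nat_lit 456) (nat_lit 28917098954) (nat_lit 76) (nat_lit 1103529589) (nat_lit 164) (nat_lit 5) (nat_lit 170) (nat_lit 5) (nat_lit 165) (nat_lit 5) (nat_lit 675) (nat_lit 588) (nat_lit 297)) (XT.lf (nat_lit 0) (nat_lit 21218114975) (nat_lit 456) (nat_lit 3740535317) (nat_lit 76) (nat_lit 16968381036) (nat_lit 164) (nat_lit 5) (nat_lit 170) (nat_lit 5) (nat_lit 165) (nat_lit 5) (nat_lit 676) (nat_lit 588) (nat_lit 296)))) (XT.nd (nat_lit 156) (nat_lit 456) (nat_lit 0) (XT.nd (nat_lit 78) (nat_lit 304) (nat_lit 0) (XT.lf (nat_lit 0) (nat_lit 22228003373) (nat_lit 380) (nat_lit 9150874829) (nat_lit 456) (nat_lit 11065774917) (nat_lit 159) (nat_lit 5) (nat_lit 164) (nat_lit 5) (nat_lit 165) (nat_lit 5) (nat_lit 677) (nat_lit 588) (nat_lit 295)) (XT.lf (nat_lit 0) (nat_lit 5822320199) (nat_lit 304) (nat_lit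 36026920469) (nat_lit 380) (nat_lit 1121259027) (nat_lit 155) (nat_lit 5) (nat_lit 159) (nat_lit 5) (nat_lit 160) (nat_lit 5) (nat_lit 678) (nat_lit 588) (nat_lit 294))) (XT.nd (nat_lit 78) (nat_lit 380) (nat_lit 0) (XT.lf (nat_lit 0) (nat_lit 9099031021) (nat_lit 380) (nat_lit 10971214129) (nat_lit 76) (nat_lit 23431542309) (nat_lit 154) (nat_lit 5) (nat_lit 159) (nat_lit 5) (nat_lit 155) (nat_lit 5) (nat_lit 679) (nat_lit 588) (nat_lit 293)) (XT.lf (nat_lit 0) (nat_lit 15927722938) (nat_lit 380) (nat_lit 3682502263) (nat_lit 456) (nat_lit 24431297336) (nat_lit 149) (nat_lit 5) (nat_lit 154) (nat_lit 5) (nat_lit 155) (nat_lit 5) (nat_lit 680) (nat_lit 588) (nat_lit 292))))) (XT.nd (nat_lit 312) (nat_lit 608) (nat_lit 0) (XT.nd (nat_lit 156) (nat_lit 456) (nat_lit 0) (XT.nd (nat_lit 78) (nat_lit 304) (nat_lit 0) (XT.lf (nat_lit 0) (nat_lit 30488467615) (nat_lit 456) (nat_lit 1165377567) (nat_lit 76) (nat_lit 12935070674) (nat_lit 149) (nat_lit 5) (nat_lit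 155) (nat_lit 5) (nat_lit 150) (nat_lit 5) (nat_lit 681) (nat_lit 588) (nat_lit 291)) (XT.lf (nat_lit 0) (nat_lit 26644079396) (nat_lit 304) (nat_lit 15135706607) (nat_lit 380) (nat_lit 3363560844) (nat_lit 145) (nat_lit 5) (nat_lit 149) (nat_lit 5) (nat_lit 150) (nat_lit 5) (nat_lit 682) (nat_lit 588) (nat_lit 290))) (XT.nd (nat_lit 78) (nat_lit 0) (nat_lit 0) (XT.lf (nat_lit 0) (nat_lit 7567401251) (nat_lit 456) (nat_lit 36330816085) (nat_lit 76) (nat_lit 1808086698) (nat_lit 139) (nat_lit 5) (nat_lit 145) (nat_lit 5) (nat_lit 140) (nat_lit 5) (nat_lit 683) (nat_lit 588) (nat_lit 289)) (XT.lf (nat_lit 0) (nat_lit 18895332623) (nat_lit 456) (nat_lit 8345873488) (nat_lit 76) (nat_lit 19034401854) (nat_lit 139) (nat_lit 5) (nat_lit 145) (nat_lit 5) (nat_lit 140) (nat_lit 5) (nat_lit 684) (nat_lit 588) (nat_lit 288)))) (XT.nd (nat_lit 73710) (nat_lit 0) (nat_lit 28500) (XT.nd (nat_lit 78) (nat_lit 304) (nat_lit 0) (XT.lf (nat_lit 0) (nat_lit 20464215715)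 (nat_lit 304) (nat_lit 10116658096) (nat_lit 380) (nat_lit 16272803166) (nat_lit 135) (nat_lit 5) (nat_lit 139) (nat_lit 5) (nat_lit 140) (nat_lit 5) (nat_lit 685) (nat_lit 588) (nat_lit 287)) (XT.lf (nat_lit 0) (nat_lit 2503232397) (nat_lit 304) (nat_lit 40115438960) (nat_lit 380) (nat_lit 4822265125) (nat_lit 131) (nat_lit 5) (nat_lit 135) (nat_lit 5) (nat_lit 136) (nat_lit 5) (nat_lit 686) (nat_lit 588) (nat_lit 286))) (XT.nd (nat_lit 78) (nat_lit 0) (nat_lit 0) (XT.lf (nat_lit 0) (nat_lit 2880252654) (nat_lit 0) (nat_lit 2880252654) (nat_lit 1748) (nat_lit 2286384303) (nat_lit 506) (nat_lit 5) (nat_lit 506) (nat_lit 3) (nat_lit 529) (nat_lit 3) (nat_lit 589) (nat_lit 589) (nat_lit 382)) (XT.lf (nat_lit 0) (nat_lit 11907707389) (nat_lit 1748) (nat_lit 2330075720) (nat_lit 1824) (nat_lit 2011496150) (nat_lit 506) (nat_lit 5) (nat_lit 529) (nat_lit 3) (nat_lit 530) (nat_lit 5) (nat_lit 590) (nat_lit 589) (nat_lit 381))))))) (XT.nd (nat_lit 1170) (nat_lit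 5168) (nat_lit 0) (XT.nd (nat_lit 546) (nat_lit 1520) (nat_lit 0) (XT.nd (nat_lit 234) (nat_lit 0) (nat_lit 152) (XT.nd (nat_lit 78) (nat_lit 0) (nat_lit 76) (XT.lf (nat_lit 76) (nat_lit 5868458567) (nat_lit 0) (nat_lit 6503178413) (nat_lit 1824) (nat_lit 4034862547) (nat_lit 507) (nat_lit 5) (nat_lit 506) (nat_lit 5) (nat_lit 530) (nat_lit 5) (nat_lit 591) (nat_lit 589) (nat_lit 380)) (XT.nd (nat_lit 78) (nat_lit 0) (nat_lit 0) (XT.lf (nat_lit 0) (nat_lit 12862962061) (nat_lit 1748) (nat_lit 2316781020) (nat_lit 1824) (nat_lit 1386758988) (nat_lit 507) (nat_lit 5) (nat_lit 530) (nat_lit 5) (nat_lit 531) (nat_lit 5) (nat_lit 592) (nat_lit 589) (nat_lit 379)) (XT.lf (nat_lit 76) (nat_lit 6102266366) (nat_lit 0) (nat_lit 7338042207) (nat_lit 1824) (nat_lit 3287872392) (nat_lit 508) (nat_lit 5) (nat_lit 507) (nat_lit 5) (nat_lit 531) (nat_lit 5) (nat_lit 593) (nat_lit 589) (nat_lit 378)))) (XT.nd (nat_lit 156) (nat_lit 0) (nat_lit 0) (XT.nd (nat_lit 78) (nat_lit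 0) (nat_lit 0) (XT.lf (nat_lit 0) (nat_lit 14042770019) (nat_lit 1748) (nat_lit 2179799713) (nat_lit 1824) (nat_lit 670252544) (nat_lit 508) (nat_lit 5) (nat_lit 531) (nat_lit 5) (nat_lit 532) (nat_lit 5) (nat_lit 594) (nat_lit 589) (nat_lit 377)) (XT.lf (nat_lit 76) (nat_lit 6467815599) (nat_lit 0) (nat_lit 8273809523) (nat_lit 1824) (nat_lit 2317444599) (nat_lit 509) (nat_lit 5) (nat_lit 508) (nat_lit 5) (nat_lit 532) (nat_lit 5) (nat_lit 595) (nat_lit 589) (nat_lit 376))) (XT.nd (nat_lit 78) (nat_lit 0) (nat_lit 76) (XT.lf (nat_lit 76) (nat_lit 15314302874) (nat_lit 0) (nat_lit 148635728) (nat_lit 1824) (nat_lit 1765534077) (nat_lit 509) (nat_lit 5) (nat_lit 508) (nat_lit 5) (nat_lit 532) (nat_lit 5) (nat_lit 596) (nat_lit 589) (nat_lit 375)) (XT.lf (nat_lit 76) (nat_lit 6971348941) (nat_lit 0) (nat_lit 9319426307) (nat_lit 1824) (nat_lit 1108646698) (nat_lit 510) (nat_lit 5) (nat_lit 509) (nat_lit 5) (nat_lit 533) (nat_lit 5) (nat_lit 597) (nat_lit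 589) (nat_lit 374))))) (XT.nd (nat_lit 312) (nat_lit 0) (nat_lit 76) (XT.nd (nat_lit 156) (nat_lit 0) (nat_lit 0) (XT.nd (nat_lit 78) (nat_lit 1748) (nat_lit 0) (XT.lf (nat_lit 76) (nat_lit 16055858320) (nat_lit 0) (nat_lit 1087217493) (nat_lit 1824) (nat_lit 430556425) (nat_lit 510) (nat_lit 5) (nat_lit 509) (nat_lit 5) (nat_lit 533) (nat_lit 5) (nat_lit 598) (nat_lit 589) (nat_lit 373)) (XT.lf (nat_lit 0) (nat_lit 349418977) (nat_lit 1824) (nat_lit 10132327827) (nat_lit 1900) (nat_lit 7267711250) (nat_lit 486) (nat_lit 5) (nat_lit 510) (nat_lit 5) (nat_lit 511) (nat_lit 5) (nat_lit 599) (nat_lit 589) (nat_lit 372))) (XT.nd (nat_lit 78) (nat_lit 0) (nat_lit 76) (XT.lf (nat_lit 0) (nat_lit 1150952783) (nat_lit 1824) (nat_lit 987189105) (nat_lit 1900) (nat_lit 15790367271) (nat_lit 486) (nat_lit 5) (nat_lit 510) (nat_lit 5) (nat_lit 511) (nat_lit 5) (nat_lit 600) (nat_lit 589) (nat_lit 371)) (XT.lf (nat_lit 0) (nat_lit 2059494479) (nat_lit 1824) (nat_lit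 9703962975) (nat_lit 1900) (nat_lit 6345864457) (nat_lit 487) (nat_lit 5) (nat_lit 511) (nat_lit 5) (nat_lit 512) (nat_lit 5) (nat_lit 601) (nat_lit 589) (nat_lit 370)))) (XT.nd (nat_lit 156) (nat_lit 0) (nat_lit 76) (XT.nd (nat_lit 78) (nat_lit 0) (nat_lit 76) (XT.lf (nat_lit 0) (nat_lit 3001512139) (nat_lit 1824) (nat_lit 312486814) (nat_lit 1900) (nat_lit 14979446029) (nat_lit 487) (nat_lit 5) (nat_lit 511) (nat_lit 5) (nat_lit 512) (nat_lit 5) (nat_lit 602) (nat_lit 589) (nat_lit 369)) (XT.lf (nat_lit 0) (nat_lit 4052751172) (nat_lit 1824) (nat_lit 9128803815) (nat_lit 1900) (nat_lit 5297888069) (nat_lit 488) (nat_lit 5) (nat_lit 512) (nat_lit 5) (nat_lit 513) (nat_lit 5) (nat_lit 603) (nat_lit 589) (nat_lit 368))) (XT.nd (nat_lit 78) (nat_lit 0) (nat_lit 76) (XT.lf (nat_lit 76) (nat_lit 523223337) (nat_lit 0) (nat_lit 4623924417) (nat_lit 1900) (nat_lit 13521570842) (nat_lit 489) (nat_lit 5) (nat_lit 488) (nat_lit 5) (nat_lit 513) (nat_lit 5) (nat_lit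 604) (nat_lit 589) (nat_lit 367)) (XT.lf (nat_lit 0) (nat_lit 6346515391) (nat_lit 1824) (nat_lit 8399488929) (nat_lit 1900) (nat_lit 4114113820) (nat_lit 489) (nat_lit 5) (nat_lit 513) (nat_lit 5) (nat_lit 514) (nat_lit 5) (nat_lit 605) (nat_lit 589) (nat_lit 366)))))) (XT.nd (nat_lit 624) (nat_lit 5396) (nat_lit 0) (XT.nd (nat_lit 312) (nat_lit 0) (nat_lit 152) (XT.nd (nat_lit 156) (nat_lit 0) (nat_lit 76) (XT.nd (nat_lit 78) (nat_lit 0) (nat_lit 76) (XT.lf (nat_lit 76) (nat_lit 1527007509) (nat_lit 0) (nat_lit 6078268731) (nat_lit 1900) (nat_lit 11449361472) (nat_lit 490) (nat_lit 5) (nat_lit 489) (nat_lit 5) (nat_lit 514) (nat_lit 5) (nat_lit 606) (nat_lit 589) (nat_lit 365)) (XT.lf (nat_lit 0) (nat_lit 8958842092) (nat_lit 1824) (nat_lit 7508259640) (nat_lit 1900) (nat_lit 2784553498) (nat_lit 490) (nat_lit 5) (nat_lit 514) (nat_lit 5) (nat_lit 515) (nat_lit 5) (nat_lit 607) (nat_lit 589) (nat_lit 364))) (XT.nd (nat_lit 78) (nat_lit 0) (nat_lit 76)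 (XT.lf (nat_lit 76) (nat_lit 2702851045) (nat_lit 0) (nat_lit 7689482748) (nat_lit 1900) (nat_lit 9059222361) (nat_lit 491) (nat_lit 5) (nat_lit 490) (nat_lit 5) (nat_lit 515) (nat_lit 5) (nat_lit 608) (nat_lit 589) (nat_lit 363)) (XT.lf (nat_lit 0) (nat_lit 11908549578) (nat_lit 1824) (nat_lit 6446946883) (nat_lit 1900) (nat_lit 1298877696) (nat_lit 491) (nat_lit 5) (nat_lit 515) (nat_lit 5) (nat_lit 516) (nat_lit 5) (nat_lit 609) (nat_lit 589) (nat_lit 362)))) (XT.nd (nat_lit 156) (nat_lit 0) (nat_lit 76) (XT.nd (nat_lit 78) (nat_lit 0) (nat_lit 0) (XT.lf (nat_lit 76) (nat_lit 4059316866) (nat_lit 0) (nat_lit 9468279275) (nat_lit 1900) (nat_lit 6332202391) (nat_lit 492) (nat_lit 5) (nat_lit 491) (nat_lit 5) (nat_lit 516) (nat_lit 5) (nat_lit 610) (nat_lit 589) (nat_lit 361)) (XT.lf (nat_lit 76) (nat_lit 14859276660) (nat_lit 0) (nat_lit 358305133) (nat_lit 1900) (nat_lit 4850978578) (nat_lit 492) (nat_lit 5) (nat_lit 491) (nat_lit 5) (nat_lit 516) (nat_lit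 5) (nat_lit 611) (nat_lit 589) (nat_lit 360))) (XT.nd (nat_lit 78) (nat_lit 0) (nat_lit 0) (XT.lf (nat_lit 76) (nat_lit 5605407112) (nat_lit 0) (nat_lit 11425752291) (nat_lit 1900) (nat_lit 3248542334) (nat_lit 493) (nat_lit 5) (nat_lit 492) (nat_lit 5) (nat_lit 517) (nat_lit 5) (nat_lit 612) (nat_lit 589) (nat_lit 359)) (XT.lf (nat_lit 76) (nat_lit 16700783414) (nat_lit 0) (nat_lit 2212998619) (nat_lit 1900) (nat_lit 1580628562) (nat_lit 493) (nat_lit 5) (nat_lit 492) (nat_lit 5) (nat_lit 517) (nat_lit 5) (nat_lit 613) (nat_lit 589) (nat_lit 358))))) (XT.nd (nat_lit 312) (nat_lit 2660) (nat_lit 0) (XT.nd (nat_lit 156) (nat_lit 1140) (nat_lit 0) (XT.nd (nat_lit 78) (nat_lit 0) (nat_lit 0) (XT.lf (nat_lit 0) (nat_lit 209577591) (nat_lit 1900) (nat_lit 13362415795) (nat_lit 76) (nat_lit 7139594380) (nat_lit 468) (nat_lit 5) (nat_lit 493) (nat_lit 5) (nat_lit 469) (nat_lit 5) (nat_lit 614) (nat_lit 589) (nat_lit 357)) (XT.lf (nat_lit 0) (nat_lit 2050310579)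 (nat_lit 1900) (nat_lit 2195510171) (nat_lit 76) (nat_lit 16686361149) (nat_lit 468) (nat_lit 5) (nat_lit 493) (nat_lit 5) (nat_lit 469) (nat_lit 5) (nat_lit 615) (nat_lit 589) (nat_lit 356))) (XT.nd (nat_lit 78) (nat_lit 0) (nat_lit 0) (XT.lf (nat_lit 0) (nat_lit 4018597535) (nat_lit 1216) (nat_lit 11877582624) (nat_lit 76) (nat_lit 5259193093) (nat_lit 453) (nat_lit 5) (nat_lit 469) (nat_lit 5) (nat_lit 454) (nat_lit 5) (nat_lit 616) (nat_lit 589) (nat_lit 355)) (XT.lf (nat_lit 0) (nat_lit 6064935107) (nat_lit 1216) (nat_lit 404488667) (nat_lit 76) (nat_lit 14912831082) (nat_lit 453) (nat_lit 5) (nat_lit 469) (nat_lit 5) (nat_lit 454) (nat_lit 5) (nat_lit 617) (nat_lit 589) (nat_lit 354)))) (XT.nd (nat_lit 156) (nat_lit 836) (nat_lit 0) (XT.nd (nat_lit 78) (nat_lit 912) (nat_lit 0) (XT.lf (nat_lit 0) (nat_lit 8243243530) (nat_lit 988) (nat_lit 10188811011) (nat_lit 76) (nat_lit 3179798788) (nat_lit 441) (nat_lit 5) (nat_lit 454) (nat_lit 5) (nat_lit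 442) (nat_lit 5) (nat_lit 618) (nat_lit 589) (nat_lit 353)) (XT.lf (nat_lit 0) (nat_lit 1621175663) (nat_lit 912) (nat_lit 8895924187) (nat_lit 988) (nat_lit 11327904403) (nat_lit 429) (nat_lit 5) (nat_lit 441) (nat_lit 5) (nat_lit 442) (nat_lit 5) (nat_lit 619) (nat_lit 589) (nat_lit 352))) (XT.nd (nat_lit 78) (nat_lit 836) (nat_lit 0) (XT.lf (nat_lit 0) (nat_lit 12906590741) (nat_lit 988) (nat_lit 8285724025) (nat_lit 76) (nat_lit 889100394) (nat_lit 429) (nat_lit 5) (nat_lit 442) (nat_lit 5) (nat_lit 430) (nat_lit 5) (nat_lit 620) (nat_lit 589) (nat_lit 351)) (XT.lf (nat_lit 0) (nat_lit 3879283566) (nat_lit 836) (nat_lit 11544705251) (nat_lit 912) (nat_lit 6896963232) (nat_lit 418) (nat_lit 5) (nat_lit 429) (nat_lit 5) (nat_lit 430) (nat_lit 5) (nat_lit 621) (nat_lit 589) (nat_lit 350))))))))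
noncomputable def xc191 : XT := (XT.nd (nat_lit 2418) (nat_lit 8892) (nat_lit 0) (XT.nd (nat_lit 1170) (nat_lit 5852) (nat_lit 0) (XT.nd (nat_lit 546) (nat_lit 3040) (nat_lit 0) (XT.nd (nat_lit 234) (nat_lit 2432) (nat_lit 0) (XT.nd (nat_lit 78) (nat_lit 988) (nat_lit 0) (XT.lf (nat_lit 0) (nat_lit 16396108471) (nat_lit 836) (nat_lit 1647298472) (nat_lit 912) (nat_lit 4520839401) (nat_lit 418) (nat_lit 5) (nat_lit 429) (nat_lit 5) (nat_lit 430) (nat_lit 5) (nat_lit 622) (nat_lit 589) (nat_lit 349)) (XT.nd (nat_lit 78) (nat_lit 76) (nat_lit 0) (XT.lf (nat_lit 0) (nat_lit 6375831609) (nat_lit 912) (nat_lit 14431776740) (nat_lit 988) (nat_lit 2002950385) (nat_lit 406) (nat_lit 5) (nat_lit 418) (nat_lit 5) (nat_lit 419) (nat_lit 5) (nat_lit 623) (nat_lit 589) (nat_lit 348)) (XT.lf (nat_lit 0) (nat_lit 606631407) (nat_lit 988) (nat_lit 3825359453) (nat_lit 76) (nat_lit 18628758231) (nat_lit 405) (nat_lit 5) (nat_lit 418) (nat_lit 5) (nat_lit 406) (nat_lit 5)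 (nat_lit 624) (nat_lit 589) (nat_lit 347)))) (XT.nd (nat_lit 156) (nat_lit 1596) (nat_lit 0) (XT.nd (nat_lit 78) (nat_lit 0) (nat_lit 0) (XT.lf (nat_lit 0) (nat_lit 3335125366) (nat_lit 912) (nat_lit 14213456745) (nat_lit 76) (nat_lit 5765225653) (nat_lit 394) (nat_lit 5) (nat_lit 406) (nat_lit 5) (nat_lit 395) (nat_lit 5) (nat_lit 625) (nat_lit 589) (nat_lit 346)) (XT.lf (nat_lit 0) (nat_lit 6169678636) (nat_lit 912) (nat_lit 1268307378) (nat_lit 76) (nat_lit 16132911908) (nat_lit 394) (nat_lit 5) (nat_lit 406) (nat_lit 5) (nat_lit 395) (nat_lit 5) (nat_lit 626) (nat_lit 589) (nat_lit 345))) (XT.nd (nat_lit 78) (nat_lit 760) (nat_lit 0) (XT.lf (nat_lit 0) (nat_lit 9154978476) (nat_lit 912) (nat_lit 11760228978) (nat_lit 76) (nat_lit 2916041416) (nat_lit 383) (nat_lit 5) (nat_lit 395) (nat_lit 5) (nat_lit 384) (nat_lit 5) (nat_lit 627) (nat_lit 589) (nat_lit 344)) (XT.lf (nat_lit 0) (nat_lit 1565128139) (nat_lit 760) (nat_lit 10699260823) (nat_lit 836)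 (nat_lit 11831129878) (nat_lit 373) (nat_lit 5) (nat_lit 383) (nat_lit 5) (nat_lit 384) (nat_lit 5) (nat_lit 628) (nat_lit 589) (nat_lit 343))))) (XT.nd (nat_lit 312) (nat_lit 1444) (nat_lit 0) (XT.nd (nat_lit 156) (nat_lit 836) (nat_lit 0) (XT.nd (nat_lit 78) (nat_lit 760) (nat_lit 0) (XT.lf (nat_lit 0) (nat_lit 15312656645) (nat_lit 760) (nat_lit 198711489) (nat_lit 836) (nat_lit 8852198558) (nat_lit 373) (nat_lit 5) (nat_lit 383) (nat_lit 5) (nat_lit 384) (nat_lit 5) (nat_lit 629) (nat_lit 589) (nat_lit 342)) (XT.lf (nat_lit 0) (nat_lit 4687646307) (nat_lit 760) (nat_lit 14230856939) (nat_lit 836) (nat_lit 5716568021) (nat_lit 363) (nat_lit 5) (nat_lit 373) (nat_lit 5) (nat_lit 374) (nat_lit 5) (nat_lit 630) (nat_lit 589) (nat_lit 341))) (XT.nd (nat_lit 78) (nat_lit 836) (nat_lit 0) (XT.lf (nat_lit 0) (nat_lit 18818609084) (nat_lit 760) (nat_lit 3633790681) (nat_lit 836) (nat_lit 2458433883) (nat_lit 363) (nat_lit 5) (nat_lit 373) (nat_lit 5) (nat_lit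 374) (nat_lit 5) (nat_lit 631) (nat_lit 589) (nat_lit 340)) (XT.lf (nat_lit 0) (nat_lit 949945331) (nat_lit 836) (nat_lit 17100482785) (nat_lit 76) (nat_lit 7139642438) (nat_lit 352) (nat_lit 5) (nat_lit 363) (nat_lit 5) (nat_lit 353) (nat_lit 5) (nat_lit 632) (nat_lit 589) (nat_lit 339)))) (XT.nd (nat_lit 156) (nat_lit 684) (nat_lit 0) (XT.nd (nat_lit 78) (nat_lit 760) (nat_lit 0) (XT.lf (nat_lit 0) (nat_lit 4455482277) (nat_lit 836) (nat_lit 2880804326) (nat_lit 76) (nat_lit 18137042502) (nat_lit 352) (nat_lit 5) (nat_lit 363) (nat_lit 5) (nat_lit 353) (nat_lit 5) (nat_lit 633) (nat_lit 589) (nat_lit 338)) (XT.lf (nat_lit 0) (nat_lit 8128126749) (nat_lit 836) (nat_lit 14010587675) (nat_lit 76) (nat_lit 3621598552) (nat_lit 342) (nat_lit 5) (nat_lit 353) (nat_lit 5) (nat_lit 343) (nat_lit 5) (nat_lit 634) (nat_lit 589) (nat_lit 337))) (XT.nd (nat_lit 78) (nat_lit 0) (nat_lit 0) (XT.lf (nat_lit 0) (nat_lit 614921642) (nat_lit 684) (nat_lit 11328103052)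 (nat_lit 760) (nat_lit 14108635899) (nat_lit 333) (nat_lit 5) (nat_lit 342) (nat_lit 5) (nat_lit 343) (nat_lit 5) (nat_lit 635) (nat_lit 589) (nat_lit 336)) (XT.lf (nat_lit 0) (nat_lit 15719186511) (nat_lit 684) (nat_lit 205855811) (nat_lit 760) (nat_lit 10421976487) (nat_lit 333) (nat_lit 5) (nat_lit 342) (nat_lit 5) (nat_lit 343) (nat_lit 5) (nat_lit 636) (nat_lit 589) (nat_lit 335)))))) (XT.nd (nat_lit 624) (nat_lit 2508) (nat_lit 0) (XT.nd (nat_lit 312) (nat_lit 1900) (nat_lit 0) (XT.nd (nat_lit 156) (nat_lit 760) (nat_lit 0) (XT.nd (nat_lit 78) (nat_lit 0) (nat_lit 0) (XT.lf (nat_lit 0) (nat_lit 4459762790) (nat_lit 684) (nat_lit 15625076924) (nat_lit 760) (nat_lit 6561481763) (nat_lit 324) (nat_lit 5) (nat_lit 333) (nat_lit 5) (nat_lit 334) (nat_lit 5) (nat_lit 637) (nat_lit 589) (nat_lit 334)) (XT.lf (nat_lit 0) (nat_lit 19988155944) (nat_lit 684) (nat_lit 4409250642) (nat_lit 760) (nat_lit 2552812220) (nat_lit 324) (nat_lit 5) (nat_lit 333) (nat_lit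 5) (nat_lit 334) (nat_lit 5) (nat_lit 638) (nat_lit 589) (nat_lit 333))) (XT.nd (nat_lit 78) (nat_lit 0) (nat_lit 0) (XT.lf (nat_lit 0) (nat_lit 1615183216) (nat_lit 760) (nat_lit 18638000336) (nat_lit 76) (nat_lit 7004825187) (nat_lit 314) (nat_lit 5) (nat_lit 324) (nat_lit 5) (nat_lit 315) (nat_lit 5) (nat_lit 639) (nat_lit 589) (nat_lit 332)) (XT.lf (nat_lit 0) (nat_lit 5905591726) (nat_lit 760) (nat_lit 3012980271) (nat_lit 76) (nat_lit 18651580359) (nat_lit 314) (nat_lit 5) (nat_lit 324) (nat_lit 5) (nat_lit 315) (nat_lit 5) (nat_lit 640) (nat_lit 589) (nat_lit 331)))) (XT.nd (nat_lit 156) (nat_lit 608) (nat_lit 0) (XT.nd (nat_lit 78) (nat_lit 608) (nat_lit 0) (XT.lf (nat_lit 0) (nat_lit 10381566085) (nat_lit 760) (nat_lit 14811929165) (nat_lit 76) (nat_lit 2693048513) (nat_lit 305) (nat_lit 5) (nat_lit 315) (nat_lit 5) (nat_lit 306) (nat_lit 5) (nat_lit 641) (nat_lit 589) (nat_lit 330)) (XT.lf (nat_lit 0) (nat_lit 1269802877) (nat_lit 608) (nat_lit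 13761982458) (nat_lit 684) (nat_lit 13175783223) (nat_lit 297) (nat_lit 5) (nat_lit 305) (nat_lit 5) (nat_lit 306) (nat_lit 5) (nat_lit 642) (nat_lit 589) (nat_lit 329))) (XT.nd (nat_lit 78) (nat_lit 608) (nat_lit 0) (XT.lf (nat_lit 0) (nat_lit 17870374820) (nat_lit 608) (nat_lit 2001129362) (nat_lit 684) (nat_lit 8661579832) (nat_lit 297) (nat_lit 5) (nat_lit 305) (nat_lit 5) (nat_lit 306) (nat_lit 5) (nat_lit 643) (nat_lit 589) (nat_lit 328)) (XT.lf (nat_lit 0) (nat_lit 5947398938) (nat_lit 608) (nat_lit 18961278669) (nat_lit 684) (nat_lit 3954419033) (nat_lit 289) (nat_lit 5) (nat_lit 297) (nat_lit 5) (nat_lit 298) (nat_lit 5) (nat_lit 644) (nat_lit 589) (nat_lit 327))))) (XT.nd (nat_lit 312) (nat_lit 1216) (nat_lit 0) (XT.nd (nat_lit 156) (nat_lit 608) (nat_lit 0) (XT.nd (nat_lit 78) (nat_lit 608) (nat_lit 0) (XT.lf (nat_lit 0) (nat_lit 918222843) (nat_lit 684) (nat_lit 6186829549) (nat_lit 76) (nat_lit 22092898324) (nat_lit 288) (nat_lit 5) (nat_lit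 297) (nat_lit 5) (nat_lit 289) (nat_lit 5) (nat_lit 645) (nat_lit 589) (nat_lit 326)) (XT.lf (nat_lit 0) (nat_lit 5937029130) (nat_lit 684) (nat_lit 18579558680) (nat_lit 76) (nat_lit 5020358126) (nat_lit 280) (nat_lit 5) (nat_lit 289) (nat_lit 5) (nat_lit 281) (nat_lit 5) (nat_lit 646) (nat_lit 589) (nat_lit 325))) (XT.nd (nat_lit 78) (nat_lit 608) (nat_lit 0) (XT.lf (nat_lit 0) (nat_lit 11142305559) (nat_lit 684) (nat_lit 1404394905) (nat_lit 76) (nat_lit 17334298778) (nat_lit 280) (nat_lit 5) (nat_lit 289) (nat_lit 5) (nat_lit 281) (nat_lit 5) (nat_lit 647) (nat_lit 589) (nat_lit 324)) (XT.lf (nat_lit 0) (nat_lit 16324917144) (nat_lit 608) (nat_lit 230065366) (nat_lit 684) (nat_lit 13674885264) (nat_lit 272) (nat_lit 5) (nat_lit 280) (nat_lit 5) (nat_lit 281) (nat_lit 5) (nat_lit 648) (nat_lit 589) (nat_lit 323)))) (XT.nd (nat_lit 156) (nat_lit 684) (nat_lit 0) (XT.nd (nat_lit 78) (nat_lit 0) (nat_lit 0) (XT.lf (nat_lit 0) (nat_lit 3808657758) (nat_lit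 532) (nat_lit 18378871979) (nat_lit 608) (nat_lit 8395951665) (nat_lit 265) (nat_lit 5) (nat_lit 272) (nat_lit 5) (nat_lit 273) (nat_lit 5) (nat_lit 649) (nat_lit 589) (nat_lit 322)) (XT.lf (nat_lit 0) (nat_lit 22060017788) (nat_lit 532) (nat_lit 5964891533) (nat_lit 608) (nat_lit 2917414412) (nat_lit 265) (nat_lit 5) (nat_lit 272) (nat_lit 5) (nat_lit 273) (nat_lit 5) (nat_lit 650) (nat_lit 589) (nat_lit 321))) (XT.nd (nat_lit 78) (nat_lit 0) (nat_lit 0) (XT.lf (nat_lit 0) (nat_lit 2738555700) (nat_lit 684) (nat_lit 21879304868) (nat_lit 76) (nat_lit 6688077825) (nat_lit 256) (nat_lit 5) (nat_lit 265) (nat_lit 5) (nat_lit 257) (nat_lit 5) (nat_lit 651) (nat_lit 589) (nat_lit 320)) (XT.lf (nat_lit 0) (nat_lit 8565536333) (nat_lit 684) (nat_lit 3516149858) (nat_lit 76) (nat_lit 19592814420) (nat_lit 256) (nat_lit 5) (nat_lit 265) (nat_lit 5) (nat_lit 257) (nat_lit 5) (nat_lit 652) (nat_lit 589) (nat_lit 319))))))) (XT.nd (nat_lit 1248) (nat_lit 3952) (nat_lit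 0) (XT.nd (nat_lit 624) (nat_lit 2356) (nat_lit 0) (XT.nd (nat_lit 312) (nat_lit 988) (nat_lit 0) (XT.nd (nat_lit 156) (nat_lit 532) (nat_lit 0) (XT.nd (nat_lit 78) (nat_lit 532) (nat_lit 0) (XT.lf (nat_lit 0) (nat_lit 14611831240) (nat_lit 608) (nat_lit 16640691109) (nat_lit 76) (nat_lit 795856287) (nat_lit 249) (nat_lit 5) (nat_lit 257) (nat_lit 5) (nat_lit 250) (nat_lit 5) (nat_lit 653) (nat_lit 589) (nat_lit 318)) (XT.lf (nat_lit 0) (nat_lit 2274659765) (nat_lit 532) (nat_lit 18620412950) (nat_lit 608) (nat_lit 11532341145) (nat_lit 242) (nat_lit 5) (nat_lit 249) (nat_lit 5) (nat_lit 250) (nat_lit 5) (nat_lit 654) (nat_lit 589) (nat_lit 317))) (XT.nd (nat_lit 78) (nat_lit 532) (nat_lit 0) (XT.lf (nat_lit 0) (nat_lit 21790501958) (nat_lit 532) (nat_lit 5622661537) (nat_lit 608) (nat_lit 5398682656) (nat_lit 242) (nat_lit 5) (nat_lit 249) (nat_lit 5) (nat_lit 250) (nat_lit 5) (nat_lit 655) (nat_lit 589) (nat_lit 316)) (XT.lf (nat_lit 0) (nat_lit 949736726)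 (nat_lit 532) (nat_lit 24656241460) (nat_lit 76) (nat_lit 7595810864) (nat_lit 235) (nat_lit 5) (nat_lit 242) (nat_lit 5) (nat_lit 236) (nat_lit 5) (nat_lit 656) (nat_lit 589) (nat_lit 315)))) (XT.nd (nat_lit 156) (nat_lit 456) (nat_lit 0) (XT.nd (nat_lit 78) (nat_lit 532) (nat_lit 0) (XT.lf (nat_lit 0) (nat_lit 7462158460) (nat_lit 532) (nat_lit 5021727543) (nat_lit 76) (nat_lit 21112744699) (nat_lit 235) (nat_lit 5) (nat_lit 242) (nat_lit 5) (nat_lit 236) (nat_lit 5) (nat_lit 657) (nat_lit 589) (nat_lit 314)) (XT.lf (nat_lit 0) (nat_lit 14207639787) (nat_lit 608) (nat_lit 18802395962) (nat_lit 76) (nat_lit 987277263) (nat_lit 228) (nat_lit 5) (nat_lit 236) (nat_lit 5) (nat_lit 229) (nat_lit 5) (nat_lit 658) (nat_lit 589) (nat_lit 313))) (XT.nd (nat_lit 78) (nat_lit 0) (nat_lit 0) (XT.lf (nat_lit 0) (nat_lit 1410911990) (nat_lit 456) (nat_lit 19800512474) (nat_lit 532) (nat_lit 13192116677) (nat_lit 222) (nat_lit 5) (nat_lit 228) (nat_lit 5) (nat_lit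 229) (nat_lit 5) (nat_lit 659) (nat_lit 589) (nat_lit 312)) (XT.lf (nat_lit 0) (nat_lit 22280054562) (nat_lit 456) (nat_lit 6199065939) (nat_lit 532) (nat_lit 6336296664) (nat_lit 222) (nat_lit 5) (nat_lit 228) (nat_lit 5) (nat_lit 229) (nat_lit 5) (nat_lit 660) (nat_lit 589) (nat_lit 311))))) (XT.nd (nat_lit 312) (nat_lit 912) (nat_lit 0) (XT.nd (nat_lit 156) (nat_lit 912) (nat_lit 0) (XT.nd (nat_lit 78) (nat_lit 0) (nat_lit 0) (XT.lf (nat_lit 0) (nat_lit 750692096) (nat_lit 532) (nat_lit 26850476260) (nat_lit 76) (nat_lit 7632223845) (nat_lit 215) (nat_lit 5) (nat_lit 222) (nat_lit 5) (nat_lit 216) (nat_lit 5) (nat_lit 661) (nat_lit 589) (nat_lit 310)) (XT.lf (nat_lit 0) (nat_lit 8018096527) (nat_lit 532) (nat_lit 5855423750) (nat_lit 76) (nat_lit 21782898468) (nat_lit 215) (nat_lit 5) (nat_lit 222) (nat_lit 5) (nat_lit 216) (nat_lit 5) (nat_lit 662) (nat_lit 589) (nat_lit 309))) (XT.nd (nat_lit 78) (nat_lit 456) (nat_lit 0) (XT.lf (nat_lit 0) (nat_lit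 15532455204) (nat_lit 532) (nat_lit 20324368253) (nat_lit 76) (nat_lit 229050281) (nat_lit 209) (nat_lit 5) (nat_lit 216) (nat_lit 5) (nat_lit 210) (nat_lit 5) (nat_lit 663) (nat_lit 589) (nat_lit 308)) (XT.lf (nat_lit 0) (nat_lit 1288535352) (nat_lit 456) (nat_lit 22046134533) (nat_lit 532) (nat_lit 13186496610) (nat_lit 203) (nat_lit 5) (nat_lit 209) (nat_lit 5) (nat_lit 210) (nat_lit 5) (nat_lit 664) (nat_lit 589) (nat_lit 307)))) (XT.nd (nat_lit 156) (nat_lit 456) (nat_lit 0) (XT.nd (nat_lit 78) (nat_lit 456) (nat_lit 0) (XT.lf (nat_lit 0) (nat_lit 23605981173) (nat_lit 456) (nat_lit 7821129681) (nat_lit 532) (nat_lit 5535370655) (nat_lit 203) (nat_lit 5) (nat_lit 209) (nat_lit 5) (nat_lit 210) (nat_lit 5) (nat_lit 665) (nat_lit 589) (nat_lit 306)) (XT.lf (nat_lit 0) (nat_lit 2339562694) (nat_lit 456) (nat_lit 28397064846) (nat_lit 76) (nat_lit 6673689908) (nat_lit 197) (nat_lit 5) (nat_lit 203) (nat_lit 5) (nat_lit 198) (nat_lit 5) (nat_lit 666) (nat_lit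 589) (nat_lit 305))) (XT.nd (nat_lit 78) (nat_lit 456) (nat_lit 0) (XT.lf (nat_lit 0) (nat_lit 10437802916) (nat_lit 456) (nat_lit 5946112767) (nat_lit 76) (nat_lit 21479664149) (nat_lit 197) (nat_lit 5) (nat_lit 203) (nat_lit 5) (nat_lit 198) (nat_lit 5) (nat_lit 667) (nat_lit 589) (nat_lit 304)) (XT.lf (nat_lit 0) (nat_lit 17175987751) (nat_lit 456) (nat_lit 1631419720) (nat_lit 532) (nat_lit 19516312039) (nat_lit 191) (nat_lit 5) (nat_lit 197) (nat_lit 5) (nat_lit 198) (nat_lit 5) (nat_lit 668) (nat_lit 589) (nat_lit 303)))))) (XT.nd (nat_lit 624) (nat_lit 1900) (nat_lit 0) (XT.nd (nat_lit 312) (nat_lit 1216) (nat_lit 0) (XT.nd (nat_lit 156) (nat_lit 456) (nat_lit 0) (XT.nd (nat_lit 78) (nat_lit 0) (nat_lit 0) (XT.lf (nat_lit 0) (nat_lit 1984370695) (nat_lit 380) (nat_lit 25498085771) (nat_lit 456) (nat_lit 11307844506) (nat_lit 186) (nat_lit 5) (nat_lit 191) (nat_lit 5) (nat_lit 192) (nat_lit 5) (nat_lit 669) (nat_lit 589) (nat_lit 302)) (XT.lf (nat_lit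 0) (nat_lit 25851699820) (nat_lit 380) (nat_lit 10629869288) (nat_lit 456) (nat_lit 2781633737) (nat_lit 186) (nat_lit 5) (nat_lit 191) (nat_lit 5) (nat_lit 192) (nat_lit 5) (nat_lit 670) (nat_lit 589) (nat_lit 301))) (XT.nd (nat_lit 78) (nat_lit 0) (nat_lit 0) (XT.lf (nat_lit 0) (nat_lit 5934100405) (nat_lit 456) (nat_lit 29225970556) (nat_lit 76) (nat_lit 4582792199) (nat_lit 180) (nat_lit 5) (nat_lit 186) (nat_lit 5) (nat_lit 181) (nat_lit 5) (nat_lit 671) (nat_lit 589) (nat_lit 300)) (XT.lf (nat_lit 0) (nat_lit 14945886800) (nat_lit 456) (nat_lit 5217188362) (nat_lit 76) (nat_lit 20065494149) (nat_lit 180) (nat_lit 5) (nat_lit 186) (nat_lit 5) (nat_lit 181) (nat_lit 5) (nat_lit 672) (nat_lit 589) (nat_lit 299)))) (XT.nd (nat_lit 156) (nat_lit 456) (nat_lit 0) (XT.nd (nat_lit 78) (nat_lit 380) (nat_lit 0) (XT.lf (nat_lit 0) (nat_lit 19524791282) (nat_lit 380) (nat_lit 4737883659) (nat_lit 456) (nat_lit 16458819357) (nat_lit 175) (nat_lit 5) (nat_lit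 180) (nat_lit 5) (nat_lit 181) (nat_lit 5) (nat_lit 673) (nat_lit 589) (nat_lit 298)) (XT.lf (nat_lit 0) (nat_lit 3581033068) (nat_lit 380) (nat_lit 30312661164) (nat_lit 456) (nat_lit 7328025677) (nat_lit 170) (nat_lit 5) (nat_lit 175) (nat_lit 5) (nat_lit 176) (nat_lit 5) (nat_lit 674) (nat_lit 589) (nat_lit 297))) (XT.nd (nat_lit 78) (nat_lit 380) (nat_lit 0) (XT.lf (nat_lit 0) (nat_lit 2131922032) (nat_lit 456) (nat_lit 12635731984) (nat_lit 76) (nat_lit 26960586702) (nat_lit 169) (nat_lit 5) (nat_lit 175) (nat_lit 5) (nat_lit 170) (nat_lit 5) (nat_lit 675) (nat_lit 589) (nat_lit 296)) (XT.lf (nat_lit 0) (nat_lit 11773360247) (nat_lit 456) (nat_lit 29262086949) (nat_lit 76) (nat_lit 1206667739) (nat_lit 164) (nat_lit 5) (nat_lit 170) (nat_lit 5) (nat_lit 165) (nat_lit 5) (nat_lit 676) (nat_lit 589) (nat_lit 295))))) (XT.nd (nat_lit 312) (nat_lit 1140) (nat_lit 0) (XT.nd (nat_lit 156) (nat_lit 380) (nat_lit 0) (XT.nd (nat_lit 78) (nat_lit 380) (nat_lit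 0) (XT.lf (nat_lit 0) (nat_lit 21788847986) (nat_lit 456) (nat_lit 3586567609) (nat_lit 76) (nat_lit 17387226655) (nat_lit 164) (nat_lit 5) (nat_lit 170) (nat_lit 5) (nat_lit 165) (nat_lit 5) (nat_lit 677) (nat_lit 589) (nat_lit 294)) (XT.lf (nat_lit 0) (nat_lit 22899836734) (nat_lit 380) (nat_lit 9251595339) (nat_lit 456) (nat_lit 11139212337) (nat_lit 159) (nat_lit 5) (nat_lit 164) (nat_lit 5) (nat_lit 165) (nat_lit 5) (nat_lit 678) (nat_lit 589) (nat_lit 293))) (XT.nd (nat_lit 78) (nat_lit 76) (nat_lit 0) (XT.lf (nat_lit 0) (nat_lit 6166896547) (nat_lit 304) (nat_lit 36663467590) (nat_lit 380) (nat_lit 996660578) (nat_lit 155) (nat_lit 5) (nat_lit 159) (nat_lit 5) (nat_lit 160) (nat_lit 5) (nat_lit 679) (nat_lit 589) (nat_lit 292)) (XT.lf (nat_lit 0) (nat_lit 9423262022) (nat_lit 380) (nat_lit 10965089056) (nat_lit 76) (nat_lit 23980625007) (nat_lit 154) (nat_lit 5) (nat_lit 159) (nat_lit 5) (nat_lit 155) (nat_lit 5) (nat_lit 680) (nat_lit 589) (nat_lit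 291)))) (XT.nd (nat_lit 156) (nat_lit 760) (nat_lit 0) (XT.nd (nat_lit 78) (nat_lit 0) (nat_lit 0) (XT.lf (nat_lit 0) (nat_lit 16470342875) (nat_lit 380) (nat_lit 3673002768) (nat_lit 456) (nat_lit 24776186951) (nat_lit 149) (nat_lit 5) (nat_lit 154) (nat_lit 5) (nat_lit 155) (nat_lit 5) (nat_lit 681) (nat_lit 589) (nat_lit 290)) (XT.lf (nat_lit 0) (nat_lit 31236919125) (nat_lit 456) (nat_lit 966777266) (nat_lit 76) (nat_lit 13274222105) (nat_lit 149) (nat_lit 5) (nat_lit 155) (nat_lit 5) (nat_lit 150) (nat_lit 5) (nat_lit 682) (nat_lit 589) (nat_lit 289))) (XT.nd (nat_lit 78) (nat_lit 456) (nat_lit 0) (XT.lf (nat_lit 0) (nat_lit 27397408916) (nat_lit 304) (nat_lit 15355367000) (nat_lit 380) (nat_lit 3290687990) (nat_lit 145) (nat_lit 5) (nat_lit 149) (nat_lit 5) (nat_lit 150) (nat_lit 5) (nat_lit 683) (nat_lit 589) (nat_lit 288)) (XT.lf (nat_lit 0) (nat_lit 7856321264) (nat_lit 456) (nat_lit 36834408520) (nat_lit 76) (nat_lit 1926946975) (nat_lit 139)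 (nat_lit 5) (nat_lit 145) (nat_lit 5) (nat_lit 140) (nat_lit 5) (nat_lit 684) (nat_lit 589) (nat_lit 287))))))))
noncomputable def xc192 : XT := (XT.nd (nat_lit 76050) (nat_lit 0) (nat_lit 10412) (XT.nd (nat_lit 74802) (nat_lit 0) (nat_lit 24168) (XT.nd (nat_lit 74178) (nat_lit 0) (nat_lit 26600) (XT.nd (nat_lit 73866) (nat_lit 0) (nat_lit 28196) (XT.nd (nat_lit 78) (nat_lit 304) (nat_lit 0) (XT.lf (nat_lit 0) (nat_lit 19408113773) (nat_lit 456) (nat_lit 8294140089) (nat_lit 76) (nat_lit 19496166894) (nat_lit 139) (nat_lit 5) (nat_lit 145) (nat_lit 5) (nat_lit 140) (nat_lit 5) (nat_lit 685) (nat_lit 589) (nat_lit 286)) (XT.nd (nat_lit 73710) (nat_lit 0) (nat_lit 28196) (XT.lf (nat_lit 0) (nat_lit 21090712406) (nat_lit 304) (nat_lit 10235419068) (nat_lit 380) (nat_lit 16461944397) (nat_lit 135) (nat_lit 5) (nat_lit 139) (nat_lit 5) (nat_lit 140) (nat_lit 5) (nat_lit 686) (nat_lit 589) (nat_lit 285)) (XT.lf (nat_lit 0) (nat_lit 3066145901) (nat_lit 0) (nat_lit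 3066145901) (nat_lit 1748) (nat_lit 2070396103) (nat_lit 506) (nat_lit 5) (nat_lit 506) (nat_lit 3) (nat_lit 529) (nat_lit 3) (nat_lit 590) (nat_lit 590) (nat_lit 380)))) (XT.nd (nat_lit 156) (nat_lit 0) (nat_lit 76) (XT.nd (nat_lit 78) (nat_lit 0) (nat_lit 0) (XT.lf (nat_lit 0) (nat_lit 12647319290) (nat_lit 1748) (nat_lit 2113421106) (nat_lit 1824) (nat_lit 1803479660) (nat_lit 506) (nat_lit 5) (nat_lit 529) (nat_lit 3) (nat_lit 530) (nat_lit 5) (nat_lit 591) (nat_lit 590) (nat_lit 379)) (XT.lf (nat_lit 76) (nat_lit 6247351919) (nat_lit 0) (nat_lit 6865041038) (nat_lit 1824) (nat_lit 3612354770) (nat_lit 507) (nat_lit 5) (nat_lit 506) (nat_lit 5) (nat_lit 530) (nat_lit 5) (nat_lit 592) (nat_lit 590) (nat_lit 378))) (XT.nd (nat_lit 78) (nat_lit 0) (nat_lit 0) (XT.lf (nat_lit 0) (nat_lit 13602396051) (nat_lit 1748) (nat_lit 2095556871) (nat_lit 1824) (nat_lit 1190220667) (nat_lit 507) (nat_lit 5) (nat_lit 530) (nat_lit 5) (nat_lit 531) (nat_lit 5) (nat_lit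 593) (nat_lit 590) (nat_lit 377)) (XT.lf (nat_lit 76) (nat_lit 6490111201) (nat_lit 0) (nat_lit 7693449632) (nat_lit 1824) (nat_lit 2869680098) (nat_lit 508) (nat_lit 5) (nat_lit 507) (nat_lit 5) (nat_lit 531) (nat_lit 5) (nat_lit 594) (nat_lit 590) (nat_lit 376))))) (XT.nd (nat_lit 312) (nat_lit 1748) (nat_lit 0) (XT.nd (nat_lit 156) (nat_lit 0) (nat_lit 0) (XT.nd (nat_lit 78) (nat_lit 0) (nat_lit 0) (XT.lf (nat_lit 0) (nat_lit 14787440534) (nat_lit 1748) (nat_lit 1952162539) (nat_lit 1824) (nat_lit 481784905) (nat_lit 508) (nat_lit 5) (nat_lit 531) (nat_lit 5) (nat_lit 532) (nat_lit 5) (nat_lit 595) (nat_lit 590) (nat_lit 375)) (XT.lf (nat_lit 76) (nat_lit 6866620651) (nat_lit 0) (nat_lit 8626307114) (nat_lit 1824) (nat_lit 1898179789) (nat_lit 509) (nat_lit 5) (nat_lit 508) (nat_lit 5) (nat_lit 532) (nat_lit 5) (nat_lit 596) (nat_lit 590) (nat_lit 374))) (XT.nd (nat_lit 78) (nat_lit 0) (nat_lit 76) (XT.lf (nat_lit 76) (nat_lit 15884754363) (nat_lit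 0) (nat_lit 334962756) (nat_lit 1824) (nat_lit 1344360737) (nat_lit 509) (nat_lit 5) (nat_lit 508) (nat_lit 5) (nat_lit 532) (nat_lit 5) (nat_lit 597) (nat_lit 590) (nat_lit 373)) (XT.lf (nat_lit 76) (nat_lit 7383291347) (nat_lit 0) (nat_lit 9672646490) (nat_lit 1824) (nat_lit 682671998) (nat_lit 510) (nat_lit 5) (nat_lit 509) (nat_lit 5) (nat_lit 533) (nat_lit 5) (nat_lit 598) (nat_lit 590) (nat_lit 372)))) (XT.nd (nat_lit 156) (nat_lit 0) (nat_lit 76) (XT.nd (nat_lit 78) (nat_lit 0) (nat_lit 76) (XT.lf (nat_lit 0) (nat_lit 190342) (nat_lit 1824) (nat_lit 1272330670) (nat_lit 1900) (nat_lit 16643955854) (nat_lit 485) (nat_lit 5) (nat_lit 509) (nat_lit 5) (nat_lit 510) (nat_lit 5) (nat_lit 599) (nat_lit 590) (nat_lit 371)) (XT.lf (nat_lit 0) (nat_lit 782253124) (nat_lit 1824) (nat_lit 10054261831) (nat_lit 1900) (nat_lit 7259402521) (nat_lit 486) (nat_lit 5) (nat_lit 510) (nat_lit 5) (nat_lit 511) (nat_lit 5) (nat_lit 600) (nat_lit 590) (nat_lit 370)))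 (XT.nd (nat_lit 78) (nat_lit 0) (nat_lit 76) (XT.lf (nat_lit 0) (nat_lit 1591467688) (nat_lit 1824) (nat_lit 731724503) (nat_lit 1900) (nat_lit 15955524661) (nat_lit 486) (nat_lit 5) (nat_lit 510) (nat_lit 5) (nat_lit 511) (nat_lit 5) (nat_lit 601) (nat_lit 590) (nat_lit 369)) (XT.lf (nat_lit 0) (nat_lit 2510875150) (nat_lit 1824) (nat_lit 9615516456) (nat_lit 1900) (nat_lit 6336900601) (nat_lit 487) (nat_lit 5) (nat_lit 511) (nat_lit 5) (nat_lit 512) (nat_lit 5) (nat_lit 602) (nat_lit 590) (nat_lit 368)))))) (XT.nd (nat_lit 624) (nat_lit 2584) (nat_lit 0) (XT.nd (nat_lit 312) (nat_lit 0) (nat_lit 152) (XT.nd (nat_lit 156) (nat_lit 0) (nat_lit 76) (XT.nd (nat_lit 78) (nat_lit 0) (nat_lit 76) (XT.lf (nat_lit 0) (nat_lit 3463690207) (nat_lit 1824) (nat_lit 41750493) (nat_lit 1900) (nat_lit 15145818140) (nat_lit 487) (nat_lit 5) (nat_lit 511) (nat_lit 5) (nat_lit 512) (nat_lit 5) (nat_lit 603) (nat_lit 590) (nat_lit 367)) (XT.lf (nat_lit 0) (nat_lit 4529070447)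 (nat_lit 1824) (nat_lit 9027498413) (nat_lit 1900) (nat_lit 5284545924) (nat_lit 488) (nat_lit 5) (nat_lit 512) (nat_lit 5) (nat_lit 513) (nat_lit 5) (nat_lit 604) (nat_lit 590) (nat_lit 366))) (XT.nd (nat_lit 78) (nat_lit 0) (nat_lit 76) (XT.lf (nat_lit 76) (nat_lit 815701641) (nat_lit 0) (nat_lit 4823734061) (nat_lit 1900) (nat_lit 13394858750) (nat_lit 489) (nat_lit 5) (nat_lit 488) (nat_lit 5) (nat_lit 513) (nat_lit 5) (nat_lit 605) (nat_lit 590) (nat_lit 365)) (XT.lf (nat_lit 0) (nat_lit 6854473275) (nat_lit 1824) (nat_lit 8282665750) (nat_lit 1900) (nat_lit 4092549540) (nat_lit 489) (nat_lit 5) (nat_lit 513) (nat_lit 5) (nat_lit 514) (nat_lit 5) (nat_lit 606) (nat_lit 590) (nat_lit 364)))) (XT.nd (nat_lit 156) (nat_lit 0) (nat_lit 76) (XT.nd (nat_lit 78) (nat_lit 0) (nat_lit 76) (XT.lf (nat_lit 76) (nat_lit 1840486848) (nat_lit 0) (nat_lit 6292288394) (nat_lit 1900) (nat_lit 11295436191) (nat_lit 490) (nat_lit 5) (nat_lit 489) (nat_lit 5) (nat_lit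 514) (nat_lit 5) (nat_lit 607) (nat_lit 590) (nat_lit 363)) (XT.lf (nat_lit 0) (nat_lit 9505463249) (nat_lit 1824) (nat_lit 7373073365) (nat_lit 1900) (nat_lit 2750791888) (nat_lit 490) (nat_lit 5) (nat_lit 514) (nat_lit 5) (nat_lit 515) (nat_lit 5) (nat_lit 608) (nat_lit 590) (nat_lit 362))) (XT.nd (nat_lit 78) (nat_lit 0) (nat_lit 76) (XT.lf (nat_lit 76) (nat_lit 3040382222) (nat_lit 0) (nat_lit 7921878275) (nat_lit 1900) (nat_lit 8871074450) (nat_lit 491) (nat_lit 5) (nat_lit 490) (nat_lit 5) (nat_lit 515) (nat_lit 5) (nat_lit 609) (nat_lit 590) (nat_lit 361)) (XT.lf (nat_lit 0) (nat_lit 12501200634) (nat_lit 1824) (nat_lit 6290359499) (nat_lit 1900) (nat_lit 1248801386) (nat_lit 491) (nat_lit 5) (nat_lit 515) (nat_lit 5) (nat_lit 516) (nat_lit 5) (nat_lit 610) (nat_lit 590) (nat_lit 360))))) (XT.nd (nat_lit 312) (nat_lit 2888) (nat_lit 0) (XT.nd (nat_lit 156) (nat_lit 0) (nat_lit 76) (XT.nd (nat_lit 78) (nat_lit 0) (nat_lit 0) (XT.lf (nat_lit 76) (nat_lit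 4424151062) (nat_lit 0) (nat_lit 9723368107) (nat_lit 1900) (nat_lit 6102477598) (nat_lit 492) (nat_lit 5) (nat_lit 491) (nat_lit 5) (nat_lit 516) (nat_lit 5) (nat_lit 611) (nat_lit 590) (nat_lit 359)) (XT.lf (nat_lit 76) (nat_lit 15434548330) (nat_lit 0) (nat_lit 429905790) (nat_lit 1900) (nat_lit 4598616933) (nat_lit 492) (nat_lit 5) (nat_lit 491) (nat_lit 5) (nat_lit 516) (nat_lit 5) (nat_lit 612) (nat_lit 590) (nat_lit 358))) (XT.nd (nat_lit 78) (nat_lit 0) (nat_lit 0) (XT.lf (nat_lit 76) (nat_lit 6001002867) (nat_lit 0) (nat_lit 11708014764) (nat_lit 1900) (nat_lit 2969523527) (nat_lit 493) (nat_lit 5) (nat_lit 492) (nat_lit 5) (nat_lit 517) (nat_lit 5) (nat_lit 613) (nat_lit 590) (nat_lit 357)) (XT.lf (nat_lit 76) (nat_lit 17312728114) (nat_lit 0) (nat_lit 2309952148) (nat_lit 1900) (nat_lit 1274996374) (nat_lit 493) (nat_lit 5) (nat_lit 492) (nat_lit 5) (nat_lit 517) (nat_lit 5) (nat_lit 614) (nat_lit 590) (nat_lit 356)))) (XT.nd (nat_lit 156) (nat_lit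 1140) (nat_lit 0) (XT.nd (nat_lit 78) (nat_lit 0) (nat_lit 0) (XT.lf (nat_lit 0) (nat_lit 541577042) (nat_lit 1900) (nat_lit 13342279349) (nat_lit 76) (nat_lit 7235397631) (nat_lit 468) (nat_lit 5) (nat_lit 493) (nat_lit 5) (nat_lit 469) (nat_lit 5) (nat_lit 615) (nat_lit 590) (nat_lit 355)) (XT.lf (nat_lit 0) (nat_lit 2412697083) (nat_lit 1900) (nat_lit 1957670608) (nat_lit 76) (nat_lit 16974021081) (nat_lit 468) (nat_lit 5) (nat_lit 493) (nat_lit 5) (nat_lit 469) (nat_lit 5) (nat_lit 616) (nat_lit 590) (nat_lit 354))) (XT.nd (nat_lit 78) (nat_lit 0) (nat_lit 0) (XT.lf (nat_lit 0) (nat_lit 4415625248) (nat_lit 1216) (nat_lit 11828651001) (nat_lit 76) (nat_lit 5327862375) (nat_lit 453) (nat_lit 5) (nat_lit 469) (nat_lit 5) (nat_lit 454) (nat_lit 5) (nat_lit 617) (nat_lit 590) (nat_lit 353)) (XT.lf (nat_lit 0) (nat_lit 6496680635) (nat_lit 1216) (nat_lit 131712484) (nat_lit 76) (nat_lit 15175289096) (nat_lit 453) (nat_lit 5) (nat_lit 469) (nat_lit 5) (nat_lit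 454) (nat_lit 5) (nat_lit 618) (nat_lit 590) (nat_lit 352))))))) (XT.nd (nat_lit 1170) (nat_lit 6080) (nat_lit 0) (XT.nd (nat_lit 546) (nat_lit 4028) (nat_lit 0) (XT.nd (nat_lit 234) (nat_lit 1824) (nat_lit 0) (XT.nd (nat_lit 78) (nat_lit 912) (nat_lit 0) (XT.lf (nat_lit 0) (nat_lit 8714103309) (nat_lit 988) (nat_lit 10107260727) (nat_lit 76) (nat_lit 3216597831) (nat_lit 441) (nat_lit 5) (nat_lit 454) (nat_lit 5) (nat_lit 442) (nat_lit 5) (nat_lit 619) (nat_lit 590) (nat_lit 351)) (XT.nd (nat_lit 78) (nat_lit 0) (nat_lit 0) (XT.lf (nat_lit 0) (nat_lit 1937048533) (nat_lit 912) (nat_lit 9092228664) (nat_lit 988) (nat_lit 11246581973) (nat_lit 429) (nat_lit 5) (nat_lit 441) (nat_lit 5) (nat_lit 442) (nat_lit 5) (nat_lit 620) (nat_lit 590) (nat_lit 350)) (XT.lf (nat_lit 0) (nat_lit 13460522532) (nat_lit 988) (nat_lit 8167503311) (nat_lit 76) (nat_lit 889093325) (nat_lit 429) (nat_lit 5) (nat_lit 442) (nat_lit 5) (nat_lit 430) (nat_lit 5) (nat_lit 621) (nat_lit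 590) (nat_lit 349)))) (XT.nd (nat_lit 156) (nat_lit 988) (nat_lit 0) (XT.nd (nat_lit 78) (nat_lit 0) (nat_lit 0) (XT.lf (nat_lit 0) (nat_lit 4238936438) (nat_lit 836) (nat_lit 11785363500) (nat_lit 912) (nat_lit 6737226393) (nat_lit 418) (nat_lit 5) (nat_lit 429) (nat_lit 5) (nat_lit 430) (nat_lit 5) (nat_lit 622) (nat_lit 590) (nat_lit 348)) (XT.lf (nat_lit 0) (nat_lit 17000567111) (nat_lit 836) (nat_lit 1689817132) (nat_lit 912) (nat_lit 4319416872) (nat_lit 418) (nat_lit 5) (nat_lit 429) (nat_lit 5) (nat_lit 430) (nat_lit 5) (nat_lit 623) (nat_lit 590) (nat_lit 347))) (XT.nd (nat_lit 78) (nat_lit 76) (nat_lit 0) (XT.lf (nat_lit 0) (nat_lit 6783819594) (nat_lit 912) (nat_lit 14722200172) (nat_lit 988) (nat_lit 1755097141) (nat_lit 406) (nat_lit 5) (nat_lit 418) (nat_lit 5) (nat_lit 419) (nat_lit 5) (nat_lit 624) (nat_lit 590) (nat_lit 346)) (XT.lf (nat_lit 0) (nat_lit 897328967) (nat_lit 988) (nat_lit 3623185232) (nat_lit 76) (nat_lit 18995871062) (nat_lit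 405) (nat_lit 5) (nat_lit 418) (nat_lit 5) (nat_lit 406) (nat_lit 5) (nat_lit 625) (nat_lit 590) (nat_lit 345))))) (XT.nd (nat_lit 312) (nat_lit 1596) (nat_lit 0) (XT.nd (nat_lit 156) (nat_lit 1596) (nat_lit 0) (XT.nd (nat_lit 78) (nat_lit 0) (nat_lit 0) (XT.lf (nat_lit 0) (nat_lit 3676740874) (nat_lit 912) (nat_lit 14215385174) (nat_lit 76) (nat_lit 5882452246) (nat_lit 394) (nat_lit 5) (nat_lit 406) (nat_lit 5) (nat_lit 395) (nat_lit 5) (nat_lit 626) (nat_lit 590) (nat_lit 344)) (XT.lf (nat_lit 0) (nat_lit 6562594758) (nat_lit 912) (nat_lit 1016868911) (nat_lit 76) (nat_lit 16457454539) (nat_lit 394) (nat_lit 5) (nat_lit 406) (nat_lit 5) (nat_lit 395) (nat_lit 5) (nat_lit 627) (nat_lit 590) (nat_lit 343))) (XT.nd (nat_lit 78) (nat_lit 760) (nat_lit 0) (XT.lf (nat_lit 0) (nat_lit 9604159391) (nat_lit 912) (nat_lit 11715180660) (nat_lit 76) (nat_lit 2983205090) (nat_lit 383) (nat_lit 5) (nat_lit 395) (nat_lit 5) (nat_lit 384) (nat_lit 5) (nat_lit 628)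 (nat_lit 590) (nat_lit 342)) (XT.lf (nat_lit 0) (nat_lit 1874839831) (nat_lit 760) (nat_lit 10897508592) (nat_lit 836) (nat_lit 11799820420) (nat_lit 373) (nat_lit 5) (nat_lit 383) (nat_lit 5) (nat_lit 384) (nat_lit 5) (nat_lit 629) (nat_lit 590) (nat_lit 341)))) (XT.nd (nat_lit 156) (nat_lit 836) (nat_lit 0) (XT.nd (nat_lit 78) (nat_lit 760) (nat_lit 0) (XT.lf (nat_lit 0) (nat_lit 15891859905) (nat_lit 760) (nat_lit 187256848) (nat_lit 836) (nat_lit 8766564043) (nat_lit 373) (nat_lit 5) (nat_lit 383) (nat_lit 5) (nat_lit 384) (nat_lit 5) (nat_lit 630) (nat_lit 590) (nat_lit 340)) (XT.lf (nat_lit 0) (nat_lit 5057577420) (nat_lit 760) (nat_lit 14493659052) (nat_lit 836) (nat_lit 5571442285) (nat_lit 363) (nat_lit 5) (nat_lit 373) (nat_lit 5) (nat_lit 374) (nat_lit 5) (nat_lit 631) (nat_lit 590) (nat_lit 339))) (XT.nd (nat_lit 78) (nat_lit 836) (nat_lit 0) (XT.lf (nat_lit 0) (nat_lit 19465744195) (nat_lit 760) (nat_lit 3685079215) (nat_lit 836) (nat_lit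 2253232858) (nat_lit 363) (nat_lit 5) (nat_lit 373) (nat_lit 5) (nat_lit 374) (nat_lit 5) (nat_lit 632) (nat_lit 590) (nat_lit 338)) (XT.lf (nat_lit 0) (nat_lit 1216982143) (nat_lit 836) (nat_lit 17165385016) (nat_lit 76) (nat_lit 7306537761) (nat_lit 352) (nat_lit 5) (nat_lit 363) (nat_lit 5) (nat_lit 353) (nat_lit 5) (nat_lit 633) (nat_lit 590) (nat_lit 337)))))) (XT.nd (nat_lit 624) (nat_lit 3192) (nat_lit 0) (XT.nd (nat_lit 312) (nat_lit 1444) (nat_lit 0) (XT.nd (nat_lit 156) (nat_lit 684) (nat_lit 0) (XT.nd (nat_lit 78) (nat_lit 760) (nat_lit 0) (XT.lf (nat_lit 0) (nat_lit 4787766340) (nat_lit 836) (nat_lit 2666746466) (nat_lit 76) (nat_lit 18523413229) (nat_lit 352) (nat_lit 5) (nat_lit 363) (nat_lit 5) (nat_lit 353) (nat_lit 5) (nat_lit 634) (nat_lit 590) (nat_lit 336)) (XT.lf (nat_lit 0) (nat_lit 8531040872) (nat_lit 836) (nat_lit 14016296611) (nat_lit 76) (nat_lit 3723368678) (nat_lit 342) (nat_lit 5) (nat_lit 353) (nat_lit 5) (nat_lit 343) (nat_lit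 5) (nat_lit 635) (nat_lit 590) (nat_lit 335))) (XT.nd (nat_lit 78) (nat_lit 0) (nat_lit 0) (XT.lf (nat_lit 0) (nat_lit 899916952) (nat_lit 684) (nat_lit 11519377577) (nat_lit 760) (nat_lit 14148645165) (nat_lit 333) (nat_lit 5) (nat_lit 342) (nat_lit 5) (nat_lit 343) (nat_lit 5) (nat_lit 636) (nat_lit 590) (nat_lit 334)) (XT.lf (nat_lit 0) (nat_lit 16300920121) (nat_lit 684) (nat_lit 175377303) (nat_lit 760) (nat_lit 10393000867) (nat_lit 333) (nat_lit 5) (nat_lit 342) (nat_lit 5) (nat_lit 343) (nat_lit 5) (nat_lit 637) (nat_lit 590) (nat_lit 333)))) (XT.nd (nat_lit 156) (nat_lit 760) (nat_lit 0) (XT.nd (nat_lit 78) (nat_lit 0) (nat_lit 0) (XT.lf (nat_lit 0) (nat_lit 4818956134) (nat_lit 684) (nat_lit 15897744042) (nat_lit 760) (nat_lit 6457938763) (nat_lit 324) (nat_lit 5) (nat_lit 333) (nat_lit 5) (nat_lit 334) (nat_lit 5) (nat_lit 638) (nat_lit 590) (nat_lit 332)) (XT.lf (nat_lit 0) (nat_lit 20652623072) (nat_lit 684) (nat_lit 4458382300) (nat_lit 760)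 (nat_lit 2373699214) (nat_lit 324) (nat_lit 5) (nat_lit 333) (nat_lit 5) (nat_lit 334) (nat_lit 5) (nat_lit 639) (nat_lit 590) (nat_lit 331))) (XT.nd (nat_lit 78) (nat_lit 0) (nat_lit 0) (XT.lf (nat_lit 0) (nat_lit 1872180047) (nat_lit 760) (nat_lit 18740569413) (nat_lit 76) (nat_lit 7185920225) (nat_lit 314) (nat_lit 5) (nat_lit 324) (nat_lit 5) (nat_lit 315) (nat_lit 5) (nat_lit 640) (nat_lit 590) (nat_lit 330)) (XT.lf (nat_lit 0) (nat_lit 6243990979) (nat_lit 760) (nat_lit 2808346808) (nat_lit 76) (nat_lit 19064806608) (nat_lit 314) (nat_lit 5) (nat_lit 324) (nat_lit 5) (nat_lit 315) (nat_lit 5) (nat_lit 641) (nat_lit 590) (nat_lit 329))))) (XT.nd (nat_lit 312) (nat_lit 1292) (nat_lit 0) (XT.nd (nat_lit 156) (nat_lit 608) (nat_lit 0) (XT.nd (nat_lit 78) (nat_lit 608) (nat_lit 0) (XT.lf (nat_lit 0) (nat_lit 10807169256) (nat_lit 760) (nat_lit 14840953953) (nat_lit 76) (nat_lit 2791786834) (nat_lit 305) (nat_lit 5) (nat_lit 315) (nat_lit 5) (nat_lit 306)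 (nat_lit 5) (nat_lit 642) (nat_lit 590) (nat_lit 328)) (XT.lf (nat_lit 0) (nat_lit 1560654743) (nat_lit 608) (nat_lit 13987187705) (nat_lit 684) (nat_lit 13219563996) (nat_lit 297) (nat_lit 5) (nat_lit 305) (nat_lit 5) (nat_lit 306) (nat_lit 5) (nat_lit 643) (nat_lit 590) (nat_lit 327))) (XT.nd (nat_lit 78) (nat_lit 608) (nat_lit 0) (XT.lf (nat_lit 0) (nat_lit 18488033110) (nat_lit 608) (nat_lit 1992098614) (nat_lit 684) (nat_lit 8619385064) (nat_lit 297) (nat_lit 5) (nat_lit 305) (nat_lit 5) (nat_lit 306) (nat_lit 5) (nat_lit 644) (nat_lit 590) (nat_lit 326)) (XT.lf (nat_lit 0) (nat_lit 6328770227) (nat_lit 608) (nat_lit 19287153332) (nat_lit 684) (nat_lit 3820248707) (nat_lit 289) (nat_lit 5) (nat_lit 297) (nat_lit 5) (nat_lit 298) (nat_lit 5) (nat_lit 645) (nat_lit 590) (nat_lit 325)))) (XT.nd (nat_lit 156) (nat_lit 608) (nat_lit 0) (XT.nd (nat_lit 78) (nat_lit 608) (nat_lit 0) (XT.lf (nat_lit 0) (nat_lit 1142922379) (nat_lit 684) (nat_lit 6050541629)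 (nat_lit 76) (nat_lit 22584314350) (nat_lit 288) (nat_lit 5) (nat_lit 297) (nat_lit 5) (nat_lit 289) (nat_lit 5) (nat_lit 646) (nat_lit 590) (nat_lit 324)) (XT.lf (nat_lit 0) (nat_lit 6260089010) (nat_lit 684) (nat_lit 18689104981) (nat_lit 76) (nat_lit 5174399898) (nat_lit 280) (nat_lit 5) (nat_lit 289) (nat_lit 5) (nat_lit 281) (nat_lit 5) (nat_lit 647) (nat_lit 590) (nat_lit 323))) (XT.nd (nat_lit 78) (nat_lit 608) (nat_lit 0) (XT.lf (nat_lit 0) (nat_lit 11565464707) (nat_lit 684) (nat_lit 1175576065) (nat_lit 76) (nat_lit 17733567704) (nat_lit 280) (nat_lit 5) (nat_lit 289) (nat_lit 5) (nat_lit 281) (nat_lit 5) (nat_lit 648) (nat_lit 590) (nat_lit 322)) (XT.lf (nat_lit 0) (nat_lit 16906632048) (nat_lit 608) (nat_lit 177492477) (nat_lit 684) (nat_lit 13746375355) (nat_lit 272) (nat_lit 5) (nat_lit 280) (nat_lit 5) (nat_lit 281) (nat_lit 5) (nat_lit 649) (nat_lit 590) (nat_lit 321))))))))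
noncomputable def xc193 : XT := (XT.nd (nat_lit 2418) (nat_lit 1216) (nat_lit 0) (XT.nd (nat_lit 1170) (nat_lit 4104) (nat_lit 0) (XT.nd (nat_lit 546) (nat_lit 2508) (nat_lit 0) (XT.nd (nat_lit 234) (nat_lit 1064) (nat_lit 0) (XT.nd (nat_lit 78) (nat_lit 684) (nat_lit 0) (XT.lf (nat_lit 0) (nat_lit 4141938810) (nat_lit 532) (nat_lit 18685533953) (nat_lit 608) (nat_lit 8363750104) (nat_lit 265) (nat_lit 5) (nat_lit 272) (nat_lit 5) (nat_lit 273) (nat_lit 5) (nat_lit 650) (nat_lit 590) (nat_lit 320)) (XT.nd (nat_lit 78) (nat_lit 684) (nat_lit 0) (XT.lf (nat_lit 0) (nat_lit 22753284709) (nat_lit 532) (nat_lit 6024468318) (nat_lit 608) (nat_lit 2779566039) (nat_lit 265) (nat_lit 5) (nat_lit 272) (nat_lit 5) (nat_lit 273) (nat_lit 5) (nat_lit 651) (nat_lit 590) (nat_lit 319)) (XT.lf (nat_lit 0) (nat_lit 2985195515) (nat_lit 684) (nat_lit 22060488225) (nat_lit 76) (nat_lit 6882531980) (nat_lit 256) (nat_lit 5) (nat_lit 265) (nat_lit 5) (nat_lit 257) (nat_lit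 5) (nat_lit 652) (nat_lit 590) (nat_lit 318)))) (XT.nd (nat_lit 156) (nat_lit 532) (nat_lit 0) (XT.nd (nat_lit 78) (nat_lit 532) (nat_lit 0) (XT.lf (nat_lit 0) (nat_lit 8924953629) (nat_lit 684) (nat_lit 3335097620) (nat_lit 76) (nat_lit 20044173257) (nat_lit 256) (nat_lit 5) (nat_lit 265) (nat_lit 5) (nat_lit 257) (nat_lit 5) (nat_lit 653) (nat_lit 590) (nat_lit 317)) (XT.lf (nat_lit 0) (nat_lit 15090520893) (nat_lit 608) (nat_lit 16720472245) (nat_lit 76) (nat_lit 874620101) (nat_lit 249) (nat_lit 5) (nat_lit 257) (nat_lit 5) (nat_lit 250) (nat_lit 5) (nat_lit 654) (nat_lit 590) (nat_lit 316))) (XT.nd (nat_lit 78) (nat_lit 0) (nat_lit 0) (XT.lf (nat_lit 0) (nat_lit 2571520957) (nat_lit 532) (nat_lit 18925882346) (nat_lit 608) (nat_lit 11574866419) (nat_lit 242) (nat_lit 5) (nat_lit 249) (nat_lit 5) (nat_lit 250) (nat_lit 5) (nat_lit 655) (nat_lit 590) (nat_lit 315)) (XT.lf (nat_lit 0) (nat_lit 22472751210) (nat_lit 532) (nat_lit 5669488431) (nat_lit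 608) (nat_lit 5322223418) (nat_lit 242) (nat_lit 5) (nat_lit 249) (nat_lit 5) (nat_lit 250) (nat_lit 5) (nat_lit 656) (nat_lit 590) (nat_lit 314))))) (XT.nd (nat_lit 312) (nat_lit 988) (nat_lit 0) (XT.nd (nat_lit 156) (nat_lit 988) (nat_lit 0) (XT.nd (nat_lit 78) (nat_lit 0) (nat_lit 0) (XT.lf (nat_lit 0) (nat_lit 1149217863) (nat_lit 532) (nat_lit 24898973295) (nat_lit 76) (nat_lit 7814020333) (nat_lit 235) (nat_lit 5) (nat_lit 242) (nat_lit 5) (nat_lit 236) (nat_lit 5) (nat_lit 657) (nat_lit 590) (nat_lit 313)) (XT.lf (nat_lit 0) (nat_lit 7788349083) (nat_lit 532) (nat_lit 4876678766) (nat_lit 76) (nat_lit 21599992978) (nat_lit 235) (nat_lit 5) (nat_lit 242) (nat_lit 5) (nat_lit 236) (nat_lit 5) (nat_lit 658) (nat_lit 590) (nat_lit 312))) (XT.nd (nat_lit 78) (nat_lit 456) (nat_lit 0) (XT.lf (nat_lit 0) (nat_lit 14667300575) (nat_lit 608) (nat_lit 18931517621) (nat_lit 76) (nat_lit 1074927446) (nat_lit 228) (nat_lit 5) (nat_lit 236) (nat_lit 5) (nat_lit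 229) (nat_lit 5) (nat_lit 659) (nat_lit 590) (nat_lit 311)) (XT.lf (nat_lit 0) (nat_lit 1684431975) (nat_lit 456) (nat_lit 20124880299) (nat_lit 532) (nat_lit 13278823102) (nat_lit 222) (nat_lit 5) (nat_lit 228) (nat_lit 5) (nat_lit 229) (nat_lit 5) (nat_lit 660) (nat_lit 590) (nat_lit 310)))) (XT.nd (nat_lit 156) (nat_lit 456) (nat_lit 0) (XT.nd (nat_lit 78) (nat_lit 532) (nat_lit 0) (XT.lf (nat_lit 0) (nat_lit 22966147560) (nat_lit 456) (nat_lit 6252809586) (nat_lit 532) (nat_lit 6289359941) (nat_lit 222) (nat_lit 5) (nat_lit 228) (nat_lit 5) (nat_lit 229) (nat_lit 5) (nat_lit 661) (nat_lit 590) (nat_lit 309)) (XT.lf (nat_lit 0) (nat_lit 935761136) (nat_lit 532) (nat_lit 27143379944) (nat_lit 76) (nat_lit 7855514655) (nat_lit 215) (nat_lit 5) (nat_lit 222) (nat_lit 5) (nat_lit 216) (nat_lit 5) (nat_lit 662) (nat_lit 590) (nat_lit 308))) (XT.nd (nat_lit 78) (nat_lit 456) (nat_lit 0) (XT.lf (nat_lit 0) (nat_lit 8345179240) (nat_lit 532) (nat_lit 5733212772)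 (nat_lit 76) (nat_lit 22287817547) (nat_lit 215) (nat_lit 5) (nat_lit 222) (nat_lit 5) (nat_lit 216) (nat_lit 5) (nat_lit 663) (nat_lit 590) (nat_lit 307)) (XT.lf (nat_lit 0) (nat_lit 16008571993) (nat_lit 532) (nat_lit 20490279985) (nat_lit 76) (nat_lit 305426798) (nat_lit 209) (nat_lit 5) (nat_lit 216) (nat_lit 5) (nat_lit 210) (nat_lit 5) (nat_lit 664) (nat_lit 590) (nat_lit 306)))))) (XT.nd (nat_lit 624) (nat_lit 1900) (nat_lit 0) (XT.nd (nat_lit 312) (nat_lit 1292) (nat_lit 0) (XT.nd (nat_lit 156) (nat_lit 456) (nat_lit 0) (XT.nd (nat_lit 78) (nat_lit 0) (nat_lit 0) (XT.lf (nat_lit 0) (nat_lit 1553298957) (nat_lit 456) (nat_lit 22411839246) (nat_lit 532) (nat_lit 13283173101) (nat_lit 203) (nat_lit 5) (nat_lit 209) (nat_lit 5) (nat_lit 210) (nat_lit 5) (nat_lit 665) (nat_lit 590) (nat_lit 305)) (XT.lf (nat_lit 0) (nat_lit 24312407559) (nat_lit 456) (nat_lit 7903809160) (nat_lit 532) (nat_lit 5482300185) (nat_lit 203) (nat_lit 5) (nat_lit 209) (nat_lit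 5) (nat_lit 210) (nat_lit 5) (nat_lit 666) (nat_lit 590) (nat_lit 304))) (XT.nd (nat_lit 78) (nat_lit 0) (nat_lit 0) (XT.lf (nat_lit 0) (nat_lit 2546826186) (nat_lit 456) (nat_lit 28727387984) (nat_lit 76) (nat_lit 6881097335) (nat_lit 197) (nat_lit 5) (nat_lit 203) (nat_lit 5) (nat_lit 198) (nat_lit 5) (nat_lit 667) (nat_lit 590) (nat_lit 303)) (XT.lf (nat_lit 0) (nat_lit 10803884698) (nat_lit 456) (nat_lit 5832076042) (nat_lit 76) (nat_lit 21981741382) (nat_lit 197) (nat_lit 5) (nat_lit 203) (nat_lit 5) (nat_lit 198) (nat_lit 5) (nat_lit 668) (nat_lit 590) (nat_lit 302)))) (XT.nd (nat_lit 156) (nat_lit 456) (nat_lit 0) (XT.nd (nat_lit 78) (nat_lit 380) (nat_lit 0) (XT.lf (nat_lit 0) (nat_lit 17750933861) (nat_lit 456) (nat_lit 1588365239) (nat_lit 532) (nat_lit 19747777194) (nat_lit 191) (nat_lit 5) (nat_lit 197) (nat_lit 5) (nat_lit 198) (nat_lit 5) (nat_lit 669) (nat_lit 590) (nat_lit 301)) (XT.lf (nat_lit 0) (nat_lit 2256570867) (nat_lit 380) (nat_lit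 25930215789) (nat_lit 456) (nat_lit 11376224031) (nat_lit 186) (nat_lit 5) (nat_lit 191) (nat_lit 5) (nat_lit 192) (nat_lit 5) (nat_lit 670) (nat_lit 590) (nat_lit 300))) (XT.nd (nat_lit 78) (nat_lit 456) (nat_lit 0) (XT.lf (nat_lit 0) (nat_lit 26596687501) (nat_lit 380) (nat_lit 10766161088) (nat_lit 456) (nat_lit 2682582720) (nat_lit 186) (nat_lit 5) (nat_lit 191) (nat_lit 5) (nat_lit 192) (nat_lit 5) (nat_lit 671) (nat_lit 590) (nat_lit 299)) (XT.lf (nat_lit 0) (nat_lit 6204429613) (nat_lit 456) (nat_lit 29579494684) (nat_lit 76) (nat_lit 4750760655) (nat_lit 180) (nat_lit 5) (nat_lit 186) (nat_lit 5) (nat_lit 181) (nat_lit 5) (nat_lit 672) (nat_lit 590) (nat_lit 298))))) (XT.nd (nat_lit 312) (nat_lit 1064) (nat_lit 0) (XT.nd (nat_lit 156) (nat_lit 456) (nat_lit 0) (XT.nd (nat_lit 78) (nat_lit 380) (nat_lit 0) (XT.lf (nat_lit 0) (nat_lit 15393478261) (nat_lit 456) (nat_lit 5095066165) (nat_lit 76) (nat_lit 20541620318) (nat_lit 180) (nat_lit 5) (nat_lit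 186) (nat_lit 5) (nat_lit 181) (nat_lit 5) (nat_lit 673) (nat_lit 590) (nat_lit 297)) (XT.lf (nat_lit 0) (nat_lit 20140263163) (nat_lit 380) (nat_lit 4754884524) (nat_lit 456) (nat_lit 16637829682) (nat_lit 175) (nat_lit 5) (nat_lit 180) (nat_lit 5) (nat_lit 181) (nat_lit 5) (nat_lit 674) (nat_lit 590) (nat_lit 296))) (XT.nd (nat_lit 78) (nat_lit 76) (nat_lit 0) (XT.lf (nat_lit 0) (nat_lit 3878575581) (nat_lit 380) (nat_lit 30839286916) (nat_lit 456) (nat_lit 7325363540) (nat_lit 170) (nat_lit 5) (nat_lit 175) (nat_lit 5) (nat_lit 176) (nat_lit 5) (nat_lit 675) (nat_lit 590) (nat_lit 295)) (XT.lf (nat_lit 0) (nat_lit 2318938481) (nat_lit 456) (nat_lit 12665033616) (nat_lit 76) (nat_lit 27575943587) (nat_lit 169) (nat_lit 5) (nat_lit 175) (nat_lit 5) (nat_lit 170) (nat_lit 5) (nat_lit 676) (nat_lit 590) (nat_lit 294)))) (XT.nd (nat_lit 156) (nat_lit 684) (nat_lit 0) (XT.nd (nat_lit 78) (nat_lit 0) (nat_lit 0) (XT.lf (nat_lit 0) (nat_lit 12152328150) (nat_lit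 456) (nat_lit 29623036125) (nat_lit 76) (nat_lit 1308720700) (nat_lit 164) (nat_lit 5) (nat_lit 170) (nat_lit 5) (nat_lit 165) (nat_lit 5) (nat_lit 677) (nat_lit 590) (nat_lit 293)) (XT.lf (nat_lit 0) (nat_lit 22365311905) (nat_lit 456) (nat_lit 3438404291) (nat_lit 76) (nat_lit 17811362960) (nat_lit 164) (nat_lit 5) (nat_lit 170) (nat_lit 5) (nat_lit 165) (nat_lit 5) (nat_lit 678) (nat_lit 590) (nat_lit 292))) (XT.nd (nat_lit 78) (nat_lit 304) (nat_lit 0) (XT.lf (nat_lit 0) (nat_lit 23576281463) (nat_lit 380) (nat_lit 9357525951) (nat_lit 456) (nat_lit 11219860791) (nat_lit 159) (nat_lit 5) (nat_lit 164) (nat_lit 5) (nat_lit 165) (nat_lit 5) (nat_lit 679) (nat_lit 590) (nat_lit 291)) (XT.lf (nat_lit 0) (nat_lit 6509505858) (nat_lit 304) (nat_lit 37316007137) (nat_lit 380) (nat_lit 875279267) (nat_lit 155) (nat_lit 5) (nat_lit 159) (nat_lit 5) (nat_lit 160) (nat_lit 5) (nat_lit 680) (nat_lit 590) (nat_lit 290))))))) (XT.nd (nat_lit 74880) (nat_lit 0) (nat_lit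 26296) (XT.nd (nat_lit 74256) (nat_lit 0) (nat_lit 27892) (XT.nd (nat_lit 234) (nat_lit 760) (nat_lit 0) (XT.nd (nat_lit 78) (nat_lit 380) (nat_lit 0) (XT.lf (nat_lit 0) (nat_lit 9748453887) (nat_lit 380) (nat_lit 10967599837) (nat_lit 76) (nat_lit 24537565317) (nat_lit 154) (nat_lit 5) (nat_lit 159) (nat_lit 5) (nat_lit 155) (nat_lit 5) (nat_lit 681) (nat_lit 590) (nat_lit 289)) (XT.nd (nat_lit 78) (nat_lit 0) (nat_lit 0) (XT.lf (nat_lit 0) (nat_lit 17015114476) (nat_lit 380) (nat_lit 3666542082) (nat_lit 456) (nat_lit 25133555815) (nat_lit 149) (nat_lit 5) (nat_lit 154) (nat_lit 5) (nat_lit 155) (nat_lit 5) (nat_lit 682) (nat_lit 590) (nat_lit 288)) (XT.lf (nat_lit 0) (nat_lit 31994954468) (nat_lit 456) (nat_lit 772821912) (nat_lit 76) (nat_lit 13617032594) (nat_lit 149) (nat_lit 5) (nat_lit 155) (nat_lit 5) (nat_lit 150) (nat_lit 5) (nat_lit 683) (nat_lit 590) (nat_lit 287)))) (XT.nd (nat_lit 156) (nat_lit 0) (nat_lit 0) (XT.nd (nat_lit 78) (nat_lit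 456) (nat_lit 0) (XT.lf (nat_lit 0) (nat_lit 28157244765) (nat_lit 304) (nat_lit 15582645680) (nat_lit 380) (nat_lit 3221799644) (nat_lit 145) (nat_lit 5) (nat_lit 149) (nat_lit 5) (nat_lit 150) (nat_lit 5) (nat_lit 684) (nat_lit 590) (nat_lit 286)) (XT.lf (nat_lit 0) (nat_lit 8145677589) (nat_lit 456) (nat_lit 37356733094) (nat_lit 76) (nat_lit 2044973172) (nat_lit 139) (nat_lit 5) (nat_lit 145) (nat_lit 5) (nat_lit 140) (nat_lit 5) (nat_lit 685) (nat_lit 590) (nat_lit 285))) (XT.nd (nat_lit 73788) (nat_lit 0) (nat_lit 27892) (XT.lf (nat_lit 0) (nat_lit 19925913205) (nat_lit 456) (nat_lit 8249862502) (nat_lit 76) (nat_lit 19964018915) (nat_lit 139) (nat_lit 5) (nat_lit 145) (nat_lit 5) (nat_lit 140) (nat_lit 5) (nat_lit 686) (nat_lit 590) (nat_lit 284)) (XT.lf (nat_lit 0) (nat_lit 3250775425) (nat_lit 0) (nat_lit 3250775425) (nat_lit 1748) (nat_lit 1860250885) (nat_lit 506) (nat_lit 5) (nat_lit 506) (nat_lit 3) (nat_lit 529) (nat_lit 3) (nat_lit 591)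 (nat_lit 591) (nat_lit 378))))) (XT.nd (nat_lit 312) (nat_lit 0) (nat_lit 152) (XT.nd (nat_lit 156) (nat_lit 0) (nat_lit 76) (XT.nd (nat_lit 78) (nat_lit 0) (nat_lit 0) (XT.lf (nat_lit 0) (nat_lit 13382251214) (nat_lit 1748) (nat_lit 1902655956) (nat_lit 1824) (nat_lit 1600942551) (nat_lit 506) (nat_lit 5) (nat_lit 529) (nat_lit 3) (nat_lit 530) (nat_lit 5) (nat_lit 592) (nat_lit 591) (nat_lit 377)) (XT.lf (nat_lit 76) (nat_lit 6623667835) (nat_lit 0) (nat_lit 7225139875) (nat_lit 1824) (nat_lit 3200936902) (nat_lit 507) (nat_lit 5) (nat_lit 506) (nat_lit 5) (nat_lit 530) (nat_lit 5) (nat_lit 593) (nat_lit 591) (nat_lit 376))) (XT.nd (nat_lit 78) (nat_lit 0) (nat_lit 0) (XT.lf (nat_lit 0) (nat_lit 14337895288) (nat_lit 1748) (nat_lit 1880297911) (nat_lit 1824) (nat_lit 998460393) (nat_lit 507) (nat_lit 5) (nat_lit 530) (nat_lit 5) (nat_lit 531) (nat_lit 5) (nat_lit 594) (nat_lit 591) (nat_lit 375)) (XT.lf (nat_lit 76) (nat_lit 6875391613) (nat_lit 0) (nat_lit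 8047863205) (nat_lit 1824) (nat_lit 2461916317) (nat_lit 508) (nat_lit 5) (nat_lit 507) (nat_lit 5) (nat_lit 531) (nat_lit 5) (nat_lit 595) (nat_lit 591) (nat_lit 374)))) (XT.nd (nat_lit 156) (nat_lit 0) (nat_lit 0) (XT.nd (nat_lit 78) (nat_lit 0) (nat_lit 0) (XT.lf (nat_lit 0) (nat_lit 15528993953) (nat_lit 1748) (nat_lit 1730504935) (nat_lit 1824) (nat_lit 297386876) (nat_lit 508) (nat_lit 5) (nat_lit 531) (nat_lit 5) (nat_lit 532) (nat_lit 5) (nat_lit 596) (nat_lit 591) (nat_lit 373)) (XT.lf (nat_lit 76) (nat_lit 7262938781) (nat_lit 0) (nat_lit 8978592388) (nat_lit 1824) (nat_lit 1488610031) (nat_lit 509) (nat_lit 5) (nat_lit 508) (nat_lit 5) (nat_lit 532) (nat_lit 5) (nat_lit 597) (nat_lit 591) (nat_lit 372))) (XT.nd (nat_lit 78) (nat_lit 0) (nat_lit 76) (XT.lf (nat_lit 76) (nat_lit 16456357016) (nat_lit 0) (nat_lit 517896454) (nat_lit 1824) (nat_lit 932489761) (nat_lit 509) (nat_lit 5) (nat_lit 508) (nat_lit 5) (nat_lit 532) (nat_lit 5) (nat_lit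 598) (nat_lit 591) (nat_lit 371)) (XT.lf (nat_lit 76) (nat_lit 7792890495) (nat_lit 0) (nat_lit 10026452799) (nat_lit 1824) (nat_lit 265579922) (nat_lit 510) (nat_lit 5) (nat_lit 509) (nat_lit 5) (nat_lit 533) (nat_lit 5) (nat_lit 599) (nat_lit 591) (nat_lit 370)))))) (XT.nd (nat_lit 624) (nat_lit 0) (nat_lit 304) (XT.nd (nat_lit 312) (nat_lit 0) (nat_lit 152) (XT.nd (nat_lit 156) (nat_lit 0) (nat_lit 76) (XT.nd (nat_lit 78) (nat_lit 0) (nat_lit 76) (XT.lf (nat_lit 0) (nat_lit 416955140) (nat_lit 1824) (nat_lit 1035428803) (nat_lit 1900) (nat_lit 16814074668) (nat_lit 485) (nat_lit 5) (nat_lit 509) (nat_lit 5) (nat_lit 510) (nat_lit 5) (nat_lit 600) (nat_lit 591) (nat_lit 369)) (XT.lf (nat_lit 0) (nat_lit 1207207843) (nat_lit 1824) (nat_lit 9985534927) (nat_lit 1900) (nat_lit 7256894536) (nat_lit 486) (nat_lit 5) (nat_lit 510) (nat_lit 5) (nat_lit 511) (nat_lit 5) (nat_lit 601) (nat_lit 591) (nat_lit 368))) (XT.nd (nat_lit 78) (nat_lit 0) (nat_lit 76)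 (XT.lf (nat_lit 0) (nat_lit 2024581019) (nat_lit 1824) (nat_lit 481837286) (nat_lit 1900) (nat_lit 16129835121) (nat_lit 486) (nat_lit 5) (nat_lit 510) (nat_lit 5) (nat_lit 511) (nat_lit 5) (nat_lit 602) (nat_lit 591) (nat_lit 367)) (XT.lf (nat_lit 0) (nat_lit 2955355227) (nat_lit 1824) (nat_lit 9536271827) (nat_lit 1900) (nat_lit 6333033899) (nat_lit 487) (nat_lit 5) (nat_lit 511) (nat_lit 5) (nat_lit 512) (nat_lit 5) (nat_lit 603) (nat_lit 591) (nat_lit 366)))) (XT.nd (nat_lit 156) (nat_lit 0) (nat_lit 76) (XT.nd (nat_lit 78) (nat_lit 0) (nat_lit 76) (XT.lf (nat_lit 76) (nat_lit 226616969) (nat_lit 0) (nat_lit 3694350323) (nat_lit 1900) (nat_lit 15095545043) (nat_lit 488) (nat_lit 5) (nat_lit 487) (nat_lit 5) (nat_lit 512) (nat_lit 5) (nat_lit 604) (nat_lit 591) (nat_lit 365)) (XT.lf (nat_lit 0) (nat_lit 4999567515) (nat_lit 1824) (nat_lit 8935190366) (nat_lit 1900) (nat_lit 5275569498) (nat_lit 488) (nat_lit 5) (nat_lit 512) (nat_lit 5) (nat_lit 513)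 (nat_lit 5) (nat_lit 605) (nat_lit 591) (nat_lit 364))) (XT.nd (nat_lit 78) (nat_lit 0) (nat_lit 76) (XT.lf (nat_lit 76) (nat_lit 1103078570) (nat_lit 0) (nat_lit 5023372099) (nat_lit 1900) (nat_lit 13281033984) (nat_lit 489) (nat_lit 5) (nat_lit 488) (nat_lit 5) (nat_lit 513) (nat_lit 5) (nat_lit 606) (nat_lit 591) (nat_lit 363)) (XT.lf (nat_lit 0) (nat_lit 7357794552) (nat_lit 1824) (nat_lit 8174565741) (nat_lit 1900) (nat_lit 4074586461) (nat_lit 489) (nat_lit 5) (nat_lit 513) (nat_lit 5) (nat_lit 514) (nat_lit 5) (nat_lit 607) (nat_lit 591) (nat_lit 362))))) (XT.nd (nat_lit 312) (nat_lit 0) (nat_lit 152) (XT.nd (nat_lit 156) (nat_lit 0) (nat_lit 76) (XT.nd (nat_lit 78) (nat_lit 0) (nat_lit 76) (XT.lf (nat_lit 76) (nat_lit 2149248900) (nat_lit 0) (nat_lit 6506998337) (nat_lit 1900) (nat_lit 11153301364) (nat_lit 490) (nat_lit 5) (nat_lit 489) (nat_lit 5) (nat_lit 514) (nat_lit 5) (nat_lit 608) (nat_lit 591) (nat_lit 361)) (XT.lf (nat_lit 0) (nat_lit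 10048748519) (nat_lit 1824) (nat_lit 7246263910) (nat_lit 1900) (nat_lit 2719828603) (nat_lit 490) (nat_lit 5) (nat_lit 514) (nat_lit 5) (nat_lit 515) (nat_lit 5) (nat_lit 609) (nat_lit 591) (nat_lit 360))) (XT.nd (nat_lit 78) (nat_lit 0) (nat_lit 76) (XT.lf (nat_lit 76) (nat_lit 3373656374) (nat_lit 0) (nat_lit 8155869350) (nat_lit 1900) (nat_lit 8693505206) (nat_lit 491) (nat_lit 5) (nat_lit 490) (nat_lit 5) (nat_lit 515) (nat_lit 5) (nat_lit 610) (nat_lit 591) (nat_lit 359)) (XT.lf (nat_lit 0) (nat_lit 13091939818) (nat_lit 1824) (nat_lit 6141727702) (nat_lit 1900) (nat_lit 1200676813) (nat_lit 491) (nat_lit 5) (nat_lit 515) (nat_lit 5) (nat_lit 516) (nat_lit 5) (nat_lit 611) (nat_lit 591) (nat_lit 358)))) (XT.nd (nat_lit 156) (nat_lit 0) (nat_lit 76) (XT.nd (nat_lit 78) (nat_lit 0) (nat_lit 0) (XT.lf (nat_lit 76) (nat_lit 4785267550) (nat_lit 0) (nat_lit 9981006601) (nat_lit 1900) (nat_lit 5881996545) (nat_lit 492) (nat_lit 5) (nat_lit 491) (nat_lit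 5) (nat_lit 516) (nat_lit 5) (nat_lit 612) (nat_lit 591) (nat_lit 357)) (XT.lf (nat_lit 76) (nat_lit 16010527009) (nat_lit 0) (nat_lit 500436389) (nat_lit 1900) (nat_lit 4354774953) (nat_lit 492) (nat_lit 5) (nat_lit 491) (nat_lit 5) (nat_lit 516) (nat_lit 5) (nat_lit 613) (nat_lit 591) (nat_lit 356))) (XT.nd (nat_lit 78) (nat_lit 0) (nat_lit 0) (XT.lf (nat_lit 76) (nat_lit 6393502367) (nat_lit 0) (nat_lit 11993835409) (nat_lit 1900) (nat_lit 2698281881) (nat_lit 493) (nat_lit 5) (nat_lit 492) (nat_lit 5) (nat_lit 517) (nat_lit 5) (nat_lit 614) (nat_lit 591) (nat_lit 355)) (XT.lf (nat_lit 76) (nat_lit 17926119385) (nat_lit 0) (nat_lit 2406798592) (nat_lit 1900) (nat_lit 976347168) (nat_lit 493) (nat_lit 5) (nat_lit 492) (nat_lit 5) (nat_lit 517) (nat_lit 5) (nat_lit 615) (nat_lit 591) (nat_lit 354))))))))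
noncomputable def xc194 : XT := (XT.nd (nat_lit 2418) (nat_lit 9120) (nat_lit 0) (XT.nd (nat_lit 1170) (nat_lit 6384) (nat_lit 0) (XT.nd (nat_lit 546) (nat_lit 4256) (nat_lit 0) (XT.nd (nat_lit 234) (nat_lit 1824) (nat_lit 0) (XT.nd (nat_lit 78) (nat_lit 1140) (nat_lit 0) (XT.lf (nat_lit 0) (nat_lit 867487301) (nat_lit 1900) (nat_lit 13332899674) (nat_lit 76) (nat_lit 7334941573) (nat_lit 468) (nat_lit 5) (nat_lit 493) (nat_lit 5) (nat_lit 469) (nat_lit 5) (nat_lit 616) (nat_lit 591) (nat_lit 353)) (XT.nd (nat_lit 78) (nat_lit 1140) (nat_lit 0) (XT.lf (nat_lit 0) (nat_lit 2769851730) (nat_lit 1900) (nat_lit 1726014940) (nat_lit 76) (nat_lit 17269223061) (nat_lit 468) (nat_lit 5) (nat_lit 493) (nat_lit 5) (nat_lit 469) (nat_lit 5) (nat_lit 617) (nat_lit 591) (nat_lit 352)) (XT.lf (nat_lit 0) (nat_lit 4808297387) (nat_lit 1216) (nat_lit 11789865239) (nat_lit 76) (nat_lit 5399322947) (nat_lit 453) (nat_lit 5) (nat_lit 469) (nat_lit 5) (nat_lit 454) (nat_lit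 5) (nat_lit 618) (nat_lit 591) (nat_lit 351)))) (XT.nd (nat_lit 156) (nat_lit 912) (nat_lit 0) (XT.nd (nat_lit 78) (nat_lit 0) (nat_lit 0) (XT.lf (nat_lit 0) (nat_lit 137415079) (nat_lit 912) (nat_lit 6788483156) (nat_lit 988) (nat_lit 15307863483) (nat_lit 441) (nat_lit 5) (nat_lit 453) (nat_lit 5) (nat_lit 454) (nat_lit 5) (nat_lit 619) (nat_lit 591) (nat_lit 350)) (XT.lf (nat_lit 0) (nat_lit 9182498129) (nat_lit 988) (nat_lit 10035159013) (nat_lit 76) (nat_lit 3255173412) (nat_lit 441) (nat_lit 5) (nat_lit 454) (nat_lit 5) (nat_lit 442) (nat_lit 5) (nat_lit 620) (nat_lit 591) (nat_lit 349))) (XT.nd (nat_lit 78) (nat_lit 0) (nat_lit 0) (XT.lf (nat_lit 0) (nat_lit 2248232176) (nat_lit 912) (nat_lit 9291745280) (nat_lit 988) (nat_lit 11175588470) (nat_lit 429) (nat_lit 5) (nat_lit 441) (nat_lit 5) (nat_lit 442) (nat_lit 5) (nat_lit 621) (nat_lit 591) (nat_lit 348)) (XT.lf (nat_lit 0) (nat_lit 14014046685) (nat_lit 988) (nat_lit 8057943732) (nat_lit 76)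 (nat_lit 889776887) (nat_lit 429) (nat_lit 5) (nat_lit 442) (nat_lit 5) (nat_lit 430) (nat_lit 5) (nat_lit 622) (nat_lit 591) (nat_lit 347))))) (XT.nd (nat_lit 312) (nat_lit 2432) (nat_lit 0) (XT.nd (nat_lit 156) (nat_lit 988) (nat_lit 0) (XT.nd (nat_lit 78) (nat_lit 0) (nat_lit 0) (XT.lf (nat_lit 0) (nat_lit 4594829353) (nat_lit 836) (nat_lit 12030455761) (nat_lit 912) (nat_lit 6585853943) (nat_lit 418) (nat_lit 5) (nat_lit 429) (nat_lit 5) (nat_lit 430) (nat_lit 5) (nat_lit 623) (nat_lit 591) (nat_lit 346)) (XT.lf (nat_lit 0) (nat_lit 17606376676) (nat_lit 836) (nat_lit 1732814445) (nat_lit 912) (nat_lit 4125298369) (nat_lit 418) (nat_lit 5) (nat_lit 429) (nat_lit 5) (nat_lit 430) (nat_lit 5) (nat_lit 624) (nat_lit 591) (nat_lit 345))) (XT.nd (nat_lit 78) (nat_lit 76) (nat_lit 0) (XT.lf (nat_lit 0) (nat_lit 7189076295) (nat_lit 912) (nat_lit 15018362645) (nat_lit 988) (nat_lit 1513466816) (nat_lit 406) (nat_lit 5) (nat_lit 418) (nat_lit 5) (nat_lit 419)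 (nat_lit 5) (nat_lit 625) (nat_lit 591) (nat_lit 344)) (XT.lf (nat_lit 0) (nat_lit 1183023462) (nat_lit 988) (nat_lit 3427789067) (nat_lit 76) (nat_lit 19370538258) (nat_lit 405) (nat_lit 5) (nat_lit 418) (nat_lit 5) (nat_lit 406) (nat_lit 5) (nat_lit 626) (nat_lit 591) (nat_lit 343)))) (XT.nd (nat_lit 156) (nat_lit 1596) (nat_lit 0) (XT.nd (nat_lit 78) (nat_lit 0) (nat_lit 0) (XT.lf (nat_lit 0) (nat_lit 4014513485) (nat_lit 912) (nat_lit 14228315804) (nat_lit 76) (nat_lit 6001948735) (nat_lit 394) (nat_lit 5) (nat_lit 406) (nat_lit 5) (nat_lit 395) (nat_lit 5) (nat_lit 627) (nat_lit 591) (nat_lit 342)) (XT.lf (nat_lit 0) (nat_lit 6952903314) (nat_lit 912) (nat_lit 771150335) (nat_lit 76) (nat_lit 16788414849) (nat_lit 394) (nat_lit 5) (nat_lit 406) (nat_lit 5) (nat_lit 395) (nat_lit 5) (nat_lit 628) (nat_lit 591) (nat_lit 341))) (XT.nd (nat_lit 78) (nat_lit 760) (nat_lit 0) (XT.lf (nat_lit 0) (nat_lit 10051991662) (nat_lit 912) (nat_lit 11680113936) (nat_lit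 76) (nat_lit 3051368659) (nat_lit 383) (nat_lit 5) (nat_lit 395) (nat_lit 5) (nat_lit 384) (nat_lit 5) (nat_lit 629) (nat_lit 591) (nat_lit 340)) (XT.lf (nat_lit 0) (nat_lit 2179934791) (nat_lit 760) (nat_lit 11100332420) (nat_lit 836) (nat_lit 11778288900) (nat_lit 373) (nat_lit 5) (nat_lit 383) (nat_lit 5) (nat_lit 384) (nat_lit 5) (nat_lit 630) (nat_lit 591) (nat_lit 339)))))) (XT.nd (nat_lit 624) (nat_lit 3344) (nat_lit 0) (XT.nd (nat_lit 312) (nat_lit 1444) (nat_lit 0) (XT.nd (nat_lit 156) (nat_lit 836) (nat_lit 0) (XT.nd (nat_lit 78) (nat_lit 760) (nat_lit 0) (XT.lf (nat_lit 0) (nat_lit 16472048243) (nat_lit 760) (nat_lit 176172237) (nat_lit 836) (nat_lit 8689416964) (nat_lit 373) (nat_lit 5) (nat_lit 383) (nat_lit 5) (nat_lit 384) (nat_lit 5) (nat_lit 631) (nat_lit 591) (nat_lit 338)) (XT.lf (nat_lit 0) (nat_lit 5424182820) (nat_lit 760) (nat_lit 14762564312) (nat_lit 836) (nat_lit 5433489069) (nat_lit 363) (nat_lit 5) (nat_lit 373) (nat_lit 5)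 (nat_lit 374) (nat_lit 5) (nat_lit 632) (nat_lit 591) (nat_lit 337))) (XT.nd (nat_lit 78) (nat_lit 836) (nat_lit 0) (XT.lf (nat_lit 0) (nat_lit 20115307953) (nat_lit 760) (nat_lit 3738224014) (nat_lit 836) (nat_lit 2053805298) (nat_lit 363) (nat_lit 5) (nat_lit 373) (nat_lit 5) (nat_lit 374) (nat_lit 5) (nat_lit 633) (nat_lit 591) (nat_lit 336)) (XT.lf (nat_lit 0) (nat_lit 1479728077) (nat_lit 836) (nat_lit 17242345711) (nat_lit 76) (nat_lit 7475835062) (nat_lit 352) (nat_lit 5) (nat_lit 363) (nat_lit 5) (nat_lit 353) (nat_lit 5) (nat_lit 634) (nat_lit 591) (nat_lit 335)))) (XT.nd (nat_lit 156) (nat_lit 684) (nat_lit 0) (XT.nd (nat_lit 78) (nat_lit 760) (nat_lit 0) (XT.lf (nat_lit 0) (nat_lit 5117253325) (nat_lit 836) (nat_lit 2458956880) (nat_lit 76) (nat_lit 18916593794) (nat_lit 352) (nat_lit 5) (nat_lit 363) (nat_lit 5) (nat_lit 353) (nat_lit 5) (nat_lit 635) (nat_lit 591) (nat_lit 334)) (XT.lf (nat_lit 0) (nat_lit 8932680133) (nat_lit 836) (nat_lit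 14032779005) (nat_lit 76) (nat_lit 3826034969) (nat_lit 342) (nat_lit 5) (nat_lit 353) (nat_lit 5) (nat_lit 343) (nat_lit 5) (nat_lit 636) (nat_lit 591) (nat_lit 333))) (XT.nd (nat_lit 78) (nat_lit 0) (nat_lit 0) (XT.lf (nat_lit 0) (nat_lit 1180023017) (nat_lit 684) (nat_lit 11715847850) (nat_lit 760) (nat_lit 14198858118) (nat_lit 333) (nat_lit 5) (nat_lit 342) (nat_lit 5) (nat_lit 343) (nat_lit 5) (nat_lit 637) (nat_lit 591) (nat_lit 332)) (XT.lf (nat_lit 0) (nat_lit 16883906882) (nat_lit 684) (nat_lit 145632615) (nat_lit 760) (nat_lit 10372664855) (nat_lit 333) (nat_lit 5) (nat_lit 342) (nat_lit 5) (nat_lit 343) (nat_lit 5) (nat_lit 638) (nat_lit 591) (nat_lit 331))))) (XT.nd (nat_lit 312) (nat_lit 1900) (nat_lit 0) (XT.nd (nat_lit 156) (nat_lit 760) (nat_lit 0) (XT.nd (nat_lit 78) (nat_lit 0) (nat_lit 0) (XT.lf (nat_lit 0) (nat_lit 5174848991) (nat_lit 684) (nat_lit 16177411320) (nat_lit 760) (nat_lit 6361441411) (nat_lit 324) (nat_lit 5) (nat_lit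 333) (nat_lit 5) (nat_lit 334) (nat_lit 5) (nat_lit 639) (nat_lit 591) (nat_lit 330)) (XT.lf (nat_lit 0) (nat_lit 21320100762) (nat_lit 684) (nat_lit 4510013082) (nat_lit 760) (nat_lit 2199941701) (nat_lit 324) (nat_lit 5) (nat_lit 333) (nat_lit 5) (nat_lit 334) (nat_lit 5) (nat_lit 640) (nat_lit 591) (nat_lit 329))) (XT.nd (nat_lit 78) (nat_lit 0) (nat_lit 0) (XT.lf (nat_lit 0) (nat_lit 2125591706) (nat_lit 760) (nat_lit 18855681715) (nat_lit 76) (nat_lit 7369045141) (nat_lit 314) (nat_lit 5) (nat_lit 324) (nat_lit 5) (nat_lit 315) (nat_lit 5) (nat_lit 641) (nat_lit 591) (nat_lit 328)) (XT.lf (nat_lit 0) (nat_lit 6580604188) (nat_lit 760) (nat_lit 2609906796) (nat_lit 76) (nat_lit 19484736575) (nat_lit 314) (nat_lit 5) (nat_lit 324) (nat_lit 5) (nat_lit 315) (nat_lit 5) (nat_lit 642) (nat_lit 591) (nat_lit 327)))) (XT.nd (nat_lit 156) (nat_lit 608) (nat_lit 0) (XT.nd (nat_lit 78) (nat_lit 608) (nat_lit 0) (XT.lf (nat_lit 0) (nat_lit 11232820378) (nat_lit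 760) (nat_lit 14880935475) (nat_lit 76) (nat_lit 2890757279) (nat_lit 305) (nat_lit 5) (nat_lit 315) (nat_lit 5) (nat_lit 306) (nat_lit 5) (nat_lit 643) (nat_lit 591) (nat_lit 326)) (XT.lf (nat_lit 0) (nat_lit 1847015675) (nat_lit 608) (nat_lit 14218839954) (nat_lit 684) (nat_lit 13272752959) (nat_lit 297) (nat_lit 5) (nat_lit 305) (nat_lit 5) (nat_lit 306) (nat_lit 5) (nat_lit 644) (nat_lit 591) (nat_lit 325))) (XT.nd (nat_lit 78) (nat_lit 608) (nat_lit 0) (XT.lf (nat_lit 0) (nat_lit 19107938710) (nat_lit 608) (nat_lit 1984792051) (nat_lit 684) (nat_lit 8584711670) (nat_lit 297) (nat_lit 5) (nat_lit 305) (nat_lit 5) (nat_lit 306) (nat_lit 5) (nat_lit 645) (nat_lit 591) (nat_lit 324)) (XT.lf (nat_lit 0) (nat_lit 6707578724) (nat_lit 608) (nat_lit 19621617169) (nat_lit 684) (nat_lit 3691676069) (nat_lit 289) (nat_lit 5) (nat_lit 297) (nat_lit 5) (nat_lit 298) (nat_lit 5) (nat_lit 646) (nat_lit 591) (nat_lit 323))))))) (XT.nd (nat_lit 1170) (nat_lit 4028)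 (nat_lit 0) (XT.nd (nat_lit 546) (nat_lit 2584) (nat_lit 0) (XT.nd (nat_lit 234) (nat_lit 1824) (nat_lit 0) (XT.nd (nat_lit 78) (nat_lit 608) (nat_lit 0) (XT.lf (nat_lit 0) (nat_lit 1364103663) (nat_lit 684) (nat_lit 5921625019) (nat_lit 76) (nat_lit 23083634296) (nat_lit 288) (nat_lit 5) (nat_lit 297) (nat_lit 5) (nat_lit 289) (nat_lit 5) (nat_lit 647) (nat_lit 591) (nat_lit 322)) (XT.nd (nat_lit 78) (nat_lit 0) (nat_lit 0) (XT.lf (nat_lit 0) (nat_lit 6581676121) (nat_lit 684) (nat_lit 18811017730) (nat_lit 76) (nat_lit 5329439808) (nat_lit 280) (nat_lit 5) (nat_lit 289) (nat_lit 5) (nat_lit 281) (nat_lit 5) (nat_lit 648) (nat_lit 591) (nat_lit 321)) (XT.lf (nat_lit 0) (nat_lit 11989308639) (nat_lit 684) (nat_lit 952156851) (nat_lit 76) (nat_lit 18138780148) (nat_lit 280) (nat_lit 5) (nat_lit 289) (nat_lit 5) (nat_lit 281) (nat_lit 5) (nat_lit 649) (nat_lit 591) (nat_lit 320)))) (XT.nd (nat_lit 156) (nat_lit 684) (nat_lit 0) (XT.nd (nat_lit 78) (nat_lit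 532) (nat_lit 0) (XT.lf (nat_lit 0) (nat_lit 17490070881) (nat_lit 608) (nat_lit 126088274) (nat_lit 684) (nat_lit 13827139450) (nat_lit 272) (nat_lit 5) (nat_lit 280) (nat_lit 5) (nat_lit 281) (nat_lit 5) (nat_lit 650) (nat_lit 591) (nat_lit 319)) (XT.lf (nat_lit 0) (nat_lit 4471901670) (nat_lit 532) (nat_lit 19000694588) (nat_lit 608) (nat_lit 8338675438) (nat_lit 265) (nat_lit 5) (nat_lit 272) (nat_lit 5) (nat_lit 273) (nat_lit 5) (nat_lit 651) (nat_lit 591) (nat_lit 318))) (XT.nd (nat_lit 78) (nat_lit 684) (nat_lit 0) (XT.lf (nat_lit 0) (nat_lit 23450628916) (nat_lit 532) (nat_lit 6087555681) (nat_lit 608) (nat_lit 2646579254) (nat_lit 265) (nat_lit 5) (nat_lit 272) (nat_lit 5) (nat_lit 273) (nat_lit 5) (nat_lit 652) (nat_lit 591) (nat_lit 317)) (XT.lf (nat_lit 0) (nat_lit 3229317630) (nat_lit 684) (nat_lit 22255251680) (nat_lit 76) (nat_lit 7078518451) (nat_lit 256) (nat_lit 5) (nat_lit 265) (nat_lit 5) (nat_lit 257) (nat_lit 5) (nat_lit 653) (nat_lit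 591) (nat_lit 316))))) (XT.nd (nat_lit 312) (nat_lit 1520) (nat_lit 0) (XT.nd (nat_lit 156) (nat_lit 532) (nat_lit 0) (XT.nd (nat_lit 78) (nat_lit 532) (nat_lit 0) (XT.lf (nat_lit 0) (nat_lit 9284254864) (nat_lit 684) (nat_lit 3160185544) (nat_lit 76) (nat_lit 20502248713) (nat_lit 256) (nat_lit 5) (nat_lit 265) (nat_lit 5) (nat_lit 257) (nat_lit 5) (nat_lit 654) (nat_lit 591) (nat_lit 315)) (XT.lf (nat_lit 0) (nat_lit 15571544140) (nat_lit 608) (nat_lit 16811674572) (nat_lit 76) (nat_lit 952518779) (nat_lit 249) (nat_lit 5) (nat_lit 257) (nat_lit 5) (nat_lit 250) (nat_lit 5) (nat_lit 655) (nat_lit 591) (nat_lit 314))) (XT.nd (nat_lit 78) (nat_lit 0) (nat_lit 0) (XT.lf (nat_lit 0) (nat_lit 2864558448) (nat_lit 532) (nat_lit 19240060448) (nat_lit 608) (nat_lit 11625547188) (nat_lit 242) (nat_lit 5) (nat_lit 249) (nat_lit 5) (nat_lit 250) (nat_lit 5) (nat_lit 656) (nat_lit 591) (nat_lit 313)) (XT.lf (nat_lit 0) (nat_lit 23159075912) (nat_lit 532) (nat_lit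 5719800214) (nat_lit 608) (nat_lit 5251396750) (nat_lit 242) (nat_lit 5) (nat_lit 249) (nat_lit 5) (nat_lit 250) (nat_lit 5) (nat_lit 657) (nat_lit 591) (nat_lit 312)))) (XT.nd (nat_lit 156) (nat_lit 988) (nat_lit 0) (XT.nd (nat_lit 78) (nat_lit 0) (nat_lit 0) (XT.lf (nat_lit 0) (nat_lit 1345680117) (nat_lit 532) (nat_lit 25156282832) (nat_lit 76) (nat_lit 8034019744) (nat_lit 235) (nat_lit 5) (nat_lit 242) (nat_lit 5) (nat_lit 236) (nat_lit 5) (nat_lit 658) (nat_lit 591) (nat_lit 311)) (XT.lf (nat_lit 0) (nat_lit 8114192433) (nat_lit 532) (nat_lit 4738261431) (nat_lit 76) (nat_lit 22094462450) (nat_lit 235) (nat_lit 5) (nat_lit 242) (nat_lit 5) (nat_lit 236) (nat_lit 5) (nat_lit 659) (nat_lit 591) (nat_lit 310))) (XT.nd (nat_lit 78) (nat_lit 456) (nat_lit 0) (XT.lf (nat_lit 0) (nat_lit 15129339389) (nat_lit 608) (nat_lit 19072810160) (nat_lit 76) (nat_lit 1161693814) (nat_lit 228) (nat_lit 5) (nat_lit 236) (nat_lit 5) (nat_lit 229) (nat_lit 5) (nat_lit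 660) (nat_lit 591) (nat_lit 309)) (XT.lf (nat_lit 0) (nat_lit 1953896995) (nat_lit 456) (nat_lit 20458517442) (nat_lit 532) (nat_lit 13374142057) (nat_lit 222) (nat_lit 5) (nat_lit 228) (nat_lit 5) (nat_lit 229) (nat_lit 5) (nat_lit 661) (nat_lit 591) (nat_lit 308)))))) (XT.nd (nat_lit 624) (nat_lit 2128) (nat_lit 0) (XT.nd (nat_lit 312) (nat_lit 912) (nat_lit 0) (XT.nd (nat_lit 156) (nat_lit 456) (nat_lit 0) (XT.nd (nat_lit 78) (nat_lit 532) (nat_lit 0) (XT.lf (nat_lit 0) (nat_lit 23656623825) (nat_lit 456) (nat_lit 6310355521) (nat_lit 532) (nat_lit 6248228016) (nat_lit 222) (nat_lit 5) (nat_lit 228) (nat_lit 5) (nat_lit 229) (nat_lit 5) (nat_lit 662) (nat_lit 591) (nat_lit 307)) (XT.lf (nat_lit 0) (nat_lit 1117928107) (nat_lit 532) (nat_lit 27451620628) (nat_lit 76) (nat_lit 8080527997) (nat_lit 215) (nat_lit 5) (nat_lit 222) (nat_lit 5) (nat_lit 216) (nat_lit 5) (nat_lit 663) (nat_lit 591) (nat_lit 306))) (XT.nd (nat_lit 78) (nat_lit 456) (nat_lit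 0) (XT.lf (nat_lit 0) (nat_lit 8672329637) (nat_lit 532) (nat_lit 5617850641) (nat_lit 76) (nat_lit 22800145515) (nat_lit 215) (nat_lit 5) (nat_lit 222) (nat_lit 5) (nat_lit 216) (nat_lit 5) (nat_lit 664) (nat_lit 591) (nat_lit 305)) (XT.lf (nat_lit 0) (nat_lit 16487785806) (nat_lit 532) (nat_lit 20668851797) (nat_lit 76) (nat_lit 380542939) (nat_lit 209) (nat_lit 5) (nat_lit 216) (nat_lit 5) (nat_lit 210) (nat_lit 5) (nat_lit 665) (nat_lit 591) (nat_lit 304)))) (XT.nd (nat_lit 156) (nat_lit 456) (nat_lit 0) (XT.nd (nat_lit 78) (nat_lit 0) (nat_lit 0) (XT.lf (nat_lit 0) (nat_lit 1814077449) (nat_lit 456) (nat_lit 22787778860) (nat_lit 532) (nat_lit 13388270011) (nat_lit 203) (nat_lit 5) (nat_lit 209) (nat_lit 5) (nat_lit 210) (nat_lit 5) (nat_lit 666) (nat_lit 591) (nat_lit 303)) (XT.lf (nat_lit 0) (nat_lit 25023864056) (nat_lit 456) (nat_lit 7991005763) (nat_lit 532) (nat_lit 5434528000) (nat_lit 203) (nat_lit 5) (nat_lit 209) (nat_lit 5) (nat_lit 210)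 (nat_lit 5) (nat_lit 667) (nat_lit 591) (nat_lit 302))) (XT.nd (nat_lit 78) (nat_lit 0) (nat_lit 0) (XT.lf (nat_lit 0) (nat_lit 2752003615) (nat_lit 456) (nat_lit 29073544586) (nat_lit 76) (nat_lit 7089781978) (nat_lit 197) (nat_lit 5) (nat_lit 203) (nat_lit 5) (nat_lit 198) (nat_lit 5) (nat_lit 668) (nat_lit 591) (nat_lit 301)) (XT.lf (nat_lit 0) (nat_lit 11171178966) (nat_lit 456) (nat_lit 5724804664) (nat_lit 76) (nat_lit 22491045520) (nat_lit 197) (nat_lit 5) (nat_lit 203) (nat_lit 5) (nat_lit 198) (nat_lit 5) (nat_lit 669) (nat_lit 591) (nat_lit 300))))) (XT.nd (nat_lit 312) (nat_lit 836) (nat_lit 0) (XT.nd (nat_lit 156) (nat_lit 456) (nat_lit 0) (XT.nd (nat_lit 78) (nat_lit 380) (nat_lit 0) (XT.lf (nat_lit 0) (nat_lit 18328392325) (nat_lit 456) (nat_lit 1547388526) (nat_lit 532) (nat_lit 19990040422) (nat_lit 191) (nat_lit 5) (nat_lit 197) (nat_lit 5) (nat_lit 198) (nat_lit 5) (nat_lit 670) (nat_lit 591) (nat_lit 299)) (XT.lf (nat_lit 0) (nat_lit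 2525186288) (nat_lit 380) (nat_lit 26374010707) (nat_lit 456) (nat_lit 11452097834) (nat_lit 186) (nat_lit 5) (nat_lit 191) (nat_lit 5) (nat_lit 192) (nat_lit 5) (nat_lit 671) (nat_lit 591) (nat_lit 298))) (XT.nd (nat_lit 78) (nat_lit 456) (nat_lit 0) (XT.lf (nat_lit 0) (nat_lit 27347723217) (nat_lit 380) (nat_lit 10908141763) (nat_lit 456) (nat_lit 2587557240) (nat_lit 186) (nat_lit 5) (nat_lit 191) (nat_lit 5) (nat_lit 192) (nat_lit 5) (nat_lit 672) (nat_lit 591) (nat_lit 297)) (XT.lf (nat_lit 0) (nat_lit 6474276759) (nat_lit 456) (nat_lit 29949059123) (nat_lit 76) (nat_lit 4919125168) (nat_lit 180) (nat_lit 5) (nat_lit 186) (nat_lit 5) (nat_lit 181) (nat_lit 5) (nat_lit 673) (nat_lit 591) (nat_lit 296)))) (XT.nd (nat_lit 156) (nat_lit 456) (nat_lit 0) (XT.nd (nat_lit 78) (nat_lit 380) (nat_lit 0) (XT.lf (nat_lit 0) (nat_lit 15844248370) (nat_lit 456) (nat_lit 4979295474) (nat_lit 76) (nat_lit 21024363802) (nat_lit 180) (nat_lit 5) (nat_lit 186) (nat_lit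 5) (nat_lit 181) (nat_lit 5) (nat_lit 674) (nat_lit 591) (nat_lit 295)) (XT.lf (nat_lit 0) (nat_lit 20759308388) (nat_lit 380) (nat_lit 4775244797) (nat_lit 456) (nat_lit 16826251344) (nat_lit 175) (nat_lit 5) (nat_lit 180) (nat_lit 5) (nat_lit 181) (nat_lit 5) (nat_lit 675) (nat_lit 591) (nat_lit 294))) (XT.nd (nat_lit 78) (nat_lit 76) (nat_lit 0) (XT.lf (nat_lit 0) (nat_lit 4173296123) (nat_lit 380) (nat_lit 31379537215) (nat_lit 456) (nat_lit 7328442658) (nat_lit 170) (nat_lit 5) (nat_lit 175) (nat_lit 5) (nat_lit 176) (nat_lit 5) (nat_lit 676) (nat_lit 591) (nat_lit 293)) (XT.lf (nat_lit 0) (nat_lit 2504088885) (nat_lit 456) (nat_lit 12703596679) (nat_lit 76) (nat_lit 28200650800) (nat_lit 169) (nat_lit 5) (nat_lit 175) (nat_lit 5) (nat_lit 170) (nat_lit 5) (nat_lit 677) (nat_lit 591) (nat_lit 292))))))))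
noncomputable def xc195 : XT := (XT.nd (nat_lit 76206) (nat_lit 0) (nat_lit 12616) (XT.nd (nat_lit 74958) (nat_lit 0) (nat_lit 26296) (XT.nd (nat_lit 546) (nat_lit 760) (nat_lit 0) (XT.nd (nat_lit 234) (nat_lit 760) (nat_lit 0) (XT.nd (nat_lit 78) (nat_lit 380) (nat_lit 0) (XT.lf (nat_lit 0) (nat_lit 12533303104) (nat_lit 456) (nat_lit 29999913837) (nat_lit 76) (nat_lit 1409789008) (nat_lit 164) (nat_lit 5) (nat_lit 170) (nat_lit 5) (nat_lit 165) (nat_lit 5) (nat_lit 678) (nat_lit 591) (nat_lit 291)) (XT.nd (nat_lit 78) (nat_lit 380) (nat_lit 0) (XT.lf (nat_lit 0) (nat_lit 22947842056) (nat_lit 456) (nat_lit 3295816484) (nat_lit 76) (nat_lit 18241015604) (nat_lit 164) (nat_lit 5) (nat_lit 170) (nat_lit 5) (nat_lit 165) (nat_lit 5) (nat_lit 679) (nat_lit 591) (nat_lit 290)) (XT.lf (nat_lit 0) (nat_lit 24257772485) (nat_lit 380) (nat_lit 9468646776) (nat_lit 456) (nat_lit 11307641521) (nat_lit 159) (nat_lit 5) (nat_lit 164) (nat_lit 5) (nat_lit 165) (nat_lit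 5) (nat_lit 680) (nat_lit 591) (nat_lit 289)))) (XT.nd (nat_lit 156) (nat_lit 380) (nat_lit 0) (XT.nd (nat_lit 78) (nat_lit 76) (nat_lit 0) (XT.lf (nat_lit 0) (nat_lit 6850452781) (nat_lit 304) (nat_lit 37984732311) (nat_lit 380) (nat_lit 756957745) (nat_lit 155) (nat_lit 5) (nat_lit 159) (nat_lit 5) (nat_lit 160) (nat_lit 5) (nat_lit 681) (nat_lit 591) (nat_lit 288)) (XT.lf (nat_lit 0) (nat_lit 10074840328) (nat_lit 380) (nat_lit 10978579093) (nat_lit 76) (nat_lit 25102641699) (nat_lit 154) (nat_lit 5) (nat_lit 159) (nat_lit 5) (nat_lit 155) (nat_lit 5) (nat_lit 682) (nat_lit 591) (nat_lit 287))) (XT.nd (nat_lit 78) (nat_lit 0) (nat_lit 0) (XT.lf (nat_lit 0) (nat_lit 17562418633) (nat_lit 380) (nat_lit 3663055601) (nat_lit 456) (nat_lit 25503436779) (nat_lit 149) (nat_lit 5) (nat_lit 154) (nat_lit 5) (nat_lit 155) (nat_lit 5) (nat_lit 683) (nat_lit 591) (nat_lit 286)) (XT.lf (nat_lit 0) (nat_lit 32762974434) (nat_lit 456) (nat_lit 583269795) (nat_lit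 76) (nat_lit 13963696627) (nat_lit 149) (nat_lit 5) (nat_lit 155) (nat_lit 5) (nat_lit 150) (nat_lit 5) (nat_lit 684) (nat_lit 591) (nat_lit 285))))) (XT.nd (nat_lit 74100) (nat_lit 0) (nat_lit 27892) (XT.nd (nat_lit 73944) (nat_lit 0) (nat_lit 27892) (XT.nd (nat_lit 78) (nat_lit 456) (nat_lit 0) (XT.lf (nat_lit 0) (nat_lit 28924049474) (nat_lit 304) (nat_lit 15817569777) (nat_lit 380) (nat_lit 3156764178) (nat_lit 145) (nat_lit 5) (nat_lit 149) (nat_lit 5) (nat_lit 150) (nat_lit 5) (nat_lit 685) (nat_lit 591) (nat_lit 284)) (XT.lf (nat_lit 0) (nat_lit 8435686392) (nat_lit 456) (nat_lit 37897828159) (nat_lit 76) (nat_lit 2162273305) (nat_lit 139) (nat_lit 5) (nat_lit 145) (nat_lit 5) (nat_lit 140) (nat_lit 5) (nat_lit 686) (nat_lit 591) (nat_lit 283))) (XT.nd (nat_lit 78) (nat_lit 0) (nat_lit 0) (XT.lf (nat_lit 0) (nat_lit 3434309394) (nat_lit 0) (nat_lit 3434309394) (nat_lit 1748) (nat_lit 1655670878) (nat_lit 506) (nat_lit 5) (nat_lit 506) (nat_lit 3)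 (nat_lit 529) (nat_lit 3) (nat_lit 592) (nat_lit 592) (nat_lit 376)) (XT.lf (nat_lit 0) (nat_lit 14113165690) (nat_lit 1748) (nat_lit 1697501105) (nat_lit 1824) (nat_lit 1403620090) (nat_lit 506) (nat_lit 5) (nat_lit 529) (nat_lit 3) (nat_lit 530) (nat_lit 5) (nat_lit 593) (nat_lit 592) (nat_lit 375)))) (XT.nd (nat_lit 156) (nat_lit 0) (nat_lit 76) (XT.nd (nat_lit 78) (nat_lit 0) (nat_lit 76) (XT.lf (nat_lit 76) (nat_lit 6997749109) (nat_lit 0) (nat_lit 7583789171) (nat_lit 1824) (nat_lit 2800071977) (nat_lit 507) (nat_lit 5) (nat_lit 506) (nat_lit 5) (nat_lit 530) (nat_lit 5) (nat_lit 594) (nat_lit 592) (nat_lit 374)) (XT.lf (nat_lit 0) (nat_lit 15070108130) (nat_lit 1748) (nat_lit 1670720001) (nat_lit 1824) (nat_lit 811235554) (nat_lit 507) (nat_lit 5) (nat_lit 530) (nat_lit 5) (nat_lit 531) (nat_lit 5) (nat_lit 595) (nat_lit 592) (nat_lit 373))) (XT.nd (nat_lit 78) (nat_lit 0) (nat_lit 76) (XT.lf (nat_lit 76) (nat_lit 7258457105) (nat_lit 0) (nat_lit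 8401577659) (nat_lit 1824) (nat_lit 2064059889) (nat_lit 508) (nat_lit 5) (nat_lit 507) (nat_lit 5) (nat_lit 531) (nat_lit 5) (nat_lit 596) (nat_lit 592) (nat_lit 372)) (XT.lf (nat_lit 0) (nat_lit 16268067304) (nat_lit 1748) (nat_lit 1514537512) (nat_lit 1824) (nat_lit 116835452) (nat_lit 508) (nat_lit 5) (nat_lit 531) (nat_lit 5) (nat_lit 532) (nat_lit 5) (nat_lit 597) (nat_lit 592) (nat_lit 371)))))) (XT.nd (nat_lit 624) (nat_lit 0) (nat_lit 228) (XT.nd (nat_lit 312) (nat_lit 0) (nat_lit 76) (XT.nd (nat_lit 156) (nat_lit 1748) (nat_lit 0) (XT.nd (nat_lit 78) (nat_lit 0) (nat_lit 0) (XT.lf (nat_lit 76) (nat_lit 7657126542) (nat_lit 0) (nat_lit 9330943101) (nat_lit 1824) (nat_lit 1088227143) (nat_lit 509) (nat_lit 5) (nat_lit 508) (nat_lit 5) (nat_lit 532) (nat_lit 5) (nat_lit 598) (nat_lit 592) (nat_lit 370)) (XT.lf (nat_lit 76) (nat_lit 17029532182) (nat_lit 0) (nat_lit 697645427) (nat_lit 1824) (nat_lit 529418881) (nat_lit 509) (nat_lit 5) (nat_lit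 508) (nat_lit 5) (nat_lit 532) (nat_lit 5) (nat_lit 599) (nat_lit 592) (nat_lit 369))) (XT.nd (nat_lit 78) (nat_lit 0) (nat_lit 0) (XT.lf (nat_lit 0) (nat_lit 141250476) (nat_lit 1824) (nat_lit 10238910176) (nat_lit 1900) (nat_lit 8058312094) (nat_lit 485) (nat_lit 5) (nat_lit 509) (nat_lit 5) (nat_lit 510) (nat_lit 5) (nat_lit 600) (nat_lit 592) (nat_lit 368)) (XT.lf (nat_lit 0) (nat_lit 825871896) (nat_lit 1824) (nat_lit 803976210) (nat_lit 1900) (nat_lit 16993916040) (nat_lit 485) (nat_lit 5) (nat_lit 509) (nat_lit 5) (nat_lit 510) (nat_lit 5) (nat_lit 601) (nat_lit 592) (nat_lit 367)))) (XT.nd (nat_lit 156) (nat_lit 0) (nat_lit 76) (XT.nd (nat_lit 78) (nat_lit 0) (nat_lit 0) (XT.lf (nat_lit 0) (nat_lit 1624767663) (nat_lit 1824) (nat_lit 9925910618) (nat_lit 1900) (nat_lit 7260071610) (nat_lit 486) (nat_lit 5) (nat_lit 510) (nat_lit 5) (nat_lit 511) (nat_lit 5) (nat_lit 602) (nat_lit 592) (nat_lit 366)) (XT.lf (nat_lit 0) (nat_lit 2450774270) (nat_lit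 1824) (nat_lit 237224025) (nat_lit 1900) (nat_lit 16313254551) (nat_lit 486) (nat_lit 5) (nat_lit 510) (nat_lit 5) (nat_lit 511) (nat_lit 5) (nat_lit 603) (nat_lit 592) (nat_lit 365))) (XT.nd (nat_lit 78) (nat_lit 0) (nat_lit 0) (XT.lf (nat_lit 0) (nat_lit 3393415209) (nat_lit 1824) (nat_lit 9465987116) (nat_lit 1900) (nat_lit 6334161402) (nat_lit 487) (nat_lit 5) (nat_lit 511) (nat_lit 5) (nat_lit 512) (nat_lit 5) (nat_lit 604) (nat_lit 592) (nat_lit 364)) (XT.lf (nat_lit 76) (nat_lit 490442285) (nat_lit 0) (nat_lit 3882150284) (nat_lit 1900) (nat_lit 15016774731) (nat_lit 488) (nat_lit 5) (nat_lit 487) (nat_lit 5) (nat_lit 512) (nat_lit 5) (nat_lit 605) (nat_lit 592) (nat_lit 363))))) (XT.nd (nat_lit 312) (nat_lit 0) (nat_lit 152) (XT.nd (nat_lit 156) (nat_lit 0) (nat_lit 76) (XT.nd (nat_lit 78) (nat_lit 0) (nat_lit 0) (XT.lf (nat_lit 0) (nat_lit 5464721936) (nat_lit 1824) (nat_lit 8851631568) (nat_lit 1900) (nat_lit 5270866215) (nat_lit 488) (nat_lit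 5) (nat_lit 512) (nat_lit 5) (nat_lit 513) (nat_lit 5) (nat_lit 606) (nat_lit 592) (nat_lit 362)) (XT.lf (nat_lit 76) (nat_lit 1385677335) (nat_lit 0) (nat_lit 5222996938) (nat_lit 1900) (nat_lit 13179755450) (nat_lit 489) (nat_lit 5) (nat_lit 488) (nat_lit 5) (nat_lit 513) (nat_lit 5) (nat_lit 607) (nat_lit 592) (nat_lit 361))) (XT.nd (nat_lit 78) (nat_lit 0) (nat_lit 0) (XT.lf (nat_lit 0) (nat_lit 7856961026) (nat_lit 1824) (nat_lit 8074933907) (nat_lit 1900) (nat_lit 4060140024) (nat_lit 489) (nat_lit 5) (nat_lit 513) (nat_lit 5) (nat_lit 514) (nat_lit 5) (nat_lit 608) (nat_lit 592) (nat_lit 360)) (XT.lf (nat_lit 76) (nat_lit 2453625953) (nat_lit 0) (nat_lit 6722551774) (nat_lit 1900) (nat_lit 11022615421) (nat_lit 490) (nat_lit 5) (nat_lit 489) (nat_lit 5) (nat_lit 514) (nat_lit 5) (nat_lit 609) (nat_lit 592) (nat_lit 359)))) (XT.nd (nat_lit 156) (nat_lit 0) (nat_lit 76) (XT.nd (nat_lit 78) (nat_lit 0) (nat_lit 0) (XT.lf (nat_lit 0) (nat_lit 10589185240)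 (nat_lit 1824) (nat_lit 7127568540) (nat_lit 1900) (nat_lit 2691584726) (nat_lit 490) (nat_lit 5) (nat_lit 514) (nat_lit 5) (nat_lit 515) (nat_lit 5) (nat_lit 610) (nat_lit 592) (nat_lit 358)) (XT.lf (nat_lit 76) (nat_lit 3703015804) (nat_lit 0) (nat_lit 8391606413) (nat_lit 1900) (nat_lit 8526169300) (nat_lit 491) (nat_lit 5) (nat_lit 490) (nat_lit 5) (nat_lit 515) (nat_lit 5) (nat_lit 611) (nat_lit 592) (nat_lit 357))) (XT.nd (nat_lit 78) (nat_lit 0) (nat_lit 0) (XT.lf (nat_lit 0) (nat_lit 13681263401) (nat_lit 1824) (nat_lit 6000780070) (nat_lit 1900) (nat_lit 1154428335) (nat_lit 491) (nat_lit 5) (nat_lit 515) (nat_lit 5) (nat_lit 516) (nat_lit 5) (nat_lit 612) (nat_lit 592) (nat_lit 356)) (XT.lf (nat_lit 76) (nat_lit 5143019678) (nat_lit 0) (nat_lit 10241344853) (nat_lit 1900) (nat_lit 5670406753) (nat_lit 492) (nat_lit 5) (nat_lit 491) (nat_lit 5) (nat_lit 516) (nat_lit 5) (nat_lit 613) (nat_lit 592) (nat_lit 355))))))) (XT.nd (nat_lit 1170) (nat_lit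 6764) (nat_lit 0) (XT.nd (nat_lit 546) (nat_lit 3572) (nat_lit 0) (XT.nd (nat_lit 234) (nat_lit 3800) (nat_lit 0) (XT.nd (nat_lit 78) (nat_lit 0) (nat_lit 76) (XT.lf (nat_lit 76) (nat_lit 16587646154) (nat_lit 0) (nat_lit 569972685) (nat_lit 1900) (nat_lit 4119096213) (nat_lit 492) (nat_lit 5) (nat_lit 491) (nat_lit 5) (nat_lit 516) (nat_lit 5) (nat_lit 614) (nat_lit 592) (nat_lit 354)) (XT.nd (nat_lit 78) (nat_lit 0) (nat_lit 0) (XT.lf (nat_lit 76) (nat_lit 6783271148) (nat_lit 0) (nat_lit 12283366432) (nat_lit 1900) (nat_lit 2434454250) (nat_lit 493) (nat_lit 5) (nat_lit 492) (nat_lit 5) (nat_lit 517) (nat_lit 5) (nat_lit 615) (nat_lit 592) (nat_lit 353)) (XT.lf (nat_lit 76) (nat_lit 18541405238) (nat_lit 0) (nat_lit 2503615265) (nat_lit 1900) (nat_lit 684312083) (nat_lit 493) (nat_lit 5) (nat_lit 492) (nat_lit 5) (nat_lit 517) (nat_lit 5) (nat_lit 616) (nat_lit 592) (nat_lit 352)))) (XT.nd (nat_lit 156) (nat_lit 2052) (nat_lit 0) (XT.nd (nat_lit 78)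 (nat_lit 0) (nat_lit 0) (XT.lf (nat_lit 0) (nat_lit 1187680875) (nat_lit 1900) (nat_lit 13334058570) (nat_lit 76) (nat_lit 7438230167) (nat_lit 468) (nat_lit 5) (nat_lit 493) (nat_lit 5) (nat_lit 469) (nat_lit 5) (nat_lit 617) (nat_lit 592) (nat_lit 351)) (XT.lf (nat_lit 0) (nat_lit 3122154478) (nat_lit 1900) (nat_lit 1500242006) (nat_lit 76) (nat_lit 17572048466) (nat_lit 468) (nat_lit 5) (nat_lit 493) (nat_lit 5) (nat_lit 469) (nat_lit 5) (nat_lit 618) (nat_lit 592) (nat_lit 350))) (XT.nd (nat_lit 78) (nat_lit 912) (nat_lit 0) (XT.lf (nat_lit 0) (nat_lit 5197004312) (nat_lit 1216) (nat_lit 11760996280) (nat_lit 76) (nat_lit 5473575577) (nat_lit 453) (nat_lit 5) (nat_lit 469) (nat_lit 5) (nat_lit 454) (nat_lit 5) (nat_lit 619) (nat_lit 592) (nat_lit 349)) (XT.lf (nat_lit 0) (nat_lit 403088419) (nat_lit 912) (nat_lit 6949839744) (nat_lit 988) (nat_lit 15319730417) (nat_lit 441) (nat_lit 5) (nat_lit 453) (nat_lit 5) (nat_lit 454) (nat_lit 5) (nat_lit 620)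 (nat_lit 592) (nat_lit 348))))) (XT.nd (nat_lit 312) (nat_lit 1824) (nat_lit 0) (XT.nd (nat_lit 156) (nat_lit 836) (nat_lit 0) (XT.nd (nat_lit 78) (nat_lit 912) (nat_lit 0) (XT.lf (nat_lit 0) (nat_lit 9648840088) (nat_lit 988) (nat_lit 9972264607) (nat_lit 76) (nat_lit 3295520657) (nat_lit 441) (nat_lit 5) (nat_lit 454) (nat_lit 5) (nat_lit 442) (nat_lit 5) (nat_lit 621) (nat_lit 592) (nat_lit 347)) (XT.lf (nat_lit 0) (nat_lit 2555060211) (nat_lit 912) (nat_lit 9494566001) (nat_lit 988) (nat_lit 11114666232) (nat_lit 429) (nat_lit 5) (nat_lit 441) (nat_lit 5) (nat_lit 442) (nat_lit 5) (nat_lit 622) (nat_lit 592) (nat_lit 346))) (XT.nd (nat_lit 78) (nat_lit 836) (nat_lit 0) (XT.lf (nat_lit 0) (nat_lit 14567601074) (nat_lit 988) (nat_lit 7956790376) (nat_lit 76) (nat_lit 891138068) (nat_lit 429) (nat_lit 5) (nat_lit 442) (nat_lit 5) (nat_lit 430) (nat_lit 5) (nat_lit 623) (nat_lit 592) (nat_lit 345)) (XT.lf (nat_lit 0) (nat_lit 4947312433) (nat_lit 836)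 (nat_lit 12280085436) (nat_lit 912) (nat_lit 6442564316) (nat_lit 418) (nat_lit 5) (nat_lit 429) (nat_lit 5) (nat_lit 430) (nat_lit 5) (nat_lit 624) (nat_lit 592) (nat_lit 344)))) (XT.nd (nat_lit 156) (nat_lit 912) (nat_lit 0) (XT.nd (nat_lit 78) (nat_lit 912) (nat_lit 0) (XT.lf (nat_lit 0) (nat_lit 18213981163) (nat_lit 836) (nat_lit 1776314420) (nat_lit 912) (nat_lit 3938189918) (nat_lit 418) (nat_lit 5) (nat_lit 429) (nat_lit 5) (nat_lit 430) (nat_lit 5) (nat_lit 625) (nat_lit 592) (nat_lit 343)) (XT.lf (nat_lit 0) (nat_lit 7591969997) (nat_lit 912) (nat_lit 15320381639) (nat_lit 988) (nat_lit 1277749736) (nat_lit 406) (nat_lit 5) (nat_lit 418) (nat_lit 5) (nat_lit 419) (nat_lit 5) (nat_lit 626) (nat_lit 592) (nat_lit 342))) (XT.nd (nat_lit 78) (nat_lit 836) (nat_lit 0) (XT.lf (nat_lit 0) (nat_lit 1464034869) (nat_lit 988) (nat_lit 3238886303) (nat_lit 76) (nat_lit 19752902670) (nat_lit 405) (nat_lit 5) (nat_lit 418) (nat_lit 5) (nat_lit 406) (nat_lit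 5) (nat_lit 627) (nat_lit 592) (nat_lit 341)) (XT.lf (nat_lit 0) (nat_lit 4348780873) (nat_lit 912) (nat_lit 14252042950) (nat_lit 76) (nat_lit 6123763415) (nat_lit 394) (nat_lit 5) (nat_lit 406) (nat_lit 5) (nat_lit 395) (nat_lit 5) (nat_lit 628) (nat_lit 592) (nat_lit 340)))))) (XT.nd (nat_lit 624) (nat_lit 3572) (nat_lit 0) (XT.nd (nat_lit 312) (nat_lit 1596) (nat_lit 0) (XT.nd (nat_lit 156) (nat_lit 760) (nat_lit 0) (XT.nd (nat_lit 78) (nat_lit 836) (nat_lit 0) (XT.lf (nat_lit 0) (nat_lit 7340958555) (nat_lit 912) (nat_lit 530848665) (nat_lit 76) (nat_lit 17125924034) (nat_lit 394) (nat_lit 5) (nat_lit 406) (nat_lit 5) (nat_lit 395) (nat_lit 5) (nat_lit 629) (nat_lit 592) (nat_lit 339)) (XT.lf (nat_lit 0) (nat_lit 10498849529) (nat_lit 912) (nat_lit 11654805857) (nat_lit 76) (nat_lit 3120565454) (nat_lit 383) (nat_lit 5) (nat_lit 395) (nat_lit 5) (nat_lit 384) (nat_lit 5) (nat_lit 630) (nat_lit 592) (nat_lit 338))) (XT.nd (nat_lit 78) (nat_lit 0) (nat_lit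 0) (XT.lf (nat_lit 0) (nat_lit 2480740487) (nat_lit 760) (nat_lit 11307800099) (nat_lit 836) (nat_lit 11766326874) (nat_lit 373) (nat_lit 5) (nat_lit 383) (nat_lit 5) (nat_lit 384) (nat_lit 5) (nat_lit 631) (nat_lit 592) (nat_lit 337)) (XT.lf (nat_lit 0) (nat_lit 17053652934) (nat_lit 760) (nat_lit 165441790) (nat_lit 836) (nat_lit 8620530985) (nat_lit 373) (nat_lit 5) (nat_lit 383) (nat_lit 5) (nat_lit 384) (nat_lit 5) (nat_lit 632) (nat_lit 592) (nat_lit 336)))) (XT.nd (nat_lit 156) (nat_lit 836) (nat_lit 0) (XT.nd (nat_lit 78) (nat_lit 0) (nat_lit 0) (XT.lf (nat_lit 0) (nat_lit 5787812432) (nat_lit 760) (nat_lit 15037661886) (nat_lit 836) (nat_lit 5302460599) (nat_lit 363) (nat_lit 5) (nat_lit 373) (nat_lit 5) (nat_lit 374) (nat_lit 5) (nat_lit 633) (nat_lit 592) (nat_lit 335)) (XT.lf (nat_lit 0) (nat_lit 20767757205) (nat_lit 760) (nat_lit 3793229953) (nat_lit 836) (nat_lit 1859883118) (nat_lit 363) (nat_lit 5) (nat_lit 373) (nat_lit 5) (nat_lit 374)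 (nat_lit 5) (nat_lit 634) (nat_lit 592) (nat_lit 334))) (XT.nd (nat_lit 78) (nat_lit 0) (nat_lit 0) (XT.lf (nat_lit 0) (nat_lit 1738471323) (nat_lit 836) (nat_lit 17331188198) (nat_lit 76) (nat_lit 7647618724) (nat_lit 352) (nat_lit 5) (nat_lit 363) (nat_lit 5) (nat_lit 353) (nat_lit 5) (nat_lit 635) (nat_lit 592) (nat_lit 333)) (XT.lf (nat_lit 0) (nat_lit 5444253965) (nat_lit 836) (nat_lit 2257151286) (nat_lit 76) (nat_lit 19316756024) (nat_lit 352) (nat_lit 5) (nat_lit 363) (nat_lit 5) (nat_lit 353) (nat_lit 5) (nat_lit 636) (nat_lit 592) (nat_lit 332))))) (XT.nd (nat_lit 312) (nat_lit 1444) (nat_lit 0) (XT.nd (nat_lit 156) (nat_lit 684) (nat_lit 0) (XT.nd (nat_lit 78) (nat_lit 684) (nat_lit 0) (XT.lf (nat_lit 0) (nat_lit 9333381451) (nat_lit 836) (nat_lit 14059836413) (nat_lit 76) (nat_lit 3929659589) (nat_lit 342) (nat_lit 5) (nat_lit 353) (nat_lit 5) (nat_lit 343) (nat_lit 5) (nat_lit 637) (nat_lit 592) (nat_lit 331)) (XT.lf (nat_lit 0) (nat_lit 1455553240)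 (nat_lit 684) (nat_lit 11917564578) (nat_lit 760) (nat_lit 14259113683) (nat_lit 333) (nat_lit 5) (nat_lit 342) (nat_lit 5) (nat_lit 343) (nat_lit 5) (nat_lit 638) (nat_lit 592) (nat_lit 330))) (XT.nd (nat_lit 78) (nat_lit 684) (nat_lit 0) (XT.lf (nat_lit 0) (nat_lit 17468574983) (nat_lit 684) (nat_lit 116584259) (nat_lit 760) (nat_lit 10360783253) (nat_lit 333) (nat_lit 5) (nat_lit 342) (nat_lit 5) (nat_lit 343) (nat_lit 5) (nat_lit 639) (nat_lit 592) (nat_lit 329)) (XT.lf (nat_lit 0) (nat_lit 5527782470) (nat_lit 684) (nat_lit 16464158699) (nat_lit 760) (nat_lit 6271776615) (nat_lit 324) (nat_lit 5) (nat_lit 333) (nat_lit 5) (nat_lit 334) (nat_lit 5) (nat_lit 640) (nat_lit 592) (nat_lit 328)))) (XT.nd (nat_lit 156) (nat_lit 684) (nat_lit 0) (XT.nd (nat_lit 78) (nat_lit 760) (nat_lit 0) (XT.lf (nat_lit 0) (nat_lit 21991048365) (nat_lit 684) (nat_lit 4564134081) (nat_lit 760) (nat_lit 2031299727) (nat_lit 324) (nat_lit 5) (nat_lit 333) (nat_lit 5) (nat_lit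 334) (nat_lit 5) (nat_lit 641) (nat_lit 592) (nat_lit 327)) (XT.lf (nat_lit 0) (nat_lit 2375685294) (nat_lit 760) (nat_lit 18983180694) (nat_lit 76) (nat_lit 7554302352) (nat_lit 314) (nat_lit 5) (nat_lit 324) (nat_lit 5) (nat_lit 315) (nat_lit 5) (nat_lit 642) (nat_lit 592) (nat_lit 326))) (XT.nd (nat_lit 78) (nat_lit 684) (nat_lit 0) (XT.lf (nat_lit 0) (nat_lit 6915727795) (nat_lit 760) (nat_lit 2417384682) (nat_lit 76) (nat_lit 19911564942) (nat_lit 314) (nat_lit 5) (nat_lit 324) (nat_lit 5) (nat_lit 315) (nat_lit 5) (nat_lit 643) (nat_lit 592) (nat_lit 325)) (XT.lf (nat_lit 0) (nat_lit 11658849082) (nat_lit 760) (nat_lit 14931689942) (nat_lit 76) (nat_lit 2990032160) (nat_lit 305) (nat_lit 5) (nat_lit 315) (nat_lit 5) (nat_lit 306) (nat_lit 5) (nat_lit 644) (nat_lit 592) (nat_lit 324))))))))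
noncomputable def xc196 : XT := (XT.nd (nat_lit 2418) (nat_lit 2660) (nat_lit 0) (XT.nd (nat_lit 1170) (nat_lit 4180) (nat_lit 0) (XT.nd (nat_lit 546) (nat_lit 2812) (nat_lit 0) (XT.nd (nat_lit 234) (nat_lit 1292) (nat_lit 0) (XT.nd (nat_lit 78) (nat_lit 608) (nat_lit 0) (XT.lf (nat_lit 0) (nat_lit 2129196124) (nat_lit 608) (nat_lit 14456992699) (nat_lit 684) (nat_lit 13335206944) (nat_lit 297) (nat_lit 5) (nat_lit 305) (nat_lit 5) (nat_lit 306) (nat_lit 5) (nat_lit 645) (nat_lit 592) (nat_lit 323)) (XT.nd (nat_lit 78) (nat_lit 608) (nat_lit 0) (XT.lf (nat_lit 0) (nat_lit 19730528989) (nat_lit 608) (nat_lit 1979170192) (nat_lit 684) (nat_lit 8557385242) (nat_lit 297) (nat_lit 5) (nat_lit 305) (nat_lit 5) (nat_lit 306) (nat_lit 5) (nat_lit 646) (nat_lit 592) (nat_lit 322)) (XT.lf (nat_lit 0) (nat_lit 7084168874) (nat_lit 608) (nat_lit 19964761517) (nat_lit 684) (nat_lit 3568491510) (nat_lit 289) (nat_lit 5) (nat_lit 297) (nat_lit 5) (nat_lit 298) (nat_lit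 5) (nat_lit 647) (nat_lit 592) (nat_lit 321)))) (XT.nd (nat_lit 156) (nat_lit 608) (nat_lit 0) (XT.nd (nat_lit 78) (nat_lit 608) (nat_lit 0) (XT.lf (nat_lit 0) (nat_lit 1582007455) (nat_lit 684) (nat_lit 5799835065) (nat_lit 76) (nat_lit 23591090967) (nat_lit 288) (nat_lit 5) (nat_lit 297) (nat_lit 5) (nat_lit 289) (nat_lit 5) (nat_lit 648) (nat_lit 592) (nat_lit 320)) (XT.lf (nat_lit 0) (nat_lit 6902069091) (nat_lit 684) (nat_lit 18945149128) (nat_lit 76) (nat_lit 5485578693) (nat_lit 280) (nat_lit 5) (nat_lit 289) (nat_lit 5) (nat_lit 281) (nat_lit 5) (nat_lit 649) (nat_lit 592) (nat_lit 319))) (XT.nd (nat_lit 78) (nat_lit 608) (nat_lit 0) (XT.lf (nat_lit 0) (nat_lit 12414153094) (nat_lit 684) (nat_lit 733857874) (nat_lit 76) (nat_lit 18550134269) (nat_lit 280) (nat_lit 5) (nat_lit 289) (nat_lit 5) (nat_lit 281) (nat_lit 5) (nat_lit 650) (nat_lit 592) (nat_lit 318)) (XT.lf (nat_lit 0) (nat_lit 18075652951) (nat_lit 608) (nat_lit 75789920) (nat_lit 684)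 (nat_lit 13917058429) (nat_lit 272) (nat_lit 5) (nat_lit 280) (nat_lit 5) (nat_lit 281) (nat_lit 5) (nat_lit 651) (nat_lit 592) (nat_lit 317))))) (XT.nd (nat_lit 312) (nat_lit 1596) (nat_lit 0) (XT.nd (nat_lit 156) (nat_lit 684) (nat_lit 0) (XT.nd (nat_lit 78) (nat_lit 0) (nat_lit 0) (XT.lf (nat_lit 0) (nat_lit 4798867657) (nat_lit 532) (nat_lit 19324432005) (nat_lit 608) (nat_lit 8320568451) (nat_lit 265) (nat_lit 5) (nat_lit 272) (nat_lit 5) (nat_lit 273) (nat_lit 5) (nat_lit 652) (nat_lit 592) (nat_lit 316)) (XT.lf (nat_lit 0) (nat_lit 24152512038) (nat_lit 532) (nat_lit 6154133780) (nat_lit 608) (nat_lit 2518255450) (nat_lit 265) (nat_lit 5) (nat_lit 272) (nat_lit 5) (nat_lit 273) (nat_lit 5) (nat_lit 653) (nat_lit 592) (nat_lit 315))) (XT.nd (nat_lit 78) (nat_lit 0) (nat_lit 0) (XT.lf (nat_lit 0) (nat_lit 3471161005) (nat_lit 684) (nat_lit 22463480215) (nat_lit 76) (nat_lit 7276159400) (nat_lit 256) (nat_lit 5) (nat_lit 265) (nat_lit 5) (nat_lit 257)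 (nat_lit 5) (nat_lit 654) (nat_lit 592) (nat_lit 314)) (XT.lf (nat_lit 0) (nat_lit 9643721355) (nat_lit 684) (nat_lit 2991157393) (nat_lit 76) (nat_lit 20967264844) (nat_lit 256) (nat_lit 5) (nat_lit 265) (nat_lit 5) (nat_lit 257) (nat_lit 5) (nat_lit 655) (nat_lit 592) (nat_lit 313)))) (XT.nd (nat_lit 156) (nat_lit 532) (nat_lit 0) (XT.nd (nat_lit 78) (nat_lit 532) (nat_lit 0) (XT.lf (nat_lit 0) (nat_lit 16055228800) (nat_lit 608) (nat_lit 16914144974) (nat_lit 76) (nat_lit 1029629780) (nat_lit 249) (nat_lit 5) (nat_lit 257) (nat_lit 5) (nat_lit 250) (nat_lit 5) (nat_lit 656) (nat_lit 592) (nat_lit 312)) (XT.lf (nat_lit 0) (nat_lit 3154074791) (nat_lit 532) (nat_lit 19563020494) (nat_lit 608) (nat_lit 11684262900) (nat_lit 242) (nat_lit 5) (nat_lit 249) (nat_lit 5) (nat_lit 250) (nat_lit 5) (nat_lit 657) (nat_lit 592) (nat_lit 311))) (XT.nd (nat_lit 78) (nat_lit 532) (nat_lit 0) (XT.lf (nat_lit 0) (nat_lit 23849929169) (nat_lit 532) (nat_lit 5773567628)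 (nat_lit 608) (nat_lit 5186037203) (nat_lit 242) (nat_lit 5) (nat_lit 249) (nat_lit 5) (nat_lit 250) (nat_lit 5) (nat_lit 658) (nat_lit 592) (nat_lit 310)) (XT.lf (nat_lit 0) (nat_lit 1539335257) (nat_lit 532) (nat_lit 25428084066) (nat_lit 76) (nat_lit 8255944857) (nat_lit 235) (nat_lit 5) (nat_lit 242) (nat_lit 5) (nat_lit 236) (nat_lit 5) (nat_lit 659) (nat_lit 592) (nat_lit 309)))))) (XT.nd (nat_lit 624) (nat_lit 1748) (nat_lit 0) (XT.nd (nat_lit 312) (nat_lit 1444) (nat_lit 0) (XT.nd (nat_lit 156) (nat_lit 456) (nat_lit 0) (XT.nd (nat_lit 78) (nat_lit 532) (nat_lit 0) (XT.lf (nat_lit 0) (nat_lit 8439948378) (nat_lit 532) (nat_lit 4606238010) (nat_lit 76) (nat_lit 22596395540) (nat_lit 235) (nat_lit 5) (nat_lit 242) (nat_lit 5) (nat_lit 236) (nat_lit 5) (nat_lit 660) (nat_lit 592) (nat_lit 308)) (XT.lf (nat_lit 0) (nat_lit 15594068432) (nat_lit 608) (nat_lit 19226144667) (nat_lit 76) (nat_lit 1247661079) (nat_lit 228) (nat_lit 5) (nat_lit 236) (nat_lit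 5) (nat_lit 229) (nat_lit 5) (nat_lit 661) (nat_lit 592) (nat_lit 307))) (XT.nd (nat_lit 78) (nat_lit 0) (nat_lit 0) (XT.lf (nat_lit 0) (nat_lit 2219595830) (nat_lit 456) (nat_lit 20801501264) (nat_lit 532) (nat_lit 13477978699) (nat_lit 222) (nat_lit 5) (nat_lit 228) (nat_lit 5) (nat_lit 229) (nat_lit 5) (nat_lit 662) (nat_lit 592) (nat_lit 306)) (XT.lf (nat_lit 0) (nat_lit 24351933650) (nat_lit 456) (nat_lit 6371673879) (nat_lit 532) (nat_lit 6212755126) (nat_lit 222) (nat_lit 5) (nat_lit 228) (nat_lit 5) (nat_lit 229) (nat_lit 5) (nat_lit 663) (nat_lit 592) (nat_lit 305)))) (XT.nd (nat_lit 156) (nat_lit 912) (nat_lit 0) (XT.nd (nat_lit 78) (nat_lit 0) (nat_lit 0) (XT.lf (nat_lit 0) (nat_lit 1297391387) (nat_lit 532) (nat_lit 27775136975) (nat_lit 76) (nat_lit 8307404849) (nat_lit 215) (nat_lit 5) (nat_lit 222) (nat_lit 5) (nat_lit 216) (nat_lit 5) (nat_lit 664) (nat_lit 592) (nat_lit 304)) (XT.lf (nat_lit 0) (nat_lit 8999800463) (nat_lit 532) (nat_lit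 5509113472) (nat_lit 76) (nat_lit 23320134986) (nat_lit 215) (nat_lit 5) (nat_lit 222) (nat_lit 5) (nat_lit 216) (nat_lit 5) (nat_lit 665) (nat_lit 592) (nat_lit 303))) (XT.nd (nat_lit 78) (nat_lit 456) (nat_lit 0) (XT.lf (nat_lit 0) (nat_lit 16970408087) (nat_lit 532) (nat_lit 20859974135) (nat_lit 76) (nat_lit 454481753) (nat_lit 209) (nat_lit 5) (nat_lit 216) (nat_lit 5) (nat_lit 210) (nat_lit 5) (nat_lit 666) (nat_lit 592) (nat_lit 302)) (XT.lf (nat_lit 0) (nat_lit 2071151494) (nat_lit 456) (nat_lit 23174044653) (nat_lit 532) (nat_lit 13501703854) (nat_lit 203) (nat_lit 5) (nat_lit 209) (nat_lit 5) (nat_lit 210) (nat_lit 5) (nat_lit 667) (nat_lit 592) (nat_lit 301))))) (XT.nd (nat_lit 312) (nat_lit 836) (nat_lit 0) (XT.nd (nat_lit 156) (nat_lit 456) (nat_lit 0) (XT.nd (nat_lit 78) (nat_lit 456) (nat_lit 0) (XT.lf (nat_lit 0) (nat_lit 25740804569) (nat_lit 456) (nat_lit 8082698639) (nat_lit 532) (nat_lit 5391913111) (nat_lit 203) (nat_lit 5) (nat_lit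 209) (nat_lit 5) (nat_lit 210) (nat_lit 5) (nat_lit 668) (nat_lit 592) (nat_lit 300)) (XT.lf (nat_lit 0) (nat_lit 2955295231) (nat_lit 456) (nat_lit 29435493028) (nat_lit 76) (nat_lit 7299880863) (nat_lit 197) (nat_lit 5) (nat_lit 203) (nat_lit 5) (nat_lit 198) (nat_lit 5) (nat_lit 669) (nat_lit 592) (nat_lit 299))) (XT.nd (nat_lit 78) (nat_lit 456) (nat_lit 0) (XT.lf (nat_lit 0) (nat_lit 11539947196) (nat_lit 456) (nat_lit 5624082670) (nat_lit 76) (nat_lit 23007830396) (nat_lit 197) (nat_lit 5) (nat_lit 203) (nat_lit 5) (nat_lit 198) (nat_lit 5) (nat_lit 670) (nat_lit 592) (nat_lit 298)) (XT.lf (nat_lit 0) (nat_lit 18908762352) (nat_lit 456) (nat_lit 1508417018) (nat_lit 532) (nat_lit 20243078144) (nat_lit 191) (nat_lit 5) (nat_lit 197) (nat_lit 5) (nat_lit 198) (nat_lit 5) (nat_lit 671) (nat_lit 592) (nat_lit 297)))) (XT.nd (nat_lit 156) (nat_lit 456) (nat_lit 0) (XT.nd (nat_lit 78) (nat_lit 0) (nat_lit 0) (XT.lf (nat_lit 0) (nat_lit 2790495862) (nat_lit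 380) (nat_lit 26829586463) (nat_lit 456) (nat_lit 11535377894) (nat_lit 186) (nat_lit 5) (nat_lit 191) (nat_lit 5) (nat_lit 192) (nat_lit 5) (nat_lit 672) (nat_lit 592) (nat_lit 296)) (XT.lf (nat_lit 0) (nat_lit 28105271650) (nat_lit 380) (nat_lit 11055810032) (nat_lit 456) (nat_lit 2496404564) (nat_lit 186) (nat_lit 5) (nat_lit 191) (nat_lit 5) (nat_lit 192) (nat_lit 5) (nat_lit 673) (nat_lit 592) (nat_lit 295))) (XT.nd (nat_lit 78) (nat_lit 0) (nat_lit 0) (XT.lf (nat_lit 0) (nat_lit 6743860866) (nat_lit 456) (nat_lit 30334636370) (nat_lit 76) (nat_lit 5088008728) (nat_lit 180) (nat_lit 5) (nat_lit 186) (nat_lit 5) (nat_lit 181) (nat_lit 5) (nat_lit 674) (nat_lit 592) (nat_lit 294)) (XT.lf (nat_lit 0) (nat_lit 16298484878) (nat_lit 456) (nat_lit 4869661839) (nat_lit 76) (nat_lit 21513969762) (nat_lit 180) (nat_lit 5) (nat_lit 186) (nat_lit 5) (nat_lit 181) (nat_lit 5) (nat_lit 675) (nat_lit 592) (nat_lit 293))))))) (XT.nd (nat_lit 75036) (nat_lit 0) (nat_lit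 25840) (XT.nd (nat_lit 546) (nat_lit 760) (nat_lit 0) (XT.nd (nat_lit 234) (nat_lit 1064) (nat_lit 0) (XT.nd (nat_lit 78) (nat_lit 456) (nat_lit 0) (XT.lf (nat_lit 0) (nat_lit 21382337657) (nat_lit 380) (nat_lit 4798914421) (nat_lit 456) (nat_lit 17024046140) (nat_lit 175) (nat_lit 5) (nat_lit 180) (nat_lit 5) (nat_lit 181) (nat_lit 5) (nat_lit 676) (nat_lit 592) (nat_lit 292)) (XT.nd (nat_lit 78) (nat_lit 76) (nat_lit 0) (XT.lf (nat_lit 0) (nat_lit 4465478915) (nat_lit 380) (nat_lit 31933564484) (nat_lit 456) (nat_lit 7337152849) (nat_lit 170) (nat_lit 5) (nat_lit 175) (nat_lit 5) (nat_lit 176) (nat_lit 5) (nat_lit 677) (nat_lit 592) (nat_lit 291)) (XT.lf (nat_lit 0) (nat_lit 2687553625) (nat_lit 456) (nat_lit 12751269526) (nat_lit 76) (nat_lit 28835010165) (nat_lit 169) (nat_lit 5) (nat_lit 175) (nat_lit 5) (nat_lit 170) (nat_lit 5) (nat_lit 678) (nat_lit 592) (nat_lit 290)))) (XT.nd (nat_lit 156) (nat_lit 684) (nat_lit 0) (XT.nd (nat_lit 78) (nat_lit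 0) (nat_lit 0) (XT.lf (nat_lit 0) (nat_lit 12916541630) (nat_lit 456) (nat_lit 30392700455) (nat_lit 76) (nat_lit 1509970460) (nat_lit 164) (nat_lit 5) (nat_lit 170) (nat_lit 5) (nat_lit 165) (nat_lit 5) (nat_lit 679) (nat_lit 592) (nat_lit 289)) (XT.lf (nat_lit 0) (nat_lit 23536771901) (nat_lit 456) (nat_lit 3158584129) (nat_lit 76) (nat_lit 18676410105) (nat_lit 164) (nat_lit 5) (nat_lit 170) (nat_lit 5) (nat_lit 165) (nat_lit 5) (nat_lit 680) (nat_lit 592) (nat_lit 288))) (XT.nd (nat_lit 78) (nat_lit 304) (nat_lit 0) (XT.lf (nat_lit 0) (nat_lit 24944740116) (nat_lit 380) (nat_lit 9584942342) (nat_lit 456) (nat_lit 11402482850) (nat_lit 159) (nat_lit 5) (nat_lit 164) (nat_lit 5) (nat_lit 165) (nat_lit 5) (nat_lit 681) (nat_lit 592) (nat_lit 287)) (XT.lf (nat_lit 0) (nat_lit 7190034698) (nat_lit 304) (nat_lit 38669845097) (nat_lit 380) (nat_lit 641544125) (nat_lit 155) (nat_lit 5) (nat_lit 159) (nat_lit 5) (nat_lit 160) (nat_lit 5) (nat_lit 682) (nat_lit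 592) (nat_lit 286))))) (XT.nd (nat_lit 74178) (nat_lit 0) (nat_lit 27436) (XT.nd (nat_lit 156) (nat_lit 304) (nat_lit 0) (XT.nd (nat_lit 78) (nat_lit 380) (nat_lit 0) (XT.lf (nat_lit 0) (nat_lit 10402651401) (nat_lit 380) (nat_lit 10997869302) (nat_lit 76) (nat_lit 25676133476) (nat_lit 154) (nat_lit 5) (nat_lit 159) (nat_lit 5) (nat_lit 155) (nat_lit 5) (nat_lit 683) (nat_lit 592) (nat_lit 285)) (XT.lf (nat_lit 0) (nat_lit 18112630738) (nat_lit 380) (nat_lit 3662482301) (nat_lit 456) (nat_lit 25885871766) (nat_lit 149) (nat_lit 5) (nat_lit 154) (nat_lit 5) (nat_lit 155) (nat_lit 5) (nat_lit 684) (nat_lit 592) (nat_lit 284))) (XT.nd (nat_lit 78) (nat_lit 304) (nat_lit 0) (XT.lf (nat_lit 0) (nat_lit 33541379710) (nat_lit 456) (nat_lit 397887369) (nat_lit 76) (nat_lit 14314407874) (nat_lit 149) (nat_lit 5) (nat_lit 155) (nat_lit 5) (nat_lit 150) (nat_lit 5) (nat_lit 685) (nat_lit 592) (nat_lit 283)) (XT.lf (nat_lit 0) (nat_lit 29698281919) (nat_lit 304)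 (nat_lit 16060171829) (nat_lit 380) (nat_lit 3095455537) (nat_lit 145) (nat_lit 5) (nat_lit 149) (nat_lit 5) (nat_lit 150) (nat_lit 5) (nat_lit 686) (nat_lit 592) (nat_lit 282)))) (XT.nd (nat_lit 156) (nat_lit 0) (nat_lit 0) (XT.nd (nat_lit 78) (nat_lit 0) (nat_lit 0) (XT.lf (nat_lit 0) (nat_lit 3616911826) (nat_lit 0) (nat_lit 3616911826) (nat_lit 1748) (nat_lit 1456388078) (nat_lit 506) (nat_lit 5) (nat_lit 506) (nat_lit 3) (nat_lit 529) (nat_lit 3) (nat_lit 593) (nat_lit 593) (nat_lit 374)) (XT.lf (nat_lit 0) (nat_lit 14840709138) (nat_lit 1748) (nat_lit 1497687219) (nat_lit 1824) (nat_lit 1211256781) (nat_lit 506) (nat_lit 5) (nat_lit 529) (nat_lit 3) (nat_lit 530) (nat_lit 5) (nat_lit 594) (nat_lit 593) (nat_lit 373))) (XT.nd (nat_lit 78) (nat_lit 0) (nat_lit 76) (XT.lf (nat_lit 76) (nat_lit 7369930079) (nat_lit 0) (nat_lit 7941295883) (nat_lit 1824) (nat_lit 2409241753) (nat_lit 507) (nat_lit 5) (nat_lit 506) (nat_lit 5) (nat_lit 530) (nat_lit 5)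 (nat_lit 595) (nat_lit 593) (nat_lit 372)) (XT.lf (nat_lit 0) (nat_lit 15799667670) (nat_lit 1748) (nat_lit 1466548983) (nat_lit 1824) (nat_lit 628311815) (nat_lit 507) (nat_lit 5) (nat_lit 530) (nat_lit 5) (nat_lit 531) (nat_lit 5) (nat_lit 596) (nat_lit 593) (nat_lit 371)))))) (XT.nd (nat_lit 624) (nat_lit 0) (nat_lit 152) (XT.nd (nat_lit 312) (nat_lit 1672) (nat_lit 0) (XT.nd (nat_lit 156) (nat_lit 0) (nat_lit 76) (XT.nd (nat_lit 78) (nat_lit 0) (nat_lit 0) (XT.lf (nat_lit 76) (nat_lit 7639648603) (nat_lit 0) (nat_lit 8754881405) (nat_lit 1824) (nat_lit 1675607566) (nat_lit 508) (nat_lit 5) (nat_lit 507) (nat_lit 5) (nat_lit 531) (nat_lit 5) (nat_lit 597) (nat_lit 593) (nat_lit 370)) (XT.lf (nat_lit 76) (nat_lit 16944794986) (nat_lit 0) (nat_lit 60883508) (nat_lit 1824) (nat_lit 1243492758) (nat_lit 508) (nat_lit 5) (nat_lit 507) (nat_lit 5) (nat_lit 531) (nat_lit 5) (nat_lit 598) (nat_lit 593) (nat_lit 369))) (XT.nd (nat_lit 78) (nat_lit 0) (nat_lit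 0) (XT.lf (nat_lit 76) (nat_lit 8049531843) (nat_lit 0) (nat_lit 9683631614) (nat_lit 1824) (nat_lit 696540043) (nat_lit 509) (nat_lit 5) (nat_lit 508) (nat_lit 5) (nat_lit 532) (nat_lit 5) (nat_lit 599) (nat_lit 593) (nat_lit 368)) (XT.lf (nat_lit 76) (nat_lit 17604694169) (nat_lit 0) (nat_lit 874411720) (nat_lit 1824) (nat_lit 134662512) (nat_lit 509) (nat_lit 5) (nat_lit 508) (nat_lit 5) (nat_lit 532) (nat_lit 5) (nat_lit 600) (nat_lit 593) (nat_lit 367)))) (XT.nd (nat_lit 156) (nat_lit 0) (nat_lit 76) (XT.nd (nat_lit 78) (nat_lit 0) (nat_lit 0) (XT.lf (nat_lit 0) (nat_lit 536798676) (nat_lit 1824) (nat_lit 10196471547) (nat_lit 1900) (nat_lit 8066105668) (nat_lit 485) (nat_lit 5) (nat_lit 509) (nat_lit 5) (nat_lit 510) (nat_lit 5) (nat_lit 601) (nat_lit 593) (nat_lit 366)) (XT.lf (nat_lit 0) (nat_lit 1227412069) (nat_lit 1824) (nat_lit 577686290) (nat_lit 1900) (nat_lit 17183428999) (nat_lit 485) (nat_lit 5) (nat_lit 509) (nat_lit 5) (nat_lit 510)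 (nat_lit 5) (nat_lit 602) (nat_lit 593) (nat_lit 365))) (XT.nd (nat_lit 78) (nat_lit 0) (nat_lit 0) (XT.lf (nat_lit 0) (nat_lit 2035401871) (nat_lit 1824) (nat_lit 9875164118) (nat_lit 1900) (nat_lit 7268824736) (nat_lit 486) (nat_lit 5) (nat_lit 510) (nat_lit 5) (nat_lit 511) (nat_lit 5) (nat_lit 603) (nat_lit 593) (nat_lit 364)) (XT.lf (nat_lit 76) (nat_lit 2440673) (nat_lit 0) (nat_lit 2868089296) (nat_lit 1900) (nat_lit 16503321966) (nat_lit 487) (nat_lit 5) (nat_lit 486) (nat_lit 5) (nat_lit 511) (nat_lit 5) (nat_lit 604) (nat_lit 593) (nat_lit 363))))) (XT.nd (nat_lit 312) (nat_lit 0) (nat_lit 152) (XT.nd (nat_lit 156) (nat_lit 0) (nat_lit 76) (XT.nd (nat_lit 78) (nat_lit 0) (nat_lit 0) (XT.lf (nat_lit 0) (nat_lit 3825521188) (nat_lit 1824) (nat_lit 9404432052) (nat_lit 1900) (nat_lit 6340186062) (nat_lit 487) (nat_lit 5) (nat_lit 511) (nat_lit 5) (nat_lit 512) (nat_lit 5) (nat_lit 605) (nat_lit 593) (nat_lit 362)) (XT.lf (nat_lit 76) (nat_lit 749475445)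 (nat_lit 0) (nat_lit 4069282866) (nat_lit 1900) (nat_lit 14951211327) (nat_lit 488) (nat_lit 5) (nat_lit 487) (nat_lit 5) (nat_lit 512) (nat_lit 5) (nat_lit 606) (nat_lit 593) (nat_lit 361))) (XT.nd (nat_lit 78) (nat_lit 0) (nat_lit 0) (XT.lf (nat_lit 0) (nat_lit 5924999719) (nat_lit 1824) (nat_lit 8776585571) (nat_lit 1900) (nat_lit 5270348638) (nat_lit 488) (nat_lit 5) (nat_lit 512) (nat_lit 5) (nat_lit 513) (nat_lit 5) (nat_lit 607) (nat_lit 593) (nat_lit 360)) (XT.lf (nat_lit 76) (nat_lit 1663811098) (nat_lit 0) (nat_lit 5422763872) (nat_lit 1900) (nat_lit 13090698489) (nat_lit 489) (nat_lit 5) (nat_lit 488) (nat_lit 5) (nat_lit 513) (nat_lit 5) (nat_lit 608) (nat_lit 593) (nat_lit 359)))) (XT.nd (nat_lit 156) (nat_lit 0) (nat_lit 76) (XT.nd (nat_lit 78) (nat_lit 0) (nat_lit 0) (XT.lf (nat_lit 0) (nat_lit 8352441831) (nat_lit 1824) (nat_lit 7983526829) (nat_lit 1900) (nat_lit 4049130053) (nat_lit 489) (nat_lit 5) (nat_lit 513) (nat_lit 5) (nat_lit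 514) (nat_lit 5) (nat_lit 609) (nat_lit 593) (nat_lit 358)) (XT.lf (nat_lit 76) (nat_lit 2753940375) (nat_lit 0) (nat_lit 6939099571) (nat_lit 1900) (nat_lit 10903052378) (nat_lit 490) (nat_lit 5) (nat_lit 489) (nat_lit 5) (nat_lit 514) (nat_lit 5) (nat_lit 610) (nat_lit 593) (nat_lit 357))) (XT.nd (nat_lit 78) (nat_lit 0) (nat_lit 0) (XT.lf (nat_lit 0) (nat_lit 11127248981) (nat_lit 1824) (nat_lit 7016735974) (nat_lit 1900) (nat_lit 2665985002) (nat_lit 490) (nat_lit 5) (nat_lit 514) (nat_lit 5) (nat_lit 515) (nat_lit 5) (nat_lit 611) (nat_lit 593) (nat_lit 356)) (XT.lf (nat_lit 76) (nat_lit 4028793057) (nat_lit 0) (nat_lit 8629238306) (nat_lit 1900) (nat_lit 8368736121) (nat_lit 491) (nat_lit 5) (nat_lit 490) (nat_lit 5) (nat_lit 515) (nat_lit 5) (nat_lit 612) (nat_lit 593) (nat_lit 355))))))))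
noncomputable def xc197 : XT := (XT.nd (nat_lit 2418) (nat_lit 9728) (nat_lit 0) (XT.nd (nat_lit 1170) (nat_lit 6992) (nat_lit 0) (XT.nd (nat_lit 546) (nat_lit 4712) (nat_lit 0) (XT.nd (nat_lit 234) (nat_lit 1748) (nat_lit 0) (XT.nd (nat_lit 78) (nat_lit 0) (nat_lit 0) (XT.lf (nat_lit 0) (nat_lit 14269656822) (nat_lit 1824) (nat_lit 5867256469) (nat_lit 1900) (nat_lit 1109983246) (nat_lit 491) (nat_lit 5) (nat_lit 515) (nat_lit 5) (nat_lit 516) (nat_lit 5) (nat_lit 613) (nat_lit 593) (nat_lit 354)) (XT.nd (nat_lit 78) (nat_lit 0) (nat_lit 0) (XT.lf (nat_lit 76) (nat_lit 5497751253) (nat_lit 0) (nat_lit 10504532112) (nat_lit 1900) (nat_lit 5467369555) (nat_lit 492) (nat_lit 5) (nat_lit 491) (nat_lit 5) (nat_lit 516) (nat_lit 5) (nat_lit 614) (nat_lit 593) (nat_lit 353)) (XT.lf (nat_lit 76) (nat_lit 17166331608) (nat_lit 0) (nat_lit 638588180) (nat_lit 1900) (nat_lit 3891237615) (nat_lit 492) (nat_lit 5) (nat_lit 491) (nat_lit 5) (nat_lit 516) (nat_lit 5)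 (nat_lit 615) (nat_lit 593) (nat_lit 352)))) (XT.nd (nat_lit 156) (nat_lit 1824) (nat_lit 0) (XT.nd (nat_lit 78) (nat_lit 0) (nat_lit 0) (XT.lf (nat_lit 76) (nat_lit 7170665458) (nat_lit 0) (nat_lit 12576759939) (nat_lit 1900) (nat_lit 2177690366) (nat_lit 493) (nat_lit 5) (nat_lit 492) (nat_lit 5) (nat_lit 517) (nat_lit 5) (nat_lit 616) (nat_lit 593) (nat_lit 351)) (XT.lf (nat_lit 76) (nat_lit 19159026369) (nat_lit 0) (nat_lit 2600477941) (nat_lit 1900) (nat_lit 398534630) (nat_lit 493) (nat_lit 5) (nat_lit 492) (nat_lit 5) (nat_lit 517) (nat_lit 5) (nat_lit 617) (nat_lit 593) (nat_lit 350))) (XT.nd (nat_lit 78) (nat_lit 0) (nat_lit 0) (XT.lf (nat_lit 0) (nat_lit 1502518526) (nat_lit 1900) (nat_lit 13345550297) (nat_lit 76) (nat_lit 7545270206) (nat_lit 468) (nat_lit 5) (nat_lit 493) (nat_lit 5) (nat_lit 469) (nat_lit 5) (nat_lit 618) (nat_lit 593) (nat_lit 349)) (XT.lf (nat_lit 0) (nat_lit 3469974071) (nat_lit 1900) (nat_lit 1280061116) (nat_lit 76)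 (nat_lit 17882583000) (nat_lit 468) (nat_lit 5) (nat_lit 493) (nat_lit 5) (nat_lit 469) (nat_lit 5) (nat_lit 619) (nat_lit 593) (nat_lit 348))))) (XT.nd (nat_lit 312) (nat_lit 1748) (nat_lit 0) (XT.nd (nat_lit 156) (nat_lit 912) (nat_lit 0) (XT.nd (nat_lit 78) (nat_lit 912) (nat_lit 0) (XT.lf (nat_lit 0) (nat_lit 5582125654) (nat_lit 1216) (nat_lit 11741827255) (nat_lit 76) (nat_lit 5550623186) (nat_lit 453) (nat_lit 5) (nat_lit 469) (nat_lit 5) (nat_lit 454) (nat_lit 5) (nat_lit 620) (nat_lit 593) (nat_lit 347)) (XT.lf (nat_lit 0) (nat_lit 663865527) (nat_lit 912) (nat_lit 7113429893) (nat_lit 988) (nat_lit 15343262342) (nat_lit 441) (nat_lit 5) (nat_lit 453) (nat_lit 5) (nat_lit 454) (nat_lit 5) (nat_lit 621) (nat_lit 593) (nat_lit 346))) (XT.nd (nat_lit 78) (nat_lit 912) (nat_lit 0) (XT.lf (nat_lit 0) (nat_lit 10113531612) (nat_lit 988) (nat_lit 9918348128) (nat_lit 76) (nat_lit 3337636161) (nat_lit 441) (nat_lit 5) (nat_lit 454) (nat_lit 5) (nat_lit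 442) (nat_lit 5) (nat_lit 622) (nat_lit 593) (nat_lit 345)) (XT.lf (nat_lit 0) (nat_lit 2857856332) (nat_lit 912) (nat_lit 9700783557) (nat_lit 988) (nat_lit 11063570467) (nat_lit 429) (nat_lit 5) (nat_lit 441) (nat_lit 5) (nat_lit 442) (nat_lit 5) (nat_lit 623) (nat_lit 593) (nat_lit 344)))) (XT.nd (nat_lit 156) (nat_lit 912) (nat_lit 0) (XT.nd (nat_lit 78) (nat_lit 836) (nat_lit 0) (XT.lf (nat_lit 0) (nat_lit 15121615009) (nat_lit 988) (nat_lit 7863799856) (nat_lit 76) (nat_lit 893164639) (nat_lit 429) (nat_lit 5) (nat_lit 442) (nat_lit 5) (nat_lit 430) (nat_lit 5) (nat_lit 624) (nat_lit 593) (nat_lit 343)) (XT.lf (nat_lit 0) (nat_lit 5296726283) (nat_lit 836) (nat_lit 12534357425) (nat_lit 912) (nat_lit 6307087741) (nat_lit 418) (nat_lit 5) (nat_lit 429) (nat_lit 5) (nat_lit 430) (nat_lit 5) (nat_lit 625) (nat_lit 593) (nat_lit 342))) (XT.nd (nat_lit 78) (nat_lit 912) (nat_lit 0) (XT.lf (nat_lit 0) (nat_lit 18823817259) (nat_lit 836) (nat_lit 1820340984)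 (nat_lit 912) (nat_lit 3757808754) (nat_lit 418) (nat_lit 5) (nat_lit 429) (nat_lit 5) (nat_lit 430) (nat_lit 5) (nat_lit 626) (nat_lit 593) (nat_lit 341)) (XT.lf (nat_lit 0) (nat_lit 7992859932) (nat_lit 912) (nat_lit 15628376873) (nat_lit 988) (nat_lit 1047646891) (nat_lit 406) (nat_lit 5) (nat_lit 418) (nat_lit 5) (nat_lit 419) (nat_lit 5) (nat_lit 627) (nat_lit 593) (nat_lit 340)))))) (XT.nd (nat_lit 624) (nat_lit 3724) (nat_lit 0) (XT.nd (nat_lit 312) (nat_lit 1520) (nat_lit 0) (XT.nd (nat_lit 156) (nat_lit 836) (nat_lit 0) (XT.nd (nat_lit 78) (nat_lit 836) (nat_lit 0) (XT.lf (nat_lit 0) (nat_lit 1740673254) (nat_lit 988) (nat_lit 3056202913) (nat_lit 76) (nat_lit 20143110327) (nat_lit 405) (nat_lit 5) (nat_lit 418) (nat_lit 5) (nat_lit 406) (nat_lit 5) (nat_lit 628) (nat_lit 593) (nat_lit 339)) (XT.lf (nat_lit 0) (nat_lit 4679871367) (nat_lit 912) (nat_lit 14286373341) (nat_lit 76) (nat_lit 6247945436) (nat_lit 394) (nat_lit 5) (nat_lit 406) (nat_lit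 5) (nat_lit 395) (nat_lit 5) (nat_lit 629) (nat_lit 593) (nat_lit 338))) (XT.nd (nat_lit 78) (nat_lit 836) (nat_lit 0) (XT.lf (nat_lit 0) (nat_lit 7727106037) (nat_lit 912) (nat_lit 295671062) (nat_lit 76) (nat_lit 17470115801) (nat_lit 394) (nat_lit 5) (nat_lit 406) (nat_lit 5) (nat_lit 395) (nat_lit 5) (nat_lit 630) (nat_lit 593) (nat_lit 337)) (XT.lf (nat_lit 0) (nat_lit 10945099140) (nat_lit 912) (nat_lit 11639045421) (nat_lit 76) (nat_lit 3190828957) (nat_lit 383) (nat_lit 5) (nat_lit 395) (nat_lit 5) (nat_lit 384) (nat_lit 5) (nat_lit 631) (nat_lit 593) (nat_lit 336)))) (XT.nd (nat_lit 156) (nat_lit 760) (nat_lit 0) (XT.nd (nat_lit 78) (nat_lit 0) (nat_lit 0) (XT.lf (nat_lit 0) (nat_lit 2777574635) (nat_lit 760) (nat_lit 11519981698) (nat_lit 836) (nat_lit 11763737414) (nat_lit 373) (nat_lit 5) (nat_lit 383) (nat_lit 5) (nat_lit 384) (nat_lit 5) (nat_lit 632) (nat_lit 593) (nat_lit 335)) (XT.lf (nat_lit 0) (nat_lit 17637097893) (nat_lit 760) (nat_lit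 155050230) (nat_lit 836) (nat_lit 8559690627) (nat_lit 373) (nat_lit 5) (nat_lit 383) (nat_lit 5) (nat_lit 384) (nat_lit 5) (nat_lit 633) (nat_lit 593) (nat_lit 334))) (XT.nd (nat_lit 78) (nat_lit 0) (nat_lit 0) (XT.lf (nat_lit 0) (nat_lit 6148807007) (nat_lit 760) (nat_lit 15319044006) (nat_lit 836) (nat_lit 5178119334) (nat_lit 363) (nat_lit 5) (nat_lit 373) (nat_lit 5) (nat_lit 374) (nat_lit 5) (nat_lit 634) (nat_lit 593) (nat_lit 333)) (XT.lf (nat_lit 0) (nat_lit 21423542082) (nat_lit 760) (nat_lit 3850103260) (nat_lit 836) (nat_lit 1671207764) (nat_lit 363) (nat_lit 5) (nat_lit 373) (nat_lit 5) (nat_lit 374) (nat_lit 5) (nat_lit 635) (nat_lit 593) (nat_lit 332))))) (XT.nd (nat_lit 312) (nat_lit 1444) (nat_lit 0) (XT.nd (nat_lit 156) (nat_lit 1444) (nat_lit 0) (XT.nd (nat_lit 78) (nat_lit 0) (nat_lit 0) (XT.lf (nat_lit 0) (nat_lit 1993491311) (nat_lit 836) (nat_lit 17431748499) (nat_lit 76) (nat_lit 7821973406) (nat_lit 352) (nat_lit 5) (nat_lit 363)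 (nat_lit 5) (nat_lit 353) (nat_lit 5) (nat_lit 636) (nat_lit 593) (nat_lit 331)) (XT.lf (nat_lit 0) (nat_lit 5769070967) (nat_lit 836) (nat_lit 2061055622) (nat_lit 76) (nat_lit 19724073799) (nat_lit 352) (nat_lit 5) (nat_lit 363) (nat_lit 5) (nat_lit 353) (nat_lit 5) (nat_lit 637) (nat_lit 593) (nat_lit 330))) (XT.nd (nat_lit 78) (nat_lit 684) (nat_lit 0) (XT.lf (nat_lit 0) (nat_lit 9733474413) (nat_lit 836) (nat_lit 14097282495) (nat_lit 76) (nat_lit 4034304222) (nat_lit 342) (nat_lit 5) (nat_lit 353) (nat_lit 5) (nat_lit 343) (nat_lit 5) (nat_lit 638) (nat_lit 593) (nat_lit 329)) (XT.lf (nat_lit 0) (nat_lit 1726811329) (nat_lit 684) (nat_lit 12124581547) (nat_lit 760) (nat_lit 14329261741) (nat_lit 333) (nat_lit 5) (nat_lit 342) (nat_lit 5) (nat_lit 343) (nat_lit 5) (nat_lit 639) (nat_lit 593) (nat_lit 328)))) (XT.nd (nat_lit 156) (nat_lit 760) (nat_lit 0) (XT.nd (nat_lit 78) (nat_lit 684) (nat_lit 0) (XT.lf (nat_lit 0) (nat_lit 18055345526) (nat_lit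 684) (nat_lit 88196020) (nat_lit 760) (nat_lit 10357181059) (nat_lit 333) (nat_lit 5) (nat_lit 342) (nat_lit 5) (nat_lit 343) (nat_lit 5) (nat_lit 640) (nat_lit 593) (nat_lit 327)) (XT.lf (nat_lit 0) (nat_lit 5878088695) (nat_lit 684) (nat_lit 16758070047) (nat_lit 760) (nat_lit 6188740766) (nat_lit 324) (nat_lit 5) (nat_lit 333) (nat_lit 5) (nat_lit 334) (nat_lit 5) (nat_lit 641) (nat_lit 593) (nat_lit 326))) (XT.nd (nat_lit 78) (nat_lit 760) (nat_lit 0) (XT.lf (nat_lit 0) (nat_lit 22665918917) (nat_lit 684) (nat_lit 4620738501) (nat_lit 760) (nat_lit 1867542014) (nat_lit 324) (nat_lit 5) (nat_lit 333) (nat_lit 5) (nat_lit 334) (nat_lit 5) (nat_lit 642) (nat_lit 593) (nat_lit 325)) (XT.lf (nat_lit 0) (nat_lit 2622720102) (nat_lit 760) (nat_lit 19122922494) (nat_lit 76) (nat_lit 7741793924) (nat_lit 314) (nat_lit 5) (nat_lit 324) (nat_lit 5) (nat_lit 315) (nat_lit 5) (nat_lit 643) (nat_lit 593) (nat_lit 324))))))) (XT.nd (nat_lit 1170) (nat_lit 4256) (nat_lit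 0) (XT.nd (nat_lit 546) (nat_lit 2888) (nat_lit 0) (XT.nd (nat_lit 234) (nat_lit 1292) (nat_lit 0) (XT.nd (nat_lit 78) (nat_lit 1292) (nat_lit 0) (XT.lf (nat_lit 0) (nat_lit 7249651275) (nat_lit 760) (nat_lit 2230514911) (nat_lit 76) (nat_lit 20345487932) (nat_lit 314) (nat_lit 5) (nat_lit 324) (nat_lit 5) (nat_lit 315) (nat_lit 5) (nat_lit 644) (nat_lit 593) (nat_lit 323)) (XT.nd (nat_lit 78) (nat_lit 608) (nat_lit 0) (XT.lf (nat_lit 0) (nat_lit 12085578828) (nat_lit 760) (nat_lit 14993045539) (nat_lit 76) (nat_lit 3089682607) (nat_lit 305) (nat_lit 5) (nat_lit 315) (nat_lit 5) (nat_lit 306) (nat_lit 5) (nat_lit 645) (nat_lit 593) (nat_lit 322)) (XT.lf (nat_lit 0) (nat_lit 2407497208) (nat_lit 608) (nat_lit 14701703436) (nat_lit 684) (nat_lit 13406792787) (nat_lit 297) (nat_lit 5) (nat_lit 305) (nat_lit 5) (nat_lit 306) (nat_lit 5) (nat_lit 646) (nat_lit 593) (nat_lit 321)))) (XT.nd (nat_lit 156) (nat_lit 684) (nat_lit 0) (XT.nd (nat_lit 78) (nat_lit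 608) (nat_lit 0) (XT.lf (nat_lit 0) (nat_lit 20356234826) (nat_lit 608) (nat_lit 1975195638) (nat_lit 684) (nat_lit 8537240501) (nat_lit 297) (nat_lit 5) (nat_lit 305) (nat_lit 5) (nat_lit 306) (nat_lit 5) (nat_lit 647) (nat_lit 593) (nat_lit 320)) (XT.lf (nat_lit 0) (nat_lit 7458876640) (nat_lit 608) (nat_lit 20316682666) (nat_lit 684) (nat_lit 3450493711) (nat_lit 289) (nat_lit 5) (nat_lit 297) (nat_lit 5) (nat_lit 298) (nat_lit 5) (nat_lit 648) (nat_lit 593) (nat_lit 319))) (XT.nd (nat_lit 78) (nat_lit 608) (nat_lit 0) (XT.lf (nat_lit 0) (nat_lit 1796867250) (nat_lit 684) (nat_lit 5684937442) (nat_lit 76) (nat_lit 24106918925) (nat_lit 288) (nat_lit 5) (nat_lit 297) (nat_lit 5) (nat_lit 289) (nat_lit 5) (nat_lit 649) (nat_lit 593) (nat_lit 318)) (XT.lf (nat_lit 0) (nat_lit 7221540162) (nat_lit 684) (nat_lit 19091363764) (nat_lit 76) (nat_lit 5642916265) (nat_lit 280) (nat_lit 5) (nat_lit 289) (nat_lit 5) (nat_lit 281) (nat_lit 5) (nat_lit 650) (nat_lit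 593) (nat_lit 317))))) (XT.nd (nat_lit 312) (nat_lit 1748) (nat_lit 0) (XT.nd (nat_lit 156) (nat_lit 532) (nat_lit 0) (XT.nd (nat_lit 78) (nat_lit 608) (nat_lit 0) (XT.lf (nat_lit 0) (nat_lit 12840308400) (nat_lit 684) (nat_lit 520409200) (nat_lit 76) (nat_lit 18967829110) (nat_lit 280) (nat_lit 5) (nat_lit 289) (nat_lit 5) (nat_lit 281) (nat_lit 5) (nat_lit 651) (nat_lit 593) (nat_lit 316)) (XT.lf (nat_lit 0) (nat_lit 18663791013) (nat_lit 608) (nat_lit 26536668) (nat_lit 684) (nat_lit 14016022617) (nat_lit 272) (nat_lit 5) (nat_lit 280) (nat_lit 5) (nat_lit 281) (nat_lit 5) (nat_lit 652) (nat_lit 593) (nat_lit 315))) (XT.nd (nat_lit 78) (nat_lit 0) (nat_lit 0) (XT.lf (nat_lit 0) (nat_lit 5123149464) (nat_lit 532) (nat_lit 19656829455) (nat_lit 608) (nat_lit 8309278459) (nat_lit 265) (nat_lit 5) (nat_lit 272) (nat_lit 5) (nat_lit 273) (nat_lit 5) (nat_lit 653) (nat_lit 593) (nat_lit 314)) (XT.lf (nat_lit 0) (nat_lit 24859390175) (nat_lit 532) (nat_lit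 6224185877) (nat_lit 608) (nat_lit 2394403539) (nat_lit 265) (nat_lit 5) (nat_lit 272) (nat_lit 5) (nat_lit 273) (nat_lit 5) (nat_lit 654) (nat_lit 593) (nat_lit 313)))) (XT.nd (nat_lit 156) (nat_lit 1064) (nat_lit 0) (XT.nd (nat_lit 78) (nat_lit 0) (nat_lit 0) (XT.lf (nat_lit 0) (nat_lit 3710958140) (nat_lit 684) (nat_lit 22685071524) (nat_lit 76) (nat_lit 7475575878) (nat_lit 256) (nat_lit 5) (nat_lit 265) (nat_lit 5) (nat_lit 257) (nat_lit 5) (nat_lit 655) (nat_lit 593) (nat_lit 312)) (XT.lf (nat_lit 0) (nat_lit 10003629033) (nat_lit 684) (nat_lit 2827766526) (nat_lit 76) (nat_lit 21439446700) (nat_lit 256) (nat_lit 5) (nat_lit 265) (nat_lit 5) (nat_lit 257) (nat_lit 5) (nat_lit 656) (nat_lit 593) (nat_lit 311))) (XT.nd (nat_lit 78) (nat_lit 532) (nat_lit 0) (XT.lf (nat_lit 0) (nat_lit 16541898329) (nat_lit 608) (nat_lit 17027742090) (nat_lit 76) (nat_lit 1106028437) (nat_lit 249) (nat_lit 5) (nat_lit 257) (nat_lit 5) (nat_lit 250) (nat_lit 5) (nat_lit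 657) (nat_lit 593) (nat_lit 310)) (XT.lf (nat_lit 0) (nat_lit 3440363874) (nat_lit 532) (nat_lit 19894841109) (nat_lit 608) (nat_lit 11750901607) (nat_lit 242) (nat_lit 5) (nat_lit 249) (nat_lit 5) (nat_lit 250) (nat_lit 5) (nat_lit 658) (nat_lit 593) (nat_lit 309)))))) (XT.nd (nat_lit 624) (nat_lit 2204) (nat_lit 0) (XT.nd (nat_lit 312) (nat_lit 988) (nat_lit 0) (XT.nd (nat_lit 156) (nat_lit 532) (nat_lit 0) (XT.nd (nat_lit 78) (nat_lit 532) (nat_lit 0) (XT.lf (nat_lit 0) (nat_lit 24545758721) (nat_lit 532) (nat_lit 5830764671) (nat_lit 608) (nat_lit 5125986818) (nat_lit 242) (nat_lit 5) (nat_lit 249) (nat_lit 5) (nat_lit 250) (nat_lit 5) (nat_lit 659) (nat_lit 593) (nat_lit 308)) (XT.lf (nat_lit 0) (nat_lit 1730388723) (nat_lit 532) (nat_lit 25714303934) (nat_lit 76) (nat_lit 8479930265) (nat_lit 235) (nat_lit 5) (nat_lit 242) (nat_lit 5) (nat_lit 236) (nat_lit 5) (nat_lit 660) (nat_lit 593) (nat_lit 307))) (XT.nd (nat_lit 78) (nat_lit 532) (nat_lit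 0) (XT.lf (nat_lit 0) (nat_lit 8765871621) (nat_lit 532) (nat_lit 4480380600) (nat_lit 76) (nat_lit 23106035716) (nat_lit 235) (nat_lit 5) (nat_lit 242) (nat_lit 5) (nat_lit 236) (nat_lit 5) (nat_lit 661) (nat_lit 593) (nat_lit 306)) (XT.lf (nat_lit 0) (nat_lit 16061795875) (nat_lit 608) (nat_lit 19391404108) (nat_lit 76) (nat_lit 1332911676) (nat_lit 228) (nat_lit 5) (nat_lit 236) (nat_lit 5) (nat_lit 229) (nat_lit 5) (nat_lit 662) (nat_lit 593) (nat_lit 305)))) (XT.nd (nat_lit 156) (nat_lit 532) (nat_lit 0) (XT.nd (nat_lit 78) (nat_lit 0) (nat_lit 0) (XT.lf (nat_lit 0) (nat_lit 2481808677) (nat_lit 456) (nat_lit 21153914866) (nat_lit 532) (nat_lit 13590246655) (nat_lit 222) (nat_lit 5) (nat_lit 228) (nat_lit 5) (nat_lit 229) (nat_lit 5) (nat_lit 663) (nat_lit 593) (nat_lit 304)) (XT.lf (nat_lit 0) (nat_lit 25052522255) (nat_lit 456) (nat_lit 6436738314) (nat_lit 532) (nat_lit 6182802760) (nat_lit 222) (nat_lit 5) (nat_lit 228) (nat_lit 5) (nat_lit 229)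 (nat_lit 5) (nat_lit 664) (nat_lit 593) (nat_lit 303))) (XT.nd (nat_lit 78) (nat_lit 0) (nat_lit 0) (XT.lf (nat_lit 0) (nat_lit 1474343365) (nat_lit 532) (nat_lit 28113880713) (nat_lit 76) (nat_lit 8536284867) (nat_lit 215) (nat_lit 5) (nat_lit 222) (nat_lit 5) (nat_lit 216) (nat_lit 5) (nat_lit 665) (nat_lit 593) (nat_lit 302)) (XT.lf (nat_lit 0) (nat_lit 9327839756) (nat_lit 532) (nat_lit 5406786916) (nat_lit 76) (nat_lit 23848039569) (nat_lit 215) (nat_lit 5) (nat_lit 222) (nat_lit 5) (nat_lit 216) (nat_lit 5) (nat_lit 666) (nat_lit 593) (nat_lit 301))))) (XT.nd (nat_lit 312) (nat_lit 836) (nat_lit 0) (XT.nd (nat_lit 156) (nat_lit 456) (nat_lit 0) (XT.nd (nat_lit 78) (nat_lit 456) (nat_lit 0) (XT.lf (nat_lit 0) (nat_lit 17456746818) (nat_lit 532) (nat_lit 21063549341) (nat_lit 76) (nat_lit 527323748) (nat_lit 209) (nat_lit 5) (nat_lit 216) (nat_lit 5) (nat_lit 210) (nat_lit 5) (nat_lit 667) (nat_lit 593) (nat_lit 300)) (XT.lf (nat_lit 0) (nat_lit 2324793378)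 (nat_lit 456) (nat_lit 23570734135) (nat_lit 532) (nat_lit 13623399256) (nat_lit 203) (nat_lit 5) (nat_lit 209) (nat_lit 5) (nat_lit 210) (nat_lit 5) (nat_lit 668) (nat_lit 593) (nat_lit 299))) (XT.nd (nat_lit 78) (nat_lit 456) (nat_lit 0) (XT.lf (nat_lit 0) (nat_lit 26463678360) (nat_lit 456) (nat_lit 8178870837) (nat_lit 532) (nat_lit 5354321300) (nat_lit 203) (nat_lit 5) (nat_lit 209) (nat_lit 5) (nat_lit 210) (nat_lit 5) (nat_lit 669) (nat_lit 593) (nat_lit 298)) (XT.lf (nat_lit 0) (nat_lit 3156895891) (nat_lit 456) (nat_lit 29813204763) (nat_lit 76) (nat_lit 7511529428) (nat_lit 197) (nat_lit 5) (nat_lit 203) (nat_lit 5) (nat_lit 198) (nat_lit 5) (nat_lit 670) (nat_lit 593) (nat_lit 297)))) (XT.nd (nat_lit 156) (nat_lit 380) (nat_lit 0) (XT.nd (nat_lit 78) (nat_lit 456) (nat_lit 0) (XT.lf (nat_lit 0) (nat_lit 11910446880) (nat_lit 456) (nat_lit 5529703416) (nat_lit 76) (nat_lit 23532350678) (nat_lit 197) (nat_lit 5) (nat_lit 203) (nat_lit 5) (nat_lit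 198) (nat_lit 5) (nat_lit 671) (nat_lit 593) (nat_lit 296)) (XT.lf (nat_lit 0) (nat_lit 19492437579) (nat_lit 456) (nat_lit 1471381130) (nat_lit 532) (nat_lit 20506875609) (nat_lit 191) (nat_lit 5) (nat_lit 197) (nat_lit 5) (nat_lit 198) (nat_lit 5) (nat_lit 672) (nat_lit 593) (nat_lit 295))) (XT.nd (nat_lit 78) (nat_lit 0) (nat_lit 0) (XT.lf (nat_lit 0) (nat_lit 3052770455) (nat_lit 380) (nat_lit 27297065873) (nat_lit 456) (nat_lit 11625983667) (nat_lit 186) (nat_lit 5) (nat_lit 191) (nat_lit 5) (nat_lit 192) (nat_lit 5) (nat_lit 673) (nat_lit 593) (nat_lit 294)) (XT.lf (nat_lit 0) (nat_lit 28869793431) (nat_lit 380) (nat_lit 11209169056) (nat_lit 456) (nat_lit 2408977964) (nat_lit 186) (nat_lit 5) (nat_lit 191) (nat_lit 5) (nat_lit 192) (nat_lit 5) (nat_lit 674) (nat_lit 593) (nat_lit 293))))))))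
noncomputable def xc198 : XT := (XT.nd (nat_lit 76362) (nat_lit 0) (nat_lit 13300) (XT.nd (nat_lit 75114) (nat_lit 0) (nat_lit 25460) (XT.nd (nat_lit 546) (nat_lit 1140) (nat_lit 0) (XT.nd (nat_lit 234) (nat_lit 836) (nat_lit 0) (XT.nd (nat_lit 78) (nat_lit 380) (nat_lit 0) (XT.lf (nat_lit 0) (nat_lit 7013396457) (nat_lit 456) (nat_lit 30736211896) (nat_lit 76) (nat_lit 5257532317) (nat_lit 180) (nat_lit 5) (nat_lit 186) (nat_lit 5) (nat_lit 181) (nat_lit 5) (nat_lit 675) (nat_lit 593) (nat_lit 292)) (XT.nd (nat_lit 78) (nat_lit 380) (nat_lit 0) (XT.lf (nat_lit 0) (nat_lit 16756472589) (nat_lit 456) (nat_lit 4765959780) (nat_lit 76) (nat_lit 22010683878) (nat_lit 180) (nat_lit 5) (nat_lit 186) (nat_lit 5) (nat_lit 181) (nat_lit 5) (nat_lit 676) (nat_lit 593) (nat_lit 291)) (XT.lf (nat_lit 0) (nat_lit 22009756710) (nat_lit 380) (nat_lit 4825846889) (nat_lit 456) (nat_lit 17231183897) (nat_lit 175) (nat_lit 5) (nat_lit 180) (nat_lit 5) (nat_lit 181) (nat_lit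 5) (nat_lit 677) (nat_lit 593) (nat_lit 290)))) (XT.nd (nat_lit 156) (nat_lit 380) (nat_lit 0) (XT.nd (nat_lit 78) (nat_lit 76) (nat_lit 0) (XT.lf (nat_lit 0) (nat_lit 4755400631) (nat_lit 380) (nat_lit 32501528859) (nat_lit 456) (nat_lit 7351390463) (nat_lit 170) (nat_lit 5) (nat_lit 175) (nat_lit 5) (nat_lit 176) (nat_lit 5) (nat_lit 678) (nat_lit 593) (nat_lit 289)) (XT.lf (nat_lit 0) (nat_lit 2869508237) (nat_lit 456) (nat_lit 12807910558) (nat_lit 76) (nat_lit 29479325083) (nat_lit 169) (nat_lit 5) (nat_lit 175) (nat_lit 5) (nat_lit 170) (nat_lit 5) (nat_lit 679) (nat_lit 593) (nat_lit 288))) (XT.nd (nat_lit 78) (nat_lit 0) (nat_lit 0) (XT.lf (nat_lit 0) (nat_lit 13302296976) (nat_lit 456) (nat_lit 30801389086) (nat_lit 76) (nat_lit 1609360250) (nat_lit 164) (nat_lit 5) (nat_lit 170) (nat_lit 5) (nat_lit 165) (nat_lit 5) (nat_lit 680) (nat_lit 593) (nat_lit 287)) (XT.lf (nat_lit 0) (nat_lit 24132433332) (nat_lit 456) (nat_lit 3026495637) (nat_lit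 76) (nat_lit 19117772013) (nat_lit 164) (nat_lit 5) (nat_lit 170) (nat_lit 5) (nat_lit 165) (nat_lit 5) (nat_lit 681) (nat_lit 593) (nat_lit 286))))) (XT.nd (nat_lit 312) (nat_lit 0) (nat_lit 0) (XT.nd (nat_lit 156) (nat_lit 456) (nat_lit 0) (XT.nd (nat_lit 78) (nat_lit 304) (nat_lit 0) (XT.lf (nat_lit 0) (nat_lit 25637610486) (nat_lit 380) (nat_lit 9706401503) (nat_lit 456) (nat_lit 11504319991) (nat_lit 159) (nat_lit 5) (nat_lit 164) (nat_lit 5) (nat_lit 165) (nat_lit 5) (nat_lit 682) (nat_lit 593) (nat_lit 285)) (XT.lf (nat_lit 0) (nat_lit 7528542103) (nat_lit 304) (nat_lit 39371556242) (nat_lit 380) (nat_lit 528891756) (nat_lit 155) (nat_lit 5) (nat_lit 159) (nat_lit 5) (nat_lit 160) (nat_lit 5) (nat_lit 683) (nat_lit 593) (nat_lit 284))) (XT.nd (nat_lit 78) (nat_lit 380) (nat_lit 0) (XT.lf (nat_lit 0) (nat_lit 10732113759) (nat_lit 380) (nat_lit 11025322484) (nat_lit 76) (nat_lit 26258321028) (nat_lit 154) (nat_lit 5) (nat_lit 159) (nat_lit 5) (nat_lit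 155) (nat_lit 5) (nat_lit 684) (nat_lit 593) (nat_lit 283)) (XT.lf (nat_lit 0) (nat_lit 18666121082) (nat_lit 380) (nat_lit 3664764615) (nat_lit 456) (nat_lit 26280911626) (nat_lit 149) (nat_lit 5) (nat_lit 154) (nat_lit 5) (nat_lit 155) (nat_lit 5) (nat_lit 685) (nat_lit 593) (nat_lit 282)))) (XT.nd (nat_lit 74100) (nat_lit 0) (nat_lit 27132) (XT.nd (nat_lit 74022) (nat_lit 0) (nat_lit 27132) (XT.lf (nat_lit 0) (nat_lit 34330571190) (nat_lit 456) (nat_lit 216448901) (nat_lit 76) (nat_lit 14669359347) (nat_lit 149) (nat_lit 5) (nat_lit 155) (nat_lit 5) (nat_lit 150) (nat_lit 5) (nat_lit 686) (nat_lit 593) (nat_lit 281)) (XT.lf (nat_lit 0) (nat_lit 3798742800) (nat_lit 0) (nat_lit 3798742800) (nat_lit 1748) (nat_lit 1262143850) (nat_lit 506) (nat_lit 5) (nat_lit 506) (nat_lit 3) (nat_lit 529) (nat_lit 3) (nat_lit 594) (nat_lit 594) (nat_lit 372))) (XT.nd (nat_lit 78) (nat_lit 0) (nat_lit 0) (XT.lf (nat_lit 0) (nat_lit 15565512685) (nat_lit 1748) (nat_lit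 1302954393) (nat_lit 1824) (nat_lit 1023605994) (nat_lit 506) (nat_lit 5) (nat_lit 529) (nat_lit 3) (nat_lit 530) (nat_lit 5) (nat_lit 595) (nat_lit 594) (nat_lit 371)) (XT.lf (nat_lit 76) (nat_lit 7740537050) (nat_lit 0) (nat_lit 8297960064) (nat_lit 1824) (nat_lit 2027945942) (nat_lit 507) (nat_lit 5) (nat_lit 506) (nat_lit 5) (nat_lit 530) (nat_lit 5) (nat_lit 596) (nat_lit 594) (nat_lit 370)))))) (XT.nd (nat_lit 624) (nat_lit 0) (nat_lit 152) (XT.nd (nat_lit 312) (nat_lit 1748) (nat_lit 0) (XT.nd (nat_lit 156) (nat_lit 0) (nat_lit 0) (XT.nd (nat_lit 78) (nat_lit 0) (nat_lit 0) (XT.lf (nat_lit 0) (nat_lit 16527192529) (nat_lit 1748) (nat_lit 1267520276) (nat_lit 1824) (nat_lit 449462778) (nat_lit 507) (nat_lit 5) (nat_lit 530) (nat_lit 5) (nat_lit 531) (nat_lit 5) (nat_lit 597) (nat_lit 594) (nat_lit 369)) (XT.lf (nat_lit 76) (nat_lit 8019298895) (nat_lit 0) (nat_lit 9108056881) (nat_lit 1824) (nat_lit 1296073273) (nat_lit 508) (nat_lit 5) (nat_lit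 507) (nat_lit 5) (nat_lit 531) (nat_lit 5) (nat_lit 598) (nat_lit 594) (nat_lit 368))) (XT.nd (nat_lit 78) (nat_lit 0) (nat_lit 76) (XT.lf (nat_lit 76) (nat_lit 17506100023) (nat_lit 0) (nat_lit 236687304) (nat_lit 1824) (nat_lit 863415119) (nat_lit 508) (nat_lit 5) (nat_lit 507) (nat_lit 5) (nat_lit 531) (nat_lit 5) (nat_lit 599) (nat_lit 594) (nat_lit 367)) (XT.lf (nat_lit 76) (nat_lit 8440494385) (nat_lit 0) (nat_lit 10036925210) (nat_lit 1824) (nat_lit 313074033) (nat_lit 509) (nat_lit 5) (nat_lit 508) (nat_lit 5) (nat_lit 532) (nat_lit 5) (nat_lit 600) (nat_lit 594) (nat_lit 366)))) (XT.nd (nat_lit 156) (nat_lit 0) (nat_lit 76) (XT.nd (nat_lit 78) (nat_lit 0) (nat_lit 76) (XT.lf (nat_lit 0) (nat_lit 248940664) (nat_lit 1824) (nat_lit 797779908) (nat_lit 1900) (nat_lit 17931639517) (nat_lit 484) (nat_lit 5) (nat_lit 508) (nat_lit 5) (nat_lit 509) (nat_lit 5) (nat_lit 601) (nat_lit 594) (nat_lit 365)) (XT.lf (nat_lit 0) (nat_lit 925007919) (nat_lit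 1824) (nat_lit 10162783876) (nat_lit 1900) (nat_lit 8080010760) (nat_lit 485) (nat_lit 5) (nat_lit 509) (nat_lit 5) (nat_lit 510) (nat_lit 5) (nat_lit 602) (nat_lit 594) (nat_lit 364))) (XT.nd (nat_lit 78) (nat_lit 0) (nat_lit 76) (XT.lf (nat_lit 0) (nat_lit 1622032144) (nat_lit 1824) (nat_lit 356282073) (nat_lit 1900) (nat_lit 17382571088) (nat_lit 485) (nat_lit 5) (nat_lit 509) (nat_lit 5) (nat_lit 510) (nat_lit 5) (nat_lit 603) (nat_lit 594) (nat_lit 363)) (XT.lf (nat_lit 0) (nat_lit 2439565169) (nat_lit 1824) (nat_lit 9833081940) (nat_lit 1900) (nat_lit 7283051379) (nat_lit 486) (nat_lit 5) (nat_lit 510) (nat_lit 5) (nat_lit 511) (nat_lit 5) (nat_lit 604) (nat_lit 594) (nat_lit 362))))) (XT.nd (nat_lit 312) (nat_lit 0) (nat_lit 152) (XT.nd (nat_lit 156) (nat_lit 0) (nat_lit 76) (XT.nd (nat_lit 78) (nat_lit 0) (nat_lit 76) (XT.lf (nat_lit 76) (nat_lit 240498726) (nat_lit 0) (nat_lit 3045315843) (nat_lit 1900) (nat_lit 16468346193) (nat_lit 487) (nat_lit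 5) (nat_lit 486) (nat_lit 5) (nat_lit 511) (nat_lit 5) (nat_lit 605) (nat_lit 594) (nat_lit 361)) (XT.lf (nat_lit 0) (nat_lit 4252125494) (nat_lit 1824) (nat_lit 9351387661) (nat_lit 1900) (nat_lit 6351016535) (nat_lit 487) (nat_lit 5) (nat_lit 511) (nat_lit 5) (nat_lit 512) (nat_lit 5) (nat_lit 606) (nat_lit 594) (nat_lit 360))) (XT.nd (nat_lit 78) (nat_lit 0) (nat_lit 76) (XT.lf (nat_lit 76) (nat_lit 1004011584) (nat_lit 0) (nat_lit 4255906485) (nat_lit 1900) (nat_lit 14898544956) (nat_lit 488) (nat_lit 5) (nat_lit 487) (nat_lit 5) (nat_lit 512) (nat_lit 5) (nat_lit 607) (nat_lit 594) (nat_lit 359)) (XT.lf (nat_lit 0) (nat_lit 6380853946) (nat_lit 1824) (nat_lit 8709827174) (nat_lit 1900) (nat_lit 5273934290) (nat_lit 488) (nat_lit 5) (nat_lit 512) (nat_lit 5) (nat_lit 513) (nat_lit 5) (nat_lit 608) (nat_lit 594) (nat_lit 358)))) (XT.nd (nat_lit 156) (nat_lit 0) (nat_lit 76) (XT.nd (nat_lit 78) (nat_lit 0) (nat_lit 76) (XT.lf (nat_lit 76) (nat_lit 1937783414)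 (nat_lit 0) (nat_lit 5622825257) (nat_lit 1900) (nat_lit 13013554299) (nat_lit 489) (nat_lit 5) (nat_lit 488) (nat_lit 5) (nat_lit 513) (nat_lit 5) (nat_lit 609) (nat_lit 594) (nat_lit 357)) (XT.lf (nat_lit 0) (nat_lit 8844694035) (nat_lit 1824) (nat_lit 7900112248) (nat_lit 1900) (nat_lit 4041480617) (nat_lit 489) (nat_lit 5) (nat_lit 513) (nat_lit 5) (nat_lit 514) (nat_lit 5) (nat_lit 610) (nat_lit 594) (nat_lit 356))) (XT.nd (nat_lit 78) (nat_lit 0) (nat_lit 76) (XT.lf (nat_lit 76) (nat_lit 3050505055) (nat_lit 0) (nat_lit 7156790407) (nat_lit 1900) (nat_lit 10794301285) (nat_lit 490) (nat_lit 5) (nat_lit 489) (nat_lit 5) (nat_lit 514) (nat_lit 5) (nat_lit 611) (nat_lit 594) (nat_lit 355)) (XT.lf (nat_lit 0) (nat_lit 11663404146) (nat_lit 1824) (nat_lit 6913525963) (nat_lit 1900) (nat_lit 2642957701) (nat_lit 490) (nat_lit 5) (nat_lit 514) (nat_lit 5) (nat_lit 515) (nat_lit 5) (nat_lit 612) (nat_lit 594) (nat_lit 354))))))) (XT.nd (nat_lit 1170) (nat_lit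 7144) (nat_lit 0) (XT.nd (nat_lit 546) (nat_lit 3800) (nat_lit 0) (XT.nd (nat_lit 234) (nat_lit 1672) (nat_lit 0) (XT.nd (nat_lit 78) (nat_lit 0) (nat_lit 76) (XT.lf (nat_lit 76) (nat_lit 4351311381) (nat_lit 0) (nat_lit 8868912427) (nat_lit 1900) (nat_lit 8220889232) (nat_lit 491) (nat_lit 5) (nat_lit 490) (nat_lit 5) (nat_lit 515) (nat_lit 5) (nat_lit 613) (nat_lit 594) (nat_lit 353)) (XT.nd (nat_lit 78) (nat_lit 0) (nat_lit 0) (XT.lf (nat_lit 0) (nat_lit 14857595280) (nat_lit 1824) (nat_lit 5740907633) (nat_lit 1900) (nat_lit 1067271670) (nat_lit 491) (nat_lit 5) (nat_lit 515) (nat_lit 5) (nat_lit 516) (nat_lit 5) (nat_lit 614) (nat_lit 594) (nat_lit 352)) (XT.lf (nat_lit 76) (nat_lit 5849796995) (nat_lit 0) (nat_lit 10770716912) (nat_lit 1900) (nat_lit 5272559572) (nat_lit 492) (nat_lit 5) (nat_lit 491) (nat_lit 5) (nat_lit 516) (nat_lit 5) (nat_lit 615) (nat_lit 594) (nat_lit 351)))) (XT.nd (nat_lit 156) (nat_lit 1748) (nat_lit 0) (XT.nd (nat_lit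 78) (nat_lit 0) (nat_lit 76) (XT.lf (nat_lit 76) (nat_lit 17747002080) (nat_lit 0) (nat_lit 706354216) (nat_lit 1900) (nat_lit 3670868863) (nat_lit 492) (nat_lit 5) (nat_lit 491) (nat_lit 5) (nat_lit 516) (nat_lit 5) (nat_lit 616) (nat_lit 594) (nat_lit 350)) (XT.lf (nat_lit 76) (nat_lit 7556032715) (nat_lit 0) (nat_lit 12874168049) (nat_lit 1900) (nat_lit 1927652315) (nat_lit 493) (nat_lit 5) (nat_lit 492) (nat_lit 5) (nat_lit 517) (nat_lit 5) (nat_lit 617) (nat_lit 594) (nat_lit 349))) (XT.nd (nat_lit 78) (nat_lit 1824) (nat_lit 0) (XT.lf (nat_lit 76) (nat_lit 19779416649) (nat_lit 0) (nat_lit 2697460942) (nat_lit 1900) (nat_lit 118670168) (nat_lit 493) (nat_lit 5) (nat_lit 492) (nat_lit 5) (nat_lit 517) (nat_lit 5) (nat_lit 618) (nat_lit 594) (nat_lit 348)) (XT.lf (nat_lit 0) (nat_lit 1812349782) (nat_lit 1900) (nat_lit 13367181176) (nat_lit 76) (nat_lit 7656071261) (nat_lit 468) (nat_lit 5) (nat_lit 493) (nat_lit 5) (nat_lit 469) (nat_lit 5) (nat_lit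 619) (nat_lit 594) (nat_lit 347))))) (XT.nd (nat_lit 312) (nat_lit 1748) (nat_lit 0) (XT.nd (nat_lit 156) (nat_lit 912) (nat_lit 0) (XT.nd (nat_lit 78) (nat_lit 1140) (nat_lit 0) (XT.lf (nat_lit 0) (nat_lit 3813668538) (nat_lit 1900) (nat_lit 1065191626) (nat_lit 76) (nat_lit 18200916671) (nat_lit 468) (nat_lit 5) (nat_lit 493) (nat_lit 5) (nat_lit 469) (nat_lit 5) (nat_lit 620) (nat_lit 594) (nat_lit 346)) (XT.lf (nat_lit 0) (nat_lit 5964030811) (nat_lit 1216) (nat_lit 11732153082) (nat_lit 76) (nat_lit 5630470807) (nat_lit 453) (nat_lit 5) (nat_lit 469) (nat_lit 5) (nat_lit 454) (nat_lit 5) (nat_lit 621) (nat_lit 594) (nat_lit 345))) (XT.nd (nat_lit 78) (nat_lit 0) (nat_lit 0) (XT.lf (nat_lit 0) (nat_lit 920044932) (nat_lit 912) (nat_lit 7279336855) (nat_lit 988) (nat_lit 15378248808) (nat_lit 441) (nat_lit 5) (nat_lit 453) (nat_lit 5) (nat_lit 454) (nat_lit 5) (nat_lit 622) (nat_lit 594) (nat_lit 344)) (XT.lf (nat_lit 0) (nat_lit 10576965953) (nat_lit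 988) (nat_lit 9873191667) (nat_lit 76) (nat_lit 3381517960) (nat_lit 441) (nat_lit 5) (nat_lit 454) (nat_lit 5) (nat_lit 442) (nat_lit 5) (nat_lit 623) (nat_lit 594) (nat_lit 343)))) (XT.nd (nat_lit 156) (nat_lit 836) (nat_lit 0) (XT.nd (nat_lit 78) (nat_lit 0) (nat_lit 0) (XT.lf (nat_lit 0) (nat_lit 3156934755) (nat_lit 912) (nat_lit 9910491497) (nat_lit 988) (nat_lit 11022068819) (nat_lit 429) (nat_lit 5) (nat_lit 441) (nat_lit 5) (nat_lit 442) (nat_lit 5) (nat_lit 624) (nat_lit 594) (nat_lit 342)) (XT.lf (nat_lit 0) (nat_lit 15676509741) (nat_lit 988) (nat_lit 7778739898) (nat_lit 76) (nat_lit 895845127) (nat_lit 429) (nat_lit 5) (nat_lit 442) (nat_lit 5) (nat_lit 430) (nat_lit 5) (nat_lit 625) (nat_lit 594) (nat_lit 341))) (XT.nd (nat_lit 78) (nat_lit 0) (nat_lit 0) (XT.lf (nat_lit 0) (nat_lit 5643402448) (nat_lit 836) (nat_lit 12793378176) (nat_lit 912) (nat_lit 6179165808) (nat_lit 418) (nat_lit 5) (nat_lit 429) (nat_lit 5) (nat_lit 430) (nat_lit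 5) (nat_lit 626) (nat_lit 594) (nat_lit 340)) (XT.lf (nat_lit 0) (nat_lit 19436314819) (nat_lit 836) (nat_lit 1864918002) (nat_lit 912) (nat_lit 3583882882) (nat_lit 418) (nat_lit 5) (nat_lit 429) (nat_lit 5) (nat_lit 430) (nat_lit 5) (nat_lit 627) (nat_lit 594) (nat_lit 339)))))) (XT.nd (nat_lit 624) (nat_lit 2964) (nat_lit 0) (XT.nd (nat_lit 312) (nat_lit 2356) (nat_lit 0) (XT.nd (nat_lit 156) (nat_lit 836) (nat_lit 0) (XT.nd (nat_lit 78) (nat_lit 76) (nat_lit 0) (XT.lf (nat_lit 0) (nat_lit 8392096730) (nat_lit 912) (nat_lit 15942470363) (nat_lit 988) (nat_lit 822869494) (nat_lit 406) (nat_lit 5) (nat_lit 418) (nat_lit 5) (nat_lit 419) (nat_lit 5) (nat_lit 628) (nat_lit 594) (nat_lit 338)) (XT.lf (nat_lit 0) (nat_lit 2013239207) (nat_lit 988) (nat_lit 2879475071) (nat_lit 76) (nat_lit 20541310483) (nat_lit 405) (nat_lit 5) (nat_lit 418) (nat_lit 5) (nat_lit 406) (nat_lit 5) (nat_lit 629) (nat_lit 594) (nat_lit 337))) (XT.nd (nat_lit 78) (nat_lit 0) (nat_lit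 0) (XT.lf (nat_lit 0) (nat_lit 5008104393) (nat_lit 912) (nat_lit 14331125734) (nat_lit 76) (nat_lit 6374544821) (nat_lit 394) (nat_lit 5) (nat_lit 406) (nat_lit 5) (nat_lit 395) (nat_lit 5) (nat_lit 630) (nat_lit 594) (nat_lit 336)) (XT.lf (nat_lit 0) (nat_lit 8111683058) (nat_lit 912) (nat_lit 65334410) (nat_lit 76) (nat_lit 17821126428) (nat_lit 394) (nat_lit 5) (nat_lit 406) (nat_lit 5) (nat_lit 395) (nat_lit 5) (nat_lit 631) (nat_lit 594) (nat_lit 335)))) (XT.nd (nat_lit 156) (nat_lit 760) (nat_lit 0) (XT.nd (nat_lit 78) (nat_lit 760) (nat_lit 0) (XT.lf (nat_lit 0) (nat_lit 11391098989) (nat_lit 912) (nat_lit 11632633180) (nat_lit 76) (nat_lit 3262192820) (nat_lit 383) (nat_lit 5) (nat_lit 395) (nat_lit 5) (nat_lit 384) (nat_lit 5) (nat_lit 632) (nat_lit 594) (nat_lit 334)) (XT.lf (nat_lit 0) (nat_lit 3070745639) (nat_lit 760) (nat_lit 11736949571) (nat_lit 836) (nat_lit 11770334733) (nat_lit 373) (nat_lit 5) (nat_lit 383) (nat_lit 5) (nat_lit 384)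 (nat_lit 5) (nat_lit 633) (nat_lit 594) (nat_lit 333))) (XT.nd (nat_lit 78) (nat_lit 760) (nat_lit 0) (XT.lf (nat_lit 0) (nat_lit 18222800156) (nat_lit 760) (nat_lit 144982843) (nat_lit 836) (nat_lit 8506690881) (nat_lit 373) (nat_lit 5) (nat_lit 383) (nat_lit 5) (nat_lit 384) (nat_lit 5) (nat_lit 634) (nat_lit 594) (nat_lit 332)) (XT.lf (nat_lit 0) (nat_lit 6507498571) (nat_lit 760) (nat_lit 15606805972) (nat_lit 836) (nat_lit 5060237587) (nat_lit 363) (nat_lit 5) (nat_lit 373) (nat_lit 5) (nat_lit 374) (nat_lit 5) (nat_lit 635) (nat_lit 594) (nat_lit 331))))) (XT.nd (nat_lit 312) (nat_lit 1368) (nat_lit 0) (XT.nd (nat_lit 156) (nat_lit 760) (nat_lit 0) (XT.nd (nat_lit 78) (nat_lit 836) (nat_lit 0) (XT.lf (nat_lit 0) (nat_lit 22083106476) (nat_lit 760) (nat_lit 3908851487) (nat_lit 836) (nat_lit 1487529827) (nat_lit 363) (nat_lit 5) (nat_lit 373) (nat_lit 5) (nat_lit 374) (nat_lit 5) (nat_lit 636) (nat_lit 594) (nat_lit 330)) (XT.lf (nat_lit 0) (nat_lit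 2245059102) (nat_lit 836) (nat_lit 17543874950) (nat_lit 76) (nat_lit 7998984104) (nat_lit 352) (nat_lit 5) (nat_lit 363) (nat_lit 5) (nat_lit 353) (nat_lit 5) (nat_lit 637) (nat_lit 594) (nat_lit 329))) (XT.nd (nat_lit 78) (nat_lit 760) (nat_lit 0) (XT.lf (nat_lit 0) (nat_lit 6091999410) (nat_lit 836) (nat_lit 1870405637) (nat_lit 76) (nat_lit 20138723147) (nat_lit 352) (nat_lit 5) (nat_lit 363) (nat_lit 5) (nat_lit 353) (nat_lit 5) (nat_lit 638) (nat_lit 594) (nat_lit 328)) (XT.lf (nat_lit 0) (nat_lit 10133281667) (nat_lit 836) (nat_lit 14144942634) (nat_lit 76) (nat_lit 4140030139) (nat_lit 342) (nat_lit 5) (nat_lit 353) (nat_lit 5) (nat_lit 343) (nat_lit 5) (nat_lit 639) (nat_lit 594) (nat_lit 327)))) (XT.nd (nat_lit 156) (nat_lit 684) (nat_lit 0) (XT.nd (nat_lit 78) (nat_lit 0) (nat_lit 0) (XT.lf (nat_lit 0) (nat_lit 1994091715) (nat_lit 684) (nat_lit 12336955605) (nat_lit 760) (nat_lit 14409162801) (nat_lit 333) (nat_lit 5) (nat_lit 342) (nat_lit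 5) (nat_lit 343) (nat_lit 5) (nat_lit 640) (nat_lit 594) (nat_lit 326)) (XT.lf (nat_lit 0) (nat_lit 18644632984) (nat_lit 684) (nat_lit 60432908) (nat_lit 760) (nat_lit 10361693137) (nat_lit 333) (nat_lit 5) (nat_lit 342) (nat_lit 5) (nat_lit 343) (nat_lit 5) (nat_lit 641) (nat_lit 594) (nat_lit 325))) (XT.nd (nat_lit 78) (nat_lit 0) (nat_lit 0) (XT.lf (nat_lit 0) (nat_lit 6226091238) (nat_lit 684) (nat_lit 17059233153) (nat_lit 760) (nat_lit 6112139398) (nat_lit 324) (nat_lit 5) (nat_lit 333) (nat_lit 5) (nat_lit 334) (nat_lit 5) (nat_lit 642) (nat_lit 594) (nat_lit 324)) (XT.lf (nat_lit 0) (nat_lit 23345159617) (nat_lit 684) (nat_lit 4679821610) (nat_lit 760) (nat_lit 1708445616) (nat_lit 324) (nat_lit 5) (nat_lit 333) (nat_lit 5) (nat_lit 334) (nat_lit 5) (nat_lit 643) (nat_lit 594) (nat_lit 323))))))))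
noncomputable def xc199 : XT := (XT.nd (nat_lit 2418) (nat_lit 2812) (nat_lit 0) (XT.nd (nat_lit 1170) (nat_lit 4788) (nat_lit 0) (XT.nd (nat_lit 546) (nat_lit 2964) (nat_lit 0) (XT.nd (nat_lit 234) (nat_lit 1292) (nat_lit 0) (XT.nd (nat_lit 78) (nat_lit 684) (nat_lit 0) (XT.lf (nat_lit 0) (nat_lit 2866947958) (nat_lit 760) (nat_lit 19274775587) (nat_lit 76) (nat_lit 7931621657) (nat_lit 314) (nat_lit 5) (nat_lit 324) (nat_lit 5) (nat_lit 315) (nat_lit 5) (nat_lit 644) (nat_lit 594) (nat_lit 322)) (XT.nd (nat_lit 78) (nat_lit 684) (nat_lit 0) (XT.lf (nat_lit 0) (nat_lit 7582657491) (nat_lit 760) (nat_lit 2049041526) (nat_lit 76) (nat_lit 20786703430) (nat_lit 314) (nat_lit 5) (nat_lit 324) (nat_lit 5) (nat_lit 315) (nat_lit 5) (nat_lit 645) (nat_lit 594) (nat_lit 321)) (XT.lf (nat_lit 0) (nat_lit 12513327280) (nat_lit 760) (nat_lit 15064842048) (nat_lit 76) (nat_lit 3189778646) (nat_lit 305) (nat_lit 5) (nat_lit 315) (nat_lit 5) (nat_lit 306) (nat_lit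 5) (nat_lit 646) (nat_lit 594) (nat_lit 320)))) (XT.nd (nat_lit 156) (nat_lit 684) (nat_lit 0) (XT.nd (nat_lit 78) (nat_lit 0) (nat_lit 0) (XT.lf (nat_lit 0) (nat_lit 2682211129) (nat_lit 608) (nat_lit 14953033624) (nat_lit 684) (nat_lit 13487387029) (nat_lit 297) (nat_lit 5) (nat_lit 305) (nat_lit 5) (nat_lit 306) (nat_lit 5) (nat_lit 647) (nat_lit 594) (nat_lit 319)) (XT.lf (nat_lit 0) (nat_lit 20985481068) (nat_lit 608) (nat_lit 1972833001) (nat_lit 684) (nat_lit 8524120984) (nat_lit 297) (nat_lit 5) (nat_lit 305) (nat_lit 5) (nat_lit 306) (nat_lit 5) (nat_lit 648) (nat_lit 594) (nat_lit 318))) (XT.nd (nat_lit 78) (nat_lit 76) (nat_lit 0) (XT.lf (nat_lit 0) (nat_lit 7832029942) (nat_lit 608) (nat_lit 20677481830) (nat_lit 684) (nat_lit 3337489332) (nat_lit 289) (nat_lit 5) (nat_lit 297) (nat_lit 5) (nat_lit 298) (nat_lit 5) (nat_lit 649) (nat_lit 594) (nat_lit 317)) (XT.lf (nat_lit 0) (nat_lit 2008909598) (nat_lit 684) (nat_lit 5576707775) (nat_lit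 76) (nat_lit 24631354629) (nat_lit 288) (nat_lit 5) (nat_lit 297) (nat_lit 5) (nat_lit 289) (nat_lit 5) (nat_lit 650) (nat_lit 594) (nat_lit 316))))) (XT.nd (nat_lit 312) (nat_lit 1216) (nat_lit 0) (XT.nd (nat_lit 156) (nat_lit 1140) (nat_lit 0) (XT.nd (nat_lit 78) (nat_lit 0) (nat_lit 0) (XT.lf (nat_lit 0) (nat_lit 7540355518) (nat_lit 684) (nat_lit 19249538264) (nat_lit 76) (nat_lit 5801551213) (nat_lit 280) (nat_lit 5) (nat_lit 289) (nat_lit 5) (nat_lit 281) (nat_lit 5) (nat_lit 651) (nat_lit 594) (nat_lit 315)) (XT.lf (nat_lit 0) (nat_lit 13268079816) (nat_lit 684) (nat_lit 311549958) (nat_lit 76) (nat_lit 19392064734) (nat_lit 280) (nat_lit 5) (nat_lit 289) (nat_lit 5) (nat_lit 281) (nat_lit 5) (nat_lit 652) (nat_lit 594) (nat_lit 314))) (XT.nd (nat_lit 78) (nat_lit 532) (nat_lit 0) (XT.lf (nat_lit 0) (nat_lit 19233302575) (nat_lit 684) (nat_lit 14102342379) (nat_lit 76) (nat_lit 21445227) (nat_lit 272) (nat_lit 5) (nat_lit 281) (nat_lit 5) (nat_lit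 273) (nat_lit 5) (nat_lit 653) (nat_lit 594) (nat_lit 313)) (XT.lf (nat_lit 0) (nat_lit 5445051568) (nat_lit 532) (nat_lit 19997975281) (nat_lit 608) (nat_lit 8304663027) (nat_lit 265) (nat_lit 5) (nat_lit 272) (nat_lit 5) (nat_lit 273) (nat_lit 5) (nat_lit 654) (nat_lit 594) (nat_lit 312)))) (XT.nd (nat_lit 156) (nat_lit 532) (nat_lit 0) (XT.nd (nat_lit 78) (nat_lit 684) (nat_lit 0) (XT.lf (nat_lit 0) (nat_lit 25571714365) (nat_lit 532) (nat_lit 6297698258) (nat_lit 608) (nat_lit 2274839648) (nat_lit 265) (nat_lit 5) (nat_lit 272) (nat_lit 5) (nat_lit 273) (nat_lit 5) (nat_lit 655) (nat_lit 594) (nat_lit 311)) (XT.lf (nat_lit 0) (nat_lit 3948935392) (nat_lit 684) (nat_lit 22919935685) (nat_lit 76) (nat_lit 7676887945) (nat_lit 256) (nat_lit 5) (nat_lit 265) (nat_lit 5) (nat_lit 257) (nat_lit 5) (nat_lit 656) (nat_lit 594) (nat_lit 310))) (XT.nd (nat_lit 78) (nat_lit 532) (nat_lit 0) (XT.lf (nat_lit 0) (nat_lit 10364248759) (nat_lit 684) (nat_lit 2669775514)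 (nat_lit 76) (nat_lit 21919020486) (nat_lit 256) (nat_lit 5) (nat_lit 265) (nat_lit 5) (nat_lit 257) (nat_lit 5) (nat_lit 657) (nat_lit 594) (nat_lit 309)) (XT.lf (nat_lit 0) (nat_lit 17031872159) (nat_lit 608) (nat_lit 17152335971) (nat_lit 76) (nat_lit 1181788050) (nat_lit 249) (nat_lit 5) (nat_lit 257) (nat_lit 5) (nat_lit 250) (nat_lit 5) (nat_lit 658) (nat_lit 594) (nat_lit 308)))))) (XT.nd (nat_lit 624) (nat_lit 2204) (nat_lit 0) (XT.nd (nat_lit 312) (nat_lit 1520) (nat_lit 0) (XT.nd (nat_lit 156) (nat_lit 532) (nat_lit 0) (XT.nd (nat_lit 78) (nat_lit 0) (nat_lit 0) (XT.lf (nat_lit 0) (nat_lit 3723711317) (nat_lit 532) (nat_lit 20235606256) (nat_lit 608) (nat_lit 11825359709) (nat_lit 242) (nat_lit 5) (nat_lit 249) (nat_lit 5) (nat_lit 250) (nat_lit 5) (nat_lit 659) (nat_lit 594) (nat_lit 307)) (XT.lf (nat_lit 0) (nat_lit 25247007391) (nat_lit 532) (nat_lit 5891368519) (nat_lit 608) (nat_lit 5071094858) (nat_lit 242) (nat_lit 5) (nat_lit 249) (nat_lit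 5) (nat_lit 250) (nat_lit 5) (nat_lit 660) (nat_lit 594) (nat_lit 306))) (XT.nd (nat_lit 78) (nat_lit 0) (nat_lit 0) (XT.lf (nat_lit 0) (nat_lit 1919039904) (nat_lit 532) (nat_lit 26014882003) (nat_lit 76) (nat_lit 8706109523) (nat_lit 235) (nat_lit 5) (nat_lit 242) (nat_lit 5) (nat_lit 236) (nat_lit 5) (nat_lit 661) (nat_lit 594) (nat_lit 305)) (XT.lf (nat_lit 0) (nat_lit 9092212001) (nat_lit 532) (nat_lit 4360470556) (nat_lit 76) (nat_lit 23623627658) (nat_lit 235) (nat_lit 5) (nat_lit 242) (nat_lit 5) (nat_lit 236) (nat_lit 5) (nat_lit 662) (nat_lit 594) (nat_lit 304)))) (XT.nd (nat_lit 156) (nat_lit 532) (nat_lit 0) (XT.nd (nat_lit 78) (nat_lit 456) (nat_lit 0) (XT.lf (nat_lit 0) (nat_lit 16532826174) (nat_lit 608) (nat_lit 19568483004) (nat_lit 76) (nat_lit 1417525865) (nat_lit 228) (nat_lit 5) (nat_lit 236) (nat_lit 5) (nat_lit 229) (nat_lit 5) (nat_lit 663) (nat_lit 594) (nat_lit 303)) (XT.lf (nat_lit 0) (nat_lit 2740807528) (nat_lit 456) (nat_lit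 21515847043) (nat_lit 532) (nat_lit 13710867795) (nat_lit 222) (nat_lit 5) (nat_lit 228) (nat_lit 5) (nat_lit 229) (nat_lit 5) (nat_lit 664) (nat_lit 594) (nat_lit 302))) (XT.nd (nat_lit 78) (nat_lit 532) (nat_lit 0) (XT.lf (nat_lit 0) (nat_lit 25758830227) (nat_lit 456) (nat_lit 6505525904) (nat_lit 532) (nat_lit 6158239410) (nat_lit 222) (nat_lit 5) (nat_lit 228) (nat_lit 5) (nat_lit 229) (nat_lit 5) (nat_lit 665) (nat_lit 594) (nat_lit 301)) (XT.lf (nat_lit 0) (nat_lit 1648970707) (nat_lit 532) (nat_lit 28467816342) (nat_lit 76) (nat_lit 8767306529) (nat_lit 215) (nat_lit 5) (nat_lit 222) (nat_lit 5) (nat_lit 216) (nat_lit 5) (nat_lit 666) (nat_lit 594) (nat_lit 300))))) (XT.nd (nat_lit 312) (nat_lit 1292) (nat_lit 0) (XT.nd (nat_lit 156) (nat_lit 456) (nat_lit 0) (XT.nd (nat_lit 78) (nat_lit 456) (nat_lit 0) (XT.lf (nat_lit 0) (nat_lit 9656691135) (nat_lit 532) (nat_lit 5310665806) (nat_lit 76) (nat_lit 24384114052) (nat_lit 215) (nat_lit 5) (nat_lit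 222) (nat_lit 5) (nat_lit 216) (nat_lit 5) (nat_lit 667) (nat_lit 594) (nat_lit 299)) (XT.lf (nat_lit 0) (nat_lit 17947106830) (nat_lit 532) (nat_lit 21279491342) (nat_lit 76) (nat_lit 599147001) (nat_lit 209) (nat_lit 5) (nat_lit 216) (nat_lit 5) (nat_lit 210) (nat_lit 5) (nat_lit 668) (nat_lit 594) (nat_lit 298))) (XT.nd (nat_lit 78) (nat_lit 0) (nat_lit 0) (XT.lf (nat_lit 0) (nat_lit 2575267383) (nat_lit 456) (nat_lit 23977950999) (nat_lit 532) (nat_lit 13753288738) (nat_lit 203) (nat_lit 5) (nat_lit 209) (nat_lit 5) (nat_lit 210) (nat_lit 5) (nat_lit 669) (nat_lit 594) (nat_lit 297)) (XT.lf (nat_lit 0) (nat_lit 27192930494) (nat_lit 456) (nat_lit 8279509215) (nat_lit 532) (nat_lit 5321624880) (nat_lit 203) (nat_lit 5) (nat_lit 209) (nat_lit 5) (nat_lit 210) (nat_lit 5) (nat_lit 670) (nat_lit 594) (nat_lit 296)))) (XT.nd (nat_lit 156) (nat_lit 836) (nat_lit 0) (XT.nd (nat_lit 78) (nat_lit 0) (nat_lit 0) (XT.lf (nat_lit 0) (nat_lit 3356995319) (nat_lit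 456) (nat_lit 30206664048) (nat_lit 76) (nat_lit 7724861657) (nat_lit 197) (nat_lit 5) (nat_lit 203) (nat_lit 5) (nat_lit 198) (nat_lit 5) (nat_lit 671) (nat_lit 594) (nat_lit 295)) (XT.lf (nat_lit 0) (nat_lit 12282931808) (nat_lit 456) (nat_lit 5441469238) (nat_lit 76) (nat_lit 24064862045) (nat_lit 197) (nat_lit 5) (nat_lit 203) (nat_lit 5) (nat_lit 198) (nat_lit 5) (nat_lit 672) (nat_lit 594) (nat_lit 294))) (XT.nd (nat_lit 78) (nat_lit 380) (nat_lit 0) (XT.lf (nat_lit 0) (nat_lit 20079806496) (nat_lit 456) (nat_lit 1436214147) (nat_lit 532) (nat_lit 20781426715) (nat_lit 191) (nat_lit 5) (nat_lit 197) (nat_lit 5) (nat_lit 198) (nat_lit 5) (nat_lit 673) (nat_lit 594) (nat_lit 293)) (XT.lf (nat_lit 0) (nat_lit 3312273264) (nat_lit 380) (nat_lit 27776578586) (nat_lit 456) (nat_lit 11723841878) (nat_lit 186) (nat_lit 5) (nat_lit 191) (nat_lit 5) (nat_lit 192) (nat_lit 5) (nat_lit 674) (nat_lit 594) (nat_lit 292))))))) (XT.nd (nat_lit 75192) (nat_lit 0)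 (nat_lit 25460) (XT.nd (nat_lit 546) (nat_lit 1140) (nat_lit 0) (XT.nd (nat_lit 234) (nat_lit 1216) (nat_lit 0) (XT.nd (nat_lit 78) (nat_lit 456) (nat_lit 0) (XT.lf (nat_lit 0) (nat_lit 29641745574) (nat_lit 380) (nat_lit 11368226355) (nat_lit 456) (nat_lit 2325136482) (nat_lit 186) (nat_lit 5) (nat_lit 191) (nat_lit 5) (nat_lit 192) (nat_lit 5) (nat_lit 675) (nat_lit 594) (nat_lit 291)) (XT.nd (nat_lit 78) (nat_lit 0) (nat_lit 0) (XT.lf (nat_lit 0) (nat_lit 7283093810) (nat_lit 456) (nat_lit 31153783884) (nat_lit 76) (nat_lit 5427815043) (nat_lit 180) (nat_lit 5) (nat_lit 186) (nat_lit 5) (nat_lit 181) (nat_lit 5) (nat_lit 676) (nat_lit 594) (nat_lit 290)) (XT.lf (nat_lit 0) (nat_lit 17218493633) (nat_lit 456) (nat_lit 4667992456) (nat_lit 76) (nat_lit 22514752535) (nat_lit 180) (nat_lit 5) (nat_lit 186) (nat_lit 5) (nat_lit 181) (nat_lit 5) (nat_lit 677) (nat_lit 594) (nat_lit 289)))) (XT.nd (nat_lit 156) (nat_lit 456) (nat_lit 0) (XT.nd (nat_lit 78)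 (nat_lit 380) (nat_lit 0) (XT.lf (nat_lit 0) (nat_lit 22641966741) (nat_lit 380) (nat_lit 4855999140) (nat_lit 456) (nat_lit 17447642286) (nat_lit 175) (nat_lit 5) (nat_lit 180) (nat_lit 5) (nat_lit 181) (nat_lit 5) (nat_lit 678) (nat_lit 594) (nat_lit 288)) (XT.lf (nat_lit 0) (nat_lit 5043330769) (nat_lit 380) (nat_lit 33083598156) (nat_lit 456) (nat_lit 7371058177) (nat_lit 170) (nat_lit 5) (nat_lit 175) (nat_lit 5) (nat_lit 176) (nat_lit 5) (nat_lit 679) (nat_lit 594) (nat_lit 287))) (XT.nd (nat_lit 78) (nat_lit 380) (nat_lit 0) (XT.lf (nat_lit 0) (nat_lit 3050123641) (nat_lit 456) (nat_lit 12873387918) (nat_lit 76) (nat_lit 30133900738) (nat_lit 169) (nat_lit 5) (nat_lit 175) (nat_lit 5) (nat_lit 170) (nat_lit 5) (nat_lit 680) (nat_lit 594) (nat_lit 286)) (XT.lf (nat_lit 0) (nat_lit 13690819379) (nat_lit 456) (nat_lit 31225985325) (nat_lit 76) (nat_lit 1708051089) (nat_lit 164) (nat_lit 5) (nat_lit 170) (nat_lit 5) (nat_lit 165) (nat_lit 5) (nat_lit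 681) (nat_lit 594) (nat_lit 285))))) (XT.nd (nat_lit 312) (nat_lit 380) (nat_lit 0) (XT.nd (nat_lit 156) (nat_lit 380) (nat_lit 0) (XT.nd (nat_lit 78) (nat_lit 380) (nat_lit 0) (XT.lf (nat_lit 0) (nat_lit 24735156963) (nat_lit 456) (nat_lit 2899347566) (nat_lit 76) (nat_lit 19565327095) (nat_lit 164) (nat_lit 5) (nat_lit 170) (nat_lit 5) (nat_lit 165) (nat_lit 5) (nat_lit 682) (nat_lit 594) (nat_lit 284)) (XT.lf (nat_lit 0) (nat_lit 26336805956) (nat_lit 380) (nat_lit 9833017340) (nat_lit 456) (nat_lit 11613094861) (nat_lit 159) (nat_lit 5) (nat_lit 164) (nat_lit 5) (nat_lit 165) (nat_lit 5) (nat_lit 683) (nat_lit 594) (nat_lit 283))) (XT.nd (nat_lit 78) (nat_lit 76) (nat_lit 0) (XT.lf (nat_lit 0) (nat_lit 7866258956) (nat_lit 304) (nat_lit 40090085256) (nat_lit 380) (nat_lit 418859007) (nat_lit 155) (nat_lit 5) (nat_lit 159) (nat_lit 5) (nat_lit 160) (nat_lit 5) (nat_lit 684) (nat_lit 594) (nat_lit 282)) (XT.lf (nat_lit 0) (nat_lit 11063450891) (nat_lit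 380) (nat_lit 11060799903) (nat_lit 76) (nat_lit 26849485989) (nat_lit 154) (nat_lit 5) (nat_lit 159) (nat_lit 5) (nat_lit 155) (nat_lit 5) (nat_lit 685) (nat_lit 594) (nat_lit 281)))) (XT.nd (nat_lit 74178) (nat_lit 0) (nat_lit 27132) (XT.nd (nat_lit 74100) (nat_lit 0) (nat_lit 27132) (XT.lf (nat_lit 0) (nat_lit 19223255238) (nat_lit 380) (nat_lit 3669848324) (nat_lit 456) (nat_lit 26688616004) (nat_lit 149) (nat_lit 5) (nat_lit 154) (nat_lit 5) (nat_lit 155) (nat_lit 5) (nat_lit 686) (nat_lit 594) (nat_lit 280)) (XT.lf (nat_lit 0) (nat_lit 3979958657) (nat_lit 0) (nat_lit 3979958657) (nat_lit 1748) (nat_lit 1072688544) (nat_lit 506) (nat_lit 5) (nat_lit 506) (nat_lit 3) (nat_lit 529) (nat_lit 3) (nat_lit 595) (nat_lit 595) (nat_lit 370))) (XT.nd (nat_lit 78) (nat_lit 0) (nat_lit 0) (XT.lf (nat_lit 0) (nat_lit 16288192954) (nat_lit 1748) (nat_lit 1113051763) (nat_lit 1824) (nat_lit 840429592) (nat_lit 506) (nat_lit 5) (nat_lit 529) (nat_lit 3) (nat_lit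 530) (nat_lit 5) (nat_lit 596) (nat_lit 595) (nat_lit 369)) (XT.lf (nat_lit 76) (nat_lit 8109888708) (nat_lit 0) (nat_lit 8654075227) (nat_lit 1824) (nat_lit 1655701472) (nat_lit 507) (nat_lit 5) (nat_lit 506) (nat_lit 5) (nat_lit 530) (nat_lit 5) (nat_lit 597) (nat_lit 595) (nat_lit 368)))))) (XT.nd (nat_lit 624) (nat_lit 0) (nat_lit 152) (XT.nd (nat_lit 312) (nat_lit 0) (nat_lit 0) (XT.nd (nat_lit 156) (nat_lit 1748) (nat_lit 0) (XT.nd (nat_lit 78) (nat_lit 0) (nat_lit 0) (XT.lf (nat_lit 0) (nat_lit 17253287615) (nat_lit 1748) (nat_lit 1073378480) (nat_lit 1824) (nat_lit 274469649) (nat_lit 507) (nat_lit 5) (nat_lit 530) (nat_lit 5) (nat_lit 531) (nat_lit 5) (nat_lit 598) (nat_lit 595) (nat_lit 367)) (XT.lf (nat_lit 76) (nat_lit 8397733047) (nat_lit 0) (nat_lit 9461380887) (nat_lit 1824) (nat_lit 924987391) (nat_lit 508) (nat_lit 5) (nat_lit 507) (nat_lit 5) (nat_lit 531) (nat_lit 5) (nat_lit 599) (nat_lit 595) (nat_lit 366))) (XT.nd (nat_lit 78) (nat_lit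 1748) (nat_lit 0) (XT.lf (nat_lit 76) (nat_lit 18069994743) (nat_lit 0) (nat_lit 409227783) (nat_lit 1824) (nat_lit 491460532) (nat_lit 508) (nat_lit 5) (nat_lit 507) (nat_lit 5) (nat_lit 531) (nat_lit 5) (nat_lit 600) (nat_lit 595) (nat_lit 365)) (XT.lf (nat_lit 0) (nat_lit 61808492) (nat_lit 1824) (nat_lit 10328863142) (nat_lit 1900) (nat_lit 8768122828) (nat_lit 484) (nat_lit 5) (nat_lit 508) (nat_lit 5) (nat_lit 509) (nat_lit 5) (nat_lit 601) (nat_lit 595) (nat_lit 364)))) (XT.nd (nat_lit 156) (nat_lit 0) (nat_lit 76) (XT.nd (nat_lit 78) (nat_lit 0) (nat_lit 76) (XT.lf (nat_lit 0) (nat_lit 623484049) (nat_lit 1824) (nat_lit 592105361) (nat_lit 1900) (nat_lit 18134935425) (nat_lit 484) (nat_lit 5) (nat_lit 508) (nat_lit 5) (nat_lit 509) (nat_lit 5) (nat_lit 602) (nat_lit 595) (nat_lit 363)) (XT.lf (nat_lit 0) (nat_lit 1306323600) (nat_lit 1824) (nat_lit 10137649413) (nat_lit 1900) (nat_lit 8099918337) (nat_lit 485) (nat_lit 5) (nat_lit 509) (nat_lit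 5) (nat_lit 510) (nat_lit 5) (nat_lit 603) (nat_lit 595) (nat_lit 362))) (XT.nd (nat_lit 78) (nat_lit 0) (nat_lit 76) (XT.lf (nat_lit 0) (nat_lit 2010174280) (nat_lit 1824) (nat_lit 139495812) (nat_lit 1900) (nat_lit 17591308159) (nat_lit 485) (nat_lit 5) (nat_lit 509) (nat_lit 5) (nat_lit 510) (nat_lit 5) (nat_lit 604) (nat_lit 595) (nat_lit 361)) (XT.lf (nat_lit 0) (nat_lit 2837698324) (nat_lit 1824) (nat_lit 9799461515) (nat_lit 1900) (nat_lit 7302655263) (nat_lit 486) (nat_lit 5) (nat_lit 510) (nat_lit 5) (nat_lit 511) (nat_lit 5) (nat_lit 605) (nat_lit 595) (nat_lit 360))))) (XT.nd (nat_lit 312) (nat_lit 0) (nat_lit 152) (XT.nd (nat_lit 156) (nat_lit 0) (nat_lit 76) (XT.nd (nat_lit 78) (nat_lit 0) (nat_lit 76) (XT.lf (nat_lit 76) (nat_lit 474075752) (nat_lit 0) (nat_lit 3221432427) (nat_lit 1900) (nat_lit 16446845939) (nat_lit 487) (nat_lit 5) (nat_lit 486) (nat_lit 5) (nat_lit 511) (nat_lit 5) (nat_lit 606) (nat_lit 595) (nat_lit 359)) (XT.lf (nat_lit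 0) (nat_lit 4673667314) (nat_lit 1824) (nat_lit 9306645873) (nat_lit 1900) (nat_lit 6366566999) (nat_lit 487) (nat_lit 5) (nat_lit 511) (nat_lit 5) (nat_lit 512) (nat_lit 5) (nat_lit 607) (nat_lit 595) (nat_lit 358))) (XT.nd (nat_lit 78) (nat_lit 0) (nat_lit 76) (XT.lf (nat_lit 76) (nat_lit 1254336558) (nat_lit 0) (nat_lit 4442176059) (nat_lit 1900) (nat_lit 14858481832) (nat_lit 488) (nat_lit 5) (nat_lit 487) (nat_lit 5) (nat_lit 512) (nat_lit 5) (nat_lit 608) (nat_lit 595) (nat_lit 357)) (XT.lf (nat_lit 0) (nat_lit 6832725382) (nat_lit 1824) (nat_lit 8651142029) (nat_lit 1900) (nat_lit 5281545500) (nat_lit 488) (nat_lit 5) (nat_lit 512) (nat_lit 5) (nat_lit 513) (nat_lit 5) (nat_lit 609) (nat_lit 595) (nat_lit 356)))) (XT.nd (nat_lit 156) (nat_lit 0) (nat_lit 76) (XT.nd (nat_lit 78) (nat_lit 0) (nat_lit 76) (XT.lf (nat_lit 76) (nat_lit 2207888655) (nat_lit 0) (nat_lit 5823330694) (nat_lit 1900) (nat_lit 12948029383) (nat_lit 489) (nat_lit 5) (nat_lit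 488) (nat_lit 5) (nat_lit 513) (nat_lit 5) (nat_lit 610) (nat_lit 595) (nat_lit 355)) (XT.lf (nat_lit 0) (nat_lit 9334163240) (nat_lit 1824) (nat_lit 7824468667) (nat_lit 1900) (nat_lit 4037119883) (nat_lit 489) (nat_lit 5) (nat_lit 513) (nat_lit 5) (nat_lit 514) (nat_lit 5) (nat_lit 611) (nat_lit 595) (nat_lit 354))) (XT.nd (nat_lit 78) (nat_lit 0) (nat_lit 76) (XT.lf (nat_lit 76) (nat_lit 3343623839) (nat_lit 0) (nat_lit 7375770933) (nat_lit 1900) (nat_lit 10696065684) (nat_lit 490) (nat_lit 5) (nat_lit 489) (nat_lit 5) (nat_lit 514) (nat_lit 5) (nat_lit 612) (nat_lit 595) (nat_lit 353)) (XT.lf (nat_lit 0) (nat_lit 12198104548) (nat_lit 1824) (nat_lit 6817708891) (nat_lit 1900) (nat_lit 2622434501) (nat_lit 490) (nat_lit 5) (nat_lit 514) (nat_lit 5) (nat_lit 515) (nat_lit 5) (nat_lit 613) (nat_lit 595) (nat_lit 352))))))))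
noncomputable def xc200 : XT := (XT.nd (nat_lit 2418) (nat_lit 10488) (nat_lit 0) (XT.nd (nat_lit 1170) (nat_lit 7144) (nat_lit 0) (XT.nd (nat_lit 546) (nat_lit 3724) (nat_lit 0) (XT.nd (nat_lit 234) (nat_lit 1748) (nat_lit 0) (XT.nd (nat_lit 78) (nat_lit 0) (nat_lit 76) (XT.lf (nat_lit 76) (nat_lit 4670885150) (nat_lit 0) (nat_lit 9110774868) (nat_lit 1900) (nat_lit 8082325844) (nat_lit 491) (nat_lit 5) (nat_lit 490) (nat_lit 5) (nat_lit 515) (nat_lit 5) (nat_lit 614) (nat_lit 595) (nat_lit 351)) (XT.nd (nat_lit 78) (nat_lit 0) (nat_lit 0) (XT.lf (nat_lit 0) (nat_lit 15445544304) (nat_lit 1824) (nat_lit 5621494753) (nat_lit 1900) (nat_lit 1026226445) (nat_lit 491) (nat_lit 5) (nat_lit 515) (nat_lit 5) (nat_lit 516) (nat_lit 5) (nat_lit 615) (nat_lit 595) (nat_lit 350)) (XT.lf (nat_lit 76) (nat_lit 6199482974) (nat_lit 0) (nat_lit 11040047203) (nat_lit 1900) (nat_lit 5085664190) (nat_lit 492) (nat_lit 5) (nat_lit 491) (nat_lit 5) (nat_lit 516) (nat_lit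 5) (nat_lit 616) (nat_lit 595) (nat_lit 349)))) (XT.nd (nat_lit 156) (nat_lit 1824) (nat_lit 0) (XT.nd (nat_lit 78) (nat_lit 0) (nat_lit 76) (XT.lf (nat_lit 76) (nat_lit 18330069611) (nat_lit 0) (nat_lit 773340078) (nat_lit 1900) (nat_lit 3457671953) (nat_lit 492) (nat_lit 5) (nat_lit 491) (nat_lit 5) (nat_lit 516) (nat_lit 5) (nat_lit 617) (nat_lit 595) (nat_lit 348)) (XT.lf (nat_lit 76) (nat_lit 7939711950) (nat_lit 0) (nat_lit 13175743021) (nat_lit 1900) (nat_lit 1684014034) (nat_lit 493) (nat_lit 5) (nat_lit 492) (nat_lit 5) (nat_lit 517) (nat_lit 5) (nat_lit 618) (nat_lit 595) (nat_lit 347))) (XT.nd (nat_lit 78) (nat_lit 0) (nat_lit 76) (XT.lf (nat_lit 0) (nat_lit 153573679) (nat_lit 1900) (nat_lit 2640032991) (nat_lit 1976) (nat_lit 20248399350) (nat_lit 467) (nat_lit 5) (nat_lit 492) (nat_lit 5) (nat_lit 493) (nat_lit 5) (nat_lit 619) (nat_lit 595) (nat_lit 346)) (XT.lf (nat_lit 0) (nat_lit 2117513430) (nat_lit 1900) (nat_lit 13398769198) (nat_lit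 76) (nat_lit 7770645638) (nat_lit 468) (nat_lit 5) (nat_lit 493) (nat_lit 5) (nat_lit 469) (nat_lit 5) (nat_lit 620) (nat_lit 595) (nat_lit 345))))) (XT.nd (nat_lit 312) (nat_lit 1748) (nat_lit 0) (XT.nd (nat_lit 156) (nat_lit 912) (nat_lit 0) (XT.nd (nat_lit 78) (nat_lit 1140) (nat_lit 0) (XT.lf (nat_lit 0) (nat_lit 4153585686) (nat_lit 1900) (nat_lit 855362516) (nat_lit 76) (nat_lit 18527143781) (nat_lit 468) (nat_lit 5) (nat_lit 493) (nat_lit 5) (nat_lit 469) (nat_lit 5) (nat_lit 621) (nat_lit 595) (nat_lit 344)) (XT.lf (nat_lit 0) (nat_lit 6343079444) (nat_lit 1216) (nat_lit 11731780075) (nat_lit 76) (nat_lit 5713125549) (nat_lit 453) (nat_lit 5) (nat_lit 469) (nat_lit 5) (nat_lit 454) (nat_lit 5) (nat_lit 622) (nat_lit 595) (nat_lit 343))) (XT.nd (nat_lit 78) (nat_lit 0) (nat_lit 0) (XT.lf (nat_lit 0) (nat_lit 1171915740) (nat_lit 912) (nat_lit 7447644049) (nat_lit 988) (nat_lit 15424492388) (nat_lit 441) (nat_lit 5) (nat_lit 453) (nat_lit 5) (nat_lit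 454) (nat_lit 5) (nat_lit 623) (nat_lit 595) (nat_lit 342)) (XT.lf (nat_lit 0) (nat_lit 11039527675) (nat_lit 988) (nat_lit 9836588387) (nat_lit 76) (nat_lit 3427165501) (nat_lit 441) (nat_lit 5) (nat_lit 454) (nat_lit 5) (nat_lit 442) (nat_lit 5) (nat_lit 624) (nat_lit 595) (nat_lit 341)))) (XT.nd (nat_lit 156) (nat_lit 836) (nat_lit 0) (XT.nd (nat_lit 78) (nat_lit 0) (nat_lit 0) (XT.lf (nat_lit 0) (nat_lit 3452600648) (nat_lit 912) (nat_lit 10123784245) (nat_lit 988) (nat_lit 10989940936) (nat_lit 429) (nat_lit 5) (nat_lit 441) (nat_lit 5) (nat_lit 442) (nat_lit 5) (nat_lit 625) (nat_lit 595) (nat_lit 340)) (XT.lf (nat_lit 0) (nat_lit 16232698944) (nat_lit 988) (nat_lit 7701388942) (nat_lit 76) (nat_lit 899168791) (nat_lit 429) (nat_lit 5) (nat_lit 442) (nat_lit 5) (nat_lit 430) (nat_lit 5) (nat_lit 626) (nat_lit 595) (nat_lit 339))) (XT.nd (nat_lit 78) (nat_lit 0) (nat_lit 0) (XT.lf (nat_lit 0) (nat_lit 5987663845) (nat_lit 836) (nat_lit 13057255739)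 (nat_lit 912) (nat_lit 6058551038) (nat_lit 418) (nat_lit 5) (nat_lit 429) (nat_lit 5) (nat_lit 430) (nat_lit 5) (nat_lit 627) (nat_lit 595) (nat_lit 338)) (XT.lf (nat_lit 0) (nat_lit 20051897339) (nat_lit 836) (nat_lit 1910069302) (nat_lit 912) (nat_lit 3416150652) (nat_lit 418) (nat_lit 5) (nat_lit 429) (nat_lit 5) (nat_lit 430) (nat_lit 5) (nat_lit 628) (nat_lit 595) (nat_lit 337)))))) (XT.nd (nat_lit 624) (nat_lit 2964) (nat_lit 0) (XT.nd (nat_lit 312) (nat_lit 1520) (nat_lit 0) (XT.nd (nat_lit 156) (nat_lit 1672) (nat_lit 0) (XT.nd (nat_lit 78) (nat_lit 76) (nat_lit 0) (XT.lf (nat_lit 0) (nat_lit 8790022863) (nat_lit 912) (nat_lit 16262786468) (nat_lit 988) (nat_lit 603138558) (nat_lit 406) (nat_lit 5) (nat_lit 418) (nat_lit 5) (nat_lit 419) (nat_lit 5) (nat_lit 629) (nat_lit 595) (nat_lit 336)) (XT.lf (nat_lit 0) (nat_lit 2282024259) (nat_lit 988) (nat_lit 2708448753) (nat_lit 76) (nat_lit 20947655676) (nat_lit 405) (nat_lit 5) (nat_lit 418) (nat_lit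 5) (nat_lit 406) (nat_lit 5) (nat_lit 630) (nat_lit 595) (nat_lit 335))) (XT.nd (nat_lit 78) (nat_lit 836) (nat_lit 0) (XT.lf (nat_lit 0) (nat_lit 5333790893) (nat_lit 912) (nat_lit 14386130530) (nat_lit 76) (nat_lit 6503612493) (nat_lit 394) (nat_lit 5) (nat_lit 406) (nat_lit 5) (nat_lit 395) (nat_lit 5) (nat_lit 631) (nat_lit 595) (nat_lit 334)) (XT.lf (nat_lit 0) (nat_lit 162567193) (nat_lit 836) (nat_lit 8333507385) (nat_lit 912) (nat_lit 18017583115) (nat_lit 383) (nat_lit 5) (nat_lit 394) (nat_lit 5) (nat_lit 395) (nat_lit 5) (nat_lit 632) (nat_lit 595) (nat_lit 333)))) (XT.nd (nat_lit 156) (nat_lit 760) (nat_lit 0) (XT.nd (nat_lit 78) (nat_lit 760) (nat_lit 0) (XT.lf (nat_lit 0) (nat_lit 11837200349) (nat_lit 912) (nat_lit 11635380855) (nat_lit 76) (nat_lit 3334690890) (nat_lit 383) (nat_lit 5) (nat_lit 395) (nat_lit 5) (nat_lit 384) (nat_lit 5) (nat_lit 633) (nat_lit 595) (nat_lit 332)) (XT.lf (nat_lit 0) (nat_lit 3360553007) (nat_lit 760) (nat_lit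 11958778374) (nat_lit 836) (nat_lit 11785943821) (nat_lit 373) (nat_lit 5) (nat_lit 383) (nat_lit 5) (nat_lit 384) (nat_lit 5) (nat_lit 634) (nat_lit 595) (nat_lit 331))) (XT.nd (nat_lit 78) (nat_lit 760) (nat_lit 0) (XT.lf (nat_lit 0) (nat_lit 18811170331) (nat_lit 760) (nat_lit 135225452) (nat_lit 836) (nat_lit 8461336849) (nat_lit 373) (nat_lit 5) (nat_lit 383) (nat_lit 5) (nat_lit 384) (nat_lit 5) (nat_lit 635) (nat_lit 595) (nat_lit 330)) (XT.lf (nat_lit 0) (nat_lit 6864210849) (nat_lit 760) (nat_lit 15901046172) (nat_lit 836) (nat_lit 4948597151) (nat_lit 363) (nat_lit 5) (nat_lit 373) (nat_lit 5) (nat_lit 374) (nat_lit 5) (nat_lit 636) (nat_lit 595) (nat_lit 329))))) (XT.nd (nat_lit 312) (nat_lit 1368) (nat_lit 0) (XT.nd (nat_lit 156) (nat_lit 760) (nat_lit 0) (XT.nd (nat_lit 78) (nat_lit 836) (nat_lit 0) (XT.lf (nat_lit 0) (nat_lit 22746888514) (nat_lit 760) (nat_lit 3969483498) (nat_lit 836) (nat_lit 1308608671) (nat_lit 363) (nat_lit 5) (nat_lit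 373) (nat_lit 5) (nat_lit 374) (nat_lit 5) (nat_lit 637) (nat_lit 595) (nat_lit 328)) (XT.lf (nat_lit 0) (nat_lit 2493437758) (nat_lit 836) (nat_lit 17667427844) (nat_lit 76) (nat_lit 8178736211) (nat_lit 352) (nat_lit 5) (nat_lit 363) (nat_lit 5) (nat_lit 353) (nat_lit 5) (nat_lit 638) (nat_lit 595) (nat_lit 327))) (XT.nd (nat_lit 78) (nat_lit 760) (nat_lit 0) (XT.lf (nat_lit 0) (nat_lit 6413327118) (nat_lit 836) (nat_lit 1684946490) (nat_lit 76) (nat_lit 20560882339) (nat_lit 352) (nat_lit 5) (nat_lit 363) (nat_lit 5) (nat_lit 353) (nat_lit 5) (nat_lit 639) (nat_lit 595) (nat_lit 326)) (XT.lf (nat_lit 0) (nat_lit 10533119318) (nat_lit 836) (nat_lit 14202653567) (nat_lit 76) (nat_lit 4246898247) (nat_lit 342) (nat_lit 5) (nat_lit 353) (nat_lit 5) (nat_lit 343) (nat_lit 5) (nat_lit 640) (nat_lit 595) (nat_lit 325)))) (XT.nd (nat_lit 156) (nat_lit 684) (nat_lit 0) (XT.nd (nat_lit 78) (nat_lit 0) (nat_lit 0) (XT.lf (nat_lit 0) (nat_lit 2257679969) (nat_lit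 684) (nat_lit 12554746647) (nat_lit 760) (nat_lit 14498687681) (nat_lit 333) (nat_lit 5) (nat_lit 342) (nat_lit 5) (nat_lit 343) (nat_lit 5) (nat_lit 641) (nat_lit 595) (nat_lit 324)) (XT.lf (nat_lit 0) (nat_lit 19236845664) (nat_lit 684) (nat_lit 33261105) (nat_lit 760) (nat_lit 10374163886) (nat_lit 333) (nat_lit 5) (nat_lit 342) (nat_lit 5) (nat_lit 343) (nat_lit 5) (nat_lit 642) (nat_lit 595) (nat_lit 323))) (XT.nd (nat_lit 78) (nat_lit 0) (nat_lit 0) (XT.lf (nat_lit 0) (nat_lit 6572105536) (nat_lit 684) (nat_lit 17367739716) (nat_lit 760) (nat_lit 6041786854) (nat_lit 324) (nat_lit 5) (nat_lit 333) (nat_lit 5) (nat_lit 334) (nat_lit 5) (nat_lit 643) (nat_lit 595) (nat_lit 322)) (XT.lf (nat_lit 0) (nat_lit 24029212293) (nat_lit 684) (nat_lit 4741380689) (nat_lit 760) (nat_lit 1553795576) (nat_lit 324) (nat_lit 5) (nat_lit 333) (nat_lit 5) (nat_lit 334) (nat_lit 5) (nat_lit 644) (nat_lit 595) (nat_lit 321))))))) (XT.nd (nat_lit 1170) (nat_lit 4788)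 (nat_lit 0) (XT.nd (nat_lit 546) (nat_lit 2964) (nat_lit 0) (XT.nd (nat_lit 234) (nat_lit 1292) (nat_lit 0) (XT.nd (nat_lit 78) (nat_lit 684) (nat_lit 0) (XT.lf (nat_lit 0) (nat_lit 3108613575) (nat_lit 760) (nat_lit 19438620429) (nat_lit 76) (nat_lit 8123887168) (nat_lit 314) (nat_lit 5) (nat_lit 324) (nat_lit 5) (nat_lit 315) (nat_lit 5) (nat_lit 645) (nat_lit 595) (nat_lit 320)) (XT.nd (nat_lit 78) (nat_lit 684) (nat_lit 0) (XT.lf (nat_lit 0) (nat_lit 7915023050) (nat_lit 760) (nat_lit 1872717778) (nat_lit 76) (nat_lit 21235411105) (nat_lit 314) (nat_lit 5) (nat_lit 324) (nat_lit 5) (nat_lit 315) (nat_lit 5) (nat_lit 646) (nat_lit 595) (nat_lit 319)) (XT.lf (nat_lit 0) (nat_lit 12942406661) (nat_lit 760) (nat_lit 15146930507) (nat_lit 76) (nat_lit 3290389277) (nat_lit 305) (nat_lit 5) (nat_lit 315) (nat_lit 5) (nat_lit 306) (nat_lit 5) (nat_lit 647) (nat_lit 595) (nat_lit 318)))) (XT.nd (nat_lit 156) (nat_lit 684) (nat_lit 0) (XT.nd (nat_lit 78) (nat_lit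 0) (nat_lit 0) (XT.lf (nat_lit 0) (nat_lit 2953621574) (nat_lit 608) (nat_lit 15211048659) (nat_lit 684) (nat_lit 13576875625) (nat_lit 297) (nat_lit 5) (nat_lit 305) (nat_lit 5) (nat_lit 306) (nat_lit 5) (nat_lit 648) (nat_lit 595) (nat_lit 317)) (XT.lf (nat_lit 0) (nat_lit 21618686986) (nat_lit 608) (nat_lit 1972048841) (nat_lit 684) (nat_lit 8517878752) (nat_lit 297) (nat_lit 5) (nat_lit 305) (nat_lit 5) (nat_lit 306) (nat_lit 5) (nat_lit 649) (nat_lit 595) (nat_lit 316))) (XT.nd (nat_lit 78) (nat_lit 76) (nat_lit 0) (XT.lf (nat_lit 0) (nat_lit 8203949057) (nat_lit 608) (nat_lit 21047265138) (nat_lit 684) (nat_lit 3229292701) (nat_lit 289) (nat_lit 5) (nat_lit 297) (nat_lit 5) (nat_lit 298) (nat_lit 5) (nat_lit 650) (nat_lit 595) (nat_lit 315)) (XT.lf (nat_lit 0) (nat_lit 2218354422) (nat_lit 684) (nat_lit 5474931265) (nat_lit 76) (nat_lit 25164636591) (nat_lit 288) (nat_lit 5) (nat_lit 297) (nat_lit 5) (nat_lit 289) (nat_lit 5) (nat_lit 651) (nat_lit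 595) (nat_lit 314))))) (XT.nd (nat_lit 312) (nat_lit 1216) (nat_lit 0) (XT.nd (nat_lit 156) (nat_lit 1140) (nat_lit 0) (XT.nd (nat_lit 78) (nat_lit 0) (nat_lit 0) (XT.lf (nat_lit 0) (nat_lit 7858775617) (nat_lit 684) (nat_lit 19419560964) (nat_lit 76) (nat_lit 5961581297) (nat_lit 280) (nat_lit 5) (nat_lit 289) (nat_lit 5) (nat_lit 281) (nat_lit 5) (nat_lit 652) (nat_lit 595) (nat_lit 313)) (XT.lf (nat_lit 0) (nat_lit 13697767871) (nat_lit 684) (nat_lit 107027952) (nat_lit 76) (nat_lit 19823042362) (nat_lit 280) (nat_lit 5) (nat_lit 289) (nat_lit 5) (nat_lit 281) (nat_lit 5) (nat_lit 653) (nat_lit 595) (nat_lit 312))) (XT.nd (nat_lit 78) (nat_lit 532) (nat_lit 0) (XT.lf (nat_lit 0) (nat_lit 19780736868) (nat_lit 684) (nat_lit 14172074392) (nat_lit 76) (nat_lit 68161749) (nat_lit 272) (nat_lit 5) (nat_lit 281) (nat_lit 5) (nat_lit 273) (nat_lit 5) (nat_lit 654) (nat_lit 595) (nat_lit 311)) (XT.lf (nat_lit 0) (nat_lit 5764870625) (nat_lit 532) (nat_lit 20347962887)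 (nat_lit 608) (nat_lit 8306587698) (nat_lit 265) (nat_lit 5) (nat_lit 272) (nat_lit 5) (nat_lit 273) (nat_lit 5) (nat_lit 655) (nat_lit 595) (nat_lit 310)))) (XT.nd (nat_lit 156) (nat_lit 532) (nat_lit 0) (XT.nd (nat_lit 78) (nat_lit 684) (nat_lit 0) (XT.lf (nat_lit 0) (nat_lit 26289931030) (nat_lit 532) (nat_lit 6374660166) (nat_lit 608) (nat_lit 2159386843) (nat_lit 265) (nat_lit 5) (nat_lit 272) (nat_lit 5) (nat_lit 273) (nat_lit 5) (nat_lit 656) (nat_lit 595) (nat_lit 309)) (XT.lf (nat_lit 0) (nat_lit 4185313262) (nat_lit 684) (nat_lit 23167994847) (nat_lit 76) (nat_lit 7880214774) (nat_lit 256) (nat_lit 5) (nat_lit 265) (nat_lit 5) (nat_lit 257) (nat_lit 5) (nat_lit 657) (nat_lit 595) (nat_lit 308))) (XT.nd (nat_lit 78) (nat_lit 532) (nat_lit 0) (XT.lf (nat_lit 0) (nat_lit 10725846639) (nat_lit 684) (nat_lit 2516955777) (nat_lit 76) (nat_lit 22406213710) (nat_lit 256) (nat_lit 5) (nat_lit 265) (nat_lit 5) (nat_lit 257) (nat_lit 5) (nat_lit 658) (nat_lit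 595) (nat_lit 307)) (XT.lf (nat_lit 0) (nat_lit 17525466026) (nat_lit 608) (nat_lit 17287807757) (nat_lit 76) (nat_lit 1256979985) (nat_lit 249) (nat_lit 5) (nat_lit 257) (nat_lit 5) (nat_lit 250) (nat_lit 5) (nat_lit 659) (nat_lit 595) (nat_lit 306)))))) (XT.nd (nat_lit 624) (nat_lit 2204) (nat_lit 0) (XT.nd (nat_lit 312) (nat_lit 1520) (nat_lit 0) (XT.nd (nat_lit 156) (nat_lit 532) (nat_lit 0) (XT.nd (nat_lit 78) (nat_lit 0) (nat_lit 0) (XT.lf (nat_lit 0) (nat_lit 4004394852) (nat_lit 532) (nat_lit 20585405198) (nat_lit 608) (nat_lit 11907541711) (nat_lit 242) (nat_lit 5) (nat_lit 249) (nat_lit 5) (nat_lit 250) (nat_lit 5) (nat_lit 660) (nat_lit 595) (nat_lit 305)) (XT.lf (nat_lit 0) (nat_lit 25954113528) (nat_lit 532) (nat_lit 5955359435) (nat_lit 608) (nat_lit 5021217547) (nat_lit 242) (nat_lit 5) (nat_lit 249) (nat_lit 5) (nat_lit 250) (nat_lit 5) (nat_lit 661) (nat_lit 595) (nat_lit 304))) (XT.nd (nat_lit 78) (nat_lit 0) (nat_lit 0) (XT.lf (nat_lit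 0) (nat_lit 2105482416) (nat_lit 532) (nat_lit 26329770176) (nat_lit 76) (nat_lit 8934615270) (nat_lit 235) (nat_lit 5) (nat_lit 242) (nat_lit 5) (nat_lit 236) (nat_lit 5) (nat_lit 662) (nat_lit 595) (nat_lit 303)) (XT.lf (nat_lit 0) (nat_lit 9419214784) (nat_lit 532) (nat_lit 4246298136) (nat_lit 76) (nat_lit 24149417424) (nat_lit 235) (nat_lit 5) (nat_lit 242) (nat_lit 5) (nat_lit 236) (nat_lit 5) (nat_lit 663) (nat_lit 595) (nat_lit 302)))) (XT.nd (nat_lit 156) (nat_lit 532) (nat_lit 0) (XT.nd (nat_lit 78) (nat_lit 456) (nat_lit 0) (XT.lf (nat_lit 0) (nat_lit 17007460380) (nat_lit 608) (nat_lit 19757287126) (nat_lit 76) (nat_lit 1501581836) (nat_lit 228) (nat_lit 5) (nat_lit 236) (nat_lit 5) (nat_lit 229) (nat_lit 5) (nat_lit 664) (nat_lit 595) (nat_lit 301)) (XT.lf (nat_lit 0) (nat_lit 2996856549) (nat_lit 456) (nat_lit 21887392242) (nat_lit 532) (nat_lit 13839772008) (nat_lit 222) (nat_lit 5) (nat_lit 228) (nat_lit 5) (nat_lit 229) (nat_lit 5) (nat_lit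 665) (nat_lit 595) (nat_lit 300))) (XT.nd (nat_lit 78) (nat_lit 532) (nat_lit 0) (XT.lf (nat_lit 0) (nat_lit 26471293959) (nat_lit 456) (nat_lit 6578017067) (nat_lit 532) (nat_lit 6138940333) (nat_lit 222) (nat_lit 5) (nat_lit 228) (nat_lit 5) (nat_lit 229) (nat_lit 5) (nat_lit 666) (nat_lit 595) (nat_lit 299)) (XT.lf (nat_lit 0) (nat_lit 1821454614) (nat_lit 532) (nat_lit 28836920856) (nat_lit 76) (nat_lit 9000607259) (nat_lit 215) (nat_lit 5) (nat_lit 222) (nat_lit 5) (nat_lit 216) (nat_lit 5) (nat_lit 667) (nat_lit 595) (nat_lit 298))))) (XT.nd (nat_lit 312) (nat_lit 1292) (nat_lit 0) (XT.nd (nat_lit 156) (nat_lit 456) (nat_lit 0) (XT.nd (nat_lit 78) (nat_lit 456) (nat_lit 0) (XT.lf (nat_lit 0) (nat_lit 9986594068) (nat_lit 532) (nat_lit 5220553816) (nat_lit 76) (nat_lit 24928614567) (nat_lit 215) (nat_lit 5) (nat_lit 222) (nat_lit 5) (nat_lit 216) (nat_lit 5) (nat_lit 668) (nat_lit 595) (nat_lit 297)) (XT.lf (nat_lit 0) (nat_lit 18441790101) (nat_lit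 532) (nat_lit 21507725357) (nat_lit 76) (nat_lit 670027267) (nat_lit 209) (nat_lit 5) (nat_lit 216) (nat_lit 5) (nat_lit 210) (nat_lit 5) (nat_lit 669) (nat_lit 595) (nat_lit 296))) (XT.nd (nat_lit 78) (nat_lit 0) (nat_lit 0) (XT.lf (nat_lit 0) (nat_lit 2822830148) (nat_lit 456) (nat_lit 24395805080) (nat_lit 532) (nat_lit 13891312506) (nat_lit 203) (nat_lit 5) (nat_lit 209) (nat_lit 5) (nat_lit 210) (nat_lit 5) (nat_lit 670) (nat_lit 595) (nat_lit 295)) (XT.lf (nat_lit 0) (nat_lit 27929002258) (nat_lit 456) (nat_lit 8384604361) (nat_lit 532) (nat_lit 5293702469) (nat_lit 203) (nat_lit 5) (nat_lit 209) (nat_lit 5) (nat_lit 210) (nat_lit 5) (nat_lit 671) (nat_lit 595) (nat_lit 294)))) (XT.nd (nat_lit 156) (nat_lit 836) (nat_lit 0) (XT.nd (nat_lit 78) (nat_lit 0) (nat_lit 0) (XT.lf (nat_lit 0) (nat_lit 3555778353) (nat_lit 456) (nat_lit 30615867675) (nat_lit 76) (nat_lit 7940010217) (nat_lit 197) (nat_lit 5) (nat_lit 203) (nat_lit 5) (nat_lit 198) (nat_lit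 5) (nat_lit 672) (nat_lit 595) (nat_lit 293)) (XT.lf (nat_lit 0) (nat_lit 12657652334) (nat_lit 456) (nat_lit 5359191119) (nat_lit 76) (nat_lit 24605621371) (nat_lit 197) (nat_lit 5) (nat_lit 203) (nat_lit 5) (nat_lit 198) (nat_lit 5) (nat_lit 673) (nat_lit 595) (nat_lit 292))) (XT.nd (nat_lit 78) (nat_lit 380) (nat_lit 0) (XT.lf (nat_lit 0) (nat_lit 20671252843) (nat_lit 456) (nat_lit 1402852111) (nat_lit 532) (nat_lit 21066733828) (nat_lit 191) (nat_lit 5) (nat_lit 197) (nat_lit 5) (nat_lit 198) (nat_lit 5) (nat_lit 674) (nat_lit 595) (nat_lit 291)) (XT.lf (nat_lit 0) (nat_lit 3569260176) (nat_lit 380) (nat_lit 28268261057) (nat_lit 456) (nat_lit 11828886323) (nat_lit 186) (nat_lit 5) (nat_lit 191) (nat_lit 5) (nat_lit 192) (nat_lit 5) (nat_lit 675) (nat_lit 595) (nat_lit 290))))))))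
noncomputable def xc201 : XT := (XT.nd (nat_lit 76518) (nat_lit 0) (nat_lit 12160) (XT.nd (nat_lit 75270) (nat_lit 0) (nat_lit 25080) (XT.nd (nat_lit 546) (nat_lit 760) (nat_lit 0) (XT.nd (nat_lit 234) (nat_lit 1216) (nat_lit 0) (XT.nd (nat_lit 78) (nat_lit 456) (nat_lit 0) (XT.lf (nat_lit 0) (nat_lit 30421581903) (nat_lit 380) (nat_lit 11532993725) (nat_lit 456) (nat_lit 2244744709) (nat_lit 186) (nat_lit 5) (nat_lit 191) (nat_lit 5) (nat_lit 192) (nat_lit 5) (nat_lit 676) (nat_lit 595) (nat_lit 289)) (XT.nd (nat_lit 78) (nat_lit 0) (nat_lit 0) (XT.lf (nat_lit 0) (nat_lit 7553159209) (nat_lit 456) (nat_lit 31587362974) (nat_lit 76) (nat_lit 5598974265) (nat_lit 180) (nat_lit 5) (nat_lit 186) (nat_lit 5) (nat_lit 181) (nat_lit 5) (nat_lit 677) (nat_lit 595) (nat_lit 288)) (XT.lf (nat_lit 0) (nat_lit 17684827743) (nat_lit 456) (nat_lit 4575571337) (nat_lit 76) (nat_lit 23026422998) (nat_lit 180) (nat_lit 5) (nat_lit 186) (nat_lit 5) (nat_lit 181) (nat_lit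 5) (nat_lit 678) (nat_lit 595) (nat_lit 287)))) (XT.nd (nat_lit 156) (nat_lit 456) (nat_lit 0) (XT.nd (nat_lit 78) (nat_lit 380) (nat_lit 0) (XT.lf (nat_lit 0) (nat_lit 23279364802) (nat_lit 380) (nat_lit 4889331457) (nat_lit 456) (nat_lit 17673406658) (nat_lit 175) (nat_lit 5) (nat_lit 180) (nat_lit 5) (nat_lit 181) (nat_lit 5) (nat_lit 679) (nat_lit 595) (nat_lit 286)) (XT.lf (nat_lit 0) (nat_lit 5329531991) (nat_lit 380) (nat_lit 33679947858) (nat_lit 456) (nat_lit 7396064793) (nat_lit 170) (nat_lit 5) (nat_lit 175) (nat_lit 5) (nat_lit 176) (nat_lit 5) (nat_lit 680) (nat_lit 595) (nat_lit 285))) (XT.nd (nat_lit 78) (nat_lit 380) (nat_lit 0) (XT.lf (nat_lit 0) (nat_lit 3229566368) (nat_lit 456) (nat_lit 12947579194) (nat_lit 76) (nat_lit 30799044297) (nat_lit 169) (nat_lit 5) (nat_lit 175) (nat_lit 5) (nat_lit 170) (nat_lit 5) (nat_lit 681) (nat_lit 595) (nat_lit 284)) (XT.lf (nat_lit 0) (nat_lit 14082356321) (nat_lit 456) (nat_lit 31666507008) (nat_lit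 76) (nat_lit 1806133327) (nat_lit 164) (nat_lit 5) (nat_lit 170) (nat_lit 5) (nat_lit 165) (nat_lit 5) (nat_lit 682) (nat_lit 595) (nat_lit 283))))) (XT.nd (nat_lit 74412) (nat_lit 0) (nat_lit 26752) (XT.nd (nat_lit 156) (nat_lit 380) (nat_lit 0) (XT.nd (nat_lit 78) (nat_lit 380) (nat_lit 0) (XT.lf (nat_lit 0) (nat_lit 25345272410) (nat_lit 456) (nat_lit 2776944299) (nat_lit 76) (nat_lit 20019301496) (nat_lit 164) (nat_lit 5) (nat_lit 170) (nat_lit 5) (nat_lit 165) (nat_lit 5) (nat_lit 683) (nat_lit 595) (nat_lit 282)) (XT.lf (nat_lit 0) (nat_lit 27042745516) (nat_lit 380) (nat_lit 9964787075) (nat_lit 456) (nat_lit 11728755903) (nat_lit 159) (nat_lit 5) (nat_lit 164) (nat_lit 5) (nat_lit 165) (nat_lit 5) (nat_lit 684) (nat_lit 595) (nat_lit 281))) (XT.nd (nat_lit 78) (nat_lit 76) (nat_lit 0) (XT.lf (nat_lit 0) (nat_lit 8203463039) (nat_lit 304) (nat_lit 40825660403) (nat_lit 380) (nat_lit 311309059) (nat_lit 155) (nat_lit 5) (nat_lit 159) (nat_lit 5)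 (nat_lit 160) (nat_lit 5) (nat_lit 685) (nat_lit 595) (nat_lit 280)) (XT.lf (nat_lit 0) (nat_lit 11396883363) (nat_lit 380) (nat_lit 11104171773) (nat_lit 76) (nat_lit 27449911445) (nat_lit 154) (nat_lit 5) (nat_lit 159) (nat_lit 5) (nat_lit 155) (nat_lit 5) (nat_lit 686) (nat_lit 595) (nat_lit 279)))) (XT.nd (nat_lit 156) (nat_lit 0) (nat_lit 0) (XT.nd (nat_lit 78) (nat_lit 0) (nat_lit 0) (XT.lf (nat_lit 0) (nat_lit 4160712195) (nat_lit 0) (nat_lit 4160712195) (nat_lit 1748) (nat_lit 887781125) (nat_lit 506) (nat_lit 5) (nat_lit 506) (nat_lit 3) (nat_lit 529) (nat_lit 3) (nat_lit 596) (nat_lit 596) (nat_lit 368)) (XT.lf (nat_lit 0) (nat_lit 17009352830) (nat_lit 1748) (nat_lit 927737138) (nat_lit 1824) (nat_lit 661497581) (nat_lit 506) (nat_lit 5) (nat_lit 529) (nat_lit 3) (nat_lit 530) (nat_lit 5) (nat_lit 597) (nat_lit 596) (nat_lit 367))) (XT.nd (nat_lit 78) (nat_lit 0) (nat_lit 76) (XT.lf (nat_lit 76) (nat_lit 8478296514) (nat_lit 0) (nat_lit 9009928706)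 (nat_lit 1824) (nat_lit 1292041771) (nat_lit 507) (nat_lit 5) (nat_lit 506) (nat_lit 5) (nat_lit 530) (nat_lit 5) (nat_lit 598) (nat_lit 596) (nat_lit 366)) (XT.lf (nat_lit 0) (nat_lit 17978544866) (nat_lit 1748) (nat_lit 883876998) (nat_lit 1824) (nat_lit 103120918) (nat_lit 507) (nat_lit 5) (nat_lit 530) (nat_lit 5) (nat_lit 531) (nat_lit 5) (nat_lit 599) (nat_lit 596) (nat_lit 365)))))) (XT.nd (nat_lit 624) (nat_lit 0) (nat_lit 228) (XT.nd (nat_lit 312) (nat_lit 0) (nat_lit 76) (XT.nd (nat_lit 156) (nat_lit 1748) (nat_lit 0) (XT.nd (nat_lit 78) (nat_lit 0) (nat_lit 0) (XT.lf (nat_lit 76) (nat_lit 8775268805) (nat_lit 0) (nat_lit 9815124910) (nat_lit 1824) (nat_lit 561896070) (nat_lit 508) (nat_lit 5) (nat_lit 507) (nat_lit 5) (nat_lit 531) (nat_lit 5) (nat_lit 600) (nat_lit 596) (nat_lit 364)) (XT.lf (nat_lit 76) (nat_lit 18636866302) (nat_lit 0) (nat_lit 578702932) (nat_lit 1824) (nat_lit 127180852) (nat_lit 508) (nat_lit 5) (nat_lit 507) (nat_lit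 5) (nat_lit 531) (nat_lit 5) (nat_lit 601) (nat_lit 596) (nat_lit 363))) (XT.nd (nat_lit 78) (nat_lit 0) (nat_lit 0) (XT.lf (nat_lit 0) (nat_lit 425362870) (nat_lit 1824) (nat_lit 10318155949) (nat_lit 1900) (nat_lit 8791194223) (nat_lit 484) (nat_lit 5) (nat_lit 508) (nat_lit 5) (nat_lit 509) (nat_lit 5) (nat_lit 602) (nat_lit 596) (nat_lit 362)) (XT.lf (nat_lit 0) (nat_lit 991167660) (nat_lit 1824) (nat_lit 390923492) (nat_lit 1900) (nat_lit 18348329171) (nat_lit 484) (nat_lit 5) (nat_lit 508) (nat_lit 5) (nat_lit 509) (nat_lit 5) (nat_lit 603) (nat_lit 596) (nat_lit 361)))) (XT.nd (nat_lit 156) (nat_lit 0) (nat_lit 76) (XT.nd (nat_lit 78) (nat_lit 0) (nat_lit 0) (XT.lf (nat_lit 0) (nat_lit 1681177026) (nat_lit 1824) (nat_lit 10120880929) (nat_lit 1900) (nat_lit 8125726163) (nat_lit 485) (nat_lit 5) (nat_lit 509) (nat_lit 5) (nat_lit 510) (nat_lit 5) (nat_lit 604) (nat_lit 596) (nat_lit 360)) (XT.lf (nat_lit 76) (nat_lit 73900621) (nat_lit 0) (nat_lit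 2318846126) (nat_lit 1900) (nat_lit 17736193375) (nat_lit 486) (nat_lit 5) (nat_lit 485) (nat_lit 5) (nat_lit 510) (nat_lit 5) (nat_lit 605) (nat_lit 596) (nat_lit 359))) (XT.nd (nat_lit 78) (nat_lit 0) (nat_lit 0) (XT.lf (nat_lit 0) (nat_lit 3230228771) (nat_lit 1824) (nat_lit 9774110813) (nat_lit 1900) (nat_lit 7327546177) (nat_lit 486) (nat_lit 5) (nat_lit 510) (nat_lit 5) (nat_lit 511) (nat_lit 5) (nat_lit 606) (nat_lit 596) (nat_lit 358)) (XT.lf (nat_lit 76) (nat_lit 703441014) (nat_lit 0) (nat_lit 3396597587) (nat_lit 1900) (nat_lit 16438540280) (nat_lit 487) (nat_lit 5) (nat_lit 486) (nat_lit 5) (nat_lit 511) (nat_lit 5) (nat_lit 607) (nat_lit 596) (nat_lit 357))))) (XT.nd (nat_lit 312) (nat_lit 0) (nat_lit 152) (XT.nd (nat_lit 156) (nat_lit 0) (nat_lit 76) (XT.nd (nat_lit 78) (nat_lit 0) (nat_lit 0) (XT.lf (nat_lit 0) (nat_lit 5090573293) (nat_lit 1824) (nat_lit 9270009142) (nat_lit 1900) (nat_lit 6386756984) (nat_lit 487) (nat_lit 5) (nat_lit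 511) (nat_lit 5) (nat_lit 512) (nat_lit 5) (nat_lit 608) (nat_lit 596) (nat_lit 356)) (XT.lf (nat_lit 76) (nat_lit 1500727347) (nat_lit 0) (nat_lit 4628243190) (nat_lit 1900) (nat_lit 14830743718) (nat_lit 488) (nat_lit 5) (nat_lit 487) (nat_lit 5) (nat_lit 512) (nat_lit 5) (nat_lit 609) (nat_lit 596) (nat_lit 355))) (XT.nd (nat_lit 78) (nat_lit 0) (nat_lit 0) (XT.lf (nat_lit 0) (nat_lit 7281043054) (nat_lit 1824) (nat_lit 8600326262) (nat_lit 1900) (nat_lit 5293109249) (nat_lit 488) (nat_lit 5) (nat_lit 512) (nat_lit 5) (nat_lit 513) (nat_lit 5) (nat_lit 610) (nat_lit 596) (nat_lit 354)) (XT.lf (nat_lit 76) (nat_lit 2474412414) (nat_lit 0) (nat_lit 6024427192) (nat_lit 1900) (nat_lit 12893845025) (nat_lit 489) (nat_lit 5) (nat_lit 488) (nat_lit 5) (nat_lit 513) (nat_lit 5) (nat_lit 611) (nat_lit 596) (nat_lit 353)))) (XT.nd (nat_lit 156) (nat_lit 0) (nat_lit 76) (XT.nd (nat_lit 78) (nat_lit 0) (nat_lit 0) (XT.lf (nat_lit 0) (nat_lit 9821284149) (nat_lit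 1824) (nat_lit 7756384967) (nat_lit 1900) (nat_lit 4035979979) (nat_lit 489) (nat_lit 5) (nat_lit 513) (nat_lit 5) (nat_lit 514) (nat_lit 5) (nat_lit 612) (nat_lit 596) (nat_lit 352)) (XT.lf (nat_lit 76) (nat_lit 3633591935) (nat_lit 0) (nat_lit 7596185926) (nat_lit 1900) (nat_lit 10608063097) (nat_lit 490) (nat_lit 5) (nat_lit 489) (nat_lit 5) (nat_lit 514) (nat_lit 5) (nat_lit 613) (nat_lit 596) (nat_lit 351))) (XT.nd (nat_lit 78) (nat_lit 0) (nat_lit 0) (XT.lf (nat_lit 0) (nat_lit 12731793974) (nat_lit 1824) (nat_lit 6729065384) (nat_lit 1900) (nat_lit 2604350364) (nat_lit 490) (nat_lit 5) (nat_lit 514) (nat_lit 5) (nat_lit 515) (nat_lit 5) (nat_lit 614) (nat_lit 596) (nat_lit 350)) (XT.lf (nat_lit 76) (nat_lit 4987820289) (nat_lit 0) (nat_lit 9354970559) (nat_lit 1900) (nat_lit 7952756317) (nat_lit 491) (nat_lit 5) (nat_lit 490) (nat_lit 5) (nat_lit 515) (nat_lit 5) (nat_lit 615) (nat_lit 596) (nat_lit 349))))))) (XT.nd (nat_lit 1170) (nat_lit 6992)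 (nat_lit 0) (XT.nd (nat_lit 546) (nat_lit 4636) (nat_lit 0) (XT.nd (nat_lit 234) (nat_lit 1824) (nat_lit 0) (XT.nd (nat_lit 78) (nat_lit 0) (nat_lit 0) (XT.lf (nat_lit 0) (nat_lit 16033960302) (nat_lit 1824) (nat_lit 5508789092) (nat_lit 1900) (nat_lit 986783021) (nat_lit 491) (nat_lit 5) (nat_lit 515) (nat_lit 5) (nat_lit 516) (nat_lit 5) (nat_lit 616) (nat_lit 596) (nat_lit 348)) (XT.nd (nat_lit 78) (nat_lit 0) (nat_lit 0) (XT.lf (nat_lit 76) (nat_lit 6547127034) (nat_lit 0) (nat_lit 11312670479) (nat_lit 1900) (nat_lit 4906383075) (nat_lit 492) (nat_lit 5) (nat_lit 491) (nat_lit 5) (nat_lit 516) (nat_lit 5) (nat_lit 617) (nat_lit 596) (nat_lit 347)) (XT.lf (nat_lit 76) (nat_lit 18915940023) (nat_lit 0) (nat_lit 839613086) (nat_lit 1900) (nat_lit 3251340687) (nat_lit 492) (nat_lit 5) (nat_lit 491) (nat_lit 5) (nat_lit 516) (nat_lit 5) (nat_lit 618) (nat_lit 596) (nat_lit 346)))) (XT.nd (nat_lit 156) (nat_lit 0) (nat_lit 76) (XT.nd (nat_lit 78) (nat_lit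 1900) (nat_lit 0) (XT.lf (nat_lit 76) (nat_lit 8322034236) (nat_lit 0) (nat_lit 13481637362) (nat_lit 1900) (nat_lit 1446460820) (nat_lit 493) (nat_lit 5) (nat_lit 492) (nat_lit 5) (nat_lit 517) (nat_lit 5) (nat_lit 619) (nat_lit 596) (nat_lit 345)) (XT.lf (nat_lit 0) (nat_lit 419072818) (nat_lit 1900) (nat_lit 2470193467) (nat_lit 1976) (nat_lit 20608323789) (nat_lit 467) (nat_lit 5) (nat_lit 492) (nat_lit 5) (nat_lit 493) (nat_lit 5) (nat_lit 620) (nat_lit 596) (nat_lit 344))) (XT.nd (nat_lit 78) (nat_lit 0) (nat_lit 0) (XT.lf (nat_lit 0) (nat_lit 2418337990) (nat_lit 1900) (nat_lit 13440143659) (nat_lit 76) (nat_lit 7889008332) (nat_lit 468) (nat_lit 5) (nat_lit 493) (nat_lit 5) (nat_lit 469) (nat_lit 5) (nat_lit 621) (nat_lit 596) (nat_lit 343)) (XT.lf (nat_lit 0) (nat_lit 4490063567) (nat_lit 1900) (nat_lit 650311998) (nat_lit 76) (nat_lit 18861362912) (nat_lit 468) (nat_lit 5) (nat_lit 493) (nat_lit 5) (nat_lit 469) (nat_lit 5) (nat_lit 622) (nat_lit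 596) (nat_lit 342))))) (XT.nd (nat_lit 312) (nat_lit 1748) (nat_lit 0) (XT.nd (nat_lit 156) (nat_lit 912) (nat_lit 0) (XT.nd (nat_lit 78) (nat_lit 912) (nat_lit 0) (XT.lf (nat_lit 0) (nat_lit 6719621941) (nat_lit 1216) (nat_lit 11740525569) (nat_lit 76) (nat_lit 5798596562) (nat_lit 453) (nat_lit 5) (nat_lit 469) (nat_lit 5) (nat_lit 454) (nat_lit 5) (nat_lit 623) (nat_lit 596) (nat_lit 341)) (XT.lf (nat_lit 0) (nat_lit 1419758044) (nat_lit 912) (nat_lit 7618435124) (nat_lit 988) (nat_lit 15481808268) (nat_lit 441) (nat_lit 5) (nat_lit 453) (nat_lit 5) (nat_lit 454) (nat_lit 5) (nat_lit 624) (nat_lit 596) (nat_lit 340))) (XT.nd (nat_lit 78) (nat_lit 912) (nat_lit 0) (XT.lf (nat_lit 0) (nat_lit 11501593126) (nat_lit 988) (nat_lit 9808342153) (nat_lit 76) (nat_lit 3474579613) (nat_lit 441) (nat_lit 5) (nat_lit 454) (nat_lit 5) (nat_lit 442) (nat_lit 5) (nat_lit 625) (nat_lit 596) (nat_lit 339)) (XT.lf (nat_lit 0) (nat_lit 3745150544) (nat_lit 912) (nat_lit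 10340757160) (nat_lit 988) (nat_lit 10966978068) (nat_lit 429) (nat_lit 5) (nat_lit 441) (nat_lit 5) (nat_lit 442) (nat_lit 5) (nat_lit 626) (nat_lit 596) (nat_lit 338)))) (XT.nd (nat_lit 156) (nat_lit 912) (nat_lit 0) (XT.nd (nat_lit 78) (nat_lit 836) (nat_lit 0) (XT.lf (nat_lit 0) (nat_lit 16790589185) (nat_lit 988) (nat_lit 7631535757) (nat_lit 76) (nat_lit 903125602) (nat_lit 429) (nat_lit 5) (nat_lit 442) (nat_lit 5) (nat_lit 430) (nat_lit 5) (nat_lit 627) (nat_lit 596) (nat_lit 337)) (XT.lf (nat_lit 0) (nat_lit 6329825184) (nat_lit 836) (nat_lit 13326099814) (nat_lit 912) (nat_lit 5945006483) (nat_lit 418) (nat_lit 5) (nat_lit 429) (nat_lit 5) (nat_lit 430) (nat_lit 5) (nat_lit 628) (nat_lit 596) (nat_lit 336))) (XT.nd (nat_lit 78) (nat_lit 912) (nat_lit 0) (XT.lf (nat_lit 0) (nat_lit 20670982405) (nat_lit 836) (nat_lit 1955818689) (nat_lit 912) (nat_lit 3254360356) (nat_lit 418) (nat_lit 5) (nat_lit 429) (nat_lit 5) (nat_lit 430) (nat_lit 5) (nat_lit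 629) (nat_lit 596) (nat_lit 335)) (XT.lf (nat_lit 0) (nat_lit 9186973068) (nat_lit 912) (nat_lit 16589451942) (nat_lit 988) (nat_lit 388184484) (nat_lit 406) (nat_lit 5) (nat_lit 418) (nat_lit 5) (nat_lit 419) (nat_lit 5) (nat_lit 630) (nat_lit 596) (nat_lit 334)))))) (XT.nd (nat_lit 624) (nat_lit 3724) (nat_lit 0) (XT.nd (nat_lit 312) (nat_lit 1520) (nat_lit 0) (XT.nd (nat_lit 156) (nat_lit 836) (nat_lit 0) (XT.nd (nat_lit 78) (nat_lit 836) (nat_lit 0) (XT.lf (nat_lit 0) (nat_lit 2547311292) (nat_lit 988) (nat_lit 2542879338) (nat_lit 76) (nat_lit 21362301776) (nat_lit 405) (nat_lit 5) (nat_lit 418) (nat_lit 5) (nat_lit 406) (nat_lit 5) (nat_lit 631) (nat_lit 596) (nat_lit 333)) (XT.lf (nat_lit 0) (nat_lit 5657233736) (nat_lit 912) (nat_lit 14451229420) (nat_lit 76) (nat_lit 6635200290) (nat_lit 394) (nat_lit 5) (nat_lit 406) (nat_lit 5) (nat_lit 395) (nat_lit 5) (nat_lit 632) (nat_lit 596) (nat_lit 332))) (XT.nd (nat_lit 78) (nat_lit 0) (nat_lit 0) (XT.lf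 (nat_lit 0) (nat_lit 386977628) (nat_lit 836) (nat_lit 8492971044) (nat_lit 912) (nat_lit 18159697429) (nat_lit 383) (nat_lit 5) (nat_lit 394) (nat_lit 5) (nat_lit 395) (nat_lit 5) (nat_lit 633) (nat_lit 596) (nat_lit 331)) (XT.lf (nat_lit 0) (nat_lit 12283747681) (nat_lit 912) (nat_lit 11647110974) (nat_lit 76) (nat_lit 3408357231) (nat_lit 383) (nat_lit 5) (nat_lit 395) (nat_lit 5) (nat_lit 384) (nat_lit 5) (nat_lit 634) (nat_lit 596) (nat_lit 330)))) (XT.nd (nat_lit 156) (nat_lit 760) (nat_lit 0) (XT.nd (nat_lit 78) (nat_lit 0) (nat_lit 0) (XT.lf (nat_lit 0) (nat_lit 3647287766) (nat_lit 760) (nat_lit 12185545071) (nat_lit 836) (nat_lit 11810400100) (nat_lit 373) (nat_lit 5) (nat_lit 383) (nat_lit 5) (nat_lit 384) (nat_lit 5) (nat_lit 635) (nat_lit 596) (nat_lit 329)) (XT.lf (nat_lit 0) (nat_lit 19402613050) (nat_lit 760) (nat_lit 125764402) (nat_lit 836) (nat_lit 8423443392) (nat_lit 373) (nat_lit 5) (nat_lit 383) (nat_lit 5) (nat_lit 384) (nat_lit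 5) (nat_lit 636) (nat_lit 596) (nat_lit 328))) (XT.nd (nat_lit 78) (nat_lit 0) (nat_lit 0) (XT.lf (nat_lit 0) (nat_lit 7219259682) (nat_lit 760) (nat_lit 16201866097) (nat_lit 836) (nat_lit 4842988944) (nat_lit 363) (nat_lit 5) (nat_lit 373) (nat_lit 5) (nat_lit 374) (nat_lit 5) (nat_lit 637) (nat_lit 596) (nat_lit 327)) (XT.lf (nat_lit 0) (nat_lit 23415321005) (nat_lit 760) (nat_lit 4032009444) (nat_lit 836) (nat_lit 1134212070) (nat_lit 363) (nat_lit 5) (nat_lit 373) (nat_lit 5) (nat_lit 374) (nat_lit 5) (nat_lit 638) (nat_lit 596) (nat_lit 326))))) (XT.nd (nat_lit 312) (nat_lit 1444) (nat_lit 0) (XT.nd (nat_lit 156) (nat_lit 1444) (nat_lit 0) (XT.nd (nat_lit 78) (nat_lit 0) (nat_lit 0) (XT.lf (nat_lit 0) (nat_lit 2738882709) (nat_lit 836) (nat_lit 17802279087) (nat_lit 76) (nat_lit 8361315571) (nat_lit 352) (nat_lit 5) (nat_lit 363) (nat_lit 5) (nat_lit 353) (nat_lit 5) (nat_lit 639) (nat_lit 596) (nat_lit 325)) (XT.lf (nat_lit 0) (nat_lit 6733335029)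 (nat_lit 836) (nat_lit 1504432368) (nat_lit 76) (nat_lit 20990731983) (nat_lit 352) (nat_lit 5) (nat_lit 363) (nat_lit 5) (nat_lit 353) (nat_lit 5) (nat_lit 640) (nat_lit 596) (nat_lit 324))) (XT.nd (nat_lit 78) (nat_lit 684) (nat_lit 0) (XT.lf (nat_lit 0) (nat_lit 10933297291) (nat_lit 836) (nat_lit 14270263040) (nat_lit 76) (nat_lit 4354969146) (nat_lit 342) (nat_lit 5) (nat_lit 353) (nat_lit 5) (nat_lit 343) (nat_lit 5) (nat_lit 641) (nat_lit 596) (nat_lit 323)) (XT.lf (nat_lit 0) (nat_lit 2517853195) (nat_lit 684) (nat_lit 12778017598) (nat_lit 760) (nat_lit 14597717205) (nat_lit 333) (nat_lit 5) (nat_lit 342) (nat_lit 5) (nat_lit 343) (nat_lit 5) (nat_lit 642) (nat_lit 596) (nat_lit 322)))) (XT.nd (nat_lit 156) (nat_lit 760) (nat_lit 0) (XT.nd (nat_lit 78) (nat_lit 684) (nat_lit 0) (XT.lf (nat_lit 0) (nat_lit 19832386133) (nat_lit 684) (nat_lit 6647914) (nat_lit 760) (nat_lit 10394446938) (nat_lit 333) (nat_lit 5) (nat_lit 342) (nat_lit 5) (nat_lit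 343) (nat_lit 5) (nat_lit 643) (nat_lit 596) (nat_lit 321)) (XT.lf (nat_lit 0) (nat_lit 6916439297) (nat_lit 684) (nat_lit 17683685341) (nat_lit 760) (nat_lit 5977505971) (nat_lit 324) (nat_lit 5) (nat_lit 333) (nat_lit 5) (nat_lit 334) (nat_lit 5) (nat_lit 644) (nat_lit 596) (nat_lit 320))) (XT.nd (nat_lit 78) (nat_lit 760) (nat_lit 0) (XT.lf (nat_lit 0) (nat_lit 24718513843) (nat_lit 684) (nat_lit 4805415000) (nat_lit 760) (nat_lit 1403384605) (nat_lit 324) (nat_lit 5) (nat_lit 333) (nat_lit 5) (nat_lit 334) (nat_lit 5) (nat_lit 645) (nat_lit 596) (nat_lit 319)) (XT.lf (nat_lit 0) (nat_lit 3347954875) (nat_lit 760) (nat_lit 19614349133) (nat_lit 76) (nat_lit 8318691976) (nat_lit 314) (nat_lit 5) (nat_lit 324) (nat_lit 5) (nat_lit 315) (nat_lit 5) (nat_lit 646) (nat_lit 596) (nat_lit 318))))))))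
noncomputable def xc202 : XT := (XT.nd (nat_lit 2418) (nat_lit 2356) (nat_lit 0) (XT.nd (nat_lit 1170) (nat_lit 4256) (nat_lit 0) (XT.nd (nat_lit 546) (nat_lit 2888) (nat_lit 0) (XT.nd (nat_lit 234) (nat_lit 1292) (nat_lit 0) (XT.nd (nat_lit 78) (nat_lit 1292) (nat_lit 0) (XT.lf (nat_lit 0) (nat_lit 8247018637) (nat_lit 760) (nat_lit 1701305757) (nat_lit 76) (nat_lit 21691812528) (nat_lit 314) (nat_lit 5) (nat_lit 324) (nat_lit 5) (nat_lit 315) (nat_lit 5) (nat_lit 647) (nat_lit 596) (nat_lit 317)) (XT.nd (nat_lit 78) (nat_lit 608) (nat_lit 0) (XT.lf (nat_lit 0) (nat_lit 13373124111) (nat_lit 760) (nat_lit 15239172864) (nat_lit 76) (nat_lit 3391582548) (nat_lit 305) (nat_lit 5) (nat_lit 315) (nat_lit 5) (nat_lit 306) (nat_lit 5) (nat_lit 648) (nat_lit 596) (nat_lit 316)) (XT.lf (nat_lit 0) (nat_lit 3222004099) (nat_lit 608) (nat_lit 15475817848) (nat_lit 684) (nat_lit 13675153676) (nat_lit 297) (nat_lit 5) (nat_lit 305) (nat_lit 5) (nat_lit 306) (nat_lit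 5) (nat_lit 649) (nat_lit 596) (nat_lit 315)))) (XT.nd (nat_lit 156) (nat_lit 684) (nat_lit 0) (XT.nd (nat_lit 78) (nat_lit 608) (nat_lit 0) (XT.lf (nat_lit 0) (nat_lit 22256266700) (nat_lit 608) (nat_lit 1972811597) (nat_lit 684) (nat_lit 8518374109) (nat_lit 297) (nat_lit 5) (nat_lit 305) (nat_lit 5) (nat_lit 306) (nat_lit 5) (nat_lit 650) (nat_lit 596) (nat_lit 314)) (XT.lf (nat_lit 0) (nat_lit 8574947027) (nat_lit 608) (nat_lit 21426143612) (nat_lit 684) (nat_lit 3125725520) (nat_lit 289) (nat_lit 5) (nat_lit 297) (nat_lit 5) (nat_lit 298) (nat_lit 5) (nat_lit 651) (nat_lit 596) (nat_lit 313))) (XT.nd (nat_lit 78) (nat_lit 608) (nat_lit 0) (XT.lf (nat_lit 0) (nat_lit 2425415312) (nat_lit 684) (nat_lit 5379402338) (nat_lit 76) (nat_lit 25707005514) (nat_lit 288) (nat_lit 5) (nat_lit 297) (nat_lit 5) (nat_lit 289) (nat_lit 5) (nat_lit 652) (nat_lit 596) (nat_lit 312)) (XT.lf (nat_lit 0) (nat_lit 8177055501) (nat_lit 684) (nat_lit 19601331589) (nat_lit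 76) (nat_lit 6123103447) (nat_lit 280) (nat_lit 5) (nat_lit 289) (nat_lit 5) (nat_lit 281) (nat_lit 5) (nat_lit 653) (nat_lit 596) (nat_lit 311))))) (XT.nd (nat_lit 312) (nat_lit 1748) (nat_lit 0) (XT.nd (nat_lit 156) (nat_lit 532) (nat_lit 0) (XT.nd (nat_lit 78) (nat_lit 0) (nat_lit 0) (XT.lf (nat_lit 0) (nat_lit 94641944) (nat_lit 608) (nat_lit 14035641225) (nat_lit 684) (nat_lit 20166937041) (nat_lit 272) (nat_lit 5) (nat_lit 280) (nat_lit 5) (nat_lit 281) (nat_lit 5) (nat_lit 654) (nat_lit 596) (nat_lit 310)) (XT.lf (nat_lit 0) (nat_lit 20332799357) (nat_lit 684) (nat_lit 14251445490) (nat_lit 76) (nat_lit 114015196) (nat_lit 272) (nat_lit 5) (nat_lit 281) (nat_lit 5) (nat_lit 273) (nat_lit 5) (nat_lit 655) (nat_lit 596) (nat_lit 309))) (XT.nd (nat_lit 78) (nat_lit 0) (nat_lit 0) (XT.lf (nat_lit 0) (nat_lit 6082895859) (nat_lit 532) (nat_lit 20706890716) (nat_lit 608) (nat_lit 8314925729) (nat_lit 265) (nat_lit 5) (nat_lit 272) (nat_lit 5) (nat_lit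 273) (nat_lit 5) (nat_lit 656) (nat_lit 596) (nat_lit 308)) (XT.lf (nat_lit 0) (nat_lit 27014482417) (nat_lit 532) (nat_lit 6455063733) (nat_lit 608) (nat_lit 2047874852) (nat_lit 265) (nat_lit 5) (nat_lit 272) (nat_lit 5) (nat_lit 273) (nat_lit 5) (nat_lit 657) (nat_lit 596) (nat_lit 307)))) (XT.nd (nat_lit 156) (nat_lit 1064) (nat_lit 0) (XT.nd (nat_lit 78) (nat_lit 0) (nat_lit 0) (XT.lf (nat_lit 0) (nat_lit 4420306688) (nat_lit 684) (nat_lit 23429182933) (nat_lit 76) (nat_lit 8085674769) (nat_lit 256) (nat_lit 5) (nat_lit 265) (nat_lit 5) (nat_lit 257) (nat_lit 5) (nat_lit 658) (nat_lit 596) (nat_lit 306)) (XT.lf (nat_lit 0) (nat_lit 11088684318) (nat_lit 684) (nat_lit 2369087235) (nat_lit 76) (nat_lit 22901255337) (nat_lit 256) (nat_lit 5) (nat_lit 265) (nat_lit 5) (nat_lit 257) (nat_lit 5) (nat_lit 659) (nat_lit 596) (nat_lit 305))) (XT.nd (nat_lit 78) (nat_lit 532) (nat_lit 0) (XT.lf (nat_lit 0) (nat_lit 18022992287) (nat_lit 608) (nat_lit 17434049366)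 (nat_lit 76) (nat_lit 1331673770) (nat_lit 249) (nat_lit 5) (nat_lit 257) (nat_lit 5) (nat_lit 250) (nat_lit 5) (nat_lit 660) (nat_lit 596) (nat_lit 304)) (XT.lf (nat_lit 0) (nat_lit 4282684699) (nat_lit 532) (nat_lit 20944332466) (nat_lit 608) (nat_lit 11997359988) (nat_lit 242) (nat_lit 5) (nat_lit 249) (nat_lit 5) (nat_lit 250) (nat_lit 5) (nat_lit 661) (nat_lit 596) (nat_lit 303)))))) (XT.nd (nat_lit 624) (nat_lit 2204) (nat_lit 0) (XT.nd (nat_lit 312) (nat_lit 988) (nat_lit 0) (XT.nd (nat_lit 156) (nat_lit 532) (nat_lit 0) (XT.nd (nat_lit 78) (nat_lit 532) (nat_lit 0) (XT.lf (nat_lit 0) (nat_lit 26667511436) (nat_lit 532) (nat_lit 6022720706) (nat_lit 608) (nat_lit 4976217823) (nat_lit 242) (nat_lit 5) (nat_lit 249) (nat_lit 5) (nat_lit 250) (nat_lit 5) (nat_lit 662) (nat_lit 596) (nat_lit 302)) (XT.lf (nat_lit 0) (nat_lit 2289904362) (nat_lit 532) (nat_lit 26658932412) (nat_lit 76) (nat_lit 9165579352) (nat_lit 235) (nat_lit 5) (nat_lit 242) (nat_lit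 5) (nat_lit 236) (nat_lit 5) (nat_lit 663) (nat_lit 596) (nat_lit 301))) (XT.nd (nat_lit 78) (nat_lit 532) (nat_lit 0) (XT.lf (nat_lit 0) (nat_lit 9747120940) (nat_lit 532) (nat_lit 4137662170) (nat_lit 76) (nat_lit 24683652613) (nat_lit 235) (nat_lit 5) (nat_lit 242) (nat_lit 5) (nat_lit 236) (nat_lit 5) (nat_lit 664) (nat_lit 596) (nat_lit 300)) (XT.lf (nat_lit 0) (nat_lit 17485996442) (nat_lit 608) (nat_lit 19957733198) (nat_lit 76) (nat_lit 1585155817) (nat_lit 228) (nat_lit 5) (nat_lit 236) (nat_lit 5) (nat_lit 229) (nat_lit 5) (nat_lit 665) (nat_lit 596) (nat_lit 299)))) (XT.nd (nat_lit 156) (nat_lit 532) (nat_lit 0) (XT.nd (nat_lit 78) (nat_lit 0) (nat_lit 0) (XT.lf (nat_lit 0) (nat_lit 3250212432) (nat_lit 456) (nat_lit 22268650523) (nat_lit 532) (nat_lit 13976896993) (nat_lit 222) (nat_lit 5) (nat_lit 228) (nat_lit 5) (nat_lit 229) (nat_lit 5) (nat_lit 666) (nat_lit 596) (nat_lit 298)) (XT.lf (nat_lit 0) (nat_lit 27190346067) (nat_lit 456) (nat_lit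 6654195484) (nat_lit 532) (nat_lit 6124787321) (nat_lit 222) (nat_lit 5) (nat_lit 228) (nat_lit 5) (nat_lit 229) (nat_lit 5) (nat_lit 667) (nat_lit 596) (nat_lit 297))) (XT.nd (nat_lit 78) (nat_lit 0) (nat_lit 0) (XT.lf (nat_lit 0) (nat_lit 1991971070) (nat_lit 532) (nat_lit 29221183483) (nat_lit 76) (nat_lit 9236323555) (nat_lit 215) (nat_lit 5) (nat_lit 222) (nat_lit 5) (nat_lit 216) (nat_lit 5) (nat_lit 668) (nat_lit 596) (nat_lit 296)) (XT.lf (nat_lit 0) (nat_lit 10317784150) (nat_lit 532) (nat_lit 5136263137) (nat_lit 76) (nat_lit 25481798771) (nat_lit 215) (nat_lit 5) (nat_lit 222) (nat_lit 5) (nat_lit 216) (nat_lit 5) (nat_lit 669) (nat_lit 596) (nat_lit 295))))) (XT.nd (nat_lit 312) (nat_lit 836) (nat_lit 0) (XT.nd (nat_lit 156) (nat_lit 456) (nat_lit 0) (XT.nd (nat_lit 78) (nat_lit 456) (nat_lit 0) (XT.lf (nat_lit 0) (nat_lit 18941096044) (nat_lit 532) (nat_lit 21748187620) (nat_lit 76) (nat_lit 740038083) (nat_lit 209) (nat_lit 5) (nat_lit 216)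 (nat_lit 5) (nat_lit 210) (nat_lit 5) (nat_lit 670) (nat_lit 596) (nat_lit 294)) (XT.lf (nat_lit 0) (nat_lit 3067731021) (nat_lit 456) (nat_lit 24824412320) (nat_lit 532) (nat_lit 14037418258) (nat_lit 203) (nat_lit 5) (nat_lit 209) (nat_lit 5) (nat_lit 210) (nat_lit 5) (nat_lit 671) (nat_lit 596) (nat_lit 293))) (XT.nd (nat_lit 78) (nat_lit 456) (nat_lit 0) (XT.lf (nat_lit 0) (nat_lit 28672331587) (nat_lit 456) (nat_lit 8494150505) (nat_lit 532) (nat_lit 5270438775) (nat_lit 203) (nat_lit 5) (nat_lit 209) (nat_lit 5) (nat_lit 210) (nat_lit 5) (nat_lit 672) (nat_lit 596) (nat_lit 292)) (XT.lf (nat_lit 0) (nat_lit 3753425185) (nat_lit 456) (nat_lit 31040824732) (nat_lit 76) (nat_lit 8157106584) (nat_lit 197) (nat_lit 5) (nat_lit 203) (nat_lit 5) (nat_lit 198) (nat_lit 5) (nat_lit 673) (nat_lit 596) (nat_lit 291)))) (XT.nd (nat_lit 156) (nat_lit 380) (nat_lit 0) (XT.nd (nat_lit 78) (nat_lit 456) (nat_lit 0) (XT.lf (nat_lit 0) (nat_lit 13034855640) (nat_lit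 456) (nat_lit 5282688376) (nat_lit 76) (nat_lit 25154886899) (nat_lit 197) (nat_lit 5) (nat_lit 203) (nat_lit 5) (nat_lit 198) (nat_lit 5) (nat_lit 674) (nat_lit 596) (nat_lit 290)) (XT.lf (nat_lit 0) (nat_lit 21267156001) (nat_lit 456) (nat_lit 1371233722) (nat_lit 532) (nat_lit 21362807623) (nat_lit 191) (nat_lit 5) (nat_lit 197) (nat_lit 5) (nat_lit 198) (nat_lit 5) (nat_lit 675) (nat_lit 596) (nat_lit 289))) (XT.nd (nat_lit 78) (nat_lit 0) (nat_lit 0) (XT.lf (nat_lit 0) (nat_lit 3823980102) (nat_lit 380) (nat_lit 28772256516) (nat_lit 456) (nat_lit 11941057674) (nat_lit 186) (nat_lit 5) (nat_lit 191) (nat_lit 5) (nat_lit 192) (nat_lit 5) (nat_lit 676) (nat_lit 596) (nat_lit 288)) (XT.lf (nat_lit 0) (nat_lit 31209753466) (nat_lit 380) (nat_lit 11703487166) (nat_lit 456) (nat_lit 2167672568) (nat_lit 186) (nat_lit 5) (nat_lit 191) (nat_lit 5) (nat_lit 192) (nat_lit 5) (nat_lit 677) (nat_lit 596) (nat_lit 287))))))) (XT.nd (nat_lit 75348) (nat_lit 0)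 (nat_lit 25004) (XT.nd (nat_lit 546) (nat_lit 684) (nat_lit 0) (XT.nd (nat_lit 234) (nat_lit 836) (nat_lit 0) (XT.nd (nat_lit 78) (nat_lit 380) (nat_lit 0) (XT.lf (nat_lit 0) (nat_lit 7823795175) (nat_lit 456) (nat_lit 32036972029) (nat_lit 76) (nat_lit 5771125723) (nat_lit 180) (nat_lit 5) (nat_lit 186) (nat_lit 5) (nat_lit 181) (nat_lit 5) (nat_lit 678) (nat_lit 596) (nat_lit 286)) (XT.nd (nat_lit 78) (nat_lit 380) (nat_lit 0) (XT.lf (nat_lit 0) (nat_lit 18155752516) (nat_lit 456) (nat_lit 4488515897) (nat_lit 76) (nat_lit 23545943589) (nat_lit 180) (nat_lit 5) (nat_lit 186) (nat_lit 5) (nat_lit 181) (nat_lit 5) (nat_lit 679) (nat_lit 596) (nat_lit 285)) (XT.lf (nat_lit 0) (nat_lit 23922344183) (nat_lit 380) (nat_lit 4925807373) (nat_lit 456) (nat_lit 17908469875) (nat_lit 175) (nat_lit 5) (nat_lit 180) (nat_lit 5) (nat_lit 181) (nat_lit 5) (nat_lit 680) (nat_lit 596) (nat_lit 284)))) (XT.nd (nat_lit 156) (nat_lit 380) (nat_lit 0) (XT.nd (nat_lit 78)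 (nat_lit 76) (nat_lit 0) (XT.lf (nat_lit 0) (nat_lit 5614260468) (nat_lit 380) (nat_lit 34290761098) (nat_lit 456) (nat_lit 7426325048) (nat_lit 170) (nat_lit 5) (nat_lit 175) (nat_lit 5) (nat_lit 176) (nat_lit 5) (nat_lit 681) (nat_lit 596) (nat_lit 283)) (XT.lf (nat_lit 0) (nat_lit 3407998769) (nat_lit 456) (nat_lit 13030371146) (nat_lit 76) (nat_lit 31475065115) (nat_lit 169) (nat_lit 5) (nat_lit 175) (nat_lit 5) (nat_lit 170) (nat_lit 5) (nat_lit 682) (nat_lit 596) (nat_lit 282))) (XT.nd (nat_lit 78) (nat_lit 0) (nat_lit 0) (XT.lf (nat_lit 0) (nat_lit 14477152768) (nat_lit 456) (nat_lit 32122983992) (nat_lit 76) (nat_lit 1903695072) (nat_lit 164) (nat_lit 5) (nat_lit 170) (nat_lit 5) (nat_lit 165) (nat_lit 5) (nat_lit 683) (nat_lit 596) (nat_lit 281)) (XT.lf (nat_lit 0) (nat_lit 25963108566) (nat_lit 456) (nat_lit 2659097738) (nat_lit 76) (nat_lit 20479921916) (nat_lit 164) (nat_lit 5) (nat_lit 170) (nat_lit 5) (nat_lit 165) (nat_lit 5) (nat_lit 684)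 (nat_lit 596) (nat_lit 280))))) (XT.nd (nat_lit 74490) (nat_lit 0) (nat_lit 24928) (XT.nd (nat_lit 74334) (nat_lit 0) (nat_lit 26676) (XT.nd (nat_lit 78) (nat_lit 304) (nat_lit 0) (XT.lf (nat_lit 0) (nat_lit 27755845180) (nat_lit 380) (nat_lit 10101711986) (nat_lit 456) (nat_lit 11851257918) (nat_lit 159) (nat_lit 5) (nat_lit 164) (nat_lit 5) (nat_lit 165) (nat_lit 5) (nat_lit 685) (nat_lit 596) (nat_lit 279)) (XT.lf (nat_lit 0) (nat_lit 8540426287) (nat_lit 304) (nat_lit 41578518711) (nat_lit 380) (nat_lit 206109704) (nat_lit 155) (nat_lit 5) (nat_lit 159) (nat_lit 5) (nat_lit 160) (nat_lit 5) (nat_lit 686) (nat_lit 596) (nat_lit 278))) (XT.nd (nat_lit 78) (nat_lit 0) (nat_lit 0) (XT.lf (nat_lit 0) (nat_lit 4341152856) (nat_lit 0) (nat_lit 4341152856) (nat_lit 1748) (nat_lit 707188813) (nat_lit 506) (nat_lit 5) (nat_lit 506) (nat_lit 3) (nat_lit 529) (nat_lit 3) (nat_lit 597) (nat_lit 597) (nat_lit 366)) (XT.lf (nat_lit 0) (nat_lit 17729582194) (nat_lit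 1748) (nat_lit 746776636) (nat_lit 1824) (nat_lit 486587777) (nat_lit 506) (nat_lit 5) (nat_lit 529) (nat_lit 3) (nat_lit 530) (nat_lit 5) (nat_lit 598) (nat_lit 597) (nat_lit 365)))) (XT.nd (nat_lit 156) (nat_lit 1748) (nat_lit 0) (XT.nd (nat_lit 78) (nat_lit 0) (nat_lit 0) (XT.lf (nat_lit 76) (nat_lit 8846065088) (nat_lit 0) (nat_lit 9365801996) (nat_lit 1824) (nat_lit 936516084) (nat_lit 507) (nat_lit 5) (nat_lit 506) (nat_lit 5) (nat_lit 530) (nat_lit 5) (nat_lit 599) (nat_lit 597) (nat_lit 364)) (XT.lf (nat_lit 76) (nat_lit 18638321254) (nat_lit 0) (nat_lit 65648945) (nat_lit 1824) (nat_lit 633554962) (nat_lit 507) (nat_lit 5) (nat_lit 506) (nat_lit 5) (nat_lit 530) (nat_lit 5) (nat_lit 600) (nat_lit 597) (nat_lit 363))) (XT.nd (nat_lit 78) (nat_lit 1824) (nat_lit 0) (XT.lf (nat_lit 76) (nat_lit 9152216989) (nat_lit 0) (nat_lit 10169555441) (nat_lit 1824) (nat_lit 206360570) (nat_lit 508) (nat_lit 5) (nat_lit 507) (nat_lit 5) (nat_lit 531) (nat_lit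 5) (nat_lit 601) (nat_lit 597) (nat_lit 362)) (XT.lf (nat_lit 0) (nat_lit 226842696) (nat_lit 1824) (nat_lit 516939544) (nat_lit 1900) (nat_lit 18978731647) (nat_lit 483) (nat_lit 5) (nat_lit 507) (nat_lit 5) (nat_lit 508) (nat_lit 5) (nat_lit 602) (nat_lit 597) (nat_lit 361)))))) (XT.nd (nat_lit 624) (nat_lit 0) (nat_lit 304) (XT.nd (nat_lit 312) (nat_lit 0) (nat_lit 152) (XT.nd (nat_lit 156) (nat_lit 0) (nat_lit 76) (XT.nd (nat_lit 78) (nat_lit 0) (nat_lit 0) (XT.lf (nat_lit 0) (nat_lit 782119078) (nat_lit 1824) (nat_lit 10315672032) (nat_lit 1900) (nat_lit 8820640694) (nat_lit 484) (nat_lit 5) (nat_lit 508) (nat_lit 5) (nat_lit 509) (nat_lit 5) (nat_lit 603) (nat_lit 597) (nat_lit 360)) (XT.lf (nat_lit 0) (nat_lit 1352411553) (nat_lit 1824) (nat_lit 193989966) (nat_lit 1900) (nat_lit 18571788486) (nat_lit 484) (nat_lit 5) (nat_lit 508) (nat_lit 5) (nat_lit 509) (nat_lit 5) (nat_lit 604) (nat_lit 597) (nat_lit 359))) (XT.nd (nat_lit 78) (nat_lit 0) (nat_lit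 0) (XT.lf (nat_lit 0) (nat_lit 2049986028) (nat_lit 1824) (nat_lit 10112301361) (nat_lit 1900) (nat_lit 8157338591) (nat_lit 485) (nat_lit 5) (nat_lit 509) (nat_lit 5) (nat_lit 510) (nat_lit 5) (nat_lit 605) (nat_lit 597) (nat_lit 358)) (XT.lf (nat_lit 76) (nat_lit 284987680) (nat_lit 0) (nat_lit 2485588120) (nat_lit 1900) (nat_lit 17754333729) (nat_lit 486) (nat_lit 5) (nat_lit 485) (nat_lit 5) (nat_lit 510) (nat_lit 5) (nat_lit 606) (nat_lit 597) (nat_lit 357)))) (XT.nd (nat_lit 156) (nat_lit 0) (nat_lit 76) (XT.nd (nat_lit 78) (nat_lit 0) (nat_lit 0) (XT.lf (nat_lit 0) (nat_lit 3617571217) (nat_lit 1824) (nat_lit 9756847998) (nat_lit 1900) (nat_lit 7357639785) (nat_lit 486) (nat_lit 5) (nat_lit 510) (nat_lit 5) (nat_lit 511) (nat_lit 5) (nat_lit 607) (nat_lit 597) (nat_lit 356)) (XT.lf (nat_lit 76) (nat_lit 928855228) (nat_lit 0) (nat_lit 3570966017) (nat_lit 1900) (nat_lit 16443164047) (nat_lit 487) (nat_lit 5) (nat_lit 486) (nat_lit 5) (nat_lit 511)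 (nat_lit 5) (nat_lit 608) (nat_lit 597) (nat_lit 355))) (XT.nd (nat_lit 78) (nat_lit 0) (nat_lit 0) (XT.lf (nat_lit 0) (nat_lit 5503258107) (nat_lit 1824) (nat_lit 9241290093) (nat_lit 1900) (nat_lit 6411511198) (nat_lit 487) (nat_lit 5) (nat_lit 511) (nat_lit 5) (nat_lit 512) (nat_lit 5) (nat_lit 609) (nat_lit 597) (nat_lit 354)) (XT.lf (nat_lit 76) (nat_lit 1743452446) (nat_lit 0) (nat_lit 4814256352) (nat_lit 1900) (nat_lit 14815067406) (nat_lit 488) (nat_lit 5) (nat_lit 487) (nat_lit 5) (nat_lit 512) (nat_lit 5) (nat_lit 610) (nat_lit 597) (nat_lit 353))))) (XT.nd (nat_lit 312) (nat_lit 0) (nat_lit 152) (XT.nd (nat_lit 156) (nat_lit 0) (nat_lit 76) (XT.nd (nat_lit 78) (nat_lit 0) (nat_lit 0) (XT.lf (nat_lit 0) (nat_lit 7726224820) (nat_lit 1824) (nat_lit 8557186104) (nat_lit 1900) (nat_lit 5308557015) (nat_lit 488) (nat_lit 5) (nat_lit 512) (nat_lit 5) (nat_lit 513) (nat_lit 5) (nat_lit 611) (nat_lit 597) (nat_lit 352)) (XT.lf (nat_lit 76) (nat_lit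 2737631906) (nat_lit 0) (nat_lit 6226259338) (nat_lit 1900) (nat_lit 12850736780) (nat_lit 489) (nat_lit 5) (nat_lit 488) (nat_lit 5) (nat_lit 513) (nat_lit 5) (nat_lit 612) (nat_lit 597) (nat_lit 351))) (XT.nd (nat_lit 78) (nat_lit 0) (nat_lit 0) (XT.lf (nat_lit 0) (nat_lit 10306481115) (nat_lit 1824) (nat_lit 7695660039) (nat_lit 1900) (nat_lit 4037996866) (nat_lit 489) (nat_lit 5) (nat_lit 513) (nat_lit 5) (nat_lit 514) (nat_lit 5) (nat_lit 613) (nat_lit 597) (nat_lit 350)) (XT.lf (nat_lit 76) (nat_lit 3920696318) (nat_lit 0) (nat_lit 7818178440) (nat_lit 1900) (nat_lit 10530024531) (nat_lit 490) (nat_lit 5) (nat_lit 489) (nat_lit 5) (nat_lit 514) (nat_lit 5) (nat_lit 614) (nat_lit 597) (nat_lit 349)))) (XT.nd (nat_lit 156) (nat_lit 0) (nat_lit 76) (XT.nd (nat_lit 78) (nat_lit 0) (nat_lit 0) (XT.lf (nat_lit 0) (nat_lit 13264906724) (nat_lit 1824) (nat_lit 6647385942) (nat_lit 1900) (nat_lit 2588643420) (nat_lit 490) (nat_lit 5) (nat_lit 514) (nat_lit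 5) (nat_lit 515) (nat_lit 5) (nat_lit 615) (nat_lit 597) (nat_lit 348)) (XT.lf (nat_lit 76) (nat_lit 5302414678) (nat_lit 0) (nat_lit 9601643398) (nat_lit 1900) (nat_lit 7831903673) (nat_lit 491) (nat_lit 5) (nat_lit 490) (nat_lit 5) (nat_lit 515) (nat_lit 5) (nat_lit 616) (nat_lit 597) (nat_lit 347))) (XT.nd (nat_lit 78) (nat_lit 0) (nat_lit 0) (XT.lf (nat_lit 0) (nat_lit 16623291095) (nat_lit 1824) (nat_lit 5402571606) (nat_lit 1900) (nat_lit 948879357) (nat_lit 491) (nat_lit 5) (nat_lit 515) (nat_lit 5) (nat_lit 516) (nat_lit 5) (nat_lit 617) (nat_lit 597) (nat_lit 346)) (XT.lf (nat_lit 76) (nat_lit 6893039203) (nat_lit 0) (nat_lit 11588733895) (nat_lit 1900) (nat_lit 4734427692) (nat_lit 492) (nat_lit 5) (nat_lit 491) (nat_lit 5) (nat_lit 516) (nat_lit 5) (nat_lit 618) (nat_lit 597) (nat_lit 345))))))))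
noncomputable def xc203 : XT := (XT.nd (nat_lit 2418) (nat_lit 9500) (nat_lit 0) (XT.nd (nat_lit 1170) (nat_lit 6764) (nat_lit 0) (XT.nd (nat_lit 546) (nat_lit 3572) (nat_lit 0) (XT.nd (nat_lit 234) (nat_lit 1976) (nat_lit 0) (XT.nd (nat_lit 78) (nat_lit 1824) (nat_lit 0) (XT.lf (nat_lit 76) (nat_lit 19505013361) (nat_lit 0) (nat_lit 905238688) (nat_lit 1900) (nat_lit 3051580203) (nat_lit 492) (nat_lit 5) (nat_lit 491) (nat_lit 5) (nat_lit 516) (nat_lit 5) (nat_lit 619) (nat_lit 597) (nat_lit 344)) (XT.nd (nat_lit 78) (nat_lit 1900) (nat_lit 0) (XT.lf (nat_lit 76) (nat_lit 8703323102) (nat_lit 0) (nat_lit 13792003942) (nat_lit 1900) (nat_lit 1214688868) (nat_lit 493) (nat_lit 5) (nat_lit 492) (nat_lit 5) (nat_lit 517) (nat_lit 5) (nat_lit 620) (nat_lit 597) (nat_lit 343)) (XT.lf (nat_lit 0) (nat_lit 679691554) (nat_lit 1900) (nat_lit 2305602543) (nat_lit 1976) (nat_lit 20977195812) (nat_lit 467) (nat_lit 5) (nat_lit 492) (nat_lit 5) (nat_lit 493) (nat_lit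 5) (nat_lit 621) (nat_lit 597) (nat_lit 342)))) (XT.nd (nat_lit 156) (nat_lit 2052) (nat_lit 0) (XT.nd (nat_lit 78) (nat_lit 0) (nat_lit 0) (XT.lf (nat_lit 0) (nat_lit 2715142169) (nat_lit 1900) (nat_lit 13491144798) (nat_lit 76) (nat_lit 8011176984) (nat_lit 468) (nat_lit 5) (nat_lit 493) (nat_lit 5) (nat_lit 469) (nat_lit 5) (nat_lit 622) (nat_lit 597) (nat_lit 341)) (XT.lf (nat_lit 0) (nat_lit 4823430936) (nat_lit 1900) (nat_lit 449787127) (nat_lit 76) (nat_lit 19203676921) (nat_lit 468) (nat_lit 5) (nat_lit 493) (nat_lit 5) (nat_lit 469) (nat_lit 5) (nat_lit 623) (nat_lit 597) (nat_lit 340))) (XT.nd (nat_lit 78) (nat_lit 912) (nat_lit 0) (XT.lf (nat_lit 0) (nat_lit 7093999874) (nat_lit 1216) (nat_lit 11758217560) (nat_lit 76) (nat_lit 5886895004) (nat_lit 453) (nat_lit 5) (nat_lit 469) (nat_lit 5) (nat_lit 454) (nat_lit 5) (nat_lit 624) (nat_lit 597) (nat_lit 339)) (XT.lf (nat_lit 0) (nat_lit 1663843314) (nat_lit 912) (nat_lit 7791794017) (nat_lit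 988) (nat_lit 15550023856) (nat_lit 441) (nat_lit 5) (nat_lit 453) (nat_lit 5) (nat_lit 454) (nat_lit 5) (nat_lit 625) (nat_lit 597) (nat_lit 338))))) (XT.nd (nat_lit 312) (nat_lit 1824) (nat_lit 0) (XT.nd (nat_lit 156) (nat_lit 836) (nat_lit 0) (XT.nd (nat_lit 78) (nat_lit 912) (nat_lit 0) (XT.lf (nat_lit 0) (nat_lit 11963530887) (nat_lit 988) (nat_lit 9788267164) (nat_lit 76) (nat_lit 3523762479) (nat_lit 441) (nat_lit 5) (nat_lit 454) (nat_lit 5) (nat_lit 442) (nat_lit 5) (nat_lit 626) (nat_lit 597) (nat_lit 337)) (XT.lf (nat_lit 0) (nat_lit 4034872743) (nat_lit 912) (nat_lit 10561506588) (nat_lit 988) (nat_lit 10952982674) (nat_lit 429) (nat_lit 5) (nat_lit 441) (nat_lit 5) (nat_lit 442) (nat_lit 5) (nat_lit 627) (nat_lit 597) (nat_lit 336))) (XT.nd (nat_lit 78) (nat_lit 836) (nat_lit 0) (XT.lf (nat_lit 0) (nat_lit 17350580383) (nat_lit 988) (nat_lit 7568979080) (nat_lit 76) (nat_lit 907706217) (nat_lit 429) (nat_lit 5) (nat_lit 442) (nat_lit 5) (nat_lit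 430) (nat_lit 5) (nat_lit 628) (nat_lit 597) (nat_lit 335)) (XT.lf (nat_lit 0) (nat_lit 6670193374) (nat_lit 836) (nat_lit 13600021811) (nat_lit 912) (nat_lit 5838305328) (nat_lit 418) (nat_lit 5) (nat_lit 429) (nat_lit 5) (nat_lit 430) (nat_lit 5) (nat_lit 629) (nat_lit 597) (nat_lit 334)))) (XT.nd (nat_lit 156) (nat_lit 912) (nat_lit 0) (XT.nd (nat_lit 78) (nat_lit 912) (nat_lit 0) (XT.lf (nat_lit 0) (nat_lit 21293982138) (nat_lit 836) (nat_lit 2002189966) (nat_lit 912) (nat_lit 3098269833) (nat_lit 418) (nat_lit 5) (nat_lit 429) (nat_lit 5) (nat_lit 430) (nat_lit 5) (nat_lit 630) (nat_lit 597) (nat_lit 333)) (XT.lf (nat_lit 0) (nat_lit 9583274763) (nat_lit 912) (nat_lit 16922595983) (nat_lit 988) (nat_lit 177746669) (nat_lit 406) (nat_lit 5) (nat_lit 418) (nat_lit 5) (nat_lit 419) (nat_lit 5) (nat_lit 631) (nat_lit 597) (nat_lit 332))) (XT.nd (nat_lit 78) (nat_lit 836) (nat_lit 0) (XT.lf (nat_lit 0) (nat_lit 2809374923) (nat_lit 988) (nat_lit 2382531245)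 (nat_lit 76) (nat_lit 21785408045) (nat_lit 405) (nat_lit 5) (nat_lit 418) (nat_lit 5) (nat_lit 406) (nat_lit 5) (nat_lit 632) (nat_lit 597) (nat_lit 331)) (XT.lf (nat_lit 0) (nat_lit 5978728108) (nat_lit 912) (nat_lit 14526275038) (nat_lit 76) (nat_lit 6769360993) (nat_lit 394) (nat_lit 5) (nat_lit 406) (nat_lit 5) (nat_lit 395) (nat_lit 5) (nat_lit 633) (nat_lit 597) (nat_lit 330)))))) (XT.nd (nat_lit 624) (nat_lit 3572) (nat_lit 0) (XT.nd (nat_lit 312) (nat_lit 1596) (nat_lit 0) (XT.nd (nat_lit 156) (nat_lit 760) (nat_lit 0) (XT.nd (nat_lit 78) (nat_lit 0) (nat_lit 0) (XT.lf (nat_lit 0) (nat_lit 607288394) (nat_lit 836) (nat_lit 8655903813) (nat_lit 912) (nat_lit 18313128451) (nat_lit 383) (nat_lit 5) (nat_lit 394) (nat_lit 5) (nat_lit 395) (nat_lit 5) (nat_lit 634) (nat_lit 597) (nat_lit 329)) (XT.lf (nat_lit 0) (nat_lit 12731079041) (nat_lit 912) (nat_lit 11667656522) (nat_lit 76) (nat_lit 3483226148) (nat_lit 383) (nat_lit 5) (nat_lit 395) (nat_lit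 5) (nat_lit 384) (nat_lit 5) (nat_lit 635) (nat_lit 597) (nat_lit 328))) (XT.nd (nat_lit 78) (nat_lit 0) (nat_lit 0) (XT.lf (nat_lit 0) (nat_lit 3931232846) (nat_lit 760) (nat_lit 12417328954) (nat_lit 836) (nat_lit 11843549088) (nat_lit 373) (nat_lit 5) (nat_lit 383) (nat_lit 5) (nat_lit 384) (nat_lit 5) (nat_lit 636) (nat_lit 597) (nat_lit 327)) (XT.lf (nat_lit 0) (nat_lit 19997527395) (nat_lit 760) (nat_lit 116586534) (nat_lit 836) (nat_lit 8392834796) (nat_lit 373) (nat_lit 5) (nat_lit 383) (nat_lit 5) (nat_lit 384) (nat_lit 5) (nat_lit 637) (nat_lit 597) (nat_lit 326)))) (XT.nd (nat_lit 156) (nat_lit 836) (nat_lit 0) (XT.nd (nat_lit 78) (nat_lit 0) (nat_lit 0) (XT.lf (nat_lit 0) (nat_lit 7572953426) (nat_lit 760) (nat_lit 16509370355) (nat_lit 836) (nat_lit 4743212669) (nat_lit 363) (nat_lit 5) (nat_lit 373) (nat_lit 5) (nat_lit 374) (nat_lit 5) (nat_lit 638) (nat_lit 597) (nat_lit 325)) (XT.lf (nat_lit 0) (nat_lit 24088831887) (nat_lit 760) (nat_lit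 4096440747) (nat_lit 836) (nat_lit 964115867) (nat_lit 363) (nat_lit 5) (nat_lit 373) (nat_lit 5) (nat_lit 374) (nat_lit 5) (nat_lit 639) (nat_lit 597) (nat_lit 324))) (XT.nd (nat_lit 78) (nat_lit 0) (nat_lit 0) (XT.lf (nat_lit 0) (nat_lit 2981642097) (nat_lit 836) (nat_lit 17948311873) (nat_lit 76) (nat_lit 8546808546) (nat_lit 352) (nat_lit 5) (nat_lit 363) (nat_lit 5) (nat_lit 353) (nat_lit 5) (nat_lit 640) (nat_lit 597) (nat_lit 323)) (XT.lf (nat_lit 0) (nat_lit 7052297547) (nat_lit 836) (nat_lit 1328626117) (nat_lit 76) (nat_lit 21428455116) (nat_lit 352) (nat_lit 5) (nat_lit 363) (nat_lit 5) (nat_lit 353) (nat_lit 5) (nat_lit 641) (nat_lit 597) (nat_lit 322))))) (XT.nd (nat_lit 312) (nat_lit 1444) (nat_lit 0) (XT.nd (nat_lit 156) (nat_lit 684) (nat_lit 0) (XT.nd (nat_lit 78) (nat_lit 684) (nat_lit 0) (XT.lf (nat_lit 0) (nat_lit 11334119703) (nat_lit 836) (nat_lit 14347629471) (nat_lit 76) (nat_lit 4464303184) (nat_lit 342) (nat_lit 5) (nat_lit 353)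 (nat_lit 5) (nat_lit 343) (nat_lit 5) (nat_lit 642) (nat_lit 597) (nat_lit 321)) (XT.lf (nat_lit 0) (nat_lit 2774880412) (nat_lit 684) (nat_lit 13006834408) (nat_lit 760) (nat_lit 14706141917) (nat_lit 333) (nat_lit 5) (nat_lit 342) (nat_lit 5) (nat_lit 343) (nat_lit 5) (nat_lit 643) (nat_lit 597) (nat_lit 320))) (XT.nd (nat_lit 78) (nat_lit 684) (nat_lit 0) (XT.lf (nat_lit 0) (nat_lit 20412339572) (nat_lit 760) (nat_lit 10403092785) (nat_lit 76) (nat_lit 19183350) (nat_lit 333) (nat_lit 5) (nat_lit 343) (nat_lit 5) (nat_lit 334) (nat_lit 5) (nat_lit 644) (nat_lit 597) (nat_lit 319)) (XT.lf (nat_lit 0) (nat_lit 7259392891) (nat_lit 684) (nat_lit 18007169535) (nat_lit 760) (nat_lit 5919127774) (nat_lit 324) (nat_lit 5) (nat_lit 333) (nat_lit 5) (nat_lit 334) (nat_lit 5) (nat_lit 645) (nat_lit 597) (nat_lit 318)))) (XT.nd (nat_lit 156) (nat_lit 684) (nat_lit 0) (XT.nd (nat_lit 78) (nat_lit 760) (nat_lit 0) (XT.lf (nat_lit 0) (nat_lit 25413496677) (nat_lit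 684) (nat_lit 4871925738) (nat_lit 760) (nat_lit 1257012771) (nat_lit 324) (nat_lit 5) (nat_lit 333) (nat_lit 5) (nat_lit 334) (nat_lit 5) (nat_lit 646) (nat_lit 597) (nat_lit 317)) (XT.lf (nat_lit 0) (nat_lit 3585203312) (nat_lit 760) (nat_lit 19801865158) (nat_lit 76) (nat_lit 8516137581) (nat_lit 314) (nat_lit 5) (nat_lit 324) (nat_lit 5) (nat_lit 315) (nat_lit 5) (nat_lit 647) (nat_lit 597) (nat_lit 316))) (XT.nd (nat_lit 78) (nat_lit 684) (nat_lit 0) (XT.lf (nat_lit 0) (nat_lit 8578909342) (nat_lit 760) (nat_lit 1534576031) (nat_lit 76) (nat_lit 22156111293) (nat_lit 314) (nat_lit 5) (nat_lit 324) (nat_lit 5) (nat_lit 315) (nat_lit 5) (nat_lit 648) (nat_lit 597) (nat_lit 315)) (XT.lf (nat_lit 0) (nat_lit 13805782014) (nat_lit 760) (nat_lit 15341441660) (nat_lit 76) (nat_lit 3493425622) (nat_lit 305) (nat_lit 5) (nat_lit 315) (nat_lit 5) (nat_lit 306) (nat_lit 5) (nat_lit 649) (nat_lit 597) (nat_lit 314))))))) (XT.nd (nat_lit 1170) (nat_lit 4180) (nat_lit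 0) (XT.nd (nat_lit 546) (nat_lit 2812) (nat_lit 0) (XT.nd (nat_lit 234) (nat_lit 1292) (nat_lit 0) (XT.nd (nat_lit 78) (nat_lit 608) (nat_lit 0) (XT.lf (nat_lit 0) (nat_lit 3487626509) (nat_lit 608) (nat_lit 15747414381) (nat_lit 684) (nat_lit 13782125163) (nat_lit 297) (nat_lit 5) (nat_lit 305) (nat_lit 5) (nat_lit 306) (nat_lit 5) (nat_lit 650) (nat_lit 597) (nat_lit 313)) (XT.nd (nat_lit 78) (nat_lit 608) (nat_lit 0) (XT.lf (nat_lit 0) (nat_lit 22898629610) (nat_lit 608) (nat_lit 1975091531) (nat_lit 684) (nat_lit 8525475330) (nat_lit 297) (nat_lit 5) (nat_lit 305) (nat_lit 5) (nat_lit 306) (nat_lit 5) (nat_lit 651) (nat_lit 597) (nat_lit 312)) (XT.lf (nat_lit 0) (nat_lit 8945330040) (nat_lit 608) (nat_lit 21814233161) (nat_lit 684) (nat_lit 3026616582) (nat_lit 289) (nat_lit 5) (nat_lit 297) (nat_lit 5) (nat_lit 298) (nat_lit 5) (nat_lit 652) (nat_lit 597) (nat_lit 311)))) (XT.nd (nat_lit 156) (nat_lit 608) (nat_lit 0) (XT.nd (nat_lit 78) (nat_lit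 608) (nat_lit 0) (XT.lf (nat_lit 0) (nat_lit 2630299822) (nat_lit 684) (nat_lit 5289924302) (nat_lit 76) (nat_lit 26258704439) (nat_lit 288) (nat_lit 5) (nat_lit 297) (nat_lit 5) (nat_lit 289) (nat_lit 5) (nat_lit 653) (nat_lit 597) (nat_lit 310)) (XT.lf (nat_lit 0) (nat_lit 8495445103) (nat_lit 684) (nat_lit 19794760957) (nat_lit 76) (nat_lit 6286213847) (nat_lit 280) (nat_lit 5) (nat_lit 289) (nat_lit 5) (nat_lit 281) (nat_lit 5) (nat_lit 654) (nat_lit 597) (nat_lit 309))) (XT.nd (nat_lit 78) (nat_lit 0) (nat_lit 0) (XT.lf (nat_lit 0) (nat_lit 293825485) (nat_lit 608) (nat_lit 14272156536) (nat_lit 684) (nat_lit 20414117326) (nat_lit 272) (nat_lit 5) (nat_lit 280) (nat_lit 5) (nat_lit 281) (nat_lit 5) (nat_lit 655) (nat_lit 597) (nat_lit 308)) (XT.lf (nat_lit 0) (nat_lit 20889828040) (nat_lit 684) (nat_lit 14340328312) (nat_lit 76) (nat_lit 159058103) (nat_lit 272) (nat_lit 5) (nat_lit 281) (nat_lit 5) (nat_lit 273) (nat_lit 5) (nat_lit 656) (nat_lit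 597) (nat_lit 307))))) (XT.nd (nat_lit 312) (nat_lit 1596) (nat_lit 0) (XT.nd (nat_lit 156) (nat_lit 684) (nat_lit 0) (XT.nd (nat_lit 78) (nat_lit 0) (nat_lit 0) (XT.lf (nat_lit 0) (nat_lit 6399409429) (nat_lit 532) (nat_lit 21074862220) (nat_lit 608) (nat_lit 8329557843) (nat_lit 265) (nat_lit 5) (nat_lit 272) (nat_lit 5) (nat_lit 273) (nat_lit 5) (nat_lit 657) (nat_lit 597) (nat_lit 306)) (XT.lf (nat_lit 0) (nat_lit 27745807020) (nat_lit 532) (nat_lit 6538903919) (nat_lit 608) (nat_lit 1940139799) (nat_lit 265) (nat_lit 5) (nat_lit 272) (nat_lit 5) (nat_lit 273) (nat_lit 5) (nat_lit 658) (nat_lit 597) (nat_lit 305))) (XT.nd (nat_lit 78) (nat_lit 0) (nat_lit 0) (XT.lf (nat_lit 0) (nat_lit 4654125319) (nat_lit 684) (nat_lit 23703445359) (nat_lit 76) (nat_lit 8293385669) (nat_lit 256) (nat_lit 5) (nat_lit 265) (nat_lit 5) (nat_lit 257) (nat_lit 5) (nat_lit 659) (nat_lit 597) (nat_lit 304)) (XT.lf (nat_lit 0) (nat_lit 11453019275) (nat_lit 684) (nat_lit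 2225957967) (nat_lit 76) (nat_lit 23404375938) (nat_lit 256) (nat_lit 5) (nat_lit 265) (nat_lit 5) (nat_lit 257) (nat_lit 5) (nat_lit 660) (nat_lit 597) (nat_lit 303)))) (XT.nd (nat_lit 156) (nat_lit 532) (nat_lit 0) (XT.nd (nat_lit 78) (nat_lit 532) (nat_lit 0) (XT.lf (nat_lit 0) (nat_lit 18524760226) (nat_lit 608) (nat_lit 17590963201) (nat_lit 76) (nat_lit 1405937181) (nat_lit 249) (nat_lit 5) (nat_lit 257) (nat_lit 5) (nat_lit 250) (nat_lit 5) (nat_lit 661) (nat_lit 597) (nat_lit 302)) (XT.lf (nat_lit 0) (nat_lit 4558843920) (nat_lit 532) (nat_lit 21312487822) (nat_lit 608) (nat_lit 12094734564) (nat_lit 242) (nat_lit 5) (nat_lit 249) (nat_lit 5) (nat_lit 250) (nat_lit 5) (nat_lit 662) (nat_lit 597) (nat_lit 301))) (XT.nd (nat_lit 78) (nat_lit 532) (nat_lit 0) (XT.lf (nat_lit 0) (nat_lit 27387631789) (nat_lit 532) (nat_lit 6093438559) (nat_lit 608) (nat_lit 4935965098) (nat_lit 242) (nat_lit 5) (nat_lit 249) (nat_lit 5) (nat_lit 250) (nat_lit 5) (nat_lit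 663) (nat_lit 597) (nat_lit 300)) (XT.lf (nat_lit 0) (nat_lit 2472488586) (nat_lit 532) (nat_lit 27002344464) (nat_lit 76) (nat_lit 9399132940) (nat_lit 235) (nat_lit 5) (nat_lit 242) (nat_lit 5) (nat_lit 236) (nat_lit 5) (nat_lit 664) (nat_lit 597) (nat_lit 299)))))) (XT.nd (nat_lit 624) (nat_lit 1748) (nat_lit 0) (XT.nd (nat_lit 312) (nat_lit 1444) (nat_lit 0) (XT.nd (nat_lit 156) (nat_lit 456) (nat_lit 0) (XT.nd (nat_lit 78) (nat_lit 532) (nat_lit 0) (XT.lf (nat_lit 0) (nat_lit 10076167415) (nat_lit 532) (nat_lit 4034369731) (nat_lit 76) (nat_lit 25226582528) (nat_lit 235) (nat_lit 5) (nat_lit 242) (nat_lit 5) (nat_lit 236) (nat_lit 5) (nat_lit 665) (nat_lit 597) (nat_lit 298)) (XT.lf (nat_lit 0) (nat_lit 17968729494) (nat_lit 608) (nat_lit 20169748616) (nat_lit 76) (nat_lit 1668322162) (nat_lit 228) (nat_lit 5) (nat_lit 236) (nat_lit 5) (nat_lit 229) (nat_lit 5) (nat_lit 666) (nat_lit 597) (nat_lit 297))) (XT.nd (nat_lit 78) (nat_lit 0) (nat_lit 0)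 (XT.lf (nat_lit 0) (nat_lit 3501124747) (nat_lit 456) (nat_lit 22659727529) (nat_lit 532) (nat_lit 14122188051) (nat_lit 222) (nat_lit 5) (nat_lit 228) (nat_lit 5) (nat_lit 229) (nat_lit 5) (nat_lit 667) (nat_lit 597) (nat_lit 296)) (XT.lf (nat_lit 0) (nat_lit 27916415798) (nat_lit 456) (nat_lit 6734048016) (nat_lit 532) (nat_lit 6115668477) (nat_lit 222) (nat_lit 5) (nat_lit 228) (nat_lit 5) (nat_lit 229) (nat_lit 5) (nat_lit 668) (nat_lit 597) (nat_lit 295)))) (XT.nd (nat_lit 156) (nat_lit 912) (nat_lit 0) (XT.nd (nat_lit 78) (nat_lit 0) (nat_lit 0) (XT.lf (nat_lit 0) (nat_lit 2160691080) (nat_lit 532) (nat_lit 29620605432) (nat_lit 76) (nat_lit 9474591117) (nat_lit 215) (nat_lit 5) (nat_lit 222) (nat_lit 5) (nat_lit 216) (nat_lit 5) (nat_lit 669) (nat_lit 597) (nat_lit 294)) (XT.lf (nat_lit 0) (nat_lit 10650493350) (nat_lit 532) (nat_lit 5057614163) (nat_lit 76) (nat_lit 26043926012) (nat_lit 215) (nat_lit 5) (nat_lit 222) (nat_lit 5) (nat_lit 216)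 (nat_lit 5) (nat_lit 670) (nat_lit 597) (nat_lit 293))) (XT.nd (nat_lit 78) (nat_lit 456) (nat_lit 0) (XT.lf (nat_lit 0) (nat_lit 19445321790) (nat_lit 532) (nat_lit 22000825109) (nat_lit 76) (nat_lit 809250870) (nat_lit 209) (nat_lit 5) (nat_lit 216) (nat_lit 5) (nat_lit 210) (nat_lit 5) (nat_lit 671) (nat_lit 597) (nat_lit 292)) (XT.lf (nat_lit 0) (nat_lit 3310212390) (nat_lit 456) (nat_lit 25263894740) (nat_lit 532) (nat_lit 14191560992) (nat_lit 203) (nat_lit 5) (nat_lit 209) (nat_lit 5) (nat_lit 210) (nat_lit 5) (nat_lit 672) (nat_lit 597) (nat_lit 291))))) (XT.nd (nat_lit 312) (nat_lit 836) (nat_lit 0) (XT.nd (nat_lit 156) (nat_lit 456) (nat_lit 0) (XT.nd (nat_lit 78) (nat_lit 456) (nat_lit 0) (XT.lf (nat_lit 0) (nat_lit 29423353462) (nat_lit 456) (nat_lit 8608145451) (nat_lit 532) (nat_lit 5251724383) (nat_lit 203) (nat_lit 5) (nat_lit 209) (nat_lit 5) (nat_lit 210) (nat_lit 5) (nat_lit 673) (nat_lit 597) (nat_lit 290)) (XT.lf (nat_lit 0) (nat_lit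 3950111590) (nat_lit 456) (nat_lit 31481556358) (nat_lit 76) (nat_lit 8376281166) (nat_lit 197) (nat_lit 5) (nat_lit 203) (nat_lit 5) (nat_lit 198) (nat_lit 5) (nat_lit 674) (nat_lit 597) (nat_lit 289))) (XT.nd (nat_lit 78) (nat_lit 456) (nat_lit 0) (XT.lf (nat_lit 0) (nat_lit 13414785990) (nat_lit 456) (nat_lit 5211788351) (nat_lit 76) (nat_lit 25712918412) (nat_lit 197) (nat_lit 5) (nat_lit 203) (nat_lit 5) (nat_lit 198) (nat_lit 5) (nat_lit 675) (nat_lit 597) (nat_lit 288)) (XT.lf (nat_lit 0) (nat_lit 21867891376) (nat_lit 456) (nat_lit 1341300235) (nat_lit 532) (nat_lit 21669666927) (nat_lit 191) (nat_lit 5) (nat_lit 197) (nat_lit 5) (nat_lit 198) (nat_lit 5) (nat_lit 676) (nat_lit 597) (nat_lit 287)))) (XT.nd (nat_lit 156) (nat_lit 456) (nat_lit 0) (XT.nd (nat_lit 78) (nat_lit 0) (nat_lit 0) (XT.lf (nat_lit 0) (nat_lit 4076675316) (nat_lit 380) (nat_lit 29288714947) (nat_lit 456) (nat_lit 12060303303) (nat_lit 186) (nat_lit 5) (nat_lit 191) (nat_lit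 5) (nat_lit 192) (nat_lit 5) (nat_lit 677) (nat_lit 597) (nat_lit 286)) (XT.lf (nat_lit 0) (nat_lit 32006708940) (nat_lit 380) (nat_lit 11879726811) (nat_lit 456) (nat_lit 2093795113) (nat_lit 186) (nat_lit 5) (nat_lit 191) (nat_lit 5) (nat_lit 192) (nat_lit 5) (nat_lit 678) (nat_lit 597) (nat_lit 285))) (XT.nd (nat_lit 78) (nat_lit 0) (nat_lit 0) (XT.lf (nat_lit 0) (nat_lit 8095200704) (nat_lit 456) (nat_lit 32502645914) (nat_lit 76) (nat_lit 5944383660) (nat_lit 180) (nat_lit 5) (nat_lit 186) (nat_lit 5) (nat_lit 181) (nat_lit 5) (nat_lit 679) (nat_lit 597) (nat_lit 284)) (XT.lf (nat_lit 0) (nat_lit 18631543669) (nat_lit 456) (nat_lit 4406653317) (nat_lit 76) (nat_lit 24073563855) (nat_lit 180) (nat_lit 5) (nat_lit 186) (nat_lit 5) (nat_lit 181) (nat_lit 5) (nat_lit 680) (nat_lit 597) (nat_lit 283))))))))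
noncomputable def xc204 : XT := (XT.nd (nat_lit 76674) (nat_lit 0) (nat_lit 9880) (XT.nd (nat_lit 75426) (nat_lit 0) (nat_lit 23408) (XT.nd (nat_lit 74802) (nat_lit 0) (nat_lit 24624) (XT.nd (nat_lit 234) (nat_lit 760) (nat_lit 0) (XT.nd (nat_lit 78) (nat_lit 456) (nat_lit 0) (XT.lf (nat_lit 0) (nat_lit 24571294800) (nat_lit 380) (nat_lit 4965393578) (nat_lit 456) (nat_lit 18152832164) (nat_lit 175) (nat_lit 5) (nat_lit 180) (nat_lit 5) (nat_lit 181) (nat_lit 5) (nat_lit 681) (nat_lit 597) (nat_lit 282)) (XT.nd (nat_lit 78) (nat_lit 76) (nat_lit 0) (XT.lf (nat_lit 0) (nat_lit 5897766206) (nat_lit 380) (nat_lit 34916228648) (nat_lit 456) (nat_lit 7461759429) (nat_lit 170) (nat_lit 5) (nat_lit 175) (nat_lit 5) (nat_lit 176) (nat_lit 5) (nat_lit 682) (nat_lit 597) (nat_lit 281)) (XT.lf (nat_lit 0) (nat_lit 3585579231) (nat_lit 456) (nat_lit 13121659429) (nat_lit 76) (nat_lit 32162274925) (nat_lit 169) (nat_lit 5) (nat_lit 175) (nat_lit 5) (nat_lit 170) (nat_lit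 5) (nat_lit 683) (nat_lit 597) (nat_lit 280)))) (XT.nd (nat_lit 156) (nat_lit 380) (nat_lit 0) (XT.nd (nat_lit 78) (nat_lit 0) (nat_lit 0) (XT.lf (nat_lit 0) (nat_lit 14875451419) (nat_lit 456) (nat_lit 32595457940) (nat_lit 76) (nat_lit 2000822297) (nat_lit 164) (nat_lit 5) (nat_lit 170) (nat_lit 5) (nat_lit 165) (nat_lit 5) (nat_lit 684) (nat_lit 597) (nat_lit 279)) (XT.lf (nat_lit 0) (nat_lit 26588993869) (nat_lit 456) (nat_lit 2545627014) (nat_lit 76) (nat_lit 20947415770) (nat_lit 164) (nat_lit 5) (nat_lit 170) (nat_lit 5) (nat_lit 165) (nat_lit 5) (nat_lit 685) (nat_lit 597) (nat_lit 278))) (XT.nd (nat_lit 74334) (nat_lit 0) (nat_lit 26372) (XT.lf (nat_lit 0) (nat_lit 28476518363) (nat_lit 380) (nat_lit 10243797330) (nat_lit 456) (nat_lit 11980561910) (nat_lit 159) (nat_lit 5) (nat_lit 164) (nat_lit 5) (nat_lit 165) (nat_lit 5) (nat_lit 686) (nat_lit 597) (nat_lit 277)) (XT.lf (nat_lit 0) (nat_lit 4521426911) (nat_lit 0) (nat_lit 4521426911) (nat_lit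 1748) (nat_lit 530686748) (nat_lit 506) (nat_lit 5) (nat_lit 506) (nat_lit 3) (nat_lit 529) (nat_lit 3) (nat_lit 598) (nat_lit 598) (nat_lit 364))))) (XT.nd (nat_lit 312) (nat_lit 0) (nat_lit 0) (XT.nd (nat_lit 156) (nat_lit 1748) (nat_lit 0) (XT.nd (nat_lit 78) (nat_lit 0) (nat_lit 0) (XT.lf (nat_lit 0) (nat_lit 18449458639) (nat_lit 1748) (nat_lit 569944343) (nat_lit 1824) (nat_lit 315485472) (nat_lit 506) (nat_lit 5) (nat_lit 529) (nat_lit 3) (nat_lit 530) (nat_lit 5) (nat_lit 599) (nat_lit 598) (nat_lit 363)) (XT.lf (nat_lit 76) (nat_lit 9213492585) (nat_lit 0) (nat_lit 9721971088) (nat_lit 1824) (nat_lit 588688810) (nat_lit 507) (nat_lit 5) (nat_lit 506) (nat_lit 5) (nat_lit 530) (nat_lit 5) (nat_lit 600) (nat_lit 598) (nat_lit 362))) (XT.nd (nat_lit 78) (nat_lit 1748) (nat_lit 0) (XT.lf (nat_lit 76) (nat_lit 19197858458) (nat_lit 0) (nat_lit 232504132) (nat_lit 1824) (nat_lit 286855870) (nat_lit 507) (nat_lit 5) (nat_lit 506) (nat_lit 5) (nat_lit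 530) (nat_lit 5) (nat_lit 601) (nat_lit 598) (nat_lit 361)) (XT.lf (nat_lit 0) (nat_lit 140180456) (nat_lit 1824) (nat_lit 10383813137) (nat_lit 1900) (nat_lit 9387760726) (nat_lit 483) (nat_lit 5) (nat_lit 507) (nat_lit 5) (nat_lit 508) (nat_lit 5) (nat_lit 602) (nat_lit 598) (nat_lit 360)))) (XT.nd (nat_lit 156) (nat_lit 0) (nat_lit 76) (XT.nd (nat_lit 78) (nat_lit 0) (nat_lit 76) (XT.lf (nat_lit 0) (nat_lit 572465485) (nat_lit 1824) (nat_lit 332911111) (nat_lit 1900) (nat_lit 19204755536) (nat_lit 483) (nat_lit 5) (nat_lit 507) (nat_lit 5) (nat_lit 508) (nat_lit 5) (nat_lit 603) (nat_lit 598) (nat_lit 359)) (XT.lf (nat_lit 0) (nat_lit 1132487479) (nat_lit 1824) (nat_lit 10321248222) (nat_lit 1900) (nat_lit 8856360107) (nat_lit 484) (nat_lit 5) (nat_lit 508) (nat_lit 5) (nat_lit 509) (nat_lit 5) (nat_lit 604) (nat_lit 598) (nat_lit 358))) (XT.nd (nat_lit 78) (nat_lit 0) (nat_lit 76) (XT.lf (nat_lit 0) (nat_lit 1707622548) (nat_lit 1824) (nat_lit 1068538)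 (nat_lit 1900) (nat_lit 18805289549) (nat_lit 484) (nat_lit 5) (nat_lit 508) (nat_lit 5) (nat_lit 509) (nat_lit 5) (nat_lit 605) (nat_lit 598) (nat_lit 357)) (XT.lf (nat_lit 0) (nat_lit 2413155550) (nat_lit 1824) (nat_lit 10111743479) (nat_lit 1900) (nat_lit 8194666355) (nat_lit 485) (nat_lit 5) (nat_lit 509) (nat_lit 5) (nat_lit 510) (nat_lit 5) (nat_lit 606) (nat_lit 598) (nat_lit 356)))))) (XT.nd (nat_lit 624) (nat_lit 1368) (nat_lit 0) (XT.nd (nat_lit 312) (nat_lit 0) (nat_lit 152) (XT.nd (nat_lit 156) (nat_lit 0) (nat_lit 76) (XT.nd (nat_lit 78) (nat_lit 0) (nat_lit 76) (XT.lf (nat_lit 76) (nat_lit 492157106) (nat_lit 0) (nat_lit 2650991031) (nat_lit 1900) (nat_lit 17785906837) (nat_lit 486) (nat_lit 5) (nat_lit 485) (nat_lit 5) (nat_lit 510) (nat_lit 5) (nat_lit 607) (nat_lit 598) (nat_lit 355)) (XT.lf (nat_lit 0) (nat_lit 4000128208) (nat_lit 1824) (nat_lit 9747501074) (nat_lit 1900) (nat_lit 7392857445) (nat_lit 486) (nat_lit 5) (nat_lit 510) (nat_lit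 5) (nat_lit 511) (nat_lit 5) (nat_lit 608) (nat_lit 598) (nat_lit 354))) (XT.nd (nat_lit 78) (nat_lit 0) (nat_lit 76) (XT.lf (nat_lit 76) (nat_lit 1150570927) (nat_lit 0) (nat_lit 3744688757) (nat_lit 1900) (nat_lit 16460467315) (nat_lit 487) (nat_lit 5) (nat_lit 486) (nat_lit 5) (nat_lit 511) (nat_lit 5) (nat_lit 609) (nat_lit 598) (nat_lit 353)) (XT.lf (nat_lit 0) (nat_lit 5912125027) (nat_lit 1824) (nat_lit 9220311175) (nat_lit 1900) (nat_lit 6440759371) (nat_lit 487) (nat_lit 5) (nat_lit 511) (nat_lit 5) (nat_lit 512) (nat_lit 5) (nat_lit 610) (nat_lit 598) (nat_lit 352)))) (XT.nd (nat_lit 156) (nat_lit 0) (nat_lit 76) (XT.nd (nat_lit 78) (nat_lit 0) (nat_lit 76) (XT.lf (nat_lit 76) (nat_lit 1982772237) (nat_lit 0) (nat_lit 5000361066) (nat_lit 1900) (nat_lit 14811204215) (nat_lit 488) (nat_lit 5) (nat_lit 487) (nat_lit 5) (nat_lit 512) (nat_lit 5) (nat_lit 611) (nat_lit 598) (nat_lit 351)) (XT.lf (nat_lit 0) (nat_lit 8168677905) (nat_lit 1824) (nat_lit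 8521537552) (nat_lit 1900) (nat_lit 5327824638) (nat_lit 488) (nat_lit 5) (nat_lit 512) (nat_lit 5) (nat_lit 513) (nat_lit 5) (nat_lit 612) (nat_lit 598) (nat_lit 350))) (XT.nd (nat_lit 78) (nat_lit 0) (nat_lit 76) (XT.lf (nat_lit 76) (nat_lit 2997816343) (nat_lit 0) (nat_lit 6428969456) (nat_lit 1900) (nat_lit 12818453989) (nat_lit 489) (nat_lit 5) (nat_lit 488) (nat_lit 5) (nat_lit 513) (nat_lit 5) (nat_lit 613) (nat_lit 598) (nat_lit 349)) (XT.lf (nat_lit 0) (nat_lit 10790168681) (nat_lit 1824) (nat_lit 7642102432) (nat_lit 1900) (nat_lit 4043110214) (nat_lit 489) (nat_lit 5) (nat_lit 513) (nat_lit 5) (nat_lit 514) (nat_lit 5) (nat_lit 614) (nat_lit 598) (nat_lit 348))))) (XT.nd (nat_lit 312) (nat_lit 1672) (nat_lit 0) (XT.nd (nat_lit 156) (nat_lit 0) (nat_lit 76) (XT.nd (nat_lit 78) (nat_lit 0) (nat_lit 76) (XT.lf (nat_lit 76) (nat_lit 4205216112) (nat_lit 0) (nat_lit 8041889948) (nat_lit 1900) (nat_lit 10461694007) (nat_lit 490) (nat_lit 5) (nat_lit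 489) (nat_lit 5) (nat_lit 514) (nat_lit 5) (nat_lit 615) (nat_lit 598) (nat_lit 347)) (XT.lf (nat_lit 0) (nat_lit 13797868131) (nat_lit 1824) (nat_lit 6572470578) (nat_lit 1900) (nat_lit 2575254858) (nat_lit 490) (nat_lit 5) (nat_lit 514) (nat_lit 5) (nat_lit 515) (nat_lit 5) (nat_lit 616) (nat_lit 598) (nat_lit 346))) (XT.nd (nat_lit 78) (nat_lit 0) (nat_lit 76) (XT.lf (nat_lit 76) (nat_lit 5614958533) (nat_lit 0) (nat_lit 9850936384) (nat_lit 1900) (nat_lit 7719503136) (nat_lit 491) (nat_lit 5) (nat_lit 490) (nat_lit 5) (nat_lit 515) (nat_lit 5) (nat_lit 617) (nat_lit 598) (nat_lit 345)) (XT.lf (nat_lit 0) (nat_lit 17213976436) (nat_lit 1824) (nat_lit 5302632584) (nat_lit 1900) (nat_lit 912455825) (nat_lit 491) (nat_lit 5) (nat_lit 515) (nat_lit 5) (nat_lit 516) (nat_lit 5) (nat_lit 618) (nat_lit 598) (nat_lit 344)))) (XT.nd (nat_lit 156) (nat_lit 1824) (nat_lit 0) (XT.nd (nat_lit 78) (nat_lit 0) (nat_lit 0) (XT.lf (nat_lit 76) (nat_lit 7237522082) (nat_lit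 0) (nat_lit 11868384396) (nat_lit 1900) (nat_lit 4569520856) (nat_lit 492) (nat_lit 5) (nat_lit 491) (nat_lit 5) (nat_lit 516) (nat_lit 5) (nat_lit 619) (nat_lit 598) (nat_lit 343)) (XT.lf (nat_lit 76) (nat_lit 20097684310) (nat_lit 0) (nat_lit 970280543) (nat_lit 1900) (nat_lit 2858106522) (nat_lit 492) (nat_lit 5) (nat_lit 491) (nat_lit 5) (nat_lit 516) (nat_lit 5) (nat_lit 620) (nat_lit 598) (nat_lit 342))) (XT.nd (nat_lit 78) (nat_lit 1900) (nat_lit 0) (XT.lf (nat_lit 76) (nat_lit 9083894929) (nat_lit 0) (nat_lit 14106996109) (nat_lit 1900) (nat_lit 988404822) (nat_lit 493) (nat_lit 5) (nat_lit 492) (nat_lit 5) (nat_lit 517) (nat_lit 5) (nat_lit 621) (nat_lit 598) (nat_lit 341)) (XT.lf (nat_lit 0) (nat_lit 935727983) (nat_lit 1900) (nat_lit 2146029479) (nat_lit 1976) (nat_lit 21355126452) (nat_lit 467) (nat_lit 5) (nat_lit 492) (nat_lit 5) (nat_lit 493) (nat_lit 5) (nat_lit 622) (nat_lit 598) (nat_lit 340))))))) (XT.nd (nat_lit 1170) (nat_lit 6384)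 (nat_lit 0) (XT.nd (nat_lit 546) (nat_lit 4256) (nat_lit 0) (XT.nd (nat_lit 234) (nat_lit 1824) (nat_lit 0) (XT.nd (nat_lit 78) (nat_lit 1140) (nat_lit 0) (XT.lf (nat_lit 0) (nat_lit 3008235304) (nat_lit 1900) (nat_lit 13551623467) (nat_lit 76) (nat_lit 8137171848) (nat_lit 468) (nat_lit 5) (nat_lit 493) (nat_lit 5) (nat_lit 469) (nat_lit 5) (nat_lit 623) (nat_lit 598) (nat_lit 339)) (XT.nd (nat_lit 78) (nat_lit 1140) (nat_lit 0) (XT.lf (nat_lit 0) (nat_lit 5154007684) (nat_lit 1900) (nat_lit 253543431) (nat_lit 76) (nat_lit 19554192934) (nat_lit 468) (nat_lit 5) (nat_lit 493) (nat_lit 5) (nat_lit 469) (nat_lit 5) (nat_lit 624) (nat_lit 598) (nat_lit 338)) (XT.lf (nat_lit 0) (nat_lit 7466546436) (nat_lit 1216) (nat_lit 11784694368) (nat_lit 76) (nat_lit 5978034011) (nat_lit 453) (nat_lit 5) (nat_lit 469) (nat_lit 5) (nat_lit 454) (nat_lit 5) (nat_lit 625) (nat_lit 598) (nat_lit 337)))) (XT.nd (nat_lit 156) (nat_lit 912) (nat_lit 0) (XT.nd (nat_lit 78)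 (nat_lit 0) (nat_lit 0) (XT.lf (nat_lit 0) (nat_lit 1904434779) (nat_lit 912) (nat_lit 7967805014) (nat_lit 988) (nat_lit 15628978412) (nat_lit 441) (nat_lit 5) (nat_lit 453) (nat_lit 5) (nat_lit 454) (nat_lit 5) (nat_lit 626) (nat_lit 598) (nat_lit 336)) (XT.lf (nat_lit 0) (nat_lit 12425702215) (nat_lit 988) (nat_lit 9776187610) (nat_lit 76) (nat_lit 3574717615) (nat_lit 441) (nat_lit 5) (nat_lit 454) (nat_lit 5) (nat_lit 442) (nat_lit 5) (nat_lit 627) (nat_lit 598) (nat_lit 335))) (XT.nd (nat_lit 78) (nat_lit 0) (nat_lit 0) (XT.lf (nat_lit 0) (nat_lit 4322047695) (nat_lit 912) (nat_lit 10786129920) (nat_lit 988) (nat_lit 10947768053) (nat_lit 429) (nat_lit 5) (nat_lit 441) (nat_lit 5) (nat_lit 442) (nat_lit 5) (nat_lit 628) (nat_lit 598) (nat_lit 334)) (XT.lf (nat_lit 0) (nat_lit 17913066245) (nat_lit 988) (nat_lit 7513527257) (nat_lit 76) (nat_lit 912901963) (nat_lit 429) (nat_lit 5) (nat_lit 442) (nat_lit 5) (nat_lit 430) (nat_lit 5) (nat_lit 629)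 (nat_lit 598) (nat_lit 333))))) (XT.nd (nat_lit 312) (nat_lit 2432) (nat_lit 0) (XT.nd (nat_lit 156) (nat_lit 988) (nat_lit 0) (XT.nd (nat_lit 78) (nat_lit 0) (nat_lit 0) (XT.lf (nat_lit 0) (nat_lit 7009067913) (nat_lit 836) (nat_lit 13879134897) (nat_lit 912) (nat_lit 5738230524) (nat_lit 418) (nat_lit 5) (nat_lit 429) (nat_lit 5) (nat_lit 430) (nat_lit 5) (nat_lit 630) (nat_lit 598) (nat_lit 332)) (XT.lf (nat_lit 0) (nat_lit 21921303615) (nat_lit 836) (nat_lit 2049206951) (nat_lit 912) (nat_lit 2947646101) (nat_lit 418) (nat_lit 5) (nat_lit 429) (nat_lit 5) (nat_lit 430) (nat_lit 5) (nat_lit 631) (nat_lit 598) (nat_lit 331))) (XT.nd (nat_lit 78) (nat_lit 0) (nat_lit 0) (XT.lf (nat_lit 0) (nat_lit 28054047) (nat_lit 988) (nat_lit 17234107983) (nat_lit 76) (nat_lit 9951006135) (nat_lit 405) (nat_lit 5) (nat_lit 418) (nat_lit 5) (nat_lit 406) (nat_lit 5) (nat_lit 632) (nat_lit 598) (nat_lit 330)) (XT.lf (nat_lit 0) (nat_lit 3068481879) (nat_lit 988) (nat_lit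 2227177564) (nat_lit 76) (nat_lit 22217137191) (nat_lit 405) (nat_lit 5) (nat_lit 418) (nat_lit 5) (nat_lit 406) (nat_lit 5) (nat_lit 633) (nat_lit 598) (nat_lit 329)))) (XT.nd (nat_lit 156) (nat_lit 760) (nat_lit 0) (XT.nd (nat_lit 78) (nat_lit 836) (nat_lit 0) (XT.lf (nat_lit 0) (nat_lit 6298561894) (nat_lit 912) (nat_lit 14611130633) (nat_lit 76) (nat_lit 6906148344) (nat_lit 394) (nat_lit 5) (nat_lit 406) (nat_lit 5) (nat_lit 395) (nat_lit 5) (nat_lit 634) (nat_lit 598) (nat_lit 328)) (XT.lf (nat_lit 0) (nat_lit 823750976) (nat_lit 836) (nat_lit 8822364209) (nat_lit 912) (nat_lit 18477773444) (nat_lit 383) (nat_lit 5) (nat_lit 394) (nat_lit 5) (nat_lit 395) (nat_lit 5) (nat_lit 635) (nat_lit 598) (nat_lit 327))) (XT.nd (nat_lit 78) (nat_lit 760) (nat_lit 0) (XT.lf (nat_lit 0) (nat_lit 13179526464) (nat_lit 912) (nat_lit 11696860602) (nat_lit 76) (nat_lit 3559332204) (nat_lit 383) (nat_lit 5) (nat_lit 395) (nat_lit 5) (nat_lit 384) (nat_lit 5) (nat_lit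 636) (nat_lit 598) (nat_lit 326)) (XT.lf (nat_lit 0) (nat_lit 4212663468) (nat_lit 760) (nat_lit 12654211655) (nat_lit 836) (nat_lit 11885246086) (nat_lit 373) (nat_lit 5) (nat_lit 383) (nat_lit 5) (nat_lit 384) (nat_lit 5) (nat_lit 637) (nat_lit 598) (nat_lit 325)))))) (XT.nd (nat_lit 624) (nat_lit 3344) (nat_lit 0) (XT.nd (nat_lit 312) (nat_lit 1444) (nat_lit 0) (XT.nd (nat_lit 156) (nat_lit 836) (nat_lit 0) (XT.nd (nat_lit 78) (nat_lit 760) (nat_lit 0) (XT.lf (nat_lit 0) (nat_lit 20596307319) (nat_lit 760) (nat_lit 107679169) (nat_lit 836) (nat_lit 8369344449) (nat_lit 373) (nat_lit 5) (nat_lit 383) (nat_lit 5) (nat_lit 384) (nat_lit 5) (nat_lit 638) (nat_lit 598) (nat_lit 324)) (XT.lf (nat_lit 0) (nat_lit 7925593339) (nat_lit 760) (nat_lit 16823666698) (nat_lit 836) (nat_lit 4649076487) (nat_lit 363) (nat_lit 5) (nat_lit 373) (nat_lit 5) (nat_lit 374) (nat_lit 5) (nat_lit 639) (nat_lit 598) (nat_lit 323))) (XT.nd (nat_lit 78) (nat_lit 836) (nat_lit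 0) (XT.lf (nat_lit 0) (nat_lit 24767844647) (nat_lit 760) (nat_lit 4162790088) (nat_lit 836) (nat_lit 798103639) (nat_lit 363) (nat_lit 5) (nat_lit 373) (nat_lit 5) (nat_lit 374) (nat_lit 5) (nat_lit 640) (nat_lit 598) (nat_lit 322)) (XT.lf (nat_lit 0) (nat_lit 3221957113) (nat_lit 836) (nat_lit 18105420367) (nat_lit 76) (nat_lit 8735302064) (nat_lit 352) (nat_lit 5) (nat_lit 363) (nat_lit 5) (nat_lit 353) (nat_lit 5) (nat_lit 641) (nat_lit 598) (nat_lit 321)))) (XT.nd (nat_lit 156) (nat_lit 684) (nat_lit 0) (XT.nd (nat_lit 78) (nat_lit 760) (nat_lit 0) (XT.lf (nat_lit 0) (nat_lit 7370482884) (nat_lit 836) (nat_lit 1157298891) (nat_lit 76) (nat_lit 21874237303) (nat_lit 352) (nat_lit 5) (nat_lit 363) (nat_lit 5) (nat_lit 353) (nat_lit 5) (nat_lit 642) (nat_lit 598) (nat_lit 320)) (XT.lf (nat_lit 0) (nat_lit 11735885206) (nat_lit 836) (nat_lit 14434621633) (nat_lit 76) (nat_lit 4574960503) (nat_lit 342) (nat_lit 5) (nat_lit 353) (nat_lit 5) (nat_lit 343)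 (nat_lit 5) (nat_lit 643) (nat_lit 598) (nat_lit 319))) (XT.nd (nat_lit 78) (nat_lit 0) (nat_lit 0) (XT.lf (nat_lit 0) (nat_lit 3029022919) (nat_lit 684) (nat_lit 13241266038) (nat_lit 760) (nat_lit 14823861802) (nat_lit 333) (nat_lit 5) (nat_lit 342) (nat_lit 5) (nat_lit 343) (nat_lit 5) (nat_lit 644) (nat_lit 598) (nat_lit 318)) (XT.lf (nat_lit 0) (nat_lit 20990298849) (nat_lit 760) (nat_lit 10413173153) (nat_lit 76) (nat_lit 44437538) (nat_lit 333) (nat_lit 5) (nat_lit 343) (nat_lit 5) (nat_lit 334) (nat_lit 5) (nat_lit 645) (nat_lit 598) (nat_lit 317))))) (XT.nd (nat_lit 312) (nat_lit 1900) (nat_lit 0) (XT.nd (nat_lit 156) (nat_lit 760) (nat_lit 0) (XT.nd (nat_lit 78) (nat_lit 0) (nat_lit 0) (XT.lf (nat_lit 0) (nat_lit 7601259726) (nat_lit 684) (nat_lit 18338295708) (nat_lit 760) (nat_lit 5866491187) (nat_lit 324) (nat_lit 5) (nat_lit 333) (nat_lit 5) (nat_lit 334) (nat_lit 5) (nat_lit 646) (nat_lit 598) (nat_lit 316)) (XT.lf (nat_lit 0) (nat_lit 26114589137)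 (nat_lit 684) (nat_lit 4940916000) (nat_lit 760) (nat_lit 1114487200) (nat_lit 324) (nat_lit 5) (nat_lit 333) (nat_lit 5) (nat_lit 334) (nat_lit 5) (nat_lit 647) (nat_lit 598) (nat_lit 315))) (XT.nd (nat_lit 78) (nat_lit 0) (nat_lit 0) (XT.lf (nat_lit 0) (nat_lit 3820584175) (nat_lit 760) (nat_lit 20001083009) (nat_lit 76) (nat_lit 8716325543) (nat_lit 314) (nat_lit 5) (nat_lit 324) (nat_lit 5) (nat_lit 315) (nat_lit 5) (nat_lit 648) (nat_lit 598) (nat_lit 314)) (XT.lf (nat_lit 0) (nat_lit 8910954977) (nat_lit 760) (nat_lit 1372307304) (nat_lit 76) (nat_lit 22628513137) (nat_lit 314) (nat_lit 5) (nat_lit 324) (nat_lit 5) (nat_lit 315) (nat_lit 5) (nat_lit 649) (nat_lit 598) (nat_lit 313)))) (XT.nd (nat_lit 156) (nat_lit 608) (nat_lit 0) (XT.nd (nat_lit 78) (nat_lit 608) (nat_lit 0) (XT.lf (nat_lit 0) (nat_lit 14240678335) (nat_lit 760) (nat_lit 15453619723) (nat_lit 76) (nat_lit 3595984853) (nat_lit 305) (nat_lit 5) (nat_lit 315) (nat_lit 5) (nat_lit 306)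 (nat_lit 5) (nat_lit 650) (nat_lit 598) (nat_lit 312)) (XT.lf (nat_lit 0) (nat_lit 3750749212) (nat_lit 608) (nat_lit 16025915318) (nat_lit 684) (nat_lit 13897702705) (nat_lit 297) (nat_lit 5) (nat_lit 305) (nat_lit 5) (nat_lit 306) (nat_lit 5) (nat_lit 651) (nat_lit 598) (nat_lit 311))) (XT.nd (nat_lit 78) (nat_lit 608) (nat_lit 0) (XT.lf (nat_lit 0) (nat_lit 23546180804) (nat_lit 608) (nat_lit 1978860665) (nat_lit 684) (nat_lit 8539058404) (nat_lit 297) (nat_lit 5) (nat_lit 305) (nat_lit 5) (nat_lit 306) (nat_lit 5) (nat_lit 652) (nat_lit 598) (nat_lit 310)) (XT.lf (nat_lit 0) (nat_lit 9315397803) (nat_lit 608) (nat_lit 22211654577) (nat_lit 684) (nat_lit 2931801501) (nat_lit 289) (nat_lit 5) (nat_lit 297) (nat_lit 5) (nat_lit 298) (nat_lit 5) (nat_lit 653) (nat_lit 598) (nat_lit 309))))))))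
noncomputable def xc205 : XT := (XT.nd (nat_lit 2418) (nat_lit 380) (nat_lit 0) (XT.nd (nat_lit 1170) (nat_lit 4028) (nat_lit 0) (XT.nd (nat_lit 546) (nat_lit 2584) (nat_lit 0) (XT.nd (nat_lit 234) (nat_lit 1216) (nat_lit 0) (XT.nd (nat_lit 78) (nat_lit 1216) (nat_lit 0) (XT.lf (nat_lit 0) (nat_lit 2833209743) (nat_lit 684) (nat_lit 5206309022) (nat_lit 76) (nat_lit 26819978888) (nat_lit 288) (nat_lit 5) (nat_lit 297) (nat_lit 5) (nat_lit 289) (nat_lit 5) (nat_lit 654) (nat_lit 598) (nat_lit 308)) (XT.nd (nat_lit 78) (nat_lit 608) (nat_lit 0) (XT.lf (nat_lit 0) (nat_lit 8814189542) (nat_lit 684) (nat_lit 19999770686) (nat_lit 76) (nat_lit 6451008030) (nat_lit 280) (nat_lit 5) (nat_lit 289) (nat_lit 5) (nat_lit 281) (nat_lit 5) (nat_lit 655) (nat_lit 598) (nat_lit 307)) (XT.lf (nat_lit 0) (nat_lit 489331660) (nat_lit 608) (nat_lit 14515118397) (nat_lit 684) (nat_lit 20672305040) (nat_lit 272) (nat_lit 5) (nat_lit 280) (nat_lit 5) (nat_lit 281) (nat_lit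 5) (nat_lit 656) (nat_lit 598) (nat_lit 306)))) (XT.nd (nat_lit 156) (nat_lit 684) (nat_lit 0) (XT.nd (nat_lit 78) (nat_lit 532) (nat_lit 0) (XT.lf (nat_lit 0) (nat_lit 21452158141) (nat_lit 684) (nat_lit 14438605382) (nat_lit 76) (nat_lit 203341344) (nat_lit 272) (nat_lit 5) (nat_lit 281) (nat_lit 5) (nat_lit 273) (nat_lit 5) (nat_lit 657) (nat_lit 598) (nat_lit 305)) (XT.lf (nat_lit 0) (nat_lit 6714686789) (nat_lit 532) (nat_lit 21451985849) (nat_lit 608) (nat_lit 8350371990) (nat_lit 265) (nat_lit 5) (nat_lit 272) (nat_lit 5) (nat_lit 273) (nat_lit 5) (nat_lit 658) (nat_lit 598) (nat_lit 304))) (XT.nd (nat_lit 78) (nat_lit 684) (nat_lit 0) (XT.lf (nat_lit 0) (nat_lit 28484339994) (nat_lit 532) (nat_lit 6626178453) (nat_lit 608) (nat_lit 1836023958) (nat_lit 265) (nat_lit 5) (nat_lit 272) (nat_lit 5) (nat_lit 273) (nat_lit 5) (nat_lit 659) (nat_lit 598) (nat_lit 303)) (XT.lf (nat_lit 0) (nat_lit 4886973777) (nat_lit 684) (nat_lit 23990738763) (nat_lit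 76) (nat_lit 8503464652) (nat_lit 256) (nat_lit 5) (nat_lit 265) (nat_lit 5) (nat_lit 257) (nat_lit 5) (nat_lit 660) (nat_lit 598) (nat_lit 302))))) (XT.nd (nat_lit 312) (nat_lit 1520) (nat_lit 0) (XT.nd (nat_lit 156) (nat_lit 532) (nat_lit 0) (XT.nd (nat_lit 78) (nat_lit 532) (nat_lit 0) (XT.lf (nat_lit 0) (nat_lit 11819105104) (nat_lit 684) (nat_lit 2087363889) (nat_lit 76) (nat_lit 23915807839) (nat_lit 256) (nat_lit 5) (nat_lit 265) (nat_lit 5) (nat_lit 257) (nat_lit 5) (nat_lit 661) (nat_lit 598) (nat_lit 301)) (XT.lf (nat_lit 0) (nat_lit 19031076358) (nat_lit 608) (nat_lit 17758461864) (nat_lit 76) (nat_lit 1479836332) (nat_lit 249) (nat_lit 5) (nat_lit 257) (nat_lit 5) (nat_lit 250) (nat_lit 5) (nat_lit 662) (nat_lit 598) (nat_lit 300))) (XT.nd (nat_lit 78) (nat_lit 0) (nat_lit 0) (XT.lf (nat_lit 0) (nat_lit 4833128764) (nat_lit 532) (nat_lit 21689976244) (nat_lit 608) (nat_lit 12199592901) (nat_lit 242) (nat_lit 5) (nat_lit 249) (nat_lit 5) (nat_lit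 250) (nat_lit 5) (nat_lit 663) (nat_lit 598) (nat_lit 299)) (XT.lf (nat_lit 0) (nat_lit 28114902037) (nat_lit 532) (nat_lit 6167502100) (nat_lit 608) (nat_lit 4900335032) (nat_lit 242) (nat_lit 5) (nat_lit 249) (nat_lit 5) (nat_lit 250) (nat_lit 5) (nat_lit 664) (nat_lit 598) (nat_lit 298)))) (XT.nd (nat_lit 156) (nat_lit 988) (nat_lit 0) (XT.nd (nat_lit 78) (nat_lit 0) (nat_lit 0) (XT.lf (nat_lit 0) (nat_lit 2653412923) (nat_lit 532) (nat_lit 27359993625) (nat_lit 76) (nat_lit 9635406641) (nat_lit 235) (nat_lit 5) (nat_lit 242) (nat_lit 5) (nat_lit 236) (nat_lit 5) (nat_lit 665) (nat_lit 598) (nat_lit 297)) (XT.lf (nat_lit 0) (nat_lit 10406587395) (nat_lit 532) (nat_lit 3936235823) (nat_lit 76) (nat_lit 25778458338) (nat_lit 235) (nat_lit 5) (nat_lit 242) (nat_lit 5) (nat_lit 236) (nat_lit 5) (nat_lit 666) (nat_lit 598) (nat_lit 296))) (XT.nd (nat_lit 78) (nat_lit 456) (nat_lit 0) (XT.lf (nat_lit 0) (nat_lit 18455952146) (nat_lit 608) (nat_lit 20393271187)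 (nat_lit 76) (nat_lit 1751153455) (nat_lit 228) (nat_lit 5) (nat_lit 236) (nat_lit 5) (nat_lit 229) (nat_lit 5) (nat_lit 667) (nat_lit 598) (nat_lit 295)) (XT.lf (nat_lit 0) (nat_lit 3749836272) (nat_lit 456) (nat_lit 23060734455) (nat_lit 532) (nat_lit 14275597900) (nat_lit 222) (nat_lit 5) (nat_lit 228) (nat_lit 5) (nat_lit 229) (nat_lit 5) (nat_lit 668) (nat_lit 598) (nat_lit 294)))))) (XT.nd (nat_lit 624) (nat_lit 2128) (nat_lit 0) (XT.nd (nat_lit 312) (nat_lit 912) (nat_lit 0) (XT.nd (nat_lit 156) (nat_lit 456) (nat_lit 0) (XT.nd (nat_lit 78) (nat_lit 532) (nat_lit 0) (XT.lf (nat_lit 0) (nat_lit 28649929437) (nat_lit 456) (nat_lit 6817564638) (nat_lit 532) (nat_lit 6111478012) (nat_lit 222) (nat_lit 5) (nat_lit 228) (nat_lit 5) (nat_lit 229) (nat_lit 5) (nat_lit 669) (nat_lit 598) (nat_lit 293)) (XT.lf (nat_lit 0) (nat_lit 2327780899) (nat_lit 532) (nat_lit 30035199662) (nat_lit 76) (nat_lit 9715544965) (nat_lit 215) (nat_lit 5) (nat_lit 222) (nat_lit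 5) (nat_lit 216) (nat_lit 5) (nat_lit 670) (nat_lit 598) (nat_lit 292))) (XT.nd (nat_lit 78) (nat_lit 456) (nat_lit 0) (XT.lf (nat_lit 0) (nat_lit 10984950274) (nat_lit 532) (nat_lit 4984435193) (nat_lit 76) (nat_lit 26615257499) (nat_lit 215) (nat_lit 5) (nat_lit 222) (nat_lit 5) (nat_lit 216) (nat_lit 5) (nat_lit 671) (nat_lit 598) (nat_lit 291)) (XT.lf (nat_lit 0) (nat_lit 19954762469) (nat_lit 532) (nat_lit 22265595299) (nat_lit 76) (nat_lit 877735027) (nat_lit 209) (nat_lit 5) (nat_lit 216) (nat_lit 5) (nat_lit 210) (nat_lit 5) (nat_lit 672) (nat_lit 598) (nat_lit 290)))) (XT.nd (nat_lit 156) (nat_lit 456) (nat_lit 0) (XT.nd (nat_lit 78) (nat_lit 0) (nat_lit 0) (XT.lf (nat_lit 0) (nat_lit 3550510014) (nat_lit 456) (nat_lit 25714380414) (nat_lit 532) (nat_lit 14353702832) (nat_lit 203) (nat_lit 5) (nat_lit 209) (nat_lit 5) (nat_lit 210) (nat_lit 5) (nat_lit 673) (nat_lit 598) (nat_lit 289)) (XT.lf (nat_lit 0) (nat_lit 30182500312) (nat_lit 456) (nat_lit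 8726590496) (nat_lit 532) (nat_lit 5237455557) (nat_lit 203) (nat_lit 5) (nat_lit 209) (nat_lit 5) (nat_lit 210) (nat_lit 5) (nat_lit 674) (nat_lit 598) (nat_lit 288))) (XT.nd (nat_lit 78) (nat_lit 0) (nat_lit 0) (XT.lf (nat_lit 0) (nat_lit 4146009152) (nat_lit 456) (nat_lit 31938095532) (nat_lit 76) (nat_lit 8597663432) (nat_lit 197) (nat_lit 5) (nat_lit 203) (nat_lit 5) (nat_lit 198) (nat_lit 5) (nat_lit 675) (nat_lit 598) (nat_lit 287)) (XT.lf (nat_lit 0) (nat_lit 13797684975) (nat_lit 456) (nat_lit 5146326124) (nat_lit 76) (nat_lit 26279977411) (nat_lit 197) (nat_lit 5) (nat_lit 203) (nat_lit 5) (nat_lit 198) (nat_lit 5) (nat_lit 676) (nat_lit 598) (nat_lit 286))))) (XT.nd (nat_lit 312) (nat_lit 836) (nat_lit 0) (XT.nd (nat_lit 156) (nat_lit 456) (nat_lit 0) (XT.nd (nat_lit 78) (nat_lit 380) (nat_lit 0) (XT.lf (nat_lit 0) (nat_lit 22473830763) (nat_lit 456) (nat_lit 1312995366) (nat_lit 532) (nat_lit 21987338573) (nat_lit 191) (nat_lit 5) (nat_lit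 197) (nat_lit 5) (nat_lit 198) (nat_lit 5) (nat_lit 677) (nat_lit 598) (nat_lit 285)) (XT.lf (nat_lit 0) (nat_lit 4327581768) (nat_lit 380) (nat_lit 29817793072) (nat_lit 456) (nat_lit 12186577108) (nat_lit 186) (nat_lit 5) (nat_lit 191) (nat_lit 5) (nat_lit 192) (nat_lit 5) (nat_lit 678) (nat_lit 598) (nat_lit 284))) (XT.nd (nat_lit 78) (nat_lit 456) (nat_lit 0) (XT.lf (nat_lit 0) (nat_lit 32812895026) (nat_lit 380) (nat_lit 12061736863) (nat_lit 456) (nat_lit 2022992328) (nat_lit 186) (nat_lit 5) (nat_lit 191) (nat_lit 5) (nat_lit 192) (nat_lit 5) (nat_lit 679) (nat_lit 598) (nat_lit 283)) (XT.lf (nat_lit 0) (nat_lit 8367571485) (nat_lit 456) (nat_lit 32984431285) (nat_lit 76) (nat_lit 6118860935) (nat_lit 180) (nat_lit 5) (nat_lit 186) (nat_lit 5) (nat_lit 181) (nat_lit 5) (nat_lit 680) (nat_lit 598) (nat_lit 282)))) (XT.nd (nat_lit 156) (nat_lit 456) (nat_lit 0) (XT.nd (nat_lit 78) (nat_lit 380) (nat_lit 0) (XT.lf (nat_lit 0) (nat_lit 19112475295)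 (nat_lit 456) (nat_lit 4329818200) (nat_lit 76) (nat_lit 24609534742) (nat_lit 180) (nat_lit 5) (nat_lit 186) (nat_lit 5) (nat_lit 181) (nat_lit 5) (nat_lit 681) (nat_lit 598) (nat_lit 281)) (XT.lf (nat_lit 0) (nat_lit 25226603563) (nat_lit 380) (nat_lit 5008059828) (nat_lit 456) (nat_lit 18406500968) (nat_lit 175) (nat_lit 5) (nat_lit 180) (nat_lit 5) (nat_lit 181) (nat_lit 5) (nat_lit 682) (nat_lit 598) (nat_lit 280))) (XT.nd (nat_lit 78) (nat_lit 76) (nat_lit 0) (XT.lf (nat_lit 0) (nat_lit 6180293357) (nat_lit 380) (nat_lit 35556548923) (nat_lit 456) (nat_lit 7502294003) (nat_lit 170) (nat_lit 5) (nat_lit 175) (nat_lit 5) (nat_lit 176) (nat_lit 5) (nat_lit 683) (nat_lit 598) (nat_lit 279)) (XT.lf (nat_lit 0) (nat_lit 3762462371) (nat_lit 456) (nat_lit 13221348347) (nat_lit 76) (nat_lit 32860988039) (nat_lit 169) (nat_lit 5) (nat_lit 175) (nat_lit 5) (nat_lit 170) (nat_lit 5) (nat_lit 684) (nat_lit 598) (nat_lit 278))))))) (XT.nd (nat_lit 75504) (nat_lit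 0) (nat_lit 21052) (XT.nd (nat_lit 74880) (nat_lit 0) (nat_lit 24244) (XT.nd (nat_lit 74568) (nat_lit 0) (nat_lit 24168) (XT.nd (nat_lit 78) (nat_lit 0) (nat_lit 0) (XT.lf (nat_lit 0) (nat_lit 15277492930) (nat_lit 456) (nat_lit 33083982120) (nat_lit 76) (nat_lit 2097598954) (nat_lit 164) (nat_lit 5) (nat_lit 170) (nat_lit 5) (nat_lit 165) (nat_lit 5) (nat_lit 685) (nat_lit 598) (nat_lit 277)) (XT.nd (nat_lit 74412) (nat_lit 0) (nat_lit 25992) (XT.lf (nat_lit 0) (nat_lit 27223256573) (nat_lit 456) (nat_lit 2436358202) (nat_lit 76) (nat_lit 21422011351) (nat_lit 164) (nat_lit 5) (nat_lit 170) (nat_lit 5) (nat_lit 165) (nat_lit 5) (nat_lit 686) (nat_lit 598) (nat_lit 276)) (XT.lf (nat_lit 0) (nat_lit 4701677630) (nat_lit 0) (nat_lit 4701677630) (nat_lit 1748) (nat_lit 358057651) (nat_lit 506) (nat_lit 5) (nat_lit 506) (nat_lit 3) (nat_lit 529) (nat_lit 3) (nat_lit 599) (nat_lit 599) (nat_lit 362)))) (XT.nd (nat_lit 156) (nat_lit 1824) (nat_lit 0) (XT.nd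 (nat_lit 78) (nat_lit 0) (nat_lit 0) (XT.lf (nat_lit 0) (nat_lit 19169548159) (nat_lit 1748) (nat_lit 397021984) (nat_lit 1824) (nat_lit 147983129) (nat_lit 506) (nat_lit 5) (nat_lit 529) (nat_lit 3) (nat_lit 530) (nat_lit 5) (nat_lit 600) (nat_lit 599) (nat_lit 361)) (XT.lf (nat_lit 76) (nat_lit 9580871043) (nat_lit 0) (nat_lit 10078706792) (nat_lit 1824) (nat_lit 248138868) (nat_lit 507) (nat_lit 5) (nat_lit 506) (nat_lit 5) (nat_lit 530) (nat_lit 5) (nat_lit 601) (nat_lit 599) (nat_lit 360))) (XT.nd (nat_lit 78) (nat_lit 0) (nat_lit 76) (XT.lf (nat_lit 0) (nat_lit 52129646) (nat_lit 1824) (nat_lit 343788754) (nat_lit 1900) (nat_lit 19708854405) (nat_lit 482) (nat_lit 5) (nat_lit 506) (nat_lit 5) (nat_lit 507) (nat_lit 5) (nat_lit 602) (nat_lit 599) (nat_lit 359)) (XT.lf (nat_lit 0) (nat_lit 477382041) (nat_lit 1824) (nat_lit 10400933298) (nat_lit 1900) (nat_lit 9424975996) (nat_lit 483) (nat_lit 5) (nat_lit 507) (nat_lit 5) (nat_lit 508) (nat_lit 5)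 (nat_lit 603) (nat_lit 599) (nat_lit 358))))) (XT.nd (nat_lit 312) (nat_lit 0) (nat_lit 152) (XT.nd (nat_lit 156) (nat_lit 0) (nat_lit 76) (XT.nd (nat_lit 78) (nat_lit 0) (nat_lit 76) (XT.lf (nat_lit 0) (nat_lit 911755947) (nat_lit 1824) (nat_lit 152749625) (nat_lit 1900) (nat_lit 19441262465) (nat_lit 483) (nat_lit 5) (nat_lit 507) (nat_lit 5) (nat_lit 508) (nat_lit 5) (nat_lit 604) (nat_lit 599) (nat_lit 357)) (XT.lf (nat_lit 0) (nat_lit 1476865429) (nat_lit 1824) (nat_lit 10334730807) (nat_lit 1900) (nat_lit 8898257205) (nat_lit 484) (nat_lit 5) (nat_lit 508) (nat_lit 5) (nat_lit 509) (nat_lit 5) (nat_lit 605) (nat_lit 599) (nat_lit 356))) (XT.nd (nat_lit 78) (nat_lit 0) (nat_lit 76) (XT.lf (nat_lit 76) (nat_lit 190568627) (nat_lit 0) (nat_lit 1867863474) (nat_lit 1900) (nat_lit 18859485477) (nat_lit 485) (nat_lit 5) (nat_lit 484) (nat_lit 5) (nat_lit 509) (nat_lit 5) (nat_lit 606) (nat_lit 599) (nat_lit 355)) (XT.lf (nat_lit 0) (nat_lit 2771078216)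 (nat_lit 1824) (nat_lit 10119049564) (nat_lit 1900) (nat_lit 8237626379) (nat_lit 485) (nat_lit 5) (nat_lit 509) (nat_lit 5) (nat_lit 510) (nat_lit 5) (nat_lit 607) (nat_lit 599) (nat_lit 354)))) (XT.nd (nat_lit 156) (nat_lit 0) (nat_lit 76) (XT.nd (nat_lit 78) (nat_lit 0) (nat_lit 76) (XT.lf (nat_lit 76) (nat_lit 695646607) (nat_lit 0) (nat_lit 2815209572) (nat_lit 1900) (nat_lit 17830673834) (nat_lit 486) (nat_lit 5) (nat_lit 485) (nat_lit 5) (nat_lit 510) (nat_lit 5) (nat_lit 608) (nat_lit 599) (nat_lit 353)) (XT.lf (nat_lit 0) (nat_lit 4378290678) (nat_lit 1824) (nat_lit 9745907571) (nat_lit 1900) (nat_lit 7433126036) (nat_lit 486) (nat_lit 5) (nat_lit 510) (nat_lit 5) (nat_lit 511) (nat_lit 5) (nat_lit 609) (nat_lit 599) (nat_lit 352))) (XT.nd (nat_lit 78) (nat_lit 0) (nat_lit 76) (XT.lf (nat_lit 76) (nat_lit 1368832821) (nat_lit 0) (nat_lit 3917913386) (nat_lit 1900) (nat_lit 16490214903) (nat_lit 487) (nat_lit 5) (nat_lit 486) (nat_lit 5) (nat_lit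 511) (nat_lit 5) (nat_lit 610) (nat_lit 599) (nat_lit 351)) (XT.lf (nat_lit 0) (nat_lit 6317566449) (nat_lit 1824) (nat_lit 9206904326) (nat_lit 1900) (nat_lit 6474436101) (nat_lit 487) (nat_lit 5) (nat_lit 511) (nat_lit 5) (nat_lit 512) (nat_lit 5) (nat_lit 611) (nat_lit 599) (nat_lit 350)))))) (XT.nd (nat_lit 624) (nat_lit 3496) (nat_lit 0) (XT.nd (nat_lit 312) (nat_lit 0) (nat_lit 152) (XT.nd (nat_lit 156) (nat_lit 0) (nat_lit 76) (XT.nd (nat_lit 78) (nat_lit 0) (nat_lit 76) (XT.lf (nat_lit 76) (nat_lit 2218939353) (nat_lit 0) (nat_lit 5186700071) (nat_lit 1900) (nat_lit 14818919515) (nat_lit 488) (nat_lit 5) (nat_lit 487) (nat_lit 5) (nat_lit 512) (nat_lit 5) (nat_lit 612) (nat_lit 599) (nat_lit 349)) (XT.lf (nat_lit 0) (nat_lit 8608799435) (nat_lit 1824) (nat_lit 8493206025) (nat_lit 1900) (nat_lit 5350852184) (nat_lit 488) (nat_lit 5) (nat_lit 512) (nat_lit 5) (nat_lit 513) (nat_lit 5) (nat_lit 613) (nat_lit 599) (nat_lit 348))) (XT.nd (nat_lit 78)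 (nat_lit 0) (nat_lit 76) (XT.lf (nat_lit 76) (nat_lit 3255227302) (nat_lit 0) (nat_lit 6632697760) (nat_lit 1900) (nat_lit 12796759319) (nat_lit 489) (nat_lit 5) (nat_lit 488) (nat_lit 5) (nat_lit 513) (nat_lit 5) (nat_lit 614) (nat_lit 599) (nat_lit 347)) (XT.lf (nat_lit 0) (nat_lit 11272752084) (nat_lit 1824) (nat_lit 7595530018) (nat_lit 1900) (nat_lit 4051263277) (nat_lit 489) (nat_lit 5) (nat_lit 513) (nat_lit 5) (nat_lit 514) (nat_lit 5) (nat_lit 615) (nat_lit 599) (nat_lit 346)))) (XT.nd (nat_lit 156) (nat_lit 0) (nat_lit 76) (XT.nd (nat_lit 78) (nat_lit 0) (nat_lit 76) (XT.lf (nat_lit 76) (nat_lit 4487422960) (nat_lit 0) (nat_lit 8267460483) (nat_lit 1900) (nat_lit 10402828103) (nat_lit 490) (nat_lit 5) (nat_lit 489) (nat_lit 5) (nat_lit 514) (nat_lit 5) (nat_lit 616) (nat_lit 599) (nat_lit 345)) (XT.lf (nat_lit 0) (nat_lit 14331095076) (nat_lit 1824) (nat_lit 6504128485) (nat_lit 1900) (nat_lit 2564128823) (nat_lit 490) (nat_lit 5) (nat_lit 514)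 (nat_lit 5) (nat_lit 515) (nat_lit 5) (nat_lit 617) (nat_lit 599) (nat_lit 344))) (XT.nd (nat_lit 78) (nat_lit 0) (nat_lit 76) (XT.lf (nat_lit 76) (nat_lit 5925734791) (nat_lit 0) (nat_lit 10102991750) (nat_lit 1900) (nat_lit 7615301686) (nat_lit 491) (nat_lit 5) (nat_lit 490) (nat_lit 5) (nat_lit 515) (nat_lit 5) (nat_lit 618) (nat_lit 599) (nat_lit 343)) (XT.lf (nat_lit 0) (nat_lit 17806448505) (nat_lit 1824) (nat_lit 5208771305) (nat_lit 1900) (nat_lit 877455115) (nat_lit 491) (nat_lit 5) (nat_lit 515) (nat_lit 5) (nat_lit 516) (nat_lit 5) (nat_lit 619) (nat_lit 599) (nat_lit 342))))) (XT.nd (nat_lit 312) (nat_lit 1976) (nat_lit 0) (XT.nd (nat_lit 156) (nat_lit 1824) (nat_lit 0) (XT.nd (nat_lit 78) (nat_lit 0) (nat_lit 0) (XT.lf (nat_lit 76) (nat_lit 7580871232) (nat_lit 0) (nat_lit 12151768831) (nat_lit 1900) (nat_lit 4411396288) (nat_lit 492) (nat_lit 5) (nat_lit 491) (nat_lit 5) (nat_lit 516) (nat_lit 5) (nat_lit 620) (nat_lit 599) (nat_lit 341))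 (XT.lf (nat_lit 76) (nat_lit 20694342612) (nat_lit 0) (nat_lit 1034800612) (nat_lit 1900) (nat_lit 2670646118) (nat_lit 492) (nat_lit 5) (nat_lit 491) (nat_lit 5) (nat_lit 516) (nat_lit 5) (nat_lit 621) (nat_lit 599) (nat_lit 340))) (XT.nd (nat_lit 78) (nat_lit 1900) (nat_lit 0) (XT.lf (nat_lit 76) (nat_lit 9464059337) (nat_lit 0) (nat_lit 14426767797) (nat_lit 1900) (nat_lit 767325337) (nat_lit 493) (nat_lit 5) (nat_lit 492) (nat_lit 5) (nat_lit 517) (nat_lit 5) (nat_lit 622) (nat_lit 599) (nat_lit 339)) (XT.lf (nat_lit 0) (nat_lit 1187470800) (nat_lit 1900) (nat_lit 1991251957) (nat_lit 1976) (nat_lit 21742231599) (nat_lit 467) (nat_lit 5) (nat_lit 492) (nat_lit 5) (nat_lit 493) (nat_lit 5) (nat_lit 623) (nat_lit 599) (nat_lit 338)))) (XT.nd (nat_lit 156) (nat_lit 2052) (nat_lit 0) (XT.nd (nat_lit 78) (nat_lit 0) (nat_lit 0) (XT.lf (nat_lit 0) (nat_lit 3297917784) (nat_lit 1900) (nat_lit 13621440801) (nat_lit 76) (nat_lit 8267015751) (nat_lit 468) (nat_lit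 5) (nat_lit 493) (nat_lit 5) (nat_lit 469) (nat_lit 5) (nat_lit 624) (nat_lit 599) (nat_lit 337)) (XT.lf (nat_lit 0) (nat_lit 5482105263) (nat_lit 1900) (nat_lit 61344559) (nat_lit 76) (nat_lit 19913022347) (nat_lit 468) (nat_lit 5) (nat_lit 493) (nat_lit 5) (nat_lit 469) (nat_lit 5) (nat_lit 625) (nat_lit 599) (nat_lit 336))) (XT.nd (nat_lit 78) (nat_lit 912) (nat_lit 0) (XT.lf (nat_lit 0) (nat_lit 7837586865) (nat_lit 1216) (nat_lit 11819804304) (nat_lit 76) (nat_lit 6072028665) (nat_lit 453) (nat_lit 5) (nat_lit 469) (nat_lit 5) (nat_lit 454) (nat_lit 5) (nat_lit 626) (nat_lit 599) (nat_lit 335)) (XT.lf (nat_lit 0) (nat_lit 2141787795) (nat_lit 912) (nat_lit 8146552806) (nat_lit 988) (nat_lit 15718522685) (nat_lit 441) (nat_lit 5) (nat_lit 453) (nat_lit 5) (nat_lit 454) (nat_lit 5) (nat_lit 627) (nat_lit 599) (nat_lit 334))))))))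
noncomputable def xc206 : XT := (XT.nd (nat_lit 2418) (nat_lit 8208) (nat_lit 0) (XT.nd (nat_lit 1170) (nat_lit 6080) (nat_lit 0) (XT.nd (nat_lit 546) (nat_lit 4028) (nat_lit 0) (XT.nd (nat_lit 234) (nat_lit 1824) (nat_lit 0) (XT.nd (nat_lit 78) (nat_lit 912) (nat_lit 0) (XT.lf (nat_lit 0) (nat_lit 12888461464) (nat_lit 988) (nat_lit 9771937335) (nat_lit 76) (nat_lit 3627449844) (nat_lit 441) (nat_lit 5) (nat_lit 454) (nat_lit 5) (nat_lit 442) (nat_lit 5) (nat_lit 628) (nat_lit 599) (nat_lit 333)) (XT.nd (nat_lit 78) (nat_lit 0) (nat_lit 0) (XT.lf (nat_lit 0) (nat_lit 4606948373) (nat_lit 912) (nat_lit 11014725644) (nat_lit 988) (nat_lit 10951157983) (nat_lit 429) (nat_lit 5) (nat_lit 441) (nat_lit 5) (nat_lit 442) (nat_lit 5) (nat_lit 629) (nat_lit 599) (nat_lit 332)) (XT.lf (nat_lit 0) (nat_lit 18478434696) (nat_lit 988) (nat_lit 7464997914) (nat_lit 76) (nat_lit 918704814) (nat_lit 429) (nat_lit 5) (nat_lit 442) (nat_lit 5) (nat_lit 430) (nat_lit 5)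 (nat_lit 630) (nat_lit 599) (nat_lit 331)))) (XT.nd (nat_lit 156) (nat_lit 988) (nat_lit 0) (XT.nd (nat_lit 78) (nat_lit 0) (nat_lit 0) (XT.lf (nat_lit 0) (nat_lit 7346741266) (nat_lit 836) (nat_lit 14163554052) (nat_lit 912) (nat_lit 5644574420) (nat_lit 418) (nat_lit 5) (nat_lit 429) (nat_lit 5) (nat_lit 430) (nat_lit 5) (nat_lit 631) (nat_lit 599) (nat_lit 330)) (XT.lf (nat_lit 0) (nat_lit 22553349290) (nat_lit 836) (nat_lit 2096893499) (nat_lit 912) (nat_lit 2802264989) (nat_lit 418) (nat_lit 5) (nat_lit 429) (nat_lit 5) (nat_lit 430) (nat_lit 5) (nat_lit 632) (nat_lit 599) (nat_lit 329))) (XT.nd (nat_lit 78) (nat_lit 0) (nat_lit 0) (XT.lf (nat_lit 0) (nat_lit 227555774) (nat_lit 988) (nat_lit 17379766313) (nat_lit 76) (nat_lit 10146125263) (nat_lit 405) (nat_lit 5) (nat_lit 418) (nat_lit 5) (nat_lit 406) (nat_lit 5) (nat_lit 633) (nat_lit 599) (nat_lit 328)) (XT.lf (nat_lit 0) (nat_lit 3324891366) (nat_lit 988) (nat_lit 2076599714) (nat_lit 76) (nat_lit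 22657655430) (nat_lit 405) (nat_lit 5) (nat_lit 418) (nat_lit 5) (nat_lit 406) (nat_lit 5) (nat_lit 634) (nat_lit 599) (nat_lit 327))))) (XT.nd (nat_lit 312) (nat_lit 1596) (nat_lit 0) (XT.nd (nat_lit 156) (nat_lit 760) (nat_lit 0) (XT.nd (nat_lit 78) (nat_lit 836) (nat_lit 0) (XT.lf (nat_lit 0) (nat_lit 6617016046) (nat_lit 912) (nat_lit 14705669753) (nat_lit 76) (nat_lit 7045617074) (nat_lit 394) (nat_lit 5) (nat_lit 406) (nat_lit 5) (nat_lit 395) (nat_lit 5) (nat_lit 635) (nat_lit 599) (nat_lit 326)) (XT.lf (nat_lit 0) (nat_lit 1036608939) (nat_lit 836) (nat_lit 8992412337) (nat_lit 912) (nat_lit 18653540393) (nat_lit 383) (nat_lit 5) (nat_lit 394) (nat_lit 5) (nat_lit 395) (nat_lit 5) (nat_lit 636) (nat_lit 599) (nat_lit 325))) (XT.nd (nat_lit 78) (nat_lit 760) (nat_lit 0) (XT.lf (nat_lit 0) (nat_lit 13629416342) (nat_lit 912) (nat_lit 11734576120) (nat_lit 76) (nat_lit 3636710250) (nat_lit 383) (nat_lit 5) (nat_lit 395) (nat_lit 5) (nat_lit 384) (nat_lit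 5) (nat_lit 637) (nat_lit 599) (nat_lit 324)) (XT.lf (nat_lit 0) (nat_lit 4491847499) (nat_lit 760) (nat_lit 12896277167) (nat_lit 836) (nat_lit 11935355867) (nat_lit 373) (nat_lit 5) (nat_lit 383) (nat_lit 5) (nat_lit 384) (nat_lit 5) (nat_lit 638) (nat_lit 599) (nat_lit 323)))) (XT.nd (nat_lit 156) (nat_lit 836) (nat_lit 0) (XT.nd (nat_lit 78) (nat_lit 760) (nat_lit 0) (XT.lf (nat_lit 0) (nat_lit 21199342056) (nat_lit 760) (nat_lit 99030084) (nat_lit 836) (nat_lit 8352814533) (nat_lit 373) (nat_lit 5) (nat_lit 383) (nat_lit 5) (nat_lit 384) (nat_lit 5) (nat_lit 639) (nat_lit 599) (nat_lit 322)) (XT.lf (nat_lit 0) (nat_lit 8277473953) (nat_lit 760) (nat_lit 17144866038) (nat_lit 836) (nat_lit 4560396698) (nat_lit 363) (nat_lit 5) (nat_lit 373) (nat_lit 5) (nat_lit 374) (nat_lit 5) (nat_lit 640) (nat_lit 599) (nat_lit 321))) (XT.nd (nat_lit 78) (nat_lit 836) (nat_lit 0) (XT.lf (nat_lit 0) (nat_lit 25452778743) (nat_lit 760) (nat_lit 4231071385) (nat_lit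 836) (nat_lit 635966380) (nat_lit 363) (nat_lit 5) (nat_lit 373) (nat_lit 5) (nat_lit 374) (nat_lit 5) (nat_lit 641) (nat_lit 599) (nat_lit 320)) (XT.lf (nat_lit 0) (nat_lit 3460062320) (nat_lit 836) (nat_lit 18273509413) (nat_lit 76) (nat_lit 8926883679) (nat_lit 352) (nat_lit 5) (nat_lit 363) (nat_lit 5) (nat_lit 353) (nat_lit 5) (nat_lit 642) (nat_lit 599) (nat_lit 319)))))) (XT.nd (nat_lit 624) (nat_lit 3192) (nat_lit 0) (XT.nd (nat_lit 312) (nat_lit 1444) (nat_lit 0) (XT.nd (nat_lit 156) (nat_lit 684) (nat_lit 0) (XT.nd (nat_lit 78) (nat_lit 760) (nat_lit 0) (XT.lf (nat_lit 0) (nat_lit 7688153390) (nat_lit 836) (nat_lit 990229808) (nat_lit 76) (nat_lit 22328266729) (nat_lit 352) (nat_lit 5) (nat_lit 363) (nat_lit 5) (nat_lit 353) (nat_lit 5) (nat_lit 643) (nat_lit 599) (nat_lit 318)) (XT.lf (nat_lit 0) (nat_lit 12138887328) (nat_lit 836) (nat_lit 14531118344) (nat_lit 76) (nat_lit 4687001097) (nat_lit 342) (nat_lit 5) (nat_lit 353) (nat_lit 5) (nat_lit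 343) (nat_lit 5) (nat_lit 644) (nat_lit 599) (nat_lit 317))) (XT.nd (nat_lit 78) (nat_lit 0) (nat_lit 0) (XT.lf (nat_lit 0) (nat_lit 3280534653) (nat_lit 684) (nat_lit 13481384459) (nat_lit 760) (nat_lit 14950786027) (nat_lit 333) (nat_lit 5) (nat_lit 342) (nat_lit 5) (nat_lit 343) (nat_lit 5) (nat_lit 645) (nat_lit 599) (nat_lit 316)) (XT.lf (nat_lit 0) (nat_lit 21573227169) (nat_lit 760) (nat_lit 10431142992) (nat_lit 76) (nat_lit 69231057) (nat_lit 333) (nat_lit 5) (nat_lit 343) (nat_lit 5) (nat_lit 334) (nat_lit 5) (nat_lit 646) (nat_lit 599) (nat_lit 315)))) (XT.nd (nat_lit 156) (nat_lit 760) (nat_lit 0) (XT.nd (nat_lit 78) (nat_lit 0) (nat_lit 0) (XT.lf (nat_lit 0) (nat_lit 7942326613) (nat_lit 684) (nat_lit 18677171179) (nat_lit 760) (nat_lit 5819442749) (nat_lit 324) (nat_lit 5) (nat_lit 333) (nat_lit 5) (nat_lit 334) (nat_lit 5) (nat_lit 647) (nat_lit 599) (nat_lit 314)) (XT.lf (nat_lit 0) (nat_lit 26822215913) (nat_lit 684) (nat_lit 5012390748)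 (nat_lit 760) (nat_lit 975621786) (nat_lit 324) (nat_lit 5) (nat_lit 333) (nat_lit 5) (nat_lit 334) (nat_lit 5) (nat_lit 648) (nat_lit 599) (nat_lit 313))) (XT.nd (nat_lit 78) (nat_lit 0) (nat_lit 0) (XT.lf (nat_lit 0) (nat_lit 4054316885) (nat_lit 760) (nat_lit 20211927956) (nat_lit 76) (nat_lit 8919357562) (nat_lit 314) (nat_lit 5) (nat_lit 324) (nat_lit 5) (nat_lit 315) (nat_lit 5) (nat_lit 649) (nat_lit 599) (nat_lit 312)) (XT.lf (nat_lit 0) (nat_lit 9243410377) (nat_lit 760) (nat_lit 1214286085) (nat_lit 76) (nat_lit 23109226055) (nat_lit 314) (nat_lit 5) (nat_lit 324) (nat_lit 5) (nat_lit 315) (nat_lit 5) (nat_lit 650) (nat_lit 599) (nat_lit 311))))) (XT.nd (nat_lit 312) (nat_lit 1292) (nat_lit 0) (XT.nd (nat_lit 156) (nat_lit 608) (nat_lit 0) (XT.nd (nat_lit 78) (nat_lit 608) (nat_lit 0) (XT.lf (nat_lit 0) (nat_lit 14678106936) (nat_lit 760) (nat_lit 15575599874) (nat_lit 76) (nat_lit 3699325848) (nat_lit 305) (nat_lit 5) (nat_lit 315) (nat_lit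 5) (nat_lit 306) (nat_lit 5) (nat_lit 651) (nat_lit 599) (nat_lit 310)) (XT.lf (nat_lit 0) (nat_lit 4011625570) (nat_lit 608) (nat_lit 16311401568) (nat_lit 684) (nat_lit 14021807315) (nat_lit 297) (nat_lit 5) (nat_lit 305) (nat_lit 5) (nat_lit 306) (nat_lit 5) (nat_lit 652) (nat_lit 599) (nat_lit 309))) (XT.nd (nat_lit 78) (nat_lit 608) (nat_lit 0) (XT.lf (nat_lit 0) (nat_lit 24199321452) (nat_lit 608) (nat_lit 1984092725) (nat_lit 684) (nat_lit 8559006784) (nat_lit 297) (nat_lit 5) (nat_lit 305) (nat_lit 5) (nat_lit 306) (nat_lit 5) (nat_lit 653) (nat_lit 599) (nat_lit 308)) (XT.lf (nat_lit 0) (nat_lit 9685443899) (nat_lit 608) (nat_lit 22618533528) (nat_lit 684) (nat_lit 2841122448) (nat_lit 289) (nat_lit 5) (nat_lit 297) (nat_lit 5) (nat_lit 298) (nat_lit 5) (nat_lit 654) (nat_lit 599) (nat_lit 307)))) (XT.nd (nat_lit 156) (nat_lit 608) (nat_lit 0) (XT.nd (nat_lit 78) (nat_lit 608) (nat_lit 0) (XT.lf (nat_lit 0) (nat_lit 3034341378) (nat_lit 684) (nat_lit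 5128376604) (nat_lit 76) (nat_lit 27391077006) (nat_lit 288) (nat_lit 5) (nat_lit 297) (nat_lit 5) (nat_lit 289) (nat_lit 5) (nat_lit 655) (nat_lit 599) (nat_lit 306)) (XT.lf (nat_lit 0) (nat_lit 9133529404) (nat_lit 684) (nat_lit 20216292926) (nat_lit 76) (nat_lit 6617580965) (nat_lit 280) (nat_lit 5) (nat_lit 289) (nat_lit 5) (nat_lit 281) (nat_lit 5) (nat_lit 656) (nat_lit 599) (nat_lit 305))) (XT.nd (nat_lit 78) (nat_lit 0) (nat_lit 0) (XT.lf (nat_lit 0) (nat_lit 681384406) (nat_lit 608) (nat_lit 14764589094) (nat_lit 684) (nat_lit 20941484865) (nat_lit 272) (nat_lit 5) (nat_lit 280) (nat_lit 5) (nat_lit 281) (nat_lit 5) (nat_lit 657) (nat_lit 599) (nat_lit 304)) (XT.lf (nat_lit 0) (nat_lit 22020122430) (nat_lit 684) (nat_lit 14546168823) (nat_lit 76) (nat_lit 246914206) (nat_lit 272) (nat_lit 5) (nat_lit 281) (nat_lit 5) (nat_lit 273) (nat_lit 5) (nat_lit 658) (nat_lit 599) (nat_lit 303))))))) (XT.nd (nat_lit 1170) (nat_lit 3420) (nat_lit 0) (XT.nd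 (nat_lit 546) (nat_lit 2508) (nat_lit 0) (XT.nd (nat_lit 234) (nat_lit 1064) (nat_lit 0) (XT.nd (nat_lit 78) (nat_lit 684) (nat_lit 0) (XT.lf (nat_lit 0) (nat_lit 7028997029) (nat_lit 532) (nat_lit 21838375031) (nat_lit 608) (nat_lit 8377263119) (nat_lit 265) (nat_lit 5) (nat_lit 272) (nat_lit 5) (nat_lit 273) (nat_lit 5) (nat_lit 659) (nat_lit 599) (nat_lit 302)) (XT.nd (nat_lit 78) (nat_lit 684) (nat_lit 0) (XT.lf (nat_lit 0) (nat_lit 29230513563) (nat_lit 532) (nat_lit 6716887772) (nat_lit 608) (nat_lit 1735375506) (nat_lit 265) (nat_lit 5) (nat_lit 272) (nat_lit 5) (nat_lit 273) (nat_lit 5) (nat_lit 660) (nat_lit 599) (nat_lit 301)) (XT.lf (nat_lit 0) (nat_lit 5119051922) (nat_lit 684) (nat_lit 24291030756) (nat_lit 76) (nat_lit 8716028437) (nat_lit 256) (nat_lit 5) (nat_lit 265) (nat_lit 5) (nat_lit 257) (nat_lit 5) (nat_lit 661) (nat_lit 599) (nat_lit 300)))) (XT.nd (nat_lit 156) (nat_lit 532) (nat_lit 0) (XT.nd (nat_lit 78) (nat_lit 532) (nat_lit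 0) (XT.lf (nat_lit 0) (nat_lit 12187191784) (nat_lit 684) (nat_lit 1953108439) (nat_lit 76) (nat_lit 24435785262) (nat_lit 256) (nat_lit 5) (nat_lit 265) (nat_lit 5) (nat_lit 257) (nat_lit 5) (nat_lit 662) (nat_lit 599) (nat_lit 299)) (XT.lf (nat_lit 0) (nat_lit 19542244720) (nat_lit 608) (nat_lit 17936467895) (nat_lit 76) (nat_lit 1553435757) (nat_lit 249) (nat_lit 5) (nat_lit 257) (nat_lit 5) (nat_lit 250) (nat_lit 5) (nat_lit 663) (nat_lit 599) (nat_lit 298))) (XT.nd (nat_lit 78) (nat_lit 0) (nat_lit 0) (XT.lf (nat_lit 0) (nat_lit 5105788999) (nat_lit 532) (nat_lit 22076907896) (nat_lit 608) (nat_lit 12311869694) (nat_lit 242) (nat_lit 5) (nat_lit 249) (nat_lit 5) (nat_lit 250) (nat_lit 5) (nat_lit 664) (nat_lit 599) (nat_lit 297)) (XT.lf (nat_lit 0) (nat_lit 28849746803) (nat_lit 532) (nat_lit 6244903247) (nat_lit 608) (nat_lit 4869209316) (nat_lit 242) (nat_lit 5) (nat_lit 249) (nat_lit 5) (nat_lit 250) (nat_lit 5) (nat_lit 665) (nat_lit 599) (nat_lit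 296))))) (XT.nd (nat_lit 312) (nat_lit 988) (nat_lit 0) (XT.nd (nat_lit 156) (nat_lit 988) (nat_lit 0) (XT.nd (nat_lit 78) (nat_lit 0) (nat_lit 0) (XT.lf (nat_lit 0) (nat_lit 2832850428) (nat_lit 532) (nat_lit 27731878495) (nat_lit 76) (nat_lit 9874530615) (nat_lit 235) (nat_lit 5) (nat_lit 242) (nat_lit 5) (nat_lit 236) (nat_lit 5) (nat_lit 666) (nat_lit 599) (nat_lit 295)) (XT.lf (nat_lit 0) (nat_lit 10738610562) (nat_lit 532) (nat_lit 3843083086) (nat_lit 76) (nat_lit 26339533232) (nat_lit 235) (nat_lit 5) (nat_lit 242) (nat_lit 5) (nat_lit 236) (nat_lit 5) (nat_lit 667) (nat_lit 599) (nat_lit 294))) (XT.nd (nat_lit 78) (nat_lit 456) (nat_lit 0) (XT.lf (nat_lit 0) (nat_lit 18947954755) (nat_lit 608) (nat_lit 20628248875) (nat_lit 76) (nat_lit 1833720593) (nat_lit 228) (nat_lit 5) (nat_lit 236) (nat_lit 5) (nat_lit 229) (nat_lit 5) (nat_lit 668) (nat_lit 599) (nat_lit 293)) (XT.lf (nat_lit 0) (nat_lit 3996583314) (nat_lit 456) (nat_lit 23471788028) (nat_lit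 532) (nat_lit 14437086491) (nat_lit 222) (nat_lit 5) (nat_lit 228) (nat_lit 5) (nat_lit 229) (nat_lit 5) (nat_lit 669) (nat_lit 599) (nat_lit 292)))) (XT.nd (nat_lit 156) (nat_lit 456) (nat_lit 0) (XT.nd (nat_lit 78) (nat_lit 532) (nat_lit 0) (XT.lf (nat_lit 0) (nat_lit 29391310690) (nat_lit 456) (nat_lit 6904738367) (nat_lit 532) (nat_lit 6112116035) (nat_lit 222) (nat_lit 5) (nat_lit 228) (nat_lit 5) (nat_lit 229) (nat_lit 5) (nat_lit 670) (nat_lit 599) (nat_lit 291)) (XT.lf (nat_lit 0) (nat_lit 2493402259) (nat_lit 532) (nat_lit 30464990661) (nat_lit 76) (nat_lit 9959319556) (nat_lit 215) (nat_lit 5) (nat_lit 222) (nat_lit 5) (nat_lit 216) (nat_lit 5) (nat_lit 671) (nat_lit 599) (nat_lit 290))) (XT.nd (nat_lit 78) (nat_lit 456) (nat_lit 0) (XT.lf (nat_lit 0) (nat_lit 11321380399) (nat_lit 532) (nat_lit 4916562139) (nat_lit 76) (nat_lit 27196056464) (nat_lit 215) (nat_lit 5) (nat_lit 222) (nat_lit 5) (nat_lit 216) (nat_lit 5) (nat_lit 672) (nat_lit 599)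 (nat_lit 289)) (XT.lf (nat_lit 0) (nat_lit 20469711469) (nat_lit 532) (nat_lit 22542465920) (nat_lit 76) (nat_lit 945558029) (nat_lit 209) (nat_lit 5) (nat_lit 216) (nat_lit 5) (nat_lit 210) (nat_lit 5) (nat_lit 673) (nat_lit 599) (nat_lit 288)))))) (XT.nd (nat_lit 624) (nat_lit 1216) (nat_lit 0) (XT.nd (nat_lit 312) (nat_lit 1292) (nat_lit 0) (XT.nd (nat_lit 156) (nat_lit 456) (nat_lit 0) (XT.nd (nat_lit 78) (nat_lit 0) (nat_lit 0) (XT.lf (nat_lit 0) (nat_lit 3788853332) (nat_lit 456) (nat_lit 26176003451) (nat_lit 532) (nat_lit 14523812856) (nat_lit 203) (nat_lit 5) (nat_lit 209) (nat_lit 5) (nat_lit 210) (nat_lit 5) (nat_lit 674) (nat_lit 599) (nat_lit 287)) (XT.lf (nat_lit 0) (nat_lit 30950202395) (nat_lit 456) (nat_lit 8849490373) (nat_lit 532) (nat_lit 5227534048) (nat_lit 203) (nat_lit 5) (nat_lit 209) (nat_lit 5) (nat_lit 210) (nat_lit 5) (nat_lit 675) (nat_lit 599) (nat_lit 286))) (XT.nd (nat_lit 78) (nat_lit 0) (nat_lit 0) (XT.lf (nat_lit 0)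 (nat_lit 4341285477) (nat_lit 456) (nat_lit 32410486860) (nat_lit 76) (nat_lit 8821382025) (nat_lit 197) (nat_lit 5) (nat_lit 203) (nat_lit 5) (nat_lit 198) (nat_lit 5) (nat_lit 676) (nat_lit 599) (nat_lit 285)) (XT.lf (nat_lit 0) (nat_lit 14183791755) (nat_lit 456) (nat_lit 5086144233) (nat_lit 76) (nat_lit 26856327276) (nat_lit 197) (nat_lit 5) (nat_lit 203) (nat_lit 5) (nat_lit 198) (nat_lit 5) (nat_lit 677) (nat_lit 599) (nat_lit 284)))) (XT.nd (nat_lit 156) (nat_lit 456) (nat_lit 0) (XT.nd (nat_lit 78) (nat_lit 380) (nat_lit 0) (XT.lf (nat_lit 0) (nat_lit 23085342710) (nat_lit 456) (nat_lit 1286265198) (nat_lit 532) (nat_lit 22315857266) (nat_lit 191) (nat_lit 5) (nat_lit 197) (nat_lit 5) (nat_lit 198) (nat_lit 5) (nat_lit 678) (nat_lit 599) (nat_lit 283)) (XT.lf (nat_lit 0) (nat_lit 4576929391) (nat_lit 380) (nat_lit 30359654341) (nat_lit 456) (nat_lit 12319839349) (nat_lit 186) (nat_lit 5) (nat_lit 191) (nat_lit 5) (nat_lit 192) (nat_lit 5) (nat_lit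 679) (nat_lit 599) (nat_lit 282))) (XT.nd (nat_lit 78) (nat_lit 456) (nat_lit 0) (XT.lf (nat_lit 0) (nat_lit 33628756836) (nat_lit 380) (nat_lit 12249545529) (nat_lit 456) (nat_lit 1955148938) (nat_lit 186) (nat_lit 5) (nat_lit 191) (nat_lit 5) (nat_lit 192) (nat_lit 5) (nat_lit 680) (nat_lit 599) (nat_lit 281)) (XT.lf (nat_lit 0) (nat_lit 8641100124) (nat_lit 456) (nat_lit 33482386398) (nat_lit 76) (nat_lit 6294669144) (nat_lit 180) (nat_lit 5) (nat_lit 186) (nat_lit 5) (nat_lit 181) (nat_lit 5) (nat_lit 681) (nat_lit 599) (nat_lit 280))))) (XT.nd (nat_lit 312) (nat_lit 380) (nat_lit 0) (XT.nd (nat_lit 156) (nat_lit 456) (nat_lit 0) (XT.nd (nat_lit 78) (nat_lit 380) (nat_lit 0) (XT.lf (nat_lit 0) (nat_lit 19598820104) (nat_lit 456) (nat_lit 4257852296) (nat_lit 76) (nat_lit 25154108761) (nat_lit 180) (nat_lit 5) (nat_lit 186) (nat_lit 5) (nat_lit 181) (nat_lit 5) (nat_lit 682) (nat_lit 599) (nat_lit 279)) (XT.lf (nat_lit 0) (nat_lit 25888654729) (nat_lit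 380) (nat_lit 5053778866) (nat_lit 456) (nat_lit 18669490810) (nat_lit 175) (nat_lit 5) (nat_lit 180) (nat_lit 5) (nat_lit 181) (nat_lit 5) (nat_lit 683) (nat_lit 599) (nat_lit 278))) (XT.nd (nat_lit 78) (nat_lit 76) (nat_lit 0) (XT.lf (nat_lit 0) (nat_lit 6462080527) (nat_lit 380) (nat_lit 36211927982) (nat_lit 456) (nat_lit 7547860245) (nat_lit 170) (nat_lit 5) (nat_lit 175) (nat_lit 5) (nat_lit 176) (nat_lit 5) (nat_lit 684) (nat_lit 599) (nat_lit 277)) (XT.lf (nat_lit 0) (nat_lit 3938799235) (nat_lit 456) (nat_lit 13329350601) (nat_lit 76) (nat_lit 33571521541) (nat_lit 169) (nat_lit 5) (nat_lit 175) (nat_lit 5) (nat_lit 170) (nat_lit 5) (nat_lit 685) (nat_lit 599) (nat_lit 276)))) (XT.nd (nat_lit 74568) (nat_lit 0) (nat_lit 24168) (XT.nd (nat_lit 74490) (nat_lit 0) (nat_lit 25992) (XT.lf (nat_lit 0) (nat_lit 15683516148) (nat_lit 456) (nat_lit 33588621221) (nat_lit 76) (nat_lit 2194107076) (nat_lit 164) (nat_lit 5) (nat_lit 170) (nat_lit 5) (nat_lit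 165) (nat_lit 5) (nat_lit 686) (nat_lit 599) (nat_lit 275)) (XT.lf (nat_lit 0) (nat_lit 4882045459) (nat_lit 0) (nat_lit 4882045459) (nat_lit 1748) (nat_lit 189091515) (nat_lit 506) (nat_lit 5) (nat_lit 506) (nat_lit 3) (nat_lit 529) (nat_lit 3) (nat_lit 600) (nat_lit 600) (nat_lit 360))) (XT.nd (nat_lit 78) (nat_lit 1824) (nat_lit 0) (XT.lf (nat_lit 0) (nat_lit 19874177714) (nat_lit 0) (nat_lit 16334152) (nat_lit 1748) (nat_lit 211570495) (nat_lit 506) (nat_lit 5) (nat_lit 506) (nat_lit 3) (nat_lit 529) (nat_lit 3) (nat_lit 601) (nat_lit 600) (nat_lit 359)) (XT.lf (nat_lit 0) (nat_lit 84419027) (nat_lit 1824) (nat_lit 10351289524) (nat_lit 1900) (nat_lit 9863501216) (nat_lit 482) (nat_lit 5) (nat_lit 506) (nat_lit 5) (nat_lit 507) (nat_lit 5) (nat_lit 602) (nat_lit 600) (nat_lit 358))))))))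
noncomputable def xc207 : XT := (XT.nd (nat_lit 2418) (nat_lit 13376) (nat_lit 0) (XT.nd (nat_lit 1170) (nat_lit 4864) (nat_lit 0) (XT.nd (nat_lit 546) (nat_lit 0) (nat_lit 304) (XT.nd (nat_lit 234) (nat_lit 0) (nat_lit 152) (XT.nd (nat_lit 78) (nat_lit 0) (nat_lit 76) (XT.lf (nat_lit 0) (nat_lit 380820474) (nat_lit 1824) (nat_lit 173753013) (nat_lit 1900) (nat_lit 19945731895) (nat_lit 482) (nat_lit 5) (nat_lit 506) (nat_lit 5) (nat_lit 507) (nat_lit 5) (nat_lit 603) (nat_lit 600) (nat_lit 357)) (XT.nd (nat_lit 78) (nat_lit 0) (nat_lit 0) (XT.lf (nat_lit 0) (nat_lit 808342576) (nat_lit 1824) (nat_lit 10425795388) (nat_lit 1900) (nat_lit 9468781220) (nat_lit 483) (nat_lit 5) (nat_lit 507) (nat_lit 5) (nat_lit 508) (nat_lit 5) (nat_lit 604) (nat_lit 600) (nat_lit 356)) (XT.lf (nat_lit 76) (nat_lit 24076418) (nat_lit 0) (nat_lit 1221181648) (nat_lit 1900) (nat_lit 19664310464) (nat_lit 484) (nat_lit 5) (nat_lit 483) (nat_lit 5) (nat_lit 508) (nat_lit 5)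 (nat_lit 605) (nat_lit 600) (nat_lit 355)))) (XT.nd (nat_lit 156) (nat_lit 0) (nat_lit 76) (XT.nd (nat_lit 78) (nat_lit 0) (nat_lit 0) (XT.lf (nat_lit 0) (nat_lit 1815637839) (nat_lit 1824) (nat_lit 10355975232) (nat_lit 1900) (nat_lit 8946243395) (nat_lit 484) (nat_lit 5) (nat_lit 508) (nat_lit 5) (nat_lit 509) (nat_lit 5) (nat_lit 606) (nat_lit 600) (nat_lit 354)) (XT.lf (nat_lit 76) (nat_lit 378610123) (nat_lit 0) (nat_lit 2025358432) (nat_lit 1900) (nat_lit 18926210859) (nat_lit 485) (nat_lit 5) (nat_lit 484) (nat_lit 5) (nat_lit 509) (nat_lit 5) (nat_lit 607) (nat_lit 600) (nat_lit 353))) (XT.nd (nat_lit 78) (nat_lit 0) (nat_lit 0) (XT.lf (nat_lit 0) (nat_lit 3124134877) (nat_lit 1824) (nat_lit 10134071092) (nat_lit 1900) (nat_lit 8286141592) (nat_lit 485) (nat_lit 5) (nat_lit 509) (nat_lit 5) (nat_lit 510) (nat_lit 5) (nat_lit 608) (nat_lit 600) (nat_lit 352)) (XT.lf (nat_lit 76) (nat_lit 895686375) (nat_lit 0) (nat_lit 2978394502) (nat_lit 1900)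 (nat_lit 17888410782) (nat_lit 486) (nat_lit 5) (nat_lit 485) (nat_lit 5) (nat_lit 510) (nat_lit 5) (nat_lit 609) (nat_lit 600) (nat_lit 351))))) (XT.nd (nat_lit 312) (nat_lit 0) (nat_lit 152) (XT.nd (nat_lit 156) (nat_lit 0) (nat_lit 76) (XT.nd (nat_lit 78) (nat_lit 0) (nat_lit 0) (XT.lf (nat_lit 0) (nat_lit 4752438484) (nat_lit 1824) (nat_lit 9751914222) (nat_lit 1900) (nat_lit 7478377794) (nat_lit 486) (nat_lit 5) (nat_lit 510) (nat_lit 5) (nat_lit 511) (nat_lit 5) (nat_lit 610) (nat_lit 600) (nat_lit 350)) (XT.lf (nat_lit 76) (nat_lit 1583878139) (nat_lit 0) (nat_lit 4090784200) (nat_lit 1900) (nat_lit 16532185908) (nat_lit 487) (nat_lit 5) (nat_lit 486) (nat_lit 5) (nat_lit 511) (nat_lit 5) (nat_lit 611) (nat_lit 600) (nat_lit 349))) (XT.nd (nat_lit 78) (nat_lit 0) (nat_lit 0) (XT.lf (nat_lit 0) (nat_lit 6719964415) (nat_lit 1824) (nat_lit 9200910662) (nat_lit 1900) (nat_lit 6512480707) (nat_lit 487) (nat_lit 5) (nat_lit 511) (nat_lit 5) (nat_lit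 512) (nat_lit 5) (nat_lit 612) (nat_lit 600) (nat_lit 348)) (XT.lf (nat_lit 76) (nat_lit 2452199023) (nat_lit 0) (nat_lit 5373413487) (nat_lit 1900) (nat_lit 14837992269) (nat_lit 488) (nat_lit 5) (nat_lit 487) (nat_lit 5) (nat_lit 512) (nat_lit 5) (nat_lit 613) (nat_lit 600) (nat_lit 347)))) (XT.nd (nat_lit 156) (nat_lit 0) (nat_lit 76) (XT.nd (nat_lit 78) (nat_lit 0) (nat_lit 0) (XT.lf (nat_lit 0) (nat_lit 9046976934) (nat_lit 1824) (nat_lit 8472026048) (nat_lit 1900) (nat_lit 5377583811) (nat_lit 488) (nat_lit 5) (nat_lit 512) (nat_lit 5) (nat_lit 513) (nat_lit 5) (nat_lit 614) (nat_lit 600) (nat_lit 346)) (XT.lf (nat_lit 76) (nat_lit 3510119075) (nat_lit 0) (nat_lit 6837582506) (nat_lit 1900) (nat_lit 12785428309) (nat_lit 489) (nat_lit 5) (nat_lit 488) (nat_lit 5) (nat_lit 513) (nat_lit 5) (nat_lit 615) (nat_lit 600) (nat_lit 345))) (XT.nd (nat_lit 78) (nat_lit 0) (nat_lit 0) (XT.lf (nat_lit 0) (nat_lit 11754627762) (nat_lit 1824) (nat_lit 7555769663)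 (nat_lit 1900) (nat_lit 4062402787) (nat_lit 489) (nat_lit 5) (nat_lit 513) (nat_lit 5) (nat_lit 514) (nat_lit 5) (nat_lit 616) (nat_lit 600) (nat_lit 344)) (XT.lf (nat_lit 76) (nat_lit 4767581382) (nat_lit 0) (nat_lit 8495028778) (nat_lit 1900) (nat_lit 10353195523) (nat_lit 490) (nat_lit 5) (nat_lit 489) (nat_lit 5) (nat_lit 514) (nat_lit 5) (nat_lit 617) (nat_lit 600) (nat_lit 343)))))) (XT.nd (nat_lit 624) (nat_lit 3724) (nat_lit 0) (XT.nd (nat_lit 312) (nat_lit 1748) (nat_lit 0) (XT.nd (nat_lit 156) (nat_lit 0) (nat_lit 76) (XT.nd (nat_lit 78) (nat_lit 0) (nat_lit 0) (XT.lf (nat_lit 0) (nat_lit 14864996469) (nat_lit 1824) (nat_lit 6442177697) (nat_lit 1900) (nat_lit 2555212311) (nat_lit 490) (nat_lit 5) (nat_lit 514) (nat_lit 5) (nat_lit 515) (nat_lit 5) (nat_lit 618) (nat_lit 600) (nat_lit 342)) (XT.lf (nat_lit 76) (nat_lit 6235019467) (nat_lit 0) (nat_lit 10357951083) (nat_lit 1900) (nat_lit 7519057630) (nat_lit 491) (nat_lit 5) (nat_lit 490) (nat_lit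 5) (nat_lit 515) (nat_lit 5) (nat_lit 619) (nat_lit 600) (nat_lit 341))) (XT.nd (nat_lit 78) (nat_lit 0) (nat_lit 0) (XT.lf (nat_lit 0) (nat_lit 18401132397) (nat_lit 1824) (nat_lit 5120795702) (nat_lit 1900) (nat_lit 843822147) (nat_lit 491) (nat_lit 5) (nat_lit 515) (nat_lit 5) (nat_lit 516) (nat_lit 5) (nat_lit 620) (nat_lit 600) (nat_lit 340)) (XT.lf (nat_lit 76) (nat_lit 7923375534) (nat_lit 0) (nat_lit 12439034068) (nat_lit 1900) (nat_lit 4259798199) (nat_lit 492) (nat_lit 5) (nat_lit 491) (nat_lit 5) (nat_lit 516) (nat_lit 5) (nat_lit 621) (nat_lit 600) (nat_lit 339)))) (XT.nd (nat_lit 156) (nat_lit 1824) (nat_lit 0) (XT.nd (nat_lit 78) (nat_lit 0) (nat_lit 76) (XT.lf (nat_lit 76) (nat_lit 21295373462) (nat_lit 0) (nat_lit 1098859233) (nat_lit 1900) (nat_lit 2488935497) (nat_lit 492) (nat_lit 5) (nat_lit 491) (nat_lit 5) (nat_lit 516) (nat_lit 5) (nat_lit 622) (nat_lit 600) (nat_lit 338)) (XT.lf (nat_lit 76) (nat_lit 9844119560) (nat_lit 0) (nat_lit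 14751473631) (nat_lit 1900) (nat_lit 551176668) (nat_lit 493) (nat_lit 5) (nat_lit 492) (nat_lit 5) (nat_lit 517) (nat_lit 5) (nat_lit 623) (nat_lit 600) (nat_lit 337))) (XT.nd (nat_lit 78) (nat_lit 0) (nat_lit 76) (XT.lf (nat_lit 0) (nat_lit 1435199701) (nat_lit 1900) (nat_lit 1841055743) (nat_lit 1976) (nat_lit 22138631996) (nat_lit 467) (nat_lit 5) (nat_lit 492) (nat_lit 5) (nat_lit 493) (nat_lit 5) (nat_lit 624) (nat_lit 600) (nat_lit 336)) (XT.lf (nat_lit 0) (nat_lit 3584481458) (nat_lit 1900) (nat_lit 13700467911) (nat_lit 76) (nat_lit 8400734061) (nat_lit 468) (nat_lit 5) (nat_lit 493) (nat_lit 5) (nat_lit 469) (nat_lit 5) (nat_lit 625) (nat_lit 600) (nat_lit 335))))) (XT.nd (nat_lit 312) (nat_lit 1748) (nat_lit 0) (XT.nd (nat_lit 156) (nat_lit 912) (nat_lit 0) (XT.nd (nat_lit 78) (nat_lit 0) (nat_lit 0) (XT.lf (nat_lit 0) (nat_lit 128726334) (nat_lit 1140) (nat_lit 5680136535) (nat_lit 1216) (nat_lit 20152390271) (nat_lit 453) (nat_lit 5) (nat_lit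 468) (nat_lit 5) (nat_lit 469) (nat_lit 5) (nat_lit 626) (nat_lit 600) (nat_lit 334)) (XT.lf (nat_lit 0) (nat_lit 8207438853) (nat_lit 1216) (nat_lit 11863405358) (nat_lit 76) (nat_lit 6168895972) (nat_lit 453) (nat_lit 5) (nat_lit 469) (nat_lit 5) (nat_lit 454) (nat_lit 5) (nat_lit 627) (nat_lit 600) (nat_lit 333))) (XT.nd (nat_lit 78) (nat_lit 0) (nat_lit 0) (XT.lf (nat_lit 0) (nat_lit 2376150194) (nat_lit 912) (nat_lit 8328122550) (nat_lit 988) (nat_lit 15818518575) (nat_lit 441) (nat_lit 5) (nat_lit 453) (nat_lit 5) (nat_lit 454) (nat_lit 5) (nat_lit 628) (nat_lit 600) (nat_lit 332)) (XT.lf (nat_lit 0) (nat_lit 13352156495) (nat_lit 988) (nat_lit 9775359524) (nat_lit 76) (nat_lit 3681965273) (nat_lit 441) (nat_lit 5) (nat_lit 454) (nat_lit 5) (nat_lit 442) (nat_lit 5) (nat_lit 629) (nat_lit 600) (nat_lit 331)))) (XT.nd (nat_lit 156) (nat_lit 836) (nat_lit 0) (XT.nd (nat_lit 78) (nat_lit 0) (nat_lit 0) (XT.lf (nat_lit 0) (nat_lit 4889840632) (nat_lit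 912) (nat_lit 11247393403) (nat_lit 988) (nat_lit 10962986380) (nat_lit 429) (nat_lit 5) (nat_lit 441) (nat_lit 5) (nat_lit 442) (nat_lit 5) (nat_lit 630) (nat_lit 600) (nat_lit 330)) (XT.lf (nat_lit 0) (nat_lit 19047068295) (nat_lit 988) (nat_lit 7423217625) (nat_lit 76) (nat_lit 925107372) (nat_lit 429) (nat_lit 5) (nat_lit 442) (nat_lit 5) (nat_lit 430) (nat_lit 5) (nat_lit 631) (nat_lit 600) (nat_lit 329))) (XT.nd (nat_lit 78) (nat_lit 0) (nat_lit 0) (XT.lf (nat_lit 0) (nat_lit 7683499231) (nat_lit 836) (nat_lit 14453396122) (nat_lit 912) (nat_lit 5557138424) (nat_lit 418) (nat_lit 5) (nat_lit 429) (nat_lit 5) (nat_lit 430) (nat_lit 5) (nat_lit 632) (nat_lit 600) (nat_lit 328)) (XT.lf (nat_lit 0) (nat_lit 23190517393) (nat_lit 836) (nat_lit 2145273515) (nat_lit 912) (nat_lit 2661910794) (nat_lit 418) (nat_lit 5) (nat_lit 429) (nat_lit 5) (nat_lit 430) (nat_lit 5) (nat_lit 633) (nat_lit 600) (nat_lit 327))))))) (XT.nd (nat_lit 1248) (nat_lit 6232) (nat_lit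 0) (XT.nd (nat_lit 624) (nat_lit 2964) (nat_lit 0) (XT.nd (nat_lit 312) (nat_lit 1520) (nat_lit 0) (XT.nd (nat_lit 156) (nat_lit 1672) (nat_lit 0) (XT.nd (nat_lit 78) (nat_lit 0) (nat_lit 0) (XT.lf (nat_lit 0) (nat_lit 423322427) (nat_lit 988) (nat_lit 17536066148) (nat_lit 76) (nat_lit 10345298254) (nat_lit 405) (nat_lit 5) (nat_lit 418) (nat_lit 5) (nat_lit 406) (nat_lit 5) (nat_lit 634) (nat_lit 600) (nat_lit 326)) (XT.lf (nat_lit 0) (nat_lit 3578855407) (nat_lit 988) (nat_lit 1930587109) (nat_lit 76) (nat_lit 23107132544) (nat_lit 405) (nat_lit 5) (nat_lit 418) (nat_lit 5) (nat_lit 406) (nat_lit 5) (nat_lit 635) (nat_lit 600) (nat_lit 325))) (XT.nd (nat_lit 78) (nat_lit 836) (nat_lit 0) (XT.lf (nat_lit 0) (nat_lit 6934364936) (nat_lit 912) (nat_lit 14809775946) (nat_lit 76) (nat_lit 7187822920) (nat_lit 394) (nat_lit 5) (nat_lit 406) (nat_lit 5) (nat_lit 395) (nat_lit 5) (nat_lit 636) (nat_lit 600) (nat_lit 324)) (XT.lf (nat_lit 0) (nat_lit 1246098272)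 (nat_lit 836) (nat_lit 9166109916) (nat_lit 912) (nat_lit 18840347725) (nat_lit 383) (nat_lit 5) (nat_lit 394) (nat_lit 5) (nat_lit 395) (nat_lit 5) (nat_lit 637) (nat_lit 600) (nat_lit 323)))) (XT.nd (nat_lit 156) (nat_lit 760) (nat_lit 0) (XT.nd (nat_lit 78) (nat_lit 760) (nat_lit 0) (XT.lf (nat_lit 0) (nat_lit 14081069787) (nat_lit 912) (nat_lit 11780665476) (nat_lit 76) (nat_lit 3715395436) (nat_lit 383) (nat_lit 5) (nat_lit 395) (nat_lit 5) (nat_lit 384) (nat_lit 5) (nat_lit 638) (nat_lit 600) (nat_lit 322)) (XT.lf (nat_lit 0) (nat_lit 4769045812) (nat_lit 760) (nat_lit 13143611859) (nat_lit 836) (nat_lit 11993752392) (nat_lit 373) (nat_lit 5) (nat_lit 383) (nat_lit 5) (nat_lit 384) (nat_lit 5) (nat_lit 639) (nat_lit 600) (nat_lit 321))) (XT.nd (nat_lit 78) (nat_lit 760) (nat_lit 0) (XT.lf (nat_lit 0) (nat_lit 21807016507) (nat_lit 760) (nat_lit 90627498) (nat_lit 836) (nat_lit 8343095733) (nat_lit 373) (nat_lit 5) (nat_lit 383) (nat_lit 5) (nat_lit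 384) (nat_lit 5) (nat_lit 640) (nat_lit 600) (nat_lit 320)) (XT.lf (nat_lit 0) (nat_lit 8628883435) (nat_lit 760) (nat_lit 17473082472) (nat_lit 836) (nat_lit 4476997444) (nat_lit 363) (nat_lit 5) (nat_lit 373) (nat_lit 5) (nat_lit 374) (nat_lit 5) (nat_lit 641) (nat_lit 600) (nat_lit 319))))) (XT.nd (nat_lit 312) (nat_lit 1368) (nat_lit 0) (XT.nd (nat_lit 156) (nat_lit 760) (nat_lit 0) (XT.nd (nat_lit 78) (nat_lit 836) (nat_lit 0) (XT.lf (nat_lit 0) (nat_lit 26144050007) (nat_lit 760) (nat_lit 4301299786) (nat_lit 836) (nat_lit 477502190) (nat_lit 363) (nat_lit 5) (nat_lit 373) (nat_lit 5) (nat_lit 374) (nat_lit 5) (nat_lit 642) (nat_lit 600) (nat_lit 318)) (XT.lf (nat_lit 0) (nat_lit 3696185966) (nat_lit 836) (nat_lit 18452494248) (nat_lit 76) (nat_lit 9121641627) (nat_lit 352) (nat_lit 5) (nat_lit 363) (nat_lit 5) (nat_lit 353) (nat_lit 5) (nat_lit 643) (nat_lit 600) (nat_lit 317))) (XT.nd (nat_lit 78) (nat_lit 760) (nat_lit 0) (XT.lf (nat_lit 0) (nat_lit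 8005565870) (nat_lit 836) (nat_lit 827205627) (nat_lit 76) (nat_lit 22790734294) (nat_lit 352) (nat_lit 5) (nat_lit 363) (nat_lit 5) (nat_lit 353) (nat_lit 5) (nat_lit 644) (nat_lit 600) (nat_lit 316)) (XT.lf (nat_lit 0) (nat_lit 12543414804) (nat_lit 836) (nat_lit 14637008184) (nat_lit 76) (nat_lit 4800484856) (nat_lit 342) (nat_lit 5) (nat_lit 353) (nat_lit 5) (nat_lit 343) (nat_lit 5) (nat_lit 645) (nat_lit 600) (nat_lit 315)))) (XT.nd (nat_lit 156) (nat_lit 684) (nat_lit 0) (XT.nd (nat_lit 78) (nat_lit 0) (nat_lit 0) (XT.lf (nat_lit 0) (nat_lit 3529662528) (nat_lit 684) (nat_lit 13727264648) (nat_lit 760) (nat_lit 15086832686) (nat_lit 333) (nat_lit 5) (nat_lit 342) (nat_lit 5) (nat_lit 343) (nat_lit 5) (nat_lit 646) (nat_lit 600) (nat_lit 314)) (XT.lf (nat_lit 0) (nat_lit 22161479815) (nat_lit 760) (nat_lit 10456861560) (nat_lit 76) (nat_lit 93592196) (nat_lit 333) (nat_lit 5) (nat_lit 343) (nat_lit 5) (nat_lit 334) (nat_lit 5) (nat_lit 647) (nat_lit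 600) (nat_lit 313))) (XT.nd (nat_lit 78) (nat_lit 0) (nat_lit 0) (XT.lf (nat_lit 0) (nat_lit 8282874119) (nat_lit 684) (nat_lit 19023907179) (nat_lit 760) (nat_lit 5777836351) (nat_lit 324) (nat_lit 5) (nat_lit 333) (nat_lit 5) (nat_lit 334) (nat_lit 5) (nat_lit 648) (nat_lit 600) (nat_lit 312)) (XT.lf (nat_lit 0) (nat_lit 27536798441) (nat_lit 684) (nat_lit 5086356775) (nat_lit 760) (nat_lit 840236915) (nat_lit 324) (nat_lit 5) (nat_lit 333) (nat_lit 5) (nat_lit 334) (nat_lit 5) (nat_lit 649) (nat_lit 600) (nat_lit 311)))))) (XT.nd (nat_lit 624) (nat_lit 2888) (nat_lit 0) (XT.nd (nat_lit 312) (nat_lit 1292) (nat_lit 0) (XT.nd (nat_lit 156) (nat_lit 1292) (nat_lit 0) (XT.nd (nat_lit 78) (nat_lit 0) (nat_lit 0) (XT.lf (nat_lit 0) (nat_lit 4286615283) (nat_lit 760) (nat_lit 20434335765) (nat_lit 76) (nat_lit 9125335552) (nat_lit 314) (nat_lit 5) (nat_lit 324) (nat_lit 5) (nat_lit 315) (nat_lit 5) (nat_lit 650) (nat_lit 600) (nat_lit 310)) (XT.lf (nat_lit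 0) (nat_lit 9576525703) (nat_lit 760) (nat_lit 1060306365) (nat_lit 76) (nat_lit 23598460418) (nat_lit 314) (nat_lit 5) (nat_lit 324) (nat_lit 5) (nat_lit 315) (nat_lit 5) (nat_lit 651) (nat_lit 600) (nat_lit 309))) (XT.nd (nat_lit 78) (nat_lit 608) (nat_lit 0) (XT.lf (nat_lit 0) (nat_lit 15118357881) (nat_lit 760) (nat_lit 15707284648) (nat_lit 76) (nat_lit 3803513536) (nat_lit 305) (nat_lit 5) (nat_lit 315) (nat_lit 5) (nat_lit 306) (nat_lit 5) (nat_lit 652) (nat_lit 600) (nat_lit 308)) (XT.lf (nat_lit 0) (nat_lit 4270502232) (nat_lit 608) (nat_lit 16603957881) (nat_lit 684) (nat_lit 14154368178) (nat_lit 297) (nat_lit 5) (nat_lit 305) (nat_lit 5) (nat_lit 306) (nat_lit 5) (nat_lit 653) (nat_lit 600) (nat_lit 307)))) (XT.nd (nat_lit 156) (nat_lit 684) (nat_lit 0) (XT.nd (nat_lit 78) (nat_lit 608) (nat_lit 0) (XT.lf (nat_lit 0) (nat_lit 24858449205) (nat_lit 608) (nat_lit 1990763091) (nat_lit 684) (nat_lit 8585211152) (nat_lit 297) (nat_lit 5) (nat_lit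 305) (nat_lit 5) (nat_lit 306) (nat_lit 5) (nat_lit 654) (nat_lit 600) (nat_lit 306)) (XT.lf (nat_lit 0) (nat_lit 10055756142) (nat_lit 608) (nat_lit 23035000565) (nat_lit 684) (nat_lit 2754427901) (nat_lit 289) (nat_lit 5) (nat_lit 297) (nat_lit 5) (nat_lit 298) (nat_lit 5) (nat_lit 655) (nat_lit 600) (nat_lit 305))) (XT.nd (nat_lit 78) (nat_lit 608) (nat_lit 0) (XT.lf (nat_lit 0) (nat_lit 3233885799) (nat_lit 684) (nat_lit 5055955094) (nat_lit 76) (nat_lit 27972249699) (nat_lit 288) (nat_lit 5) (nat_lit 297) (nat_lit 5) (nat_lit 289) (nat_lit 5) (nat_lit 656) (nat_lit 600) (nat_lit 304)) (XT.lf (nat_lit 0) (nat_lit 9453701022) (nat_lit 684) (nat_lit 20444270098) (nat_lit 76) (nat_lit 6786027139) (nat_lit 280) (nat_lit 5) (nat_lit 289) (nat_lit 5) (nat_lit 281) (nat_lit 5) (nat_lit 657) (nat_lit 600) (nat_lit 303))))) (XT.nd (nat_lit 312) (nat_lit 1748) (nat_lit 0) (XT.nd (nat_lit 156) (nat_lit 532) (nat_lit 0) (XT.nd (nat_lit 78) (nat_lit 0) (nat_lit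 0) (XT.lf (nat_lit 0) (nat_lit 870200593) (nat_lit 608) (nat_lit 15020634749) (nat_lit 684) (nat_lit 21221650322) (nat_lit 272) (nat_lit 5) (nat_lit 280) (nat_lit 5) (nat_lit 281) (nat_lit 5) (nat_lit 658) (nat_lit 600) (nat_lit 302)) (XT.lf (nat_lit 0) (nat_lit 22594051529) (nat_lit 684) (nat_lit 14662920087) (nat_lit 76) (nat_lit 289824457) (nat_lit 272) (nat_lit 5) (nat_lit 281) (nat_lit 5) (nat_lit 273) (nat_lit 5) (nat_lit 659) (nat_lit 600) (nat_lit 301))) (XT.nd (nat_lit 78) (nat_lit 0) (nat_lit 0) (XT.lf (nat_lit 0) (nat_lit 7342603213) (nat_lit 532) (nat_lit 22234148170) (nat_lit 608) (nat_lit 8410132958) (nat_lit 265) (nat_lit 5) (nat_lit 272) (nat_lit 5) (nat_lit 273) (nat_lit 5) (nat_lit 660) (nat_lit 600) (nat_lit 300)) (XT.lf (nat_lit 0) (nat_lit 29984757406) (nat_lit 532) (nat_lit 6811034976) (nat_lit 608) (nat_lit 1638048287) (nat_lit 265) (nat_lit 5) (nat_lit 272) (nat_lit 5) (nat_lit 273) (nat_lit 5) (nat_lit 661) (nat_lit 600) (nat_lit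 299)))) (XT.nd (nat_lit 156) (nat_lit 1064) (nat_lit 0) (XT.nd (nat_lit 78) (nat_lit 0) (nat_lit 0) (XT.lf (nat_lit 0) (nat_lit 5350555096) (nat_lit 684) (nat_lit 24604299678) (nat_lit 76) (nat_lit 8931193385) (nat_lit 256) (nat_lit 5) (nat_lit 265) (nat_lit 5) (nat_lit 257) (nat_lit 5) (nat_lit 662) (nat_lit 600) (nat_lit 298)) (XT.lf (nat_lit 0) (nat_lit 12557525948) (nat_lit 684) (nat_lit 1823002280) (nat_lit 76) (nat_lit 24964544476) (nat_lit 256) (nat_lit 5) (nat_lit 265) (nat_lit 5) (nat_lit 257) (nat_lit 5) (nat_lit 663) (nat_lit 600) (nat_lit 297))) (XT.nd (nat_lit 78) (nat_lit 532) (nat_lit 0) (XT.lf (nat_lit 0) (nat_lit 20058567157) (nat_lit 608) (nat_lit 18124913509) (nat_lit 76) (nat_lit 1626798493) (nat_lit 249) (nat_lit 5) (nat_lit 257) (nat_lit 5) (nat_lit 250) (nat_lit 5) (nat_lit 664) (nat_lit 600) (nat_lit 296)) (XT.lf (nat_lit 0) (nat_lit 5377068235) (nat_lit 532) (nat_lit 22473398118) (nat_lit 608) (nat_lit 12431506678) (nat_lit 242)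 (nat_lit 5) (nat_lit 249) (nat_lit 5) (nat_lit 250) (nat_lit 5) (nat_lit 665) (nat_lit 600) (nat_lit 295))))))))
noncomputable def xc208 : XT := (XT.nd (nat_lit 76908) (nat_lit 0) (nat_lit 15504) (XT.nd (nat_lit 1170) (nat_lit 1292) (nat_lit 0) (XT.nd (nat_lit 546) (nat_lit 2204) (nat_lit 0) (XT.nd (nat_lit 234) (nat_lit 1520) (nat_lit 0) (XT.nd (nat_lit 78) (nat_lit 532) (nat_lit 0) (XT.lf (nat_lit 0) (nat_lit 29592588265) (nat_lit 532) (nat_lit 6325636669) (nat_lit 608) (nat_lit 4842475454) (nat_lit 242) (nat_lit 5) (nat_lit 249) (nat_lit 5) (nat_lit 250) (nat_lit 5) (nat_lit 666) (nat_lit 600) (nat_lit 294)) (XT.nd (nat_lit 78) (nat_lit 0) (nat_lit 0) (XT.lf (nat_lit 0) (nat_lit 3010969612) (nat_lit 532) (nat_lit 28118008758) (nat_lit 76) (nat_lit 10116634686) (nat_lit 235) (nat_lit 5) (nat_lit 242) (nat_lit 5) (nat_lit 236) (nat_lit 5) (nat_lit 667) (nat_lit 600) (nat_lit 293)) (XT.lf (nat_lit 0) (nat_lit 11072463337) (nat_lit 532) (nat_lit 3754741506)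 (nat_lit 76) (nat_lit 26910062581) (nat_lit 235) (nat_lit 5) (nat_lit 242) (nat_lit 5) (nat_lit 236) (nat_lit 5) (nat_lit 668) (nat_lit 600) (nat_lit 292)))) (XT.nd (nat_lit 156) (nat_lit 532) (nat_lit 0) (XT.nd (nat_lit 78) (nat_lit 456) (nat_lit 0) (XT.lf (nat_lit 0) (nat_lit 19445025697) (nat_lit 608) (nat_lit 20874639558) (nat_lit 76) (nat_lit 1916092880) (nat_lit 228) (nat_lit 5) (nat_lit 236) (nat_lit 5) (nat_lit 229) (nat_lit 5) (nat_lit 669) (nat_lit 600) (nat_lit 291)) (XT.lf (nat_lit 0) (nat_lit 4241596024) (nat_lit 456) (nat_lit 23893010490) (nat_lit 532) (nat_lit 14606620832) (nat_lit 222) (nat_lit 5) (nat_lit 228) (nat_lit 5) (nat_lit 229) (nat_lit 5) (nat_lit 670) (nat_lit 600) (nat_lit 290))) (XT.nd (nat_lit 78) (nat_lit 532) (nat_lit 0) (XT.lf (nat_lit 0) (nat_lit 30140981063) (nat_lit 456) (nat_lit 6995565194) (nat_lit 532) (nat_lit 6117488367) (nat_lit 222) (nat_lit 5) (nat_lit 228) (nat_lit 5) (nat_lit 229) (nat_lit 5) (nat_lit 671)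 (nat_lit 600) (nat_lit 289)) (XT.lf (nat_lit 0) (nat_lit 2657712578) (nat_lit 532) (nat_lit 30910014241) (nat_lit 76) (nat_lit 10206048904) (nat_lit 215) (nat_lit 5) (nat_lit 222) (nat_lit 5) (nat_lit 216) (nat_lit 5) (nat_lit 672) (nat_lit 600) (nat_lit 288))))) (XT.nd (nat_lit 312) (nat_lit 1292) (nat_lit 0) (XT.nd (nat_lit 156) (nat_lit 456) (nat_lit 0) (XT.nd (nat_lit 78) (nat_lit 456) (nat_lit 0) (XT.lf (nat_lit 0) (nat_lit 11660006314) (nat_lit 532) (nat_lit 4853838250) (nat_lit 76) (nat_lit 27786588335) (nat_lit 215) (nat_lit 5) (nat_lit 222) (nat_lit 5) (nat_lit 216) (nat_lit 5) (nat_lit 673) (nat_lit 600) (nat_lit 287)) (XT.lf (nat_lit 0) (nat_lit 20990460707) (nat_lit 532) (nat_lit 22831414734) (nat_lit 76) (nat_lit 1012785511) (nat_lit 209) (nat_lit 5) (nat_lit 216) (nat_lit 5) (nat_lit 210) (nat_lit 5) (nat_lit 674) (nat_lit 600) (nat_lit 286))) (XT.nd (nat_lit 78) (nat_lit 0) (nat_lit 0) (XT.lf (nat_lit 0) (nat_lit 4025465768) (nat_lit 456)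 (nat_lit 26648903978) (nat_lit 532) (nat_lit 14701866936) (nat_lit 203) (nat_lit 5) (nat_lit 209) (nat_lit 5) (nat_lit 210) (nat_lit 5) (nat_lit 675) (nat_lit 600) (nat_lit 285)) (XT.lf (nat_lit 0) (nat_lit 31726888178) (nat_lit 456) (nat_lit 8976853179) (nat_lit 532) (nat_lit 5221866908) (nat_lit 203) (nat_lit 5) (nat_lit 209) (nat_lit 5) (nat_lit 210) (nat_lit 5) (nat_lit 676) (nat_lit 600) (nat_lit 284)))) (XT.nd (nat_lit 156) (nat_lit 836) (nat_lit 0) (XT.nd (nat_lit 78) (nat_lit 0) (nat_lit 0) (XT.lf (nat_lit 0) (nat_lit 4536104403) (nat_lit 456) (nat_lit 32898786388) (nat_lit 76) (nat_lit 9047564878) (nat_lit 197) (nat_lit 5) (nat_lit 203) (nat_lit 5) (nat_lit 198) (nat_lit 5) (nat_lit 677) (nat_lit 600) (nat_lit 283)) (XT.lf (nat_lit 0) (nat_lit 14573343292) (nat_lit 456) (nat_lit 5031092402) (nat_lit 76) (nat_lit 27442233442) (nat_lit 197) (nat_lit 5) (nat_lit 203) (nat_lit 5) (nat_lit 198) (nat_lit 5) (nat_lit 678) (nat_lit 600) (nat_lit 282)))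 (XT.nd (nat_lit 78) (nat_lit 380) (nat_lit 0) (XT.lf (nat_lit 0) (nat_lit 23702792867) (nat_lit 456) (nat_lit 1261058096) (nat_lit 532) (nat_lit 22655265455) (nat_lit 191) (nat_lit 5) (nat_lit 197) (nat_lit 5) (nat_lit 198) (nat_lit 5) (nat_lit 679) (nat_lit 600) (nat_lit 281)) (XT.lf (nat_lit 0) (nat_lit 4824942400) (nat_lit 380) (nat_lit 30914468926) (nat_lit 456) (nat_lit 12460056492) (nat_lit 186) (nat_lit 5) (nat_lit 191) (nat_lit 5) (nat_lit 192) (nat_lit 5) (nat_lit 680) (nat_lit 600) (nat_lit 280)))))) (XT.nd (nat_lit 75114) (nat_lit 0) (nat_lit 23788) (XT.nd (nat_lit 312) (nat_lit 456) (nat_lit 0) (XT.nd (nat_lit 156) (nat_lit 380) (nat_lit 0) (XT.nd (nat_lit 78) (nat_lit 456) (nat_lit 0) (XT.lf (nat_lit 0) (nat_lit 34454738267) (nat_lit 380) (nat_lit 12443184968) (nat_lit 456) (nat_lit 1890154227) (nat_lit 186) (nat_lit 5) (nat_lit 191) (nat_lit 5) (nat_lit 192) (nat_lit 5) (nat_lit 681) (nat_lit 600) (nat_lit 279)) (XT.lf (nat_lit 0) (nat_lit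 8915976344) (nat_lit 456) (nat_lit 33996580922) (nat_lit 76) (nat_lit 6471918727) (nat_lit 180) (nat_lit 5) (nat_lit 186) (nat_lit 5) (nat_lit 181) (nat_lit 5) (nat_lit 682) (nat_lit 600) (nat_lit 278))) (XT.nd (nat_lit 78) (nat_lit 380) (nat_lit 0) (XT.lf (nat_lit 0) (nat_lit 20090849661) (nat_lit 456) (nat_lit 4190604240) (nat_lit 76) (nat_lit 25707540151) (nat_lit 180) (nat_lit 5) (nat_lit 186) (nat_lit 5) (nat_lit 181) (nat_lit 5) (nat_lit 683) (nat_lit 600) (nat_lit 277)) (XT.lf (nat_lit 0) (nat_lit 26557830260) (nat_lit 380) (nat_lit 5102526340) (nat_lit 456) (nat_lit 18941823171) (nat_lit 175) (nat_lit 5) (nat_lit 180) (nat_lit 5) (nat_lit 181) (nat_lit 5) (nat_lit 684) (nat_lit 600) (nat_lit 276)))) (XT.nd (nat_lit 74646) (nat_lit 0) (nat_lit 23712) (XT.nd (nat_lit 78) (nat_lit 76) (nat_lit 0) (XT.lf (nat_lit 0) (nat_lit 6743361067) (nat_lit 380) (nat_lit 36882579536) (nat_lit 456) (nat_lit 7598394884) (nat_lit 170) (nat_lit 5) (nat_lit 175) (nat_lit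 5) (nat_lit 176) (nat_lit 5) (nat_lit 685) (nat_lit 600) (nat_lit 275)) (XT.lf (nat_lit 0) (nat_lit 4114737480) (nat_lit 456) (nat_lit 13445587063) (nat_lit 76) (nat_lit 34294195475) (nat_lit 169) (nat_lit 5) (nat_lit 175) (nat_lit 5) (nat_lit 170) (nat_lit 5) (nat_lit 686) (nat_lit 600) (nat_lit 274))) (XT.nd (nat_lit 78) (nat_lit 1900) (nat_lit 0) (XT.lf (nat_lit 0) (nat_lit 5062668180) (nat_lit 0) (nat_lit 5062668180) (nat_lit 1748) (nat_lit 23585293) (nat_lit 506) (nat_lit 5) (nat_lit 506) (nat_lit 3) (nat_lit 529) (nat_lit 3) (nat_lit 601) (nat_lit 601) (nat_lit 358)) (XT.lf (nat_lit 0) (nat_lit 114612313) (nat_lit 1900) (nat_lit 63988847) (nat_lit 1900) (nat_lit 20318989280) (nat_lit 481) (nat_lit 3) (nat_lit 506) (nat_lit 3) (nat_lit 506) (nat_lit 5) (nat_lit 602) (nat_lit 601) (nat_lit 357))))) (XT.nd (nat_lit 312) (nat_lit 0) (nat_lit 152) (XT.nd (nat_lit 156) (nat_lit 0) (nat_lit 76) (XT.nd (nat_lit 78) (nat_lit 0) (nat_lit 0) (XT.lf (nat_lit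 0) (nat_lit 407331168) (nat_lit 1824) (nat_lit 10384872652) (nat_lit 1900) (nat_lit 9906555948) (nat_lit 482) (nat_lit 5) (nat_lit 506) (nat_lit 5) (nat_lit 507) (nat_lit 5) (nat_lit 603) (nat_lit 601) (nat_lit 356)) (XT.lf (nat_lit 0) (nat_lit 703362139) (nat_lit 1824) (nat_lit 7186247) (nat_lit 1900) (nat_lit 20193455070) (nat_lit 482) (nat_lit 5) (nat_lit 506) (nat_lit 5) (nat_lit 507) (nat_lit 5) (nat_lit 604) (nat_lit 601) (nat_lit 355))) (XT.nd (nat_lit 78) (nat_lit 0) (nat_lit 0) (XT.lf (nat_lit 0) (nat_lit 1133441467) (nat_lit 1824) (nat_lit 10458266913) (nat_lit 1900) (nat_lit 9519081205) (nat_lit 483) (nat_lit 5) (nat_lit 507) (nat_lit 5) (nat_lit 508) (nat_lit 5) (nat_lit 605) (nat_lit 601) (nat_lit 354)) (XT.lf (nat_lit 76) (nat_lit 199444143) (nat_lit 0) (nat_lit 1374729110) (nat_lit 1900) (nat_lit 19747497288) (nat_lit 484) (nat_lit 5) (nat_lit 483) (nat_lit 5) (nat_lit 508) (nat_lit 5) (nat_lit 606) (nat_lit 601) (nat_lit 353)))) (XT.nd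 (nat_lit 156) (nat_lit 0) (nat_lit 76) (XT.nd (nat_lit 78) (nat_lit 0) (nat_lit 0) (XT.lf (nat_lit 0) (nat_lit 2149177722) (nat_lit 1824) (nat_lit 10384845802) (nat_lit 1900) (nat_lit 9000236549) (nat_lit 484) (nat_lit 5) (nat_lit 508) (nat_lit 5) (nat_lit 509) (nat_lit 5) (nat_lit 607) (nat_lit 601) (nat_lit 352)) (XT.lf (nat_lit 76) (nat_lit 563258570) (nat_lit 0) (nat_lit 2181338196) (nat_lit 1900) (nat_lit 19006326457) (nat_lit 485) (nat_lit 5) (nat_lit 484) (nat_lit 5) (nat_lit 509) (nat_lit 5) (nat_lit 608) (nat_lit 601) (nat_lit 351))) (XT.nd (nat_lit 78) (nat_lit 0) (nat_lit 0) (XT.lf (nat_lit 0) (nat_lit 3472695139) (nat_lit 1824) (nat_lit 10156668446) (nat_lit 1900) (nat_lit 8340140746) (nat_lit 485) (nat_lit 5) (nat_lit 509) (nat_lit 5) (nat_lit 510) (nat_lit 5) (nat_lit 609) (nat_lit 601) (nat_lit 350)) (XT.lf (nat_lit 76) (nat_lit 1092499406) (nat_lit 0) (nat_lit 3140692822) (nat_lit 1900) (nat_lit 17958908210) (nat_lit 486) (nat_lit 5) (nat_lit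 485) (nat_lit 5) (nat_lit 510) (nat_lit 5) (nat_lit 610) (nat_lit 601) (nat_lit 349))))))) (XT.nd (nat_lit 1170) (nat_lit 7144) (nat_lit 0) (XT.nd (nat_lit 546) (nat_lit 1444) (nat_lit 0) (XT.nd (nat_lit 234) (nat_lit 0) (nat_lit 76) (XT.nd (nat_lit 78) (nat_lit 0) (nat_lit 0) (XT.lf (nat_lit 0) (nat_lit 5122940919) (nat_lit 1824) (nat_lit 9765376670) (nat_lit 1900) (nat_lit 7528550152) (nat_lit 486) (nat_lit 5) (nat_lit 510) (nat_lit 5) (nat_lit 511) (nat_lit 5) (nat_lit 611) (nat_lit 601) (nat_lit 348)) (XT.nd (nat_lit 78) (nat_lit 0) (nat_lit 76) (XT.lf (nat_lit 76) (nat_lit 1795936961) (nat_lit 0) (nat_lit 4263442393) (nat_lit 1900) (nat_lit 16586173251) (nat_lit 487) (nat_lit 5) (nat_lit 486) (nat_lit 5) (nat_lit 511) (nat_lit 5) (nat_lit 612) (nat_lit 601) (nat_lit 347)) (XT.lf (nat_lit 0) (nat_lit 7119691113) (nat_lit 1824) (nat_lit 9202180173) (nat_lit 1900) (nat_lit 6554837093) (nat_lit 487) (nat_lit 5) (nat_lit 511) (nat_lit 5) (nat_lit 512)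 (nat_lit 5) (nat_lit 613) (nat_lit 601) (nat_lit 346)))) (XT.nd (nat_lit 156) (nat_lit 0) (nat_lit 76) (XT.nd (nat_lit 78) (nat_lit 0) (nat_lit 76) (XT.lf (nat_lit 76) (nat_lit 2682789412) (nat_lit 0) (nat_lit 5560638980) (nat_lit 1900) (nat_lit 14868214594) (nat_lit 488) (nat_lit 5) (nat_lit 487) (nat_lit 5) (nat_lit 512) (nat_lit 5) (nat_lit 614) (nat_lit 601) (nat_lit 345)) (XT.lf (nat_lit 0) (nat_lit 9483588820) (nat_lit 1824) (nat_lit 8457840947) (nat_lit 1900) (nat_lit 5407967651) (nat_lit 488) (nat_lit 5) (nat_lit 512) (nat_lit 5) (nat_lit 513) (nat_lit 5) (nat_lit 615) (nat_lit 601) (nat_lit 344))) (XT.nd (nat_lit 78) (nat_lit 0) (nat_lit 76) (XT.lf (nat_lit 76) (nat_lit 3762739016) (nat_lit 0) (nat_lit 7043760138) (nat_lit 1900) (nat_lit 12784248951) (nat_lit 489) (nat_lit 5) (nat_lit 488) (nat_lit 5) (nat_lit 513) (nat_lit 5) (nat_lit 616) (nat_lit 601) (nat_lit 343)) (XT.lf (nat_lit 0) (nat_lit 12236183827) (nat_lit 1824) (nat_lit 7522656917)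 (nat_lit 1900) (nat_lit 4076478835) (nat_lit 489) (nat_lit 5) (nat_lit 513) (nat_lit 5) (nat_lit 514) (nat_lit 5) (nat_lit 617) (nat_lit 601) (nat_lit 342))))) (XT.nd (nat_lit 312) (nat_lit 1672) (nat_lit 0) (XT.nd (nat_lit 156) (nat_lit 0) (nat_lit 76) (XT.nd (nat_lit 78) (nat_lit 0) (nat_lit 76) (XT.lf (nat_lit 76) (nat_lit 5045949121) (nat_lit 0) (nat_lit 8724732396) (nat_lit 1900) (nat_lit 10312576674) (nat_lit 490) (nat_lit 5) (nat_lit 489) (nat_lit 5) (nat_lit 514) (nat_lit 5) (nat_lit 618) (nat_lit 601) (nat_lit 341)) (XT.lf (nat_lit 0) (nat_lit 15399973725) (nat_lit 1824) (nat_lit 6386444783) (nat_lit 1900) (nat_lit 2548455072) (nat_lit 490) (nat_lit 5) (nat_lit 514) (nat_lit 5) (nat_lit 515) (nat_lit 5) (nat_lit 619) (nat_lit 601) (nat_lit 340))) (XT.nd (nat_lit 78) (nat_lit 0) (nat_lit 76) (XT.lf (nat_lit 76) (nat_lit 6543082006) (nat_lit 0) (nat_lit 10615955451) (nat_lit 1900) (nat_lit 7430540196) (nat_lit 491) (nat_lit 5) (nat_lit 490) (nat_lit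 5) (nat_lit 515) (nat_lit 5) (nat_lit 620) (nat_lit 601) (nat_lit 339)) (XT.lf (nat_lit 0) (nat_lit 18998446588) (nat_lit 1824) (nat_lit 5038522045) (nat_lit 1900) (nat_lit 811503982) (nat_lit 491) (nat_lit 5) (nat_lit 515) (nat_lit 5) (nat_lit 516) (nat_lit 5) (nat_lit 621) (nat_lit 601) (nat_lit 338)))) (XT.nd (nat_lit 156) (nat_lit 1824) (nat_lit 0) (XT.nd (nat_lit 78) (nat_lit 0) (nat_lit 0) (XT.lf (nat_lit 76) (nat_lit 8265317552) (nat_lit 0) (nat_lit 12730327111) (nat_lit 1900) (nat_lit 4114480886) (nat_lit 492) (nat_lit 5) (nat_lit 491) (nat_lit 5) (nat_lit 516) (nat_lit 5) (nat_lit 622) (nat_lit 601) (nat_lit 337)) (XT.lf (nat_lit 76) (nat_lit 21901157899) (nat_lit 0) (nat_lit 1162515203) (nat_lit 1900) (nat_lit 2312720798) (nat_lit 492) (nat_lit 5) (nat_lit 491) (nat_lit 5) (nat_lit 516) (nat_lit 5) (nat_lit 623) (nat_lit 601) (nat_lit 336))) (XT.nd (nat_lit 78) (nat_lit 1900) (nat_lit 0) (XT.lf (nat_lit 76) (nat_lit 10224372805) (nat_lit 0) (nat_lit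 15081269038) (nat_lit 1900) (nat_lit 339694265) (nat_lit 493) (nat_lit 5) (nat_lit 492) (nat_lit 5) (nat_lit 517) (nat_lit 5) (nat_lit 624) (nat_lit 601) (nat_lit 335)) (XT.lf (nat_lit 0) (nat_lit 1679185784) (nat_lit 1900) (nat_lit 1695234362) (nat_lit 1976) (nat_lit 22544453238) (nat_lit 467) (nat_lit 5) (nat_lit 492) (nat_lit 5) (nat_lit 493) (nat_lit 5) (nat_lit 625) (nat_lit 601) (nat_lit 334)))))) (XT.nd (nat_lit 624) (nat_lit 3420) (nat_lit 0) (XT.nd (nat_lit 312) (nat_lit 1748) (nat_lit 0) (XT.nd (nat_lit 156) (nat_lit 912) (nat_lit 0) (XT.nd (nat_lit 78) (nat_lit 1140) (nat_lit 0) (XT.lf (nat_lit 0) (nat_lit 3868210033) (nat_lit 1900) (nat_lit 13788585587) (nat_lit 76) (nat_lit 8538354657) (nat_lit 468) (nat_lit 5) (nat_lit 493) (nat_lit 5) (nat_lit 469) (nat_lit 5) (nat_lit 626) (nat_lit 601) (nat_lit 333)) (XT.lf (nat_lit 0) (nat_lit 315969571) (nat_lit 1140) (nat_lit 5818150865) (nat_lit 1216) (nat_lit 20342170235) (nat_lit 453) (nat_lit 5)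 (nat_lit 468) (nat_lit 5) (nat_lit 469) (nat_lit 5) (nat_lit 627) (nat_lit 601) (nat_lit 332))) (XT.nd (nat_lit 78) (nat_lit 912) (nat_lit 0) (XT.lf (nat_lit 0) (nat_lit 8576412939) (nat_lit 1216) (nat_lit 11915364899) (nat_lit 76) (nat_lit 6268654836) (nat_lit 453) (nat_lit 5) (nat_lit 469) (nat_lit 5) (nat_lit 454) (nat_lit 5) (nat_lit 628) (nat_lit 601) (nat_lit 331)) (XT.lf (nat_lit 0) (nat_lit 2607762629) (nat_lit 912) (nat_lit 8512599927) (nat_lit 988) (nat_lit 15928838809) (nat_lit 441) (nat_lit 5) (nat_lit 453) (nat_lit 5) (nat_lit 454) (nat_lit 5) (nat_lit 629) (nat_lit 601) (nat_lit 330)))) (XT.nd (nat_lit 156) (nat_lit 836) (nat_lit 0) (XT.nd (nat_lit 78) (nat_lit 912) (nat_lit 0) (XT.lf (nat_lit 0) (nat_lit 13817129076) (nat_lit 988) (nat_lit 9786306393) (nat_lit 76) (nat_lit 3738271277) (nat_lit 441) (nat_lit 5) (nat_lit 454) (nat_lit 5) (nat_lit 442) (nat_lit 5) (nat_lit 630) (nat_lit 601) (nat_lit 329)) (XT.lf (nat_lit 0) (nat_lit 5170983553)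 (nat_lit 912) (nat_lit 11484234049) (nat_lit 988) (nat_lit 10983096970) (nat_lit 429) (nat_lit 5) (nat_lit 441) (nat_lit 5) (nat_lit 442) (nat_lit 5) (nat_lit 631) (nat_lit 601) (nat_lit 328))) (XT.nd (nat_lit 78) (nat_lit 836) (nat_lit 0) (XT.lf (nat_lit 0) (nat_lit 19619344632) (nat_lit 988) (nat_lit 7388021610) (nat_lit 76) (nat_lit 932102851) (nat_lit 429) (nat_lit 5) (nat_lit 442) (nat_lit 5) (nat_lit 430) (nat_lit 5) (nat_lit 632) (nat_lit 601) (nat_lit 327)) (XT.lf (nat_lit 0) (nat_lit 8019621291) (nat_lit 836) (nat_lit 14748779874) (nat_lit 912) (nat_lit 5475732668) (nat_lit 418) (nat_lit 5) (nat_lit 429) (nat_lit 5) (nat_lit 430) (nat_lit 5) (nat_lit 633) (nat_lit 601) (nat_lit 326))))) (XT.nd (nat_lit 312) (nat_lit 1596) (nat_lit 0) (XT.nd (nat_lit 156) (nat_lit 836) (nat_lit 0) (XT.nd (nat_lit 78) (nat_lit 988) (nat_lit 0) (XT.lf (nat_lit 0) (nat_lit 23833202325) (nat_lit 836) (nat_lit 2194370975) (nat_lit 912) (nat_lit 2526375948) (nat_lit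 418) (nat_lit 5) (nat_lit 429) (nat_lit 5) (nat_lit 430) (nat_lit 5) (nat_lit 634) (nat_lit 601) (nat_lit 325)) (XT.lf (nat_lit 0) (nat_lit 615579281) (nat_lit 988) (nat_lit 17702920217) (nat_lit 76) (nat_lit 10548600303) (nat_lit 405) (nat_lit 5) (nat_lit 418) (nat_lit 5) (nat_lit 406) (nat_lit 5) (nat_lit 635) (nat_lit 601) (nat_lit 324))) (XT.nd (nat_lit 78) (nat_lit 836) (nat_lit 0) (XT.lf (nat_lit 0) (nat_lit 3830619187) (nat_lit 988) (nat_lit 1788936837) (nat_lit 76) (nat_lit 23565741944) (nat_lit 405) (nat_lit 5) (nat_lit 418) (nat_lit 5) (nat_lit 406) (nat_lit 5) (nat_lit 636) (nat_lit 601) (nat_lit 323)) (XT.lf (nat_lit 0) (nat_lit 7250876695) (nat_lit 912) (nat_lit 14923342475) (nat_lit 76) (nat_lit 7332822655) (nat_lit 394) (nat_lit 5) (nat_lit 406) (nat_lit 5) (nat_lit 395) (nat_lit 5) (nat_lit 637) (nat_lit 601) (nat_lit 322)))) (XT.nd (nat_lit 156) (nat_lit 760) (nat_lit 0) (XT.nd (nat_lit 78) (nat_lit 0) (nat_lit 0) (XT.lf (nat_lit 0) (nat_lit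 1452447722) (nat_lit 836) (nat_lit 9343520284) (nat_lit 912) (nat_lit 19038124042) (nat_lit 383) (nat_lit 5) (nat_lit 394) (nat_lit 5) (nat_lit 395) (nat_lit 5) (nat_lit 638) (nat_lit 601) (nat_lit 321)) (XT.lf (nat_lit 0) (nat_lit 14534802984) (nat_lit 912) (nat_lit 11835000271) (nat_lit 76) (nat_lit 3795423243) (nat_lit 383) (nat_lit 5) (nat_lit 395) (nat_lit 5) (nat_lit 384) (nat_lit 5) (nat_lit 639) (nat_lit 601) (nat_lit 320))) (XT.nd (nat_lit 78) (nat_lit 0) (nat_lit 0) (XT.lf (nat_lit 0) (nat_lit 5044512620) (nat_lit 760) (nat_lit 13396304500) (nat_lit 836) (nat_lit 12060318527) (nat_lit 373) (nat_lit 5) (nat_lit 383) (nat_lit 5) (nat_lit 384) (nat_lit 5) (nat_lit 640) (nat_lit 601) (nat_lit 319)) (XT.lf (nat_lit 0) (nat_lit 22419711634) (nat_lit 760) (nat_lit 82460053) (nat_lit 836) (nat_lit 8340046949) (nat_lit 373) (nat_lit 5) (nat_lit 383) (nat_lit 5) (nat_lit 384) (nat_lit 5) (nat_lit 641) (nat_lit 601) (nat_lit 318))))))))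
noncomputable def xc209 : XT := (XT.nd (nat_lit 2418) (nat_lit 3952) (nat_lit 0) (XT.nd (nat_lit 1170) (nat_lit 5092) (nat_lit 0) (XT.nd (nat_lit 546) (nat_lit 3344) (nat_lit 0) (XT.nd (nat_lit 234) (nat_lit 1444) (nat_lit 0) (XT.nd (nat_lit 78) (nat_lit 836) (nat_lit 0) (XT.lf (nat_lit 0) (nat_lit 8980103936) (nat_lit 760) (nat_lit 17808433311) (nat_lit 836) (nat_lit 4398710415) (nat_lit 363) (nat_lit 5) (nat_lit 373) (nat_lit 5) (nat_lit 374) (nat_lit 5) (nat_lit 642) (nat_lit 601) (nat_lit 317)) (XT.nd (nat_lit 78) (nat_lit 836) (nat_lit 0) (XT.lf (nat_lit 0) (nat_lit 26842071039) (nat_lit 760) (nat_lit 4373491654) (nat_lit 836) (nat_lit 322515980) (nat_lit 363) (nat_lit 5) (nat_lit 373) (nat_lit 5) (nat_lit 374) (nat_lit 5) (nat_lit 643) (nat_lit 601) (nat_lit 316)) (XT.lf (nat_lit 0) (nat_lit 3930550285) (nat_lit 836) (nat_lit 18642300233) (nat_lit 76) (nat_lit 9319664881) (nat_lit 352) (nat_lit 5) (nat_lit 363) (nat_lit 5) (nat_lit 353) (nat_lit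 5) (nat_lit 644) (nat_lit 601) (nat_lit 315)))) (XT.nd (nat_lit 156) (nat_lit 684) (nat_lit 0) (XT.nd (nat_lit 78) (nat_lit 760) (nat_lit 0) (XT.lf (nat_lit 0) (nat_lit 8322971893) (nat_lit 836) (nat_lit 668020426) (nat_lit 76) (nat_lit 23261833707) (nat_lit 352) (nat_lit 5) (nat_lit 363) (nat_lit 5) (nat_lit 353) (nat_lit 5) (nat_lit 645) (nat_lit 601) (nat_lit 314)) (XT.lf (nat_lit 0) (nat_lit 12949751889) (nat_lit 836) (nat_lit 14752189210) (nat_lit 76) (nat_lit 4915471616) (nat_lit 342) (nat_lit 5) (nat_lit 353) (nat_lit 5) (nat_lit 343) (nat_lit 5) (nat_lit 646) (nat_lit 601) (nat_lit 313))) (XT.nd (nat_lit 78) (nat_lit 0) (nat_lit 0) (XT.lf (nat_lit 0) (nat_lit 3776646764) (nat_lit 684) (nat_lit 13978984585) (nat_lit 760) (nat_lit 15231928566) (nat_lit 333) (nat_lit 5) (nat_lit 342) (nat_lit 5) (nat_lit 343) (nat_lit 5) (nat_lit 647) (nat_lit 601) (nat_lit 312)) (XT.lf (nat_lit 0) (nat_lit 22755409242) (nat_lit 760) (nat_lit 10490196896) (nat_lit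 76) (nat_lit 117548351) (nat_lit 333) (nat_lit 5) (nat_lit 343) (nat_lit 5) (nat_lit 334) (nat_lit 5) (nat_lit 648) (nat_lit 601) (nat_lit 311))))) (XT.nd (nat_lit 312) (nat_lit 1900) (nat_lit 0) (XT.nd (nat_lit 156) (nat_lit 760) (nat_lit 0) (XT.nd (nat_lit 78) (nat_lit 0) (nat_lit 0) (XT.lf (nat_lit 0) (nat_lit 8623176905) (nat_lit 684) (nat_lit 19378618864) (nat_lit 760) (nat_lit 5741532974) (nat_lit 324) (nat_lit 5) (nat_lit 333) (nat_lit 5) (nat_lit 334) (nat_lit 5) (nat_lit 649) (nat_lit 601) (nat_lit 310)) (XT.lf (nat_lit 0) (nat_lit 28258755295) (nat_lit 684) (nat_lit 5162822677) (nat_lit 760) (nat_lit 708159198) (nat_lit 324) (nat_lit 5) (nat_lit 333) (nat_lit 5) (nat_lit 334) (nat_lit 5) (nat_lit 650) (nat_lit 601) (nat_lit 309))) (XT.nd (nat_lit 78) (nat_lit 0) (nat_lit 0) (XT.lf (nat_lit 0) (nat_lit 4517687900) (nat_lit 760) (nat_lit 20668252440) (nat_lit 76) (nat_lit 9334361715) (nat_lit 314) (nat_lit 5) (nat_lit 324) (nat_lit 5) (nat_lit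 315) (nat_lit 5) (nat_lit 651) (nat_lit 601) (nat_lit 308)) (XT.lf (nat_lit 0) (nat_lit 9910546718) (nat_lit 760) (nat_lit 910169315) (nat_lit 76) (nat_lit 24096429089) (nat_lit 314) (nat_lit 5) (nat_lit 324) (nat_lit 5) (nat_lit 315) (nat_lit 5) (nat_lit 652) (nat_lit 601) (nat_lit 307)))) (XT.nd (nat_lit 156) (nat_lit 608) (nat_lit 0) (XT.nd (nat_lit 78) (nat_lit 608) (nat_lit 0) (XT.lf (nat_lit 0) (nat_lit 15561717740) (nat_lit 760) (nat_lit 15848586027) (nat_lit 76) (nat_lit 3908612229) (nat_lit 305) (nat_lit 5) (nat_lit 315) (nat_lit 5) (nat_lit 306) (nat_lit 5) (nat_lit 653) (nat_lit 601) (nat_lit 306)) (XT.lf (nat_lit 0) (nat_lit 4527619456) (nat_lit 608) (nat_lit 16903672834) (nat_lit 684) (nat_lit 14295322437) (nat_lit 297) (nat_lit 5) (nat_lit 305) (nat_lit 5) (nat_lit 306) (nat_lit 5) (nat_lit 654) (nat_lit 601) (nat_lit 305))) (XT.nd (nat_lit 78) (nat_lit 608) (nat_lit 0) (XT.lf (nat_lit 0) (nat_lit 25523958561) (nat_lit 608) (nat_lit 1998848741)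 (nat_lit 684) (nat_lit 8617569193) (nat_lit 297) (nat_lit 5) (nat_lit 305) (nat_lit 5) (nat_lit 306) (nat_lit 5) (nat_lit 655) (nat_lit 601) (nat_lit 304)) (XT.lf (nat_lit 0) (nat_lit 10426616906) (nat_lit 608) (nat_lit 23461191125) (nat_lit 684) (nat_lit 2671572402) (nat_lit 289) (nat_lit 5) (nat_lit 297) (nat_lit 5) (nat_lit 298) (nat_lit 5) (nat_lit 656) (nat_lit 601) (nat_lit 303)))))) (XT.nd (nat_lit 624) (nat_lit 2584) (nat_lit 0) (XT.nd (nat_lit 312) (nat_lit 1216) (nat_lit 0) (XT.nd (nat_lit 156) (nat_lit 608) (nat_lit 0) (XT.nd (nat_lit 78) (nat_lit 608) (nat_lit 0) (XT.lf (nat_lit 0) (nat_lit 3432029099) (nat_lit 684) (nat_lit 4988880192) (nat_lit 76) (nat_lit 28563750780) (nat_lit 288) (nat_lit 5) (nat_lit 297) (nat_lit 5) (nat_lit 289) (nat_lit 5) (nat_lit 657) (nat_lit 601) (nat_lit 302)) (XT.lf (nat_lit 0) (nat_lit 9774936740) (nat_lit 684) (nat_lit 20683654647) (nat_lit 76) (nat_lit 6956440641) (nat_lit 280) (nat_lit 5) (nat_lit 289) (nat_lit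 5) (nat_lit 281) (nat_lit 5) (nat_lit 658) (nat_lit 601) (nat_lit 301))) (XT.nd (nat_lit 78) (nat_lit 0) (nat_lit 0) (XT.lf (nat_lit 0) (nat_lit 1055990320) (nat_lit 608) (nat_lit 15283325292) (nat_lit 684) (nat_lit 21512803590) (nat_lit 272) (nat_lit 5) (nat_lit 280) (nat_lit 5) (nat_lit 281) (nat_lit 5) (nat_lit 659) (nat_lit 601) (nat_lit 300)) (XT.lf (nat_lit 0) (nat_lit 23174274207) (nat_lit 684) (nat_lit 14788769691) (nat_lit 76) (nat_lit 332118416) (nat_lit 272) (nat_lit 5) (nat_lit 281) (nat_lit 5) (nat_lit 273) (nat_lit 5) (nat_lit 660) (nat_lit 601) (nat_lit 299)))) (XT.nd (nat_lit 156) (nat_lit 684) (nat_lit 0) (XT.nd (nat_lit 78) (nat_lit 0) (nat_lit 0) (XT.lf (nat_lit 0) (nat_lit 7655762701) (nat_lit 532) (nat_lit 22639428632) (nat_lit 608) (nat_lit 8448889805) (nat_lit 265) (nat_lit 5) (nat_lit 272) (nat_lit 5) (nat_lit 273) (nat_lit 5) (nat_lit 661) (nat_lit 601) (nat_lit 298)) (XT.lf (nat_lit 0) (nat_lit 30747499048) (nat_lit 532) (nat_lit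 6908625773) (nat_lit 608) (nat_lit 1543901593) (nat_lit 265) (nat_lit 5) (nat_lit 272) (nat_lit 5) (nat_lit 273) (nat_lit 5) (nat_lit 662) (nat_lit 601) (nat_lit 297))) (XT.nd (nat_lit 78) (nat_lit 0) (nat_lit 0) (XT.lf (nat_lit 0) (nat_lit 5581674363) (nat_lit 684) (nat_lit 24930534370) (nat_lit 76) (nat_lit 9149075594) (nat_lit 256) (nat_lit 5) (nat_lit 265) (nat_lit 5) (nat_lit 257) (nat_lit 5) (nat_lit 663) (nat_lit 601) (nat_lit 296)) (XT.lf (nat_lit 0) (nat_lit 12930351139) (nat_lit 684) (nat_lit 1696863011) (nat_lit 76) (nat_lit 25502323936) (nat_lit 256) (nat_lit 5) (nat_lit 265) (nat_lit 5) (nat_lit 257) (nat_lit 5) (nat_lit 664) (nat_lit 601) (nat_lit 295))))) (XT.nd (nat_lit 312) (nat_lit 988) (nat_lit 0) (XT.nd (nat_lit 156) (nat_lit 532) (nat_lit 0) (XT.nd (nat_lit 78) (nat_lit 532) (nat_lit 0) (XT.lf (nat_lit 0) (nat_lit 20580343597) (nat_lit 608) (nat_lit 18323740360) (nat_lit 76) (nat_lit 1699986154) (nat_lit 249) (nat_lit 5) (nat_lit 257)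 (nat_lit 5) (nat_lit 250) (nat_lit 5) (nat_lit 665) (nat_lit 601) (nat_lit 294)) (XT.lf (nat_lit 0) (nat_lit 5647204232) (nat_lit 532) (nat_lit 22879567411) (nat_lit 608) (nat_lit 12558452451) (nat_lit 242) (nat_lit 5) (nat_lit 249) (nat_lit 5) (nat_lit 250) (nat_lit 5) (nat_lit 666) (nat_lit 601) (nat_lit 293))) (XT.nd (nat_lit 78) (nat_lit 532) (nat_lit 0) (XT.lf (nat_lit 0) (nat_lit 30343846533) (nat_lit 532) (nat_lit 6409699726) (nat_lit 608) (nat_lit 4820026570) (nat_lit 242) (nat_lit 5) (nat_lit 249) (nat_lit 5) (nat_lit 250) (nat_lit 5) (nat_lit 667) (nat_lit 601) (nat_lit 292)) (XT.lf (nat_lit 0) (nat_lit 3187934655) (nat_lit 532) (nat_lit 28518404970) (nat_lit 76) (nat_lit 10361848443) (nat_lit 235) (nat_lit 5) (nat_lit 242) (nat_lit 5) (nat_lit 236) (nat_lit 5) (nat_lit 668) (nat_lit 601) (nat_lit 291)))) (XT.nd (nat_lit 156) (nat_lit 456) (nat_lit 0) (XT.nd (nat_lit 78) (nat_lit 532) (nat_lit 0) (XT.lf (nat_lit 0) (nat_lit 11408369124) (nat_lit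 532) (nat_lit 3671048137) (nat_lit 76) (nat_lit 27490304091) (nat_lit 235) (nat_lit 5) (nat_lit 242) (nat_lit 5) (nat_lit 236) (nat_lit 5) (nat_lit 669) (nat_lit 601) (nat_lit 290)) (XT.lf (nat_lit 0) (nat_lit 19947451631) (nat_lit 608) (nat_lit 21132410804) (nat_lit 76) (nat_lit 1998338108) (nat_lit 228) (nat_lit 5) (nat_lit 236) (nat_lit 5) (nat_lit 229) (nat_lit 5) (nat_lit 670) (nat_lit 601) (nat_lit 289))) (XT.nd (nat_lit 78) (nat_lit 0) (nat_lit 0) (XT.lf (nat_lit 0) (nat_lit 4485098689) (nat_lit 456) (nat_lit 24324529583) (nat_lit 532) (nat_lit 14784174827) (nat_lit 222) (nat_lit 5) (nat_lit 228) (nat_lit 5) (nat_lit 229) (nat_lit 5) (nat_lit 671) (nat_lit 601) (nat_lit 288)) (XT.lf (nat_lit 0) (nat_lit 30899360238) (nat_lit 456) (nat_lit 7090044030) (nat_lit 532) (nat_lit 6127506349) (nat_lit 222) (nat_lit 5) (nat_lit 228) (nat_lit 5) (nat_lit 229) (nat_lit 5) (nat_lit 672) (nat_lit 601) (nat_lit 287))))))) (XT.nd (nat_lit 75738) (nat_lit 0) (nat_lit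 23636) (XT.nd (nat_lit 546) (nat_lit 2052) (nat_lit 0) (XT.nd (nat_lit 234) (nat_lit 912) (nat_lit 0) (XT.nd (nat_lit 78) (nat_lit 456) (nat_lit 0) (XT.lf (nat_lit 0) (nat_lit 2820865170) (nat_lit 532) (nat_lit 31370317338) (nat_lit 76) (nat_lit 10455866688) (nat_lit 215) (nat_lit 5) (nat_lit 222) (nat_lit 5) (nat_lit 216) (nat_lit 5) (nat_lit 673) (nat_lit 601) (nat_lit 286)) (XT.nd (nat_lit 78) (nat_lit 456) (nat_lit 0) (XT.lf (nat_lit 0) (nat_lit 12001047951) (nat_lit 532) (nat_lit 4796113851) (nat_lit 76) (nat_lit 28387120892) (nat_lit 215) (nat_lit 5) (nat_lit 222) (nat_lit 5) (nat_lit 216) (nat_lit 5) (nat_lit 674) (nat_lit 601) (nat_lit 285)) (XT.lf (nat_lit 0) (nat_lit 21517300880) (nat_lit 532) (nat_lit 23132429319) (nat_lit 76) (nat_lit 1079481360) (nat_lit 209) (nat_lit 5) (nat_lit 216) (nat_lit 5) (nat_lit 210) (nat_lit 5) (nat_lit 675) (nat_lit 601) (nat_lit 284)))) (XT.nd (nat_lit 156) (nat_lit 456) (nat_lit 0) (XT.nd (nat_lit 78) (nat_lit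 0) (nat_lit 0) (XT.lf (nat_lit 0) (nat_lit 4260565019) (nat_lit 456) (nat_lit 27133228133) (nat_lit 532) (nat_lit 14887847588) (nat_lit 203) (nat_lit 5) (nat_lit 209) (nat_lit 5) (nat_lit 210) (nat_lit 5) (nat_lit 676) (nat_lit 601) (nat_lit 283)) (XT.lf (nat_lit 0) (nat_lit 32512984702) (nat_lit 456) (nat_lit 9108690317) (nat_lit 532) (nat_lit 5220366318) (nat_lit 203) (nat_lit 5) (nat_lit 209) (nat_lit 5) (nat_lit 210) (nat_lit 5) (nat_lit 677) (nat_lit 601) (nat_lit 282))) (XT.nd (nat_lit 78) (nat_lit 0) (nat_lit 0) (XT.lf (nat_lit 0) (nat_lit 4730626199) (nat_lit 456) (nat_lit 33403061414) (nat_lit 76) (nat_lit 9276339333) (nat_lit 197) (nat_lit 5) (nat_lit 203) (nat_lit 5) (nat_lit 198) (nat_lit 5) (nat_lit 678) (nat_lit 601) (nat_lit 281)) (XT.lf (nat_lit 0) (nat_lit 14966574577) (nat_lit 456) (nat_lit 4981027289) (nat_lit 76) (nat_lit 28037963560) (nat_lit 197) (nat_lit 5) (nat_lit 203) (nat_lit 5) (nat_lit 198) (nat_lit 5) (nat_lit 679) (nat_lit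 601) (nat_lit 280))))) (XT.nd (nat_lit 312) (nat_lit 760) (nat_lit 0) (XT.nd (nat_lit 156) (nat_lit 456) (nat_lit 0) (XT.nd (nat_lit 78) (nat_lit 380) (nat_lit 0) (XT.lf (nat_lit 0) (nat_lit 24326544325) (nat_lit 456) (nat_lit 1237324619) (nat_lit 532) (nat_lit 23005613213) (nat_lit 191) (nat_lit 5) (nat_lit 197) (nat_lit 5) (nat_lit 198) (nat_lit 5) (nat_lit 680) (nat_lit 601) (nat_lit 279)) (XT.lf (nat_lit 0) (nat_lit 5071839576) (nat_lit 380) (nat_lit 31482413725) (nat_lit 456) (nat_lit 12607201063) (nat_lit 186) (nat_lit 5) (nat_lit 191) (nat_lit 5) (nat_lit 192) (nat_lit 5) (nat_lit 681) (nat_lit 601) (nat_lit 278))) (XT.nd (nat_lit 78) (nat_lit 456) (nat_lit 0) (XT.lf (nat_lit 0) (nat_lit 35291282374) (nat_lit 380) (nat_lit 12642691236) (nat_lit 456) (nat_lit 1827901862) (nat_lit 186) (nat_lit 5) (nat_lit 191) (nat_lit 5) (nat_lit 192) (nat_lit 5) (nat_lit 682) (nat_lit 601) (nat_lit 277)) (XT.lf (nat_lit 0) (nat_lit 9192387200) (nat_lit 456) (nat_lit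 34527095774) (nat_lit 76) (nat_lit 6650719078) (nat_lit 180) (nat_lit 5) (nat_lit 186) (nat_lit 5) (nat_lit 181) (nat_lit 5) (nat_lit 683) (nat_lit 601) (nat_lit 276)))) (XT.nd (nat_lit 156) (nat_lit 380) (nat_lit 0) (XT.nd (nat_lit 78) (nat_lit 380) (nat_lit 0) (XT.lf (nat_lit 0) (nat_lit 20588834623) (nat_lit 456) (nat_lit 4127929299) (nat_lit 76) (nat_lit 26270085048) (nat_lit 180) (nat_lit 5) (nat_lit 186) (nat_lit 5) (nat_lit 181) (nat_lit 5) (nat_lit 684) (nat_lit 601) (nat_lit 275)) (XT.lf (nat_lit 0) (nat_lit 27234510161) (nat_lit 380) (nat_lit 5154280728) (nat_lit 456) (nat_lit 19223526363) (nat_lit 175) (nat_lit 5) (nat_lit 180) (nat_lit 5) (nat_lit 181) (nat_lit 5) (nat_lit 685) (nat_lit 601) (nat_lit 274))) (XT.nd (nat_lit 74646) (nat_lit 0) (nat_lit 23636) (XT.lf (nat_lit 0) (nat_lit 7024363360) (nat_lit 380) (nat_lit 37568724970) (nat_lit 456) (nat_lit 7653839747) (nat_lit 170) (nat_lit 5) (nat_lit 175) (nat_lit 5) (nat_lit 176) (nat_lit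 5) (nat_lit 686) (nat_lit 601) (nat_lit 273)) (XT.lf (nat_lit 0) (nat_lit 136838874) (nat_lit 1900) (nat_lit 5105923934) (nat_lit 1900) (nat_lit 5105923934) (nat_lit 481) (nat_lit 3) (nat_lit 506) (nat_lit 3) (nat_lit 506) (nat_lit 5) (nat_lit 602) (nat_lit 602) (nat_lit 356)))))) (XT.nd (nat_lit 624) (nat_lit 0) (nat_lit 304) (XT.nd (nat_lit 312) (nat_lit 0) (nat_lit 152) (XT.nd (nat_lit 156) (nat_lit 0) (nat_lit 76) (XT.nd (nat_lit 78) (nat_lit 0) (nat_lit 76) (XT.lf (nat_lit 76) (nat_lit 96583208) (nat_lit 0) (nat_lit 335811888) (nat_lit 1900) (nat_lit 20468827813) (nat_lit 482) (nat_lit 5) (nat_lit 481) (nat_lit 3) (nat_lit 506) (nat_lit 5) (nat_lit 603) (nat_lit 602) (nat_lit 355)) (XT.lf (nat_lit 0) (nat_lit 724228042) (nat_lit 1824) (nat_lit 10425862433) (nat_lit 1900) (nat_lit 9956460143) (nat_lit 482) (nat_lit 5) (nat_lit 506) (nat_lit 5) (nat_lit 507) (nat_lit 5) (nat_lit 604) (nat_lit 602) (nat_lit 354))) (XT.nd (nat_lit 78) (nat_lit 0) (nat_lit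 76) (XT.lf (nat_lit 76) (nat_lit 158183527) (nat_lit 0) (nat_lit 862969211) (nat_lit 1900) (nat_lit 20294847162) (nat_lit 483) (nat_lit 5) (nat_lit 482) (nat_lit 5) (nat_lit 507) (nat_lit 5) (nat_lit 605) (nat_lit 602) (nat_lit 353)) (XT.lf (nat_lit 0) (nat_lit 1453046129) (nat_lit 1824) (nat_lit 10498223886) (nat_lit 1900) (nat_lit 9575787667) (nat_lit 483) (nat_lit 5) (nat_lit 507) (nat_lit 5) (nat_lit 508) (nat_lit 5) (nat_lit 606) (nat_lit 602) (nat_lit 352)))) (XT.nd (nat_lit 156) (nat_lit 0) (nat_lit 76) (XT.nd (nat_lit 78) (nat_lit 0) (nat_lit 76) (XT.lf (nat_lit 76) (nat_lit 371528178) (nat_lit 0) (nat_lit 1526333487) (nat_lit 1900) (nat_lit 19844389385) (nat_lit 484) (nat_lit 5) (nat_lit 483) (nat_lit 5) (nat_lit 508) (nat_lit 5) (nat_lit 607) (nat_lit 602) (nat_lit 351)) (XT.lf (nat_lit 0) (nat_lit 2477846711) (nat_lit 1824) (nat_lit 10421215408) (nat_lit 1900) (nat_lit 9060160817) (nat_lit 484) (nat_lit 5) (nat_lit 508) (nat_lit 5) (nat_lit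 509) (nat_lit 5) (nat_lit 608) (nat_lit 602) (nat_lit 350))) (XT.nd (nat_lit 78) (nat_lit 0) (nat_lit 76) (XT.lf (nat_lit 76) (nat_lit 744723899) (nat_lit 0) (nat_lit 2335953614) (nat_lit 1900) (nat_lit 19099631938) (nat_lit 485) (nat_lit 5) (nat_lit 484) (nat_lit 5) (nat_lit 509) (nat_lit 5) (nat_lit 609) (nat_lit 602) (nat_lit 349)) (XT.lf (nat_lit 0) (nat_lit 3817117865) (nat_lit 1824) (nat_lit 10186710632) (nat_lit 1900) (nat_lit 8399558249) (nat_lit 485) (nat_lit 5) (nat_lit 509) (nat_lit 5) (nat_lit 510) (nat_lit 5) (nat_lit 610) (nat_lit 602) (nat_lit 348))))) (XT.nd (nat_lit 312) (nat_lit 0) (nat_lit 152) (XT.nd (nat_lit 156) (nat_lit 0) (nat_lit 76) (XT.nd (nat_lit 78) (nat_lit 0) (nat_lit 76) (XT.lf (nat_lit 76) (nat_lit 1286301819) (nat_lit 0) (nat_lit 3302247960) (nat_lit 1900) (nat_lit 18041970660) (nat_lit 486) (nat_lit 5) (nat_lit 485) (nat_lit 5) (nat_lit 510) (nat_lit 5) (nat_lit 611) (nat_lit 602) (nat_lit 347)) (XT.lf (nat_lit 0) (nat_lit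 5490157201) (nat_lit 1824) (nat_lit 9786159178) (nat_lit 1900) (nat_lit 7583585595) (nat_lit 486) (nat_lit 5) (nat_lit 510) (nat_lit 5) (nat_lit 511) (nat_lit 5) (nat_lit 612) (nat_lit 602) (nat_lit 346))) (XT.nd (nat_lit 78) (nat_lit 0) (nat_lit 76) (XT.lf (nat_lit 76) (nat_lit 2005232534) (nat_lit 0) (nat_lit 4436026225) (nat_lit 1900) (nat_lit 16651983244) (nat_lit 487) (nat_lit 5) (nat_lit 486) (nat_lit 5) (nat_lit 511) (nat_lit 5) (nat_lit 613) (nat_lit 602) (nat_lit 345)) (XT.lf (nat_lit 0) (nat_lit 7517109358) (nat_lit 1824) (nat_lit 9210571429) (nat_lit 1900) (nat_lit 6601453607) (nat_lit 487) (nat_lit 5) (nat_lit 511) (nat_lit 5) (nat_lit 512) (nat_lit 5) (nat_lit 614) (nat_lit 602) (nat_lit 344)))) (XT.nd (nat_lit 156) (nat_lit 0) (nat_lit 76) (XT.nd (nat_lit 78) (nat_lit 0) (nat_lit 76) (XT.lf (nat_lit 76) (nat_lit 2910941940) (nat_lit 0) (nat_lit 5748511913) (nat_lit 1900) (nat_lit 14909391342) (nat_lit 488) (nat_lit 5) (nat_lit 487) (nat_lit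 5) (nat_lit 512) (nat_lit 5) (nat_lit 615) (nat_lit 602) (nat_lit 343)) (XT.lf (nat_lit 0) (nat_lit 9919004875) (nat_lit 1824) (nat_lit 8450502551) (nat_lit 1900) (nat_lit 5441955689) (nat_lit 488) (nat_lit 5) (nat_lit 512) (nat_lit 5) (nat_lit 513) (nat_lit 5) (nat_lit 616) (nat_lit 602) (nat_lit 342))) (XT.nd (nat_lit 78) (nat_lit 0) (nat_lit 76) (XT.lf (nat_lit 76) (nat_lit 4013327858) (nat_lit 0) (nat_lit 7251365427) (nat_lit 1900) (nat_lit 12793021278) (nat_lit 489) (nat_lit 5) (nat_lit 488) (nat_lit 5) (nat_lit 513) (nat_lit 5) (nat_lit 617) (nat_lit 602) (nat_lit 341)) (XT.lf (nat_lit 0) (nat_lit 12717800535) (nat_lit 1824) (nat_lit 7496035719) (nat_lit 1900) (nat_lit 4093444776) (nat_lit 489) (nat_lit 5) (nat_lit 513) (nat_lit 5) (nat_lit 514) (nat_lit 5) (nat_lit 618) (nat_lit 602) (nat_lit 340))))))))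
noncomputable def xc210 : XT := (XT.nd (nat_lit 2418) (nat_lit 10336) (nat_lit 0) (XT.nd (nat_lit 1170) (nat_lit 7296) (nat_lit 0) (XT.nd (nat_lit 546) (nat_lit 4560) (nat_lit 0) (XT.nd (nat_lit 234) (nat_lit 0) (nat_lit 152) (XT.nd (nat_lit 78) (nat_lit 0) (nat_lit 76) (XT.lf (nat_lit 76) (nat_lit 5322777477) (nat_lit 0) (nat_lit 8956707861) (nat_lit 1900) (nat_lit 10280763272) (nat_lit 490) (nat_lit 5) (nat_lit 489) (nat_lit 5) (nat_lit 514) (nat_lit 5) (nat_lit 619) (nat_lit 602) (nat_lit 339)) (XT.nd (nat_lit 78) (nat_lit 0) (nat_lit 0) (XT.lf (nat_lit 0) (nat_lit 15936421226) (nat_lit 1824) (nat_lit 6336764539) (nat_lit 1900) (nat_lit 2543809520) (nat_lit 490) (nat_lit 5) (nat_lit 514) (nat_lit 5) (nat_lit 515) (nat_lit 5) (nat_lit 620) (nat_lit 602) (nat_lit 338)) (XT.lf (nat_lit 76) (nat_lit 6850185619) (nat_lit 0) (nat_lit 10877145520) (nat_lit 1900) (nat_lit 7349529136) (nat_lit 491) (nat_lit 5) (nat_lit 490) (nat_lit 5) (nat_lit 515) (nat_lit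 5) (nat_lit 621) (nat_lit 602) (nat_lit 337)))) (XT.nd (nat_lit 156) (nat_lit 0) (nat_lit 0) (XT.nd (nat_lit 78) (nat_lit 0) (nat_lit 0) (XT.lf (nat_lit 0) (nat_lit 19598803393) (nat_lit 1824) (nat_lit 4961774637) (nat_lit 1900) (nat_lit 780449739) (nat_lit 491) (nat_lit 5) (nat_lit 515) (nat_lit 5) (nat_lit 516) (nat_lit 5) (nat_lit 622) (nat_lit 602) (nat_lit 336)) (XT.lf (nat_lit 76) (nat_lit 8606973872) (nat_lit 0) (nat_lit 13025795207) (nat_lit 1900) (nat_lit 3975208337) (nat_lit 492) (nat_lit 5) (nat_lit 491) (nat_lit 5) (nat_lit 516) (nat_lit 5) (nat_lit 623) (nat_lit 602) (nat_lit 335))) (XT.nd (nat_lit 78) (nat_lit 0) (nat_lit 76) (XT.lf (nat_lit 76) (nat_lit 22512073184) (nat_lit 0) (nat_lit 1225825854) (nat_lit 1900) (nat_lit 2141757404) (nat_lit 492) (nat_lit 5) (nat_lit 491) (nat_lit 5) (nat_lit 516) (nat_lit 5) (nat_lit 624) (nat_lit 602) (nat_lit 334)) (XT.lf (nat_lit 76) (nat_lit 10605110601) (nat_lit 0) (nat_lit 15416310349) (nat_lit 1900)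 (nat_lit 132622391) (nat_lit 493) (nat_lit 5) (nat_lit 492) (nat_lit 5) (nat_lit 517) (nat_lit 5) (nat_lit 625) (nat_lit 602) (nat_lit 333))))) (XT.nd (nat_lit 312) (nat_lit 1824) (nat_lit 0) (XT.nd (nat_lit 156) (nat_lit 1064) (nat_lit 0) (XT.nd (nat_lit 78) (nat_lit 0) (nat_lit 76) (XT.lf (nat_lit 0) (nat_lit 1919691923) (nat_lit 1900) (nat_lit 1553588784) (nat_lit 1976) (nat_lit 22959825772) (nat_lit 467) (nat_lit 5) (nat_lit 492) (nat_lit 5) (nat_lit 493) (nat_lit 5) (nat_lit 626) (nat_lit 602) (nat_lit 332)) (XT.lf (nat_lit 0) (nat_lit 4149379448) (nat_lit 1900) (nat_lit 13885684017) (nat_lit 76) (nat_lit 8679907905) (nat_lit 468) (nat_lit 5) (nat_lit 493) (nat_lit 5) (nat_lit 469) (nat_lit 5) (nat_lit 627) (nat_lit 602) (nat_lit 331))) (XT.nd (nat_lit 78) (nat_lit 0) (nat_lit 0) (XT.lf (nat_lit 0) (nat_lit 499786762) (nat_lit 1140) (nat_lit 5957977550) (nat_lit 1216) (nat_lit 20544027249) (nat_lit 453) (nat_lit 5) (nat_lit 468) (nat_lit 5) (nat_lit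 469) (nat_lit 5) (nat_lit 628) (nat_lit 602) (nat_lit 330)) (XT.lf (nat_lit 0) (nat_lit 8944812889) (nat_lit 1216) (nat_lit 11975559388) (nat_lit 76) (nat_lit 6371326033) (nat_lit 453) (nat_lit 5) (nat_lit 469) (nat_lit 5) (nat_lit 454) (nat_lit 5) (nat_lit 629) (nat_lit 602) (nat_lit 329)))) (XT.nd (nat_lit 156) (nat_lit 912) (nat_lit 0) (XT.nd (nat_lit 78) (nat_lit 0) (nat_lit 0) (XT.lf (nat_lit 0) (nat_lit 2836858895) (nat_lit 912) (nat_lit 8700071193) (nat_lit 988) (nat_lit 16049366626) (nat_lit 441) (nat_lit 5) (nat_lit 453) (nat_lit 5) (nat_lit 454) (nat_lit 5) (nat_lit 630) (nat_lit 602) (nat_lit 328)) (XT.lf (nat_lit 0) (nat_lit 14283715268) (nat_lit 988) (nat_lit 9804638902) (nat_lit 76) (nat_lit 3796376473) (nat_lit 441) (nat_lit 5) (nat_lit 454) (nat_lit 5) (nat_lit 442) (nat_lit 5) (nat_lit 631) (nat_lit 602) (nat_lit 327))) (XT.nd (nat_lit 78) (nat_lit 0) (nat_lit 0) (XT.lf (nat_lit 0) (nat_lit 5450629780) (nat_lit 912) (nat_lit 11725349698)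 (nat_lit 988) (nat_lit 11011342976) (nat_lit 429) (nat_lit 5) (nat_lit 441) (nat_lit 5) (nat_lit 442) (nat_lit 5) (nat_lit 632) (nat_lit 602) (nat_lit 326)) (XT.lf (nat_lit 0) (nat_lit 20195636726) (nat_lit 988) (nat_lit 7359253431) (nat_lit 76) (nat_lit 939685057) (nat_lit 429) (nat_lit 5) (nat_lit 442) (nat_lit 5) (nat_lit 430) (nat_lit 5) (nat_lit 633) (nat_lit 602) (nat_lit 325)))))) (XT.nd (nat_lit 624) (nat_lit 3040) (nat_lit 0) (XT.nd (nat_lit 312) (nat_lit 2432) (nat_lit 0) (XT.nd (nat_lit 156) (nat_lit 988) (nat_lit 0) (XT.nd (nat_lit 78) (nat_lit 0) (nat_lit 0) (XT.lf (nat_lit 0) (nat_lit 8355380956) (nat_lit 836) (nat_lit 15049826050) (nat_lit 912) (nat_lit 5400175692) (nat_lit 418) (nat_lit 5) (nat_lit 429) (nat_lit 5) (nat_lit 430) (nat_lit 5) (nat_lit 634) (nat_lit 602) (nat_lit 324)) (XT.lf (nat_lit 0) (nat_lit 24481795038) (nat_lit 836) (nat_lit 2244209942) (nat_lit 912) (nat_lit 2395460692) (nat_lit 418) (nat_lit 5) (nat_lit 429) (nat_lit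 5) (nat_lit 430) (nat_lit 5) (nat_lit 635) (nat_lit 602) (nat_lit 323))) (XT.nd (nat_lit 78) (nat_lit 0) (nat_lit 0) (XT.lf (nat_lit 0) (nat_lit 804544467) (nat_lit 988) (nat_lit 17880251156) (nat_lit 76) (nat_lit 10756108337) (nat_lit 405) (nat_lit 5) (nat_lit 418) (nat_lit 5) (nat_lit 406) (nat_lit 5) (nat_lit 636) (nat_lit 602) (nat_lit 322)) (XT.lf (nat_lit 0) (nat_lit 4080421374) (nat_lit 988) (nat_lit 1651453353) (nat_lit 76) (nat_lit 24033660732) (nat_lit 405) (nat_lit 5) (nat_lit 418) (nat_lit 5) (nat_lit 406) (nat_lit 5) (nat_lit 637) (nat_lit 602) (nat_lit 321)))) (XT.nd (nat_lit 156) (nat_lit 760) (nat_lit 0) (XT.nd (nat_lit 78) (nat_lit 836) (nat_lit 0) (XT.lf (nat_lit 0) (nat_lit 7566813548) (nat_lit 912) (nat_lit 15046272040) (nat_lit 76) (nat_lit 7480674107) (nat_lit 394) (nat_lit 5) (nat_lit 406) (nat_lit 5) (nat_lit 395) (nat_lit 5) (nat_lit 638) (nat_lit 602) (nat_lit 320)) (XT.lf (nat_lit 0) (nat_lit 1655879110) (nat_lit 836) (nat_lit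 9524708423) (nat_lit 912) (nat_lit 19246807863) (nat_lit 383) (nat_lit 5) (nat_lit 394) (nat_lit 5) (nat_lit 395) (nat_lit 5) (nat_lit 639) (nat_lit 602) (nat_lit 319))) (XT.nd (nat_lit 78) (nat_lit 760) (nat_lit 0) (XT.lf (nat_lit 0) (nat_lit 14990927533) (nat_lit 912) (nat_lit 11897461028) (nat_lit 76) (nat_lit 3876829495) (nat_lit 383) (nat_lit 5) (nat_lit 395) (nat_lit 5) (nat_lit 384) (nat_lit 5) (nat_lit 640) (nat_lit 602) (nat_lit 318)) (XT.lf (nat_lit 0) (nat_lit 5318495811) (nat_lit 760) (nat_lit 13654446281) (nat_lit 836) (nat_lit 12134945781) (nat_lit 373) (nat_lit 5) (nat_lit 383) (nat_lit 5) (nat_lit 384) (nat_lit 5) (nat_lit 641) (nat_lit 602) (nat_lit 317))))) (XT.nd (nat_lit 312) (nat_lit 1444) (nat_lit 0) (XT.nd (nat_lit 156) (nat_lit 836) (nat_lit 0) (XT.nd (nat_lit 78) (nat_lit 760) (nat_lit 0) (XT.lf (nat_lit 0) (nat_lit 23037804826) (nat_lit 760) (nat_lit 74516793) (nat_lit 836) (nat_lit 8343535029) (nat_lit 373) (nat_lit 5) (nat_lit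 383) (nat_lit 5) (nat_lit 384) (nat_lit 5) (nat_lit 642) (nat_lit 602) (nat_lit 316)) (XT.lf (nat_lit 0) (nat_lit 9331411929) (nat_lit 760) (nat_lit 18151039107) (nat_lit 836) (nat_lit 4325374571) (nat_lit 363) (nat_lit 5) (nat_lit 373) (nat_lit 5) (nat_lit 374) (nat_lit 5) (nat_lit 643) (nat_lit 602) (nat_lit 315))) (XT.nd (nat_lit 78) (nat_lit 836) (nat_lit 0) (XT.lf (nat_lit 0) (nat_lit 27547251590) (nat_lit 760) (nat_lit 4447664556) (nat_lit 836) (nat_lit 170819190) (nat_lit 363) (nat_lit 5) (nat_lit 373) (nat_lit 5) (nat_lit 374) (nat_lit 5) (nat_lit 644) (nat_lit 602) (nat_lit 314)) (XT.lf (nat_lit 0) (nat_lit 4163371787) (nat_lit 836) (nat_lit 18842862597) (nat_lit 76) (nat_lit 9521043204) (nat_lit 352) (nat_lit 5) (nat_lit 363) (nat_lit 5) (nat_lit 353) (nat_lit 5) (nat_lit 645) (nat_lit 602) (nat_lit 313)))) (XT.nd (nat_lit 156) (nat_lit 684) (nat_lit 0) (XT.nd (nat_lit 78) (nat_lit 760) (nat_lit 0) (XT.lf (nat_lit 0) (nat_lit 8640618091) (nat_lit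 836) (nat_lit 512475305) (nat_lit 76) (nat_lit 23741761583) (nat_lit 352) (nat_lit 5) (nat_lit 363) (nat_lit 5) (nat_lit 353) (nat_lit 5) (nat_lit 646) (nat_lit 602) (nat_lit 312)) (XT.lf (nat_lit 0) (nat_lit 13358178674) (nat_lit 836) (nat_lit 14876568695) (nat_lit 76) (nat_lit 5032021210) (nat_lit 342) (nat_lit 5) (nat_lit 353) (nat_lit 5) (nat_lit 343) (nat_lit 5) (nat_lit 647) (nat_lit 602) (nat_lit 311))) (XT.nd (nat_lit 78) (nat_lit 0) (nat_lit 0) (XT.lf (nat_lit 0) (nat_lit 4021721207) (nat_lit 684) (nat_lit 14236625257) (nat_lit 760) (nat_lit 15386008916) (nat_lit 333) (nat_lit 5) (nat_lit 342) (nat_lit 5) (nat_lit 343) (nat_lit 5) (nat_lit 648) (nat_lit 602) (nat_lit 310)) (XT.lf (nat_lit 0) (nat_lit 23355365399) (nat_lit 760) (nat_lit 10531025541) (nat_lit 76) (nat_lit 141126068) (nat_lit 333) (nat_lit 5) (nat_lit 343) (nat_lit 5) (nat_lit 334) (nat_lit 5) (nat_lit 649) (nat_lit 602) (nat_lit 309))))))) (XT.nd (nat_lit 1170) (nat_lit 4484) (nat_lit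 0) (XT.nd (nat_lit 546) (nat_lit 3116) (nat_lit 0) (XT.nd (nat_lit 234) (nat_lit 1292) (nat_lit 0) (XT.nd (nat_lit 78) (nat_lit 760) (nat_lit 0) (XT.lf (nat_lit 0) (nat_lit 8963504057) (nat_lit 684) (nat_lit 19741425326) (nat_lit 760) (nat_lit 5710400441) (nat_lit 324) (nat_lit 5) (nat_lit 333) (nat_lit 5) (nat_lit 334) (nat_lit 5) (nat_lit 650) (nat_lit 602) (nat_lit 308)) (XT.nd (nat_lit 78) (nat_lit 760) (nat_lit 0) (XT.lf (nat_lit 0) (nat_lit 28988502571) (nat_lit 684) (nat_lit 5241798821) (nat_lit 760) (nat_lit 579221213) (nat_lit 324) (nat_lit 5) (nat_lit 333) (nat_lit 5) (nat_lit 334) (nat_lit 5) (nat_lit 651) (nat_lit 602) (nat_lit 307)) (XT.lf (nat_lit 0) (nat_lit 4747738228) (nat_lit 760) (nat_lit 20913633981) (nat_lit 76) (nat_lit 9546538619) (nat_lit 314) (nat_lit 5) (nat_lit 324) (nat_lit 5) (nat_lit 315) (nat_lit 5) (nat_lit 652) (nat_lit 602) (nat_lit 306)))) (XT.nd (nat_lit 156) (nat_lit 608) (nat_lit 0) (XT.nd (nat_lit 78) (nat_lit 684)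 (nat_lit 0) (XT.lf (nat_lit 0) (nat_lit 10245715074) (nat_lit 760) (nat_lit 763682989) (nat_lit 76) (nat_lit 24603347543) (nat_lit 314) (nat_lit 5) (nat_lit 324) (nat_lit 5) (nat_lit 315) (nat_lit 5) (nat_lit 653) (nat_lit 602) (nat_lit 305)) (XT.lf (nat_lit 0) (nat_lit 16008469877) (nat_lit 760) (nat_lit 15999425190) (nat_lit 76) (nat_lit 4014685687) (nat_lit 305) (nat_lit 5) (nat_lit 315) (nat_lit 5) (nat_lit 306) (nat_lit 5) (nat_lit 654) (nat_lit 602) (nat_lit 304))) (XT.nd (nat_lit 78) (nat_lit 0) (nat_lit 0) (XT.lf (nat_lit 0) (nat_lit 4783211426) (nat_lit 608) (nat_lit 17210638828) (nat_lit 684) (nat_lit 14444614982) (nat_lit 297) (nat_lit 5) (nat_lit 305) (nat_lit 5) (nat_lit 306) (nat_lit 5) (nat_lit 655) (nat_lit 602) (nat_lit 303)) (XT.lf (nat_lit 0) (nat_lit 26196241243) (nat_lit 608) (nat_lit 2008328203) (nat_lit 684) (nat_lit 8655985378) (nat_lit 297) (nat_lit 5) (nat_lit 305) (nat_lit 5) (nat_lit 306) (nat_lit 5) (nat_lit 656) (nat_lit 602)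 (nat_lit 302))))) (XT.nd (nat_lit 312) (nat_lit 1216) (nat_lit 0) (XT.nd (nat_lit 156) (nat_lit 1216) (nat_lit 0) (XT.nd (nat_lit 78) (nat_lit 76) (nat_lit 0) (XT.lf (nat_lit 0) (nat_lit 10798303455) (nat_lit 608) (nat_lit 23897245540) (nat_lit 684) (nat_lit 2592416330) (nat_lit 289) (nat_lit 5) (nat_lit 297) (nat_lit 5) (nat_lit 298) (nat_lit 5) (nat_lit 657) (nat_lit 602) (nat_lit 301)) (XT.lf (nat_lit 0) (nat_lit 3628952633) (nat_lit 684) (nat_lit 4926994970) (nat_lit 76) (nat_lit 29165837105) (nat_lit 288) (nat_lit 5) (nat_lit 297) (nat_lit 5) (nat_lit 289) (nat_lit 5) (nat_lit 658) (nat_lit 602) (nat_lit 300))) (XT.nd (nat_lit 78) (nat_lit 608) (nat_lit 0) (XT.lf (nat_lit 0) (nat_lit 10097465172) (nat_lit 684) (nat_lit 20934408812) (nat_lit 76) (nat_lit 7128915243) (nat_lit 280) (nat_lit 5) (nat_lit 289) (nat_lit 5) (nat_lit 281) (nat_lit 5) (nat_lit 659) (nat_lit 602) (nat_lit 299)) (XT.lf (nat_lit 0) (nat_lit 1238957219) (nat_lit 608) (nat_lit 15552734443)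 (nat_lit 684) (nat_lit 21814955338) (nat_lit 272) (nat_lit 5) (nat_lit 280) (nat_lit 5) (nat_lit 281) (nat_lit 5) (nat_lit 660) (nat_lit 602) (nat_lit 298)))) (XT.nd (nat_lit 156) (nat_lit 684) (nat_lit 0) (XT.nd (nat_lit 78) (nat_lit 532) (nat_lit 0) (XT.lf (nat_lit 0) (nat_lit 23761117676) (nat_lit 684) (nat_lit 14923636975) (nat_lit 76) (nat_lit 373841013) (nat_lit 272) (nat_lit 5) (nat_lit 281) (nat_lit 5) (nat_lit 273) (nat_lit 5) (nat_lit 661) (nat_lit 602) (nat_lit 297)) (XT.lf (nat_lit 0) (nat_lit 7968727459) (nat_lit 532) (nat_lit 23054344751) (nat_lit 608) (nat_lit 8493448327) (nat_lit 265) (nat_lit 5) (nat_lit 272) (nat_lit 5) (nat_lit 273) (nat_lit 5) (nat_lit 662) (nat_lit 602) (nat_lit 296))) (XT.nd (nat_lit 78) (nat_lit 684) (nat_lit 0) (XT.lf (nat_lit 0) (nat_lit 31519164229) (nat_lit 532) (nat_lit 7009668432) (nat_lit 608) (nat_lit 1452799945) (nat_lit 265) (nat_lit 5) (nat_lit 272) (nat_lit 5) (nat_lit 273) (nat_lit 5) (nat_lit 663) (nat_lit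 602) (nat_lit 295)) (XT.lf (nat_lit 0) (nat_lit 5812596745) (nat_lit 684) (nat_lit 25269733964) (nat_lit 76) (nat_lit 9369790999) (nat_lit 256) (nat_lit 5) (nat_lit 265) (nat_lit 5) (nat_lit 257) (nat_lit 5) (nat_lit 664) (nat_lit 602) (nat_lit 294)))))) (XT.nd (nat_lit 624) (nat_lit 1900) (nat_lit 0) (XT.nd (nat_lit 312) (nat_lit 1520) (nat_lit 0) (XT.nd (nat_lit 156) (nat_lit 532) (nat_lit 0) (XT.nd (nat_lit 78) (nat_lit 532) (nat_lit 0) (XT.lf (nat_lit 0) (nat_lit 13305908058) (nat_lit 684) (nat_lit 1574514886) (nat_lit 76) (nat_lit 26049364428) (nat_lit 256) (nat_lit 5) (nat_lit 265) (nat_lit 5) (nat_lit 257) (nat_lit 5) (nat_lit 665) (nat_lit 602) (nat_lit 293)) (XT.lf (nat_lit 0) (nat_lit 21107872323) (nat_lit 608) (nat_lit 18532899310) (nat_lit 76) (nat_lit 1773059014) (nat_lit 249) (nat_lit 5) (nat_lit 257) (nat_lit 5) (nat_lit 250) (nat_lit 5) (nat_lit 666) (nat_lit 602) (nat_lit 292))) (XT.nd (nat_lit 78) (nat_lit 0) (nat_lit 0) (XT.lf (nat_lit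 0) (nat_lit 5916429202) (nat_lit 532) (nat_lit 23295541429) (nat_lit 608) (nat_lit 12692662291) (nat_lit 242) (nat_lit 5) (nat_lit 249) (nat_lit 5) (nat_lit 250) (nat_lit 5) (nat_lit 667) (nat_lit 602) (nat_lit 291)) (XT.lf (nat_lit 0) (nat_lit 31103940018) (nat_lit 532) (nat_lit 6497092417) (nat_lit 608) (nat_lit 4801761210) (nat_lit 242) (nat_lit 5) (nat_lit 249) (nat_lit 5) (nat_lit 250) (nat_lit 5) (nat_lit 668) (nat_lit 602) (nat_lit 290)))) (XT.nd (nat_lit 156) (nat_lit 988) (nat_lit 0) (XT.nd (nat_lit 78) (nat_lit 0) (nat_lit 0) (XT.lf (nat_lit 0) (nat_lit 3363905623) (nat_lit 532) (nat_lit 28933098364) (nat_lit 76) (nat_lit 10610301352) (nat_lit 235) (nat_lit 5) (nat_lit 242) (nat_lit 5) (nat_lit 236) (nat_lit 5) (nat_lit 669) (nat_lit 602) (nat_lit 289)) (XT.lf (nat_lit 0) (nat_lit 11746548541) (nat_lit 532) (nat_lit 3591846840) (nat_lit 76) (nat_lit 28080517957) (nat_lit 235) (nat_lit 5) (nat_lit 242) (nat_lit 5) (nat_lit 236) (nat_lit 5) (nat_lit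 670) (nat_lit 602) (nat_lit 288))) (XT.nd (nat_lit 78) (nat_lit 456) (nat_lit 0) (XT.lf (nat_lit 0) (nat_lit 20455517754) (nat_lit 608) (nat_lit 21401539658) (nat_lit 76) (nat_lit 2080522643) (nat_lit 228) (nat_lit 5) (nat_lit 236) (nat_lit 5) (nat_lit 229) (nat_lit 5) (nat_lit 671) (nat_lit 602) (nat_lit 287)) (XT.lf (nat_lit 0) (nat_lit 4727310029) (nat_lit 456) (nat_lit 24766478539) (nat_lit 532) (nat_lit 14969729123) (nat_lit 222) (nat_lit 5) (nat_lit 228) (nat_lit 5) (nat_lit 229) (nat_lit 5) (nat_lit 672) (nat_lit 602) (nat_lit 286))))) (XT.nd (nat_lit 312) (nat_lit 912) (nat_lit 0) (XT.nd (nat_lit 156) (nat_lit 456) (nat_lit 0) (XT.nd (nat_lit 78) (nat_lit 532) (nat_lit 0) (XT.lf (nat_lit 0) (nat_lit 31666866429) (nat_lit 456) (nat_lit 7188176641) (nat_lit 532) (nat_lit 6142086671) (nat_lit 222) (nat_lit 5) (nat_lit 228) (nat_lit 5) (nat_lit 229) (nat_lit 5) (nat_lit 673) (nat_lit 602) (nat_lit 285)) (XT.lf (nat_lit 0) (nat_lit 2983009445) (nat_lit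 532) (nat_lit 31845957838) (nat_lit 76) (nat_lit 10708906365) (nat_lit 215) (nat_lit 5) (nat_lit 222) (nat_lit 5) (nat_lit 216) (nat_lit 5) (nat_lit 674) (nat_lit 602) (nat_lit 284))) (XT.nd (nat_lit 78) (nat_lit 456) (nat_lit 0) (XT.lf (nat_lit 0) (nat_lit 12344722804) (nat_lit 532) (nat_lit 4743246082) (nat_lit 76) (nat_lit 28997924431) (nat_lit 215) (nat_lit 5) (nat_lit 222) (nat_lit 5) (nat_lit 216) (nat_lit 5) (nat_lit 675) (nat_lit 602) (nat_lit 283)) (XT.lf (nat_lit 0) (nat_lit 22050521713) (nat_lit 532) (nat_lit 23445506865) (nat_lit 76) (nat_lit 1145707800) (nat_lit 209) (nat_lit 5) (nat_lit 216) (nat_lit 5) (nat_lit 210) (nat_lit 5) (nat_lit 676) (nat_lit 602) (nat_lit 282)))) (XT.nd (nat_lit 156) (nat_lit 456) (nat_lit 0) (XT.nd (nat_lit 78) (nat_lit 0) (nat_lit 0) (XT.lf (nat_lit 0) (nat_lit 4494363340) (nat_lit 456) (nat_lit 27629128064) (nat_lit 532) (nat_lit 15081743826) (nat_lit 203) (nat_lit 5) (nat_lit 209) (nat_lit 5) (nat_lit 210) (nat_lit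 5) (nat_lit 677) (nat_lit 602) (nat_lit 281)) (XT.lf (nat_lit 0) (nat_lit 33308917945) (nat_lit 456) (nat_lit 9245016444) (nat_lit 532) (nat_lit 5222949415) (nat_lit 203) (nat_lit 5) (nat_lit 209) (nat_lit 5) (nat_lit 210) (nat_lit 5) (nat_lit 678) (nat_lit 602) (nat_lit 280))) (XT.nd (nat_lit 78) (nat_lit 0) (nat_lit 0) (XT.lf (nat_lit 0) (nat_lit 4925007761) (nat_lit 456) (nat_lit 33923390327) (nat_lit 76) (nat_lit 9507832246) (nat_lit 197) (nat_lit 5) (nat_lit 203) (nat_lit 5) (nat_lit 198) (nat_lit 5) (nat_lit 679) (nat_lit 602) (nat_lit 279)) (XT.lf (nat_lit 0) (nat_lit 15363718852) (nat_lit 456) (nat_lit 4935812231) (nat_lit 76) (nat_lit 28643787660) (nat_lit 197) (nat_lit 5) (nat_lit 203) (nat_lit 5) (nat_lit 198) (nat_lit 5) (nat_lit 680) (nat_lit 602) (nat_lit 278))))))))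
noncomputable def xc211 : XT := (XT.nd (nat_lit 77064) (nat_lit 0) (nat_lit 8664) (XT.nd (nat_lit 75816) (nat_lit 0) (nat_lit 22192) (XT.nd (nat_lit 75192) (nat_lit 0) (nat_lit 23256) (XT.nd (nat_lit 234) (nat_lit 836) (nat_lit 0) (XT.nd (nat_lit 78) (nat_lit 380) (nat_lit 0) (XT.lf (nat_lit 0) (nat_lit 24956957949) (nat_lit 456) (nat_lit 1215017441) (nat_lit 532) (nat_lit 23366958127) (nat_lit 191) (nat_lit 5) (nat_lit 197) (nat_lit 5) (nat_lit 198) (nat_lit 5) (nat_lit 681) (nat_lit 602) (nat_lit 277)) (XT.nd (nat_lit 78) (nat_lit 0) (nat_lit 0) (XT.lf (nat_lit 0) (nat_lit 5317834546) (nat_lit 380) (nat_lit 32063672361) (nat_lit 456) (nat_lit 12761251506) (nat_lit 186) (nat_lit 5) (nat_lit 191) (nat_lit 5) (nat_lit 192) (nat_lit 5) (nat_lit 682) (nat_lit 602) (nat_lit 276)) (XT.lf (nat_lit 0) (nat_lit 36138831726) (nat_lit 380) (nat_lit 12848104239) (nat_lit 456) (nat_lit 1768289725) (nat_lit 186) (nat_lit 5) (nat_lit 191) (nat_lit 5) (nat_lit 192) (nat_lit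 5) (nat_lit 683) (nat_lit 602) (nat_lit 275)))) (XT.nd (nat_lit 156) (nat_lit 380) (nat_lit 0) (XT.nd (nat_lit 78) (nat_lit 0) (nat_lit 0) (XT.lf (nat_lit 0) (nat_lit 9470517266) (nat_lit 456) (nat_lit 35074022959) (nat_lit 76) (nat_lit 6831178649) (nat_lit 180) (nat_lit 5) (nat_lit 186) (nat_lit 5) (nat_lit 181) (nat_lit 5) (nat_lit 684) (nat_lit 602) (nat_lit 274)) (XT.lf (nat_lit 0) (nat_lit 21093044965) (nat_lit 456) (nat_lit 4069689129) (nat_lit 76) (nat_lit 26842001642) (nat_lit 180) (nat_lit 5) (nat_lit 186) (nat_lit 5) (nat_lit 181) (nat_lit 5) (nat_lit 685) (nat_lit 602) (nat_lit 273))) (XT.nd (nat_lit 74724) (nat_lit 0) (nat_lit 23256) (XT.lf (nat_lit 0) (nat_lit 27919072812) (nat_lit 380) (nat_lit 5209023264) (nat_lit 456) (nat_lit 19514635422) (nat_lit 175) (nat_lit 5) (nat_lit 180) (nat_lit 5) (nat_lit 181) (nat_lit 5) (nat_lit 686) (nat_lit 602) (nat_lit 272)) (XT.lf (nat_lit 0) (nat_lit 293920482) (nat_lit 1900) (nat_lit 5129324214) (nat_lit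 1900) (nat_lit 5129324214) (nat_lit 481) (nat_lit 3) (nat_lit 506) (nat_lit 3) (nat_lit 506) (nat_lit 5) (nat_lit 603) (nat_lit 603) (nat_lit 354))))) (XT.nd (nat_lit 312) (nat_lit 0) (nat_lit 152) (XT.nd (nat_lit 156) (nat_lit 0) (nat_lit 76) (XT.nd (nat_lit 78) (nat_lit 0) (nat_lit 76) (XT.lf (nat_lit 76) (nat_lit 254915504) (nat_lit 0) (nat_lit 489779873) (nat_lit 1900) (nat_lit 20568469783) (nat_lit 482) (nat_lit 5) (nat_lit 481) (nat_lit 3) (nat_lit 506) (nat_lit 5) (nat_lit 604) (nat_lit 603) (nat_lit 353)) (XT.lf (nat_lit 0) (nat_lit 1035473704) (nat_lit 1824) (nat_lit 10474145471) (nat_lit 1900) (nat_lit 10013118253) (nat_lit 482) (nat_lit 5) (nat_lit 506) (nat_lit 5) (nat_lit 507) (nat_lit 5) (nat_lit 605) (nat_lit 603) (nat_lit 352))) (XT.nd (nat_lit 78) (nat_lit 0) (nat_lit 76) (XT.lf (nat_lit 76) (nat_lit 320527235) (nat_lit 0) (nat_lit 1013024316) (nat_lit 1900) (nat_lit 20402920028) (nat_lit 483) (nat_lit 5) (nat_lit 482) (nat_lit 5) (nat_lit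 507) (nat_lit 5) (nat_lit 606) (nat_lit 603) (nat_lit 351)) (XT.lf (nat_lit 0) (nat_lit 1767512504) (nat_lit 1824) (nat_lit 10545550566) (nat_lit 1900) (nat_lit 9638819027) (nat_lit 483) (nat_lit 5) (nat_lit 507) (nat_lit 5) (nat_lit 508) (nat_lit 5) (nat_lit 607) (nat_lit 603) (nat_lit 350)))) (XT.nd (nat_lit 156) (nat_lit 0) (nat_lit 76) (XT.nd (nat_lit 78) (nat_lit 0) (nat_lit 76) (XT.lf (nat_lit 76) (nat_lit 540526554) (nat_lit 0) (nat_lit 1676150616) (nat_lit 1900) (nat_lit 19954793274) (nat_lit 484) (nat_lit 5) (nat_lit 483) (nat_lit 5) (nat_lit 508) (nat_lit 5) (nat_lit 608) (nat_lit 603) (nat_lit 349)) (XT.lf (nat_lit 0) (nat_lit 2801995566) (nat_lit 1824) (nat_lit 10464965253) (nat_lit 1900) (nat_lit 9125946442) (nat_lit 484) (nat_lit 5) (nat_lit 508) (nat_lit 5) (nat_lit 509) (nat_lit 5) (nat_lit 609) (nat_lit 603) (nat_lit 348))) (XT.nd (nat_lit 78) (nat_lit 0) (nat_lit 76) (XT.lf (nat_lit 76) (nat_lit 923209454) (nat_lit 0) (nat_lit 2489351516)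 (nat_lit 1900) (nat_lit 19205941138) (nat_lit 485) (nat_lit 5) (nat_lit 484) (nat_lit 5) (nat_lit 509) (nat_lit 5) (nat_lit 610) (nat_lit 603) (nat_lit 347)) (XT.lf (nat_lit 0) (nat_lit 4157751671) (nat_lit 1824) (nat_lit 10224075003) (nat_lit 1900) (nat_lit 8464334005) (nat_lit 485) (nat_lit 5) (nat_lit 509) (nat_lit 5) (nat_lit 510) (nat_lit 5) (nat_lit 611) (nat_lit 603) (nat_lit 346)))))) (XT.nd (nat_lit 624) (nat_lit 1368) (nat_lit 0) (XT.nd (nat_lit 312) (nat_lit 0) (nat_lit 152) (XT.nd (nat_lit 156) (nat_lit 0) (nat_lit 76) (XT.nd (nat_lit 78) (nat_lit 0) (nat_lit 76) (XT.lf (nat_lit 76) (nat_lit 1477303158) (nat_lit 0) (nat_lit 3463199956) (nat_lit 1900) (nat_lit 18137416270) (nat_lit 486) (nat_lit 5) (nat_lit 485) (nat_lit 5) (nat_lit 510) (nat_lit 5) (nat_lit 612) (nat_lit 603) (nat_lit 345)) (XT.lf (nat_lit 0) (nat_lit 5854436954) (nat_lit 1824) (nat_lit 9814134356) (nat_lit 1900) (nat_lit 7643431508) (nat_lit 486) (nat_lit 5) (nat_lit 510)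 (nat_lit 5) (nat_lit 511) (nat_lit 5) (nat_lit 613) (nat_lit 603) (nat_lit 344))) (XT.nd (nat_lit 78) (nat_lit 0) (nat_lit 76) (XT.lf (nat_lit 76) (nat_lit 2211981586) (nat_lit 0) (nat_lit 4608671186) (nat_lit 1900) (nat_lit 16729435182) (nat_lit 487) (nat_lit 5) (nat_lit 486) (nat_lit 5) (nat_lit 511) (nat_lit 5) (nat_lit 614) (nat_lit 603) (nat_lit 343)) (XT.lf (nat_lit 0) (nat_lit 7912573059) (nat_lit 1824) (nat_lit 9225951305) (nat_lit 1900) (nat_lit 6652282922) (nat_lit 487) (nat_lit 5) (nat_lit 511) (nat_lit 5) (nat_lit 512) (nat_lit 5) (nat_lit 615) (nat_lit 603) (nat_lit 342)))) (XT.nd (nat_lit 156) (nat_lit 0) (nat_lit 76) (XT.nd (nat_lit 78) (nat_lit 0) (nat_lit 76) (XT.lf (nat_lit 76) (nat_lit 3136881597) (nat_lit 0) (nat_lit 5937165497) (nat_lit 1900) (nat_lit 14961339700) (nat_lit 488) (nat_lit 5) (nat_lit 487) (nat_lit 5) (nat_lit 512) (nat_lit 5) (nat_lit 616) (nat_lit 603) (nat_lit 341)) (XT.lf (nat_lit 0) (nat_lit 10353586701) (nat_lit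 1824) (nat_lit 8449870911) (nat_lit 1900) (nat_lit 5479503651) (nat_lit 488) (nat_lit 5) (nat_lit 512) (nat_lit 5) (nat_lit 513) (nat_lit 5) (nat_lit 617) (nat_lit 603) (nat_lit 340))) (XT.nd (nat_lit 78) (nat_lit 0) (nat_lit 76) (XT.lf (nat_lit 76) (nat_lit 4262120042) (nat_lit 0) (nat_lit 7460531610) (nat_lit 1900) (nat_lit 12811556970) (nat_lit 489) (nat_lit 5) (nat_lit 488) (nat_lit 5) (nat_lit 513) (nat_lit 5) (nat_lit 618) (nat_lit 603) (nat_lit 339)) (XT.lf (nat_lit 0) (nat_lit 13199850733) (nat_lit 1824) (nat_lit 7475758109) (nat_lit 1900) (nat_lit 4113257120) (nat_lit 489) (nat_lit 5) (nat_lit 513) (nat_lit 5) (nat_lit 514) (nat_lit 5) (nat_lit 619) (nat_lit 603) (nat_lit 338))))) (XT.nd (nat_lit 312) (nat_lit 1672) (nat_lit 0) (XT.nd (nat_lit 156) (nat_lit 0) (nat_lit 76) (XT.nd (nat_lit 78) (nat_lit 0) (nat_lit 76) (XT.lf (nat_lit 76) (nat_lit 5598311625) (nat_lit 0) (nat_lit 9191090786) (nat_lit 1900) (nat_lit 10257557954) (nat_lit 490) (nat_lit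 5) (nat_lit 489) (nat_lit 5) (nat_lit 514) (nat_lit 5) (nat_lit 620) (nat_lit 603) (nat_lit 337)) (XT.lf (nat_lit 0) (nat_lit 16474726762) (nat_lit 1824) (nat_lit 6292979704) (nat_lit 1900) (nat_lit 2541230643) (nat_lit 490) (nat_lit 5) (nat_lit 514) (nat_lit 5) (nat_lit 515) (nat_lit 5) (nat_lit 621) (nat_lit 603) (nat_lit 336))) (XT.nd (nat_lit 78) (nat_lit 0) (nat_lit 76) (XT.lf (nat_lit 76) (nat_lit 7156587615) (nat_lit 0) (nat_lit 11141661671) (nat_lit 1900) (nat_lit 7275814352) (nat_lit 491) (nat_lit 5) (nat_lit 490) (nat_lit 5) (nat_lit 515) (nat_lit 5) (nat_lit 622) (nat_lit 603) (nat_lit 335)) (XT.lf (nat_lit 0) (nat_lit 20202609404) (nat_lit 1824) (nat_lit 4890385514) (nat_lit 1900) (nat_lit 750610520) (nat_lit 491) (nat_lit 5) (nat_lit 515) (nat_lit 5) (nat_lit 516) (nat_lit 5) (nat_lit 623) (nat_lit 603) (nat_lit 334)))) (XT.nd (nat_lit 156) (nat_lit 1824) (nat_lit 0) (XT.nd (nat_lit 78) (nat_lit 0) (nat_lit 0) (XT.lf (nat_lit 76) (nat_lit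 8948615434) (nat_lit 0) (nat_lit 13325585962) (nat_lit 1900) (nat_lit 3841753867) (nat_lit 492) (nat_lit 5) (nat_lit 491) (nat_lit 5) (nat_lit 516) (nat_lit 5) (nat_lit 624) (nat_lit 603) (nat_lit 333)) (XT.lf (nat_lit 76) (nat_lit 23128493162) (nat_lit 0) (nat_lit 1288847127) (nat_lit 1900) (nat_lit 1975809574) (nat_lit 492) (nat_lit 5) (nat_lit 491) (nat_lit 5) (nat_lit 516) (nat_lit 5) (nat_lit 625) (nat_lit 603) (nat_lit 332))) (XT.nd (nat_lit 78) (nat_lit 0) (nat_lit 0) (XT.lf (nat_lit 0) (nat_lit 69364435) (nat_lit 1900) (nat_lit 15686924998) (nat_lit 1976) (nat_lit 10916789230) (nat_lit 467) (nat_lit 5) (nat_lit 492) (nat_lit 5) (nat_lit 493) (nat_lit 5) (nat_lit 626) (nat_lit 603) (nat_lit 331)) (XT.lf (nat_lit 0) (nat_lit 2156973135) (nat_lit 1900) (nat_lit 1415927125) (nat_lit 1976) (nat_lit 23384884907) (nat_lit 467) (nat_lit 5) (nat_lit 492) (nat_lit 5) (nat_lit 493) (nat_lit 5) (nat_lit 627) (nat_lit 603) (nat_lit 330))))))) (XT.nd (nat_lit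 1170) (nat_lit 6384) (nat_lit 0) (XT.nd (nat_lit 546) (nat_lit 4256) (nat_lit 0) (XT.nd (nat_lit 234) (nat_lit 1824) (nat_lit 0) (XT.nd (nat_lit 78) (nat_lit 1140) (nat_lit 0) (XT.lf (nat_lit 0) (nat_lit 4428258247) (nat_lit 1900) (nat_lit 13991662516) (nat_lit 76) (nat_lit 8825426628) (nat_lit 468) (nat_lit 5) (nat_lit 493) (nat_lit 5) (nat_lit 469) (nat_lit 5) (nat_lit 628) (nat_lit 603) (nat_lit 329)) (XT.nd (nat_lit 78) (nat_lit 0) (nat_lit 0) (XT.lf (nat_lit 0) (nat_lit 680387841) (nat_lit 1140) (nat_lit 6099689646) (nat_lit 1216) (nat_lit 20757881275) (nat_lit 453) (nat_lit 5) (nat_lit 468) (nat_lit 5) (nat_lit 469) (nat_lit 5) (nat_lit 629) (nat_lit 603) (nat_lit 328)) (XT.lf (nat_lit 0) (nat_lit 9312936071) (nat_lit 1216) (nat_lit 12043874105) (nat_lit 76) (nat_lit 6476932197) (nat_lit 453) (nat_lit 5) (nat_lit 469) (nat_lit 5) (nat_lit 454) (nat_lit 5) (nat_lit 630) (nat_lit 603) (nat_lit 327)))) (XT.nd (nat_lit 156) (nat_lit 912) (nat_lit 0)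 (XT.nd (nat_lit 78) (nat_lit 0) (nat_lit 0) (XT.lf (nat_lit 0) (nat_lit 3063666252) (nat_lit 912) (nat_lit 8890623239) (nat_lit 988) (nat_lit 16179995481) (nat_lit 441) (nat_lit 5) (nat_lit 453) (nat_lit 5) (nat_lit 454) (nat_lit 5) (nat_lit 631) (nat_lit 603) (nat_lit 326)) (XT.lf (nat_lit 0) (nat_lit 14752245792) (nat_lit 988) (nat_lit 9830226471) (nat_lit 76) (nat_lit 3856290711) (nat_lit 441) (nat_lit 5) (nat_lit 454) (nat_lit 5) (nat_lit 442) (nat_lit 5) (nat_lit 632) (nat_lit 603) (nat_lit 325))) (XT.nd (nat_lit 78) (nat_lit 0) (nat_lit 0) (XT.lf (nat_lit 0) (nat_lit 5729025840) (nat_lit 912) (nat_lit 11970843780) (nat_lit 988) (nat_lit 11047586816) (nat_lit 429) (nat_lit 5) (nat_lit 441) (nat_lit 5) (nat_lit 442) (nat_lit 5) (nat_lit 633) (nat_lit 603) (nat_lit 324)) (XT.lf (nat_lit 0) (nat_lit 20776313399) (nat_lit 988) (nat_lit 7336764709) (nat_lit 76) (nat_lit 947848375) (nat_lit 429) (nat_lit 5) (nat_lit 442) (nat_lit 5) (nat_lit 430) (nat_lit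 5) (nat_lit 634) (nat_lit 603) (nat_lit 323))))) (XT.nd (nat_lit 312) (nat_lit 2432) (nat_lit 0) (XT.nd (nat_lit 156) (nat_lit 988) (nat_lit 0) (XT.nd (nat_lit 78) (nat_lit 0) (nat_lit 0) (XT.lf (nat_lit 0) (nat_lit 8691046091) (nat_lit 836) (nat_lit 15356657421) (nat_lit 912) (nat_lit 5330294133) (nat_lit 418) (nat_lit 5) (nat_lit 429) (nat_lit 5) (nat_lit 430) (nat_lit 5) (nat_lit 635) (nat_lit 603) (nat_lit 322)) (XT.lf (nat_lit 0) (nat_lit 25136683405) (nat_lit 836) (nat_lit 2294814582) (nat_lit 912) (nat_lit 2268972776) (nat_lit 418) (nat_lit 5) (nat_lit 429) (nat_lit 5) (nat_lit 430) (nat_lit 5) (nat_lit 636) (nat_lit 603) (nat_lit 321))) (XT.nd (nat_lit 78) (nat_lit 0) (nat_lit 0) (XT.lf (nat_lit 0) (nat_lit 990429282) (nat_lit 988) (nat_lit 18067991257) (nat_lit 76) (nat_lit 10967901043) (nat_lit 405) (nat_lit 5) (nat_lit 418) (nat_lit 5) (nat_lit 406) (nat_lit 5) (nat_lit 637) (nat_lit 603) (nat_lit 320)) (XT.lf (nat_lit 0) (nat_lit 4328494435)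 (nat_lit 988) (nat_lit 1517948183) (nat_lit 76) (nat_lit 24511069769) (nat_lit 405) (nat_lit 5) (nat_lit 418) (nat_lit 5) (nat_lit 406) (nat_lit 5) (nat_lit 638) (nat_lit 603) (nat_lit 319)))) (XT.nd (nat_lit 156) (nat_lit 760) (nat_lit 0) (XT.nd (nat_lit 78) (nat_lit 836) (nat_lit 0) (XT.lf (nat_lit 0) (nat_lit 7882432133) (nat_lit 912) (nat_lit 15178476523) (nat_lit 76) (nat_lit 7631436185) (nat_lit 394) (nat_lit 5) (nat_lit 406) (nat_lit 5) (nat_lit 395) (nat_lit 5) (nat_lit 639) (nat_lit 603) (nat_lit 318)) (XT.lf (nat_lit 0) (nat_lit 1856607643) (nat_lit 836) (nat_lit 9709740974) (nat_lit 912) (nat_lit 19466347384) (nat_lit 383) (nat_lit 5) (nat_lit 394) (nat_lit 5) (nat_lit 395) (nat_lit 5) (nat_lit 640) (nat_lit 603) (nat_lit 317))) (XT.nd (nat_lit 78) (nat_lit 760) (nat_lit 0) (XT.lf (nat_lit 0) (nat_lit 15449750784) (nat_lit 912) (nat_lit 11967936922) (nat_lit 76) (nat_lit 3959650386) (nat_lit 383) (nat_lit 5) (nat_lit 395) (nat_lit 5) (nat_lit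 384) (nat_lit 5) (nat_lit 641) (nat_lit 603) (nat_lit 316)) (XT.lf (nat_lit 0) (nat_lit 5591237255) (nat_lit 760) (nat_lit 13918130834) (nat_lit 836) (nat_lit 12217534050) (nat_lit 373) (nat_lit 5) (nat_lit 383) (nat_lit 5) (nat_lit 384) (nat_lit 5) (nat_lit 642) (nat_lit 603) (nat_lit 315)))))) (XT.nd (nat_lit 624) (nat_lit 3344) (nat_lit 0) (XT.nd (nat_lit 312) (nat_lit 1444) (nat_lit 0) (XT.nd (nat_lit 156) (nat_lit 836) (nat_lit 0) (XT.nd (nat_lit 78) (nat_lit 760) (nat_lit 0) (XT.lf (nat_lit 0) (nat_lit 23661670263) (nat_lit 760) (nat_lit 66787156) (nat_lit 836) (nat_lit 8353434507) (nat_lit 373) (nat_lit 5) (nat_lit 383) (nat_lit 5) (nat_lit 384) (nat_lit 5) (nat_lit 643) (nat_lit 603) (nat_lit 314)) (XT.lf (nat_lit 0) (nat_lit 9683078531) (nat_lit 760) (nat_lit 18501023682) (nat_lit 836) (nat_lit 4256835876) (nat_lit 363) (nat_lit 5) (nat_lit 373) (nat_lit 5) (nat_lit 374) (nat_lit 5) (nat_lit 644) (nat_lit 603) (nat_lit 313))) (XT.nd (nat_lit 78)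 (nat_lit 836) (nat_lit 0) (XT.lf (nat_lit 0) (nat_lit 28259998940) (nat_lit 760) (nat_lit 4523837252) (nat_lit 836) (nat_lit 22229509) (nat_lit 363) (nat_lit 5) (nat_lit 373) (nat_lit 5) (nat_lit 374) (nat_lit 5) (nat_lit 645) (nat_lit 603) (nat_lit 312)) (XT.lf (nat_lit 0) (nat_lit 4394861537) (nat_lit 836) (nat_lit 19054126192) (nat_lit 76) (nat_lit 9725867208) (nat_lit 352) (nat_lit 5) (nat_lit 363) (nat_lit 5) (nat_lit 353) (nat_lit 5) (nat_lit 646) (nat_lit 603) (nat_lit 311)))) (XT.nd (nat_lit 156) (nat_lit 684) (nat_lit 0) (XT.nd (nat_lit 78) (nat_lit 760) (nat_lit 0) (XT.lf (nat_lit 0) (nat_lit 8958746447) (nat_lit 836) (nat_lit 360378088) (nat_lit 76) (nat_lit 24230717540) (nat_lit 352) (nat_lit 5) (nat_lit 363) (nat_lit 5) (nat_lit 353) (nat_lit 5) (nat_lit 647) (nat_lit 603) (nat_lit 310)) (XT.lf (nat_lit 0) (nat_lit 13768971378) (nat_lit 836) (nat_lit 15010062871) (nat_lit 76) (nat_lit 5150193507) (nat_lit 342) (nat_lit 5) (nat_lit 353) (nat_lit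 5) (nat_lit 343) (nat_lit 5) (nat_lit 648) (nat_lit 603) (nat_lit 309))) (XT.nd (nat_lit 78) (nat_lit 0) (nat_lit 0) (XT.lf (nat_lit 0) (nat_lit 4265113637) (nat_lit 684) (nat_lit 14500270661) (nat_lit 760) (nat_lit 15549017231) (nat_lit 333) (nat_lit 5) (nat_lit 342) (nat_lit 5) (nat_lit 343) (nat_lit 5) (nat_lit 649) (nat_lit 603) (nat_lit 308)) (XT.lf (nat_lit 0) (nat_lit 23961696056) (nat_lit 760) (nat_lit 10579232276) (nat_lit 76) (nat_lit 164351080) (nat_lit 333) (nat_lit 5) (nat_lit 343) (nat_lit 5) (nat_lit 334) (nat_lit 5) (nat_lit 650) (nat_lit 603) (nat_lit 307))))) (XT.nd (nat_lit 312) (nat_lit 1900) (nat_lit 0) (XT.nd (nat_lit 156) (nat_lit 760) (nat_lit 0) (XT.nd (nat_lit 78) (nat_lit 0) (nat_lit 0) (XT.lf (nat_lit 0) (nat_lit 9304119402) (nat_lit 684) (nat_lit 20112449607) (nat_lit 760) (nat_lit 5684313187) (nat_lit 324) (nat_lit 5) (nat_lit 333) (nat_lit 5) (nat_lit 334) (nat_lit 5) (nat_lit 651) (nat_lit 603) (nat_lit 306)) (XT.lf (nat_lit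 0) (nat_lit 29726454255) (nat_lit 684) (nat_lit 5323297322) (nat_lit 760) (nat_lit 453261262) (nat_lit 324) (nat_lit 5) (nat_lit 333) (nat_lit 5) (nat_lit 334) (nat_lit 5) (nat_lit 652) (nat_lit 603) (nat_lit 305))) (XT.nd (nat_lit 78) (nat_lit 0) (nat_lit 0) (XT.lf (nat_lit 0) (nat_lit 4976964974) (nat_lit 760) (nat_lit 21170446158) (nat_lit 76) (nat_lit 9761969266) (nat_lit 314) (nat_lit 5) (nat_lit 324) (nat_lit 5) (nat_lit 315) (nat_lit 5) (nat_lit 653) (nat_lit 603) (nat_lit 304)) (XT.lf (nat_lit 0) (nat_lit 10582268573) (nat_lit 760) (nat_lit 620662038) (nat_lit 76) (nat_lit 25119433979) (nat_lit 314) (nat_lit 5) (nat_lit 324) (nat_lit 5) (nat_lit 315) (nat_lit 5) (nat_lit 654) (nat_lit 603) (nat_lit 303)))) (XT.nd (nat_lit 156) (nat_lit 608) (nat_lit 0) (XT.nd (nat_lit 78) (nat_lit 608) (nat_lit 0) (XT.lf (nat_lit 0) (nat_lit 16458894737) (nat_lit 760) (nat_lit 16159732265) (nat_lit 76) (nat_lit 4121797176) (nat_lit 305) (nat_lit 5) (nat_lit 315)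 (nat_lit 5) (nat_lit 306) (nat_lit 5) (nat_lit 655) (nat_lit 603) (nat_lit 302)) (XT.lf (nat_lit 0) (nat_lit 5037506547) (nat_lit 608) (nat_lit 17524952082) (nat_lit 684) (nat_lit 14602198262) (nat_lit 297) (nat_lit 5) (nat_lit 305) (nat_lit 5) (nat_lit 306) (nat_lit 5) (nat_lit 656) (nat_lit 603) (nat_lit 301))) (XT.nd (nat_lit 78) (nat_lit 608) (nat_lit 0) (XT.lf (nat_lit 0) (nat_lit 26875686551) (nat_lit 608) (nat_lit 2019181510) (nat_lit 684) (nat_lit 8700370753) (nat_lit 297) (nat_lit 5) (nat_lit 305) (nat_lit 5) (nat_lit 306) (nat_lit 5) (nat_lit 657) (nat_lit 603) (nat_lit 300)) (XT.lf (nat_lit 0) (nat_lit 11171088258) (nat_lit 608) (nat_lit 24343309051) (nat_lit 684) (nat_lit 2516825671) (nat_lit 289) (nat_lit 5) (nat_lit 297) (nat_lit 5) (nat_lit 298) (nat_lit 5) (nat_lit 658) (nat_lit 603) (nat_lit 299))))))))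
noncomputable def xc212 : XT := (XT.nd (nat_lit 77142) (nat_lit 0) (nat_lit 18088) (XT.nd (nat_lit 1170) (nat_lit 3192) (nat_lit 0) (XT.nd (nat_lit 546) (nat_lit 2584) (nat_lit 0) (XT.nd (nat_lit 234) (nat_lit 1216) (nat_lit 0) (XT.nd (nat_lit 78) (nat_lit 1216) (nat_lit 0) (XT.lf (nat_lit 0) (nat_lit 3824833255) (nat_lit 684) (nat_lit 4870149609) (nat_lit 76) (nat_lit 29778768717) (nat_lit 288) (nat_lit 5) (nat_lit 297) (nat_lit 5) (nat_lit 289) (nat_lit 5) (nat_lit 659) (nat_lit 603) (nat_lit 298)) (XT.nd (nat_lit 78) (nat_lit 608) (nat_lit 0) (XT.lf (nat_lit 0) (nat_lit 10421511455) (nat_lit 684) (nat_lit 21196504401) (nat_lit 76) (nat_lit 7303544479) (nat_lit 280) (nat_lit 5) (nat_lit 289) (nat_lit 5) (nat_lit 281) (nat_lit 5) (nat_lit 660) (nat_lit 603) (nat_lit 297)) (XT.lf (nat_lit 0) (nat_lit 1419298736) (nat_lit 608) (nat_lit 15828939694) (nat_lit 684) (nat_lit 22128124568) (nat_lit 272) (nat_lit 5) (nat_lit 280) (nat_lit 5) (nat_lit 281) (nat_lit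 5) (nat_lit 661) (nat_lit 603) (nat_lit 296)))) (XT.nd (nat_lit 156) (nat_lit 684) (nat_lit 0) (XT.nd (nat_lit 78) (nat_lit 532) (nat_lit 0) (XT.lf (nat_lit 0) (nat_lit 24354907874) (nat_lit 684) (nat_lit 15067449862) (nat_lit 76) (nat_lit 415035854) (nat_lit 272) (nat_lit 5) (nat_lit 281) (nat_lit 5) (nat_lit 273) (nat_lit 5) (nat_lit 662) (nat_lit 603) (nat_lit 295)) (XT.lf (nat_lit 0) (nat_lit 8281744361) (nat_lit 532) (nat_lit 23479029826) (nat_lit 608) (nat_lit 8543729372) (nat_lit 265) (nat_lit 5) (nat_lit 272) (nat_lit 5) (nat_lit 273) (nat_lit 5) (nat_lit 663) (nat_lit 603) (nat_lit 294))) (XT.nd (nat_lit 78) (nat_lit 684) (nat_lit 0) (XT.lf (nat_lit 0) (nat_lit 32300177272) (nat_lit 532) (nat_lit 7114173741) (nat_lit 608) (nat_lit 1364612883) (nat_lit 265) (nat_lit 5) (nat_lit 272) (nat_lit 5) (nat_lit 273) (nat_lit 5) (nat_lit 664) (nat_lit 603) (nat_lit 293)) (XT.lf (nat_lit 0) (nat_lit 6043505441) (nat_lit 684) (nat_lit 25621907678) (nat_lit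 76) (nat_lit 9593455459) (nat_lit 256) (nat_lit 5) (nat_lit 265) (nat_lit 5) (nat_lit 257) (nat_lit 5) (nat_lit 665) (nat_lit 603) (nat_lit 292))))) (XT.nd (nat_lit 312) (nat_lit 1520) (nat_lit 0) (XT.nd (nat_lit 156) (nat_lit 532) (nat_lit 0) (XT.nd (nat_lit 78) (nat_lit 532) (nat_lit 0) (XT.lf (nat_lit 0) (nat_lit 13684434809) (nat_lit 684) (nat_lit 1455788550) (nat_lit 76) (nat_lit 26605909206) (nat_lit 256) (nat_lit 5) (nat_lit 265) (nat_lit 5) (nat_lit 257) (nat_lit 5) (nat_lit 666) (nat_lit 603) (nat_lit 291)) (XT.lf (nat_lit 0) (nat_lit 21641450236) (nat_lit 608) (nat_lit 18752350205) (nat_lit 76) (nat_lit 1846076074) (nat_lit 249) (nat_lit 5) (nat_lit 257) (nat_lit 5) (nat_lit 250) (nat_lit 5) (nat_lit 667) (nat_lit 603) (nat_lit 290))) (XT.nd (nat_lit 78) (nat_lit 0) (nat_lit 0) (XT.lf (nat_lit 0) (nat_lit 6184970094) (nat_lit 532) (nat_lit 23721450980) (nat_lit 608) (nat_lit 12834097996) (nat_lit 242) (nat_lit 5) (nat_lit 249) (nat_lit 5) (nat_lit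 250) (nat_lit 5) (nat_lit 668) (nat_lit 603) (nat_lit 289)) (XT.lf (nat_lit 0) (nat_lit 31873285786) (nat_lit 532) (nat_lit 6587817326) (nat_lit 608) (nat_lit 4787583159) (nat_lit 242) (nat_lit 5) (nat_lit 249) (nat_lit 5) (nat_lit 250) (nat_lit 5) (nat_lit 669) (nat_lit 603) (nat_lit 288)))) (XT.nd (nat_lit 156) (nat_lit 988) (nat_lit 0) (XT.nd (nat_lit 78) (nat_lit 0) (nat_lit 0) (XT.lf (nat_lit 0) (nat_lit 3539038671) (nat_lit 532) (nat_lit 29362130665) (nat_lit 76) (nat_lit 10862122853) (nat_lit 235) (nat_lit 5) (nat_lit 242) (nat_lit 5) (nat_lit 236) (nat_lit 5) (nat_lit 670) (nat_lit 603) (nat_lit 287)) (XT.lf (nat_lit 0) (nat_lit 12087219645) (nat_lit 532) (nat_lit 3516988025) (nat_lit 76) (nat_lit 28680967016) (nat_lit 235) (nat_lit 5) (nat_lit 242) (nat_lit 5) (nat_lit 236) (nat_lit 5) (nat_lit 671) (nat_lit 603) (nat_lit 286))) (XT.nd (nat_lit 78) (nat_lit 456) (nat_lit 0) (XT.lf (nat_lit 0) (nat_lit 20969508049) (nat_lit 608) (nat_lit 21682012433)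 (nat_lit 76) (nat_lit 2162711501) (nat_lit 228) (nat_lit 5) (nat_lit 236) (nat_lit 5) (nat_lit 229) (nat_lit 5) (nat_lit 672) (nat_lit 603) (nat_lit 285)) (XT.lf (nat_lit 0) (nat_lit 4968443471) (nat_lit 456) (nat_lit 25218996081) (nat_lit 532) (nat_lit 15163270955) (nat_lit 222) (nat_lit 5) (nat_lit 228) (nat_lit 5) (nat_lit 229) (nat_lit 5) (nat_lit 673) (nat_lit 603) (nat_lit 284)))))) (XT.nd (nat_lit 624) (nat_lit 1292) (nat_lit 0) (XT.nd (nat_lit 312) (nat_lit 912) (nat_lit 0) (XT.nd (nat_lit 156) (nat_lit 456) (nat_lit 0) (XT.nd (nat_lit 78) (nat_lit 532) (nat_lit 0) (XT.lf (nat_lit 0) (nat_lit 32443916740) (nat_lit 456) (nat_lit 7289967596) (nat_lit 532) (nat_lit 6161151198) (nat_lit 222) (nat_lit 5) (nat_lit 228) (nat_lit 5) (nat_lit 229) (nat_lit 5) (nat_lit 674) (nat_lit 603) (nat_lit 283)) (XT.lf (nat_lit 0) (nat_lit 3144291098) (nat_lit 532) (nat_lit 32337004400) (nat_lit 76) (nat_lit 10965301277) (nat_lit 215) (nat_lit 5) (nat_lit 222) (nat_lit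 5) (nat_lit 216) (nat_lit 5) (nat_lit 675) (nat_lit 603) (nat_lit 282))) (XT.nd (nat_lit 78) (nat_lit 456) (nat_lit 0) (XT.lf (nat_lit 0) (nat_lit 12691246146) (nat_lit 532) (nat_lit 4695098656) (nat_lit 76) (nat_lit 29619271924) (nat_lit 215) (nat_lit 5) (nat_lit 222) (nat_lit 5) (nat_lit 216) (nat_lit 5) (nat_lit 676) (nat_lit 603) (nat_lit 281)) (XT.lf (nat_lit 0) (nat_lit 22590412208) (nat_lit 532) (nat_lit 23770653988) (nat_lit 76) (nat_lit 1211525467) (nat_lit 209) (nat_lit 5) (nat_lit 216) (nat_lit 5) (nat_lit 210) (nat_lit 5) (nat_lit 677) (nat_lit 603) (nat_lit 280)))) (XT.nd (nat_lit 156) (nat_lit 456) (nat_lit 0) (XT.nd (nat_lit 78) (nat_lit 0) (nat_lit 0) (XT.lf (nat_lit 0) (nat_lit 4727067812) (nat_lit 456) (nat_lit 28136761920) (nat_lit 532) (nat_lit 15283551026) (nat_lit 203) (nat_lit 5) (nat_lit 209) (nat_lit 5) (nat_lit 210) (nat_lit 5) (nat_lit 678) (nat_lit 603) (nat_lit 279)) (XT.lf (nat_lit 0) (nat_lit 34115113172) (nat_lit 456) (nat_lit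 9385849415) (nat_lit 532) (nat_lit 5229538133) (nat_lit 203) (nat_lit 5) (nat_lit 209) (nat_lit 5) (nat_lit 210) (nat_lit 5) (nat_lit 679) (nat_lit 603) (nat_lit 278))) (XT.nd (nat_lit 78) (nat_lit 0) (nat_lit 0) (XT.lf (nat_lit 0) (nat_lit 5119402802) (nat_lit 456) (nat_lit 34459862444) (nat_lit 76) (nat_lit 9742170096) (nat_lit 197) (nat_lit 5) (nat_lit 203) (nat_lit 5) (nat_lit 198) (nat_lit 5) (nat_lit 680) (nat_lit 603) (nat_lit 277)) (XT.lf (nat_lit 0) (nat_lit 15765007822) (nat_lit 456) (nat_lit 4895317015) (nat_lit 76) (nat_lit 29259978321) (nat_lit 197) (nat_lit 5) (nat_lit 203) (nat_lit 5) (nat_lit 198) (nat_lit 5) (nat_lit 681) (nat_lit 603) (nat_lit 276))))) (XT.nd (nat_lit 312) (nat_lit 0) (nat_lit 0) (XT.nd (nat_lit 156) (nat_lit 456) (nat_lit 0) (XT.nd (nat_lit 78) (nat_lit 380) (nat_lit 0) (XT.lf (nat_lit 0) (nat_lit 25594392704) (nat_lit 456) (nat_lit 1194091271) (nat_lit 532) (nat_lit 23739365195) (nat_lit 191) (nat_lit 5) (nat_lit 197)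 (nat_lit 5) (nat_lit 198) (nat_lit 5) (nat_lit 682) (nat_lit 603) (nat_lit 275)) (XT.lf (nat_lit 0) (nat_lit 5563136044) (nat_lit 380) (nat_lit 32658435198) (nat_lit 456) (nat_lit 12922192051) (nat_lit 186) (nat_lit 5) (nat_lit 191) (nat_lit 5) (nat_lit 192) (nat_lit 5) (nat_lit 683) (nat_lit 603) (nat_lit 274))) (XT.nd (nat_lit 78) (nat_lit 456) (nat_lit 0) (XT.lf (nat_lit 0) (nat_lit 36997828760) (nat_lit 380) (nat_lit 13059467686) (nat_lit 456) (nat_lit 1711219750) (nat_lit 186) (nat_lit 5) (nat_lit 191) (nat_lit 5) (nat_lit 192) (nat_lit 5) (nat_lit 684) (nat_lit 603) (nat_lit 273)) (XT.lf (nat_lit 0) (nat_lit 9750548836) (nat_lit 456) (nat_lit 35637465422) (nat_lit 76) (nat_lit 7013405058) (nat_lit 180) (nat_lit 5) (nat_lit 186) (nat_lit 5) (nat_lit 181) (nat_lit 5) (nat_lit 685) (nat_lit 603) (nat_lit 272)))) (XT.nd (nat_lit 74880) (nat_lit 0) (nat_lit 22876) (XT.nd (nat_lit 74802) (nat_lit 0) (nat_lit 22876) (XT.lf (nat_lit 0) (nat_lit 21603750203)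 (nat_lit 456) (nat_lit 4015751543) (nat_lit 76) (nat_lit 27423550337) (nat_lit 180) (nat_lit 5) (nat_lit 186) (nat_lit 5) (nat_lit 181) (nat_lit 5) (nat_lit 686) (nat_lit 603) (nat_lit 271)) (XT.lf (nat_lit 0) (nat_lit 448150324) (nat_lit 1900) (nat_lit 5156249223) (nat_lit 1900) (nat_lit 5156249223) (nat_lit 481) (nat_lit 3) (nat_lit 506) (nat_lit 3) (nat_lit 506) (nat_lit 5) (nat_lit 604) (nat_lit 604) (nat_lit 352))) (XT.nd (nat_lit 78) (nat_lit 0) (nat_lit 76) (XT.lf (nat_lit 76) (nat_lit 410341220) (nat_lit 0) (nat_lit 641109253) (nat_lit 1900) (nat_lit 20682131965) (nat_lit 482) (nat_lit 5) (nat_lit 481) (nat_lit 3) (nat_lit 506) (nat_lit 5) (nat_lit 605) (nat_lit 604) (nat_lit 351)) (XT.lf (nat_lit 0) (nat_lit 1341420685) (nat_lit 1824) (nat_lit 10529616260) (nat_lit 1900) (nat_lit 10076441852) (nat_lit 482) (nat_lit 5) (nat_lit 506) (nat_lit 5) (nat_lit 507) (nat_lit 5) (nat_lit 606) (nat_lit 604) (nat_lit 350))))))) (XT.nd (nat_lit 1170) (nat_lit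 4864) (nat_lit 0) (XT.nd (nat_lit 546) (nat_lit 0) (nat_lit 304) (XT.nd (nat_lit 234) (nat_lit 0) (nat_lit 152) (XT.nd (nat_lit 78) (nat_lit 0) (nat_lit 76) (XT.lf (nat_lit 76) (nat_lit 479936663) (nat_lit 0) (nat_lit 1160923903) (nat_lit 1900) (nat_lit 20524719224) (nat_lit 483) (nat_lit 5) (nat_lit 482) (nat_lit 5) (nat_lit 507) (nat_lit 5) (nat_lit 607) (nat_lit 604) (nat_lit 349)) (XT.nd (nat_lit 78) (nat_lit 0) (nat_lit 0) (XT.lf (nat_lit 0) (nat_lit 2077185564) (nat_lit 1824) (nat_lit 10600139203) (nat_lit 1900) (nat_lit 9708100220) (nat_lit 483) (nat_lit 5) (nat_lit 507) (nat_lit 5) (nat_lit 508) (nat_lit 5) (nat_lit 608) (nat_lit 604) (nat_lit 348)) (XT.lf (nat_lit 76) (nat_lit 706631023) (nat_lit 0) (nat_lit 1824331894) (nat_lit 1900) (nat_lit 20078529760) (nat_lit 484) (nat_lit 5) (nat_lit 483) (nat_lit 5) (nat_lit 508) (nat_lit 5) (nat_lit 609) (nat_lit 604) (nat_lit 347)))) (XT.nd (nat_lit 156) (nat_lit 0) (nat_lit 76) (XT.nd (nat_lit 78) (nat_lit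 0) (nat_lit 0) (XT.lf (nat_lit 0) (nat_lit 3121964660) (nat_lit 1824) (nat_lit 10515984606) (nat_lit 1900) (nat_lit 9197529585) (nat_lit 484) (nat_lit 5) (nat_lit 508) (nat_lit 5) (nat_lit 509) (nat_lit 5) (nat_lit 610) (nat_lit 604) (nat_lit 346)) (XT.lf (nat_lit 76) (nat_lit 1098912281) (nat_lit 0) (nat_lit 2641674907) (nat_lit 1900) (nat_lit 19325081647) (nat_lit 485) (nat_lit 5) (nat_lit 484) (nat_lit 5) (nat_lit 509) (nat_lit 5) (nat_lit 611) (nat_lit 604) (nat_lit 345))) (XT.nd (nat_lit 78) (nat_lit 0) (nat_lit 0) (XT.lf (nat_lit 0) (nat_lit 4494935394) (nat_lit 1824) (nat_lit 10268647006) (nat_lit 1900) (nat_lit 8534413256) (nat_lit 485) (nat_lit 5) (nat_lit 509) (nat_lit 5) (nat_lit 510) (nat_lit 5) (nat_lit 612) (nat_lit 604) (nat_lit 344)) (XT.lf (nat_lit 76) (nat_lit 1665706683) (nat_lit 0) (nat_lit 3623685636) (nat_lit 1900) (nat_lit 18245076356) (nat_lit 486) (nat_lit 5) (nat_lit 485) (nat_lit 5) (nat_lit 510) (nat_lit 5) (nat_lit 613) (nat_lit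 604) (nat_lit 343))))) (XT.nd (nat_lit 312) (nat_lit 0) (nat_lit 152) (XT.nd (nat_lit 156) (nat_lit 0) (nat_lit 76) (XT.nd (nat_lit 78) (nat_lit 0) (nat_lit 0) (XT.lf (nat_lit 0) (nat_lit 6216120665) (nat_lit 1824) (nat_lit 9849182897) (nat_lit 1900) (nat_lit 7708040048) (nat_lit 486) (nat_lit 5) (nat_lit 510) (nat_lit 5) (nat_lit 511) (nat_lit 5) (nat_lit 614) (nat_lit 604) (nat_lit 342)) (XT.lf (nat_lit 76) (nat_lit 2416394613) (nat_lit 0) (nat_lit 4781510158) (nat_lit 1900) (nat_lit 16818360941) (nat_lit 487) (nat_lit 5) (nat_lit 486) (nat_lit 5) (nat_lit 511) (nat_lit 5) (nat_lit 615) (nat_lit 604) (nat_lit 341))) (XT.nd (nat_lit 78) (nat_lit 0) (nat_lit 0) (XT.lf (nat_lit 0) (nat_lit 8306427667) (nat_lit 1824) (nat_lit 9248194714) (nat_lit 1900) (nat_lit 6707281908) (nat_lit 487) (nat_lit 5) (nat_lit 511) (nat_lit 5) (nat_lit 512) (nat_lit 5) (nat_lit 616) (nat_lit 604) (nat_lit 340)) (XT.lf (nat_lit 76) (nat_lit 3360827244) (nat_lit 0) (nat_lit 6126730938)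 (nat_lit 1900) (nat_lit 15023888803) (nat_lit 488) (nat_lit 5) (nat_lit 487) (nat_lit 5) (nat_lit 512) (nat_lit 5) (nat_lit 617) (nat_lit 604) (nat_lit 339)))) (XT.nd (nat_lit 156) (nat_lit 0) (nat_lit 76) (XT.nd (nat_lit 78) (nat_lit 0) (nat_lit 0) (XT.lf (nat_lit 0) (nat_lit 10787688163) (nat_lit 1824) (nat_lit 8455814032) (nat_lit 1900) (nat_lit 5520570894) (nat_lit 488) (nat_lit 5) (nat_lit 512) (nat_lit 5) (nat_lit 513) (nat_lit 5) (nat_lit 618) (nat_lit 604) (nat_lit 338)) (XT.lf (nat_lit 76) (nat_lit 4509344015) (nat_lit 0) (nat_lit 7671390527) (nat_lit 1900) (nat_lit 12839678984) (nat_lit 489) (nat_lit 5) (nat_lit 488) (nat_lit 5) (nat_lit 513) (nat_lit 5) (nat_lit 619) (nat_lit 604) (nat_lit 337))) (XT.nd (nat_lit 78) (nat_lit 0) (nat_lit 0) (XT.lf (nat_lit 0) (nat_lit 13682700291) (nat_lit 1824) (nat_lit 7461683956) (nat_lit 1900) (nat_lit 4135875443) (nat_lit 489) (nat_lit 5) (nat_lit 513) (nat_lit 5) (nat_lit 514) (nat_lit 5) (nat_lit 620)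 (nat_lit 604) (nat_lit 336)) (XT.lf (nat_lit 76) (nat_lit 5872790927) (nat_lit 0) (nat_lit 9428015992) (nat_lit 1900) (nat_lit 10242773911) (nat_lit 490) (nat_lit 5) (nat_lit 489) (nat_lit 5) (nat_lit 514) (nat_lit 5) (nat_lit 621) (nat_lit 604) (nat_lit 335)))))) (XT.nd (nat_lit 624) (nat_lit 3724) (nat_lit 0) (XT.nd (nat_lit 312) (nat_lit 1748) (nat_lit 0) (XT.nd (nat_lit 156) (nat_lit 0) (nat_lit 76) (XT.nd (nat_lit 78) (nat_lit 0) (nat_lit 0) (XT.lf (nat_lit 0) (nat_lit 17015271961) (nat_lit 1824) (nat_lit 6254940677) (nat_lit 1900) (nat_lit 2540675913) (nat_lit 490) (nat_lit 5) (nat_lit 514) (nat_lit 5) (nat_lit 515) (nat_lit 5) (nat_lit 622) (nat_lit 604) (nat_lit 334)) (XT.lf (nat_lit 76) (nat_lit 7462539708) (nat_lit 0) (nat_lit 11409644117) (nat_lit 1900) (nat_lit 7209195531) (nat_lit 491) (nat_lit 5) (nat_lit 490) (nat_lit 5) (nat_lit 515) (nat_lit 5) (nat_lit 623) (nat_lit 604) (nat_lit 333))) (XT.nd (nat_lit 78) (nat_lit 0) (nat_lit 0) (XT.lf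 (nat_lit 0) (nat_lit 20810265921) (nat_lit 1824) (nat_lit 4824194171) (nat_lit 1900) (nat_lit 721939326) (nat_lit 491) (nat_lit 5) (nat_lit 515) (nat_lit 5) (nat_lit 516) (nat_lit 5) (nat_lit 624) (nat_lit 604) (nat_lit 332)) (XT.lf (nat_lit 76) (nat_lit 9290507855) (nat_lit 0) (nat_lit 13629847441) (nat_lit 1900) (nat_lit 3713899750) (nat_lit 492) (nat_lit 5) (nat_lit 491) (nat_lit 5) (nat_lit 516) (nat_lit 5) (nat_lit 625) (nat_lit 604) (nat_lit 331)))) (XT.nd (nat_lit 156) (nat_lit 0) (nat_lit 0) (XT.nd (nat_lit 78) (nat_lit 1824) (nat_lit 0) (XT.lf (nat_lit 76) (nat_lit 23750788625) (nat_lit 0) (nat_lit 1351633638) (nat_lit 1900) (nat_lit 1814650086) (nat_lit 492) (nat_lit 5) (nat_lit 491) (nat_lit 5) (nat_lit 516) (nat_lit 5) (nat_lit 626) (nat_lit 604) (nat_lit 330)) (XT.lf (nat_lit 0) (nat_lit 265739345) (nat_lit 1900) (nat_lit 15835238562) (nat_lit 1976) (nat_lit 11101656995) (nat_lit 467) (nat_lit 5) (nat_lit 492) (nat_lit 5) (nat_lit 493) (nat_lit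 5) (nat_lit 627) (nat_lit 604) (nat_lit 329))) (XT.nd (nat_lit 78) (nat_lit 0) (nat_lit 76) (XT.lf (nat_lit 0) (nat_lit 2391276932) (nat_lit 1900) (nat_lit 1282064358) (nat_lit 1976) (nat_lit 23819770821) (nat_lit 467) (nat_lit 5) (nat_lit 492) (nat_lit 5) (nat_lit 493) (nat_lit 5) (nat_lit 628) (nat_lit 604) (nat_lit 328)) (XT.lf (nat_lit 0) (nat_lit 4705107927) (nat_lit 1900) (nat_lit 14106429273) (nat_lit 76) (nat_lit 8974946083) (nat_lit 468) (nat_lit 5) (nat_lit 493) (nat_lit 5) (nat_lit 469) (nat_lit 5) (nat_lit 629) (nat_lit 604) (nat_lit 327))))) (XT.nd (nat_lit 312) (nat_lit 1748) (nat_lit 0) (XT.nd (nat_lit 156) (nat_lit 912) (nat_lit 0) (XT.nd (nat_lit 78) (nat_lit 0) (nat_lit 0) (XT.lf (nat_lit 0) (nat_lit 857976129) (nat_lit 1140) (nat_lit 6243360241) (nat_lit 1216) (nat_lit 20983663161) (nat_lit 453) (nat_lit 5) (nat_lit 468) (nat_lit 5) (nat_lit 469) (nat_lit 5) (nat_lit 630) (nat_lit 604) (nat_lit 326)) (XT.lf (nat_lit 0) (nat_lit 9681073805)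 (nat_lit 1216) (nat_lit 12120202883) (nat_lit 76) (nat_lit 6585497794) (nat_lit 453) (nat_lit 5) (nat_lit 469) (nat_lit 5) (nat_lit 454) (nat_lit 5) (nat_lit 631) (nat_lit 604) (nat_lit 325))) (XT.nd (nat_lit 78) (nat_lit 0) (nat_lit 0) (XT.lf (nat_lit 0) (nat_lit 3288405723) (nat_lit 912) (nat_lit 9084343645) (nat_lit 988) (nat_lit 16320628765) (nat_lit 441) (nat_lit 5) (nat_lit 453) (nat_lit 5) (nat_lit 454) (nat_lit 5) (nat_lit 632) (nat_lit 604) (nat_lit 324)) (XT.lf (nat_lit 0) (nat_lit 15223046397) (nat_lit 988) (nat_lit 9862946717) (nat_lit 76) (nat_lit 3918025049) (nat_lit 441) (nat_lit 5) (nat_lit 454) (nat_lit 5) (nat_lit 442) (nat_lit 5) (nat_lit 633) (nat_lit 604) (nat_lit 323)))) (XT.nd (nat_lit 156) (nat_lit 836) (nat_lit 0) (XT.nd (nat_lit 78) (nat_lit 0) (nat_lit 0) (XT.lf (nat_lit 0) (nat_lit 6006412454) (nat_lit 912) (nat_lit 12220821103) (nat_lit 988) (nat_lit 11091699817) (nat_lit 429) (nat_lit 5) (nat_lit 441) (nat_lit 5) (nat_lit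 442) (nat_lit 5) (nat_lit 634) (nat_lit 604) (nat_lit 322)) (XT.lf (nat_lit 0) (nat_lit 21361739646) (nat_lit 988) (nat_lit 7320414852) (nat_lit 76) (nat_lit 956587750) (nat_lit 429) (nat_lit 5) (nat_lit 442) (nat_lit 5) (nat_lit 430) (nat_lit 5) (nat_lit 635) (nat_lit 604) (nat_lit 321))) (XT.nd (nat_lit 78) (nat_lit 0) (nat_lit 0) (XT.lf (nat_lit 0) (nat_lit 9026879235) (nat_lit 836) (nat_lit 15669398845) (nat_lit 912) (nat_lit 5265922436) (nat_lit 418) (nat_lit 5) (nat_lit 429) (nat_lit 5) (nat_lit 430) (nat_lit 5) (nat_lit 636) (nat_lit 604) (nat_lit 320)) (XT.lf (nat_lit 0) (nat_lit 25798252585) (nat_lit 836) (nat_lit 2346209183) (nat_lit 912) (nat_lit 2146727154) (nat_lit 418) (nat_lit 5) (nat_lit 429) (nat_lit 5) (nat_lit 430) (nat_lit 5) (nat_lit 637) (nat_lit 604) (nat_lit 319))))))))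
noncomputable def xc213 : XT := (XT.nd (nat_lit 2418) (nat_lit 5244) (nat_lit 0) (XT.nd (nat_lit 1170) (nat_lit 5700) (nat_lit 0) (XT.nd (nat_lit 546) (nat_lit 3724) (nat_lit 0) (XT.nd (nat_lit 234) (nat_lit 1596) (nat_lit 0) (XT.nd (nat_lit 78) (nat_lit 836) (nat_lit 0) (XT.lf (nat_lit 0) (nat_lit 1173438488) (nat_lit 988) (nat_lit 18266082222) (nat_lit 76) (nat_lit 11184058889) (nat_lit 405) (nat_lit 5) (nat_lit 418) (nat_lit 5) (nat_lit 406) (nat_lit 5) (nat_lit 638) (nat_lit 604) (nat_lit 318)) (XT.nd (nat_lit 78) (nat_lit 836) (nat_lit 0) (XT.lf (nat_lit 0) (nat_lit 4575064932) (nat_lit 988) (nat_lit 1388239637) (nat_lit 76) (nat_lit 24998153739) (nat_lit 405) (nat_lit 5) (nat_lit 418) (nat_lit 5) (nat_lit 406) (nat_lit 5) (nat_lit 639) (nat_lit 604) (nat_lit 317)) (XT.lf (nat_lit 0) (nat_lit 8197983808) (nat_lit 912) (nat_lit 15319876737) (nat_lit 76) (nat_lit 7785168902) (nat_lit 394) (nat_lit 5) (nat_lit 406) (nat_lit 5) (nat_lit 395) (nat_lit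 5) (nat_lit 640) (nat_lit 604) (nat_lit 316)))) (XT.nd (nat_lit 156) (nat_lit 760) (nat_lit 0) (XT.nd (nat_lit 78) (nat_lit 0) (nat_lit 0) (XT.lf (nat_lit 0) (nat_lit 2054842210) (nat_lit 836) (nat_lit 9898686257) (nat_lit 912) (nat_lit 19696700249) (nat_lit 383) (nat_lit 5) (nat_lit 394) (nat_lit 5) (nat_lit 395) (nat_lit 5) (nat_lit 641) (nat_lit 604) (nat_lit 315)) (XT.lf (nat_lit 0) (nat_lit 15911576154) (nat_lit 912) (nat_lit 12046325528) (nat_lit 76) (nat_lit 4043922499) (nat_lit 383) (nat_lit 5) (nat_lit 395) (nat_lit 5) (nat_lit 384) (nat_lit 5) (nat_lit 642) (nat_lit 604) (nat_lit 314))) (XT.nd (nat_lit 78) (nat_lit 0) (nat_lit 0) (XT.lf (nat_lit 0) (nat_lit 5862973119) (nat_lit 760) (nat_lit 14187454261) (nat_lit 836) (nat_lit 12307991377) (nat_lit 373) (nat_lit 5) (nat_lit 383) (nat_lit 5) (nat_lit 384) (nat_lit 5) (nat_lit 643) (nat_lit 604) (nat_lit 313)) (XT.lf (nat_lit 0) (nat_lit 24291679276) (nat_lit 760) (nat_lit 59260948) (nat_lit 836)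 (nat_lit 8369627360) (nat_lit 373) (nat_lit 5) (nat_lit 383) (nat_lit 5) (nat_lit 384) (nat_lit 5) (nat_lit 644) (nat_lit 604) (nat_lit 312))))) (XT.nd (nat_lit 312) (nat_lit 2128) (nat_lit 0) (XT.nd (nat_lit 156) (nat_lit 760) (nat_lit 0) (XT.nd (nat_lit 78) (nat_lit 76) (nat_lit 0) (XT.lf (nat_lit 0) (nat_lit 10035369824) (nat_lit 760) (nat_lit 18858514160) (nat_lit 836) (nat_lit 4192947040) (nat_lit 363) (nat_lit 5) (nat_lit 373) (nat_lit 5) (nat_lit 374) (nat_lit 5) (nat_lit 645) (nat_lit 604) (nat_lit 311)) (XT.lf (nat_lit 0) (nat_lit 121810585) (nat_lit 836) (nat_lit 4479401688) (nat_lit 76) (nat_lit 28858090256) (nat_lit 362) (nat_lit 5) (nat_lit 373) (nat_lit 5) (nat_lit 363) (nat_lit 5) (nat_lit 646) (nat_lit 604) (nat_lit 310))) (XT.nd (nat_lit 78) (nat_lit 0) (nat_lit 0) (XT.lf (nat_lit 0) (nat_lit 4625225429) (nat_lit 836) (nat_lit 19276045263) (nat_lit 76) (nat_lit 9934228400) (nat_lit 352) (nat_lit 5) (nat_lit 363) (nat_lit 5) (nat_lit 353)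 (nat_lit 5) (nat_lit 647) (nat_lit 604) (nat_lit 309)) (XT.lf (nat_lit 0) (nat_lit 9277594573) (nat_lit 836) (nat_lit 211543049) (nat_lit 76) (nat_lit 24728904290) (nat_lit 352) (nat_lit 5) (nat_lit 363) (nat_lit 5) (nat_lit 353) (nat_lit 5) (nat_lit 648) (nat_lit 604) (nat_lit 308)))) (XT.nd (nat_lit 156) (nat_lit 684) (nat_lit 0) (XT.nd (nat_lit 78) (nat_lit 684) (nat_lit 0) (XT.lf (nat_lit 0) (nat_lit 14182402642) (nat_lit 836) (nat_lit 15152596696) (nat_lit 76) (nat_lit 5270048467) (nat_lit 342) (nat_lit 5) (nat_lit 353) (nat_lit 5) (nat_lit 343) (nat_lit 5) (nat_lit 649) (nat_lit 604) (nat_lit 307)) (XT.lf (nat_lit 0) (nat_lit 4507046057) (nat_lit 684) (nat_lit 14770007811) (nat_lit 760) (nat_lit 15720905051) (nat_lit 333) (nat_lit 5) (nat_lit 342) (nat_lit 5) (nat_lit 343) (nat_lit 5) (nat_lit 650) (nat_lit 604) (nat_lit 306))) (XT.nd (nat_lit 78) (nat_lit 684) (nat_lit 0) (XT.lf (nat_lit 0) (nat_lit 24574747113) (nat_lit 760) (nat_lit 10634709870)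 (nat_lit 76) (nat_lit 187248338) (nat_lit 333) (nat_lit 5) (nat_lit 343) (nat_lit 5) (nat_lit 334) (nat_lit 5) (nat_lit 651) (nat_lit 604) (nat_lit 305)) (XT.lf (nat_lit 0) (nat_lit 9645281822) (nat_lit 684) (nat_lit 20491818721) (nat_lit 760) (nat_lit 5663152024) (nat_lit 324) (nat_lit 5) (nat_lit 333) (nat_lit 5) (nat_lit 334) (nat_lit 5) (nat_lit 652) (nat_lit 604) (nat_lit 304)))))) (XT.nd (nat_lit 624) (nat_lit 2964) (nat_lit 0) (XT.nd (nat_lit 312) (nat_lit 1292) (nat_lit 0) (XT.nd (nat_lit 156) (nat_lit 684) (nat_lit 0) (XT.nd (nat_lit 78) (nat_lit 760) (nat_lit 0) (XT.lf (nat_lit 0) (nat_lit 30473022586) (nat_lit 684) (nat_lit 5407332016) (nat_lit 760) (nat_lit 330123127) (nat_lit 324) (nat_lit 5) (nat_lit 333) (nat_lit 5) (nat_lit 334) (nat_lit 5) (nat_lit 653) (nat_lit 604) (nat_lit 303)) (XT.lf (nat_lit 0) (nat_lit 5205562311) (nat_lit 760) (nat_lit 21438664287) (nat_lit 76) (nat_lit 9980757166) (nat_lit 314) (nat_lit 5) (nat_lit 324) (nat_lit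 5) (nat_lit 315) (nat_lit 5) (nat_lit 654) (nat_lit 604) (nat_lit 302))) (XT.nd (nat_lit 78) (nat_lit 684) (nat_lit 0) (XT.lf (nat_lit 0) (nat_lit 10920441432) (nat_lit 760) (nat_lit 480927441) (nat_lit 76) (nat_lit 25644909438) (nat_lit 314) (nat_lit 5) (nat_lit 324) (nat_lit 5) (nat_lit 315) (nat_lit 5) (nat_lit 655) (nat_lit 604) (nat_lit 301)) (XT.lf (nat_lit 0) (nat_lit 16913270115) (nat_lit 760) (nat_lit 16329446106) (nat_lit 76) (nat_lit 4230009528) (nat_lit 305) (nat_lit 5) (nat_lit 315) (nat_lit 5) (nat_lit 306) (nat_lit 5) (nat_lit 656) (nat_lit 604) (nat_lit 300)))) (XT.nd (nat_lit 156) (nat_lit 684) (nat_lit 0) (XT.nd (nat_lit 78) (nat_lit 0) (nat_lit 0) (XT.lf (nat_lit 0) (nat_lit 5290727740) (nat_lit 608) (nat_lit 17846712636) (nat_lit 684) (nat_lit 14768032098) (nat_lit 297) (nat_lit 5) (nat_lit 305) (nat_lit 5) (nat_lit 306) (nat_lit 5) (nat_lit 657) (nat_lit 604) (nat_lit 299)) (XT.lf (nat_lit 0) (nat_lit 27562681715) (nat_lit 608) (nat_lit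 2031390152) (nat_lit 684) (nat_lit 8750642746) (nat_lit 297) (nat_lit 5) (nat_lit 305) (nat_lit 5) (nat_lit 306) (nat_lit 5) (nat_lit 658) (nat_lit 604) (nat_lit 298))) (XT.nd (nat_lit 78) (nat_lit 76) (nat_lit 0) (XT.lf (nat_lit 0) (nat_lit 11545239295) (nat_lit 608) (nat_lit 24799531827) (nat_lit 684) (nat_lit 2444671810) (nat_lit 289) (nat_lit 5) (nat_lit 297) (nat_lit 5) (nat_lit 298) (nat_lit 5) (nat_lit 659) (nat_lit 604) (nat_lit 297)) (XT.lf (nat_lit 0) (nat_lit 4019843539) (nat_lit 684) (nat_lit 4818201139) (nat_lit 76) (nat_lit 30402808979) (nat_lit 288) (nat_lit 5) (nat_lit 297) (nat_lit 5) (nat_lit 289) (nat_lit 5) (nat_lit 660) (nat_lit 604) (nat_lit 296))))) (XT.nd (nat_lit 312) (nat_lit 1216) (nat_lit 0) (XT.nd (nat_lit 156) (nat_lit 532) (nat_lit 0) (XT.nd (nat_lit 78) (nat_lit 608) (nat_lit 0) (XT.lf (nat_lit 0) (nat_lit 10747297490) (nat_lit 684) (nat_lit 21469922583) (nat_lit 76) (nat_lit 7480421724) (nat_lit 280) (nat_lit 5) (nat_lit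 289) (nat_lit 5) (nat_lit 281) (nat_lit 5) (nat_lit 661) (nat_lit 604) (nat_lit 295)) (XT.lf (nat_lit 0) (nat_lit 1597206408) (nat_lit 608) (nat_lit 16112022297) (nat_lit 684) (nat_lit 22452338465) (nat_lit 272) (nat_lit 5) (nat_lit 280) (nat_lit 5) (nat_lit 281) (nat_lit 5) (nat_lit 662) (nat_lit 604) (nat_lit 294))) (XT.nd (nat_lit 78) (nat_lit 532) (nat_lit 0) (XT.lf (nat_lit 0) (nat_lit 24955969741) (nat_lit 684) (nat_lit 15220144638) (nat_lit 76) (nat_lit 455745280) (nat_lit 272) (nat_lit 5) (nat_lit 281) (nat_lit 5) (nat_lit 273) (nat_lit 5) (nat_lit 663) (nat_lit 604) (nat_lit 293)) (XT.lf (nat_lit 0) (nat_lit 8595055481) (nat_lit 532) (nat_lit 23913622129) (nat_lit 608) (nat_lit 8599659782) (nat_lit 265) (nat_lit 5) (nat_lit 272) (nat_lit 5) (nat_lit 273) (nat_lit 5) (nat_lit 664) (nat_lit 604) (nat_lit 292)))) (XT.nd (nat_lit 156) (nat_lit 532) (nat_lit 0) (XT.nd (nat_lit 78) (nat_lit 684) (nat_lit 0) (XT.lf (nat_lit 0) (nat_lit 33090961438) (nat_lit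 532) (nat_lit 7222154967) (nat_lit 608) (nat_lit 1279214771) (nat_lit 265) (nat_lit 5) (nat_lit 272) (nat_lit 5) (nat_lit 273) (nat_lit 5) (nat_lit 665) (nat_lit 604) (nat_lit 291)) (XT.lf (nat_lit 0) (nat_lit 6274580049) (nat_lit 684) (nat_lit 25987074622) (nat_lit 76) (nat_lit 9820184852) (nat_lit 256) (nat_lit 5) (nat_lit 265) (nat_lit 5) (nat_lit 257) (nat_lit 5) (nat_lit 666) (nat_lit 604) (nat_lit 290))) (XT.nd (nat_lit 78) (nat_lit 532) (nat_lit 0) (XT.lf (nat_lit 0) (nat_lit 14066167132) (nat_lit 684) (nat_lit 1340520783) (nat_lit 76) (nat_lit 27172204140) (nat_lit 256) (nat_lit 5) (nat_lit 265) (nat_lit 5) (nat_lit 257) (nat_lit 5) (nat_lit 667) (nat_lit 604) (nat_lit 289)) (XT.lf (nat_lit 0) (nat_lit 22181373115) (nat_lit 608) (nat_lit 18982061673) (nat_lit 76) (nat_lit 1919095134) (nat_lit 249) (nat_lit 5) (nat_lit 257) (nat_lit 5) (nat_lit 250) (nat_lit 5) (nat_lit 668) (nat_lit 604) (nat_lit 288))))))) (XT.nd (nat_lit 1170) (nat_lit 836) (nat_lit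 0) (XT.nd (nat_lit 546) (nat_lit 2356) (nat_lit 0) (XT.nd (nat_lit 234) (nat_lit 988) (nat_lit 0) (XT.nd (nat_lit 78) (nat_lit 532) (nat_lit 0) (XT.lf (nat_lit 0) (nat_lit 6453048877) (nat_lit 532) (nat_lit 24157432020) (nat_lit 608) (nat_lit 12982727726) (nat_lit 242) (nat_lit 5) (nat_lit 249) (nat_lit 5) (nat_lit 250) (nat_lit 5) (nat_lit 669) (nat_lit 604) (nat_lit 287)) (XT.nd (nat_lit 78) (nat_lit 532) (nat_lit 0) (XT.lf (nat_lit 0) (nat_lit 32652299915) (nat_lit 532) (nat_lit 6681879575) (nat_lit 608) (nat_lit 4777401264) (nat_lit 242) (nat_lit 5) (nat_lit 249) (nat_lit 5) (nat_lit 250) (nat_lit 5) (nat_lit 670) (nat_lit 604) (nat_lit 286)) (XT.lf (nat_lit 0) (nat_lit 3713486242) (nat_lit 532) (nat_lit 29805553914) (nat_lit 76) (nat_lit 11117442467) (nat_lit 235) (nat_lit 5) (nat_lit 242) (nat_lit 5) (nat_lit 236) (nat_lit 5) (nat_lit 671) (nat_lit 604) (nat_lit 285)))) (XT.nd (nat_lit 156) (nat_lit 456) (nat_lit 0) (XT.nd (nat_lit 78) (nat_lit 532)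 (nat_lit 0) (XT.lf (nat_lit 0) (nat_lit 12430598152) (nat_lit 532) (nat_lit 3446328409) (nat_lit 76) (nat_lit 29291916903) (nat_lit 235) (nat_lit 5) (nat_lit 242) (nat_lit 5) (nat_lit 236) (nat_lit 5) (nat_lit 672) (nat_lit 604) (nat_lit 284)) (XT.lf (nat_lit 0) (nat_lit 21489705535) (nat_lit 608) (nat_lit 21973824522) (nat_lit 76) (nat_lit 2244968427) (nat_lit 228) (nat_lit 5) (nat_lit 236) (nat_lit 5) (nat_lit 229) (nat_lit 5) (nat_lit 673) (nat_lit 604) (nat_lit 283))) (XT.nd (nat_lit 78) (nat_lit 0) (nat_lit 0) (XT.lf (nat_lit 0) (nat_lit 5208707421) (nat_lit 456) (nat_lit 25682226416) (nat_lit 532) (nat_lit 15364794016) (nat_lit 222) (nat_lit 5) (nat_lit 228) (nat_lit 5) (nat_lit 229) (nat_lit 5) (nat_lit 674) (nat_lit 604) (nat_lit 282)) (XT.lf (nat_lit 0) (nat_lit 33230927507) (nat_lit 456) (nat_lit 7395424217) (nat_lit 532) (nat_lit 6184626812) (nat_lit 222) (nat_lit 5) (nat_lit 228) (nat_lit 5) (nat_lit 229) (nat_lit 5) (nat_lit 675) (nat_lit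 604) (nat_lit 281))))) (XT.nd (nat_lit 312) (nat_lit 912) (nat_lit 0) (XT.nd (nat_lit 156) (nat_lit 912) (nat_lit 0) (XT.nd (nat_lit 78) (nat_lit 0) (nat_lit 0) (XT.lf (nat_lit 0) (nat_lit 3304852299) (nat_lit 532) (nat_lit 32843536304) (nat_lit 76) (nat_lit 11225184758) (nat_lit 215) (nat_lit 5) (nat_lit 222) (nat_lit 5) (nat_lit 216) (nat_lit 5) (nat_lit 676) (nat_lit 604) (nat_lit 280)) (XT.lf (nat_lit 0) (nat_lit 13040831244) (nat_lit 532) (nat_lit 4651541625) (nat_lit 76) (nat_lit 30251439182) (nat_lit 215) (nat_lit 5) (nat_lit 222) (nat_lit 5) (nat_lit 216) (nat_lit 5) (nat_lit 677) (nat_lit 604) (nat_lit 279))) (XT.nd (nat_lit 78) (nat_lit 456) (nat_lit 0) (XT.lf (nat_lit 0) (nat_lit 23137260880) (nat_lit 532) (nat_lit 24107886546) (nat_lit 76) (nat_lit 1276993491) (nat_lit 209) (nat_lit 5) (nat_lit 216) (nat_lit 5) (nat_lit 210) (nat_lit 5) (nat_lit 678) (nat_lit 604) (nat_lit 278)) (XT.lf (nat_lit 0) (nat_lit 4958880607) (nat_lit 456) (nat_lit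 28656293866) (nat_lit 532) (nat_lit 15493270801) (nat_lit 203) (nat_lit 5) (nat_lit 209) (nat_lit 5) (nat_lit 210) (nat_lit 5) (nat_lit 679) (nat_lit 604) (nat_lit 277)))) (XT.nd (nat_lit 156) (nat_lit 456) (nat_lit 0) (XT.nd (nat_lit 78) (nat_lit 456) (nat_lit 0) (XT.lf (nat_lit 0) (nat_lit 34931995278) (nat_lit 456) (nat_lit 9531210235) (nat_lit 532) (nat_lit 5240059047) (nat_lit 203) (nat_lit 5) (nat_lit 209) (nat_lit 5) (nat_lit 210) (nat_lit 5) (nat_lit 680) (nat_lit 604) (nat_lit 276)) (XT.lf (nat_lit 0) (nat_lit 5313962028) (nat_lit 456) (nat_lit 35012577869) (nat_lit 76) (nat_lit 9979479094) (nat_lit 197) (nat_lit 5) (nat_lit 203) (nat_lit 5) (nat_lit 198) (nat_lit 5) (nat_lit 681) (nat_lit 604) (nat_lit 275))) (XT.nd (nat_lit 78) (nat_lit 456) (nat_lit 0) (XT.lf (nat_lit 0) (nat_lit 16170671871) (nat_lit 456) (nat_lit 4859417645) (nat_lit 76) (nat_lit 29886810824) (nat_lit 197) (nat_lit 5) (nat_lit 203) (nat_lit 5) (nat_lit 198) (nat_lit 5) (nat_lit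 682) (nat_lit 604) (nat_lit 274)) (XT.lf (nat_lit 0) (nat_lit 26239205967) (nat_lit 456) (nat_lit 1174502779) (nat_lit 532) (nat_lit 24122906735) (nat_lit 191) (nat_lit 5) (nat_lit 197) (nat_lit 5) (nat_lit 198) (nat_lit 5) (nat_lit 683) (nat_lit 604) (nat_lit 273)))))) (XT.nd (nat_lit 75426) (nat_lit 0) (nat_lit 23028) (XT.nd (nat_lit 75114) (nat_lit 0) (nat_lit 22876) (XT.nd (nat_lit 156) (nat_lit 456) (nat_lit 0) (XT.nd (nat_lit 78) (nat_lit 0) (nat_lit 0) (XT.lf (nat_lit 0) (nat_lit 5807948177) (nat_lit 380) (nat_lit 33266899355) (nat_lit 456) (nat_lit 13090012589) (nat_lit 186) (nat_lit 5) (nat_lit 191) (nat_lit 5) (nat_lit 192) (nat_lit 5) (nat_lit 684) (nat_lit 604) (nat_lit 272)) (XT.lf (nat_lit 0) (nat_lit 37868716131) (nat_lit 380) (nat_lit 13276829053) (nat_lit 456) (nat_lit 1656597769) (nat_lit 186) (nat_lit 5) (nat_lit 191) (nat_lit 5) (nat_lit 192) (nat_lit 5) (nat_lit 685) (nat_lit 604) (nat_lit 271))) (XT.nd (nat_lit 74880) (nat_lit 0)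 (nat_lit 22876) (XT.lf (nat_lit 0) (nat_lit 10032662106) (nat_lit 456) (nat_lit 36217536918) (nat_lit 76) (nat_lit 7197505181) (nat_lit 180) (nat_lit 5) (nat_lit 186) (nat_lit 5) (nat_lit 181) (nat_lit 5) (nat_lit 686) (nat_lit 604) (nat_lit 270)) (XT.lf (nat_lit 0) (nat_lit 599704097) (nat_lit 1900) (nat_lit 5186650759) (nat_lit 1900) (nat_lit 5186650759) (nat_lit 481) (nat_lit 3) (nat_lit 506) (nat_lit 3) (nat_lit 506) (nat_lit 5) (nat_lit 605) (nat_lit 605) (nat_lit 350)))) (XT.nd (nat_lit 156) (nat_lit 0) (nat_lit 76) (XT.nd (nat_lit 78) (nat_lit 0) (nat_lit 76) (XT.lf (nat_lit 76) (nat_lit 563038053) (nat_lit 0) (nat_lit 789969291) (nat_lit 1900) (nat_lit 20809627723) (nat_lit 482) (nat_lit 5) (nat_lit 481) (nat_lit 3) (nat_lit 506) (nat_lit 5) (nat_lit 606) (nat_lit 605) (nat_lit 349)) (XT.lf (nat_lit 0) (nat_lit 1642410485) (nat_lit 1824) (nat_lit 10592176943) (nat_lit 1900) (nat_lit 10146349422) (nat_lit 482) (nat_lit 5) (nat_lit 506) (nat_lit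 5) (nat_lit 507) (nat_lit 5) (nat_lit 607) (nat_lit 605) (nat_lit 348))) (XT.nd (nat_lit 78) (nat_lit 0) (nat_lit 76) (XT.lf (nat_lit 76) (nat_lit 636593147) (nat_lit 0) (nat_lit 1306825101) (nat_lit 1900) (nat_lit 20660070197) (nat_lit 483) (nat_lit 5) (nat_lit 482) (nat_lit 5) (nat_lit 507) (nat_lit 5) (nat_lit 608) (nat_lit 605) (nat_lit 347)) (XT.lf (nat_lit 0) (nat_lit 2382399797) (nat_lit 1824) (nat_lit 10661889801) (nat_lit 1900) (nat_lit 9783562505) (nat_lit 483) (nat_lit 5) (nat_lit 507) (nat_lit 5) (nat_lit 508) (nat_lit 5) (nat_lit 609) (nat_lit 605) (nat_lit 346))))) (XT.nd (nat_lit 312) (nat_lit 0) (nat_lit 152) (XT.nd (nat_lit 156) (nat_lit 0) (nat_lit 76) (XT.nd (nat_lit 78) (nat_lit 0) (nat_lit 76) (XT.lf (nat_lit 76) (nat_lit 870027328) (nat_lit 0) (nat_lit 1971024477) (nat_lit 1900) (nat_lit 20215433516) (nat_lit 484) (nat_lit 5) (nat_lit 483) (nat_lit 5) (nat_lit 508) (nat_lit 5) (nat_lit 610) (nat_lit 605) (nat_lit 345)) (XT.lf (nat_lit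 0) (nat_lit 3438084443) (nat_lit 1824) (nat_lit 10574170549) (nat_lit 1900) (nat_lit 9274852162) (nat_lit 484) (nat_lit 5) (nat_lit 508) (nat_lit 5) (nat_lit 509) (nat_lit 5) (nat_lit 611) (nat_lit 605) (nat_lit 344))) (XT.nd (nat_lit 78) (nat_lit 0) (nat_lit 76) (XT.lf (nat_lit 76) (nat_lit 1272023395) (nat_lit 0) (nat_lit 2793063154) (nat_lit 1900) (nat_lit 19456894397) (nat_lit 485) (nat_lit 5) (nat_lit 484) (nat_lit 5) (nat_lit 509) (nat_lit 5) (nat_lit 612) (nat_lit 605) (nat_lit 343)) (XT.lf (nat_lit 0) (nat_lit 4828998547) (nat_lit 1824) (nat_lit 10320319929) (nat_lit 1900) (nat_lit 8609746437) (nat_lit 485) (nat_lit 5) (nat_lit 509) (nat_lit 5) (nat_lit 510) (nat_lit 5) (nat_lit 613) (nat_lit 605) (nat_lit 342)))) (XT.nd (nat_lit 156) (nat_lit 0) (nat_lit 76) (XT.nd (nat_lit 78) (nat_lit 0) (nat_lit 76) (XT.lf (nat_lit 76) (nat_lit 1851709650) (nat_lit 0) (nat_lit 3783838781) (nat_lit 1900) (nat_lit 18364795032) (nat_lit 486) (nat_lit 5) (nat_lit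 485) (nat_lit 5) (nat_lit 510) (nat_lit 5) (nat_lit 614) (nat_lit 605) (nat_lit 341)) (XT.lf (nat_lit 0) (nat_lit 6575540129) (nat_lit 1824) (nat_lit 9891193327) (nat_lit 1900) (nat_lit 7777368005) (nat_lit 486) (nat_lit 5) (nat_lit 510) (nat_lit 5) (nat_lit 511) (nat_lit 5) (nat_lit 615) (nat_lit 605) (nat_lit 340))) (XT.nd (nat_lit 78) (nat_lit 0) (nat_lit 76) (XT.lf (nat_lit 76) (nat_lit 2618676172) (nat_lit 0) (nat_lit 4954673568) (nat_lit 1900) (nat_lit 16918604607) (nat_lit 487) (nat_lit 5) (nat_lit 486) (nat_lit 5) (nat_lit 511) (nat_lit 5) (nat_lit 616) (nat_lit 605) (nat_lit 339)) (XT.lf (nat_lit 0) (nat_lit 8699010610) (nat_lit 1824) (nat_lit 9277184350) (nat_lit 1900) (nat_lit 6766411522) (nat_lit 487) (nat_lit 5) (nat_lit 511) (nat_lit 5) (nat_lit 512) (nat_lit 5) (nat_lit 617) (nat_lit 605) (nat_lit 338))))))))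
noncomputable def xc214 : XT := (XT.nd (nat_lit 2418) (nat_lit 10868) (nat_lit 0) (XT.nd (nat_lit 1170) (nat_lit 7676) (nat_lit 0) (XT.nd (nat_lit 546) (nat_lit 2584) (nat_lit 0) (XT.nd (nat_lit 234) (nat_lit 0) (nat_lit 152) (XT.nd (nat_lit 78) (nat_lit 0) (nat_lit 76) (XT.lf (nat_lit 76) (nat_lit 3582991900) (nat_lit 0) (nat_lit 6317337579) (nat_lit 1900) (nat_lit 15096879372) (nat_lit 488) (nat_lit 5) (nat_lit 487) (nat_lit 5) (nat_lit 512) (nat_lit 5) (nat_lit 618) (nat_lit 605) (nat_lit 337)) (XT.nd (nat_lit 78) (nat_lit 0) (nat_lit 0) (XT.lf (nat_lit 0) (nat_lit 11221655813) (nat_lit 1824) (nat_lit 8468207613) (nat_lit 1900) (nat_lit 5565120307) (nat_lit 488) (nat_lit 5) (nat_lit 512) (nat_lit 5) (nat_lit 513) (nat_lit 5) (nat_lit 619) (nat_lit 605) (nat_lit 336)) (XT.lf (nat_lit 76) (nat_lit 4755222525) (nat_lit 0) (nat_lit 7884072745) (nat_lit 1900) (nat_lit 12877221194) (nat_lit 489) (nat_lit 5) (nat_lit 488) (nat_lit 5) (nat_lit 513) (nat_lit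 5) (nat_lit 620) (nat_lit 605) (nat_lit 335)))) (XT.nd (nat_lit 156) (nat_lit 0) (nat_lit 76) (XT.nd (nat_lit 78) (nat_lit 0) (nat_lit 0) (XT.lf (nat_lit 0) (nat_lit 14166708530) (nat_lit 1824) (nat_lit 7453680692) (nat_lit 1900) (nat_lit 4161262290) (nat_lit 489) (nat_lit 5) (nat_lit 513) (nat_lit 5) (nat_lit 514) (nat_lit 5) (nat_lit 621) (nat_lit 605) (nat_lit 334)) (XT.lf (nat_lit 76) (nat_lit 6146449235) (nat_lit 0) (nat_lit 9667617632) (nat_lit 1900) (nat_lit 10236234540) (nat_lit 490) (nat_lit 5) (nat_lit 489) (nat_lit 5) (nat_lit 514) (nat_lit 5) (nat_lit 622) (nat_lit 605) (nat_lit 333))) (XT.nd (nat_lit 78) (nat_lit 0) (nat_lit 0) (XT.lf (nat_lit 0) (nat_lit 17558432710) (nat_lit 1824) (nat_lit 6222505252) (nat_lit 1900) (nat_lit 2542105211) (nat_lit 490) (nat_lit 5) (nat_lit 514) (nat_lit 5) (nat_lit 515) (nat_lit 5) (nat_lit 623) (nat_lit 605) (nat_lit 332)) (XT.lf (nat_lit 76) (nat_lit 7768288331) (nat_lit 0) (nat_lit 11681233013) (nat_lit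 1900) (nat_lit 7149481798) (nat_lit 491) (nat_lit 5) (nat_lit 490) (nat_lit 5) (nat_lit 515) (nat_lit 5) (nat_lit 624) (nat_lit 605) (nat_lit 331))))) (XT.nd (nat_lit 312) (nat_lit 1064) (nat_lit 0) (XT.nd (nat_lit 156) (nat_lit 1824) (nat_lit 0) (XT.nd (nat_lit 78) (nat_lit 0) (nat_lit 0) (XT.lf (nat_lit 0) (nat_lit 21422169363) (nat_lit 1824) (nat_lit 4763047285) (nat_lit 1900) (nat_lit 694390988) (nat_lit 491) (nat_lit 5) (nat_lit 515) (nat_lit 5) (nat_lit 516) (nat_lit 5) (nat_lit 625) (nat_lit 605) (nat_lit 330)) (XT.lf (nat_lit 76) (nat_lit 9632911738) (nat_lit 0) (nat_lit 13938728281) (nat_lit 1900) (nat_lit 3591436883) (nat_lit 492) (nat_lit 5) (nat_lit 491) (nat_lit 5) (nat_lit 516) (nat_lit 5) (nat_lit 626) (nat_lit 605) (nat_lit 329))) (XT.nd (nat_lit 78) (nat_lit 1824) (nat_lit 0) (XT.lf (nat_lit 76) (nat_lit 24379327658) (nat_lit 0) (nat_lit 1414238753) (nat_lit 1900) (nat_lit 1658059888) (nat_lit 492) (nat_lit 5) (nat_lit 491) (nat_lit 5)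 (nat_lit 516) (nat_lit 5) (nat_lit 627) (nat_lit 605) (nat_lit 328)) (XT.lf (nat_lit 0) (nat_lit 458470146) (nat_lit 1900) (nat_lit 15992942050) (nat_lit 1976) (nat_lit 11291521719) (nat_lit 467) (nat_lit 5) (nat_lit 492) (nat_lit 5) (nat_lit 493) (nat_lit 5) (nat_lit 628) (nat_lit 605) (nat_lit 327)))) (XT.nd (nat_lit 156) (nat_lit 1064) (nat_lit 0) (XT.nd (nat_lit 78) (nat_lit 0) (nat_lit 76) (XT.lf (nat_lit 0) (nat_lit 2622843661) (nat_lit 1900) (nat_lit 1151822033) (nat_lit 1976) (nat_lit 24264628575) (nat_lit 467) (nat_lit 5) (nat_lit 492) (nat_lit 5) (nat_lit 493) (nat_lit 5) (nat_lit 629) (nat_lit 605) (nat_lit 326)) (XT.lf (nat_lit 0) (nat_lit 4980183284) (nat_lit 1900) (nat_lit 14229901097) (nat_lit 76) (nat_lit 9128503946) (nat_lit 468) (nat_lit 5) (nat_lit 493) (nat_lit 5) (nat_lit 469) (nat_lit 5) (nat_lit 630) (nat_lit 605) (nat_lit 325))) (XT.nd (nat_lit 78) (nat_lit 0) (nat_lit 0) (XT.lf (nat_lit 0) (nat_lit 1032748618) (nat_lit 1140) (nat_lit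 6389062512) (nat_lit 1216) (nat_lit 21221314375) (nat_lit 453) (nat_lit 5) (nat_lit 468) (nat_lit 5) (nat_lit 469) (nat_lit 5) (nat_lit 631) (nat_lit 605) (nat_lit 324)) (XT.lf (nat_lit 0) (nat_lit 10049511709) (nat_lit 1216) (nat_lit 12204447864) (nat_lit 76) (nat_lit 6697049113) (nat_lit 453) (nat_lit 5) (nat_lit 469) (nat_lit 5) (nat_lit 454) (nat_lit 5) (nat_lit 632) (nat_lit 605) (nat_lit 323)))))) (XT.nd (nat_lit 624) (nat_lit 4028) (nat_lit 0) (XT.nd (nat_lit 312) (nat_lit 1824) (nat_lit 0) (XT.nd (nat_lit 156) (nat_lit 912) (nat_lit 0) (XT.nd (nat_lit 78) (nat_lit 0) (nat_lit 0) (XT.lf (nat_lit 0) (nat_lit 3511292395) (nat_lit 912) (nat_lit 9281320734) (nat_lit 988) (nat_lit 16471179532) (nat_lit 441) (nat_lit 5) (nat_lit 453) (nat_lit 5) (nat_lit 454) (nat_lit 5) (nat_lit 633) (nat_lit 605) (nat_lit 322)) (XT.lf (nat_lit 0) (nat_lit 15696438206) (nat_lit 988) (nat_lit 9902685194) (nat_lit 76) (nat_lit 3981591744) (nat_lit 441) (nat_lit 5) (nat_lit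 454) (nat_lit 5) (nat_lit 442) (nat_lit 5) (nat_lit 634) (nat_lit 605) (nat_lit 321))) (XT.nd (nat_lit 78) (nat_lit 0) (nat_lit 0) (XT.lf (nat_lit 0) (nat_lit 6283024841) (nat_lit 912) (nat_lit 12475387896) (nat_lit 988) (nat_lit 11143561943) (nat_lit 429) (nat_lit 5) (nat_lit 441) (nat_lit 5) (nat_lit 442) (nat_lit 5) (nat_lit 635) (nat_lit 605) (nat_lit 320)) (XT.lf (nat_lit 0) (nat_lit 21952276995) (nat_lit 988) (nat_lit 7310070794) (nat_lit 76) (nat_lit 965898674) (nat_lit 429) (nat_lit 5) (nat_lit 442) (nat_lit 5) (nat_lit 430) (nat_lit 5) (nat_lit 636) (nat_lit 605) (nat_lit 319)))) (XT.nd (nat_lit 156) (nat_lit 988) (nat_lit 0) (XT.nd (nat_lit 78) (nat_lit 0) (nat_lit 0) (XT.lf (nat_lit 0) (nat_lit 9363137909) (nat_lit 836) (nat_lit 15988177322) (nat_lit 912) (nat_lit 5206902574) (nat_lit 418) (nat_lit 5) (nat_lit 429) (nat_lit 5) (nat_lit 430) (nat_lit 5) (nat_lit 637) (nat_lit 605) (nat_lit 318)) (XT.lf (nat_lit 0) (nat_lit 26466885371) (nat_lit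 836) (nat_lit 2398418170) (nat_lit 912) (nat_lit 2028545706) (nat_lit 418) (nat_lit 5) (nat_lit 429) (nat_lit 5) (nat_lit 430) (nat_lit 5) (nat_lit 638) (nat_lit 605) (nat_lit 317))) (XT.nd (nat_lit 78) (nat_lit 0) (nat_lit 0) (XT.lf (nat_lit 0) (nat_lit 1353770599) (nat_lit 988) (nat_lit 18474474936) (nat_lit 76) (nat_lit 11404664159) (nat_lit 405) (nat_lit 5) (nat_lit 418) (nat_lit 5) (nat_lit 406) (nat_lit 5) (nat_lit 639) (nat_lit 605) (nat_lit 316)) (XT.lf (nat_lit 0) (nat_lit 4820353820) (nat_lit 988) (nat_lit 1262152536) (nat_lit 76) (nat_lit 25495101218) (nat_lit 405) (nat_lit 5) (nat_lit 418) (nat_lit 5) (nat_lit 406) (nat_lit 5) (nat_lit 640) (nat_lit 605) (nat_lit 315))))) (XT.nd (nat_lit 312) (nat_lit 1596) (nat_lit 0) (XT.nd (nat_lit 156) (nat_lit 760) (nat_lit 0) (XT.nd (nat_lit 78) (nat_lit 836) (nat_lit 0) (XT.lf (nat_lit 0) (nat_lit 8513714948) (nat_lit 912) (nat_lit 15470402186) (nat_lit 76) (nat_lit 7941933405) (nat_lit 394) (nat_lit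 5) (nat_lit 406) (nat_lit 5) (nat_lit 395) (nat_lit 5) (nat_lit 641) (nat_lit 605) (nat_lit 314)) (XT.lf (nat_lit 0) (nat_lit 2250785665) (nat_lit 836) (nat_lit 10091614292) (nat_lit 912) (nat_lit 19937833328) (nat_lit 383) (nat_lit 5) (nat_lit 394) (nat_lit 5) (nat_lit 395) (nat_lit 5) (nat_lit 642) (nat_lit 605) (nat_lit 313))) (XT.nd (nat_lit 78) (nat_lit 760) (nat_lit 0) (XT.lf (nat_lit 0) (nat_lit 16376703442) (nat_lit 912) (nat_lit 12132532572) (nat_lit 76) (nat_lit 4129682827) (nat_lit 383) (nat_lit 5) (nat_lit 395) (nat_lit 5) (nat_lit 384) (nat_lit 5) (nat_lit 643) (nat_lit 605) (nat_lit 312)) (XT.lf (nat_lit 0) (nat_lit 6133934157) (nat_lit 760) (nat_lit 14462515159) (nat_lit 836) (nat_lit 12406233716) (nat_lit 373) (nat_lit 5) (nat_lit 383) (nat_lit 5) (nat_lit 384) (nat_lit 5) (nat_lit 644) (nat_lit 605) (nat_lit 311)))) (XT.nd (nat_lit 156) (nat_lit 836) (nat_lit 0) (XT.nd (nat_lit 78) (nat_lit 760) (nat_lit 0) (XT.lf (nat_lit 0) (nat_lit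 24928200680) (nat_lit 760) (nat_lit 51928337) (nat_lit 836) (nat_lit 8392002762) (nat_lit 373) (nat_lit 5) (nat_lit 383) (nat_lit 5) (nat_lit 384) (nat_lit 5) (nat_lit 645) (nat_lit 605) (nat_lit 310)) (XT.lf (nat_lit 0) (nat_lit 10388547158) (nat_lit 760) (nat_lit 19223641002) (nat_lit 836) (nat_lit 4133567271) (nat_lit 363) (nat_lit 5) (nat_lit 373) (nat_lit 5) (nat_lit 374) (nat_lit 5) (nat_lit 646) (nat_lit 605) (nat_lit 309))) (XT.nd (nat_lit 78) (nat_lit 760) (nat_lit 0) (XT.lf (nat_lit 0) (nat_lit 262835139) (nat_lit 836) (nat_lit 4417664085) (nat_lit 76) (nat_lit 29445214049) (nat_lit 362) (nat_lit 5) (nat_lit 373) (nat_lit 5) (nat_lit 363) (nat_lit 5) (nat_lit 647) (nat_lit 605) (nat_lit 308)) (XT.lf (nat_lit 0) (nat_lit 4854664444) (nat_lit 836) (nat_lit 19508583226) (nat_lit 76) (nat_lit 10146219243) (nat_lit 352) (nat_lit 5) (nat_lit 363) (nat_lit 5) (nat_lit 353) (nat_lit 5) (nat_lit 648) (nat_lit 605) (nat_lit 307))))))) (XT.nd (nat_lit 1170)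 (nat_lit 4788) (nat_lit 0) (XT.nd (nat_lit 546) (nat_lit 3192) (nat_lit 0) (XT.nd (nat_lit 234) (nat_lit 1444) (nat_lit 0) (XT.nd (nat_lit 78) (nat_lit 1444) (nat_lit 0) (XT.lf (nat_lit 0) (nat_lit 9597395982) (nat_lit 836) (nat_lit 65790633) (nat_lit 76) (nat_lit 25236527743) (nat_lit 352) (nat_lit 5) (nat_lit 363) (nat_lit 5) (nat_lit 353) (nat_lit 5) (nat_lit 649) (nat_lit 605) (nat_lit 306)) (XT.nd (nat_lit 78) (nat_lit 684) (nat_lit 0) (XT.lf (nat_lit 0) (nat_lit 14598741810) (nat_lit 836) (nat_lit 15304103615) (nat_lit 76) (nat_lit 5391646177) (nat_lit 342) (nat_lit 5) (nat_lit 353) (nat_lit 5) (nat_lit 343) (nat_lit 5) (nat_lit 650) (nat_lit 605) (nat_lit 305)) (XT.lf (nat_lit 0) (nat_lit 4747734986) (nat_lit 684) (nat_lit 15045926746) (nat_lit 760) (nat_lit 15901631760) (nat_lit 333) (nat_lit 5) (nat_lit 342) (nat_lit 5) (nat_lit 343) (nat_lit 5) (nat_lit 651) (nat_lit 605) (nat_lit 304)))) (XT.nd (nat_lit 156) (nat_lit 760) (nat_lit 0) (XT.nd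 (nat_lit 78) (nat_lit 684) (nat_lit 0) (XT.lf (nat_lit 0) (nat_lit 25194862910) (nat_lit 760) (nat_lit 10697358843) (nat_lit 76) (nat_lit 209842051) (nat_lit 333) (nat_lit 5) (nat_lit 343) (nat_lit 5) (nat_lit 334) (nat_lit 5) (nat_lit 652) (nat_lit 605) (nat_lit 303)) (XT.lf (nat_lit 0) (nat_lit 9987245543) (nat_lit 684) (nat_lit 20879663671) (nat_lit 760) (nat_lit 5646803927) (nat_lit 324) (nat_lit 5) (nat_lit 333) (nat_lit 5) (nat_lit 334) (nat_lit 5) (nat_lit 653) (nat_lit 605) (nat_lit 302))) (XT.nd (nat_lit 78) (nat_lit 760) (nat_lit 0) (XT.lf (nat_lit 0) (nat_lit 31228618415) (nat_lit 684) (nat_lit 5493918436) (nat_lit 760) (nat_lit 209655847) (nat_lit 324) (nat_lit 5) (nat_lit 333) (nat_lit 5) (nat_lit 334) (nat_lit 5) (nat_lit 654) (nat_lit 605) (nat_lit 301)) (XT.lf (nat_lit 0) (nat_lit 5433720114) (nat_lit 760) (nat_lit 21718273026) (nat_lit 76) (nat_lit 10203006407) (nat_lit 314) (nat_lit 5) (nat_lit 324) (nat_lit 5) (nat_lit 315) (nat_lit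 5) (nat_lit 655) (nat_lit 605) (nat_lit 300))))) (XT.nd (nat_lit 312) (nat_lit 1900) (nat_lit 0) (XT.nd (nat_lit 156) (nat_lit 608) (nat_lit 0) (XT.nd (nat_lit 78) (nat_lit 684) (nat_lit 0) (XT.lf (nat_lit 0) (nat_lit 11260464532) (nat_lit 760) (nat_lit 344306238) (nat_lit 76) (nat_lit 26179997918) (nat_lit 314) (nat_lit 5) (nat_lit 324) (nat_lit 5) (nat_lit 315) (nat_lit 5) (nat_lit 656) (nat_lit 605) (nat_lit 299)) (XT.lf (nat_lit 0) (nat_lit 17371871430) (nat_lit 760) (nat_lit 16508514071) (nat_lit 76) (nat_lit 4339385197) (nat_lit 305) (nat_lit 5) (nat_lit 315) (nat_lit 5) (nat_lit 306) (nat_lit 5) (nat_lit 657) (nat_lit 605) (nat_lit 298))) (XT.nd (nat_lit 78) (nat_lit 0) (nat_lit 0) (XT.lf (nat_lit 0) (nat_lit 5543092719) (nat_lit 608) (nat_lit 18176024352) (nat_lit 684) (nat_lit 14942083503) (nat_lit 297) (nat_lit 5) (nat_lit 305) (nat_lit 5) (nat_lit 306) (nat_lit 5) (nat_lit 658) (nat_lit 605) (nat_lit 297)) (XT.lf (nat_lit 0) (nat_lit 28257612236)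 (nat_lit 608) (nat_lit 2044937037) (nat_lit 684) (nat_lit 8806724977) (nat_lit 297) (nat_lit 5) (nat_lit 305) (nat_lit 5) (nat_lit 306) (nat_lit 5) (nat_lit 659) (nat_lit 605) (nat_lit 296)))) (XT.nd (nat_lit 156) (nat_lit 1216) (nat_lit 0) (XT.nd (nat_lit 78) (nat_lit 76) (nat_lit 0) (XT.lf (nat_lit 0) (nat_lit 11921020351) (nat_lit 608) (nat_lit 25266068979) (nat_lit 684) (nat_lit 2375831322) (nat_lit 289) (nat_lit 5) (nat_lit 297) (nat_lit 5) (nat_lit 298) (nat_lit 5) (nat_lit 660) (nat_lit 605) (nat_lit 295)) (XT.lf (nat_lit 0) (nat_lit 4214152000) (nat_lit 684) (nat_lit 4771013199) (nat_lit 76) (nat_lit 31038224720) (nat_lit 288) (nat_lit 5) (nat_lit 297) (nat_lit 5) (nat_lit 289) (nat_lit 5) (nat_lit 661) (nat_lit 605) (nat_lit 294))) (XT.nd (nat_lit 78) (nat_lit 608) (nat_lit 0) (XT.lf (nat_lit 0) (nat_lit 11075042176) (nat_lit 684) (nat_lit 21754653689) (nat_lit 76) (nat_lit 7659640265) (nat_lit 280) (nat_lit 5) (nat_lit 289) (nat_lit 5) (nat_lit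 281) (nat_lit 5) (nat_lit 662) (nat_lit 605) (nat_lit 293)) (XT.lf (nat_lit 0) (nat_lit 1772866122) (nat_lit 608) (nat_lit 16402067249) (nat_lit 684) (nat_lit 22787632261) (nat_lit 272) (nat_lit 5) (nat_lit 280) (nat_lit 5) (nat_lit 281) (nat_lit 5) (nat_lit 663) (nat_lit 605) (nat_lit 292)))))) (XT.nd (nat_lit 624) (nat_lit 2508) (nat_lit 0) (XT.nd (nat_lit 312) (nat_lit 1064) (nat_lit 0) (XT.nd (nat_lit 156) (nat_lit 684) (nat_lit 0) (XT.nd (nat_lit 78) (nat_lit 532) (nat_lit 0) (XT.lf (nat_lit 0) (nat_lit 25564627497) (nat_lit 684) (nat_lit 15381665734) (nat_lit 76) (nat_lit 496010425) (nat_lit 272) (nat_lit 5) (nat_lit 281) (nat_lit 5) (nat_lit 273) (nat_lit 5) (nat_lit 664) (nat_lit 605) (nat_lit 291)) (XT.lf (nat_lit 0) (nat_lit 8908898376) (nat_lit 532) (nat_lit 24358264916) (nat_lit 608) (nat_lit 8661172223) (nat_lit 265) (nat_lit 5) (nat_lit 272) (nat_lit 5) (nat_lit 273) (nat_lit 5) (nat_lit 665) (nat_lit 605) (nat_lit 290))) (XT.nd (nat_lit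 78) (nat_lit 684) (nat_lit 0) (XT.lf (nat_lit 0) (nat_lit 33891939279) (nat_lit 532) (nat_lit 7333627816) (nat_lit 608) (nat_lit 1196484601) (nat_lit 265) (nat_lit 5) (nat_lit 272) (nat_lit 5) (nat_lit 273) (nat_lit 5) (nat_lit 666) (nat_lit 605) (nat_lit 289)) (XT.lf (nat_lit 0) (nat_lit 6505996774) (nat_lit 684) (nat_lit 26365263626) (nat_lit 76) (nat_lit 10050095166) (nat_lit 256) (nat_lit 5) (nat_lit 265) (nat_lit 5) (nat_lit 257) (nat_lit 5) (nat_lit 667) (nat_lit 605) (nat_lit 288)))) (XT.nd (nat_lit 156) (nat_lit 532) (nat_lit 0) (XT.nd (nat_lit 78) (nat_lit 532) (nat_lit 0) (XT.lf (nat_lit 0) (nat_lit 14451338635) (nat_lit 684) (nat_lit 1228554249) (nat_lit 76) (nat_lit 27748497847) (nat_lit 256) (nat_lit 5) (nat_lit 265) (nat_lit 5) (nat_lit 257) (nat_lit 5) (nat_lit 668) (nat_lit 605) (nat_lit 287)) (XT.lf (nat_lit 0) (nat_lit 22727935866) (nat_lit 608) (nat_lit 19222010927) (nat_lit 76) (nat_lit 1992172864) (nat_lit 249) (nat_lit 5) (nat_lit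 257) (nat_lit 5) (nat_lit 250) (nat_lit 5) (nat_lit 669) (nat_lit 605) (nat_lit 286))) (XT.nd (nat_lit 78) (nat_lit 0) (nat_lit 0) (XT.lf (nat_lit 0) (nat_lit 6720882808) (nat_lit 532) (nat_lit 24603625663) (nat_lit 608) (nat_lit 13138525850) (nat_lit 242) (nat_lit 5) (nat_lit 249) (nat_lit 5) (nat_lit 250) (nat_lit 5) (nat_lit 670) (nat_lit 605) (nat_lit 285)) (XT.lf (nat_lit 0) (nat_lit 33441397828) (nat_lit 532) (nat_lit 6779286776) (nat_lit 608) (nat_lit 4771129259) (nat_lit 242) (nat_lit 5) (nat_lit 249) (nat_lit 5) (nat_lit 250) (nat_lit 5) (nat_lit 671) (nat_lit 605) (nat_lit 284))))) (XT.nd (nat_lit 312) (nat_lit 988) (nat_lit 0) (XT.nd (nat_lit 156) (nat_lit 988) (nat_lit 0) (XT.nd (nat_lit 78) (nat_lit 0) (nat_lit 0) (XT.lf (nat_lit 0) (nat_lit 3887397256) (nat_lit 532) (nat_lit 30263430310) (nat_lit 76) (nat_lit 11376389891) (nat_lit 235) (nat_lit 5) (nat_lit 242) (nat_lit 5) (nat_lit 236) (nat_lit 5) (nat_lit 672) (nat_lit 605) (nat_lit 283))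 (XT.lf (nat_lit 0) (nat_lit 12776897654) (nat_lit 532) (nat_lit 3379730778) (nat_lit 76) (nat_lit 29913636196) (nat_lit 235) (nat_lit 5) (nat_lit 242) (nat_lit 5) (nat_lit 236) (nat_lit 5) (nat_lit 673) (nat_lit 605) (nat_lit 282))) (XT.nd (nat_lit 78) (nat_lit 456) (nat_lit 0) (XT.lf (nat_lit 0) (nat_lit 22016392498) (nat_lit 608) (nat_lit 22276980212) (nat_lit 76) (nat_lit 2327355969) (nat_lit 228) (nat_lit 5) (nat_lit 236) (nat_lit 5) (nat_lit 229) (nat_lit 5) (nat_lit 674) (nat_lit 605) (nat_lit 281)) (XT.lf (nat_lit 0) (nat_lit 5448305522) (nat_lit 456) (nat_lit 26156319247) (nat_lit 532) (nat_lit 15574298317) (nat_lit 222) (nat_lit 5) (nat_lit 228) (nat_lit 5) (nat_lit 229) (nat_lit 5) (nat_lit 675) (nat_lit 605) (nat_lit 280)))) (XT.nd (nat_lit 156) (nat_lit 456) (nat_lit 0) (XT.nd (nat_lit 78) (nat_lit 532) (nat_lit 0) (XT.lf (nat_lit 0) (nat_lit 34028314638) (nat_lit 456) (nat_lit 7504556527) (nat_lit 532) (nat_lit 6212445251) (nat_lit 222) (nat_lit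 5) (nat_lit 228) (nat_lit 5) (nat_lit 229) (nat_lit 5) (nat_lit 676) (nat_lit 605) (nat_lit 279)) (XT.lf (nat_lit 0) (nat_lit 3464831869) (nat_lit 532) (nat_lit 33365643301) (nat_lit 76) (nat_lit 11488690237) (nat_lit 215) (nat_lit 5) (nat_lit 222) (nat_lit 5) (nat_lit 216) (nat_lit 5) (nat_lit 677) (nat_lit 605) (nat_lit 278))) (XT.nd (nat_lit 78) (nat_lit 456) (nat_lit 0) (XT.lf (nat_lit 0) (nat_lit 13393689560) (nat_lit 532) (nat_lit 4612451155) (nat_lit 76) (nat_lit 30894705008) (nat_lit 215) (nat_lit 5) (nat_lit 222) (nat_lit 5) (nat_lit 216) (nat_lit 5) (nat_lit 678) (nat_lit 605) (nat_lit 277)) (XT.lf (nat_lit 0) (nat_lit 23691355990) (nat_lit 532) (nat_lit 24457229474) (nat_lit 76) (nat_lit 1342169573) (nat_lit 209) (nat_lit 5) (nat_lit 216) (nat_lit 5) (nat_lit 210) (nat_lit 5) (nat_lit 679) (nat_lit 605) (nat_lit 276))))))))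
noncomputable def xc215 : XT := (XT.nd (nat_lit 77298) (nat_lit 0) (nat_lit 8436) (XT.nd (nat_lit 76050) (nat_lit 0) (nat_lit 21356) (XT.nd (nat_lit 75426) (nat_lit 0) (nat_lit 22420) (XT.nd (nat_lit 234) (nat_lit 836) (nat_lit 0) (XT.nd (nat_lit 78) (nat_lit 456) (nat_lit 0) (XT.lf (nat_lit 0) (nat_lit 5189999241) (nat_lit 456) (nat_lit 29187894088) (nat_lit 532) (nat_lit 15710910876) (nat_lit 203) (nat_lit 5) (nat_lit 209) (nat_lit 5) (nat_lit 210) (nat_lit 5) (nat_lit 680) (nat_lit 605) (nat_lit 275)) (XT.nd (nat_lit 78) (nat_lit 456) (nat_lit 0) (XT.lf (nat_lit 0) (nat_lit 35759989126) (nat_lit 456) (nat_lit 9681123013) (nat_lit 532) (nat_lit 5254443226) (nat_lit 203) (nat_lit 5) (nat_lit 209) (nat_lit 5) (nat_lit 210) (nat_lit 5) (nat_lit 681) (nat_lit 605) (nat_lit 274)) (XT.lf (nat_lit 0) (nat_lit 5508833320) (nat_lit 456) (nat_lit 35581647357) (nat_lit 76) (nat_lit 10219885280) (nat_lit 197) (nat_lit 5) (nat_lit 203) (nat_lit 5) (nat_lit 198) (nat_lit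 5) (nat_lit 682) (nat_lit 605) (nat_lit 273)))) (XT.nd (nat_lit 156) (nat_lit 380) (nat_lit 0) (XT.nd (nat_lit 78) (nat_lit 456) (nat_lit 0) (XT.lf (nat_lit 0) (nat_lit 16580940261) (nat_lit 456) (nat_lit 4827996127) (nat_lit 76) (nat_lit 30524563319) (nat_lit 197) (nat_lit 5) (nat_lit 203) (nat_lit 5) (nat_lit 198) (nat_lit 5) (nat_lit 683) (nat_lit 605) (nat_lit 272)) (XT.lf (nat_lit 0) (nat_lit 26891753840) (nat_lit 456) (nat_lit 1156210522) (nat_lit 532) (nat_lit 24517662289) (nat_lit 191) (nat_lit 5) (nat_lit 197) (nat_lit 5) (nat_lit 198) (nat_lit 5) (nat_lit 684) (nat_lit 605) (nat_lit 271))) (XT.nd (nat_lit 78) (nat_lit 0) (nat_lit 0) (XT.lf (nat_lit 0) (nat_lit 6052470665) (nat_lit 380) (nat_lit 33889268728) (nat_lit 456) (nat_lit 13264708550) (nat_lit 186) (nat_lit 5) (nat_lit 191) (nat_lit 5) (nat_lit 192) (nat_lit 5) (nat_lit 685) (nat_lit 605) (nat_lit 270)) (XT.lf (nat_lit 0) (nat_lit 38751937047) (nat_lit 380) (nat_lit 13500239542) (nat_lit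 456) (nat_lit 1604333361) (nat_lit 186) (nat_lit 5) (nat_lit 191) (nat_lit 5) (nat_lit 192) (nat_lit 5) (nat_lit 686) (nat_lit 605) (nat_lit 269))))) (XT.nd (nat_lit 312) (nat_lit 0) (nat_lit 152) (XT.nd (nat_lit 156) (nat_lit 0) (nat_lit 76) (XT.nd (nat_lit 78) (nat_lit 0) (nat_lit 0) (XT.lf (nat_lit 0) (nat_lit 748751972) (nat_lit 1900) (nat_lit 5220484266) (nat_lit 1900) (nat_lit 5220484266) (nat_lit 481) (nat_lit 3) (nat_lit 506) (nat_lit 3) (nat_lit 506) (nat_lit 5) (nat_lit 606) (nat_lit 606) (nat_lit 348)) (XT.lf (nat_lit 76) (nat_lit 713178100) (nat_lit 0) (nat_lit 936524015) (nat_lit 1900) (nat_lit 20950784829) (nat_lit 482) (nat_lit 5) (nat_lit 481) (nat_lit 3) (nat_lit 506) (nat_lit 5) (nat_lit 607) (nat_lit 606) (nat_lit 347))) (XT.nd (nat_lit 78) (nat_lit 0) (nat_lit 0) (XT.lf (nat_lit 0) (nat_lit 1938774060) (nat_lit 1824) (nat_lit 10661737088) (nat_lit 1900) (nat_lit 10222766158) (nat_lit 482) (nat_lit 5) (nat_lit 506) (nat_lit 5) (nat_lit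 507) (nat_lit 5) (nat_lit 608) (nat_lit 606) (nat_lit 346)) (XT.lf (nat_lit 76) (nat_lit 790672328) (nat_lit 0) (nat_lit 1450880403) (nat_lit 1900) (nat_lit 20808812343) (nat_lit 483) (nat_lit 5) (nat_lit 482) (nat_lit 5) (nat_lit 507) (nat_lit 5) (nat_lit 609) (nat_lit 606) (nat_lit 345)))) (XT.nd (nat_lit 156) (nat_lit 0) (nat_lit 76) (XT.nd (nat_lit 78) (nat_lit 0) (nat_lit 0) (XT.lf (nat_lit 0) (nat_lit 2683479667) (nat_lit 1824) (nat_lit 10730709887) (nat_lit 1900) (nat_lit 9865143291) (nat_lit 483) (nat_lit 5) (nat_lit 507) (nat_lit 5) (nat_lit 508) (nat_lit 5) (nat_lit 610) (nat_lit 606) (nat_lit 344)) (XT.lf (nat_lit 76) (nat_lit 1030895468) (nat_lit 0) (nat_lit 2116371481) (nat_lit 1900) (nat_lit 20365352683) (nat_lit 484) (nat_lit 5) (nat_lit 483) (nat_lit 5) (nat_lit 508) (nat_lit 5) (nat_lit 611) (nat_lit 606) (nat_lit 343))) (XT.nd (nat_lit 78) (nat_lit 0) (nat_lit 0) (XT.lf (nat_lit 0) (nat_lit 3750675899) (nat_lit 1824) (nat_lit 10639427750)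 (nat_lit 1900) (nat_lit 9357861687) (nat_lit 484) (nat_lit 5) (nat_lit 508) (nat_lit 5) (nat_lit 509) (nat_lit 5) (nat_lit 612) (nat_lit 606) (nat_lit 342)) (XT.lf (nat_lit 76) (nat_lit 1442728059) (nat_lit 0) (nat_lit 2943652164) (nat_lit 1900) (nat_lit 19601233281) (nat_lit 485) (nat_lit 5) (nat_lit 484) (nat_lit 5) (nat_lit 509) (nat_lit 5) (nat_lit 613) (nat_lit 606) (nat_lit 341)))))) (XT.nd (nat_lit 624) (nat_lit 1368) (nat_lit 0) (XT.nd (nat_lit 312) (nat_lit 0) (nat_lit 152) (XT.nd (nat_lit 156) (nat_lit 0) (nat_lit 76) (XT.nd (nat_lit 78) (nat_lit 0) (nat_lit 0) (XT.lf (nat_lit 0) (nat_lit 5160261761) (nat_lit 1824) (nat_lit 10378994669) (nat_lit 1900) (nat_lit 8690289036) (nat_lit 485) (nat_lit 5) (nat_lit 509) (nat_lit 5) (nat_lit 510) (nat_lit 5) (nat_lit 614) (nat_lit 606) (nat_lit 340)) (XT.lf (nat_lit 76) (nat_lit 2035503582) (nat_lit 0) (nat_lit 3943790290) (nat_lit 1900) (nat_lit 18496428829) (nat_lit 486) (nat_lit 5) (nat_lit 485) (nat_lit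 5) (nat_lit 510) (nat_lit 5) (nat_lit 615) (nat_lit 606) (nat_lit 339))) (XT.nd (nat_lit 78) (nat_lit 0) (nat_lit 0) (XT.lf (nat_lit 0) (nat_lit 6933018878) (nat_lit 1824) (nat_lit 9940061764) (nat_lit 1900) (nat_lit 7851376684) (nat_lit 486) (nat_lit 5) (nat_lit 510) (nat_lit 5) (nat_lit 511) (nat_lit 5) (nat_lit 616) (nat_lit 606) (nat_lit 338)) (XT.lf (nat_lit 76) (nat_lit 2819025155) (nat_lit 0) (nat_lit 5128289538) (nat_lit 1900) (nat_lit 17030022112) (nat_lit 487) (nat_lit 5) (nat_lit 486) (nat_lit 5) (nat_lit 511) (nat_lit 5) (nat_lit 617) (nat_lit 606) (nat_lit 337)))) (XT.nd (nat_lit 156) (nat_lit 0) (nat_lit 76) (XT.nd (nat_lit 78) (nat_lit 0) (nat_lit 0) (XT.lf (nat_lit 0) (nat_lit 9090651711) (nat_lit 1824) (nat_lit 9312810450) (nat_lit 1900) (nat_lit 6829636692) (nat_lit 487) (nat_lit 5) (nat_lit 511) (nat_lit 5) (nat_lit 512) (nat_lit 5) (nat_lit 618) (nat_lit 606) (nat_lit 336)) (XT.lf (nat_lit 76) (nat_lit 3803583026) (nat_lit 0) (nat_lit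 6509113033) (nat_lit 1900) (nat_lit 15180163358) (nat_lit 488) (nat_lit 5) (nat_lit 487) (nat_lit 5) (nat_lit 512) (nat_lit 5) (nat_lit 619) (nat_lit 606) (nat_lit 335))) (XT.nd (nat_lit 78) (nat_lit 0) (nat_lit 0) (XT.lf (nat_lit 0) (nat_lit 11655829305) (nat_lit 1824) (nat_lit 8486934798) (nat_lit 1900) (nat_lit 5613118210) (nat_lit 488) (nat_lit 5) (nat_lit 512) (nat_lit 5) (nat_lit 513) (nat_lit 5) (nat_lit 620) (nat_lit 606) (nat_lit 334)) (XT.lf (nat_lit 76) (nat_lit 4999972910) (nat_lit 0) (nat_lit 8098707685) (nat_lit 1900) (nat_lit 12924028046) (nat_lit 489) (nat_lit 5) (nat_lit 488) (nat_lit 5) (nat_lit 513) (nat_lit 5) (nat_lit 621) (nat_lit 606) (nat_lit 333))))) (XT.nd (nat_lit 312) (nat_lit 1672) (nat_lit 0) (XT.nd (nat_lit 156) (nat_lit 0) (nat_lit 76) (XT.nd (nat_lit 78) (nat_lit 0) (nat_lit 0) (XT.lf (nat_lit 0) (nat_lit 14652228622) (nat_lit 1824) (nat_lit 7451623065) (nat_lit 1900) (nat_lit 4189383094) (nat_lit 489) (nat_lit 5) (nat_lit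 513) (nat_lit 5) (nat_lit 514) (nat_lit 5) (nat_lit 622) (nat_lit 606) (nat_lit 332)) (XT.lf (nat_lit 76) (nat_lit 6419515176) (nat_lit 0) (nat_lit 9910029309) (nat_lit 1900) (nat_lit 10237773100) (nat_lit 490) (nat_lit 5) (nat_lit 489) (nat_lit 5) (nat_lit 514) (nat_lit 5) (nat_lit 623) (nat_lit 606) (nat_lit 331))) (XT.nd (nat_lit 78) (nat_lit 0) (nat_lit 0) (XT.lf (nat_lit 0) (nat_lit 18104579556) (nat_lit 1824) (nat_lit 6195538365) (nat_lit 1900) (nat_lit 2545480744) (nat_lit 490) (nat_lit 5) (nat_lit 514) (nat_lit 5) (nat_lit 515) (nat_lit 5) (nat_lit 624) (nat_lit 606) (nat_lit 330)) (XT.lf (nat_lit 76) (nat_lit 8074074926) (nat_lit 0) (nat_lit 11956568567) (nat_lit 1900) (nat_lit 7096491385) (nat_lit 491) (nat_lit 5) (nat_lit 490) (nat_lit 5) (nat_lit 515) (nat_lit 5) (nat_lit 625) (nat_lit 606) (nat_lit 329)))) (XT.nd (nat_lit 156) (nat_lit 1824) (nat_lit 0) (XT.nd (nat_lit 78) (nat_lit 0) (nat_lit 0) (XT.lf (nat_lit 0) (nat_lit 22038711678) (nat_lit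 1824) (nat_lit 4706798455) (nat_lit 1900) (nat_lit 667922095) (nat_lit 491) (nat_lit 5) (nat_lit 515) (nat_lit 5) (nat_lit 516) (nat_lit 5) (nat_lit 626) (nat_lit 606) (nat_lit 328)) (XT.lf (nat_lit 76) (nat_lit 9976082973) (nat_lit 0) (nat_lit 14252377790) (nat_lit 1900) (nat_lit 3474164445) (nat_lit 492) (nat_lit 5) (nat_lit 491) (nat_lit 5) (nat_lit 516) (nat_lit 5) (nat_lit 627) (nat_lit 606) (nat_lit 327))) (XT.nd (nat_lit 78) (nat_lit 1824) (nat_lit 0) (XT.lf (nat_lit 76) (nat_lit 25014475976) (nat_lit 0) (nat_lit 1476714648) (nat_lit 1900) (nat_lit 1505827777) (nat_lit 492) (nat_lit 5) (nat_lit 491) (nat_lit 5) (nat_lit 516) (nat_lit 5) (nat_lit 628) (nat_lit 606) (nat_lit 326)) (XT.lf (nat_lit 0) (nat_lit 647777971) (nat_lit 1900) (nat_lit 16159973820) (nat_lit 1976) (nat_lit 11486432876) (nat_lit 467) (nat_lit 5) (nat_lit 492) (nat_lit 5) (nat_lit 493) (nat_lit 5) (nat_lit 629) (nat_lit 606) (nat_lit 325))))))) (XT.nd (nat_lit 1170) (nat_lit 6536)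 (nat_lit 0) (XT.nd (nat_lit 546) (nat_lit 3496) (nat_lit 0) (XT.nd (nat_lit 234) (nat_lit 1824) (nat_lit 0) (XT.nd (nat_lit 78) (nat_lit 1064) (nat_lit 0) (XT.lf (nat_lit 0) (nat_lit 2851906830) (nat_lit 1900) (nat_lit 1025028013) (nat_lit 1976) (nat_lit 24719608129) (nat_lit 467) (nat_lit 5) (nat_lit 492) (nat_lit 5) (nat_lit 493) (nat_lit 5) (nat_lit 630) (nat_lit 606) (nat_lit 324)) (XT.nd (nat_lit 78) (nat_lit 1140) (nat_lit 0) (XT.lf (nat_lit 0) (nat_lit 5253732738) (nat_lit 1900) (nat_lit 14362003193) (nat_lit 76) (nat_lit 9286140290) (nat_lit 468) (nat_lit 5) (nat_lit 493) (nat_lit 5) (nat_lit 469) (nat_lit 5) (nat_lit 631) (nat_lit 606) (nat_lit 323)) (XT.lf (nat_lit 0) (nat_lit 1204896253) (nat_lit 1140) (nat_lit 6536869776) (nat_lit 1216) (nat_lit 21470786752) (nat_lit 453) (nat_lit 5) (nat_lit 468) (nat_lit 5) (nat_lit 469) (nat_lit 5) (nat_lit 632) (nat_lit 606) (nat_lit 322)))) (XT.nd (nat_lit 156) (nat_lit 912) (nat_lit 0) (XT.nd (nat_lit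 78) (nat_lit 912) (nat_lit 0) (XT.lf (nat_lit 0) (nat_lit 10418530037) (nat_lit 1216) (nat_lit 12296519254) (nat_lit 76) (nat_lit 6811614243) (nat_lit 453) (nat_lit 5) (nat_lit 469) (nat_lit 5) (nat_lit 454) (nat_lit 5) (nat_lit 633) (nat_lit 606) (nat_lit 321)) (XT.lf (nat_lit 0) (nat_lit 3732535694) (nat_lit 912) (nat_lit 9481643628) (nat_lit 988) (nat_lit 16631570242) (nat_lit 441) (nat_lit 5) (nat_lit 453) (nat_lit 5) (nat_lit 454) (nat_lit 5) (nat_lit 634) (nat_lit 606) (nat_lit 320))) (XT.nd (nat_lit 78) (nat_lit 912) (nat_lit 0) (XT.lf (nat_lit 0) (nat_lit 16172738060) (nat_lit 988) (nat_lit 9949335153) (nat_lit 76) (nat_lit 4047004234) (nat_lit 441) (nat_lit 5) (nat_lit 454) (nat_lit 5) (nat_lit 442) (nat_lit 5) (nat_lit 635) (nat_lit 606) (nat_lit 319)) (XT.lf (nat_lit 0) (nat_lit 6559093006) (nat_lit 912) (nat_lit 12734651875) (nat_lit 988) (nat_lit 11203061525) (nat_lit 429) (nat_lit 5) (nat_lit 441) (nat_lit 5) (nat_lit 442) (nat_lit 5) (nat_lit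 636) (nat_lit 606) (nat_lit 318))))) (XT.nd (nat_lit 312) (nat_lit 1672) (nat_lit 0) (XT.nd (nat_lit 156) (nat_lit 988) (nat_lit 0) (XT.nd (nat_lit 78) (nat_lit 836) (nat_lit 0) (XT.lf (nat_lit 0) (nat_lit 22548283853) (nat_lit 988) (nat_lit 7305606739) (nat_lit 76) (nat_lit 975777171) (nat_lit 429) (nat_lit 5) (nat_lit 442) (nat_lit 5) (nat_lit 430) (nat_lit 5) (nat_lit 637) (nat_lit 606) (nat_lit 317)) (XT.lf (nat_lit 0) (nat_lit 9700074918) (nat_lit 836) (nat_lit 16313122048) (nat_lit 912) (nat_lit 5153083771) (nat_lit 418) (nat_lit 5) (nat_lit 429) (nat_lit 5) (nat_lit 430) (nat_lit 5) (nat_lit 638) (nat_lit 606) (nat_lit 316))) (XT.nd (nat_lit 78) (nat_lit 988) (nat_lit 0) (XT.lf (nat_lit 0) (nat_lit 27142962540) (nat_lit 836) (nat_lit 2451466122) (nat_lit 912) (nat_lit 1914256959) (nat_lit 418) (nat_lit 5) (nat_lit 429) (nat_lit 5) (nat_lit 430) (nat_lit 5) (nat_lit 639) (nat_lit 606) (nat_lit 315)) (XT.lf (nat_lit 0) (nat_lit 1531618158) (nat_lit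 988) (nat_lit 18693129245) (nat_lit 76) (nat_lit 11629800976) (nat_lit 405) (nat_lit 5) (nat_lit 418) (nat_lit 5) (nat_lit 406) (nat_lit 5) (nat_lit 640) (nat_lit 606) (nat_lit 314)))) (XT.nd (nat_lit 156) (nat_lit 836) (nat_lit 0) (XT.nd (nat_lit 78) (nat_lit 836) (nat_lit 0) (XT.lf (nat_lit 0) (nat_lit 5064576726) (nat_lit 988) (nat_lit 1139517950) (nat_lit 76) (nat_lit 26002104745) (nat_lit 405) (nat_lit 5) (nat_lit 418) (nat_lit 5) (nat_lit 406) (nat_lit 5) (nat_lit 641) (nat_lit 606) (nat_lit 313)) (XT.lf (nat_lit 0) (nat_lit 8829867241) (nat_lit 912) (nat_lit 15629990848) (nat_lit 76) (nat_lit 8101791993) (nat_lit 394) (nat_lit 5) (nat_lit 406) (nat_lit 5) (nat_lit 395) (nat_lit 5) (nat_lit 642) (nat_lit 606) (nat_lit 312))) (XT.nd (nat_lit 78) (nat_lit 0) (nat_lit 0) (XT.lf (nat_lit 0) (nat_lit 2444635106) (nat_lit 836) (nat_lit 10288596817) (nat_lit 912) (nat_lit 20189722516) (nat_lit 383) (nat_lit 5) (nat_lit 394) (nat_lit 5) (nat_lit 395) (nat_lit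 5) (nat_lit 643) (nat_lit 606) (nat_lit 311)) (XT.lf (nat_lit 0) (nat_lit 16845429134) (nat_lit 912) (nat_lit 12226471702) (nat_lit 76) (nat_lit 4216968792) (nat_lit 383) (nat_lit 5) (nat_lit 395) (nat_lit 5) (nat_lit 384) (nat_lit 5) (nat_lit 644) (nat_lit 606) (nat_lit 310)))))) (XT.nd (nat_lit 624) (nat_lit 2736) (nat_lit 0) (XT.nd (nat_lit 312) (nat_lit 2204) (nat_lit 0) (XT.nd (nat_lit 156) (nat_lit 836) (nat_lit 0) (XT.nd (nat_lit 78) (nat_lit 0) (nat_lit 0) (XT.lf (nat_lit 0) (nat_lit 6404345996) (nat_lit 760) (nat_lit 14743414648) (nat_lit 836) (nat_lit 12512184718) (nat_lit 373) (nat_lit 5) (nat_lit 383) (nat_lit 5) (nat_lit 384) (nat_lit 5) (nat_lit 645) (nat_lit 606) (nat_lit 309)) (XT.lf (nat_lit 0) (nat_lit 25571601121) (nat_lit 760) (nat_lit 44779831) (nat_lit 836) (nat_lit 8420456864) (nat_lit 373) (nat_lit 5) (nat_lit 383) (nat_lit 5) (nat_lit 384) (nat_lit 5) (nat_lit 646) (nat_lit 606) (nat_lit 308))) (XT.nd (nat_lit 78) (nat_lit 76)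 (nat_lit 0) (XT.lf (nat_lit 0) (nat_lit 10742867446) (nat_lit 760) (nat_lit 19596538043) (nat_lit 836) (nat_lit 4078562040) (nat_lit 363) (nat_lit 5) (nat_lit 373) (nat_lit 5) (nat_lit 374) (nat_lit 5) (nat_lit 647) (nat_lit 606) (nat_lit 307)) (XT.lf (nat_lit 0) (nat_lit 401298629) (nat_lit 836) (nat_lit 4360567889) (nat_lit 76) (nat_lit 30043693483) (nat_lit 362) (nat_lit 5) (nat_lit 373) (nat_lit 5) (nat_lit 363) (nat_lit 5) (nat_lit 648) (nat_lit 606) (nat_lit 306)))) (XT.nd (nat_lit 156) (nat_lit 684) (nat_lit 0) (XT.nd (nat_lit 78) (nat_lit 760) (nat_lit 0) (XT.lf (nat_lit 0) (nat_lit 5083374907) (nat_lit 836) (nat_lit 19751712462) (nat_lit 76) (nat_lit 10361933203) (nat_lit 352) (nat_lit 5) (nat_lit 363) (nat_lit 5) (nat_lit 353) (nat_lit 5) (nat_lit 649) (nat_lit 606) (nat_lit 305)) (XT.lf (nat_lit 0) (nat_lit 78076788) (nat_lit 760) (nat_lit 9840810483) (nat_lit 836) (nat_lit 25676227236) (nat_lit 342) (nat_lit 5) (nat_lit 352) (nat_lit 5) (nat_lit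 353) (nat_lit 5) (nat_lit 650) (nat_lit 606) (nat_lit 304))) (XT.nd (nat_lit 78) (nat_lit 684) (nat_lit 0) (XT.lf (nat_lit 0) (nat_lit 15018255204) (nat_lit 836) (nat_lit 15464525351) (nat_lit 76) (nat_lit 5515046902) (nat_lit 342) (nat_lit 5) (nat_lit 353) (nat_lit 5) (nat_lit 343) (nat_lit 5) (nat_lit 651) (nat_lit 606) (nat_lit 303)) (XT.lf (nat_lit 0) (nat_lit 4987391730) (nat_lit 684) (nat_lit 15328120539) (nat_lit 760) (nat_lit 16091164403) (nat_lit 333) (nat_lit 5) (nat_lit 342) (nat_lit 5) (nat_lit 343) (nat_lit 5) (nat_lit 652) (nat_lit 606) (nat_lit 302))))) (XT.nd (nat_lit 312) (nat_lit 1292) (nat_lit 0) (XT.nd (nat_lit 156) (nat_lit 760) (nat_lit 0) (XT.nd (nat_lit 78) (nat_lit 684) (nat_lit 0) (XT.lf (nat_lit 0) (nat_lit 25822386517) (nat_lit 760) (nat_lit 10767087234) (nat_lit 76) (nat_lit 232155719) (nat_lit 333) (nat_lit 5) (nat_lit 343) (nat_lit 5) (nat_lit 334) (nat_lit 5) (nat_lit 653) (nat_lit 606) (nat_lit 301)) (XT.lf (nat_lit 0)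 (nat_lit 10330260432) (nat_lit 684) (nat_lit 21276119474) (nat_lit 760) (nat_lit 5635161827) (nat_lit 324) (nat_lit 5) (nat_lit 333) (nat_lit 5) (nat_lit 334) (nat_lit 5) (nat_lit 654) (nat_lit 606) (nat_lit 300))) (XT.nd (nat_lit 78) (nat_lit 760) (nat_lit 0) (XT.lf (nat_lit 0) (nat_lit 31993651546) (nat_lit 684) (nat_lit 5583073794) (nat_lit 760) (nat_lit 91713495) (nat_lit 324) (nat_lit 5) (nat_lit 333) (nat_lit 5) (nat_lit 334) (nat_lit 5) (nat_lit 655) (nat_lit 606) (nat_lit 299)) (XT.lf (nat_lit 0) (nat_lit 5661624193) (nat_lit 760) (nat_lit 22009266180) (nat_lit 76) (nat_lit 10428821723) (nat_lit 314) (nat_lit 5) (nat_lit 324) (nat_lit 5) (nat_lit 315) (nat_lit 5) (nat_lit 656) (nat_lit 606) (nat_lit 298)))) (XT.nd (nat_lit 156) (nat_lit 608) (nat_lit 0) (XT.nd (nat_lit 78) (nat_lit 684) (nat_lit 0) (XT.lf (nat_lit 0) (nat_lit 11602565663) (nat_lit 760) (nat_lit 210631279) (nat_lit 76) (nat_lit 26724926492) (nat_lit 314) (nat_lit 5) (nat_lit 324)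 (nat_lit 5) (nat_lit 315) (nat_lit 5) (nat_lit 657) (nat_lit 606) (nat_lit 297)) (XT.lf (nat_lit 0) (nat_lit 17834971981) (nat_lit 760) (nat_lit 16696891814) (nat_lit 76) (nat_lit 4449986318) (nat_lit 305) (nat_lit 5) (nat_lit 315) (nat_lit 5) (nat_lit 306) (nat_lit 5) (nat_lit 658) (nat_lit 606) (nat_lit 296))) (XT.nd (nat_lit 78) (nat_lit 0) (nat_lit 0) (XT.lf (nat_lit 0) (nat_lit 5794814266) (nat_lit 608) (nat_lit 18512994919) (nat_lit 684) (nat_lit 15124326522) (nat_lit 297) (nat_lit 5) (nat_lit 305) (nat_lit 5) (nat_lit 306) (nat_lit 5) (nat_lit 659) (nat_lit 606) (nat_lit 295)) (XT.lf (nat_lit 0) (nat_lit 28960862219) (nat_lit 608) (nat_lit 2059806444) (nat_lit 684) (nat_lit 8868547073) (nat_lit 297) (nat_lit 5) (nat_lit 305) (nat_lit 5) (nat_lit 306) (nat_lit 5) (nat_lit 660) (nat_lit 606) (nat_lit 294))))))))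
noncomputable def xc216 : XT := (XT.nd (nat_lit 77376) (nat_lit 0) (nat_lit 16644) (XT.nd (nat_lit 1170) (nat_lit 3192) (nat_lit 0) (XT.nd (nat_lit 546) (nat_lit 2812) (nat_lit 0) (XT.nd (nat_lit 234) (nat_lit 1140) (nat_lit 0) (XT.nd (nat_lit 78) (nat_lit 684) (nat_lit 0) (XT.lf (nat_lit 0) (nat_lit 12298691306) (nat_lit 608) (nat_lit 25743080588) (nat_lit 684) (nat_lit 2310185776) (nat_lit 289) (nat_lit 5) (nat_lit 297) (nat_lit 5) (nat_lit 298) (nat_lit 5) (nat_lit 661) (nat_lit 606) (nat_lit 293)) (XT.nd (nat_lit 78) (nat_lit 608) (nat_lit 0) (XT.lf (nat_lit 0) (nat_lit 4407923305) (nat_lit 684) (nat_lit 4728455798) (nat_lit 76) (nat_lit 31685286371) (nat_lit 288) (nat_lit 5) (nat_lit 297) (nat_lit 5) (nat_lit 289) (nat_lit 5) (nat_lit 662) (nat_lit 606) (nat_lit 292)) (XT.lf (nat_lit 0) (nat_lit 11404961643) (nat_lit 684) (nat_lit 22050697027) (nat_lit 76) (nat_lit 7841293380) (nat_lit 280) (nat_lit 5) (nat_lit 289) (nat_lit 5) (nat_lit 281) (nat_lit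 5) (nat_lit 663) (nat_lit 606) (nat_lit 291)))) (XT.nd (nat_lit 156) (nat_lit 532) (nat_lit 0) (XT.nd (nat_lit 78) (nat_lit 0) (nat_lit 0) (XT.lf (nat_lit 0) (nat_lit 1946458380) (nat_lit 608) (nat_lit 16699163291) (nat_lit 684) (nat_lit 23134049099) (nat_lit 272) (nat_lit 5) (nat_lit 280) (nat_lit 5) (nat_lit 281) (nat_lit 5) (nat_lit 664) (nat_lit 606) (nat_lit 290)) (XT.lf (nat_lit 0) (nat_lit 26181204899) (nat_lit 684) (nat_lit 15551965527) (nat_lit 76) (nat_lit 535871271) (nat_lit 272) (nat_lit 5) (nat_lit 281) (nat_lit 5) (nat_lit 273) (nat_lit 5) (nat_lit 665) (nat_lit 606) (nat_lit 289))) (XT.nd (nat_lit 78) (nat_lit 0) (nat_lit 0) (XT.lf (nat_lit 0) (nat_lit 9223506356) (nat_lit 532) (nat_lit 24813106439) (nat_lit 608) (nat_lit 8728205016) (nat_lit 265) (nat_lit 5) (nat_lit 272) (nat_lit 5) (nat_lit 273) (nat_lit 5) (nat_lit 666) (nat_lit 606) (nat_lit 288)) (XT.lf (nat_lit 0) (nat_lit 34703532979) (nat_lit 532) (nat_lit 7448610398) (nat_lit 608)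 (nat_lit 1116305811) (nat_lit 265) (nat_lit 5) (nat_lit 272) (nat_lit 5) (nat_lit 273) (nat_lit 5) (nat_lit 667) (nat_lit 606) (nat_lit 287))))) (XT.nd (nat_lit 312) (nat_lit 1064) (nat_lit 0) (XT.nd (nat_lit 156) (nat_lit 1064) (nat_lit 0) (XT.nd (nat_lit 78) (nat_lit 0) (nat_lit 0) (XT.lf (nat_lit 0) (nat_lit 6737928632) (nat_lit 684) (nat_lit 26756513066) (nat_lit 76) (nat_lit 10283302584) (nat_lit 256) (nat_lit 5) (nat_lit 265) (nat_lit 5) (nat_lit 257) (nat_lit 5) (nat_lit 668) (nat_lit 606) (nat_lit 286)) (XT.lf (nat_lit 0) (nat_lit 14840181018) (nat_lit 684) (nat_lit 1119737262) (nat_lit 76) (nat_lit 28335041837) (nat_lit 256) (nat_lit 5) (nat_lit 265) (nat_lit 5) (nat_lit 257) (nat_lit 5) (nat_lit 669) (nat_lit 606) (nat_lit 285))) (XT.nd (nat_lit 78) (nat_lit 532) (nat_lit 0) (XT.lf (nat_lit 0) (nat_lit 23281432770) (nat_lit 608) (nat_lit 19472183575) (nat_lit 76) (nat_lit 2065364867) (nat_lit 249) (nat_lit 5) (nat_lit 257) (nat_lit 5) (nat_lit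 250) (nat_lit 5) (nat_lit 670) (nat_lit 606) (nat_lit 284)) (XT.lf (nat_lit 0) (nat_lit 6988684695) (nat_lit 532) (nat_lit 25060178186) (nat_lit 608) (nat_lit 13301472809) (nat_lit 242) (nat_lit 5) (nat_lit 249) (nat_lit 5) (nat_lit 250) (nat_lit 5) (nat_lit 671) (nat_lit 606) (nat_lit 283)))) (XT.nd (nat_lit 156) (nat_lit 532) (nat_lit 0) (XT.nd (nat_lit 78) (nat_lit 532) (nat_lit 0) (XT.lf (nat_lit 0) (nat_lit 34240994638) (nat_lit 532) (nat_lit 6880048992) (nat_lit 608) (nat_lit 4768685610) (nat_lit 242) (nat_lit 5) (nat_lit 249) (nat_lit 5) (nat_lit 250) (nat_lit 5) (nat_lit 672) (nat_lit 606) (nat_lit 282)) (XT.lf (nat_lit 0) (nat_lit 4060917297) (nat_lit 532) (nat_lit 30735832054) (nat_lit 76) (nat_lit 11639095096) (nat_lit 235) (nat_lit 5) (nat_lit 242) (nat_lit 5) (nat_lit 236) (nat_lit 5) (nat_lit 673) (nat_lit 606) (nat_lit 281))) (XT.nd (nat_lit 78) (nat_lit 532) (nat_lit 0) (XT.lf (nat_lit 0) (nat_lit 13126329819) (nat_lit 532) (nat_lit 3317063765)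 (nat_lit 76) (nat_lit 30546396574) (nat_lit 235) (nat_lit 5) (nat_lit 242) (nat_lit 5) (nat_lit 236) (nat_lit 5) (nat_lit 674) (nat_lit 606) (nat_lit 280)) (XT.lf (nat_lit 0) (nat_lit 22549850734) (nat_lit 608) (nat_lit 22591492519) (nat_lit 76) (nat_lit 2409935551) (nat_lit 228) (nat_lit 5) (nat_lit 236) (nat_lit 5) (nat_lit 229) (nat_lit 5) (nat_lit 675) (nat_lit 606) (nat_lit 279)))))) (XT.nd (nat_lit 624) (nat_lit 836) (nat_lit 0) (XT.nd (nat_lit 312) (nat_lit 1368) (nat_lit 0) (XT.nd (nat_lit 156) (nat_lit 532) (nat_lit 0) (XT.nd (nat_lit 78) (nat_lit 0) (nat_lit 0) (XT.lf (nat_lit 0) (nat_lit 5687436908) (nat_lit 456) (nat_lit 26641429775) (nat_lit 532) (nat_lit 15791790070) (nat_lit 222) (nat_lit 5) (nat_lit 228) (nat_lit 5) (nat_lit 229) (nat_lit 5) (nat_lit 676) (nat_lit 606) (nat_lit 278)) (XT.lf (nat_lit 0) (nat_lit 34836493946) (nat_lit 456) (nat_lit 7617377210) (nat_lit 532) (nat_lit 6244542967) (nat_lit 222) (nat_lit 5) (nat_lit 228) (nat_lit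 5) (nat_lit 229) (nat_lit 5) (nat_lit 677) (nat_lit 606) (nat_lit 277))) (XT.nd (nat_lit 78) (nat_lit 0) (nat_lit 0) (XT.lf (nat_lit 0) (nat_lit 3624365459) (nat_lit 532) (nat_lit 33903425478) (nat_lit 76) (nat_lit 11755951339) (nat_lit 215) (nat_lit 5) (nat_lit 222) (nat_lit 5) (nat_lit 216) (nat_lit 5) (nat_lit 678) (nat_lit 606) (nat_lit 276)) (XT.lf (nat_lit 0) (nat_lit 13750030951) (nat_lit 532) (nat_lit 4577709306) (nat_lit 76) (nat_lit 31549351360) (nat_lit 215) (nat_lit 5) (nat_lit 222) (nat_lit 5) (nat_lit 216) (nat_lit 5) (nat_lit 679) (nat_lit 606) (nat_lit 275)))) (XT.nd (nat_lit 156) (nat_lit 456) (nat_lit 0) (XT.nd (nat_lit 78) (nat_lit 456) (nat_lit 0) (XT.lf (nat_lit 0) (nat_lit 24252985774) (nat_lit 532) (nat_lit 24818716620) (nat_lit 76) (nat_lit 1407110054) (nat_lit 209) (nat_lit 5) (nat_lit 216) (nat_lit 5) (nat_lit 210) (nat_lit 5) (nat_lit 680) (nat_lit 606) (nat_lit 274)) (XT.lf (nat_lit 0) (nat_lit 5420616817) (nat_lit 456) (nat_lit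 29731738807) (nat_lit 532) (nat_lit 15936484974) (nat_lit 203) (nat_lit 5) (nat_lit 209) (nat_lit 5) (nat_lit 210) (nat_lit 5) (nat_lit 681) (nat_lit 606) (nat_lit 273))) (XT.nd (nat_lit 78) (nat_lit 456) (nat_lit 0) (XT.lf (nat_lit 0) (nat_lit 36599519880) (nat_lit 456) (nat_lit 9835614921) (nat_lit 532) (nat_lit 5272626091) (nat_lit 203) (nat_lit 5) (nat_lit 209) (nat_lit 5) (nat_lit 210) (nat_lit 5) (nat_lit 682) (nat_lit 606) (nat_lit 272)) (XT.lf (nat_lit 0) (nat_lit 5704161900) (nat_lit 456) (nat_lit 36167192196) (nat_lit 76) (nat_lit 10463514631) (nat_lit 197) (nat_lit 5) (nat_lit 203) (nat_lit 5) (nat_lit 198) (nat_lit 5) (nat_lit 683) (nat_lit 606) (nat_lit 271))))) (XT.nd (nat_lit 75270) (nat_lit 0) (nat_lit 22420) (XT.nd (nat_lit 156) (nat_lit 380) (nat_lit 0) (XT.nd (nat_lit 78) (nat_lit 456) (nat_lit 0) (XT.lf (nat_lit 0) (nat_lit 16996041334) (nat_lit 456) (nat_lit 4800940256) (nat_lit 76) (nat_lit 31173516983) (nat_lit 197) (nat_lit 5) (nat_lit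 203) (nat_lit 5) (nat_lit 198) (nat_lit 5) (nat_lit 684) (nat_lit 606) (nat_lit 270)) (XT.lf (nat_lit 0) (nat_lit 27552391448) (nat_lit 456) (nat_lit 1139174878) (nat_lit 532) (nat_lit 24923718552) (nat_lit 191) (nat_lit 5) (nat_lit 197) (nat_lit 5) (nat_lit 198) (nat_lit 5) (nat_lit 685) (nat_lit 606) (nat_lit 269))) (XT.nd (nat_lit 75036) (nat_lit 0) (nat_lit 22420) (XT.lf (nat_lit 0) (nat_lit 6296899092) (nat_lit 380) (nat_lit 34525754012) (nat_lit 456) (nat_lit 13446280797) (nat_lit 186) (nat_lit 5) (nat_lit 191) (nat_lit 5) (nat_lit 192) (nat_lit 5) (nat_lit 686) (nat_lit 606) (nat_lit 268)) (XT.lf (nat_lit 0) (nat_lit 895458838) (nat_lit 1900) (nat_lit 5257708726) (nat_lit 1900) (nat_lit 5257708726) (nat_lit 481) (nat_lit 3) (nat_lit 506) (nat_lit 3) (nat_lit 506) (nat_lit 5) (nat_lit 607) (nat_lit 607) (nat_lit 346)))) (XT.nd (nat_lit 156) (nat_lit 0) (nat_lit 76) (XT.nd (nat_lit 78) (nat_lit 0) (nat_lit 76) (XT.lf (nat_lit 76) (nat_lit 860928096)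 (nat_lit 0) (nat_lit 1080932443) (nat_lit 1900) (nat_lit 21105445039) (nat_lit 482) (nat_lit 5) (nat_lit 481) (nat_lit 3) (nat_lit 506) (nat_lit 5) (nat_lit 608) (nat_lit 607) (nat_lit 345)) (XT.lf (nat_lit 0) (nat_lit 2230832285) (nat_lit 1824) (nat_lit 10738213474) (nat_lit 1900) (nat_lit 10305623776) (nat_lit 482) (nat_lit 5) (nat_lit 506) (nat_lit 5) (nat_lit 507) (nat_lit 5) (nat_lit 609) (nat_lit 607) (nat_lit 344))) (XT.nd (nat_lit 78) (nat_lit 0) (nat_lit 76) (XT.lf (nat_lit 76) (nat_lit 942344404) (nat_lit 0) (nat_lit 1593237880) (nat_lit 1900) (nat_lit 20970798608) (nat_lit 483) (nat_lit 5) (nat_lit 482) (nat_lit 5) (nat_lit 507) (nat_lit 5) (nat_lit 610) (nat_lit 607) (nat_lit 343)) (XT.lf (nat_lit 0) (nat_lit 2980740065) (nat_lit 1824) (nat_lit 10806514290) (nat_lit 1900) (nat_lit 9952785964) (nat_lit 483) (nat_lit 5) (nat_lit 507) (nat_lit 5) (nat_lit 508) (nat_lit 5) (nat_lit 611) (nat_lit 607) (nat_lit 342))))))) (XT.nd (nat_lit 1170) (nat_lit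 5928) (nat_lit 0) (XT.nd (nat_lit 546) (nat_lit 0) (nat_lit 304) (XT.nd (nat_lit 234) (nat_lit 0) (nat_lit 152) (XT.nd (nat_lit 78) (nat_lit 0) (nat_lit 76) (XT.lf (nat_lit 76) (nat_lit 1189409950) (nat_lit 0) (nat_lit 2260512170) (nat_lit 1900) (nat_lit 20528148488) (nat_lit 484) (nat_lit 5) (nat_lit 483) (nat_lit 5) (nat_lit 508) (nat_lit 5) (nat_lit 612) (nat_lit 607) (nat_lit 341)) (XT.nd (nat_lit 78) (nat_lit 0) (nat_lit 0) (XT.lf (nat_lit 0) (nat_lit 4060050978) (nat_lit 1824) (nat_lit 10711668237) (nat_lit 1900) (nat_lit 9446511117) (nat_lit 484) (nat_lit 5) (nat_lit 508) (nat_lit 5) (nat_lit 509) (nat_lit 5) (nat_lit 613) (nat_lit 607) (nat_lit 340)) (XT.lf (nat_lit 76) (nat_lit 1611206030) (nat_lit 0) (nat_lit 3093574561) (nat_lit 1900) (nat_lit 19757964787) (nat_lit 485) (nat_lit 5) (nat_lit 484) (nat_lit 5) (nat_lit 509) (nat_lit 5) (nat_lit 614) (nat_lit 607) (nat_lit 339)))) (XT.nd (nat_lit 156) (nat_lit 0) (nat_lit 76) (XT.nd (nat_lit 78)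 (nat_lit 0) (nat_lit 0) (XT.lf (nat_lit 0) (nat_lit 5489037203) (nat_lit 1824) (nat_lit 10444579505) (nat_lit 1900) (nat_lit 8776001459) (nat_lit 485) (nat_lit 5) (nat_lit 509) (nat_lit 5) (nat_lit 510) (nat_lit 5) (nat_lit 615) (nat_lit 607) (nat_lit 338)) (XT.lf (nat_lit 76) (nat_lit 2217274534) (nat_lit 0) (nat_lit 4103668338) (nat_lit 1900) (nat_lit 18639846350) (nat_lit 486) (nat_lit 5) (nat_lit 485) (nat_lit 5) (nat_lit 510) (nat_lit 5) (nat_lit 616) (nat_lit 607) (nat_lit 337))) (XT.nd (nat_lit 78) (nat_lit 0) (nat_lit 0) (XT.lf (nat_lit 0) (nat_lit 7288872591) (nat_lit 1824) (nat_lit 9995691692) (nat_lit 1900) (nat_lit 7930031783) (nat_lit 486) (nat_lit 5) (nat_lit 510) (nat_lit 5) (nat_lit 511) (nat_lit 5) (nat_lit 617) (nat_lit 607) (nat_lit 336)) (XT.lf (nat_lit 76) (nat_lit 3017635049) (nat_lit 0) (nat_lit 5302484027) (nat_lit 1900) (nat_lit 17152480890) (nat_lit 487) (nat_lit 5) (nat_lit 486) (nat_lit 5) (nat_lit 511) (nat_lit 5) (nat_lit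 618) (nat_lit 607) (nat_lit 335))))) (XT.nd (nat_lit 312) (nat_lit 0) (nat_lit 152) (XT.nd (nat_lit 156) (nat_lit 0) (nat_lit 76) (XT.nd (nat_lit 78) (nat_lit 0) (nat_lit 0) (XT.lf (nat_lit 0) (nat_lit 9481673597) (nat_lit 1824) (nat_lit 9354970555) (nat_lit 1900) (nat_lit 6896926215) (nat_lit 487) (nat_lit 5) (nat_lit 511) (nat_lit 5) (nat_lit 512) (nat_lit 5) (nat_lit 619) (nat_lit 607) (nat_lit 334)) (XT.lf (nat_lit 76) (nat_lit 4022802790) (nat_lit 0) (nat_lit 6702183320) (nat_lit 1900) (nat_lit 15273603609) (nat_lit 488) (nat_lit 5) (nat_lit 487) (nat_lit 5) (nat_lit 512) (nat_lit 5) (nat_lit 620) (nat_lit 607) (nat_lit 333))) (XT.nd (nat_lit 78) (nat_lit 0) (nat_lit 0) (XT.lf (nat_lit 0) (nat_lit 12090541792) (nat_lit 1824) (nat_lit 8511885945) (nat_lit 1900) (nat_lit 5664534262) (nat_lit 488) (nat_lit 5) (nat_lit 512) (nat_lit 5) (nat_lit 513) (nat_lit 5) (nat_lit 621) (nat_lit 607) (nat_lit 332)) (XT.lf (nat_lit 76) (nat_lit 5243807368) (nat_lit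 0) (nat_lit 8315423752) (nat_lit 1900) (nat_lit 12979954232) (nat_lit 489) (nat_lit 5) (nat_lit 488) (nat_lit 5) (nat_lit 513) (nat_lit 5) (nat_lit 622) (nat_lit 607) (nat_lit 331)))) (XT.nd (nat_lit 156) (nat_lit 0) (nat_lit 76) (XT.nd (nat_lit 78) (nat_lit 0) (nat_lit 0) (XT.lf (nat_lit 0) (nat_lit 15139607990) (nat_lit 1824) (nat_lit 7455392896) (nat_lit 1900) (nat_lit 4220206087) (nat_lit 489) (nat_lit 5) (nat_lit 513) (nat_lit 5) (nat_lit 514) (nat_lit 5) (nat_lit 623) (nat_lit 607) (nat_lit 330)) (XT.lf (nat_lit 76) (nat_lit 6692212435) (nat_lit 0) (nat_lit 10155384186) (nat_lit 1900) (nat_lit 10247232397) (nat_lit 490) (nat_lit 5) (nat_lit 489) (nat_lit 5) (nat_lit 514) (nat_lit 5) (nat_lit 624) (nat_lit 607) (nat_lit 329))) (XT.nd (nat_lit 78) (nat_lit 0) (nat_lit 0) (XT.lf (nat_lit 0) (nat_lit 18654078097) (nat_lit 1824) (nat_lit 6173911847) (nat_lit 1900) (nat_lit 2550766973) (nat_lit 490) (nat_lit 5) (nat_lit 514) (nat_lit 5) (nat_lit 515) (nat_lit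 5) (nat_lit 625) (nat_lit 607) (nat_lit 328)) (XT.lf (nat_lit 76) (nat_lit 8380136228) (nat_lit 0) (nat_lit 12235791147) (nat_lit 1900) (nat_lit 7050051307) (nat_lit 491) (nat_lit 5) (nat_lit 490) (nat_lit 5) (nat_lit 515) (nat_lit 5) (nat_lit 626) (nat_lit 607) (nat_lit 327)))))) (XT.nd (nat_lit 624) (nat_lit 3648) (nat_lit 0) (XT.nd (nat_lit 312) (nat_lit 1064) (nat_lit 0) (XT.nd (nat_lit 156) (nat_lit 1824) (nat_lit 0) (XT.nd (nat_lit 78) (nat_lit 0) (nat_lit 0) (XT.lf (nat_lit 0) (nat_lit 22660280729) (nat_lit 1824) (nat_lit 4655307958) (nat_lit 1900) (nat_lit 642490924) (nat_lit 491) (nat_lit 5) (nat_lit 515) (nat_lit 5) (nat_lit 516) (nat_lit 5) (nat_lit 627) (nat_lit 607) (nat_lit 326)) (XT.lf (nat_lit 76) (nat_lit 10320273030) (nat_lit 0) (nat_lit 14570946052) (nat_lit 1900) (nat_lit 3361889587) (nat_lit 492) (nat_lit 5) (nat_lit 491) (nat_lit 5) (nat_lit 516) (nat_lit 5) (nat_lit 628) (nat_lit 607) (nat_lit 325))) (XT.nd (nat_lit 78) (nat_lit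 1824) (nat_lit 0) (XT.lf (nat_lit 76) (nat_lit 25656597258) (nat_lit 0) (nat_lit 1539112379) (nat_lit 1900) (nat_lit 1357750071) (nat_lit 492) (nat_lit 5) (nat_lit 491) (nat_lit 5) (nat_lit 516) (nat_lit 5) (nat_lit 629) (nat_lit 607) (nat_lit 324)) (XT.lf (nat_lit 0) (nat_lit 833876957) (nat_lit 1900) (nat_lit 16336280688) (nat_lit 1976) (nat_lit 11686442889) (nat_lit 467) (nat_lit 5) (nat_lit 492) (nat_lit 5) (nat_lit 493) (nat_lit 5) (nat_lit 630) (nat_lit 607) (nat_lit 323)))) (XT.nd (nat_lit 156) (nat_lit 1064) (nat_lit 0) (XT.nd (nat_lit 78) (nat_lit 0) (nat_lit 76) (XT.lf (nat_lit 0) (nat_lit 3078693425) (nat_lit 1900) (nat_lit 901516212) (nat_lit 1976) (nat_lit 25184864367) (nat_lit 467) (nat_lit 5) (nat_lit 492) (nat_lit 5) (nat_lit 493) (nat_lit 5) (nat_lit 631) (nat_lit 607) (nat_lit 322)) (XT.lf (nat_lit 0) (nat_lit 5525998654) (nat_lit 1900) (nat_lit 14502668934) (nat_lit 76) (nat_lit 9447897568) (nat_lit 468) (nat_lit 5) (nat_lit 493) (nat_lit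 5) (nat_lit 469) (nat_lit 5) (nat_lit 632) (nat_lit 607) (nat_lit 321))) (XT.nd (nat_lit 78) (nat_lit 0) (nat_lit 0) (XT.lf (nat_lit 0) (nat_lit 1374604196) (nat_lit 1140) (nat_lit 6686855552) (nat_lit 1216) (nat_lit 21732042249) (nat_lit 453) (nat_lit 5) (nat_lit 468) (nat_lit 5) (nat_lit 469) (nat_lit 5) (nat_lit 633) (nat_lit 607) (nat_lit 320)) (XT.lf (nat_lit 0) (nat_lit 10788403995) (nat_lit 1216) (nat_lit 12396335100) (nat_lit 76) (nat_lit 6929223063) (nat_lit 453) (nat_lit 5) (nat_lit 469) (nat_lit 5) (nat_lit 454) (nat_lit 5) (nat_lit 634) (nat_lit 607) (nat_lit 319))))) (XT.nd (nat_lit 312) (nat_lit 1824) (nat_lit 0) (XT.nd (nat_lit 156) (nat_lit 912) (nat_lit 0) (XT.nd (nat_lit 78) (nat_lit 0) (nat_lit 0) (XT.lf (nat_lit 0) (nat_lit 3952339668) (nat_lit 912) (nat_lit 9685402297) (nat_lit 988) (nat_lit 16801732520) (nat_lit 441) (nat_lit 5) (nat_lit 453) (nat_lit 5) (nat_lit 454) (nat_lit 5) (nat_lit 635) (nat_lit 607) (nat_lit 318)) (XT.lf (nat_lit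 0) (nat_lit 16652258843) (nat_lit 988) (nat_lit 10002797302) (nat_lit 76) (nat_lit 4114277128) (nat_lit 441) (nat_lit 5) (nat_lit 454) (nat_lit 5) (nat_lit 442) (nat_lit 5) (nat_lit 636) (nat_lit 607) (nat_lit 317))) (XT.nd (nat_lit 78) (nat_lit 0) (nat_lit 0) (XT.lf (nat_lit 0) (nat_lit 6834842022) (nat_lit 912) (nat_lit 12998722286) (nat_lit 988) (nat_lit 11270095020) (nat_lit 429) (nat_lit 5) (nat_lit 441) (nat_lit 5) (nat_lit 442) (nat_lit 5) (nat_lit 637) (nat_lit 607) (nat_lit 316)) (XT.lf (nat_lit 0) (nat_lit 23150115850) (nat_lit 988) (nat_lit 7306903928) (nat_lit 76) (nat_lit 986219784) (nat_lit 429) (nat_lit 5) (nat_lit 442) (nat_lit 5) (nat_lit 430) (nat_lit 5) (nat_lit 638) (nat_lit 607) (nat_lit 315)))) (XT.nd (nat_lit 156) (nat_lit 988) (nat_lit 0) (XT.nd (nat_lit 78) (nat_lit 0) (nat_lit 0) (XT.lf (nat_lit 0) (nat_lit 10037938633) (nat_lit 836) (nat_lit 16644364478) (nat_lit 912) (nat_lit 5104322250) (nat_lit 418) (nat_lit 5) (nat_lit 429)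 (nat_lit 5) (nat_lit 430) (nat_lit 5) (nat_lit 639) (nat_lit 607) (nat_lit 314)) (XT.lf (nat_lit 0) (nat_lit 27826863180) (nat_lit 836) (nat_lit 2505377786) (nat_lit 912) (nat_lit 1803695827) (nat_lit 418) (nat_lit 5) (nat_lit 429) (nat_lit 5) (nat_lit 430) (nat_lit 5) (nat_lit 640) (nat_lit 607) (nat_lit 313))) (XT.nd (nat_lit 78) (nat_lit 0) (nat_lit 0) (XT.lf (nat_lit 0) (nat_lit 1707168001) (nat_lit 988) (nat_lit 18922013754) (nat_lit 76) (nat_lit 11859555332) (nat_lit 405) (nat_lit 5) (nat_lit 418) (nat_lit 5) (nat_lit 406) (nat_lit 5) (nat_lit 641) (nat_lit 607) (nat_lit 312)) (XT.lf (nat_lit 0) (nat_lit 5307944222) (nat_lit 988) (nat_lit 1020172941) (nat_lit 76) (nat_lit 26519360896) (nat_lit 405) (nat_lit 5) (nat_lit 418) (nat_lit 5) (nat_lit 406) (nat_lit 5) (nat_lit 642) (nat_lit 607) (nat_lit 311))))))))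
noncomputable def xc217 : XT := (XT.nd (nat_lit 2418) (nat_lit 3876) (nat_lit 0) (XT.nd (nat_lit 1170) (nat_lit 5472) (nat_lit 0) (XT.nd (nat_lit 546) (nat_lit 3648) (nat_lit 0) (XT.nd (nat_lit 234) (nat_lit 1596) (nat_lit 0) (XT.nd (nat_lit 78) (nat_lit 836) (nat_lit 0) (XT.lf (nat_lit 0) (nat_lit 9146677959) (nat_lit 912) (nat_lit 15798588953) (nat_lit 76) (nat_lit 8264808148) (nat_lit 394) (nat_lit 5) (nat_lit 406) (nat_lit 5) (nat_lit 395) (nat_lit 5) (nat_lit 643) (nat_lit 607) (nat_lit 310)) (XT.nd (nat_lit 78) (nat_lit 0) (nat_lit 0) (XT.lf (nat_lit 0) (nat_lit 2636582141) (nat_lit 836) (nat_lit 10489707316) (nat_lit 912) (nat_lit 20452352530) (nat_lit 383) (nat_lit 5) (nat_lit 394) (nat_lit 5) (nat_lit 395) (nat_lit 5) (nat_lit 644) (nat_lit 607) (nat_lit 309)) (XT.lf (nat_lit 0) (nat_lit 17318046698) (nat_lit 912) (nat_lit 12328064265) (nat_lit 76) (nat_lit 4305818268) (nat_lit 383) (nat_lit 5) (nat_lit 395) (nat_lit 5) (nat_lit 384) (nat_lit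 5) (nat_lit 645) (nat_lit 607) (nat_lit 308)))) (XT.nd (nat_lit 156) (nat_lit 836) (nat_lit 0) (XT.nd (nat_lit 78) (nat_lit 0) (nat_lit 0) (XT.lf (nat_lit 0) (nat_lit 6674429413) (nat_lit 760) (nat_lit 15030256400) (nat_lit 836) (nat_lit 12625775518) (nat_lit 373) (nat_lit 5) (nat_lit 383) (nat_lit 5) (nat_lit 384) (nat_lit 5) (nat_lit 646) (nat_lit 607) (nat_lit 307)) (XT.lf (nat_lit 0) (nat_lit 26222245396) (nat_lit 760) (nat_lit 37806269) (nat_lit 836) (nat_lit 8454892575) (nat_lit 373) (nat_lit 5) (nat_lit 383) (nat_lit 5) (nat_lit 384) (nat_lit 5) (nat_lit 647) (nat_lit 607) (nat_lit 306))) (XT.nd (nat_lit 78) (nat_lit 76) (nat_lit 0) (XT.lf (nat_lit 0) (nat_lit 11098583449) (nat_lit 760) (nat_lit 19977342527) (nat_lit 836) (nat_lit 4027802854) (nat_lit 363) (nat_lit 5) (nat_lit 373) (nat_lit 5) (nat_lit 374) (nat_lit 5) (nat_lit 648) (nat_lit 607) (nat_lit 305)) (XT.lf (nat_lit 0) (nat_lit 537358807) (nat_lit 836) (nat_lit 4307977749) (nat_lit 76)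 (nat_lit 30653770690) (nat_lit 362) (nat_lit 5) (nat_lit 373) (nat_lit 5) (nat_lit 363) (nat_lit 5) (nat_lit 649) (nat_lit 607) (nat_lit 304))))) (XT.nd (nat_lit 312) (nat_lit 1444) (nat_lit 0) (XT.nd (nat_lit 156) (nat_lit 684) (nat_lit 0) (XT.nd (nat_lit 78) (nat_lit 760) (nat_lit 0) (XT.lf (nat_lit 0) (nat_lit 5311548723) (nat_lit 836) (nat_lit 20005414120) (nat_lit 76) (nat_lit 10581464808) (nat_lit 352) (nat_lit 5) (nat_lit 363) (nat_lit 5) (nat_lit 353) (nat_lit 5) (nat_lit 650) (nat_lit 607) (nat_lit 303)) (XT.lf (nat_lit 0) (nat_lit 220041096) (nat_lit 760) (nat_lit 10022161311) (nat_lit 836) (nat_lit 26062312499) (nat_lit 342) (nat_lit 5) (nat_lit 352) (nat_lit 5) (nat_lit 353) (nat_lit 5) (nat_lit 651) (nat_lit 607) (nat_lit 302))) (XT.nd (nat_lit 78) (nat_lit 684) (nat_lit 0) (XT.lf (nat_lit 0) (nat_lit 15441206388) (nat_lit 836) (nat_lit 15633811690) (nat_lit 76) (nat_lit 5640311126) (nat_lit 342) (nat_lit 5) (nat_lit 353) (nat_lit 5) (nat_lit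 343) (nat_lit 5) (nat_lit 652) (nat_lit 607) (nat_lit 301)) (XT.lf (nat_lit 0) (nat_lit 5226222653) (nat_lit 684) (nat_lit 15616685312) (nat_lit 760) (nat_lit 16289477509) (nat_lit 333) (nat_lit 5) (nat_lit 342) (nat_lit 5) (nat_lit 343) (nat_lit 5) (nat_lit 653) (nat_lit 607) (nat_lit 300)))) (XT.nd (nat_lit 156) (nat_lit 760) (nat_lit 0) (XT.nd (nat_lit 78) (nat_lit 684) (nat_lit 0) (XT.lf (nat_lit 0) (nat_lit 26457660035) (nat_lit 760) (nat_lit 10843810385) (nat_lit 76) (nat_lit 254212162) (nat_lit 333) (nat_lit 5) (nat_lit 343) (nat_lit 5) (nat_lit 334) (nat_lit 5) (nat_lit 654) (nat_lit 607) (nat_lit 299)) (XT.lf (nat_lit 0) (nat_lit 10674572270) (nat_lit 684) (nat_lit 21681325187) (nat_lit 760) (nat_lit 5628124407) (nat_lit 324) (nat_lit 5) (nat_lit 333) (nat_lit 5) (nat_lit 334) (nat_lit 5) (nat_lit 655) (nat_lit 607) (nat_lit 298))) (XT.nd (nat_lit 78) (nat_lit 684) (nat_lit 0) (XT.lf (nat_lit 0) (nat_lit 23532303) (nat_lit 760) (nat_lit 5651126743)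 (nat_lit 76) (nat_lit 32744840860) (nat_lit 323) (nat_lit 5) (nat_lit 333) (nat_lit 5) (nat_lit 324) (nat_lit 5) (nat_lit 656) (nat_lit 607) (nat_lit 297)) (XT.lf (nat_lit 0) (nat_lit 5889456521) (nat_lit 760) (nat_lit 22311646519) (nat_lit 76) (nat_lit 10658308565) (nat_lit 314) (nat_lit 5) (nat_lit 324) (nat_lit 5) (nat_lit 315) (nat_lit 5) (nat_lit 657) (nat_lit 607) (nat_lit 296)))))) (XT.nd (nat_lit 624) (nat_lit 2280) (nat_lit 0) (XT.nd (nat_lit 312) (nat_lit 1900) (nat_lit 0) (XT.nd (nat_lit 156) (nat_lit 608) (nat_lit 0) (XT.nd (nat_lit 78) (nat_lit 684) (nat_lit 0) (XT.lf (nat_lit 0) (nat_lit 11946969764) (nat_lit 760) (nat_lit 79740978) (nat_lit 76) (nat_lit 27279925421) (nat_lit 314) (nat_lit 5) (nat_lit 324) (nat_lit 5) (nat_lit 315) (nat_lit 5) (nat_lit 658) (nat_lit 607) (nat_lit 295)) (XT.lf (nat_lit 0) (nat_lit 18302843204) (nat_lit 760) (nat_lit 16894543089) (nat_lit 76) (nat_lit 4561874757) (nat_lit 305) (nat_lit 5) (nat_lit 315) (nat_lit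 5) (nat_lit 306) (nat_lit 5) (nat_lit 659) (nat_lit 607) (nat_lit 294))) (XT.nd (nat_lit 78) (nat_lit 0) (nat_lit 0) (XT.lf (nat_lit 0) (nat_lit 6046100491) (nat_lit 608) (nat_lit 18857735863) (nat_lit 684) (nat_lit 15314742069) (nat_lit 297) (nat_lit 5) (nat_lit 305) (nat_lit 5) (nat_lit 306) (nat_lit 5) (nat_lit 660) (nat_lit 607) (nat_lit 293)) (XT.lf (nat_lit 0) (nat_lit 29672814698) (nat_lit 608) (nat_lit 2075983990) (nat_lit 684) (nat_lit 8936044502) (nat_lit 297) (nat_lit 5) (nat_lit 305) (nat_lit 5) (nat_lit 306) (nat_lit 5) (nat_lit 661) (nat_lit 607) (nat_lit 292)))) (XT.nd (nat_lit 156) (nat_lit 1216) (nat_lit 0) (XT.nd (nat_lit 78) (nat_lit 76) (nat_lit 0) (XT.lf (nat_lit 0) (nat_lit 12678508411) (nat_lit 608) (nat_lit 26230731733) (nat_lit 684) (nat_lit 2247621544) (nat_lit 289) (nat_lit 5) (nat_lit 297) (nat_lit 5) (nat_lit 298) (nat_lit 5) (nat_lit 662) (nat_lit 607) (nat_lit 291)) (XT.lf (nat_lit 0) (nat_lit 4601318473) (nat_lit 684) (nat_lit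 4690405089) (nat_lit 76) (nat_lit 32344268104) (nat_lit 288) (nat_lit 5) (nat_lit 297) (nat_lit 5) (nat_lit 289) (nat_lit 5) (nat_lit 663) (nat_lit 607) (nat_lit 290))) (XT.nd (nat_lit 78) (nat_lit 608) (nat_lit 0) (XT.lf (nat_lit 0) (nat_lit 11737269472) (nat_lit 684) (nat_lit 22358060702) (nat_lit 76) (nat_lit 8025474409) (nat_lit 280) (nat_lit 5) (nat_lit 289) (nat_lit 5) (nat_lit 281) (nat_lit 5) (nat_lit 664) (nat_lit 607) (nat_lit 289)) (XT.lf (nat_lit 0) (nat_lit 2118158535) (nat_lit 608) (nat_lit 17003402897) (nat_lit 684) (nat_lit 23491639917) (nat_lit 272) (nat_lit 5) (nat_lit 280) (nat_lit 5) (nat_lit 281) (nat_lit 5) (nat_lit 665) (nat_lit 607) (nat_lit 288))))) (XT.nd (nat_lit 312) (nat_lit 1064) (nat_lit 0) (XT.nd (nat_lit 156) (nat_lit 684) (nat_lit 0) (XT.nd (nat_lit 78) (nat_lit 532) (nat_lit 0) (XT.lf (nat_lit 0) (nat_lit 26806025510) (nat_lit 684) (nat_lit 15731004143) (nat_lit 76) (nat_lit 575366702) (nat_lit 272) (nat_lit 5) (nat_lit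 281) (nat_lit 5) (nat_lit 273) (nat_lit 5) (nat_lit 666) (nat_lit 607) (nat_lit 287)) (XT.lf (nat_lit 0) (nat_lit 9539108752) (nat_lit 532) (nat_lit 25278299965) (nat_lit 608) (nat_lit 8800701976) (nat_lit 265) (nat_lit 5) (nat_lit 272) (nat_lit 5) (nat_lit 273) (nat_lit 5) (nat_lit 667) (nat_lit 607) (nat_lit 286))) (XT.nd (nat_lit 78) (nat_lit 684) (nat_lit 0) (XT.lf (nat_lit 0) (nat_lit 35526164686) (nat_lit 532) (nat_lit 7567123191) (nat_lit 608) (nat_lit 1038566104) (nat_lit 265) (nat_lit 5) (nat_lit 272) (nat_lit 5) (nat_lit 273) (nat_lit 5) (nat_lit 668) (nat_lit 607) (nat_lit 285)) (XT.lf (nat_lit 0) (nat_lit 6970545646) (nat_lit 684) (nat_lit 27160870708) (nat_lit 76) (nat_lit 10519923570) (nat_lit 256) (nat_lit 5) (nat_lit 265) (nat_lit 5) (nat_lit 257) (nat_lit 5) (nat_lit 669) (nat_lit 607) (nat_lit 284)))) (XT.nd (nat_lit 156) (nat_lit 532) (nat_lit 0) (XT.nd (nat_lit 78) (nat_lit 532) (nat_lit 0) (XT.lf (nat_lit 0) (nat_lit 15232924287) (nat_lit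 684) (nat_lit 1013923557) (nat_lit 76) (nat_lit 28932090649) (nat_lit 256) (nat_lit 5) (nat_lit 265) (nat_lit 5) (nat_lit 257) (nat_lit 5) (nat_lit 670) (nat_lit 607) (nat_lit 283)) (XT.lf (nat_lit 0) (nat_lit 23842157721) (nat_lit 608) (nat_lit 19732573450) (nat_lit 76) (nat_lit 2138725746) (nat_lit 249) (nat_lit 5) (nat_lit 257) (nat_lit 5) (nat_lit 250) (nat_lit 5) (nat_lit 671) (nat_lit 607) (nat_lit 282))) (XT.nd (nat_lit 78) (nat_lit 0) (nat_lit 0) (XT.lf (nat_lit 0) (nat_lit 7256663147) (nat_lit 532) (nat_lit 25527241044) (nat_lit 608) (nat_lit 13471554977) (nat_lit 242) (nat_lit 5) (nat_lit 249) (nat_lit 5) (nat_lit 250) (nat_lit 5) (nat_lit 672) (nat_lit 607) (nat_lit 281)) (XT.lf (nat_lit 0) (nat_lit 35051505471) (nat_lit 532) (nat_lit 6984178692) (nat_lit 608) (nat_lit 4769993354) (nat_lit 242) (nat_lit 5) (nat_lit 249) (nat_lit 5) (nat_lit 250) (nat_lit 5) (nat_lit 673) (nat_lit 607) (nat_lit 280))))))) (XT.nd (nat_lit 76206) (nat_lit 0) (nat_lit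 22116) (XT.nd (nat_lit 546) (nat_lit 1824) (nat_lit 0) (XT.nd (nat_lit 234) (nat_lit 988) (nat_lit 0) (XT.nd (nat_lit 78) (nat_lit 532) (nat_lit 0) (XT.lf (nat_lit 0) (nat_lit 4234188792) (nat_lit 532) (nat_lit 31222841216) (nat_lit 76) (nat_lit 11905688424) (nat_lit 235) (nat_lit 5) (nat_lit 242) (nat_lit 5) (nat_lit 236) (nat_lit 5) (nat_lit 674) (nat_lit 607) (nat_lit 279)) (XT.nd (nat_lit 78) (nat_lit 532) (nat_lit 0) (XT.lf (nat_lit 0) (nat_lit 13479104601) (nat_lit 532) (nat_lit 3258201629) (nat_lit 76) (nat_lit 31190472963) (nat_lit 235) (nat_lit 5) (nat_lit 242) (nat_lit 5) (nat_lit 236) (nat_lit 5) (nat_lit 675) (nat_lit 607) (nat_lit 278)) (XT.lf (nat_lit 0) (nat_lit 23090361768) (nat_lit 608) (nat_lit 22917383022) (nat_lit 76) (nat_lit 2492767540) (nat_lit 228) (nat_lit 5) (nat_lit 236) (nat_lit 5) (nat_lit 229) (nat_lit 5) (nat_lit 676) (nat_lit 607) (nat_lit 277)))) (XT.nd (nat_lit 156) (nat_lit 532) (nat_lit 0) (XT.nd (nat_lit 78) (nat_lit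 0) (nat_lit 0) (XT.lf (nat_lit 0) (nat_lit 5926296446) (nat_lit 456) (nat_lit 27137718716) (nat_lit 532) (nat_lit 16017281569) (nat_lit 222) (nat_lit 5) (nat_lit 228) (nat_lit 5) (nat_lit 229) (nat_lit 5) (nat_lit 677) (nat_lit 607) (nat_lit 276)) (XT.lf (nat_lit 0) (nat_lit 35655881471) (nat_lit 456) (nat_lit 7733901563) (nat_lit 532) (nat_lit 6280860980) (nat_lit 222) (nat_lit 5) (nat_lit 228) (nat_lit 5) (nat_lit 229) (nat_lit 5) (nat_lit 678) (nat_lit 607) (nat_lit 275))) (XT.nd (nat_lit 78) (nat_lit 0) (nat_lit 0) (XT.lf (nat_lit 0) (nat_lit 3783585709) (nat_lit 532) (nat_lit 34456993133) (nat_lit 76) (nat_lit 12027101985) (nat_lit 215) (nat_lit 5) (nat_lit 222) (nat_lit 5) (nat_lit 216) (nat_lit 5) (nat_lit 679) (nat_lit 607) (nat_lit 274)) (XT.lf (nat_lit 0) (nat_lit 14110063866) (nat_lit 532) (nat_lit 4547203831) (nat_lit 76) (nat_lit 32215663505) (nat_lit 215) (nat_lit 5) (nat_lit 222) (nat_lit 5) (nat_lit 216) (nat_lit 5) (nat_lit 680) (nat_lit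 607) (nat_lit 273))))) (XT.nd (nat_lit 312) (nat_lit 456) (nat_lit 0) (XT.nd (nat_lit 156) (nat_lit 456) (nat_lit 0) (XT.nd (nat_lit 78) (nat_lit 456) (nat_lit 0) (XT.lf (nat_lit 0) (nat_lit 24822438669) (nat_lit 532) (nat_lit 25192390604) (nat_lit 76) (nat_lit 1471869988) (nat_lit 209) (nat_lit 5) (nat_lit 216) (nat_lit 5) (nat_lit 210) (nat_lit 5) (nat_lit 681) (nat_lit 607) (nat_lit 272)) (XT.lf (nat_lit 0) (nat_lit 5650922263) (nat_lit 456) (nat_lit 30288010296) (nat_lit 532) (nat_lit 16170012713) (nat_lit 203) (nat_lit 5) (nat_lit 209) (nat_lit 5) (nat_lit 210) (nat_lit 5) (nat_lit 682) (nat_lit 607) (nat_lit 271))) (XT.nd (nat_lit 78) (nat_lit 456) (nat_lit 0) (XT.lf (nat_lit 0) (nat_lit 37451013326) (nat_lit 456) (nat_lit 9994716154) (nat_lit 532) (nat_lit 5294547280) (nat_lit 203) (nat_lit 5) (nat_lit 209) (nat_lit 5) (nat_lit 210) (nat_lit 5) (nat_lit 683) (nat_lit 607) (nat_lit 270)) (XT.lf (nat_lit 0) (nat_lit 5900090499) (nat_lit 456) (nat_lit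 36769344086) (nat_lit 76) (nat_lit 10710493157) (nat_lit 197) (nat_lit 5) (nat_lit 203) (nat_lit 5) (nat_lit 198) (nat_lit 5) (nat_lit 684) (nat_lit 607) (nat_lit 269)))) (XT.nd (nat_lit 75192) (nat_lit 0) (nat_lit 22040) (XT.nd (nat_lit 78) (nat_lit 456) (nat_lit 0) (XT.lf (nat_lit 0) (nat_lit 17416202711) (nat_lit 456) (nat_lit 4778143420) (nat_lit 76) (nat_lit 31833956179) (nat_lit 197) (nat_lit 5) (nat_lit 203) (nat_lit 5) (nat_lit 198) (nat_lit 5) (nat_lit 685) (nat_lit 607) (nat_lit 268)) (XT.lf (nat_lit 0) (nat_lit 28221473236) (nat_lit 456) (nat_lit 1123357977) (nat_lit 532) (nat_lit 25341169295) (nat_lit 191) (nat_lit 5) (nat_lit 197) (nat_lit 5) (nat_lit 198) (nat_lit 5) (nat_lit 686) (nat_lit 607) (nat_lit 267))) (XT.nd (nat_lit 78) (nat_lit 0) (nat_lit 0) (XT.lf (nat_lit 0) (nat_lit 1039984534) (nat_lit 1900) (nat_lit 5298286560) (nat_lit 1900) (nat_lit 5298286560) (nat_lit 481) (nat_lit 3) (nat_lit 506) (nat_lit 3) (nat_lit 506) (nat_lit 5)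 (nat_lit 608) (nat_lit 608) (nat_lit 344)) (XT.lf (nat_lit 76) (nat_lit 1006449651) (nat_lit 0) (nat_lit 1223348813) (nat_lit 1900) (nat_lit 21273463699) (nat_lit 482) (nat_lit 5) (nat_lit 481) (nat_lit 3) (nat_lit 506) (nat_lit 5) (nat_lit 609) (nat_lit 608) (nat_lit 343)))))) (XT.nd (nat_lit 624) (nat_lit 0) (nat_lit 304) (XT.nd (nat_lit 312) (nat_lit 0) (nat_lit 152) (XT.nd (nat_lit 156) (nat_lit 0) (nat_lit 76) (XT.nd (nat_lit 78) (nat_lit 0) (nat_lit 0) (XT.lf (nat_lit 0) (nat_lit 2518896396) (nat_lit 1824) (nat_lit 10821529882) (nat_lit 1900) (nat_lit 10394860333) (nat_lit 482) (nat_lit 5) (nat_lit 506) (nat_lit 5) (nat_lit 507) (nat_lit 5) (nat_lit 610) (nat_lit 608) (nat_lit 342)) (XT.lf (nat_lit 76) (nat_lit 1091774366) (nat_lit 0) (nat_lit 1734041382) (nat_lit 1900) (nat_lit 21145895105) (nat_lit 483) (nat_lit 5) (nat_lit 482) (nat_lit 5) (nat_lit 507) (nat_lit 5) (nat_lit 611) (nat_lit 608) (nat_lit 341))) (XT.nd (nat_lit 78) (nat_lit 0) (nat_lit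 0) (XT.lf (nat_lit 0) (nat_lit 3274486744) (nat_lit 1824) (nat_lit 10889224935) (nat_lit 1900) (nat_lit 10046439729) (nat_lit 483) (nat_lit 5) (nat_lit 507) (nat_lit 5) (nat_lit 508) (nat_lit 5) (nat_lit 612) (nat_lit 608) (nat_lit 340)) (XT.lf (nat_lit 76) (nat_lit 1345740029) (nat_lit 0) (nat_lit 2403582139) (nat_lit 1900) (nat_lit 20703694878) (nat_lit 484) (nat_lit 5) (nat_lit 483) (nat_lit 5) (nat_lit 508) (nat_lit 5) (nat_lit 613) (nat_lit 608) (nat_lit 339)))) (XT.nd (nat_lit 156) (nat_lit 0) (nat_lit 76) (XT.nd (nat_lit 78) (nat_lit 0) (nat_lit 0) (XT.lf (nat_lit 0) (nat_lit 4366513013) (nat_lit 1824) (nat_lit 10790811186) (nat_lit 1900) (nat_lit 9540758714) (nat_lit 484) (nat_lit 5) (nat_lit 508) (nat_lit 5) (nat_lit 509) (nat_lit 5) (nat_lit 614) (nat_lit 608) (nat_lit 338)) (XT.lf (nat_lit 76) (nat_lit 1777631813) (nat_lit 0) (nat_lit 3242959849) (nat_lit 1900) (nat_lit 19926967643) (nat_lit 485) (nat_lit 5) (nat_lit 484) (nat_lit 5) (nat_lit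 509) (nat_lit 5) (nat_lit 615) (nat_lit 608) (nat_lit 337))) (XT.nd (nat_lit 78) (nat_lit 0) (nat_lit 0) (XT.lf (nat_lit 0) (nat_lit 5815628988) (nat_lit 1824) (nat_lit 10516989878) (nat_lit 1900) (nat_lit 8866848903) (nat_lit 485) (nat_lit 5) (nat_lit 509) (nat_lit 5) (nat_lit 510) (nat_lit 5) (nat_lit 616) (nat_lit 608) (nat_lit 336)) (XT.lf (nat_lit 76) (nat_lit 2397203338) (nat_lit 0) (nat_lit 4263598532) (nat_lit 1900) (nat_lit 18794927921) (nat_lit 486) (nat_lit 5) (nat_lit 485) (nat_lit 5) (nat_lit 510) (nat_lit 5) (nat_lit 617) (nat_lit 608) (nat_lit 335))))) (XT.nd (nat_lit 312) (nat_lit 0) (nat_lit 152) (XT.nd (nat_lit 156) (nat_lit 0) (nat_lit 76) (XT.nd (nat_lit 78) (nat_lit 0) (nat_lit 0) (XT.lf (nat_lit 0) (nat_lit 7643409496) (nat_lit 1824) (nat_lit 10057993734) (nat_lit 1900) (nat_lit 8013303281) (nat_lit 486) (nat_lit 5) (nat_lit 510) (nat_lit 5) (nat_lit 511) (nat_lit 5) (nat_lit 618) (nat_lit 608) (nat_lit 334)) (XT.lf (nat_lit 76) (nat_lit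 3214694201) (nat_lit 0) (nat_lit 5477380977) (nat_lit 1900) (nat_lit 17285859551) (nat_lit 487) (nat_lit 5) (nat_lit 486) (nat_lit 5) (nat_lit 511) (nat_lit 5) (nat_lit 619) (nat_lit 608) (nat_lit 333))) (XT.nd (nat_lit 78) (nat_lit 0) (nat_lit 0) (XT.lf (nat_lit 0) (nat_lit 9872392087) (nat_lit 1824) (nat_lit 9403569289) (nat_lit 1900) (nat_lit 6968252656) (nat_lit 487) (nat_lit 5) (nat_lit 511) (nat_lit 5) (nat_lit 512) (nat_lit 5) (nat_lit 620) (nat_lit 608) (nat_lit 332)) (XT.lf (nat_lit 76) (nat_lit 4240848334) (nat_lit 0) (nat_lit 6896672993) (nat_lit 1900) (nat_lit 15377073551) (nat_lit 488) (nat_lit 5) (nat_lit 487) (nat_lit 5) (nat_lit 512) (nat_lit 5) (nat_lit 621) (nat_lit 608) (nat_lit 331)))) (XT.nd (nat_lit 156) (nat_lit 0) (nat_lit 76) (XT.nd (nat_lit 78) (nat_lit 0) (nat_lit 0) (XT.lf (nat_lit 0) (nat_lit 12526120315) (nat_lit 1824) (nat_lit 8542958391) (nat_lit 1900) (nat_lit 5719341371) (nat_lit 488) (nat_lit 5) (nat_lit 512) (nat_lit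 5) (nat_lit 513) (nat_lit 5) (nat_lit 622) (nat_lit 608) (nat_lit 330)) (XT.lf (nat_lit 76) (nat_lit 5486933227) (nat_lit 0) (nat_lit 8534348444) (nat_lit 1900) (nat_lit 13044864375) (nat_lit 489) (nat_lit 5) (nat_lit 488) (nat_lit 5) (nat_lit 513) (nat_lit 5) (nat_lit 623) (nat_lit 608) (nat_lit 329))) (XT.nd (nat_lit 78) (nat_lit 0) (nat_lit 0) (XT.lf (nat_lit 0) (nat_lit 15629188689) (nat_lit 1824) (nat_lit 7464878849) (nat_lit 1900) (nat_lit 4253702222) (nat_lit 489) (nat_lit 5) (nat_lit 513) (nat_lit 5) (nat_lit 514) (nat_lit 5) (nat_lit 624) (nat_lit 608) (nat_lit 328)) (XT.lf (nat_lit 76) (nat_lit 6964760024) (nat_lit 0) (nat_lit 10403815102) (nat_lit 1900) (nat_lit 10264464468) (nat_lit 490) (nat_lit 5) (nat_lit 489) (nat_lit 5) (nat_lit 514) (nat_lit 5) (nat_lit 625) (nat_lit 608) (nat_lit 327))))))))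
noncomputable def xc218 : XT := (XT.nd (nat_lit 2418) (nat_lit 9652) (nat_lit 0) (XT.nd (nat_lit 1170) (nat_lit 7144) (nat_lit 0) (XT.nd (nat_lit 546) (nat_lit 3724) (nat_lit 0) (XT.nd (nat_lit 234) (nat_lit 1748) (nat_lit 0) (XT.nd (nat_lit 78) (nat_lit 0) (nat_lit 0) (XT.lf (nat_lit 0) (nat_lit 19207289369) (nat_lit 1824) (nat_lit 6157504188) (nat_lit 1900) (nat_lit 2557930538) (nat_lit 490) (nat_lit 5) (nat_lit 514) (nat_lit 5) (nat_lit 515) (nat_lit 5) (nat_lit 626) (nat_lit 608) (nat_lit 326)) (XT.nd (nat_lit 78) (nat_lit 0) (nat_lit 76) (XT.lf (nat_lit 76) (nat_lit 8686704546) (nat_lit 0) (nat_lit 12519041388) (nat_lit 1900) (nat_lit 7009997061) (nat_lit 491) (nat_lit 5) (nat_lit 490) (nat_lit 5) (nat_lit 515) (nat_lit 5) (nat_lit 627) (nat_lit 608) (nat_lit 325)) (XT.lf (nat_lit 0) (nat_lit 23287260677) (nat_lit 1824) (nat_lit 4608442504) (nat_lit 1900) (nat_lit 618057377) (nat_lit 491) (nat_lit 5) (nat_lit 515) (nat_lit 5) (nat_lit 516) (nat_lit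 5) (nat_lit 628) (nat_lit 608) (nat_lit 324)))) (XT.nd (nat_lit 156) (nat_lit 1824) (nat_lit 0) (XT.nd (nat_lit 78) (nat_lit 0) (nat_lit 0) (XT.lf (nat_lit 76) (nat_lit 10665729237) (nat_lit 0) (nat_lit 14894584030) (nat_lit 1900) (nat_lit 3254427123) (nat_lit 492) (nat_lit 5) (nat_lit 491) (nat_lit 5) (nat_lit 516) (nat_lit 5) (nat_lit 629) (nat_lit 608) (nat_lit 323)) (XT.lf (nat_lit 76) (nat_lit 26306053465) (nat_lit 0) (nat_lit 1601481937) (nat_lit 1900) (nat_lit 1213630312) (nat_lit 492) (nat_lit 5) (nat_lit 491) (nat_lit 5) (nat_lit 516) (nat_lit 5) (nat_lit 630) (nat_lit 608) (nat_lit 322))) (XT.nd (nat_lit 78) (nat_lit 0) (nat_lit 0) (XT.lf (nat_lit 0) (nat_lit 1016974553) (nat_lit 1900) (nat_lit 16521817712) (nat_lit 1976) (nat_lit 11891607114) (nat_lit 467) (nat_lit 5) (nat_lit 492) (nat_lit 5) (nat_lit 493) (nat_lit 5) (nat_lit 631) (nat_lit 608) (nat_lit 321)) (XT.lf (nat_lit 0) (nat_lit 3303424212) (nat_lit 1900) (nat_lit 781126350) (nat_lit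 1976) (nat_lit 25660557112) (nat_lit 467) (nat_lit 5) (nat_lit 492) (nat_lit 5) (nat_lit 493) (nat_lit 5) (nat_lit 632) (nat_lit 608) (nat_lit 320))))) (XT.nd (nat_lit 312) (nat_lit 1748) (nat_lit 0) (XT.nd (nat_lit 156) (nat_lit 912) (nat_lit 0) (XT.nd (nat_lit 78) (nat_lit 1140) (nat_lit 0) (XT.lf (nat_lit 0) (nat_lit 5797217648) (nat_lit 1900) (nat_lit 14651839649) (nat_lit 76) (nat_lit 9613820602) (nat_lit 468) (nat_lit 5) (nat_lit 493) (nat_lit 5) (nat_lit 469) (nat_lit 5) (nat_lit 633) (nat_lit 608) (nat_lit 319)) (XT.lf (nat_lit 0) (nat_lit 1542052084) (nat_lit 1140) (nat_lit 6839093605) (nat_lit 1216) (nat_lit 22005052724) (nat_lit 453) (nat_lit 5) (nat_lit 468) (nat_lit 5) (nat_lit 469) (nat_lit 5) (nat_lit 634) (nat_lit 608) (nat_lit 318))) (XT.nd (nat_lit 78) (nat_lit 912) (nat_lit 0) (XT.lf (nat_lit 0) (nat_lit 11159404061) (nat_lit 1216) (nat_lit 12503821068) (nat_lit 76) (nat_lit 7049907232) (nat_lit 453) (nat_lit 5) (nat_lit 469) (nat_lit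 5) (nat_lit 454) (nat_lit 5) (nat_lit 635) (nat_lit 608) (nat_lit 317)) (XT.lf (nat_lit 0) (nat_lit 4170903243) (nat_lit 912) (nat_lit 9892687617) (nat_lit 988) (nat_lit 16981606917) (nat_lit 441) (nat_lit 5) (nat_lit 453) (nat_lit 5) (nat_lit 454) (nat_lit 5) (nat_lit 636) (nat_lit 608) (nat_lit 316)))) (XT.nd (nat_lit 156) (nat_lit 836) (nat_lit 0) (XT.nd (nat_lit 78) (nat_lit 912) (nat_lit 0) (XT.lf (nat_lit 0) (nat_lit 17135309808) (nat_lit 988) (nat_lit 10062979590) (nat_lit 76) (nat_lit 4183426194) (nat_lit 441) (nat_lit 5) (nat_lit 454) (nat_lit 5) (nat_lit 442) (nat_lit 5) (nat_lit 637) (nat_lit 608) (nat_lit 315)) (XT.lf (nat_lit 0) (nat_lit 7110492299) (nat_lit 912) (nat_lit 13267709972) (nat_lit 988) (nat_lit 11344566763) (nat_lit 429) (nat_lit 5) (nat_lit 441) (nat_lit 5) (nat_lit 442) (nat_lit 5) (nat_lit 638) (nat_lit 608) (nat_lit 314))) (XT.nd (nat_lit 78) (nat_lit 836) (nat_lit 0) (XT.lf (nat_lit 0) (nat_lit 23758126163) (nat_lit 988)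 (nat_lit 7313850401) (nat_lit 76) (nat_lit 997223563) (nat_lit 429) (nat_lit 5) (nat_lit 442) (nat_lit 5) (nat_lit 430) (nat_lit 5) (nat_lit 639) (nat_lit 608) (nat_lit 313)) (XT.lf (nat_lit 0) (nat_lit 10376973277) (nat_lit 836) (nat_lit 16982038377) (nat_lit 912) (nat_lit 5060480978) (nat_lit 418) (nat_lit 5) (nat_lit 429) (nat_lit 5) (nat_lit 430) (nat_lit 5) (nat_lit 640) (nat_lit 608) (nat_lit 312)))))) (XT.nd (nat_lit 624) (nat_lit 3724) (nat_lit 0) (XT.nd (nat_lit 312) (nat_lit 1596) (nat_lit 0) (XT.nd (nat_lit 156) (nat_lit 836) (nat_lit 0) (XT.nd (nat_lit 78) (nat_lit 988) (nat_lit 0) (XT.lf (nat_lit 0) (nat_lit 28518965023) (nat_lit 836) (nat_lit 2560178096) (nat_lit 912) (nat_lit 1696703354) (nat_lit 418) (nat_lit 5) (nat_lit 429) (nat_lit 5) (nat_lit 430) (nat_lit 5) (nat_lit 641) (nat_lit 608) (nat_lit 311)) (XT.lf (nat_lit 0) (nat_lit 1880601519) (nat_lit 988) (nat_lit 19161105629) (nat_lit 76) (nat_lit 12094015121) (nat_lit 405) (nat_lit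 5) (nat_lit 418) (nat_lit 5) (nat_lit 406) (nat_lit 5) (nat_lit 642) (nat_lit 608) (nat_lit 310))) (XT.nd (nat_lit 78) (nat_lit 836) (nat_lit 0) (XT.lf (nat_lit 0) (nat_lit 5550662085) (nat_lit 988) (nat_lit 903960322) (nat_lit 76) (nat_lit 27047070351) (nat_lit 405) (nat_lit 5) (nat_lit 418) (nat_lit 5) (nat_lit 406) (nat_lit 5) (nat_lit 643) (nat_lit 608) (nat_lit 309)) (XT.lf (nat_lit 0) (nat_lit 9464380235) (nat_lit 912) (nat_lit 15976150781) (nat_lit 76) (nat_lit 8431046559) (nat_lit 394) (nat_lit 5) (nat_lit 406) (nat_lit 5) (nat_lit 395) (nat_lit 5) (nat_lit 644) (nat_lit 608) (nat_lit 308)))) (XT.nd (nat_lit 156) (nat_lit 760) (nat_lit 0) (XT.nd (nat_lit 78) (nat_lit 0) (nat_lit 0) (XT.lf (nat_lit 0) (nat_lit 2826813143) (nat_lit 836) (nat_lit 10695021034) (nat_lit 912) (nat_lit 20725716731) (nat_lit 383) (nat_lit 5) (nat_lit 394) (nat_lit 5) (nat_lit 395) (nat_lit 5) (nat_lit 645) (nat_lit 608) (nat_lit 307)) (XT.lf (nat_lit 0) (nat_lit 17794846867)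 (nat_lit 912) (nat_lit 12437239092) (nat_lit 76) (nat_lit 4396269601) (nat_lit 383) (nat_lit 5) (nat_lit 395) (nat_lit 5) (nat_lit 384) (nat_lit 5) (nat_lit 646) (nat_lit 608) (nat_lit 306))) (XT.nd (nat_lit 78) (nat_lit 0) (nat_lit 0) (XT.lf (nat_lit 0) (nat_lit 6944400602) (nat_lit 760) (nat_lit 15323146666) (nat_lit 836) (nat_lit 12746944532) (nat_lit 373) (nat_lit 5) (nat_lit 383) (nat_lit 5) (nat_lit 384) (nat_lit 5) (nat_lit 647) (nat_lit 608) (nat_lit 305)) (XT.lf (nat_lit 0) (nat_lit 26880496774) (nat_lit 760) (nat_lit 30998805) (nat_lit 836) (nat_lit 8495219351) (nat_lit 373) (nat_lit 5) (nat_lit 383) (nat_lit 5) (nat_lit 384) (nat_lit 5) (nat_lit 648) (nat_lit 608) (nat_lit 304))))) (XT.nd (nat_lit 312) (nat_lit 1368) (nat_lit 0) (XT.nd (nat_lit 156) (nat_lit 1520) (nat_lit 0) (XT.nd (nat_lit 78) (nat_lit 76) (nat_lit 0) (XT.lf (nat_lit 0) (nat_lit 11455944059) (nat_lit 760) (nat_lit 20366195147) (nat_lit 836) (nat_lit 3981167036) (nat_lit 363)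 (nat_lit 5) (nat_lit 373) (nat_lit 5) (nat_lit 374) (nat_lit 5) (nat_lit 649) (nat_lit 608) (nat_lit 303)) (XT.lf (nat_lit 0) (nat_lit 671168464) (nat_lit 836) (nat_lit 4259764469) (nat_lit 76) (nat_lit 31275692064) (nat_lit 362) (nat_lit 5) (nat_lit 373) (nat_lit 5) (nat_lit 363) (nat_lit 5) (nat_lit 650) (nat_lit 608) (nat_lit 302))) (XT.nd (nat_lit 78) (nat_lit 760) (nat_lit 0) (XT.lf (nat_lit 0) (nat_lit 5539373621) (nat_lit 836) (nat_lit 20269677927) (nat_lit 76) (nat_lit 10804909695) (nat_lit 352) (nat_lit 5) (nat_lit 363) (nat_lit 5) (nat_lit 353) (nat_lit 5) (nat_lit 651) (nat_lit 608) (nat_lit 301)) (XT.lf (nat_lit 0) (nat_lit 359392679) (nat_lit 760) (nat_lit 10207739695) (nat_lit 836) (nat_lit 26461068091) (nat_lit 342) (nat_lit 5) (nat_lit 352) (nat_lit 5) (nat_lit 353) (nat_lit 5) (nat_lit 652) (nat_lit 608) (nat_lit 300)))) (XT.nd (nat_lit 156) (nat_lit 684) (nat_lit 0) (XT.nd (nat_lit 78) (nat_lit 684) (nat_lit 0) (XT.lf (nat_lit 0) (nat_lit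 15867856428) (nat_lit 836) (nat_lit 15811920288) (nat_lit 76) (nat_lit 5767499591) (nat_lit 342) (nat_lit 5) (nat_lit 353) (nat_lit 5) (nat_lit 343) (nat_lit 5) (nat_lit 653) (nat_lit 608) (nat_lit 299)) (XT.lf (nat_lit 0) (nat_lit 5464429429) (nat_lit 684) (nat_lit 15911720251) (nat_lit 760) (nat_lit 16496552929) (nat_lit 333) (nat_lit 5) (nat_lit 342) (nat_lit 5) (nat_lit 343) (nat_lit 5) (nat_lit 654) (nat_lit 608) (nat_lit 298))) (XT.nd (nat_lit 78) (nat_lit 684) (nat_lit 0) (XT.lf (nat_lit 0) (nat_lit 27101024874) (nat_lit 760) (nat_lit 10927450727) (nat_lit 76) (nat_lit 276033554) (nat_lit 333) (nat_lit 5) (nat_lit 343) (nat_lit 5) (nat_lit 334) (nat_lit 5) (nat_lit 655) (nat_lit 608) (nat_lit 297)) (XT.lf (nat_lit 0) (nat_lit 11020423029) (nat_lit 684) (nat_lit 22095423935) (nat_lit 760) (nat_lit 5625595915) (nat_lit 324) (nat_lit 5) (nat_lit 333) (nat_lit 5) (nat_lit 334) (nat_lit 5) (nat_lit 656) (nat_lit 608) (nat_lit 296))))))) (XT.nd (nat_lit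 1170) (nat_lit 4484) (nat_lit 0) (XT.nd (nat_lit 546) (nat_lit 2508) (nat_lit 0) (XT.nd (nat_lit 234) (nat_lit 1216) (nat_lit 0) (XT.nd (nat_lit 78) (nat_lit 1368) (nat_lit 0) (XT.lf (nat_lit 0) (nat_lit 135357401) (nat_lit 760) (nat_lit 5632902719) (nat_lit 76) (nat_lit 33417400010) (nat_lit 323) (nat_lit 5) (nat_lit 333) (nat_lit 5) (nat_lit 324) (nat_lit 5) (nat_lit 657) (nat_lit 608) (nat_lit 295)) (XT.nd (nat_lit 78) (nat_lit 684) (nat_lit 0) (XT.lf (nat_lit 0) (nat_lit 6117395443) (nat_lit 760) (nat_lit 22625425601) (nat_lit 76) (nat_lit 10891573167) (nat_lit 314) (nat_lit 5) (nat_lit 324) (nat_lit 5) (nat_lit 315) (nat_lit 5) (nat_lit 658) (nat_lit 608) (nat_lit 294)) (XT.lf (nat_lit 0) (nat_lit 49165733) (nat_lit 684) (nat_lit 12245052635) (nat_lit 760) (nat_lit 27796381756) (nat_lit 305) (nat_lit 5) (nat_lit 314) (nat_lit 5) (nat_lit 315) (nat_lit 5) (nat_lit 659) (nat_lit 608) (nat_lit 293)))) (XT.nd (nat_lit 156) (nat_lit 608) (nat_lit 0) (XT.nd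 (nat_lit 78) (nat_lit 608) (nat_lit 0) (XT.lf (nat_lit 0) (nat_lit 18775754914) (nat_lit 760) (nat_lit 17101439562) (nat_lit 76) (nat_lit 4675112169) (nat_lit 305) (nat_lit 5) (nat_lit 315) (nat_lit 5) (nat_lit 306) (nat_lit 5) (nat_lit 660) (nat_lit 608) (nat_lit 292)) (XT.lf (nat_lit 0) (nat_lit 6297155084) (nat_lit 608) (nat_lit 19210362558) (nat_lit 684) (nat_lit 15513317779) (nat_lit 297) (nat_lit 5) (nat_lit 305) (nat_lit 5) (nat_lit 306) (nat_lit 5) (nat_lit 661) (nat_lit 608) (nat_lit 291))) (XT.nd (nat_lit 78) (nat_lit 608) (nat_lit 0) (XT.lf (nat_lit 0) (nat_lit 30393851956) (nat_lit 608) (nat_lit 2093456589) (nat_lit 684) (nat_lit 9009158401) (nat_lit 297) (nat_lit 5) (nat_lit 305) (nat_lit 5) (nat_lit 306) (nat_lit 5) (nat_lit 662) (nat_lit 608) (nat_lit 290)) (XT.lf (nat_lit 0) (nat_lit 13060724561) (nat_lit 608) (nat_lit 26729192516) (nat_lit 684) (nat_lit 2188029620) (nat_lit 289) (nat_lit 5) (nat_lit 297) (nat_lit 5) (nat_lit 298) (nat_lit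 5) (nat_lit 663) (nat_lit 608) (nat_lit 289))))) (XT.nd (nat_lit 312) (nat_lit 1216) (nat_lit 0) (XT.nd (nat_lit 156) (nat_lit 608) (nat_lit 0) (XT.nd (nat_lit 78) (nat_lit 608) (nat_lit 0) (XT.lf (nat_lit 0) (nat_lit 4794495075) (nat_lit 684) (nat_lit 4656743156) (nat_lit 76) (nat_lit 33015447974) (nat_lit 288) (nat_lit 5) (nat_lit 297) (nat_lit 5) (nat_lit 289) (nat_lit 5) (nat_lit 664) (nat_lit 608) (nat_lit 288)) (XT.lf (nat_lit 0) (nat_lit 12072176911) (nat_lit 684) (nat_lit 22676761453) (nat_lit 76) (nat_lit 8212276824) (nat_lit 280) (nat_lit 5) (nat_lit 289) (nat_lit 5) (nat_lit 281) (nat_lit 5) (nat_lit 665) (nat_lit 608) (nat_lit 287))) (XT.nd (nat_lit 78) (nat_lit 0) (nat_lit 0) (XT.lf (nat_lit 0) (nat_lit 2288137034) (nat_lit 608) (nat_lit 17314882278) (nat_lit 684) (nat_lit 23860463330) (nat_lit 272) (nat_lit 5) (nat_lit 280) (nat_lit 5) (nat_lit 281) (nat_lit 5) (nat_lit 666) (nat_lit 608) (nat_lit 286)) (XT.lf (nat_lit 0) (nat_lit 27439412950)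 (nat_lit 684) (nat_lit 15918749279) (nat_lit 76) (nat_lit 614534557) (nat_lit 272) (nat_lit 5) (nat_lit 281) (nat_lit 5) (nat_lit 273) (nat_lit 5) (nat_lit 667) (nat_lit 608) (nat_lit 285)))) (XT.nd (nat_lit 156) (nat_lit 684) (nat_lit 0) (XT.nd (nat_lit 78) (nat_lit 0) (nat_lit 0) (XT.lf (nat_lit 0) (nat_lit 9855931170) (nat_lit 532) (nat_lit 25754003793) (nat_lit 608) (nat_lit 8878612267) (nat_lit 265) (nat_lit 5) (nat_lit 272) (nat_lit 5) (nat_lit 273) (nat_lit 5) (nat_lit 668) (nat_lit 608) (nat_lit 284)) (XT.lf (nat_lit 0) (nat_lit 36360256846) (nat_lit 532) (nat_lit 7689189016) (nat_lit 608) (nat_lit 963157280) (nat_lit 265) (nat_lit 5) (nat_lit 272) (nat_lit 5) (nat_lit 273) (nat_lit 5) (nat_lit 669) (nat_lit 608) (nat_lit 283))) (XT.nd (nat_lit 78) (nat_lit 0) (nat_lit 0) (XT.lf (nat_lit 0) (nat_lit 7204015038) (nat_lit 684) (nat_lit 27578393563) (nat_lit 76) (nat_lit 10760074959) (nat_lit 256) (nat_lit 5) (nat_lit 265) (nat_lit 5) (nat_lit 257)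 (nat_lit 5) (nat_lit 670) (nat_lit 608) (nat_lit 282)) (XT.lf (nat_lit 0) (nat_lit 15629796968) (nat_lit 684) (nat_lit 910972069) (nat_lit 76) (nat_lit 29539901989) (nat_lit 256) (nat_lit 5) (nat_lit 265) (nat_lit 5) (nat_lit 257) (nat_lit 5) (nat_lit 671) (nat_lit 608) (nat_lit 281)))))) (XT.nd (nat_lit 624) (nat_lit 1900) (nat_lit 0) (XT.nd (nat_lit 312) (nat_lit 988) (nat_lit 0) (XT.nd (nat_lit 156) (nat_lit 532) (nat_lit 0) (XT.nd (nat_lit 78) (nat_lit 532) (nat_lit 0) (XT.lf (nat_lit 0) (nat_lit 24410404466) (nat_lit 608) (nat_lit 20003182439) (nat_lit 76) (nat_lit 2212309163) (nat_lit 249) (nat_lit 5) (nat_lit 257) (nat_lit 5) (nat_lit 250) (nat_lit 5) (nat_lit 672) (nat_lit 608) (nat_lit 280)) (XT.lf (nat_lit 0) (nat_lit 7525022821) (nat_lit 532) (nat_lit 26004970885) (nat_lit 608) (nat_lit 13648764538) (nat_lit 242) (nat_lit 5) (nat_lit 249) (nat_lit 5) (nat_lit 250) (nat_lit 5) (nat_lit 673) (nat_lit 608) (nat_lit 279))) (XT.nd (nat_lit 78) (nat_lit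 532) (nat_lit 0) (XT.lf (nat_lit 0) (nat_lit 35873345787) (nat_lit 532) (nat_lit 7091690716) (nat_lit 608) (nat_lit 4774979948) (nat_lit 242) (nat_lit 5) (nat_lit 249) (nat_lit 5) (nat_lit 250) (nat_lit 5) (nat_lit 674) (nat_lit 608) (nat_lit 278)) (XT.lf (nat_lit 0) (nat_lit 4407351181) (nat_lit 532) (nat_lit 31724549597) (nat_lit 76) (nat_lit 12176300680) (nat_lit 235) (nat_lit 5) (nat_lit 242) (nat_lit 5) (nat_lit 236) (nat_lit 5) (nat_lit 675) (nat_lit 608) (nat_lit 277)))) (XT.nd (nat_lit 156) (nat_lit 456) (nat_lit 0) (XT.nd (nat_lit 78) (nat_lit 532) (nat_lit 0) (XT.lf (nat_lit 0) (nat_lit 13835430431) (nat_lit 532) (nat_lit 3203024051) (nat_lit 76) (nat_lit 31846143684) (nat_lit 235) (nat_lit 5) (nat_lit 242) (nat_lit 5) (nat_lit 236) (nat_lit 5) (nat_lit 676) (nat_lit 608) (nat_lit 276)) (XT.lf (nat_lit 0) (nat_lit 23638207084) (nat_lit 608) (nat_lit 23254681713) (nat_lit 76) (nat_lit 2575911317) (nat_lit 228) (nat_lit 5) (nat_lit 236) (nat_lit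 5) (nat_lit 229) (nat_lit 5) (nat_lit 677) (nat_lit 608) (nat_lit 275))) (XT.nd (nat_lit 78) (nat_lit 0) (nat_lit 0) (XT.lf (nat_lit 0) (nat_lit 6165074969) (nat_lit 456) (nat_lit 27645352315) (nat_lit 532) (nat_lit 16250791077) (nat_lit 222) (nat_lit 5) (nat_lit 228) (nat_lit 5) (nat_lit 229) (nat_lit 5) (nat_lit 678) (nat_lit 608) (nat_lit 274)) (XT.lf (nat_lit 0) (nat_lit 36486893801) (nat_lit 456) (nat_lit 7854147462) (nat_lit 532) (nat_lit 6321344745) (nat_lit 222) (nat_lit 5) (nat_lit 228) (nat_lit 5) (nat_lit 229) (nat_lit 5) (nat_lit 679) (nat_lit 608) (nat_lit 273))))) (XT.nd (nat_lit 312) (nat_lit 456) (nat_lit 0) (XT.nd (nat_lit 156) (nat_lit 912) (nat_lit 0) (XT.nd (nat_lit 78) (nat_lit 0) (nat_lit 0) (XT.lf (nat_lit 0) (nat_lit 3942622419) (nat_lit 532) (nat_lit 35026466661) (nat_lit 76) (nat_lit 12302276492) (nat_lit 215) (nat_lit 5) (nat_lit 222) (nat_lit 5) (nat_lit 216) (nat_lit 5) (nat_lit 680) (nat_lit 608) (nat_lit 272)) (XT.lf (nat_lit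 0) (nat_lit 14473995531) (nat_lit 532) (nat_lit 4520827971) (nat_lit 76) (nat_lit 32893930174) (nat_lit 215) (nat_lit 5) (nat_lit 222) (nat_lit 5) (nat_lit 216) (nat_lit 5) (nat_lit 681) (nat_lit 608) (nat_lit 271))) (XT.nd (nat_lit 78) (nat_lit 456) (nat_lit 0) (XT.lf (nat_lit 0) (nat_lit 25400003533) (nat_lit 532) (nat_lit 25578302672) (nat_lit 76) (nat_lit 1536503210) (nat_lit 209) (nat_lit 5) (nat_lit 216) (nat_lit 5) (nat_lit 210) (nat_lit 5) (nat_lit 682) (nat_lit 608) (nat_lit 270)) (XT.lf (nat_lit 0) (nat_lit 5881100560) (nat_lit 456) (nat_lit 30856896908) (nat_lit 532) (nat_lit 16411519503) (nat_lit 203) (nat_lit 5) (nat_lit 209) (nat_lit 5) (nat_lit 210) (nat_lit 5) (nat_lit 683) (nat_lit 608) (nat_lit 269)))) (XT.nd (nat_lit 75348) (nat_lit 0) (nat_lit 21584) (XT.nd (nat_lit 78) (nat_lit 456) (nat_lit 0) (XT.lf (nat_lit 0) (nat_lit 38314896192) (nat_lit 456) (nat_lit 10158459895) (nat_lit 532) (nat_lit 5320150515) (nat_lit 203) (nat_lit 5) (nat_lit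 209) (nat_lit 5) (nat_lit 210) (nat_lit 5) (nat_lit 684) (nat_lit 608) (nat_lit 268)) (XT.lf (nat_lit 0) (nat_lit 6096759516) (nat_lit 456) (nat_lit 37388245045) (nat_lit 76) (nat_lit 10960946997) (nat_lit 197) (nat_lit 5) (nat_lit 203) (nat_lit 5) (nat_lit 198) (nat_lit 5) (nat_lit 685) (nat_lit 608) (nat_lit 267))) (XT.nd (nat_lit 78) (nat_lit 0) (nat_lit 0) (XT.lf (nat_lit 0) (nat_lit 1182484071) (nat_lit 1900) (nat_lit 5342183529) (nat_lit 1900) (nat_lit 5342183529) (nat_lit 481) (nat_lit 3) (nat_lit 506) (nat_lit 3) (nat_lit 506) (nat_lit 5) (nat_lit 609) (nat_lit 609) (nat_lit 342)) (XT.lf (nat_lit 76) (nat_lit 1149899475) (nat_lit 0) (nat_lit 1363922787) (nat_lit 1900) (nat_lit 21454709366) (nat_lit 482) (nat_lit 5) (nat_lit 481) (nat_lit 3) (nat_lit 506) (nat_lit 5) (nat_lit 610) (nat_lit 609) (nat_lit 341))))))))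
noncomputable def xc219 : XT := (XT.nd (nat_lit 2418) (nat_lit 12312) (nat_lit 0) (XT.nd (nat_lit 1170) (nat_lit 4864) (nat_lit 0) (XT.nd (nat_lit 546) (nat_lit 0) (nat_lit 228) (XT.nd (nat_lit 234) (nat_lit 0) (nat_lit 76) (XT.nd (nat_lit 78) (nat_lit 0) (nat_lit 0) (XT.lf (nat_lit 0) (nat_lit 2803268427) (nat_lit 1824) (nat_lit 10911616898) (nat_lit 1900) (nat_lit 10490420056) (nat_lit 482) (nat_lit 5) (nat_lit 506) (nat_lit 5) (nat_lit 507) (nat_lit 5) (nat_lit 611) (nat_lit 609) (nat_lit 340)) (XT.nd (nat_lit 78) (nat_lit 0) (nat_lit 76) (XT.lf (nat_lit 76) (nat_lit 1239122227) (nat_lit 0) (nat_lit 1873430729) (nat_lit 1900) (nat_lit 21333980755) (nat_lit 483) (nat_lit 5) (nat_lit 482) (nat_lit 5) (nat_lit 507) (nat_lit 5) (nat_lit 612) (nat_lit 609) (nat_lit 339)) (XT.lf (nat_lit 0) (nat_lit 3565016730) (nat_lit 1824) (nat_lit 10978770640) (nat_lit 1900) (nat_lit 10146059457) (nat_lit 483) (nat_lit 5) (nat_lit 507) (nat_lit 5) (nat_lit 508) (nat_lit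 5) (nat_lit 613) (nat_lit 609) (nat_lit 338)))) (XT.nd (nat_lit 156) (nat_lit 0) (nat_lit 76) (XT.nd (nat_lit 78) (nat_lit 0) (nat_lit 76) (XT.lf (nat_lit 76) (nat_lit 1500049947) (nat_lit 0) (nat_lit 2545713495) (nat_lit 1900) (nat_lit 20891878177) (nat_lit 484) (nat_lit 5) (nat_lit 483) (nat_lit 5) (nat_lit 508) (nat_lit 5) (nat_lit 614) (nat_lit 609) (nat_lit 337)) (XT.lf (nat_lit 0) (nat_lit 4670357129) (nat_lit 1824) (nat_lit 10876782720) (nat_lit 1900) (nat_lit 9640567905) (nat_lit 484) (nat_lit 5) (nat_lit 508) (nat_lit 5) (nat_lit 509) (nat_lit 5) (nat_lit 615) (nat_lit 609) (nat_lit 336))) (XT.nd (nat_lit 78) (nat_lit 0) (nat_lit 76) (XT.lf (nat_lit 76) (nat_lit 1942174898) (nat_lit 0) (nat_lit 3391934575) (nat_lit 1900) (nat_lit 20108132486) (nat_lit 485) (nat_lit 5) (nat_lit 484) (nat_lit 5) (nat_lit 509) (nat_lit 5) (nat_lit 616) (nat_lit 609) (nat_lit 335)) (XT.lf (nat_lit 0) (nat_lit 6140333571) (nat_lit 1824) (nat_lit 10596148191) (nat_lit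 1900) (nat_lit 8962801235) (nat_lit 485) (nat_lit 5) (nat_lit 509) (nat_lit 5) (nat_lit 510) (nat_lit 5) (nat_lit 617) (nat_lit 609) (nat_lit 334))))) (XT.nd (nat_lit 312) (nat_lit 0) (nat_lit 152) (XT.nd (nat_lit 156) (nat_lit 0) (nat_lit 76) (XT.nd (nat_lit 78) (nat_lit 0) (nat_lit 76) (XT.lf (nat_lit 76) (nat_lit 2575465853) (nat_lit 0) (nat_lit 4423704053) (nat_lit 1900) (nat_lit 18961565276) (nat_lit 486) (nat_lit 5) (nat_lit 485) (nat_lit 5) (nat_lit 510) (nat_lit 5) (nat_lit 618) (nat_lit 609) (nat_lit 333)) (XT.lf (nat_lit 0) (nat_lit 7996930755) (nat_lit 1824) (nat_lit 10126885451) (nat_lit 1900) (nat_lit 8101165331) (nat_lit 486) (nat_lit 5) (nat_lit 510) (nat_lit 5) (nat_lit 511) (nat_lit 5) (nat_lit 619) (nat_lit 609) (nat_lit 332))) (XT.nd (nat_lit 78) (nat_lit 0) (nat_lit 76) (XT.lf (nat_lit 76) (nat_lit 3410386057) (nat_lit 0) (nat_lit 5653102442) (nat_lit 1900) (nat_lit 17430047563) (nat_lit 487) (nat_lit 5) (nat_lit 486) (nat_lit 5) (nat_lit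 511) (nat_lit 5) (nat_lit 620) (nat_lit 609) (nat_lit 331)) (XT.lf (nat_lit 0) (nat_lit 10263116569) (nat_lit 1824) (nat_lit 9458518147) (nat_lit 1900) (nat_lit 7043592255) (nat_lit 487) (nat_lit 5) (nat_lit 511) (nat_lit 5) (nat_lit 512) (nat_lit 5) (nat_lit 621) (nat_lit 609) (nat_lit 330)))) (XT.nd (nat_lit 156) (nat_lit 0) (nat_lit 76) (XT.nd (nat_lit 78) (nat_lit 0) (nat_lit 76) (XT.lf (nat_lit 76) (nat_lit 4457912022) (nat_lit 0) (nat_lit 7092705268) (nat_lit 1900) (nat_lit 15490456881) (nat_lit 488) (nat_lit 5) (nat_lit 487) (nat_lit 5) (nat_lit 512) (nat_lit 5) (nat_lit 622) (nat_lit 609) (nat_lit 329)) (XT.lf (nat_lit 0) (nat_lit 12962886172) (nat_lit 1824) (nat_lit 8580056243) (nat_lit 1900) (nat_lit 5777515612) (nat_lit 488) (nat_lit 5) (nat_lit 512) (nat_lit 5) (nat_lit 513) (nat_lit 5) (nat_lit 623) (nat_lit 609) (nat_lit 328))) (XT.nd (nat_lit 78) (nat_lit 0) (nat_lit 76) (XT.lf (nat_lit 76) (nat_lit 5729553198) (nat_lit 0) (nat_lit 8755608478)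 (nat_lit 1900) (nat_lit 13118632730) (nat_lit 489) (nat_lit 5) (nat_lit 488) (nat_lit 5) (nat_lit 513) (nat_lit 5) (nat_lit 624) (nat_lit 609) (nat_lit 327)) (XT.lf (nat_lit 0) (nat_lit 16121307775) (nat_lit 1824) (nat_lit 7479976209) (nat_lit 1900) (nat_lit 4289845099) (nat_lit 489) (nat_lit 5) (nat_lit 513) (nat_lit 5) (nat_lit 514) (nat_lit 5) (nat_lit 625) (nat_lit 609) (nat_lit 326)))))) (XT.nd (nat_lit 624) (nat_lit 3724) (nat_lit 0) (XT.nd (nat_lit 312) (nat_lit 1672) (nat_lit 0) (XT.nd (nat_lit 156) (nat_lit 0) (nat_lit 76) (XT.nd (nat_lit 78) (nat_lit 0) (nat_lit 76) (XT.lf (nat_lit 76) (nat_lit 7237372545) (nat_lit 0) (nat_lit 10655454680) (nat_lit 1900) (nat_lit 10289330289) (nat_lit 490) (nat_lit 5) (nat_lit 489) (nat_lit 5) (nat_lit 514) (nat_lit 5) (nat_lit 626) (nat_lit 609) (nat_lit 325)) (XT.lf (nat_lit 0) (nat_lit 19764570210) (nat_lit 1824) (nat_lit 6146200316) (nat_lit 1900) (nat_lit 2566940192) (nat_lit 490) (nat_lit 5) (nat_lit 514)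 (nat_lit 5) (nat_lit 515) (nat_lit 5) (nat_lit 627) (nat_lit 609) (nat_lit 324))) (XT.nd (nat_lit 78) (nat_lit 0) (nat_lit 76) (XT.lf (nat_lit 76) (nat_lit 8994008027) (nat_lit 0) (nat_lit 12806460295) (nat_lit 1900) (nat_lit 6976172327) (nat_lit 491) (nat_lit 5) (nat_lit 490) (nat_lit 5) (nat_lit 515) (nat_lit 5) (nat_lit 628) (nat_lit 609) (nat_lit 323)) (XT.lf (nat_lit 0) (nat_lit 23920032356) (nat_lit 1824) (nat_lit 4566075010) (nat_lit 1900) (nat_lit 594582918) (nat_lit 491) (nat_lit 5) (nat_lit 515) (nat_lit 5) (nat_lit 516) (nat_lit 5) (nat_lit 629) (nat_lit 609) (nat_lit 322)))) (XT.nd (nat_lit 156) (nat_lit 1824) (nat_lit 0) (XT.nd (nat_lit 78) (nat_lit 0) (nat_lit 0) (XT.lf (nat_lit 76) (nat_lit 11012695059) (nat_lit 0) (nat_lit 15223443662) (nat_lit 1900) (nat_lit 3151599234) (nat_lit 492) (nat_lit 5) (nat_lit 491) (nat_lit 5) (nat_lit 516) (nat_lit 5) (nat_lit 630) (nat_lit 609) (nat_lit 321)) (XT.lf (nat_lit 76) (nat_lit 26963205159) (nat_lit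 0) (nat_lit 1663872313) (nat_lit 1900) (nat_lit 1073278965) (nat_lit 492) (nat_lit 5) (nat_lit 491) (nat_lit 5) (nat_lit 516) (nat_lit 5) (nat_lit 631) (nat_lit 609) (nat_lit 320))) (XT.nd (nat_lit 78) (nat_lit 0) (nat_lit 0) (XT.lf (nat_lit 0) (nat_lit 1197271808) (nat_lit 1900) (nat_lit 16716548001) (nat_lit 1976) (nat_lit 12101983823) (nat_lit 467) (nat_lit 5) (nat_lit 492) (nat_lit 5) (nat_lit 493) (nat_lit 5) (nat_lit 632) (nat_lit 609) (nat_lit 319)) (XT.lf (nat_lit 0) (nat_lit 3526314033) (nat_lit 1900) (nat_lit 663703715) (nat_lit 1976) (nat_lit 26146851163) (nat_lit 467) (nat_lit 5) (nat_lit 492) (nat_lit 5) (nat_lit 493) (nat_lit 5) (nat_lit 633) (nat_lit 609) (nat_lit 318))))) (XT.nd (nat_lit 312) (nat_lit 1748) (nat_lit 0) (XT.nd (nat_lit 156) (nat_lit 912) (nat_lit 0) (XT.nd (nat_lit 78) (nat_lit 1140) (nat_lit 0) (XT.lf (nat_lit 0) (nat_lit 6067620883) (nat_lit 1900) (nat_lit 14809464425) (nat_lit 76) (nat_lit 9783956570) (nat_lit 468) (nat_lit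 5) (nat_lit 493) (nat_lit 5) (nat_lit 469) (nat_lit 5) (nat_lit 634) (nat_lit 609) (nat_lit 317)) (XT.lf (nat_lit 0) (nat_lit 1707414275) (nat_lit 1140) (nat_lit 6993658004) (nat_lit 1216) (nat_lit 22289799713) (nat_lit 453) (nat_lit 5) (nat_lit 468) (nat_lit 5) (nat_lit 469) (nat_lit 5) (nat_lit 635) (nat_lit 609) (nat_lit 316))) (XT.nd (nat_lit 78) (nat_lit 912) (nat_lit 0) (XT.lf (nat_lit 0) (nat_lit 11531796280) (nat_lit 1216) (nat_lit 12618910240) (nat_lit 76) (nat_lit 7173700174) (nat_lit 453) (nat_lit 5) (nat_lit 469) (nat_lit 5) (nat_lit 454) (nat_lit 5) (nat_lit 636) (nat_lit 609) (nat_lit 315)) (XT.lf (nat_lit 0) (nat_lit 4388420483) (nat_lit 912) (nat_lit 10103591422) (nat_lit 988) (nat_lit 17171142695) (nat_lit 441) (nat_lit 5) (nat_lit 453) (nat_lit 5) (nat_lit 454) (nat_lit 5) (nat_lit 637) (nat_lit 609) (nat_lit 314)))) (XT.nd (nat_lit 156) (nat_lit 836) (nat_lit 0) (XT.nd (nat_lit 78) (nat_lit 912) (nat_lit 0) (XT.lf (nat_lit 0) (nat_lit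 17622196885) (nat_lit 988) (nat_lit 10129796989) (nat_lit 76) (nat_lit 4254468346) (nat_lit 441) (nat_lit 5) (nat_lit 454) (nat_lit 5) (nat_lit 442) (nat_lit 5) (nat_lit 638) (nat_lit 609) (nat_lit 313)) (XT.lf (nat_lit 0) (nat_lit 7386259850) (nat_lit 912) (nat_lit 13541727416) (nat_lit 988) (nat_lit 11426388743) (nat_lit 429) (nat_lit 5) (nat_lit 441) (nat_lit 5) (nat_lit 442) (nat_lit 5) (nat_lit 639) (nat_lit 609) (nat_lit 312))) (XT.nd (nat_lit 78) (nat_lit 836) (nat_lit 0) (XT.lf (nat_lit 0) (nat_lit 24372665845) (nat_lit 988) (nat_lit 7326340783) (nat_lit 76) (nat_lit 1008786050) (nat_lit 429) (nat_lit 5) (nat_lit 442) (nat_lit 5) (nat_lit 430) (nat_lit 5) (nat_lit 640) (nat_lit 609) (nat_lit 311)) (XT.lf (nat_lit 0) (nat_lit 10717419193) (nat_lit 836) (nat_lit 17326279884) (nat_lit 912) (nat_lit 5021429431) (nat_lit 418) (nat_lit 5) (nat_lit 429) (nat_lit 5) (nat_lit 430) (nat_lit 5) (nat_lit 641) (nat_lit 609) (nat_lit 310))))))) (XT.nd (nat_lit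 1170) (nat_lit 5852) (nat_lit 0) (XT.nd (nat_lit 546) (nat_lit 3040) (nat_lit 0) (XT.nd (nat_lit 234) (nat_lit 2432) (nat_lit 0) (XT.nd (nat_lit 78) (nat_lit 988) (nat_lit 0) (XT.lf (nat_lit 0) (nat_lit 29219644765) (nat_lit 836) (nat_lit 2615892187) (nat_lit 912) (nat_lit 1593126474) (nat_lit 418) (nat_lit 5) (nat_lit 429) (nat_lit 5) (nat_lit 430) (nat_lit 5) (nat_lit 642) (nat_lit 609) (nat_lit 309)) (XT.nd (nat_lit 78) (nat_lit 0) (nat_lit 0) (XT.lf (nat_lit 0) (nat_lit 2052094901) (nat_lit 988) (nat_lit 19410390410) (nat_lit 76) (nat_lit 12333270165) (nat_lit 405) (nat_lit 5) (nat_lit 418) (nat_lit 5) (nat_lit 406) (nat_lit 5) (nat_lit 643) (nat_lit 609) (nat_lit 308)) (XT.lf (nat_lit 0) (nat_lit 5792931554) (nat_lit 988) (nat_lit 790728418) (nat_lit 76) (nat_lit 27585437976) (nat_lit 405) (nat_lit 5) (nat_lit 418) (nat_lit 5) (nat_lit 406) (nat_lit 5) (nat_lit 644) (nat_lit 609) (nat_lit 307)))) (XT.nd (nat_lit 156) (nat_lit 760) (nat_lit 0) (XT.nd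 (nat_lit 78) (nat_lit 836) (nat_lit 0) (XT.lf (nat_lit 0) (nat_lit 9783203324) (nat_lit 912) (nat_lit 16162638473) (nat_lit 76) (nat_lit 8600573150) (nat_lit 394) (nat_lit 5) (nat_lit 406) (nat_lit 5) (nat_lit 395) (nat_lit 5) (nat_lit 645) (nat_lit 609) (nat_lit 306)) (XT.lf (nat_lit 0) (nat_lit 3015509497) (nat_lit 836) (nat_lit 10904615006) (nat_lit 912) (nat_lit 21009816947) (nat_lit 383) (nat_lit 5) (nat_lit 394) (nat_lit 5) (nat_lit 395) (nat_lit 5) (nat_lit 646) (nat_lit 609) (nat_lit 305))) (XT.nd (nat_lit 78) (nat_lit 760) (nat_lit 0) (XT.lf (nat_lit 0) (nat_lit 18276117925) (nat_lit 912) (nat_lit 12553932298) (nat_lit 76) (nat_lit 4488361629) (nat_lit 383) (nat_lit 5) (nat_lit 395) (nat_lit 5) (nat_lit 384) (nat_lit 5) (nat_lit 647) (nat_lit 609) (nat_lit 304)) (XT.lf (nat_lit 0) (nat_lit 7214471428) (nat_lit 760) (nat_lit 15622194316) (nat_lit 836) (nat_lit 12875637271) (nat_lit 373) (nat_lit 5) (nat_lit 383) (nat_lit 5) (nat_lit 384) (nat_lit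 5) (nat_lit 648) (nat_lit 609) (nat_lit 303))))) (XT.nd (nat_lit 312) (nat_lit 1444) (nat_lit 0) (XT.nd (nat_lit 156) (nat_lit 836) (nat_lit 0) (XT.nd (nat_lit 78) (nat_lit 760) (nat_lit 0) (XT.lf (nat_lit 0) (nat_lit 27546717312) (nat_lit 760) (nat_lit 24348895) (nat_lit 836) (nat_lit 8541353001) (nat_lit 373) (nat_lit 5) (nat_lit 383) (nat_lit 5) (nat_lit 384) (nat_lit 5) (nat_lit 649) (nat_lit 609) (nat_lit 302)) (XT.lf (nat_lit 0) (nat_lit 11815194563) (nat_lit 760) (nat_lit 20763240089) (nat_lit 836) (nat_lit 3938537517) (nat_lit 363) (nat_lit 5) (nat_lit 373) (nat_lit 5) (nat_lit 374) (nat_lit 5) (nat_lit 650) (nat_lit 609) (nat_lit 301))) (XT.nd (nat_lit 78) (nat_lit 760) (nat_lit 0) (XT.lf (nat_lit 0) (nat_lit 802875649) (nat_lit 836) (nat_lit 4215804784) (nat_lit 76) (nat_lit 31909708367) (nat_lit 362) (nat_lit 5) (nat_lit 373) (nat_lit 5) (nat_lit 363) (nat_lit 5) (nat_lit 651) (nat_lit 609) (nat_lit 300)) (XT.lf (nat_lit 0) (nat_lit 5767033376)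 (nat_lit 836) (nat_lit 20544502018) (nat_lit 76) (nat_lit 11032364667) (nat_lit 352) (nat_lit 5) (nat_lit 363) (nat_lit 5) (nat_lit 353) (nat_lit 5) (nat_lit 652) (nat_lit 609) (nat_lit 299)))) (XT.nd (nat_lit 156) (nat_lit 684) (nat_lit 0) (XT.nd (nat_lit 78) (nat_lit 0) (nat_lit 0) (XT.lf (nat_lit 0) (nat_lit 496290991) (nat_lit 760) (nat_lit 10397606866) (nat_lit 836) (nat_lit 26872555256) (nat_lit 342) (nat_lit 5) (nat_lit 352) (nat_lit 5) (nat_lit 353) (nat_lit 5) (nat_lit 653) (nat_lit 609) (nat_lit 298)) (XT.lf (nat_lit 0) (nat_lit 16298464146) (nat_lit 836) (nat_lit 15998816483) (nat_lit 76) (nat_lit 5896673345) (nat_lit 342) (nat_lit 5) (nat_lit 353) (nat_lit 5) (nat_lit 343) (nat_lit 5) (nat_lit 654) (nat_lit 609) (nat_lit 297))) (XT.nd (nat_lit 78) (nat_lit 0) (nat_lit 0) (XT.lf (nat_lit 0) (nat_lit 5702209292) (nat_lit 684) (nat_lit 16213327621) (nat_lit 760) (nat_lit 16712379672) (nat_lit 333) (nat_lit 5) (nat_lit 342) (nat_lit 5) (nat_lit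 343) (nat_lit 5) (nat_lit 655) (nat_lit 609) (nat_lit 296)) (XT.lf (nat_lit 0) (nat_lit 27752822031) (nat_lit 760) (nat_lit 11017937587) (nat_lit 76) (nat_lit 297641449) (nat_lit 333) (nat_lit 5) (nat_lit 343) (nat_lit 5) (nat_lit 334) (nat_lit 5) (nat_lit 656) (nat_lit 609) (nat_lit 295)))))) (XT.nd (nat_lit 624) (nat_lit 2508) (nat_lit 0) (XT.nd (nat_lit 312) (nat_lit 1216) (nat_lit 0) (XT.nd (nat_lit 156) (nat_lit 1368) (nat_lit 0) (XT.nd (nat_lit 78) (nat_lit 76) (nat_lit 0) (XT.lf (nat_lit 0) (nat_lit 11368051130) (nat_lit 684) (nat_lit 22518562945) (nat_lit 760) (nat_lit 5627485975) (nat_lit 324) (nat_lit 5) (nat_lit 333) (nat_lit 5) (nat_lit 334) (nat_lit 5) (nat_lit 657) (nat_lit 609) (nat_lit 294)) (XT.lf (nat_lit 0) (nat_lit 245094973) (nat_lit 760) (nat_lit 5619410680) (nat_lit 76) (nat_lit 34102724494) (nat_lit 323) (nat_lit 5) (nat_lit 333) (nat_lit 5) (nat_lit 324) (nat_lit 5) (nat_lit 658) (nat_lit 609) (nat_lit 293))) (XT.nd (nat_lit 78)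 (nat_lit 684) (nat_lit 0) (XT.lf (nat_lit 0) (nat_lit 6345615894) (nat_lit 760) (nat_lit 22950623608) (nat_lit 76) (nat_lit 11128722614) (nat_lit 314) (nat_lit 5) (nat_lit 324) (nat_lit 5) (nat_lit 315) (nat_lit 5) (nat_lit 659) (nat_lit 609) (nat_lit 292)) (XT.lf (nat_lit 0) (nat_lit 176621983) (nat_lit 684) (nat_lit 12468098507) (nat_lit 760) (nat_lit 28245596802) (nat_lit 305) (nat_lit 5) (nat_lit 314) (nat_lit 5) (nat_lit 315) (nat_lit 5) (nat_lit 660) (nat_lit 609) (nat_lit 291)))) (XT.nd (nat_lit 156) (nat_lit 608) (nat_lit 0) (XT.nd (nat_lit 78) (nat_lit 608) (nat_lit 0) (XT.lf (nat_lit 0) (nat_lit 19253975556) (nat_lit 760) (nat_lit 17317560637) (nat_lit 76) (nat_lit 4789760045) (nat_lit 305) (nat_lit 5) (nat_lit 315) (nat_lit 5) (nat_lit 306) (nat_lit 5) (nat_lit 661) (nat_lit 609) (nat_lit 290)) (XT.lf (nat_lit 0) (nat_lit 6548177562) (nat_lit 608) (nat_lit 19570994239) (nat_lit 684) (nat_lit 15720047870) (nat_lit 297) (nat_lit 5) (nat_lit 305)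 (nat_lit 5) (nat_lit 306) (nat_lit 5) (nat_lit 662) (nat_lit 609) (nat_lit 289))) (XT.nd (nat_lit 78) (nat_lit 608) (nat_lit 0) (XT.lf (nat_lit 0) (nat_lit 31124355835) (nat_lit 608) (nat_lit 2112212418) (nat_lit 684) (nat_lit 9087835426) (nat_lit 297) (nat_lit 5) (nat_lit 305) (nat_lit 5) (nat_lit 306) (nat_lit 5) (nat_lit 663) (nat_lit 609) (nat_lit 288)) (XT.lf (nat_lit 0) (nat_lit 13445589554) (nat_lit 608) (nat_lit 27238638101) (nat_lit 684) (nat_lit 2131305442) (nat_lit 289) (nat_lit 5) (nat_lit 297) (nat_lit 5) (nat_lit 298) (nat_lit 5) (nat_lit 664) (nat_lit 609) (nat_lit 287))))) (XT.nd (nat_lit 312) (nat_lit 1216) (nat_lit 0) (XT.nd (nat_lit 156) (nat_lit 608) (nat_lit 0) (XT.nd (nat_lit 78) (nat_lit 608) (nat_lit 0) (XT.lf (nat_lit 0) (nat_lit 4987607422) (nat_lit 684) (nat_lit 4627357802) (nat_lit 76) (nat_lit 33699108056) (nat_lit 288) (nat_lit 5) (nat_lit 297) (nat_lit 5) (nat_lit 289) (nat_lit 5) (nat_lit 665) (nat_lit 609) (nat_lit 286))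 (XT.lf (nat_lit 0) (nat_lit 12409893085) (nat_lit 684) (nat_lit 23006824496) (nat_lit 76) (nat_lit 8401794302) (nat_lit 280) (nat_lit 5) (nat_lit 289) (nat_lit 5) (nat_lit 281) (nat_lit 5) (nat_lit 666) (nat_lit 609) (nat_lit 285))) (XT.nd (nat_lit 78) (nat_lit 0) (nat_lit 0) (XT.lf (nat_lit 0) (nat_lit 2456559644) (nat_lit 608) (nat_lit 17633701380) (nat_lit 684) (nat_lit 24240585529) (nat_lit 272) (nat_lit 5) (nat_lit 280) (nat_lit 5) (nat_lit 281) (nat_lit 5) (nat_lit 667) (nat_lit 609) (nat_lit 284)) (XT.lf (nat_lit 0) (nat_lit 28081691145) (nat_lit 684) (nat_lit 16115176027) (nat_lit 76) (nat_lit 653411677) (nat_lit 272) (nat_lit 5) (nat_lit 281) (nat_lit 5) (nat_lit 273) (nat_lit 5) (nat_lit 668) (nat_lit 609) (nat_lit 283)))) (XT.nd (nat_lit 156) (nat_lit 684) (nat_lit 0) (XT.nd (nat_lit 78) (nat_lit 0) (nat_lit 0) (XT.lf (nat_lit 0) (nat_lit 10174195740) (nat_lit 532) (nat_lit 26240381282) (nat_lit 608) (nat_lit 8961890252) (nat_lit 265) (nat_lit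 5) (nat_lit 272) (nat_lit 5) (nat_lit 273) (nat_lit 5) (nat_lit 669) (nat_lit 609) (nat_lit 282)) (XT.lf (nat_lit 0) (nat_lit 37206232519) (nat_lit 532) (nat_lit 7814833005) (nat_lit 608) (nat_lit 889975073) (nat_lit 265) (nat_lit 5) (nat_lit 272) (nat_lit 5) (nat_lit 273) (nat_lit 5) (nat_lit 670) (nat_lit 609) (nat_lit 281))) (XT.nd (nat_lit 78) (nat_lit 0) (nat_lit 0) (XT.lf (nat_lit 0) (nat_lit 7438501412) (nat_lit 684) (nat_lit 28009147748) (nat_lit 76) (nat_lit 11003874033) (nat_lit 256) (nat_lit 5) (nat_lit 265) (nat_lit 5) (nat_lit 257) (nat_lit 5) (nat_lit 671) (nat_lit 609) (nat_lit 280)) (XT.lf (nat_lit 0) (nat_lit 16031026313) (nat_lit 684) (nat_lit 810746720) (nat_lit 76) (nat_lit 30158736867) (nat_lit 256) (nat_lit 5) (nat_lit 265) (nat_lit 5) (nat_lit 257) (nat_lit 5) (nat_lit 672) (nat_lit 609) (nat_lit 279))))))))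
noncomputable def xc220 : XT := (XT.nd (nat_lit 77688) (nat_lit 0) (nat_lit 9196) (XT.nd (nat_lit 76440) (nat_lit 0) (nat_lit 21204) (XT.nd (nat_lit 546) (nat_lit 1444) (nat_lit 0) (XT.nd (nat_lit 234) (nat_lit 1520) (nat_lit 0) (XT.nd (nat_lit 78) (nat_lit 532) (nat_lit 0) (XT.lf (nat_lit 0) (nat_lit 24986466833) (nat_lit 608) (nat_lit 20284020328) (nat_lit 76) (nat_lit 2286167901) (nat_lit 249) (nat_lit 5) (nat_lit 257) (nat_lit 5) (nat_lit 250) (nat_lit 5) (nat_lit 673) (nat_lit 609) (nat_lit 278)) (XT.nd (nat_lit 78) (nat_lit 0) (nat_lit 0) (XT.lf (nat_lit 0) (nat_lit 7793964657) (nat_lit 532) (nat_lit 26493529567) (nat_lit 608) (nat_lit 13833099365) (nat_lit 242) (nat_lit 5) (nat_lit 249) (nat_lit 5) (nat_lit 250) (nat_lit 5) (nat_lit 674) (nat_lit 609) (nat_lit 277)) (XT.lf (nat_lit 0) (nat_lit 36706931703) (nat_lit 532) (nat_lit 7202602242) (nat_lit 608) (nat_lit 4783577132) (nat_lit 242) (nat_lit 5) (nat_lit 249) (nat_lit 5) (nat_lit 250) (nat_lit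 5) (nat_lit 675) (nat_lit 609) (nat_lit 276)))) (XT.nd (nat_lit 156) (nat_lit 988) (nat_lit 0) (XT.nd (nat_lit 78) (nat_lit 0) (nat_lit 0) (XT.lf (nat_lit 0) (nat_lit 4580541085) (nat_lit 532) (nat_lit 32241058618) (nat_lit 76) (nat_lit 12451063224) (nat_lit 235) (nat_lit 5) (nat_lit 242) (nat_lit 5) (nat_lit 236) (nat_lit 5) (nat_lit 676) (nat_lit 609) (nat_lit 275)) (XT.lf (nat_lit 0) (nat_lit 14195514413) (nat_lit 532) (nat_lit 3151415933) (nat_lit 76) (nat_lit 32513690607) (nat_lit 235) (nat_lit 5) (nat_lit 242) (nat_lit 5) (nat_lit 236) (nat_lit 5) (nat_lit 677) (nat_lit 609) (nat_lit 274))) (XT.nd (nat_lit 78) (nat_lit 456) (nat_lit 0) (XT.lf (nat_lit 0) (nat_lit 24193668343) (nat_lit 608) (nat_lit 23603426857) (nat_lit 76) (nat_lit 2659425338) (nat_lit 228) (nat_lit 5) (nat_lit 236) (nat_lit 5) (nat_lit 229) (nat_lit 5) (nat_lit 678) (nat_lit 609) (nat_lit 273)) (XT.lf (nat_lit 0) (nat_lit 6403959508) (nat_lit 456) (nat_lit 28164502368) (nat_lit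 532) (nat_lit 16492342727) (nat_lit 222) (nat_lit 5) (nat_lit 228) (nat_lit 5) (nat_lit 229) (nat_lit 5) (nat_lit 679) (nat_lit 609) (nat_lit 272))))) (XT.nd (nat_lit 312) (nat_lit 456) (nat_lit 0) (XT.nd (nat_lit 156) (nat_lit 456) (nat_lit 0) (XT.nd (nat_lit 78) (nat_lit 532) (nat_lit 0) (XT.lf (nat_lit 0) (nat_lit 37329948383) (nat_lit 456) (nat_lit 7978135320) (nat_lit 532) (nat_lit 6365944022) (nat_lit 222) (nat_lit 5) (nat_lit 228) (nat_lit 5) (nat_lit 229) (nat_lit 5) (nat_lit 680) (nat_lit 609) (nat_lit 271)) (XT.lf (nat_lit 0) (nat_lit 4101602698) (nat_lit 532) (nat_lit 35611976449) (nat_lit 76) (nat_lit 12581609669) (nat_lit 215) (nat_lit 5) (nat_lit 222) (nat_lit 5) (nat_lit 216) (nat_lit 5) (nat_lit 681) (nat_lit 609) (nat_lit 270))) (XT.nd (nat_lit 78) (nat_lit 456) (nat_lit 0) (XT.lf (nat_lit 0) (nat_lit 14842032138) (nat_lit 532) (nat_lit 4498480271) (nat_lit 76) (nat_lit 33584443726) (nat_lit 215) (nat_lit 5) (nat_lit 222) (nat_lit 5) (nat_lit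 216) (nat_lit 5) (nat_lit 682) (nat_lit 609) (nat_lit 269)) (XT.lf (nat_lit 0) (nat_lit 25985969857) (nat_lit 532) (nat_lit 25976512569) (nat_lit 76) (nat_lit 1601062400) (nat_lit 209) (nat_lit 5) (nat_lit 216) (nat_lit 5) (nat_lit 210) (nat_lit 5) (nat_lit 683) (nat_lit 609) (nat_lit 268)))) (XT.nd (nat_lit 75426) (nat_lit 0) (nat_lit 21128) (XT.nd (nat_lit 78) (nat_lit 0) (nat_lit 0) (XT.lf (nat_lit 0) (nat_lit 6111332963) (nat_lit 456) (nat_lit 31438593099) (nat_lit 532) (nat_lit 16661036452) (nat_lit 203) (nat_lit 5) (nat_lit 209) (nat_lit 5) (nat_lit 210) (nat_lit 5) (nat_lit 684) (nat_lit 609) (nat_lit 267)) (XT.lf (nat_lit 0) (nat_lit 39191596461) (nat_lit 456) (nat_lit 10326882282) (nat_lit 532) (nat_lit 5349383485) (nat_lit 203) (nat_lit 5) (nat_lit 209) (nat_lit 5) (nat_lit 210) (nat_lit 5) (nat_lit 685) (nat_lit 609) (nat_lit 266))) (XT.nd (nat_lit 78) (nat_lit 0) (nat_lit 0) (XT.lf (nat_lit 0) (nat_lit 1323107845) (nat_lit 1900) (nat_lit 5389368642)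 (nat_lit 1900) (nat_lit 5389368642) (nat_lit 481) (nat_lit 3) (nat_lit 506) (nat_lit 3) (nat_lit 506) (nat_lit 5) (nat_lit 610) (nat_lit 610) (nat_lit 340)) (XT.lf (nat_lit 76) (nat_lit 1291429598) (nat_lit 0) (nat_lit 1502799664) (nat_lit 1900) (nat_lit 21649063446) (nat_lit 482) (nat_lit 5) (nat_lit 481) (nat_lit 3) (nat_lit 506) (nat_lit 5) (nat_lit 611) (nat_lit 610) (nat_lit 339)))))) (XT.nd (nat_lit 624) (nat_lit 0) (nat_lit 304) (XT.nd (nat_lit 312) (nat_lit 0) (nat_lit 152) (XT.nd (nat_lit 156) (nat_lit 0) (nat_lit 76) (XT.nd (nat_lit 78) (nat_lit 0) (nat_lit 0) (XT.lf (nat_lit 0) (nat_lit 3084241623) (nat_lit 1824) (nat_lit 11008411730) (nat_lit 1900) (nat_lit 10592253174) (nat_lit 482) (nat_lit 5) (nat_lit 506) (nat_lit 5) (nat_lit 507) (nat_lit 5) (nat_lit 612) (nat_lit 610) (nat_lit 338)) (XT.lf (nat_lit 76) (nat_lit 1384543247) (nat_lit 0) (nat_lit 2011541904) (nat_lit 1900) (nat_lit 21534946940) (nat_lit 483) (nat_lit 5) (nat_lit 482) (nat_lit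 5) (nat_lit 507) (nat_lit 5) (nat_lit 613) (nat_lit 610) (nat_lit 337))) (XT.nd (nat_lit 78) (nat_lit 0) (nat_lit 0) (XT.lf (nat_lit 0) (nat_lit 3852618729) (nat_lit 1824) (nat_lit 11075086927) (nat_lit 1900) (nat_lit 10251605533) (nat_lit 483) (nat_lit 5) (nat_lit 507) (nat_lit 5) (nat_lit 508) (nat_lit 5) (nat_lit 614) (nat_lit 610) (nat_lit 336)) (XT.lf (nat_lit 76) (nat_lit 1652499156) (nat_lit 0) (nat_lit 2687035025) (nat_lit 1900) (nat_lit 21092596749) (nat_lit 484) (nat_lit 5) (nat_lit 483) (nat_lit 5) (nat_lit 508) (nat_lit 5) (nat_lit 615) (nat_lit 610) (nat_lit 335)))) (XT.nd (nat_lit 156) (nat_lit 0) (nat_lit 76) (XT.nd (nat_lit 78) (nat_lit 0) (nat_lit 0) (XT.lf (nat_lit 0) (nat_lit 4971870630) (nat_lit 1824) (nat_lit 10969515712) (nat_lit 1900) (nat_lit 9745907153) (nat_lit 484) (nat_lit 5) (nat_lit 508) (nat_lit 5) (nat_lit 509) (nat_lit 5) (nat_lit 616) (nat_lit 610) (nat_lit 334)) (XT.lf (nat_lit 76) (nat_lit 2104999988) (nat_lit 0) (nat_lit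 3540622487) (nat_lit 1900) (nat_lit 20301361543) (nat_lit 485) (nat_lit 5) (nat_lit 484) (nat_lit 5) (nat_lit 509) (nat_lit 5) (nat_lit 617) (nat_lit 610) (nat_lit 333))) (XT.nd (nat_lit 78) (nat_lit 0) (nat_lit 0) (XT.lf (nat_lit 0) (nat_lit 6463440131) (nat_lit 1824) (nat_lit 10681983607) (nat_lit 1900) (nat_lit 9063832879) (nat_lit 485) (nat_lit 5) (nat_lit 509) (nat_lit 5) (nat_lit 510) (nat_lit 5) (nat_lit 618) (nat_lit 610) (nat_lit 332)) (XT.lf (nat_lit 76) (nat_lit 2752233195) (nat_lit 0) (nat_lit 4584105808) (nat_lit 1900) (nat_lit 19139661246) (nat_lit 486) (nat_lit 5) (nat_lit 485) (nat_lit 5) (nat_lit 510) (nat_lit 5) (nat_lit 619) (nat_lit 610) (nat_lit 331))))) (XT.nd (nat_lit 312) (nat_lit 0) (nat_lit 152) (XT.nd (nat_lit 156) (nat_lit 0) (nat_lit 76) (XT.nd (nat_lit 78) (nat_lit 0) (nat_lit 0) (XT.lf (nat_lit 0) (nat_lit 8349730836) (nat_lit 1824) (nat_lit 10202291136) (nat_lit 1900) (nat_lit 8193596158) (nat_lit 486) (nat_lit 5) (nat_lit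 510) (nat_lit 5) (nat_lit 511) (nat_lit 5) (nat_lit 620) (nat_lit 610) (nat_lit 330)) (XT.lf (nat_lit 76) (nat_lit 3604889408) (nat_lit 0) (nat_lit 5829768725) (nat_lit 1900) (nat_lit 17584944959) (nat_lit 487) (nat_lit 5) (nat_lit 486) (nat_lit 5) (nat_lit 511) (nat_lit 5) (nat_lit 621) (nat_lit 610) (nat_lit 329))) (XT.nd (nat_lit 78) (nat_lit 0) (nat_lit 0) (XT.lf (nat_lit 0) (nat_lit 10654150374) (nat_lit 1824) (nat_lit 9519735293) (nat_lit 1900) (nat_lit 7122924832) (nat_lit 487) (nat_lit 5) (nat_lit 511) (nat_lit 5) (nat_lit 512) (nat_lit 5) (nat_lit 622) (nat_lit 610) (nat_lit 328)) (XT.lf (nat_lit 76) (nat_lit 4674181682) (nat_lit 0) (nat_lit 7290402141) (nat_lit 1900) (nat_lit 15613647275) (nat_lit 488) (nat_lit 5) (nat_lit 487) (nat_lit 5) (nat_lit 512) (nat_lit 5) (nat_lit 623) (nat_lit 610) (nat_lit 327)))) (XT.nd (nat_lit 156) (nat_lit 0) (nat_lit 76) (XT.nd (nat_lit 78) (nat_lit 0) (nat_lit 0) (XT.lf (nat_lit 0) (nat_lit 13401155286) (nat_lit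 1824) (nat_lit 8623090167) (nat_lit 1900) (nat_lit 5839036140) (nat_lit 488) (nat_lit 5) (nat_lit 512) (nat_lit 5) (nat_lit 513) (nat_lit 5) (nat_lit 624) (nat_lit 610) (nat_lit 326)) (XT.lf (nat_lit 76) (nat_lit 5971865626) (nat_lit 0) (nat_lit 8979329900) (nat_lit 1900) (nat_lit 13201142897) (nat_lit 489) (nat_lit 5) (nat_lit 488) (nat_lit 5) (nat_lit 513) (nat_lit 5) (nat_lit 625) (nat_lit 610) (nat_lit 325))) (XT.nd (nat_lit 78) (nat_lit 0) (nat_lit 0) (XT.lf (nat_lit 0) (nat_lit 16616297668) (nat_lit 1824) (nat_lit 7500586674) (nat_lit 1900) (nat_lit 4328610891) (nat_lit 489) (nat_lit 5) (nat_lit 513) (nat_lit 5) (nat_lit 514) (nat_lit 5) (nat_lit 626) (nat_lit 610) (nat_lit 324)) (XT.lf (nat_lit 76) (nat_lit 7510260443) (nat_lit 0) (nat_lit 10910435434) (nat_lit 1900) (nat_lit 10321699489) (nat_lit 490) (nat_lit 5) (nat_lit 489) (nat_lit 5) (nat_lit 514) (nat_lit 5) (nat_lit 627) (nat_lit 610) (nat_lit 323))))))) (XT.nd (nat_lit 1170) (nat_lit 7144)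 (nat_lit 0) (XT.nd (nat_lit 546) (nat_lit 3724) (nat_lit 0) (XT.nd (nat_lit 234) (nat_lit 1748) (nat_lit 0) (XT.nd (nat_lit 78) (nat_lit 0) (nat_lit 0) (XT.lf (nat_lit 0) (nat_lit 20326273623) (nat_lit 1824) (nat_lit 6139891378) (nat_lit 1900) (nat_lit 2577766735) (nat_lit 490) (nat_lit 5) (nat_lit 514) (nat_lit 5) (nat_lit 515) (nat_lit 5) (nat_lit 628) (nat_lit 610) (nat_lit 322)) (XT.nd (nat_lit 78) (nat_lit 0) (nat_lit 76) (XT.lf (nat_lit 76) (nat_lit 9302270915) (nat_lit 0) (nat_lit 13098189347) (nat_lit 1900) (nat_lit 6948428688) (nat_lit 491) (nat_lit 5) (nat_lit 490) (nat_lit 5) (nat_lit 515) (nat_lit 5) (nat_lit 629) (nat_lit 610) (nat_lit 321)) (XT.lf (nat_lit 0) (nat_lit 24558973626) (nat_lit 1824) (nat_lit 4528084376) (nat_lit 1900) (nat_lit 572030510) (nat_lit 491) (nat_lit 5) (nat_lit 515) (nat_lit 5) (nat_lit 516) (nat_lit 5) (nat_lit 630) (nat_lit 610) (nat_lit 320)))) (XT.nd (nat_lit 156) (nat_lit 1824) (nat_lit 0) (XT.nd (nat_lit 78)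 (nat_lit 0) (nat_lit 0) (XT.lf (nat_lit 76) (nat_lit 11361410357) (nat_lit 0) (nat_lit 15557677963) (nat_lit 1900) (nat_lit 3053235186) (nat_lit 492) (nat_lit 5) (nat_lit 491) (nat_lit 5) (nat_lit 516) (nat_lit 5) (nat_lit 631) (nat_lit 610) (nat_lit 319)) (XT.lf (nat_lit 76) (nat_lit 27628411807) (nat_lit 0) (nat_lit 1726331551) (nat_lit 1900) (nat_lit 936513140) (nat_lit 492) (nat_lit 5) (nat_lit 491) (nat_lit 5) (nat_lit 516) (nat_lit 5) (nat_lit 632) (nat_lit 610) (nat_lit 318))) (XT.nd (nat_lit 78) (nat_lit 0) (nat_lit 0) (XT.lf (nat_lit 0) (nat_lit 1374963653) (nat_lit 1900) (nat_lit 16920442528) (nat_lit 1976) (nat_lit 12317634195) (nat_lit 467) (nat_lit 5) (nat_lit 492) (nat_lit 5) (nat_lit 493) (nat_lit 5) (nat_lit 633) (nat_lit 610) (nat_lit 317)) (XT.lf (nat_lit 0) (nat_lit 3747572087) (nat_lit 1900) (nat_lit 549098934) (nat_lit 1976) (nat_lit 26643916318) (nat_lit 467) (nat_lit 5) (nat_lit 492) (nat_lit 5) (nat_lit 493) (nat_lit 5) (nat_lit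 634) (nat_lit 610) (nat_lit 316))))) (XT.nd (nat_lit 312) (nat_lit 1748) (nat_lit 0) (XT.nd (nat_lit 156) (nat_lit 912) (nat_lit 0) (XT.nd (nat_lit 78) (nat_lit 1140) (nat_lit 0) (XT.lf (nat_lit 0) (nat_lit 6337434356) (nat_lit 1900) (nat_lit 14975499909) (nat_lit 76) (nat_lit 9958354998) (nat_lit 468) (nat_lit 5) (nat_lit 493) (nat_lit 5) (nat_lit 469) (nat_lit 5) (nat_lit 635) (nat_lit 610) (nat_lit 315)) (XT.lf (nat_lit 0) (nat_lit 1870860090) (nat_lit 1140) (nat_lit 7150623175) (nat_lit 1216) (nat_lit 22586274229) (nat_lit 453) (nat_lit 5) (nat_lit 468) (nat_lit 5) (nat_lit 469) (nat_lit 5) (nat_lit 636) (nat_lit 610) (nat_lit 314))) (XT.nd (nat_lit 78) (nat_lit 912) (nat_lit 0) (XT.lf (nat_lit 0) (nat_lit 11905842566) (nat_lit 1216) (nat_lit 12741542915) (nat_lit 76) (nat_lit 7300637073) (nat_lit 453) (nat_lit 5) (nat_lit 469) (nat_lit 5) (nat_lit 454) (nat_lit 5) (nat_lit 637) (nat_lit 610) (nat_lit 313)) (XT.lf (nat_lit 0) (nat_lit 4605080834) (nat_lit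 912) (nat_lit 10318206554) (nat_lit 988) (nat_lit 17370297614) (nat_lit 441) (nat_lit 5) (nat_lit 453) (nat_lit 5) (nat_lit 454) (nat_lit 5) (nat_lit 638) (nat_lit 610) (nat_lit 312)))) (XT.nd (nat_lit 156) (nat_lit 836) (nat_lit 0) (XT.nd (nat_lit 78) (nat_lit 912) (nat_lit 0) (XT.lf (nat_lit 0) (nat_lit 18113222984) (nat_lit 988) (nat_lit 10203171289) (nat_lit 76) (nat_lit 4327421639) (nat_lit 441) (nat_lit 5) (nat_lit 454) (nat_lit 5) (nat_lit 442) (nat_lit 5) (nat_lit 639) (nat_lit 610) (nat_lit 311)) (XT.lf (nat_lit 0) (nat_lit 7662356544) (nat_lit 912) (nat_lit 13820888804) (nat_lit 988) (nat_lit 11515480382) (nat_lit 429) (nat_lit 5) (nat_lit 441) (nat_lit 5) (nat_lit 442) (nat_lit 5) (nat_lit 640) (nat_lit 610) (nat_lit 310))) (XT.nd (nat_lit 78) (nat_lit 836) (nat_lit 0) (XT.lf (nat_lit 0) (nat_lit 24994084136) (nat_lit 988) (nat_lit 7344276070) (nat_lit 76) (nat_lit 1020905268) (nat_lit 429) (nat_lit 5) (nat_lit 442) (nat_lit 5) (nat_lit 430)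 (nat_lit 5) (nat_lit 641) (nat_lit 610) (nat_lit 309)) (XT.lf (nat_lit 0) (nat_lit 11059513109) (nat_lit 836) (nat_lit 17677227569) (nat_lit 912) (nat_lit 4987043366) (nat_lit 418) (nat_lit 5) (nat_lit 429) (nat_lit 5) (nat_lit 430) (nat_lit 5) (nat_lit 642) (nat_lit 610) (nat_lit 308)))))) (XT.nd (nat_lit 624) (nat_lit 3724) (nat_lit 0) (XT.nd (nat_lit 312) (nat_lit 1596) (nat_lit 0) (XT.nd (nat_lit 156) (nat_lit 836) (nat_lit 0) (XT.nd (nat_lit 78) (nat_lit 988) (nat_lit 0) (XT.lf (nat_lit 0) (nat_lit 29929278378) (nat_lit 836) (nat_lit 2672545410) (nat_lit 912) (nat_lit 1492817774) (nat_lit 418) (nat_lit 5) (nat_lit 429) (nat_lit 5) (nat_lit 430) (nat_lit 5) (nat_lit 643) (nat_lit 610) (nat_lit 307)) (XT.lf (nat_lit 0) (nat_lit 2221819375) (nat_lit 988) (nat_lit 19669861837) (nat_lit 76) (nat_lit 12577412253) (nat_lit 405) (nat_lit 5) (nat_lit 418) (nat_lit 5) (nat_lit 406) (nat_lit 5) (nat_lit 644) (nat_lit 610) (nat_lit 306))) (XT.nd (nat_lit 78)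 (nat_lit 836) (nat_lit 0) (XT.lf (nat_lit 0) (nat_lit 6034949572) (nat_lit 988) (nat_lit 680330848) (nat_lit 76) (nat_lit 28134672897) (nat_lit 405) (nat_lit 5) (nat_lit 418) (nat_lit 5) (nat_lit 406) (nat_lit 5) (nat_lit 645) (nat_lit 610) (nat_lit 305)) (XT.lf (nat_lit 0) (nat_lit 10103372853) (nat_lit 912) (nat_lit 16358021843) (nat_lit 76) (nat_lit 8773455105) (nat_lit 394) (nat_lit 5) (nat_lit 406) (nat_lit 5) (nat_lit 395) (nat_lit 5) (nat_lit 646) (nat_lit 610) (nat_lit 304)))) (XT.nd (nat_lit 156) (nat_lit 760) (nat_lit 0) (XT.nd (nat_lit 78) (nat_lit 0) (nat_lit 0) (XT.lf (nat_lit 0) (nat_lit 3202847841) (nat_lit 836) (nat_lit 11118568083) (nat_lit 912) (nat_lit 21304663307) (nat_lit 383) (nat_lit 5) (nat_lit 394) (nat_lit 5) (nat_lit 395) (nat_lit 5) (nat_lit 647) (nat_lit 610) (nat_lit 303)) (XT.lf (nat_lit 0) (nat_lit 18762145975) (nat_lit 912) (nat_lit 12678087093) (nat_lit 76) (nat_lit 4582133701) (nat_lit 383) (nat_lit 5) (nat_lit 395) (nat_lit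 5) (nat_lit 384) (nat_lit 5) (nat_lit 648) (nat_lit 610) (nat_lit 302))) (XT.nd (nat_lit 78) (nat_lit 0) (nat_lit 0) (XT.lf (nat_lit 0) (nat_lit 7484849683) (nat_lit 760) (nat_lit 15927510863) (nat_lit 836) (nat_lit 13011806156) (nat_lit 373) (nat_lit 5) (nat_lit 383) (nat_lit 5) (nat_lit 384) (nat_lit 5) (nat_lit 649) (nat_lit 610) (nat_lit 301)) (XT.lf (nat_lit 0) (nat_lit 28221268155) (nat_lit 760) (nat_lit 17848286) (nat_lit 836) (nat_lit 8593215493) (nat_lit 373) (nat_lit 5) (nat_lit 383) (nat_lit 5) (nat_lit 384) (nat_lit 5) (nat_lit 650) (nat_lit 610) (nat_lit 300))))) (XT.nd (nat_lit 312) (nat_lit 1368) (nat_lit 0) (XT.nd (nat_lit 156) (nat_lit 1520) (nat_lit 0) (XT.nd (nat_lit 78) (nat_lit 76) (nat_lit 0) (XT.lf (nat_lit 0) (nat_lit 12176576909) (nat_lit 760) (nat_lit 21168625075) (nat_lit 836) (nat_lit 3899802635) (nat_lit 363) (nat_lit 5) (nat_lit 373) (nat_lit 5) (nat_lit 374) (nat_lit 5) (nat_lit 651) (nat_lit 610) (nat_lit 299)) (XT.lf (nat_lit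 0) (nat_lit 932623872) (nat_lit 836) (nat_lit 4175981150) (nat_lit 76) (nat_lit 32556074834) (nat_lit 362) (nat_lit 5) (nat_lit 373) (nat_lit 5) (nat_lit 363) (nat_lit 5) (nat_lit 652) (nat_lit 610) (nat_lit 298))) (XT.nd (nat_lit 78) (nat_lit 760) (nat_lit 0) (XT.lf (nat_lit 0) (nat_lit 5994708034) (nat_lit 836) (nat_lit 20829892761) (nat_lit 76) (nat_lit 11263927740) (nat_lit 352) (nat_lit 5) (nat_lit 363) (nat_lit 5) (nat_lit 353) (nat_lit 5) (nat_lit 653) (nat_lit 610) (nat_lit 297)) (XT.lf (nat_lit 0) (nat_lit 630890454) (nat_lit 760) (nat_lit 10591826187) (nat_lit 836) (nat_lit 27296843926) (nat_lit 342) (nat_lit 5) (nat_lit 352) (nat_lit 5) (nat_lit 353) (nat_lit 5) (nat_lit 654) (nat_lit 610) (nat_lit 296)))) (XT.nd (nat_lit 156) (nat_lit 684) (nat_lit 0) (XT.nd (nat_lit 78) (nat_lit 684) (nat_lit 0) (XT.lf (nat_lit 0) (nat_lit 16733286360) (nat_lit 836) (nat_lit 16194473118) (nat_lit 76) (nat_lit 6027893781) (nat_lit 342) (nat_lit 5) (nat_lit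 353) (nat_lit 5) (nat_lit 343) (nat_lit 5) (nat_lit 655) (nat_lit 610) (nat_lit 295)) (XT.lf (nat_lit 0) (nat_lit 5939755280) (nat_lit 684) (nat_lit 16521612786) (nat_lit 760) (nat_lit 16936953759) (nat_lit 333) (nat_lit 5) (nat_lit 342) (nat_lit 5) (nat_lit 343) (nat_lit 5) (nat_lit 656) (nat_lit 610) (nat_lit 294))) (XT.nd (nat_lit 78) (nat_lit 684) (nat_lit 0) (XT.lf (nat_lit 0) (nat_lit 28413392371) (nat_lit 760) (nat_lit 11115206994) (nat_lit 76) (nat_lit 319056815) (nat_lit 333) (nat_lit 5) (nat_lit 343) (nat_lit 5) (nat_lit 334) (nat_lit 5) (nat_lit 657) (nat_lit 610) (nat_lit 293)) (XT.lf (nat_lit 0) (nat_lit 11717691699) (nat_lit 684) (nat_lit 22950893576) (nat_lit 760) (nat_lit 5633709419) (nat_lit 324) (nat_lit 5) (nat_lit 333) (nat_lit 5) (nat_lit 334) (nat_lit 5) (nat_lit 658) (nat_lit 610) (nat_lit 292))))))))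
noncomputable def xc221 : XT := (XT.nd (nat_lit 77766) (nat_lit 0) (nat_lit 15352) (XT.nd (nat_lit 1170) (nat_lit 4028) (nat_lit 0) (XT.nd (nat_lit 546) (nat_lit 2508) (nat_lit 0) (XT.nd (nat_lit 234) (nat_lit 1216) (nat_lit 0) (XT.nd (nat_lit 78) (nat_lit 1368) (nat_lit 0) (XT.lf (nat_lit 0) (nat_lit 352871174) (nat_lit 760) (nat_lit 5610547361) (nat_lit 76) (nat_lit 34801096249) (nat_lit 323) (nat_lit 5) (nat_lit 333) (nat_lit 5) (nat_lit 324) (nat_lit 5) (nat_lit 659) (nat_lit 610) (nat_lit 291)) (XT.nd (nat_lit 78) (nat_lit 684) (nat_lit 0) (XT.lf (nat_lit 0) (nat_lit 6574289593) (nat_lit 760) (nat_lit 23287269198) (nat_lit 76) (nat_lit 11369864910) (nat_lit 314) (nat_lit 5) (nat_lit 324) (nat_lit 5) (nat_lit 315) (nat_lit 5) (nat_lit 660) (nat_lit 610) (nat_lit 290)) (XT.lf (nat_lit 0) (nat_lit 301716260) (nat_lit 684) (nat_lit 12696453961) (nat_lit 760) (nat_lit 28707939929) (nat_lit 305) (nat_lit 5) (nat_lit 314) (nat_lit 5) (nat_lit 315) (nat_lit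 5) (nat_lit 661) (nat_lit 610) (nat_lit 289)))) (XT.nd (nat_lit 156) (nat_lit 608) (nat_lit 0) (XT.nd (nat_lit 78) (nat_lit 608) (nat_lit 0) (XT.lf (nat_lit 0) (nat_lit 19737772428) (nat_lit 760) (nat_lit 17542893283) (nat_lit 76) (nat_lit 4905879768) (nat_lit 305) (nat_lit 5) (nat_lit 315) (nat_lit 5) (nat_lit 306) (nat_lit 5) (nat_lit 662) (nat_lit 610) (nat_lit 288)) (XT.lf (nat_lit 0) (nat_lit 6799363505) (nat_lit 608) (nat_lit 19939754023) (nat_lit 684) (nat_lit 15934933001) (nat_lit 297) (nat_lit 5) (nat_lit 305) (nat_lit 5) (nat_lit 306) (nat_lit 5) (nat_lit 663) (nat_lit 610) (nat_lit 287))) (XT.nd (nat_lit 78) (nat_lit 608) (nat_lit 0) (XT.lf (nat_lit 0) (nat_lit 31864708041) (nat_lit 608) (nat_lit 2132240880) (nat_lit 684) (nat_lit 9172027599) (nat_lit 297) (nat_lit 5) (nat_lit 305) (nat_lit 5) (nat_lit 306) (nat_lit 5) (nat_lit 664) (nat_lit 610) (nat_lit 286)) (XT.lf (nat_lit 0) (nat_lit 13833350347) (nat_lit 608) (nat_lit 27759248747) (nat_lit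 684) (nat_lit 2077348726) (nat_lit 289) (nat_lit 5) (nat_lit 297) (nat_lit 5) (nat_lit 298) (nat_lit 5) (nat_lit 665) (nat_lit 610) (nat_lit 285))))) (XT.nd (nat_lit 312) (nat_lit 1216) (nat_lit 0) (XT.nd (nat_lit 156) (nat_lit 608) (nat_lit 0) (XT.nd (nat_lit 78) (nat_lit 608) (nat_lit 0) (XT.lf (nat_lit 0) (nat_lit 5180806751) (nat_lit 684) (nat_lit 4602142349) (nat_lit 76) (nat_lit 34395534587) (nat_lit 288) (nat_lit 5) (nat_lit 297) (nat_lit 5) (nat_lit 289) (nat_lit 5) (nat_lit 666) (nat_lit 610) (nat_lit 284)) (XT.lf (nat_lit 0) (nat_lit 12750625198) (nat_lit 684) (nat_lit 23348283375) (nat_lit 76) (nat_lit 8594120788) (nat_lit 280) (nat_lit 5) (nat_lit 289) (nat_lit 5) (nat_lit 281) (nat_lit 5) (nat_lit 667) (nat_lit 610) (nat_lit 283))) (XT.nd (nat_lit 78) (nat_lit 0) (nat_lit 0) (XT.lf (nat_lit 0) (nat_lit 2623587674) (nat_lit 608) (nat_lit 17959963889) (nat_lit 684) (nat_lit 24632080181) (nat_lit 272) (nat_lit 5) (nat_lit 280) (nat_lit 5) (nat_lit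 281) (nat_lit 5) (nat_lit 668) (nat_lit 610) (nat_lit 282)) (XT.lf (nat_lit 0) (nat_lit 28733184575) (nat_lit 684) (nat_lit 16320266708) (nat_lit 76) (nat_lit 692033956) (nat_lit 272) (nat_lit 5) (nat_lit 281) (nat_lit 5) (nat_lit 273) (nat_lit 5) (nat_lit 669) (nat_lit 610) (nat_lit 281)))) (XT.nd (nat_lit 156) (nat_lit 684) (nat_lit 0) (XT.nd (nat_lit 78) (nat_lit 0) (nat_lit 0) (XT.lf (nat_lit 0) (nat_lit 10494121357) (nat_lit 532) (nat_lit 26737600877) (nat_lit 608) (nat_lit 9050495358) (nat_lit 265) (nat_lit 5) (nat_lit 272) (nat_lit 5) (nat_lit 273) (nat_lit 5) (nat_lit 670) (nat_lit 610) (nat_lit 280)) (XT.lf (nat_lit 0) (nat_lit 38064515700) (nat_lit 532) (nat_lit 7944082576) (nat_lit 608) (nat_lit 818918987) (nat_lit 265) (nat_lit 5) (nat_lit 272) (nat_lit 5) (nat_lit 273) (nat_lit 5) (nat_lit 671) (nat_lit 610) (nat_lit 279))) (XT.nd (nat_lit 78) (nat_lit 0) (nat_lit 0) (XT.lf (nat_lit 0) (nat_lit 7674166936) (nat_lit 684) (nat_lit 28453208360)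 (nat_lit 76) (nat_lit 11251438610) (nat_lit 256) (nat_lit 5) (nat_lit 265) (nat_lit 5) (nat_lit 257) (nat_lit 5) (nat_lit 672) (nat_lit 610) (nat_lit 278)) (XT.lf (nat_lit 0) (nat_lit 16436838502) (nat_lit 684) (nat_lit 713116220) (nat_lit 76) (nat_lit 30788859737) (nat_lit 256) (nat_lit 5) (nat_lit 265) (nat_lit 5) (nat_lit 257) (nat_lit 5) (nat_lit 673) (nat_lit 610) (nat_lit 277)))))) (XT.nd (nat_lit 624) (nat_lit 1444) (nat_lit 0) (XT.nd (nat_lit 312) (nat_lit 988) (nat_lit 0) (XT.nd (nat_lit 156) (nat_lit 532) (nat_lit 0) (XT.nd (nat_lit 78) (nat_lit 532) (nat_lit 0) (XT.lf (nat_lit 0) (nat_lit 25570638959) (nat_lit 608) (nat_lit 20575104657) (nat_lit 76) (nat_lit 2360353922) (nat_lit 249) (nat_lit 5) (nat_lit 257) (nat_lit 5) (nat_lit 250) (nat_lit 5) (nat_lit 674) (nat_lit 610) (nat_lit 276)) (XT.lf (nat_lit 0) (nat_lit 8063686107) (nat_lit 532) (nat_lit 26993084189) (nat_lit 608) (nat_lit 14024562907) (nat_lit 242) (nat_lit 5) (nat_lit 249) (nat_lit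 5) (nat_lit 250) (nat_lit 5) (nat_lit 675) (nat_lit 610) (nat_lit 275))) (XT.nd (nat_lit 78) (nat_lit 532) (nat_lit 0) (XT.lf (nat_lit 0) (nat_lit 37552680294) (nat_lit 532) (nat_lit 7316932748) (nat_lit 608) (nat_lit 4795720786) (nat_lit 242) (nat_lit 5) (nat_lit 249) (nat_lit 5) (nat_lit 250) (nat_lit 5) (nat_lit 676) (nat_lit 610) (nat_lit 274)) (XT.lf (nat_lit 0) (nat_lit 4753892469) (nat_lit 532) (nat_lit 32772479204) (nat_lit 76) (nat_lit 12730108067) (nat_lit 235) (nat_lit 5) (nat_lit 242) (nat_lit 5) (nat_lit 236) (nat_lit 5) (nat_lit 677) (nat_lit 610) (nat_lit 273)))) (XT.nd (nat_lit 156) (nat_lit 456) (nat_lit 0) (XT.nd (nat_lit 78) (nat_lit 532) (nat_lit 0) (XT.lf (nat_lit 0) (nat_lit 14559562507) (nat_lit 532) (nat_lit 3103267205) (nat_lit 76) (nat_lit 33193399301) (nat_lit 235) (nat_lit 5) (nat_lit 242) (nat_lit 5) (nat_lit 236) (nat_lit 5) (nat_lit 678) (nat_lit 610) (nat_lit 272)) (XT.lf (nat_lit 0) (nat_lit 24757027597) (nat_lit 608) (nat_lit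 23963664857) (nat_lit 76) (nat_lit 2743367205) (nat_lit 228) (nat_lit 5) (nat_lit 236) (nat_lit 5) (nat_lit 229) (nat_lit 5) (nat_lit 679) (nat_lit 610) (nat_lit 271))) (XT.nd (nat_lit 78) (nat_lit 0) (nat_lit 0) (XT.lf (nat_lit 0) (nat_lit 6643133508) (nat_lit 456) (nat_lit 28695346248) (nat_lit 532) (nat_lit 16741966426) (nat_lit 222) (nat_lit 5) (nat_lit 228) (nat_lit 5) (nat_lit 229) (nat_lit 5) (nat_lit 680) (nat_lit 610) (nat_lit 270)) (XT.lf (nat_lit 0) (nat_lit 38185463831) (nat_lit 456) (nat_lit 8105888058) (nat_lit 532) (nat_lit 6414612750) (nat_lit 222) (nat_lit 5) (nat_lit 228) (nat_lit 5) (nat_lit 229) (nat_lit 5) (nat_lit 681) (nat_lit 610) (nat_lit 269))))) (XT.nd (nat_lit 75660) (nat_lit 0) (nat_lit 21128) (XT.nd (nat_lit 156) (nat_lit 912) (nat_lit 0) (XT.nd (nat_lit 78) (nat_lit 0) (nat_lit 0) (XT.lf (nat_lit 0) (nat_lit 4260651121) (nat_lit 532) (nat_lit 36213662782) (nat_lit 76) (nat_lit 12865236909) (nat_lit 215) (nat_lit 5) (nat_lit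 222) (nat_lit 5) (nat_lit 216) (nat_lit 5) (nat_lit 682) (nat_lit 610) (nat_lit 268)) (XT.lf (nat_lit 0) (nat_lit 15214379026) (nat_lit 532) (nat_lit 4480064390) (nat_lit 76) (nat_lit 34287500293) (nat_lit 215) (nat_lit 5) (nat_lit 222) (nat_lit 5) (nat_lit 216) (nat_lit 5) (nat_lit 683) (nat_lit 610) (nat_lit 267))) (XT.nd (nat_lit 78) (nat_lit 456) (nat_lit 0) (XT.lf (nat_lit 0) (nat_lit 26580627982) (nat_lit 532) (nat_lit 26387088423) (nat_lit 76) (nat_lit 1665599147) (nat_lit 209) (nat_lit 5) (nat_lit 216) (nat_lit 5) (nat_lit 210) (nat_lit 5) (nat_lit 684) (nat_lit 610) (nat_lit 266)) (XT.lf (nat_lit 0) (nat_lit 6341797215) (nat_lit 456) (nat_lit 32033299460) (nat_lit 532) (nat_lit 16918600279) (nat_lit 203) (nat_lit 5) (nat_lit 209) (nat_lit 5) (nat_lit 210) (nat_lit 5) (nat_lit 685) (nat_lit 610) (nat_lit 265)))) (XT.nd (nat_lit 156) (nat_lit 0) (nat_lit 76) (XT.nd (nat_lit 78) (nat_lit 0) (nat_lit 0) (XT.lf (nat_lit 0) (nat_lit 1462001847) (nat_lit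 1900) (nat_lit 5439814072) (nat_lit 1900) (nat_lit 5439814072) (nat_lit 481) (nat_lit 3) (nat_lit 506) (nat_lit 3) (nat_lit 506) (nat_lit 5) (nat_lit 611) (nat_lit 611) (nat_lit 338)) (XT.lf (nat_lit 76) (nat_lit 1431187576) (nat_lit 0) (nat_lit 1640120576) (nat_lit 1900) (nat_lit 21856419853) (nat_lit 482) (nat_lit 5) (nat_lit 481) (nat_lit 3) (nat_lit 506) (nat_lit 5) (nat_lit 612) (nat_lit 611) (nat_lit 337))) (XT.nd (nat_lit 78) (nat_lit 0) (nat_lit 0) (XT.lf (nat_lit 0) (nat_lit 3362100837) (nat_lit 1824) (nat_lit 11111858024) (nat_lit 1900) (nat_lit 10700315767) (nat_lit 482) (nat_lit 5) (nat_lit 506) (nat_lit 5) (nat_lit 507) (nat_lit 5) (nat_lit 613) (nat_lit 611) (nat_lit 336)) (XT.lf (nat_lit 76) (nat_lit 1528188144) (nat_lit 0) (nat_lit 2148507229) (nat_lit 1900) (nat_lit 21748697177) (nat_lit 483) (nat_lit 5) (nat_lit 482) (nat_lit 5) (nat_lit 507) (nat_lit 5) (nat_lit 614) (nat_lit 611) (nat_lit 335))))))) (XT.nd (nat_lit 1170) (nat_lit 5928)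 (nat_lit 0) (XT.nd (nat_lit 546) (nat_lit 0) (nat_lit 228) (XT.nd (nat_lit 234) (nat_lit 0) (nat_lit 76) (XT.nd (nat_lit 78) (nat_lit 0) (nat_lit 0) (XT.lf (nat_lit 0) (nat_lit 4137573510) (nat_lit 1824) (nat_lit 11178115843) (nat_lit 1900) (nat_lit 10363043725) (nat_lit 483) (nat_lit 5) (nat_lit 507) (nat_lit 5) (nat_lit 508) (nat_lit 5) (nat_lit 615) (nat_lit 611) (nat_lit 334)) (XT.nd (nat_lit 78) (nat_lit 0) (nat_lit 76) (XT.lf (nat_lit 76) (nat_lit 1803242536) (nat_lit 0) (nat_lit 2827672361) (nat_lit 1900) (nat_lit 21305760687) (nat_lit 484) (nat_lit 5) (nat_lit 483) (nat_lit 5) (nat_lit 508) (nat_lit 5) (nat_lit 616) (nat_lit 611) (nat_lit 333)) (XT.lf (nat_lit 0) (nat_lit 5271333378) (nat_lit 1824) (nat_lit 11068949603) (nat_lit 1900) (nat_lit 9856749834) (nat_lit 484) (nat_lit 5) (nat_lit 508) (nat_lit 5) (nat_lit 509) (nat_lit 5) (nat_lit 617) (nat_lit 611) (nat_lit 332)))) (XT.nd (nat_lit 156) (nat_lit 0) (nat_lit 76) (XT.nd (nat_lit 78) (nat_lit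 0) (nat_lit 76) (XT.lf (nat_lit 76) (nat_lit 2266267224) (nat_lit 0) (nat_lit 3689144683) (nat_lit 1900) (nat_lit 20506568328) (nat_lit 485) (nat_lit 5) (nat_lit 484) (nat_lit 5) (nat_lit 509) (nat_lit 5) (nat_lit 618) (nat_lit 611) (nat_lit 331)) (XT.lf (nat_lit 0) (nat_lit 6785230933) (nat_lit 1824) (nat_lit 10774431865) (nat_lit 1900) (nat_lit 9169922704) (nat_lit 485) (nat_lit 5) (nat_lit 509) (nat_lit 5) (nat_lit 510) (nat_lit 5) (nat_lit 619) (nat_lit 611) (nat_lit 330))) (XT.nd (nat_lit 78) (nat_lit 0) (nat_lit 76) (XT.lf (nat_lit 76) (nat_lit 2927671962) (nat_lit 0) (nat_lit 4744922558) (nat_lit 1900) (nat_lit 19329129466) (nat_lit 486) (nat_lit 5) (nat_lit 485) (nat_lit 5) (nat_lit 510) (nat_lit 5) (nat_lit 620) (nat_lit 611) (nat_lit 329)) (XT.lf (nat_lit 0) (nat_lit 8702097873) (nat_lit 1824) (nat_lit 10284141626) (nat_lit 1900) (nat_lit 8290577963) (nat_lit 486) (nat_lit 5) (nat_lit 510) (nat_lit 5) (nat_lit 511) (nat_lit 5) (nat_lit 621) (nat_lit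 611) (nat_lit 328))))) (XT.nd (nat_lit 312) (nat_lit 0) (nat_lit 152) (XT.nd (nat_lit 156) (nat_lit 0) (nat_lit 76) (XT.nd (nat_lit 78) (nat_lit 0) (nat_lit 76) (XT.lf (nat_lit 76) (nat_lit 3798378612) (nat_lit 0) (nat_lit 6007498504) (nat_lit 1900) (nat_lit 17750462049) (nat_lit 487) (nat_lit 5) (nat_lit 486) (nat_lit 5) (nat_lit 511) (nat_lit 5) (nat_lit 622) (nat_lit 611) (nat_lit 327)) (XT.lf (nat_lit 0) (nat_lit 11045791122) (nat_lit 1824) (nat_lit 9587145361) (nat_lit 1900) (nat_lit 7206233705) (nat_lit 487) (nat_lit 5) (nat_lit 511) (nat_lit 5) (nat_lit 512) (nat_lit 5) (nat_lit 623) (nat_lit 611) (nat_lit 326))) (XT.nd (nat_lit 78) (nat_lit 0) (nat_lit 76) (XT.lf (nat_lit 76) (nat_lit 4889840844) (nat_lit 0) (nat_lit 7489884509) (nat_lit 1900) (nat_lit 15746548110) (nat_lit 488) (nat_lit 5) (nat_lit 487) (nat_lit 5) (nat_lit 512) (nat_lit 5) (nat_lit 624) (nat_lit 611) (nat_lit 325)) (XT.lf (nat_lit 0) (nat_lit 13841238553) (nat_lit 1824) (nat_lit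 8671977191) (nat_lit 1900) (nat_lit 5903885121) (nat_lit 488) (nat_lit 5) (nat_lit 512) (nat_lit 5) (nat_lit 513) (nat_lit 5) (nat_lit 625) (nat_lit 611) (nat_lit 324)))) (XT.nd (nat_lit 156) (nat_lit 0) (nat_lit 76) (XT.nd (nat_lit 78) (nat_lit 0) (nat_lit 76) (XT.lf (nat_lit 76) (nat_lit 6214064726) (nat_lit 0) (nat_lit 9205638193) (nat_lit 1900) (nat_lit 13292287546) (nat_lit 489) (nat_lit 5) (nat_lit 488) (nat_lit 5) (nat_lit 513) (nat_lit 5) (nat_lit 626) (nat_lit 611) (nat_lit 323)) (XT.lf (nat_lit 0) (nat_lit 17114486498) (nat_lit 1824) (nat_lit 7526618151) (nat_lit 1900) (nat_lit 4369978274) (nat_lit 489) (nat_lit 5) (nat_lit 513) (nat_lit 5) (nat_lit 514) (nat_lit 5) (nat_lit 627) (nat_lit 611) (nat_lit 322))) (XT.nd (nat_lit 78) (nat_lit 0) (nat_lit 76) (XT.lf (nat_lit 76) (nat_lit 7783630249) (nat_lit 0) (nat_lit 11168889876) (nat_lit 1900) (nat_lit 10361450082) (nat_lit 490) (nat_lit 5) (nat_lit 489) (nat_lit 5) (nat_lit 514) (nat_lit 5) (nat_lit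 628) (nat_lit 611) (nat_lit 321)) (XT.lf (nat_lit 0) (nat_lit 20892749123) (nat_lit 1824) (nat_lit 6138474534) (nat_lit 1900) (nat_lit 2590382949) (nat_lit 490) (nat_lit 5) (nat_lit 514) (nat_lit 5) (nat_lit 515) (nat_lit 5) (nat_lit 629) (nat_lit 611) (nat_lit 320)))))) (XT.nd (nat_lit 624) (nat_lit 3648) (nat_lit 0) (XT.nd (nat_lit 312) (nat_lit 2812) (nat_lit 0) (XT.nd (nat_lit 156) (nat_lit 0) (nat_lit 76) (XT.nd (nat_lit 78) (nat_lit 0) (nat_lit 76) (XT.lf (nat_lit 76) (nat_lit 9611713803) (nat_lit 0) (nat_lit 13394370595) (nat_lit 1900) (nat_lit 6926625362) (nat_lit 491) (nat_lit 5) (nat_lit 490) (nat_lit 5) (nat_lit 515) (nat_lit 5) (nat_lit 630) (nat_lit 611) (nat_lit 319)) (XT.lf (nat_lit 0) (nat_lit 25204459735) (nat_lit 1824) (nat_lit 4494355277) (nat_lit 1900) (nat_lit 550364559) (nat_lit 491) (nat_lit 5) (nat_lit 515) (nat_lit 5) (nat_lit 516) (nat_lit 5) (nat_lit 631) (nat_lit 611) (nat_lit 318))) (XT.nd (nat_lit 78) (nat_lit 0) (nat_lit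 0) (XT.lf (nat_lit 76) (nat_lit 11712111648) (nat_lit 0) (nat_lit 15897441123) (nat_lit 1900) (nat_lit 2959171062) (nat_lit 492) (nat_lit 5) (nat_lit 491) (nat_lit 5) (nat_lit 516) (nat_lit 5) (nat_lit 632) (nat_lit 611) (nat_lit 317)) (XT.lf (nat_lit 76) (nat_lit 28302032087) (nat_lit 0) (nat_lit 1788906810) (nat_lit 1900) (nat_lit 803156317) (nat_lit 492) (nat_lit 5) (nat_lit 491) (nat_lit 5) (nat_lit 516) (nat_lit 5) (nat_lit 633) (nat_lit 611) (nat_lit 316)))) (XT.nd (nat_lit 156) (nat_lit 1064) (nat_lit 0) (XT.nd (nat_lit 78) (nat_lit 0) (nat_lit 0) (XT.lf (nat_lit 0) (nat_lit 1550239174) (nat_lit 1900) (nat_lit 17133479951) (nat_lit 1976) (nat_lit 12538622302) (nat_lit 467) (nat_lit 5) (nat_lit 492) (nat_lit 5) (nat_lit 493) (nat_lit 5) (nat_lit 634) (nat_lit 611) (nat_lit 315)) (XT.lf (nat_lit 0) (nat_lit 3967402203) (nat_lit 1900) (nat_lit 437167748) (nat_lit 1976) (nat_lit 27151927413) (nat_lit 467) (nat_lit 5) (nat_lit 492) (nat_lit 5) (nat_lit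 493) (nat_lit 5) (nat_lit 635) (nat_lit 611) (nat_lit 314))) (XT.nd (nat_lit 78) (nat_lit 1140) (nat_lit 0) (XT.lf (nat_lit 0) (nat_lit 6606879175) (nat_lit 1900) (nat_lit 15149910134) (nat_lit 76) (nat_lit 10137067751) (nat_lit 468) (nat_lit 5) (nat_lit 493) (nat_lit 5) (nat_lit 469) (nat_lit 5) (nat_lit 636) (nat_lit 611) (nat_lit 313)) (XT.lf (nat_lit 0) (nat_lit 2032554040) (nat_lit 1140) (nat_lit 7310063945) (nat_lit 1216) (nat_lit 22894476570) (nat_lit 453) (nat_lit 5) (nat_lit 468) (nat_lit 5) (nat_lit 469) (nat_lit 5) (nat_lit 637) (nat_lit 611) (nat_lit 312))))) (XT.nd (nat_lit 312) (nat_lit 1824) (nat_lit 0) (XT.nd (nat_lit 156) (nat_lit 912) (nat_lit 0) (XT.nd (nat_lit 78) (nat_lit 912) (nat_lit 0) (XT.lf (nat_lit 0) (nat_lit 12281800978) (nat_lit 1216) (nat_lit 12871666420) (nat_lit 76) (nat_lit 7430754867) (nat_lit 453) (nat_lit 5) (nat_lit 469) (nat_lit 5) (nat_lit 454) (nat_lit 5) (nat_lit 638) (nat_lit 611) (nat_lit 311)) (XT.lf (nat_lit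 0) (nat_lit 4821069360) (nat_lit 912) (nat_lit 10536626916) (nat_lit 988) (nat_lit 17579037730) (nat_lit 441) (nat_lit 5) (nat_lit 453) (nat_lit 5) (nat_lit 454) (nat_lit 5) (nat_lit 639) (nat_lit 611) (nat_lit 310))) (XT.nd (nat_lit 78) (nat_lit 912) (nat_lit 0) (XT.lf (nat_lit 0) (nat_lit 18608688290) (nat_lit 988) (nat_lit 10283030910) (nat_lit 76) (nat_lit 4402305257) (nat_lit 441) (nat_lit 5) (nat_lit 454) (nat_lit 5) (nat_lit 442) (nat_lit 5) (nat_lit 640) (nat_lit 611) (nat_lit 309)) (XT.lf (nat_lit 0) (nat_lit 7938990350) (nat_lit 912) (nat_lit 14105310079) (nat_lit 988) (nat_lit 11611768329) (nat_lit 429) (nat_lit 5) (nat_lit 441) (nat_lit 5) (nat_lit 442) (nat_lit 5) (nat_lit 641) (nat_lit 611) (nat_lit 308)))) (XT.nd (nat_lit 156) (nat_lit 988) (nat_lit 0) (XT.nd (nat_lit 78) (nat_lit 836) (nat_lit 0) (XT.lf (nat_lit 0) (nat_lit 25622728770) (nat_lit 988) (nat_lit 7367563429) (nat_lit 76) (nat_lit 1033579716) (nat_lit 429) (nat_lit 5) (nat_lit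 442) (nat_lit 5) (nat_lit 430) (nat_lit 5) (nat_lit 642) (nat_lit 611) (nat_lit 307)) (XT.lf (nat_lit 0) (nat_lit 11403488387) (nat_lit 836) (nat_lit 18035022492) (nat_lit 912) (nat_lit 4957204596) (nat_lit 418) (nat_lit 5) (nat_lit 429) (nat_lit 5) (nat_lit 430) (nat_lit 5) (nat_lit 643) (nat_lit 611) (nat_lit 306))) (XT.nd (nat_lit 78) (nat_lit 988) (nat_lit 0) (XT.lf (nat_lit 0) (nat_lit 30648241413) (nat_lit 836) (nat_lit 2730163350) (nat_lit 912) (nat_lit 1395635270) (nat_lit 418) (nat_lit 5) (nat_lit 429) (nat_lit 5) (nat_lit 430) (nat_lit 5) (nat_lit 644) (nat_lit 611) (nat_lit 305)) (XT.lf (nat_lit 0) (nat_lit 2389941436) (nat_lit 988) (nat_lit 19939521682) (nat_lit 76) (nat_lit 12826535166) (nat_lit 405) (nat_lit 5) (nat_lit 418) (nat_lit 5) (nat_lit 406) (nat_lit 5) (nat_lit 645) (nat_lit 611) (nat_lit 304))))))))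
noncomputable def xc222 : XT := (XT.nd (nat_lit 2418) (nat_lit 2508) (nat_lit 0) (XT.nd (nat_lit 1170) (nat_lit 6156) (nat_lit 0) (XT.nd (nat_lit 546) (nat_lit 3040) (nat_lit 0) (XT.nd (nat_lit 234) (nat_lit 1520) (nat_lit 0) (XT.nd (nat_lit 78) (nat_lit 1672) (nat_lit 0) (XT.lf (nat_lit 0) (nat_lit 6276909029) (nat_lit 988) (nat_lit 572626297) (nat_lit 76) (nat_lit 28694988578) (nat_lit 405) (nat_lit 5) (nat_lit 418) (nat_lit 5) (nat_lit 406) (nat_lit 5) (nat_lit 646) (nat_lit 611) (nat_lit 303)) (XT.nd (nat_lit 78) (nat_lit 836) (nat_lit 0) (XT.lf (nat_lit 0) (nat_lit 10425111074) (nat_lit 912) (nat_lit 16562278204) (nat_lit 76) (nat_lit 8949760897) (nat_lit 394) (nat_lit 5) (nat_lit 406) (nat_lit 5) (nat_lit 395) (nat_lit 5) (nat_lit 647) (nat_lit 611) (nat_lit 302)) (XT.lf (nat_lit 0) (nat_lit 3389000294) (nat_lit 836) (nat_lit 11336960952) (nat_lit 912) (nat_lit 21610274086) (nat_lit 383) (nat_lit 5) (nat_lit 394) (nat_lit 5) (nat_lit 395) (nat_lit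 5) (nat_lit 648) (nat_lit 611) (nat_lit 301)))) (XT.nd (nat_lit 156) (nat_lit 760) (nat_lit 0) (XT.nd (nat_lit 78) (nat_lit 760) (nat_lit 0) (XT.lf (nat_lit 0) (nat_lit 19253215203) (nat_lit 912) (nat_lit 12809653591) (nat_lit 76) (nat_lit 4677625703) (nat_lit 383) (nat_lit 5) (nat_lit 395) (nat_lit 5) (nat_lit 384) (nat_lit 5) (nat_lit 649) (nat_lit 611) (nat_lit 300)) (XT.lf (nat_lit 0) (nat_lit 7755739320) (nat_lit 760) (nat_lit 16239210504) (nat_lit 836) (nat_lit 13155410349) (nat_lit 373) (nat_lit 5) (nat_lit 383) (nat_lit 5) (nat_lit 384) (nat_lit 5) (nat_lit 650) (nat_lit 611) (nat_lit 299))) (XT.nd (nat_lit 78) (nat_lit 760) (nat_lit 0) (XT.lf (nat_lit 0) (nat_lit 28904509835) (nat_lit 760) (nat_lit 11489000) (nat_lit 836) (nat_lit 8650734773) (nat_lit 373) (nat_lit 5) (nat_lit 383) (nat_lit 5) (nat_lit 384) (nat_lit 5) (nat_lit 651) (nat_lit 611) (nat_lit 298)) (XT.lf (nat_lit 0) (nat_lit 12540329952) (nat_lit 760) (nat_lit 21582501406) (nat_lit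 836) (nat_lit 3864855942) (nat_lit 363) (nat_lit 5) (nat_lit 373) (nat_lit 5) (nat_lit 374) (nat_lit 5) (nat_lit 652) (nat_lit 611) (nat_lit 297))))) (XT.nd (nat_lit 312) (nat_lit 1444) (nat_lit 0) (XT.nd (nat_lit 156) (nat_lit 760) (nat_lit 0) (XT.nd (nat_lit 78) (nat_lit 760) (nat_lit 0) (XT.lf (nat_lit 0) (nat_lit 1060552311) (nat_lit 836) (nat_lit 4140181541) (nat_lit 76) (nat_lit 33215051291) (nat_lit 362) (nat_lit 5) (nat_lit 373) (nat_lit 5) (nat_lit 363) (nat_lit 5) (nat_lit 653) (nat_lit 611) (nat_lit 296)) (XT.lf (nat_lit 0) (nat_lit 6222574119) (nat_lit 836) (nat_lit 21125864610) (nat_lit 76) (nat_lit 11499698201) (nat_lit 352) (nat_lit 5) (nat_lit 363) (nat_lit 5) (nat_lit 353) (nat_lit 5) (nat_lit 654) (nat_lit 611) (nat_lit 295))) (XT.nd (nat_lit 78) (nat_lit 0) (nat_lit 0) (XT.lf (nat_lit 0) (nat_lit 763340677) (nat_lit 760) (nat_lit 10790463156) (nat_lit 836) (nat_lit 27734012605) (nat_lit 342) (nat_lit 5) (nat_lit 352) (nat_lit 5) (nat_lit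 353) (nat_lit 5) (nat_lit 655) (nat_lit 611) (nat_lit 294)) (XT.lf (nat_lit 0) (nat_lit 17172578125) (nat_lit 836) (nat_lit 16398870370) (nat_lit 76) (nat_lit 6161222676) (nat_lit 342) (nat_lit 5) (nat_lit 353) (nat_lit 5) (nat_lit 343) (nat_lit 5) (nat_lit 656) (nat_lit 611) (nat_lit 293)))) (XT.nd (nat_lit 156) (nat_lit 760) (nat_lit 0) (XT.nd (nat_lit 78) (nat_lit 0) (nat_lit 0) (XT.lf (nat_lit 0) (nat_lit 6177256463) (nat_lit 684) (nat_lit 16836684232) (nat_lit 760) (nat_lit 17170278084) (nat_lit 333) (nat_lit 5) (nat_lit 342) (nat_lit 5) (nat_lit 343) (nat_lit 5) (nat_lit 657) (nat_lit 611) (nat_lit 292)) (XT.lf (nat_lit 0) (nat_lit 29083076884) (nat_lit 760) (nat_lit 11219201499) (nat_lit 76) (nat_lit 340300060) (nat_lit 333) (nat_lit 5) (nat_lit 343) (nat_lit 5) (nat_lit 334) (nat_lit 5) (nat_lit 658) (nat_lit 611) (nat_lit 291))) (XT.nd (nat_lit 78) (nat_lit 76) (nat_lit 0) (XT.lf (nat_lit 0) (nat_lit 12069576816) (nat_lit 684) (nat_lit 23392571360)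 (nat_lit 760) (nat_lit 5644186110) (nat_lit 324) (nat_lit 5) (nat_lit 333) (nat_lit 5) (nat_lit 334) (nat_lit 5) (nat_lit 659) (nat_lit 611) (nat_lit 290)) (XT.lf (nat_lit 0) (nat_lit 458808165) (nat_lit 760) (nat_lit 5606215121) (nat_lit 76) (nat_lit 35512801821) (nat_lit 323) (nat_lit 5) (nat_lit 333) (nat_lit 5) (nat_lit 324) (nat_lit 5) (nat_lit 660) (nat_lit 611) (nat_lit 289)))))) (XT.nd (nat_lit 624) (nat_lit 2888) (nat_lit 0) (XT.nd (nat_lit 312) (nat_lit 1292) (nat_lit 0) (XT.nd (nat_lit 156) (nat_lit 608) (nat_lit 0) (XT.nd (nat_lit 78) (nat_lit 684) (nat_lit 0) (XT.lf (nat_lit 0) (nat_lit 6803585248) (nat_lit 760) (nat_lit 23635399355) (nat_lit 76) (nat_lit 11615109039) (nat_lit 314) (nat_lit 5) (nat_lit 324) (nat_lit 5) (nat_lit 315) (nat_lit 5) (nat_lit 661) (nat_lit 611) (nat_lit 288)) (XT.lf (nat_lit 0) (nat_lit 424592028) (nat_lit 684) (nat_lit 12930192232) (nat_lit 760) (nat_lit 29183512790) (nat_lit 305) (nat_lit 5) (nat_lit 314) (nat_lit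 5) (nat_lit 315) (nat_lit 5) (nat_lit 662) (nat_lit 611) (nat_lit 287))) (XT.nd (nat_lit 78) (nat_lit 608) (nat_lit 0) (XT.lf (nat_lit 0) (nat_lit 20227411923) (nat_lit 760) (nat_lit 17777431881) (nat_lit 76) (nat_lit 5023532659) (nat_lit 305) (nat_lit 5) (nat_lit 315) (nat_lit 5) (nat_lit 306) (nat_lit 5) (nat_lit 663) (nat_lit 611) (nat_lit 286)) (XT.lf (nat_lit 0) (nat_lit 7050904785) (nat_lit 608) (nat_lit 20316768922) (nat_lit 684) (nat_lit 16157980156) (nat_lit 297) (nat_lit 5) (nat_lit 305) (nat_lit 5) (nat_lit 306) (nat_lit 5) (nat_lit 664) (nat_lit 611) (nat_lit 285)))) (XT.nd (nat_lit 156) (nat_lit 684) (nat_lit 0) (XT.nd (nat_lit 78) (nat_lit 608) (nat_lit 0) (XT.lf (nat_lit 0) (nat_lit 32615290447) (nat_lit 608) (nat_lit 2153532579) (nat_lit 684) (nat_lit 9261692166) (nat_lit 297) (nat_lit 5) (nat_lit 305) (nat_lit 5) (nat_lit 306) (nat_lit 5) (nat_lit 665) (nat_lit 611) (nat_lit 284)) (XT.lf (nat_lit 0) (nat_lit 14224251304) (nat_lit 608)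 (nat_lit 28291209850) (nat_lit 684) (nat_lit 2026063305) (nat_lit 289) (nat_lit 5) (nat_lit 297) (nat_lit 5) (nat_lit 298) (nat_lit 5) (nat_lit 666) (nat_lit 611) (nat_lit 283))) (XT.nd (nat_lit 78) (nat_lit 608) (nat_lit 0) (XT.lf (nat_lit 0) (nat_lit 5374241397) (nat_lit 684) (nat_lit 4580995453) (nat_lit 76) (nat_lit 35105018106) (nat_lit 288) (nat_lit 5) (nat_lit 297) (nat_lit 5) (nat_lit 289) (nat_lit 5) (nat_lit 667) (nat_lit 611) (nat_lit 282)) (XT.lf (nat_lit 0) (nat_lit 13094578735) (nat_lit 684) (nat_lit 23701179828) (nat_lit 76) (nat_lit 8789350571) (nat_lit 280) (nat_lit 5) (nat_lit 289) (nat_lit 5) (nat_lit 281) (nat_lit 5) (nat_lit 668) (nat_lit 611) (nat_lit 281))))) (XT.nd (nat_lit 312) (nat_lit 1748) (nat_lit 0) (XT.nd (nat_lit 156) (nat_lit 532) (nat_lit 0) (XT.nd (nat_lit 78) (nat_lit 0) (nat_lit 0) (XT.lf (nat_lit 0) (nat_lit 2789378187) (nat_lit 608) (nat_lit 18293777240) (nat_lit 684) (nat_lit 25035028341) (nat_lit 272) (nat_lit 5)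 (nat_lit 280) (nat_lit 5) (nat_lit 281) (nat_lit 5) (nat_lit 669) (nat_lit 611) (nat_lit 280)) (XT.lf (nat_lit 0) (nat_lit 29394218516) (nat_lit 684) (nat_lit 16534010721) (nat_lit 76) (nat_lit 730436387) (nat_lit 272) (nat_lit 5) (nat_lit 281) (nat_lit 5) (nat_lit 273) (nat_lit 5) (nat_lit 670) (nat_lit 611) (nat_lit 279))) (XT.nd (nat_lit 78) (nat_lit 0) (nat_lit 0) (XT.lf (nat_lit 0) (nat_lit 10815923913) (nat_lit 532) (nat_lit 27245836141) (nat_lit 608) (nat_lit 9144391944) (nat_lit 265) (nat_lit 5) (nat_lit 272) (nat_lit 5) (nat_lit 273) (nat_lit 5) (nat_lit 671) (nat_lit 611) (nat_lit 278)) (XT.lf (nat_lit 0) (nat_lit 38935531631) (nat_lit 532) (nat_lit 8076967410) (nat_lit 608) (nat_lit 749892150) (nat_lit 265) (nat_lit 5) (nat_lit 272) (nat_lit 5) (nat_lit 273) (nat_lit 5) (nat_lit 672) (nat_lit 611) (nat_lit 277)))) (XT.nd (nat_lit 156) (nat_lit 1064) (nat_lit 0) (XT.nd (nat_lit 78) (nat_lit 0) (nat_lit 0) (XT.lf (nat_lit 0) (nat_lit 7911171513)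 (nat_lit 684) (nat_lit 28910659356) (nat_lit 76) (nat_lit 11502887121) (nat_lit 256) (nat_lit 5) (nat_lit 265) (nat_lit 5) (nat_lit 257) (nat_lit 5) (nat_lit 673) (nat_lit 611) (nat_lit 276)) (XT.lf (nat_lit 0) (nat_lit 16847458838) (nat_lit 684) (nat_lit 617953866) (nat_lit 76) (nat_lit 31430538637) (nat_lit 256) (nat_lit 5) (nat_lit 265) (nat_lit 5) (nat_lit 257) (nat_lit 5) (nat_lit 674) (nat_lit 611) (nat_lit 275))) (XT.nd (nat_lit 78) (nat_lit 532) (nat_lit 0) (XT.lf (nat_lit 0) (nat_lit 26163215511) (nat_lit 608) (nat_lit 20876460577) (nat_lit 76) (nat_lit 2434918423) (nat_lit 249) (nat_lit 5) (nat_lit 257) (nat_lit 5) (nat_lit 250) (nat_lit 5) (nat_lit 675) (nat_lit 611) (nat_lit 274)) (XT.lf (nat_lit 0) (nat_lit 8334381356) (nat_lit 532) (nat_lit 27503807110) (nat_lit 608) (nat_lit 14223164078) (nat_lit 242) (nat_lit 5) (nat_lit 249) (nat_lit 5) (nat_lit 250) (nat_lit 5) (nat_lit 676) (nat_lit 611) (nat_lit 273))))))) (XT.nd (nat_lit 76596) (nat_lit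 0) (nat_lit 20900) (XT.nd (nat_lit 546) (nat_lit 456) (nat_lit 0) (XT.nd (nat_lit 234) (nat_lit 1520) (nat_lit 0) (XT.nd (nat_lit 78) (nat_lit 532) (nat_lit 0) (XT.lf (nat_lit 0) (nat_lit 38411009907) (nat_lit 532) (nat_lit 7434703988) (nat_lit 608) (nat_lit 4811350803) (nat_lit 242) (nat_lit 5) (nat_lit 249) (nat_lit 5) (nat_lit 250) (nat_lit 5) (nat_lit 677) (nat_lit 611) (nat_lit 272)) (XT.nd (nat_lit 78) (nat_lit 0) (nat_lit 0) (XT.lf (nat_lit 0) (nat_lit 4927536795) (nat_lit 532) (nat_lit 33318931684) (nat_lit 76) (nat_lit 13013567955) (nat_lit 235) (nat_lit 5) (nat_lit 242) (nat_lit 5) (nat_lit 236) (nat_lit 5) (nat_lit 678) (nat_lit 611) (nat_lit 271)) (XT.lf (nat_lit 0) (nat_lit 14927779714) (nat_lit 532) (nat_lit 3058472644) (nat_lit 76) (nat_lit 33885559175) (nat_lit 235) (nat_lit 5) (nat_lit 242) (nat_lit 5) (nat_lit 236) (nat_lit 5) (nat_lit 679) (nat_lit 611) (nat_lit 270)))) (XT.nd (nat_lit 156) (nat_lit 532) (nat_lit 0) (XT.nd (nat_lit 78)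 (nat_lit 456) (nat_lit 0) (XT.lf (nat_lit 0) (nat_lit 25328567502) (nat_lit 608) (nat_lit 24335450134) (nat_lit 76) (nat_lit 2827793718) (nat_lit 228) (nat_lit 5) (nat_lit 236) (nat_lit 5) (nat_lit 229) (nat_lit 5) (nat_lit 680) (nat_lit 611) (nat_lit 269)) (XT.lf (nat_lit 0) (nat_lit 6882777041) (nat_lit 456) (nat_lit 29238066929) (nat_lit 532) (nat_lit 16999697762) (nat_lit 222) (nat_lit 5) (nat_lit 228) (nat_lit 5) (nat_lit 229) (nat_lit 5) (nat_lit 681) (nat_lit 611) (nat_lit 268))) (XT.nd (nat_lit 78) (nat_lit 532) (nat_lit 0) (XT.lf (nat_lit 0) (nat_lit 39053860227) (nat_lit 456) (nat_lit 8237431070) (nat_lit 532) (nat_lit 6467308933) (nat_lit 222) (nat_lit 5) (nat_lit 228) (nat_lit 5) (nat_lit 229) (nat_lit 5) (nat_lit 682) (nat_lit 611) (nat_lit 267)) (XT.lf (nat_lit 0) (nat_lit 4419889874) (nat_lit 532) (nat_lit 36831675756) (nat_lit 76) (nat_lit 13153294288) (nat_lit 215) (nat_lit 5) (nat_lit 222) (nat_lit 5) (nat_lit 216) (nat_lit 5) (nat_lit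 683) (nat_lit 611) (nat_lit 266))))) (XT.nd (nat_lit 75738) (nat_lit 0) (nat_lit 20748) (XT.nd (nat_lit 75582) (nat_lit 0) (nat_lit 20672) (XT.nd (nat_lit 78) (nat_lit 456) (nat_lit 0) (XT.lf (nat_lit 0) (nat_lit 15591240851) (nat_lit 532) (nat_lit 4465488932) (nat_lit 76) (nat_lit 35003399947) (nat_lit 215) (nat_lit 5) (nat_lit 222) (nat_lit 5) (nat_lit 216) (nat_lit 5) (nat_lit 684) (nat_lit 611) (nat_lit 265)) (XT.lf (nat_lit 0) (nat_lit 27184269308) (nat_lit 532) (nat_lit 26810106625) (nat_lit 76) (nat_lit 1730164012) (nat_lit 209) (nat_lit 5) (nat_lit 216) (nat_lit 5) (nat_lit 210) (nat_lit 5) (nat_lit 685) (nat_lit 611) (nat_lit 264))) (XT.nd (nat_lit 78) (nat_lit 0) (nat_lit 0) (XT.lf (nat_lit 0) (nat_lit 1599307865) (nat_lit 1900) (nat_lit 5493495069) (nat_lit 1900) (nat_lit 5493495069) (nat_lit 481) (nat_lit 3) (nat_lit 506) (nat_lit 3) (nat_lit 506) (nat_lit 5) (nat_lit 612) (nat_lit 612) (nat_lit 336)) (XT.lf (nat_lit 76) (nat_lit 1569316697)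 (nat_lit 0) (nat_lit 1776022679) (nat_lit 1900) (nat_lit 22076684676) (nat_lit 482) (nat_lit 5) (nat_lit 481) (nat_lit 3) (nat_lit 506) (nat_lit 5) (nat_lit 613) (nat_lit 612) (nat_lit 335)))) (XT.nd (nat_lit 156) (nat_lit 0) (nat_lit 76) (XT.nd (nat_lit 78) (nat_lit 0) (nat_lit 0) (XT.lf (nat_lit 0) (nat_lit 3637122922) (nat_lit 1824) (nat_lit 11221905700) (nat_lit 1900) (nat_lit 10814569612) (nat_lit 482) (nat_lit 5) (nat_lit 506) (nat_lit 5) (nat_lit 507) (nat_lit 5) (nat_lit 614) (nat_lit 612) (nat_lit 334)) (XT.lf (nat_lit 76) (nat_lit 1670203303) (nat_lit 0) (nat_lit 2284455543) (nat_lit 1900) (nat_lit 21975146801) (nat_lit 483) (nat_lit 5) (nat_lit 482) (nat_lit 5) (nat_lit 507) (nat_lit 5) (nat_lit 615) (nat_lit 612) (nat_lit 333))) (XT.nd (nat_lit 78) (nat_lit 0) (nat_lit 0) (XT.lf (nat_lit 0) (nat_lit 4420154283) (nat_lit 1824) (nat_lit 11287805780) (nat_lit 1900) (nat_lit 10480345047) (nat_lit 483) (nat_lit 5) (nat_lit 507) (nat_lit 5) (nat_lit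 508) (nat_lit 5) (nat_lit 616) (nat_lit 612) (nat_lit 332)) (XT.lf (nat_lit 76) (nat_lit 1952430605) (nat_lit 0) (nat_lit 2967748142) (nat_lit 1900) (nat_lit 21531291513) (nat_lit 484) (nat_lit 5) (nat_lit 483) (nat_lit 5) (nat_lit 508) (nat_lit 5) (nat_lit 617) (nat_lit 612) (nat_lit 331)))))) (XT.nd (nat_lit 624) (nat_lit 0) (nat_lit 304) (XT.nd (nat_lit 312) (nat_lit 0) (nat_lit 152) (XT.nd (nat_lit 156) (nat_lit 0) (nat_lit 76) (XT.nd (nat_lit 78) (nat_lit 0) (nat_lit 0) (XT.lf (nat_lit 0) (nat_lit 5569018153) (nat_lit 1824) (nat_lit 11175030226) (nat_lit 1900) (nat_lit 9973074122) (nat_lit 484) (nat_lit 5) (nat_lit 508) (nat_lit 5) (nat_lit 509) (nat_lit 5) (nat_lit 618) (nat_lit 612) (nat_lit 330)) (XT.lf (nat_lit 76) (nat_lit 2426132395) (nat_lit 0) (nat_lit 3837619759) (nat_lit 1900) (nat_lit 20723677351) (nat_lit 485) (nat_lit 5) (nat_lit 484) (nat_lit 5) (nat_lit 509) (nat_lit 5) (nat_lit 619) (nat_lit 612) (nat_lit 329))) (XT.nd (nat_lit 78)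 (nat_lit 0) (nat_lit 0) (XT.lf (nat_lit 0) (nat_lit 7105981687) (nat_lit 1824) (nat_lit 10873435098) (nat_lit 1900) (nat_lit 9281053922) (nat_lit 485) (nat_lit 5) (nat_lit 509) (nat_lit 5) (nat_lit 510) (nat_lit 5) (nat_lit 620) (nat_lit 612) (nat_lit 328)) (XT.lf (nat_lit 76) (nat_lit 3101944454) (nat_lit 0) (nat_lit 4906271061) (nat_lit 1900) (nat_lit 19529894095) (nat_lit 486) (nat_lit 5) (nat_lit 485) (nat_lit 5) (nat_lit 510) (nat_lit 5) (nat_lit 621) (nat_lit 612) (nat_lit 327)))) (XT.nd (nat_lit 156) (nat_lit 0) (nat_lit 76) (XT.nd (nat_lit 78) (nat_lit 0) (nat_lit 0) (XT.lf (nat_lit 0) (nat_lit 9054314014) (nat_lit 1824) (nat_lit 10372374119) (nat_lit 1900) (nat_lit 8392096829) (nat_lit 486) (nat_lit 5) (nat_lit 510) (nat_lit 5) (nat_lit 511) (nat_lit 5) (nat_lit 622) (nat_lit 612) (nat_lit 326)) (XT.lf (nat_lit 76) (nat_lit 3991023824) (nat_lit 0) (nat_lit 6186408955) (nat_lit 1900) (nat_lit 17926519146) (nat_lit 487) (nat_lit 5) (nat_lit 486)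 (nat_lit 5) (nat_lit 511) (nat_lit 5) (nat_lit 623) (nat_lit 612) (nat_lit 325))) (XT.nd (nat_lit 78) (nat_lit 0) (nat_lit 0) (XT.lf (nat_lit 0) (nat_lit 11438331070) (nat_lit 1824) (nat_lit 9660679274) (nat_lit 1900) (nat_lit 7293505608) (nat_lit 487) (nat_lit 5) (nat_lit 511) (nat_lit 5) (nat_lit 512) (nat_lit 5) (nat_lit 624) (nat_lit 612) (nat_lit 324)) (XT.lf (nat_lit 76) (nat_lit 5105068964) (nat_lit 0) (nat_lit 7691272284) (nat_lit 1900) (nat_lit 15889072199) (nat_lit 488) (nat_lit 5) (nat_lit 487) (nat_lit 5) (nat_lit 512) (nat_lit 5) (nat_lit 625) (nat_lit 612) (nat_lit 323))))) (XT.nd (nat_lit 312) (nat_lit 0) (nat_lit 152) (XT.nd (nat_lit 156) (nat_lit 0) (nat_lit 76) (XT.nd (nat_lit 78) (nat_lit 0) (nat_lit 0) (XT.lf (nat_lit 0) (nat_lit 14283442179) (nat_lit 1824) (nat_lit 8726640515) (nat_lit 1900) (nat_lit 5972047655) (nat_lit 488) (nat_lit 5) (nat_lit 512) (nat_lit 5) (nat_lit 513) (nat_lit 5) (nat_lit 626) (nat_lit 612) (nat_lit 322))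 (XT.lf (nat_lit 76) (nat_lit 6456340818) (nat_lit 0) (nat_lit 9434658392) (nat_lit 1900) (nat_lit 13391968160) (nat_lit 489) (nat_lit 5) (nat_lit 488) (nat_lit 5) (nat_lit 513) (nat_lit 5) (nat_lit 627) (nat_lit 612) (nat_lit 321))) (XT.nd (nat_lit 78) (nat_lit 0) (nat_lit 0) (XT.lf (nat_lit 0) (nat_lit 17616198448) (nat_lit 1824) (nat_lit 7557984562) (nat_lit 1900) (nat_lit 4413928363) (nat_lit 489) (nat_lit 5) (nat_lit 513) (nat_lit 5) (nat_lit 514) (nat_lit 5) (nat_lit 628) (nat_lit 612) (nat_lit 320)) (XT.lf (nat_lit 76) (nat_lit 8057684819) (nat_lit 0) (nat_lit 11430950616) (nat_lit 1900) (nat_lit 10408468207) (nat_lit 490) (nat_lit 5) (nat_lit 489) (nat_lit 5) (nat_lit 514) (nat_lit 5) (nat_lit 629) (nat_lit 612) (nat_lit 319)))) (XT.nd (nat_lit 156) (nat_lit 0) (nat_lit 76) (XT.nd (nat_lit 78) (nat_lit 0) (nat_lit 0) (XT.lf (nat_lit 0) (nat_lit 21464343078) (nat_lit 1824) (nat_lit 6141852760) (nat_lit 1900) (nat_lit 2604763541) (nat_lit 490) (nat_lit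 5) (nat_lit 514) (nat_lit 5) (nat_lit 515) (nat_lit 5) (nat_lit 630) (nat_lit 612) (nat_lit 318)) (XT.lf (nat_lit 76) (nat_lit 9922553875) (nat_lit 0) (nat_lit 13695146761) (nat_lit 1900) (nat_lit 6910628937) (nat_lit 491) (nat_lit 5) (nat_lit 490) (nat_lit 5) (nat_lit 515) (nat_lit 5) (nat_lit 631) (nat_lit 612) (nat_lit 317))) (XT.nd (nat_lit 78) (nat_lit 0) (nat_lit 0) (XT.lf (nat_lit 0) (nat_lit 25856863650) (nat_lit 1824) (nat_lit 4464777959) (nat_lit 1900) (nat_lit 529550857) (nat_lit 491) (nat_lit 5) (nat_lit 515) (nat_lit 5) (nat_lit 516) (nat_lit 5) (nat_lit 632) (nat_lit 612) (nat_lit 316)) (XT.lf (nat_lit 76) (nat_lit 12065032355) (nat_lit 0) (nat_lit 16242888600) (nat_lit 1900) (nat_lit 2869249497) (nat_lit 492) (nat_lit 5) (nat_lit 491) (nat_lit 5) (nat_lit 516) (nat_lit 5) (nat_lit 633) (nat_lit 612) (nat_lit 315))))))))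
noncomputable def xc223 : XT := (XT.nd (nat_lit 2418) (nat_lit 6840) (nat_lit 0) (XT.nd (nat_lit 1170) (nat_lit 6764) (nat_lit 0) (XT.nd (nat_lit 546) (nat_lit 3572) (nat_lit 0) (XT.nd (nat_lit 234) (nat_lit 1976) (nat_lit 0) (XT.nd (nat_lit 78) (nat_lit 1824) (nat_lit 0) (XT.lf (nat_lit 76) (nat_lit 28984424173) (nat_lit 0) (nat_lit 1851644412) (nat_lit 1900) (nat_lit 673038084) (nat_lit 492) (nat_lit 5) (nat_lit 491) (nat_lit 5) (nat_lit 516) (nat_lit 5) (nat_lit 634) (nat_lit 612) (nat_lit 314)) (XT.nd (nat_lit 78) (nat_lit 0) (nat_lit 0) (XT.lf (nat_lit 0) (nat_lit 1723281873) (nat_lit 1900) (nat_lit 17355646448) (nat_lit 1976) (nat_lit 12765015109) (nat_lit 467) (nat_lit 5) (nat_lit 492) (nat_lit 5) (nat_lit 493) (nat_lit 5) (nat_lit 635) (nat_lit 612) (nat_lit 313)) (XT.lf (nat_lit 0) (nat_lit 4186003106) (nat_lit 1900) (nat_lit 327770807) (nat_lit 1976) (nat_lit 27671064354) (nat_lit 467) (nat_lit 5) (nat_lit 492) (nat_lit 5) (nat_lit 493) (nat_lit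 5) (nat_lit 636) (nat_lit 612) (nat_lit 312)))) (XT.nd (nat_lit 156) (nat_lit 912) (nat_lit 0) (XT.nd (nat_lit 78) (nat_lit 1140) (nat_lit 0) (XT.lf (nat_lit 0) (nat_lit 6876171825) (nat_lit 1900) (nat_lit 15332666340) (nat_lit 76) (nat_lit 10320149026) (nat_lit 468) (nat_lit 5) (nat_lit 493) (nat_lit 5) (nat_lit 469) (nat_lit 5) (nat_lit 637) (nat_lit 612) (nat_lit 311)) (XT.lf (nat_lit 0) (nat_lit 2192656052) (nat_lit 1140) (nat_lit 7472055600) (nat_lit 1216) (nat_lit 23214416137) (nat_lit 453) (nat_lit 5) (nat_lit 468) (nat_lit 5) (nat_lit 469) (nat_lit 5) (nat_lit 638) (nat_lit 612) (nat_lit 310))) (XT.nd (nat_lit 78) (nat_lit 912) (nat_lit 0) (XT.lf (nat_lit 0) (nat_lit 12659926002) (nat_lit 1216) (nat_lit 13009234934) (nat_lit 76) (nat_lit 7564092237) (nat_lit 453) (nat_lit 5) (nat_lit 469) (nat_lit 5) (nat_lit 454) (nat_lit 5) (nat_lit 639) (nat_lit 612) (nat_lit 309)) (XT.lf (nat_lit 0) (nat_lit 5036566977) (nat_lit 912) (nat_lit 10758947528) (nat_lit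 988) (nat_lit 17797337212) (nat_lit 441) (nat_lit 5) (nat_lit 453) (nat_lit 5) (nat_lit 454) (nat_lit 5) (nat_lit 640) (nat_lit 612) (nat_lit 308))))) (XT.nd (nat_lit 312) (nat_lit 1824) (nat_lit 0) (XT.nd (nat_lit 156) (nat_lit 836) (nat_lit 0) (XT.nd (nat_lit 78) (nat_lit 912) (nat_lit 0) (XT.lf (nat_lit 0) (nat_lit 19108890552) (nat_lit 988) (nat_lit 10369310708) (nat_lit 76) (nat_lit 4479139505) (nat_lit 441) (nat_lit 5) (nat_lit 454) (nat_lit 5) (nat_lit 442) (nat_lit 5) (nat_lit 641) (nat_lit 612) (nat_lit 307)) (XT.lf (nat_lit 0) (nat_lit 8216365577) (nat_lit 912) (nat_lit 14395108994) (nat_lit 988) (nat_lit 11715186260) (nat_lit 429) (nat_lit 5) (nat_lit 441) (nat_lit 5) (nat_lit 442) (nat_lit 5) (nat_lit 642) (nat_lit 612) (nat_lit 306))) (XT.nd (nat_lit 78) (nat_lit 836) (nat_lit 0) (XT.lf (nat_lit 0) (nat_lit 26258946274) (nat_lit 988) (nat_lit 7396116002) (nat_lit 76) (nat_lit 1046808347) (nat_lit 429) (nat_lit 5) (nat_lit 442) (nat_lit 5)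 (nat_lit 430) (nat_lit 5) (nat_lit 643) (nat_lit 612) (nat_lit 305)) (XT.lf (nat_lit 0) (nat_lit 11749575280) (nat_lit 836) (nat_lit 18399808267) (nat_lit 912) (nat_lit 4931800787) (nat_lit 418) (nat_lit 5) (nat_lit 429) (nat_lit 5) (nat_lit 430) (nat_lit 5) (nat_lit 644) (nat_lit 612) (nat_lit 304)))) (XT.nd (nat_lit 156) (nat_lit 836) (nat_lit 0) (XT.nd (nat_lit 78) (nat_lit 988) (nat_lit 0) (XT.lf (nat_lit 0) (nat_lit 31376909305) (nat_lit 836) (nat_lit 2788771838) (nat_lit 912) (nat_lit 1301442189) (nat_lit 418) (nat_lit 5) (nat_lit 429) (nat_lit 5) (nat_lit 430) (nat_lit 5) (nat_lit 645) (nat_lit 612) (nat_lit 303)) (XT.lf (nat_lit 0) (nat_lit 2556623074) (nat_lit 988) (nat_lit 20219379598) (nat_lit 76) (nat_lit 13080734716) (nat_lit 405) (nat_lit 5) (nat_lit 418) (nat_lit 5) (nat_lit 406) (nat_lit 5) (nat_lit 646) (nat_lit 612) (nat_lit 302))) (XT.nd (nat_lit 78) (nat_lit 836) (nat_lit 0) (XT.lf (nat_lit 0) (nat_lit 6518998983) (nat_lit 988) (nat_lit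 467478315) (nat_lit 76) (nat_lit 29266602905) (nat_lit 405) (nat_lit 5) (nat_lit 418) (nat_lit 5) (nat_lit 406) (nat_lit 5) (nat_lit 647) (nat_lit 612) (nat_lit 301)) (XT.lf (nat_lit 0) (nat_lit 10748637098) (nat_lit 912) (nat_lit 16775392208) (nat_lit 76) (nat_lit 9129560314) (nat_lit 394) (nat_lit 5) (nat_lit 406) (nat_lit 5) (nat_lit 395) (nat_lit 5) (nat_lit 648) (nat_lit 612) (nat_lit 300)))))) (XT.nd (nat_lit 624) (nat_lit 2812) (nat_lit 0) (XT.nd (nat_lit 312) (nat_lit 2356) (nat_lit 0) (XT.nd (nat_lit 156) (nat_lit 760) (nat_lit 0) (XT.nd (nat_lit 78) (nat_lit 0) (nat_lit 0) (XT.lf (nat_lit 0) (nat_lit 3574134678) (nat_lit 836) (nat_lit 11559876168) (nat_lit 912) (nat_lit 21926675563) (nat_lit 383) (nat_lit 5) (nat_lit 394) (nat_lit 5) (nat_lit 395) (nat_lit 5) (nat_lit 649) (nat_lit 612) (nat_lit 299)) (XT.lf (nat_lit 0) (nat_lit 19749608138) (nat_lit 912) (nat_lit 12948588644) (nat_lit 76) (nat_lit 4774878070) (nat_lit 383) (nat_lit 5) (nat_lit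 395) (nat_lit 5) (nat_lit 384) (nat_lit 5) (nat_lit 650) (nat_lit 612) (nat_lit 298))) (XT.nd (nat_lit 78) (nat_lit 0) (nat_lit 0) (XT.lf (nat_lit 0) (nat_lit 8027340691) (nat_lit 760) (nat_lit 16557410154) (nat_lit 836) (nat_lit 13306415586) (nat_lit 373) (nat_lit 5) (nat_lit 383) (nat_lit 5) (nat_lit 384) (nat_lit 5) (nat_lit 651) (nat_lit 612) (nat_lit 297)) (XT.lf (nat_lit 0) (nat_lit 29596802566) (nat_lit 760) (nat_lit 5263330) (nat_lit 836) (nat_lit 8713844596) (nat_lit 373) (nat_lit 5) (nat_lit 383) (nat_lit 5) (nat_lit 384) (nat_lit 5) (nat_lit 652) (nat_lit 612) (nat_lit 296)))) (XT.nd (nat_lit 156) (nat_lit 1520) (nat_lit 0) (XT.nd (nat_lit 78) (nat_lit 76) (nat_lit 0) (XT.lf (nat_lit 0) (nat_lit 12906689709) (nat_lit 760) (nat_lit 22005024011) (nat_lit 836) (nat_lit 3833596020) (nat_lit 363) (nat_lit 5) (nat_lit 373) (nat_lit 5) (nat_lit 374) (nat_lit 5) (nat_lit 653) (nat_lit 612) (nat_lit 295)) (XT.lf (nat_lit 0) (nat_lit 1186796001) (nat_lit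 836) (nat_lit 4108299251) (nat_lit 76) (nat_lit 33886902259) (nat_lit 362) (nat_lit 5) (nat_lit 373) (nat_lit 5) (nat_lit 363) (nat_lit 5) (nat_lit 654) (nat_lit 612) (nat_lit 294))) (XT.nd (nat_lit 78) (nat_lit 760) (nat_lit 0) (XT.lf (nat_lit 0) (nat_lit 6450804844) (nat_lit 836) (nat_lit 21432439951) (nat_lit 76) (nat_lit 11739776658) (nat_lit 352) (nat_lit 5) (nat_lit 363) (nat_lit 5) (nat_lit 353) (nat_lit 5) (nat_lit 655) (nat_lit 612) (nat_lit 293)) (XT.lf (nat_lit 0) (nat_lit 893786666) (nat_lit 760) (nat_lit 10993585419) (nat_lit 836) (nat_lit 28184148260) (nat_lit 342) (nat_lit 5) (nat_lit 352) (nat_lit 5) (nat_lit 353) (nat_lit 5) (nat_lit 656) (nat_lit 612) (nat_lit 292))))) (XT.nd (nat_lit 312) (nat_lit 1444) (nat_lit 0) (XT.nd (nat_lit 156) (nat_lit 684) (nat_lit 0) (XT.nd (nat_lit 78) (nat_lit 684) (nat_lit 0) (XT.lf (nat_lit 0) (nat_lit 17616592970) (nat_lit 836) (nat_lit 16611995596) (nat_lit 76) (nat_lit 6296722235) (nat_lit 342) (nat_lit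 5) (nat_lit 353) (nat_lit 5) (nat_lit 343) (nat_lit 5) (nat_lit 657) (nat_lit 612) (nat_lit 291)) (XT.lf (nat_lit 0) (nat_lit 6414898167) (nat_lit 684) (nat_lit 17158653585) (nat_lit 760) (nat_lit 17412362278) (nat_lit 333) (nat_lit 5) (nat_lit 342) (nat_lit 5) (nat_lit 343) (nat_lit 5) (nat_lit 658) (nat_lit 612) (nat_lit 290))) (XT.nd (nat_lit 78) (nat_lit 684) (nat_lit 0) (XT.lf (nat_lit 0) (nat_lit 29762216955) (nat_lit 760) (nat_lit 11329870000) (nat_lit 76) (nat_lit 361391056) (nat_lit 333) (nat_lit 5) (nat_lit 343) (nat_lit 5) (nat_lit 334) (nat_lit 5) (nat_lit 659) (nat_lit 612) (nat_lit 289)) (XT.lf (nat_lit 0) (nat_lit 12423935752) (nat_lit 684) (nat_lit 23843756036) (nat_lit 760) (nat_lit 5658840788) (nat_lit 324) (nat_lit 5) (nat_lit 333) (nat_lit 5) (nat_lit 334) (nat_lit 5) (nat_lit 660) (nat_lit 612) (nat_lit 288)))) (XT.nd (nat_lit 156) (nat_lit 684) (nat_lit 0) (XT.nd (nat_lit 78) (nat_lit 684) (nat_lit 0) (XT.lf (nat_lit 0) (nat_lit 563024281)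 (nat_lit 760) (nat_lit 5606321750) (nat_lit 76) (nat_lit 36238132489) (nat_lit 323) (nat_lit 5) (nat_lit 333) (nat_lit 5) (nat_lit 324) (nat_lit 5) (nat_lit 661) (nat_lit 612) (nat_lit 287)) (XT.lf (nat_lit 0) (nat_lit 7033668740) (nat_lit 760) (nat_lit 23995059257) (nat_lit 76) (nat_lit 11864565037) (nat_lit 314) (nat_lit 5) (nat_lit 324) (nat_lit 5) (nat_lit 315) (nat_lit 5) (nat_lit 662) (nat_lit 612) (nat_lit 286))) (XT.nd (nat_lit 78) (nat_lit 0) (nat_lit 0) (XT.lf (nat_lit 0) (nat_lit 545388216) (nat_lit 684) (nat_lit 13169389302) (nat_lit 760) (nat_lit 29672425321) (nat_lit 305) (nat_lit 5) (nat_lit 314) (nat_lit 5) (nat_lit 315) (nat_lit 5) (nat_lit 663) (nat_lit 612) (nat_lit 285)) (XT.lf (nat_lit 0) (nat_lit 20723159744) (nat_lit 760) (nat_lit 18021178069) (nat_lit 76) (nat_lit 5142780029) (nat_lit 305) (nat_lit 5) (nat_lit 315) (nat_lit 5) (nat_lit 306) (nat_lit 5) (nat_lit 664) (nat_lit 612) (nat_lit 284))))))) (XT.nd (nat_lit 1248) (nat_lit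 1520) (nat_lit 0) (XT.nd (nat_lit 624) (nat_lit 2280) (nat_lit 0) (XT.nd (nat_lit 312) (nat_lit 1748) (nat_lit 0) (XT.nd (nat_lit 156) (nat_lit 684) (nat_lit 0) (XT.nd (nat_lit 78) (nat_lit 0) (nat_lit 0) (XT.lf (nat_lit 0) (nat_lit 7302989787) (nat_lit 608) (nat_lit 20702169869) (nat_lit 684) (nat_lit 16389202518) (nat_lit 297) (nat_lit 5) (nat_lit 305) (nat_lit 5) (nat_lit 306) (nat_lit 5) (nat_lit 665) (nat_lit 612) (nat_lit 283)) (XT.lf (nat_lit 0) (nat_lit 33376485380) (nat_lit 608) (nat_lit 2176079278) (nat_lit 684) (nat_lit 9356791459) (nat_lit 297) (nat_lit 5) (nat_lit 305) (nat_lit 5) (nat_lit 306) (nat_lit 5) (nat_lit 666) (nat_lit 612) (nat_lit 282))) (XT.nd (nat_lit 78) (nat_lit 76) (nat_lit 0) (XT.lf (nat_lit 0) (nat_lit 14618534437) (nat_lit 608) (nat_lit 28834711986) (nat_lit 684) (nat_lit 1977356971) (nat_lit 289) (nat_lit 5) (nat_lit 297) (nat_lit 5) (nat_lit 298) (nat_lit 5) (nat_lit 667) (nat_lit 612) (nat_lit 281)) (XT.lf (nat_lit 0)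 (nat_lit 5568056975) (nat_lit 684) (nat_lit 4563820915) (nat_lit 76) (nat_lit 35827853596) (nat_lit 288) (nat_lit 5) (nat_lit 297) (nat_lit 5) (nat_lit 289) (nat_lit 5) (nat_lit 668) (nat_lit 612) (nat_lit 280)))) (XT.nd (nat_lit 156) (nat_lit 532) (nat_lit 0) (XT.nd (nat_lit 78) (nat_lit 608) (nat_lit 0) (XT.lf (nat_lit 0) (nat_lit 13441957655) (nat_lit 684) (nat_lit 24065563656) (nat_lit 76) (nat_lit 8987578342) (nat_lit 280) (nat_lit 5) (nat_lit 289) (nat_lit 5) (nat_lit 281) (nat_lit 5) (nat_lit 669) (nat_lit 612) (nat_lit 279)) (XT.lf (nat_lit 0) (nat_lit 2954084205) (nat_lit 608) (nat_lit 18635252624) (nat_lit 684) (nat_lit 25449518371) (nat_lit 272) (nat_lit 5) (nat_lit 280) (nat_lit 5) (nat_lit 281) (nat_lit 5) (nat_lit 670) (nat_lit 612) (nat_lit 278))) (XT.nd (nat_lit 78) (nat_lit 532) (nat_lit 0) (XT.lf (nat_lit 0) (nat_lit 30065119274) (nat_lit 684) (nat_lit 16756404390) (nat_lit 76) (nat_lit 768653103) (nat_lit 272) (nat_lit 5) (nat_lit 281)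 (nat_lit 5) (nat_lit 273) (nat_lit 5) (nat_lit 671) (nat_lit 612) (nat_lit 277)) (XT.lf (nat_lit 0) (nat_lit 11139816525) (nat_lit 532) (nat_lit 27765265788) (nat_lit 608) (nat_lit 9243549179) (nat_lit 265) (nat_lit 5) (nat_lit 272) (nat_lit 5) (nat_lit 273) (nat_lit 5) (nat_lit 672) (nat_lit 612) (nat_lit 276))))) (XT.nd (nat_lit 312) (nat_lit 1064) (nat_lit 0) (XT.nd (nat_lit 156) (nat_lit 532) (nat_lit 0) (XT.nd (nat_lit 78) (nat_lit 684) (nat_lit 0) (XT.lf (nat_lit 0) (nat_lit 39819707100) (nat_lit 532) (nat_lit 8213519429) (nat_lit 608) (nat_lit 682801165) (nat_lit 265) (nat_lit 5) (nat_lit 272) (nat_lit 5) (nat_lit 273) (nat_lit 5) (nat_lit 673) (nat_lit 612) (nat_lit 275)) (XT.lf (nat_lit 0) (nat_lit 8149672949) (nat_lit 684) (nat_lit 29381593447) (nat_lit 76) (nat_lit 11758338691) (nat_lit 256) (nat_lit 5) (nat_lit 265) (nat_lit 5) (nat_lit 257) (nat_lit 5) (nat_lit 674) (nat_lit 612) (nat_lit 274))) (XT.nd (nat_lit 78) (nat_lit 532) (nat_lit 0)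 (XT.lf (nat_lit 0) (nat_lit 17263111942) (nat_lit 684) (nat_lit 525137360) (nat_lit 76) (nat_lit 32084045320) (nat_lit 256) (nat_lit 5) (nat_lit 265) (nat_lit 5) (nat_lit 257) (nat_lit 5) (nat_lit 675) (nat_lit 612) (nat_lit 273)) (XT.lf (nat_lit 0) (nat_lit 26764491905) (nat_lit 608) (nat_lit 21188120726) (nat_lit 76) (nat_lit 2509911893) (nat_lit 249) (nat_lit 5) (nat_lit 257) (nat_lit 5) (nat_lit 250) (nat_lit 5) (nat_lit 676) (nat_lit 612) (nat_lit 272)))) (XT.nd (nat_lit 156) (nat_lit 532) (nat_lit 0) (XT.nd (nat_lit 78) (nat_lit 0) (nat_lit 0) (XT.lf (nat_lit 0) (nat_lit 8606241538) (nat_lit 532) (nat_lit 28025875982) (nat_lit 608) (nat_lit 14428917165) (nat_lit 242) (nat_lit 5) (nat_lit 249) (nat_lit 5) (nat_lit 250) (nat_lit 5) (nat_lit 677) (nat_lit 612) (nat_lit 271)) (XT.lf (nat_lit 0) (nat_lit 39282340454) (nat_lit 532) (nat_lit 7555939960) (nat_lit 608) (nat_lit 4830410962) (nat_lit 242) (nat_lit 5) (nat_lit 249) (nat_lit 5) (nat_lit 250)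 (nat_lit 5) (nat_lit 678) (nat_lit 612) (nat_lit 270))) (XT.nd (nat_lit 78) (nat_lit 0) (nat_lit 0) (XT.lf (nat_lit 0) (nat_lit 5101603175) (nat_lit 532) (nat_lit 33880545704) (nat_lit 76) (nat_lit 13301576460) (nat_lit 235) (nat_lit 5) (nat_lit 242) (nat_lit 5) (nat_lit 236) (nat_lit 5) (nat_lit 679) (nat_lit 612) (nat_lit 269)) (XT.lf (nat_lit 0) (nat_lit 15300370254) (nat_lit 532) (nat_lit 3016931691) (nat_lit 76) (nat_lit 34590463639) (nat_lit 235) (nat_lit 5) (nat_lit 242) (nat_lit 5) (nat_lit 236) (nat_lit 5) (nat_lit 680) (nat_lit 612) (nat_lit 268)))))) (XT.nd (nat_lit 76128) (nat_lit 0) (nat_lit 20292) (XT.nd (nat_lit 312) (nat_lit 0) (nat_lit 0) (XT.nd (nat_lit 156) (nat_lit 532) (nat_lit 0) (XT.nd (nat_lit 78) (nat_lit 456) (nat_lit 0) (XT.lf (nat_lit 0) (nat_lit 25908571526) (nat_lit 608) (nat_lit 24718845007) (nat_lit 76) (nat_lit 2912760943) (nat_lit 228) (nat_lit 5) (nat_lit 236) (nat_lit 5) (nat_lit 229) (nat_lit 5) (nat_lit 681) (nat_lit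 612) (nat_lit 267)) (XT.lf (nat_lit 0) (nat_lit 7123067013) (nat_lit 456) (nat_lit 29792853024) (nat_lit 532) (nat_lit 17265577922) (nat_lit 222) (nat_lit 5) (nat_lit 228) (nat_lit 5) (nat_lit 229) (nat_lit 5) (nat_lit 682) (nat_lit 612) (nat_lit 266))) (XT.nd (nat_lit 78) (nat_lit 532) (nat_lit 0) (XT.lf (nat_lit 0) (nat_lit 39935559424) (nat_lit 456) (nat_lit 8372792198) (nat_lit 532) (nat_lit 6523994528) (nat_lit 222) (nat_lit 5) (nat_lit 228) (nat_lit 5) (nat_lit 229) (nat_lit 5) (nat_lit 683) (nat_lit 612) (nat_lit 265)) (XT.lf (nat_lit 0) (nat_lit 4579438892) (nat_lit 532) (nat_lit 37466175207) (nat_lit 76) (nat_lit 13445918651) (nat_lit 215) (nat_lit 5) (nat_lit 222) (nat_lit 5) (nat_lit 216) (nat_lit 5) (nat_lit 684) (nat_lit 612) (nat_lit 264)))) (XT.nd (nat_lit 75660) (nat_lit 0) (nat_lit 20216) (XT.nd (nat_lit 75582) (nat_lit 0) (nat_lit 20216) (XT.lf (nat_lit 0) (nat_lit 15972821767) (nat_lit 532) (nat_lit 4454667275) (nat_lit 76) (nat_lit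 35732446845) (nat_lit 215) (nat_lit 5) (nat_lit 222) (nat_lit 5) (nat_lit 216) (nat_lit 5) (nat_lit 685) (nat_lit 612) (nat_lit 263)) (XT.lf (nat_lit 0) (nat_lit 1735163668) (nat_lit 1900) (nat_lit 5550389879) (nat_lit 1900) (nat_lit 5550389879) (nat_lit 481) (nat_lit 3) (nat_lit 506) (nat_lit 3) (nat_lit 506) (nat_lit 5) (nat_lit 613) (nat_lit 613) (nat_lit 334))) (XT.nd (nat_lit 78) (nat_lit 0) (nat_lit 76) (XT.lf (nat_lit 76) (nat_lit 1705956173) (nat_lit 0) (nat_lit 1910639337) (nat_lit 1900) (nat_lit 22309775872) (nat_lit 482) (nat_lit 5) (nat_lit 481) (nat_lit 3) (nat_lit 506) (nat_lit 5) (nat_lit 614) (nat_lit 613) (nat_lit 333)) (XT.lf (nat_lit 0) (nat_lit 3909577094) (nat_lit 1824) (nat_lit 11338510784) (nat_lit 1900) (nat_lit 10934982043) (nat_lit 482) (nat_lit 5) (nat_lit 506) (nat_lit 5) (nat_lit 507) (nat_lit 5) (nat_lit 615) (nat_lit 613) (nat_lit 332))))) (XT.nd (nat_lit 312) (nat_lit 0) (nat_lit 152) (XT.nd (nat_lit 156) (nat_lit 0) (nat_lit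 76) (XT.nd (nat_lit 78) (nat_lit 0) (nat_lit 76) (XT.lf (nat_lit 76) (nat_lit 1810730971) (nat_lit 0) (nat_lit 2419512367) (nat_lit 1900) (nat_lit 22214222671) (nat_lit 483) (nat_lit 5) (nat_lit 482) (nat_lit 5) (nat_lit 507) (nat_lit 5) (nat_lit 616) (nat_lit 613) (nat_lit 331)) (XT.lf (nat_lit 0) (nat_lit 4700627056) (nat_lit 1824) (nat_lit 11404111320) (nat_lit 1900) (nat_lit 10603485635) (nat_lit 483) (nat_lit 5) (nat_lit 507) (nat_lit 5) (nat_lit 508) (nat_lit 5) (nat_lit 617) (nat_lit 613) (nat_lit 330))) (XT.nd (nat_lit 78) (nat_lit 0) (nat_lit 76) (XT.lf (nat_lit 76) (nat_lit 2100209724) (nat_lit 0) (nat_lit 3107382164) (nat_lit 1900) (nat_lit 21769121892) (nat_lit 484) (nat_lit 5) (nat_lit 483) (nat_lit 5) (nat_lit 508) (nat_lit 5) (nat_lit 618) (nat_lit 613) (nat_lit 329)) (XT.lf (nat_lit 0) (nat_lit 5865191007) (nat_lit 1824) (nat_lit 11287709638) (nat_lit 1900) (nat_lit 10094862873) (nat_lit 484) (nat_lit 5) (nat_lit 508) (nat_lit 5) (nat_lit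 509) (nat_lit 5) (nat_lit 619) (nat_lit 613) (nat_lit 328)))) (XT.nd (nat_lit 156) (nat_lit 0) (nat_lit 76) (XT.nd (nat_lit 78) (nat_lit 0) (nat_lit 76) (XT.lf (nat_lit 76) (nat_lit 2584747149) (nat_lit 0) (nat_lit 3986163949) (nat_lit 1900) (nat_lit 20952623847) (nat_lit 485) (nat_lit 5) (nat_lit 484) (nat_lit 5) (nat_lit 509) (nat_lit 5) (nat_lit 620) (nat_lit 613) (nat_lit 327)) (XT.lf (nat_lit 0) (nat_lit 7425961889) (nat_lit 1824) (nat_lit 10978941666) (nat_lit 1900) (nat_lit 9397213989) (nat_lit 485) (nat_lit 5) (nat_lit 509) (nat_lit 5) (nat_lit 510) (nat_lit 5) (nat_lit 621) (nat_lit 613) (nat_lit 326))) (XT.nd (nat_lit 78) (nat_lit 0) (nat_lit 76) (XT.lf (nat_lit 76) (nat_lit 3275208884) (nat_lit 0) (nat_lit 5068266197) (nat_lit 1900) (nat_lit 19741889555) (nat_lit 486) (nat_lit 5) (nat_lit 485) (nat_lit 5) (nat_lit 510) (nat_lit 5) (nat_lit 622) (nat_lit 613) (nat_lit 325)) (XT.lf (nat_lit 0) (nat_lit 9406655757) (nat_lit 1824) (nat_lit 10466932003)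 (nat_lit 1900) (nat_lit 8498142635) (nat_lit 486) (nat_lit 5) (nat_lit 510) (nat_lit 5) (nat_lit 511) (nat_lit 5) (nat_lit 623) (nat_lit 613) (nat_lit 324))))))))
noncomputable def xc224 : XT := (XT.nd (nat_lit 2418) (nat_lit 11248) (nat_lit 0) (XT.nd (nat_lit 1170) (nat_lit 7904) (nat_lit 0) (XT.nd (nat_lit 546) (nat_lit 1444) (nat_lit 0) (XT.nd (nat_lit 234) (nat_lit 0) (nat_lit 152) (XT.nd (nat_lit 78) (nat_lit 0) (nat_lit 76) (XT.lf (nat_lit 76) (nat_lit 4182991205) (nat_lit 0) (nat_lit 6366615874) (nat_lit 1900) (nat_lit 18113046316) (nat_lit 487) (nat_lit 5) (nat_lit 486) (nat_lit 5) (nat_lit 511) (nat_lit 5) (nat_lit 624) (nat_lit 613) (nat_lit 323)) (XT.nd (nat_lit 78) (nat_lit 0) (nat_lit 0) (XT.lf (nat_lit 0) (nat_lit 11832057444) (nat_lit 1824) (nat_lit 9740274065) (nat_lit 1900) (nat_lit 7384730611) (nat_lit 487) (nat_lit 5) (nat_lit 511) (nat_lit 5) (nat_lit 512) (nat_lit 5) (nat_lit 625) (nat_lit 613) (nat_lit 322)) (XT.lf (nat_lit 76) (nat_lit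 5320041647) (nat_lit 0) (nat_lit 7894684509) (nat_lit 1900) (nat_lit 16041141540) (nat_lit 488) (nat_lit 5) (nat_lit 487) (nat_lit 5) (nat_lit 512) (nat_lit 5) (nat_lit 626) (nat_lit 613) (nat_lit 321)))) (XT.nd (nat_lit 156) (nat_lit 0) (nat_lit 76) (XT.nd (nat_lit 78) (nat_lit 0) (nat_lit 0) (XT.lf (nat_lit 0) (nat_lit 14728068014) (nat_lit 1824) (nat_lit 8787009330) (nat_lit 1900) (nat_lit 6043511706) (nat_lit 488) (nat_lit 5) (nat_lit 512) (nat_lit 5) (nat_lit 513) (nat_lit 5) (nat_lit 627) (nat_lit 613) (nat_lit 320)) (XT.lf (nat_lit 76) (nat_lit 6698880551) (nat_lit 0) (nat_lit 9666515184) (nat_lit 1900) (nat_lit 13500094781) (nat_lit 489) (nat_lit 5) (nat_lit 488) (nat_lit 5) (nat_lit 513) (nat_lit 5) (nat_lit 628) (nat_lit 613) (nat_lit 319))) (XT.nd (nat_lit 78) (nat_lit 0) (nat_lit 0) (XT.lf (nat_lit 0) (nat_lit 18121754077) (nat_lit 1824) (nat_lit 7594605660) (nat_lit 1900) (nat_lit 4460444650) (nat_lit 489) (nat_lit 5) (nat_lit 513) (nat_lit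 5) (nat_lit 514) (nat_lit 5) (nat_lit 629) (nat_lit 613) (nat_lit 318)) (XT.lf (nat_lit 76) (nat_lit 8332623565) (nat_lit 0) (nat_lit 11696750465) (nat_lit 1900) (nat_lit 10462647878) (nat_lit 490) (nat_lit 5) (nat_lit 489) (nat_lit 5) (nat_lit 514) (nat_lit 5) (nat_lit 630) (nat_lit 613) (nat_lit 317))))) (XT.nd (nat_lit 312) (nat_lit 1748) (nat_lit 0) (XT.nd (nat_lit 156) (nat_lit 0) (nat_lit 76) (XT.nd (nat_lit 78) (nat_lit 0) (nat_lit 0) (XT.lf (nat_lit 0) (nat_lit 22041399041) (nat_lit 1824) (nat_lit 6149934658) (nat_lit 1900) (nat_lit 2620885083) (nat_lit 490) (nat_lit 5) (nat_lit 514) (nat_lit 5) (nat_lit 515) (nat_lit 5) (nat_lit 631) (nat_lit 613) (nat_lit 316)) (XT.lf (nat_lit 76) (nat_lit 10235005141) (nat_lit 0) (nat_lit 14000661341) (nat_lit 1900) (nat_lit 6900313131) (nat_lit 491) (nat_lit 5) (nat_lit 490) (nat_lit 5) (nat_lit 515) (nat_lit 5) (nat_lit 632) (nat_lit 613) (nat_lit 315))) (XT.nd (nat_lit 78) (nat_lit 0) (nat_lit 0) (XT.lf (nat_lit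 0) (nat_lit 26516556402) (nat_lit 1824) (nat_lit 4439248043) (nat_lit 1900) (nat_lit 509556529) (nat_lit 491) (nat_lit 5) (nat_lit 515) (nat_lit 5) (nat_lit 516) (nat_lit 5) (nat_lit 633) (nat_lit 613) (nat_lit 314)) (XT.lf (nat_lit 76) (nat_lit 12420403046) (nat_lit 0) (nat_lit 16594177221) (nat_lit 1900) (nat_lit 2783319429) (nat_lit 492) (nat_lit 5) (nat_lit 491) (nat_lit 5) (nat_lit 516) (nat_lit 5) (nat_lit 634) (nat_lit 613) (nat_lit 313)))) (XT.nd (nat_lit 156) (nat_lit 0) (nat_lit 0) (XT.nd (nat_lit 78) (nat_lit 1824) (nat_lit 0) (XT.lf (nat_lit 76) (nat_lit 29675946033) (nat_lit 0) (nat_lit 1914589897) (nat_lit 1900) (nat_lit 545993887) (nat_lit 492) (nat_lit 5) (nat_lit 491) (nat_lit 5) (nat_lit 516) (nat_lit 5) (nat_lit 635) (nat_lit 613) (nat_lit 312)) (XT.lf (nat_lit 0) (nat_lit 1894269922) (nat_lit 1900) (nat_lit 17586935558) (nat_lit 1976) (nat_lit 12996882463) (nat_lit 467) (nat_lit 5) (nat_lit 492) (nat_lit 5) (nat_lit 493) (nat_lit 5)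 (nat_lit 636) (nat_lit 613) (nat_lit 311))) (XT.nd (nat_lit 78) (nat_lit 0) (nat_lit 76) (XT.lf (nat_lit 0) (nat_lit 4403568669) (nat_lit 1900) (nat_lit 220773459) (nat_lit 1976) (nat_lit 28201512163) (nat_lit 467) (nat_lit 5) (nat_lit 492) (nat_lit 5) (nat_lit 493) (nat_lit 5) (nat_lit 637) (nat_lit 613) (nat_lit 310)) (XT.lf (nat_lit 0) (nat_lit 7145524431) (nat_lit 1900) (nat_lit 15523746813) (nat_lit 76) (nat_lit 10507655351) (nat_lit 468) (nat_lit 5) (nat_lit 493) (nat_lit 5) (nat_lit 469) (nat_lit 5) (nat_lit 638) (nat_lit 613) (nat_lit 309)))))) (XT.nd (nat_lit 624) (nat_lit 4180) (nat_lit 0) (XT.nd (nat_lit 312) (nat_lit 1748) (nat_lit 0) (XT.nd (nat_lit 156) (nat_lit 912) (nat_lit 0) (XT.nd (nat_lit 78) (nat_lit 0) (nat_lit 0) (XT.lf (nat_lit 0) (nat_lit 2351321679) (nat_lit 1140) (nat_lit 7636673928) (nat_lit 1216) (nat_lit 23546111260) (nat_lit 453) (nat_lit 5) (nat_lit 468) (nat_lit 5) (nat_lit 469) (nat_lit 5) (nat_lit 639) (nat_lit 613) (nat_lit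 308)) (XT.lf (nat_lit 0) (nat_lit 13040468818) (nat_lit 1216) (nat_lit 13154209315) (nat_lit 76) (nat_lit 7700689607) (nat_lit 453) (nat_lit 5) (nat_lit 469) (nat_lit 5) (nat_lit 454) (nat_lit 5) (nat_lit 640) (nat_lit 613) (nat_lit 307))) (XT.nd (nat_lit 78) (nat_lit 0) (nat_lit 0) (XT.lf (nat_lit 0) (nat_lit 5251750672) (nat_lit 912) (nat_lit 10985264573) (nat_lit 988) (nat_lit 18025178158) (nat_lit 441) (nat_lit 5) (nat_lit 453) (nat_lit 5) (nat_lit 454) (nat_lit 5) (nat_lit 641) (nat_lit 613) (nat_lit 306)) (XT.lf (nat_lit 0) (nat_lit 19614125356) (nat_lit 988) (nat_lit 10461951804) (nat_lit 76) (nat_lit 4557945809) (nat_lit 441) (nat_lit 5) (nat_lit 454) (nat_lit 5) (nat_lit 442) (nat_lit 5) (nat_lit 642) (nat_lit 613) (nat_lit 305)))) (XT.nd (nat_lit 156) (nat_lit 836) (nat_lit 0) (XT.nd (nat_lit 78) (nat_lit 0) (nat_lit 0) (XT.lf (nat_lit 0) (nat_lit 8494683104) (nat_lit 912) (nat_lit 14690405169) (nat_lit 988) (nat_lit 11825674687) (nat_lit 429)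 (nat_lit 5) (nat_lit 441) (nat_lit 5) (nat_lit 442) (nat_lit 5) (nat_lit 643) (nat_lit 613) (nat_lit 304)) (XT.lf (nat_lit 0) (nat_lit 26903082262) (nat_lit 988) (nat_lit 7429852725) (nat_lit 76) (nat_lit 1060590571) (nat_lit 429) (nat_lit 5) (nat_lit 442) (nat_lit 5) (nat_lit 430) (nat_lit 5) (nat_lit 644) (nat_lit 613) (nat_lit 303))) (XT.nd (nat_lit 78) (nat_lit 0) (nat_lit 0) (XT.lf (nat_lit 0) (nat_lit 12098001162) (nat_lit 836) (nat_lit 18771731119) (nat_lit 912) (nat_lit 4910725248) (nat_lit 418) (nat_lit 5) (nat_lit 429) (nat_lit 5) (nat_lit 430) (nat_lit 5) (nat_lit 645) (nat_lit 613) (nat_lit 302)) (XT.lf (nat_lit 0) (nat_lit 32115657663) (nat_lit 836) (nat_lit 2848396968) (nat_lit 912) (nat_lit 1210106764) (nat_lit 418) (nat_lit 5) (nat_lit 429) (nat_lit 5) (nat_lit 430) (nat_lit 5) (nat_lit 646) (nat_lit 613) (nat_lit 301))))) (XT.nd (nat_lit 312) (nat_lit 1520) (nat_lit 0) (XT.nd (nat_lit 156) (nat_lit 1672) (nat_lit 0) (XT.nd (nat_lit 78)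 (nat_lit 0) (nat_lit 0) (XT.lf (nat_lit 0) (nat_lit 2722021980) (nat_lit 988) (nat_lit 20509452967) (nat_lit 76) (nat_lit 13340108778) (nat_lit 405) (nat_lit 5) (nat_lit 418) (nat_lit 5) (nat_lit 406) (nat_lit 5) (nat_lit 647) (nat_lit 613) (nat_lit 300)) (XT.lf (nat_lit 0) (nat_lit 6761404888) (nat_lit 988) (nat_lit 364755114) (nat_lit 76) (nat_lit 29849738264) (nat_lit 405) (nat_lit 5) (nat_lit 418) (nat_lit 5) (nat_lit 406) (nat_lit 5) (nat_lit 648) (nat_lit 613) (nat_lit 299))) (XT.nd (nat_lit 78) (nat_lit 836) (nat_lit 0) (XT.lf (nat_lit 0) (nat_lit 11074167128) (nat_lit 912) (nat_lit 16997355684) (nat_lit 76) (nat_lit 9312924492) (nat_lit 394) (nat_lit 5) (nat_lit 406) (nat_lit 5) (nat_lit 395) (nat_lit 5) (nat_lit 649) (nat_lit 613) (nat_lit 298)) (XT.lf (nat_lit 0) (nat_lit 3758414737) (nat_lit 836) (nat_lit 11787398180) (nat_lit 912) (nat_lit 22253901879) (nat_lit 383) (nat_lit 5) (nat_lit 394) (nat_lit 5) (nat_lit 395) (nat_lit 5) (nat_lit 650)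 (nat_lit 613) (nat_lit 297)))) (XT.nd (nat_lit 156) (nat_lit 760) (nat_lit 0) (XT.nd (nat_lit 78) (nat_lit 760) (nat_lit 0) (XT.lf (nat_lit 0) (nat_lit 20251605906) (nat_lit 912) (nat_lit 13094855669) (nat_lit 76) (nat_lit 4873931814) (nat_lit 383) (nat_lit 5) (nat_lit 395) (nat_lit 5) (nat_lit 384) (nat_lit 5) (nat_lit 651) (nat_lit 613) (nat_lit 296)) (XT.lf (nat_lit 0) (nat_lit 8299850774) (nat_lit 760) (nat_lit 16882229484) (nat_lit 836) (nat_lit 13464794023) (nat_lit 373) (nat_lit 5) (nat_lit 383) (nat_lit 5) (nat_lit 384) (nat_lit 5) (nat_lit 652) (nat_lit 613) (nat_lit 295))) (XT.nd (nat_lit 78) (nat_lit 760) (nat_lit 0) (XT.lf (nat_lit 0) (nat_lit 30297675776) (nat_lit 836) (nat_lit 8781653604) (nat_lit 76) (nat_lit 825214) (nat_lit 373) (nat_lit 5) (nat_lit 384) (nat_lit 5) (nat_lit 374) (nat_lit 5) (nat_lit 653) (nat_lit 613) (nat_lit 294)) (XT.lf (nat_lit 0) (nat_lit 13275889591) (nat_lit 760) (nat_lit 22436351497) (nat_lit 836) (nat_lit 3805926302)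 (nat_lit 363) (nat_lit 5) (nat_lit 373) (nat_lit 5) (nat_lit 374) (nat_lit 5) (nat_lit 654) (nat_lit 613) (nat_lit 293))))))) (XT.nd (nat_lit 1170) (nat_lit 5548) (nat_lit 0) (XT.nd (nat_lit 546) (nat_lit 2736) (nat_lit 0) (XT.nd (nat_lit 234) (nat_lit 1368) (nat_lit 0) (XT.nd (nat_lit 78) (nat_lit 1520) (nat_lit 0) (XT.lf (nat_lit 0) (nat_lit 1311486018) (nat_lit 836) (nat_lit 4080232710) (nat_lit 76) (nat_lit 34571897073) (nat_lit 362) (nat_lit 5) (nat_lit 373) (nat_lit 5) (nat_lit 363) (nat_lit 5) (nat_lit 655) (nat_lit 613) (nat_lit 292)) (XT.nd (nat_lit 78) (nat_lit 760) (nat_lit 0) (XT.lf (nat_lit 0) (nat_lit 6679570309) (nat_lit 836) (nat_lit 21749648966) (nat_lit 76) (nat_lit 11984265091) (nat_lit 352) (nat_lit 5) (nat_lit 363) (nat_lit 5) (nat_lit 353) (nat_lit 5) (nat_lit 656) (nat_lit 613) (nat_lit 291)) (XT.lf (nat_lit 0) (nat_lit 1022369027) (nat_lit 760) (nat_lit 11201262779) (nat_lit 836) (nat_lit 28647346221) (nat_lit 342) (nat_lit 5) (nat_lit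 352) (nat_lit 5) (nat_lit 353) (nat_lit 5) (nat_lit 657) (nat_lit 613) (nat_lit 290)))) (XT.nd (nat_lit 156) (nat_lit 684) (nat_lit 0) (XT.nd (nat_lit 78) (nat_lit 684) (nat_lit 0) (XT.lf (nat_lit 0) (nat_lit 18065583117) (nat_lit 836) (nat_lit 16833843177) (nat_lit 76) (nat_lit 6434455128) (nat_lit 342) (nat_lit 5) (nat_lit 353) (nat_lit 5) (nat_lit 343) (nat_lit 5) (nat_lit 658) (nat_lit 613) (nat_lit 289)) (XT.lf (nat_lit 0) (nat_lit 6652862196) (nat_lit 684) (nat_lit 17487635643) (nat_lit 760) (nat_lit 17663222588) (nat_lit 333) (nat_lit 5) (nat_lit 342) (nat_lit 5) (nat_lit 343) (nat_lit 5) (nat_lit 659) (nat_lit 613) (nat_lit 288))) (XT.nd (nat_lit 78) (nat_lit 684) (nat_lit 0) (XT.lf (nat_lit 0) (nat_lit 30451154616) (nat_lit 760) (nat_lit 11447167585) (nat_lit 76) (nat_lit 382349168) (nat_lit 333) (nat_lit 5) (nat_lit 343) (nat_lit 5) (nat_lit 334) (nat_lit 5) (nat_lit 660) (nat_lit 613) (nat_lit 287)) (XT.lf (nat_lit 0) (nat_lit 12780995205) (nat_lit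 684) (nat_lit 24304611595) (nat_lit 760) (nat_lit 5677602914) (nat_lit 324) (nat_lit 5) (nat_lit 333) (nat_lit 5) (nat_lit 334) (nat_lit 5) (nat_lit 661) (nat_lit 613) (nat_lit 286))))) (XT.nd (nat_lit 312) (nat_lit 1292) (nat_lit 0) (XT.nd (nat_lit 156) (nat_lit 684) (nat_lit 0) (XT.nd (nat_lit 78) (nat_lit 684) (nat_lit 0) (XT.lf (nat_lit 0) (nat_lit 665634203) (nat_lit 760) (nat_lit 5610780294) (nat_lit 76) (nat_lit 36977384403) (nat_lit 323) (nat_lit 5) (nat_lit 333) (nat_lit 5) (nat_lit 324) (nat_lit 5) (nat_lit 662) (nat_lit 613) (nat_lit 285)) (XT.lf (nat_lit 0) (nat_lit 7264703309) (nat_lit 760) (nat_lit 24366302153) (nat_lit 76) (nat_lit 12118344051) (nat_lit 314) (nat_lit 5) (nat_lit 324) (nat_lit 5) (nat_lit 315) (nat_lit 5) (nat_lit 663) (nat_lit 613) (nat_lit 284))) (XT.nd (nat_lit 78) (nat_lit 0) (nat_lit 0) (XT.lf (nat_lit 0) (nat_lit 664239413) (nat_lit 684) (nat_lit 13414123902) (nat_lit 760) (nat_lit 30174795660) (nat_lit 305) (nat_lit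 5) (nat_lit 314) (nat_lit 5) (nat_lit 315) (nat_lit 5) (nat_lit 664) (nat_lit 613) (nat_lit 283)) (XT.lf (nat_lit 0) (nat_lit 21225281131) (nat_lit 760) (nat_lit 18274140607) (nat_lit 76) (nat_lit 5263683224) (nat_lit 305) (nat_lit 5) (nat_lit 315) (nat_lit 5) (nat_lit 306) (nat_lit 5) (nat_lit 665) (nat_lit 613) (nat_lit 282)))) (XT.nd (nat_lit 156) (nat_lit 684) (nat_lit 0) (XT.nd (nat_lit 78) (nat_lit 0) (nat_lit 0) (XT.lf (nat_lit 0) (nat_lit 7555803626) (nat_lit 608) (nat_lit 21096091745) (nat_lit 684) (nat_lit 16628619363) (nat_lit 297) (nat_lit 5) (nat_lit 305) (nat_lit 5) (nat_lit 306) (nat_lit 5) (nat_lit 666) (nat_lit 613) (nat_lit 281)) (XT.lf (nat_lit 0) (nat_lit 34148675915) (nat_lit 608) (nat_lit 2199873882) (nat_lit 684) (nat_lit 9457292773) (nat_lit 297) (nat_lit 5) (nat_lit 305) (nat_lit 5) (nat_lit 306) (nat_lit 5) (nat_lit 667) (nat_lit 613) (nat_lit 280))) (XT.nd (nat_lit 78) (nat_lit 76) (nat_lit 0) (XT.lf (nat_lit 0) (nat_lit 15016439638)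 (nat_lit 608) (nat_lit 29389950958) (nat_lit 684) (nat_lit 1931141326) (nat_lit 289) (nat_lit 5) (nat_lit 297) (nat_lit 5) (nat_lit 298) (nat_lit 5) (nat_lit 668) (nat_lit 613) (nat_lit 279)) (XT.lf (nat_lit 0) (nat_lit 5762396536) (nat_lit 684) (nat_lit 4550527507) (nat_lit 76) (nat_lit 36564340626) (nat_lit 288) (nat_lit 5) (nat_lit 297) (nat_lit 5) (nat_lit 289) (nat_lit 5) (nat_lit 669) (nat_lit 613) (nat_lit 278)))))) (XT.nd (nat_lit 624) (nat_lit 2584) (nat_lit 0) (XT.nd (nat_lit 312) (nat_lit 1216) (nat_lit 0) (XT.nd (nat_lit 156) (nat_lit 532) (nat_lit 0) (XT.nd (nat_lit 78) (nat_lit 608) (nat_lit 0) (XT.lf (nat_lit 0) (nat_lit 13792964575) (nat_lit 684) (nat_lit 24441492607) (nat_lit 76) (nat_lit 9188899267) (nat_lit 280) (nat_lit 5) (nat_lit 289) (nat_lit 5) (nat_lit 281) (nat_lit 5) (nat_lit 670) (nat_lit 613) (nat_lit 277)) (XT.lf (nat_lit 0) (nat_lit 3117854906) (nat_lit 608) (nat_lit 18984505004) (nat_lit 684) (nat_lit 25875645861) (nat_lit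 272) (nat_lit 5) (nat_lit 280) (nat_lit 5) (nat_lit 281) (nat_lit 5) (nat_lit 671) (nat_lit 613) (nat_lit 276))) (XT.nd (nat_lit 78) (nat_lit 532) (nat_lit 0) (XT.lf (nat_lit 0) (nat_lit 30746214420) (nat_lit 684) (nat_lit 16987450831) (nat_lit 76) (nat_lit 806717426) (nat_lit 272) (nat_lit 5) (nat_lit 281) (nat_lit 5) (nat_lit 273) (nat_lit 5) (nat_lit 672) (nat_lit 613) (nat_lit 275)) (XT.lf (nat_lit 0) (nat_lit 11466009754) (nat_lit 532) (nat_lit 28296073722) (nat_lit 608) (nat_lit 9347940919) (nat_lit 265) (nat_lit 5) (nat_lit 272) (nat_lit 5) (nat_lit 273) (nat_lit 5) (nat_lit 673) (nat_lit 613) (nat_lit 274)))) (XT.nd (nat_lit 156) (nat_lit 532) (nat_lit 0) (XT.nd (nat_lit 78) (nat_lit 684) (nat_lit 0) (XT.lf (nat_lit 0) (nat_lit 40717470751) (nat_lit 532) (nat_lit 8353772777) (nat_lit 608) (nat_lit 617555969) (nat_lit 265) (nat_lit 5) (nat_lit 272) (nat_lit 5) (nat_lit 273) (nat_lit 5) (nat_lit 674) (nat_lit 613) (nat_lit 273)) (XT.lf (nat_lit 0)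 (nat_lit 8389827121) (nat_lit 684) (nat_lit 29866111998) (nat_lit 76) (nat_lit 12017913220) (nat_lit 256) (nat_lit 5) (nat_lit 265) (nat_lit 5) (nat_lit 257) (nat_lit 5) (nat_lit 675) (nat_lit 613) (nat_lit 272))) (XT.nd (nat_lit 78) (nat_lit 532) (nat_lit 0) (XT.lf (nat_lit 0) (nat_lit 17684021939) (nat_lit 684) (nat_lit 434548619) (nat_lit 76) (nat_lit 32749655397) (nat_lit 256) (nat_lit 5) (nat_lit 265) (nat_lit 5) (nat_lit 257) (nat_lit 5) (nat_lit 676) (nat_lit 613) (nat_lit 271)) (XT.lf (nat_lit 0) (nat_lit 27374764524) (nat_lit 608) (nat_lit 21510125103) (nat_lit 76) (nat_lit 2585384161) (nat_lit 249) (nat_lit 5) (nat_lit 257) (nat_lit 5) (nat_lit 250) (nat_lit 5) (nat_lit 677) (nat_lit 613) (nat_lit 270))))) (XT.nd (nat_lit 312) (nat_lit 1520) (nat_lit 0) (XT.nd (nat_lit 156) (nat_lit 532) (nat_lit 0) (XT.nd (nat_lit 78) (nat_lit 0) (nat_lit 0) (XT.lf (nat_lit 0) (nat_lit 8879454946) (nat_lit 532) (nat_lit 28559473788) (nat_lit 608) (nat_lit 14641841726)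 (nat_lit 242) (nat_lit 5) (nat_lit 249) (nat_lit 5) (nat_lit 250) (nat_lit 5) (nat_lit 678) (nat_lit 613) (nat_lit 269)) (XT.lf (nat_lit 0) (nat_lit 40167093711) (nat_lit 532) (nat_lit 7680666883) (nat_lit 608) (nat_lit 4852848807) (nat_lit 242) (nat_lit 5) (nat_lit 249) (nat_lit 5) (nat_lit 250) (nat_lit 5) (nat_lit 679) (nat_lit 613) (nat_lit 268))) (XT.nd (nat_lit 78) (nat_lit 0) (nat_lit 0) (XT.lf (nat_lit 0) (nat_lit 5276218519) (nat_lit 532) (nat_lit 34457460142) (nat_lit 76) (nat_lit 13594268068) (nat_lit 235) (nat_lit 5) (nat_lit 242) (nat_lit 5) (nat_lit 236) (nat_lit 5) (nat_lit 680) (nat_lit 613) (nat_lit 267)) (XT.lf (nat_lit 0) (nat_lit 15677537737) (nat_lit 532) (nat_lit 2978548289) (nat_lit 76) (nat_lit 35308410243) (nat_lit 235) (nat_lit 5) (nat_lit 242) (nat_lit 5) (nat_lit 236) (nat_lit 5) (nat_lit 681) (nat_lit 613) (nat_lit 266)))) (XT.nd (nat_lit 156) (nat_lit 532) (nat_lit 0) (XT.nd (nat_lit 78) (nat_lit 456) (nat_lit 0) (XT.lf (nat_lit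 0) (nat_lit 26497324149) (nat_lit 608) (nat_lit 25113919590) (nat_lit 76) (nat_lit 2998324266) (nat_lit 228) (nat_lit 5) (nat_lit 236) (nat_lit 5) (nat_lit 229) (nat_lit 5) (nat_lit 682) (nat_lit 613) (nat_lit 265)) (XT.lf (nat_lit 0) (nat_lit 7364177365) (nat_lit 456) (nat_lit 30359898817) (nat_lit 532) (nat_lit 17539653614) (nat_lit 222) (nat_lit 5) (nat_lit 228) (nat_lit 5) (nat_lit 229) (nat_lit 5) (nat_lit 683) (nat_lit 613) (nat_lit 264))) (XT.nd (nat_lit 78) (nat_lit 532) (nat_lit 0) (XT.lf (nat_lit 0) (nat_lit 40830985329) (nat_lit 456) (nat_lit 8512001700) (nat_lit 532) (nat_lit 6584635334) (nat_lit 222) (nat_lit 5) (nat_lit 228) (nat_lit 5) (nat_lit 229) (nat_lit 5) (nat_lit 684) (nat_lit 613) (nat_lit 263)) (XT.lf (nat_lit 0) (nat_lit 4739416002) (nat_lit 532) (nat_lit 38117330637) (nat_lit 76) (nat_lit 13743247710) (nat_lit 215) (nat_lit 5) (nat_lit 222) (nat_lit 5) (nat_lit 216) (nat_lit 5) (nat_lit 685) (nat_lit 613) (nat_lit 262))))))))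
noncomputable def xc225 : XT := (XT.nd (nat_lit 2418) (nat_lit 12464) (nat_lit 0) (XT.nd (nat_lit 1170) (nat_lit 3952) (nat_lit 0) (XT.nd (nat_lit 546) (nat_lit 0) (nat_lit 228) (XT.nd (nat_lit 234) (nat_lit 0) (nat_lit 76) (XT.nd (nat_lit 78) (nat_lit 0) (nat_lit 0) (XT.lf (nat_lit 0) (nat_lit 1869703203) (nat_lit 1900) (nat_lit 5610479672) (nat_lit 1900) (nat_lit 5610479672) (nat_lit 481) (nat_lit 3) (nat_lit 506) (nat_lit 3) (nat_lit 506) (nat_lit 5) (nat_lit 614) (nat_lit 614) (nat_lit 332)) (XT.nd (nat_lit 78) (nat_lit 0) (nat_lit 76) (XT.lf (nat_lit 76) (nat_lit 1841241331) (nat_lit 0) (nat_lit 2044100302) (nat_lit 1900) (nat_lit 22555622969) (nat_lit 482) (nat_lit 5) (nat_lit 481) (nat_lit 3) (nat_lit 506) (nat_lit 5) (nat_lit 615) (nat_lit 614) (nat_lit 331)) (XT.lf (nat_lit 0) (nat_lit 4179725301) (nat_lit 1824) (nat_lit 11461635257) (nat_lit 1900) (nat_lit 11061525820) (nat_lit 482) (nat_lit 5) (nat_lit 506) (nat_lit 5) (nat_lit 507) (nat_lit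 5) (nat_lit 616) (nat_lit 614) (nat_lit 330)))) (XT.nd (nat_lit 156) (nat_lit 0) (nat_lit 76) (XT.nd (nat_lit 78) (nat_lit 0) (nat_lit 76) (XT.lf (nat_lit 76) (nat_lit 1949909453) (nat_lit 0) (nat_lit 2553800070) (nat_lit 1900) (nat_lit 22465862885) (nat_lit 483) (nat_lit 5) (nat_lit 482) (nat_lit 5) (nat_lit 507) (nat_lit 5) (nat_lit 617) (nat_lit 614) (nat_lit 329)) (XT.lf (nat_lit 0) (nat_lit 4979250985) (nat_lit 1824) (nat_lit 11526993070) (nat_lit 1900) (nat_lit 10732446626) (nat_lit 483) (nat_lit 5) (nat_lit 507) (nat_lit 5) (nat_lit 508) (nat_lit 5) (nat_lit 618) (nat_lit 614) (nat_lit 328))) (XT.nd (nat_lit 78) (nat_lit 0) (nat_lit 76) (XT.lf (nat_lit 76) (nat_lit 2246722286) (nat_lit 0) (nat_lit 3246691534) (nat_lit 1900) (nat_lit 22019195361) (nat_lit 484) (nat_lit 5) (nat_lit 483) (nat_lit 5) (nat_lit 508) (nat_lit 5) (nat_lit 619) (nat_lit 614) (nat_lit 327)) (XT.lf (nat_lit 0) (nat_lit 6160111601) (nat_lit 1824) (nat_lit 11406945960) (nat_lit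 1900) (nat_lit 10222103527) (nat_lit 484) (nat_lit 5) (nat_lit 508) (nat_lit 5) (nat_lit 509) (nat_lit 5) (nat_lit 620) (nat_lit 614) (nat_lit 326))))) (XT.nd (nat_lit 312) (nat_lit 0) (nat_lit 152) (XT.nd (nat_lit 156) (nat_lit 0) (nat_lit 76) (XT.nd (nat_lit 78) (nat_lit 0) (nat_lit 76) (XT.lf (nat_lit 76) (nat_lit 2742259187) (nat_lit 0) (nat_lit 4134891259) (nat_lit 1900) (nat_lit 21193353515) (nat_lit 485) (nat_lit 5) (nat_lit 484) (nat_lit 5) (nat_lit 509) (nat_lit 5) (nat_lit 621) (nat_lit 614) (nat_lit 325)) (XT.lf (nat_lit 0) (nat_lit 7745435153) (nat_lit 1824) (nat_lit 11090905991) (nat_lit 1900) (nat_lit 9518394513) (nat_lit 485) (nat_lit 5) (nat_lit 509) (nat_lit 5) (nat_lit 510) (nat_lit 5) (nat_lit 622) (nat_lit 614) (nat_lit 324))) (XT.nd (nat_lit 78) (nat_lit 0) (nat_lit 76) (XT.lf (nat_lit 76) (nat_lit 3447619579) (nat_lit 0) (nat_lit 5231021098) (nat_lit 1900) (nat_lit 19965060274) (nat_lit 486) (nat_lit 5) (nat_lit 485) (nat_lit 5) (nat_lit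 510) (nat_lit 5) (nat_lit 623) (nat_lit 614) (nat_lit 323)) (XT.lf (nat_lit 0) (nat_lit 9759394276) (nat_lit 1824) (nat_lit 10567764684) (nat_lit 1900) (nat_lit 8608708977) (nat_lit 486) (nat_lit 5) (nat_lit 510) (nat_lit 5) (nat_lit 511) (nat_lit 5) (nat_lit 624) (nat_lit 614) (nat_lit 322)))) (XT.nd (nat_lit 156) (nat_lit 0) (nat_lit 76) (XT.nd (nat_lit 78) (nat_lit 0) (nat_lit 76) (XT.lf (nat_lit 76) (nat_lit 4374443132) (nat_lit 0) (nat_lit 6548233793) (nat_lit 1900) (nat_lit 18309983123) (nat_lit 487) (nat_lit 5) (nat_lit 486) (nat_lit 5) (nat_lit 511) (nat_lit 5) (nat_lit 625) (nat_lit 614) (nat_lit 321)) (XT.lf (nat_lit 0) (nat_lit 12227252756) (nat_lit 1824) (nat_lit 9825872707) (nat_lit 1900) (nat_lit 7479902050) (nat_lit 487) (nat_lit 5) (nat_lit 511) (nat_lit 5) (nat_lit 512) (nat_lit 5) (nat_lit 626) (nat_lit 614) (nat_lit 320))) (XT.nd (nat_lit 78) (nat_lit 0) (nat_lit 76) (XT.lf (nat_lit 76) (nat_lit 5534930852) (nat_lit 0) (nat_lit 8100239464)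 (nat_lit 1900) (nat_lit 16202687069) (nat_lit 488) (nat_lit 5) (nat_lit 487) (nat_lit 5) (nat_lit 512) (nat_lit 5) (nat_lit 627) (nat_lit 614) (nat_lit 319)) (XT.lf (nat_lit 0) (nat_lit 15175413873) (nat_lit 1824) (nat_lit 8853018649) (nat_lit 1900) (nat_lit 6118268040) (nat_lit 488) (nat_lit 5) (nat_lit 512) (nat_lit 5) (nat_lit 513) (nat_lit 5) (nat_lit 628) (nat_lit 614) (nat_lit 318)))))) (XT.nd (nat_lit 624) (nat_lit 4484) (nat_lit 0) (XT.nd (nat_lit 312) (nat_lit 0) (nat_lit 152) (XT.nd (nat_lit 156) (nat_lit 0) (nat_lit 76) (XT.nd (nat_lit 78) (nat_lit 0) (nat_lit 76) (XT.lf (nat_lit 76) (nat_lit 6941867116) (nat_lit 0) (nat_lit 9901333016) (nat_lit 1900) (nat_lit 13616585774) (nat_lit 489) (nat_lit 5) (nat_lit 488) (nat_lit 5) (nat_lit 513) (nat_lit 5) (nat_lit 629) (nat_lit 614) (nat_lit 317)) (XT.lf (nat_lit 0) (nat_lit 18631470647) (nat_lit 1824) (nat_lit 7636406854) (nat_lit 1900) (nat_lit 4509512943) (nat_lit 489) (nat_lit 5) (nat_lit 513)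 (nat_lit 5) (nat_lit 514) (nat_lit 5) (nat_lit 630) (nat_lit 614) (nat_lit 316))) (XT.nd (nat_lit 78) (nat_lit 0) (nat_lit 76) (XT.lf (nat_lit 76) (nat_lit 8608642674) (nat_lit 0) (nat_lit 11966422533) (nat_lit 1900) (nat_lit 10523890749) (nat_lit 490) (nat_lit 5) (nat_lit 489) (nat_lit 5) (nat_lit 514) (nat_lit 5) (nat_lit 631) (nat_lit 614) (nat_lit 315)) (XT.lf (nat_lit 0) (nat_lit 22624258069) (nat_lit 1824) (nat_lit 6162634278) (nat_lit 1900) (nat_lit 2638725960) (nat_lit 490) (nat_lit 5) (nat_lit 514) (nat_lit 5) (nat_lit 515) (nat_lit 5) (nat_lit 632) (nat_lit 614) (nat_lit 314)))) (XT.nd (nat_lit 156) (nat_lit 0) (nat_lit 76) (XT.nd (nat_lit 78) (nat_lit 0) (nat_lit 76) (XT.lf (nat_lit 76) (nat_lit 10549278666) (nat_lit 0) (nat_lit 14311058694) (nat_lit 1900) (nat_lit 6895558547) (nat_lit 491) (nat_lit 5) (nat_lit 490) (nat_lit 5) (nat_lit 515) (nat_lit 5) (nat_lit 633) (nat_lit 614) (nat_lit 313)) (XT.lf (nat_lit 0) (nat_lit 27183907407) (nat_lit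 1824) (nat_lit 4417666342) (nat_lit 1900) (nat_lit 490349981) (nat_lit 491) (nat_lit 5) (nat_lit 515) (nat_lit 5) (nat_lit 516) (nat_lit 5) (nat_lit 634) (nat_lit 614) (nat_lit 312))) (XT.nd (nat_lit 78) (nat_lit 0) (nat_lit 0) (XT.lf (nat_lit 76) (nat_lit 12778451672) (nat_lit 0) (nat_lit 16951465271) (nat_lit 1900) (nat_lit 2701235858) (nat_lit 492) (nat_lit 5) (nat_lit 491) (nat_lit 5) (nat_lit 516) (nat_lit 5) (nat_lit 635) (nat_lit 614) (nat_lit 311)) (XT.lf (nat_lit 76) (nat_lit 30376955704) (nat_lit 0) (nat_lit 1977788073) (nat_lit 1900) (nat_lit 421864785) (nat_lit 492) (nat_lit 5) (nat_lit 491) (nat_lit 5) (nat_lit 516) (nat_lit 5) (nat_lit 636) (nat_lit 614) (nat_lit 310))))) (XT.nd (nat_lit 312) (nat_lit 1824) (nat_lit 0) (XT.nd (nat_lit 156) (nat_lit 1064) (nat_lit 0) (XT.nd (nat_lit 78) (nat_lit 0) (nat_lit 0) (XT.lf (nat_lit 0) (nat_lit 2063376399) (nat_lit 1900) (nat_lit 17827348029) (nat_lit 1976) (nat_lit 13234297094) (nat_lit 467) (nat_lit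 5) (nat_lit 492) (nat_lit 5) (nat_lit 493) (nat_lit 5) (nat_lit 637) (nat_lit 614) (nat_lit 309)) (XT.lf (nat_lit 0) (nat_lit 4620288159) (nat_lit 1900) (nat_lit 116045556) (nat_lit 1976) (nat_lit 28743461016) (nat_lit 467) (nat_lit 5) (nat_lit 492) (nat_lit 5) (nat_lit 493) (nat_lit 5) (nat_lit 638) (nat_lit 614) (nat_lit 308))) (XT.nd (nat_lit 78) (nat_lit 1140) (nat_lit 0) (XT.lf (nat_lit 0) (nat_lit 7415145001) (nat_lit 1900) (nat_lit 15723136731) (nat_lit 76) (nat_lit 10699645583) (nat_lit 468) (nat_lit 5) (nat_lit 493) (nat_lit 5) (nat_lit 469) (nat_lit 5) (nat_lit 639) (nat_lit 614) (nat_lit 307)) (XT.lf (nat_lit 0) (nat_lit 2508702308) (nat_lit 1140) (nat_lit 7803995273) (nat_lit 1216) (nat_lit 23889589041) (nat_lit 453) (nat_lit 5) (nat_lit 468) (nat_lit 5) (nat_lit 469) (nat_lit 5) (nat_lit 640) (nat_lit 614) (nat_lit 306)))) (XT.nd (nat_lit 156) (nat_lit 912) (nat_lit 0) (XT.nd (nat_lit 78) (nat_lit 912) (nat_lit 0) (XT.lf (nat_lit 0) (nat_lit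 13423677556) (nat_lit 1216) (nat_lit 13306556941) (nat_lit 76) (nat_lit 7840589140) (nat_lit 453) (nat_lit 5) (nat_lit 469) (nat_lit 5) (nat_lit 454) (nat_lit 5) (nat_lit 641) (nat_lit 614) (nat_lit 305)) (XT.lf (nat_lit 0) (nat_lit 5466793716) (nat_lit 912) (nat_lit 11215675452) (nat_lit 988) (nat_lit 18262550428) (nat_lit 441) (nat_lit 5) (nat_lit 453) (nat_lit 5) (nat_lit 454) (nat_lit 5) (nat_lit 642) (nat_lit 614) (nat_lit 304))) (XT.nd (nat_lit 78) (nat_lit 912) (nat_lit 0) (XT.lf (nat_lit 0) (nat_lit 20124686404) (nat_lit 988) (nat_lit 10560901416) (nat_lit 76) (nat_lit 4638746703) (nat_lit 441) (nat_lit 5) (nat_lit 454) (nat_lit 5) (nat_lit 442) (nat_lit 5) (nat_lit 643) (nat_lit 614) (nat_lit 303)) (XT.lf (nat_lit 0) (nat_lit 8774140603) (nat_lit 912) (nat_lit 14991320151) (nat_lit 988) (nat_lit 11943180781) (nat_lit 429) (nat_lit 5) (nat_lit 441) (nat_lit 5) (nat_lit 442) (nat_lit 5) (nat_lit 644) (nat_lit 614) (nat_lit 302))))))) (XT.nd (nat_lit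 1170) (nat_lit 5852) (nat_lit 0) (XT.nd (nat_lit 546) (nat_lit 3116) (nat_lit 0) (XT.nd (nat_lit 234) (nat_lit 2660) (nat_lit 0) (XT.nd (nat_lit 78) (nat_lit 836) (nat_lit 0) (XT.lf (nat_lit 0) (nat_lit 27555481723) (nat_lit 988) (nat_lit 7468698149) (nat_lit 76) (nat_lit 1074926235) (nat_lit 429) (nat_lit 5) (nat_lit 442) (nat_lit 5) (nat_lit 430) (nat_lit 5) (nat_lit 645) (nat_lit 614) (nat_lit 301)) (XT.nd (nat_lit 78) (nat_lit 0) (nat_lit 0) (XT.lf (nat_lit 0) (nat_lit 12448990766) (nat_lit 836) (nat_lit 19150939951) (nat_lit 912) (nat_lit 4893876743) (nat_lit 418) (nat_lit 5) (nat_lit 429) (nat_lit 5) (nat_lit 430) (nat_lit 5) (nat_lit 646) (nat_lit 614) (nat_lit 300)) (XT.lf (nat_lit 0) (nat_lit 32864862563) (nat_lit 836) (nat_lit 2909065112) (nat_lit 912) (nat_lit 1121502027) (nat_lit 418) (nat_lit 5) (nat_lit 429) (nat_lit 5) (nat_lit 430) (nat_lit 5) (nat_lit 647) (nat_lit 614) (nat_lit 299)))) (XT.nd (nat_lit 156) (nat_lit 1672) (nat_lit 0) (XT.nd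 (nat_lit 78) (nat_lit 0) (nat_lit 0) (XT.lf (nat_lit 0) (nat_lit 2886291758) (nat_lit 988) (nat_lit 20809766764) (nat_lit 76) (nat_lit 13604757328) (nat_lit 405) (nat_lit 5) (nat_lit 418) (nat_lit 5) (nat_lit 406) (nat_lit 5) (nat_lit 648) (nat_lit 614) (nat_lit 298)) (XT.lf (nat_lit 0) (nat_lit 7004308809) (nat_lit 988) (nat_lit 264329371) (nat_lit 76) (nat_lit 30444621632) (nat_lit 405) (nat_lit 5) (nat_lit 418) (nat_lit 5) (nat_lit 406) (nat_lit 5) (nat_lit 649) (nat_lit 614) (nat_lit 297))) (XT.nd (nat_lit 78) (nat_lit 836) (nat_lit 0) (XT.lf (nat_lit 0) (nat_lit 11401914684) (nat_lit 912) (nat_lit 17228167497) (nat_lit 76) (nat_lit 9499925939) (nat_lit 394) (nat_lit 5) (nat_lit 406) (nat_lit 5) (nat_lit 395) (nat_lit 5) (nat_lit 650) (nat_lit 614) (nat_lit 296)) (XT.lf (nat_lit 0) (nat_lit 3942000338) (nat_lit 836) (nat_lit 12019613356) (nat_lit 912) (nat_lit 22591994916) (nat_lit 383) (nat_lit 5) (nat_lit 394) (nat_lit 5) (nat_lit 395) (nat_lit 5)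 (nat_lit 651) (nat_lit 614) (nat_lit 295))))) (XT.nd (nat_lit 312) (nat_lit 1596) (nat_lit 0) (XT.nd (nat_lit 156) (nat_lit 760) (nat_lit 0) (XT.nd (nat_lit 78) (nat_lit 760) (nat_lit 0) (XT.lf (nat_lit 0) (nat_lit 20759488471) (nat_lit 912) (nat_lit 13248424497) (nat_lit 76) (nat_lit 4974828543) (nat_lit 383) (nat_lit 5) (nat_lit 395) (nat_lit 5) (nat_lit 384) (nat_lit 5) (nat_lit 652) (nat_lit 614) (nat_lit 294)) (XT.lf (nat_lit 0) (nat_lit 8573463389) (nat_lit 760) (nat_lit 17213790958) (nat_lit 836) (nat_lit 13630524087) (nat_lit 373) (nat_lit 5) (nat_lit 383) (nat_lit 5) (nat_lit 384) (nat_lit 5) (nat_lit 653) (nat_lit 614) (nat_lit 293))) (XT.nd (nat_lit 78) (nat_lit 760) (nat_lit 0) (XT.lf (nat_lit 0) (nat_lit 31003209663) (nat_lit 836) (nat_lit 8849826445) (nat_lit 76) (nat_lit 6727340) (nat_lit 373) (nat_lit 5) (nat_lit 384) (nat_lit 5) (nat_lit 374) (nat_lit 5) (nat_lit 654) (nat_lit 614) (nat_lit 292)) (XT.lf (nat_lit 0) (nat_lit 13648160638)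 (nat_lit 760) (nat_lit 22876646200) (nat_lit 836) (nat_lit 3781754902) (nat_lit 363) (nat_lit 5) (nat_lit 373) (nat_lit 5) (nat_lit 374) (nat_lit 5) (nat_lit 655) (nat_lit 614) (nat_lit 291)))) (XT.nd (nat_lit 156) (nat_lit 760) (nat_lit 0) (XT.nd (nat_lit 78) (nat_lit 760) (nat_lit 0) (XT.lf (nat_lit 0) (nat_lit 1434749665) (nat_lit 836) (nat_lit 4055885300) (nat_lit 76) (nat_lit 35270309994) (nat_lit 362) (nat_lit 5) (nat_lit 373) (nat_lit 5) (nat_lit 363) (nat_lit 5) (nat_lit 656) (nat_lit 614) (nat_lit 290)) (XT.lf (nat_lit 0) (nat_lit 6909037694) (nat_lit 836) (nat_lit 22077529504) (nat_lit 76) (nat_lit 12233266906) (nat_lit 352) (nat_lit 5) (nat_lit 363) (nat_lit 5) (nat_lit 353) (nat_lit 5) (nat_lit 657) (nat_lit 614) (nat_lit 289))) (XT.nd (nat_lit 78) (nat_lit 0) (nat_lit 0) (XT.lf (nat_lit 0) (nat_lit 1149224162) (nat_lit 760) (nat_lit 11413567208) (nat_lit 836) (nat_lit 29123710097) (nat_lit 342) (nat_lit 5) (nat_lit 352) (nat_lit 5) (nat_lit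 353) (nat_lit 5) (nat_lit 658) (nat_lit 614) (nat_lit 288)) (XT.lf (nat_lit 0) (nat_lit 18519799707) (nat_lit 836) (nat_lit 17064414378) (nat_lit 76) (nat_lit 6574484531) (nat_lit 342) (nat_lit 5) (nat_lit 353) (nat_lit 5) (nat_lit 343) (nat_lit 5) (nat_lit 659) (nat_lit 614) (nat_lit 287)))))) (XT.nd (nat_lit 624) (nat_lit 2432) (nat_lit 0) (XT.nd (nat_lit 312) (nat_lit 1976) (nat_lit 0) (XT.nd (nat_lit 156) (nat_lit 760) (nat_lit 0) (XT.nd (nat_lit 78) (nat_lit 0) (nat_lit 0) (XT.lf (nat_lit 0) (nat_lit 6891327039) (nat_lit 684) (nat_lit 17823748396) (nat_lit 760) (nat_lit 17922881759) (nat_lit 333) (nat_lit 5) (nat_lit 342) (nat_lit 5) (nat_lit 343) (nat_lit 5) (nat_lit 660) (nat_lit 614) (nat_lit 286)) (XT.lf (nat_lit 0) (nat_lit 31150232806) (nat_lit 760) (nat_lit 11571055366) (nat_lit 76) (nat_lit 403193278) (nat_lit 333) (nat_lit 5) (nat_lit 343) (nat_lit 5) (nat_lit 334) (nat_lit 5) (nat_lit 661) (nat_lit 614) (nat_lit 285))) (XT.nd (nat_lit 78)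 (nat_lit 76) (nat_lit 0) (XT.lf (nat_lit 0) (nat_lit 13140979524) (nat_lit 684) (nat_lit 24775306325) (nat_lit 760) (nat_lit 5700406519) (nat_lit 324) (nat_lit 5) (nat_lit 333) (nat_lit 5) (nat_lit 334) (nat_lit 5) (nat_lit 662) (nat_lit 614) (nat_lit 284)) (XT.lf (nat_lit 0) (nat_lit 766749113) (nat_lit 760) (nat_lit 5619508885) (nat_lit 76) (nat_lit 37730858721) (nat_lit 323) (nat_lit 5) (nat_lit 333) (nat_lit 5) (nat_lit 324) (nat_lit 5) (nat_lit 663) (nat_lit 614) (nat_lit 283)))) (XT.nd (nat_lit 156) (nat_lit 608) (nat_lit 0) (XT.nd (nat_lit 78) (nat_lit 684) (nat_lit 0) (XT.lf (nat_lit 0) (nat_lit 7496849735) (nat_lit 760) (nat_lit 24749189240) (nat_lit 76) (nat_lit 12376558407) (nat_lit 314) (nat_lit 5) (nat_lit 324) (nat_lit 5) (nat_lit 315) (nat_lit 5) (nat_lit 664) (nat_lit 614) (nat_lit 282)) (XT.lf (nat_lit 0) (nat_lit 781276059) (nat_lit 684) (nat_lit 13664477521) (nat_lit 760) (nat_lit 30690750082) (nat_lit 305) (nat_lit 5) (nat_lit 314)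 (nat_lit 5) (nat_lit 315) (nat_lit 5) (nat_lit 665) (nat_lit 614) (nat_lit 281))) (XT.nd (nat_lit 78) (nat_lit 608) (nat_lit 0) (XT.lf (nat_lit 0) (nat_lit 21734041071) (nat_lit 760) (nat_lit 18536335238) (nat_lit 76) (nat_lit 5386303672) (nat_lit 305) (nat_lit 5) (nat_lit 315) (nat_lit 5) (nat_lit 306) (nat_lit 5) (nat_lit 666) (nat_lit 614) (nat_lit 280)) (XT.lf (nat_lit 0) (nat_lit 7809528353) (nat_lit 608) (nat_lit 21498673402) (nat_lit 684) (nat_lit 16876255950) (nat_lit 297) (nat_lit 5) (nat_lit 305) (nat_lit 5) (nat_lit 306) (nat_lit 5) (nat_lit 667) (nat_lit 614) (nat_lit 279))))) (XT.nd (nat_lit 312) (nat_lit 1140) (nat_lit 0) (XT.nd (nat_lit 156) (nat_lit 684) (nat_lit 0) (XT.nd (nat_lit 78) (nat_lit 608) (nat_lit 0) (XT.lf (nat_lit 0) (nat_lit 34932246152) (nat_lit 608) (nat_lit 2224910401) (nat_lit 684) (nat_lit 9563168237) (nat_lit 297) (nat_lit 5) (nat_lit 305) (nat_lit 5) (nat_lit 306) (nat_lit 5) (nat_lit 668) (nat_lit 614) (nat_lit 278))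 (XT.lf (nat_lit 0) (nat_lit 15418204910) (nat_lit 608) (nat_lit 29957127844) (nat_lit 684) (nat_lit 1887331642) (nat_lit 289) (nat_lit 5) (nat_lit 297) (nat_lit 5) (nat_lit 298) (nat_lit 5) (nat_lit 669) (nat_lit 614) (nat_lit 277))) (XT.nd (nat_lit 78) (nat_lit 608) (nat_lit 0) (XT.lf (nat_lit 0) (nat_lit 5957400735) (nat_lit 684) (nat_lit 4541028804) (nat_lit 76) (nat_lit 37314783492) (nat_lit 288) (nat_lit 5) (nat_lit 297) (nat_lit 5) (nat_lit 289) (nat_lit 5) (nat_lit 670) (nat_lit 614) (nat_lit 276)) (XT.lf (nat_lit 0) (nat_lit 14147800959) (nat_lit 684) (nat_lit 24829032261) (nat_lit 76) (nat_lit 9393409046) (nat_lit 280) (nat_lit 5) (nat_lit 289) (nat_lit 5) (nat_lit 281) (nat_lit 5) (nat_lit 671) (nat_lit 614) (nat_lit 275)))) (XT.nd (nat_lit 156) (nat_lit 532) (nat_lit 0) (XT.nd (nat_lit 78) (nat_lit 0) (nat_lit 0) (XT.lf (nat_lit 0) (nat_lit 3280835820) (nat_lit 608) (nat_lit 19341653128) (nat_lit 684) (nat_lit 26313513567) (nat_lit 272) (nat_lit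 5) (nat_lit 280) (nat_lit 5) (nat_lit 281) (nat_lit 5) (nat_lit 672) (nat_lit 614) (nat_lit 274)) (XT.lf (nat_lit 0) (nat_lit 31437833018) (nat_lit 684) (nat_lit 17227159818) (nat_lit 76) (nat_lit 844661906) (nat_lit 272) (nat_lit 5) (nat_lit 281) (nat_lit 5) (nat_lit 273) (nat_lit 5) (nat_lit 673) (nat_lit 614) (nat_lit 273))) (XT.nd (nat_lit 78) (nat_lit 0) (nat_lit 0) (XT.lf (nat_lit 0) (nat_lit 11794711821) (nat_lit 532) (nat_lit 28838449078) (nat_lit 608) (nat_lit 9457545601) (nat_lit 265) (nat_lit 5) (nat_lit 272) (nat_lit 5) (nat_lit 273) (nat_lit 5) (nat_lit 674) (nat_lit 614) (nat_lit 272)) (XT.lf (nat_lit 0) (nat_lit 41629253373) (nat_lit 532) (nat_lit 8497763803) (nat_lit 608) (nat_lit 554069700) (nat_lit 265) (nat_lit 5) (nat_lit 272) (nat_lit 5) (nat_lit 273) (nat_lit 5) (nat_lit 675) (nat_lit 614) (nat_lit 271))))))))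
noncomputable def xc226 : XT := (XT.nd (nat_lit 78078) (nat_lit 0) (nat_lit 6308) (XT.nd (nat_lit 76830) (nat_lit 0) (nat_lit 19836) (XT.nd (nat_lit 546) (nat_lit 988) (nat_lit 0) (XT.nd (nat_lit 234) (nat_lit 1064) (nat_lit 0) (XT.nd (nat_lit 78) (nat_lit 532) (nat_lit 0) (XT.lf (nat_lit 0) (nat_lit 8631788133) (nat_lit 684) (nat_lit 30364324936) (nat_lit 76) (nat_lit 12281731456) (nat_lit 256) (nat_lit 5) (nat_lit 265) (nat_lit 5) (nat_lit 257) (nat_lit 5) (nat_lit 676) (nat_lit 614) (nat_lit 270)) (XT.nd (nat_lit 78) (nat_lit 532) (nat_lit 0) (XT.lf (nat_lit 0) (nat_lit 18110412642) (nat_lit 684) (nat_lit 346073609) (nat_lit 76) (nat_lit 33427648478) (nat_lit 256) (nat_lit 5) (nat_lit 265) (nat_lit 5) (nat_lit 257) (nat_lit 5) (nat_lit 677) (nat_lit 614) (nat_lit 269)) (XT.lf (nat_lit 0) (nat_lit 27994330921) (nat_lit 608) (nat_lit 21842520956) (nat_lit 76) (nat_lit 2661384453) (nat_lit 249) (nat_lit 5) (nat_lit 257) (nat_lit 5) (nat_lit 250) (nat_lit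 5) (nat_lit 678) (nat_lit 614) (nat_lit 268)))) (XT.nd (nat_lit 156) (nat_lit 532) (nat_lit 0) (XT.nd (nat_lit 78) (nat_lit 0) (nat_lit 0) (XT.lf (nat_lit 0) (nat_lit 9154207230) (nat_lit 532) (nat_lit 29104788876) (nat_lit 608) (nat_lit 14861962507) (nat_lit 242) (nat_lit 5) (nat_lit 249) (nat_lit 5) (nat_lit 250) (nat_lit 5) (nat_lit 679) (nat_lit 614) (nat_lit 267)) (XT.lf (nat_lit 0) (nat_lit 41065693609) (nat_lit 532) (nat_lit 7808913174) (nat_lit 608) (nat_lit 4878615534) (nat_lit 242) (nat_lit 5) (nat_lit 249) (nat_lit 5) (nat_lit 250) (nat_lit 5) (nat_lit 680) (nat_lit 614) (nat_lit 266))) (XT.nd (nat_lit 78) (nat_lit 0) (nat_lit 0) (XT.lf (nat_lit 0) (nat_lit 5451507672) (nat_lit 532) (nat_lit 35049823035) (nat_lit 76) (nat_lit 13891778264) (nat_lit 235) (nat_lit 5) (nat_lit 242) (nat_lit 5) (nat_lit 236) (nat_lit 5) (nat_lit 681) (nat_lit 614) (nat_lit 265)) (XT.lf (nat_lit 0) (nat_lit 16059485338) (nat_lit 532) (nat_lit 2943230717) (nat_lit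 76) (nat_lit 36039700836) (nat_lit 235) (nat_lit 5) (nat_lit 242) (nat_lit 5) (nat_lit 236) (nat_lit 5) (nat_lit 682) (nat_lit 614) (nat_lit 264))))) (XT.nd (nat_lit 75972) (nat_lit 0) (nat_lit 19684) (XT.nd (nat_lit 156) (nat_lit 0) (nat_lit 0) (XT.nd (nat_lit 78) (nat_lit 456) (nat_lit 0) (XT.lf (nat_lit 0) (nat_lit 27095111072) (nat_lit 608) (nat_lit 25520751696) (nat_lit 76) (nat_lit 3084538447) (nat_lit 228) (nat_lit 5) (nat_lit 236) (nat_lit 5) (nat_lit 229) (nat_lit 5) (nat_lit 683) (nat_lit 614) (nat_lit 263)) (XT.lf (nat_lit 0) (nat_lit 7606279262) (nat_lit 456) (nat_lit 30939404301) (nat_lit 532) (nat_lit 17821976996) (nat_lit 222) (nat_lit 5) (nat_lit 228) (nat_lit 5) (nat_lit 229) (nat_lit 5) (nat_lit 684) (nat_lit 614) (nat_lit 262))) (XT.nd (nat_lit 75738) (nat_lit 0) (nat_lit 19684) (XT.lf (nat_lit 0) (nat_lit 41740564203) (nat_lit 456) (nat_lit 8655092233) (nat_lit 532) (nat_lit 6649200893) (nat_lit 222) (nat_lit 5) (nat_lit 228) (nat_lit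 5) (nat_lit 229) (nat_lit 5) (nat_lit 685) (nat_lit 614) (nat_lit 261)) (XT.lf (nat_lit 0) (nat_lit 2003056765) (nat_lit 1900) (nat_lit 5673748470) (nat_lit 1900) (nat_lit 5673748470) (nat_lit 481) (nat_lit 3) (nat_lit 506) (nat_lit 3) (nat_lit 506) (nat_lit 5) (nat_lit 615) (nat_lit 615) (nat_lit 330)))) (XT.nd (nat_lit 156) (nat_lit 0) (nat_lit 76) (XT.nd (nat_lit 78) (nat_lit 0) (nat_lit 76) (XT.lf (nat_lit 76) (nat_lit 1975303791) (nat_lit 0) (nat_lit 2176531884) (nat_lit 1900) (nat_lit 22814166780) (nat_lit 482) (nat_lit 5) (nat_lit 481) (nat_lit 3) (nat_lit 506) (nat_lit 5) (nat_lit 616) (nat_lit 615) (nat_lit 329)) (XT.lf (nat_lit 0) (nat_lit 4447822561) (nat_lit 1824) (nat_lit 11591246911) (nat_lit 1900) (nat_lit 11194178997) (nat_lit 482) (nat_lit 5) (nat_lit 506) (nat_lit 5) (nat_lit 507) (nat_lit 5) (nat_lit 617) (nat_lit 615) (nat_lit 328))) (XT.nd (nat_lit 78) (nat_lit 0) (nat_lit 76) (XT.lf (nat_lit 76) (nat_lit 2087873292) (nat_lit 0) (nat_lit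 2687438025) (nat_lit 1900) (nat_lit 22730016515) (nat_lit 483) (nat_lit 5) (nat_lit 482) (nat_lit 5) (nat_lit 507) (nat_lit 5) (nat_lit 618) (nat_lit 615) (nat_lit 327)) (XT.lf (nat_lit 0) (nat_lit 5256278707) (nat_lit 1824) (nat_lit 11656417518) (nat_lit 1900) (nat_lit 10867214051) (nat_lit 483) (nat_lit 5) (nat_lit 507) (nat_lit 5) (nat_lit 508) (nat_lit 5) (nat_lit 619) (nat_lit 615) (nat_lit 326)))))) (XT.nd (nat_lit 624) (nat_lit 0) (nat_lit 304) (XT.nd (nat_lit 312) (nat_lit 0) (nat_lit 152) (XT.nd (nat_lit 156) (nat_lit 0) (nat_lit 76) (XT.nd (nat_lit 78) (nat_lit 0) (nat_lit 76) (XT.lf (nat_lit 76) (nat_lit 2392106913) (nat_lit 0) (nat_lit 3385790806) (nat_lit 1900) (nat_lit 22281466073) (nat_lit 484) (nat_lit 5) (nat_lit 483) (nat_lit 5) (nat_lit 508) (nat_lit 5) (nat_lit 620) (nat_lit 615) (nat_lit 325)) (XT.lf (nat_lit 0) (nat_lit 6454033531) (nat_lit 1824) (nat_lit 11532703228) (nat_lit 1900) (nat_lit 10354788000) (nat_lit 484) (nat_lit 5)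 (nat_lit 508) (nat_lit 5) (nat_lit 509) (nat_lit 5) (nat_lit 621) (nat_lit 615) (nat_lit 324))) (XT.nd (nat_lit 78) (nat_lit 0) (nat_lit 76) (XT.lf (nat_lit 76) (nat_lit 2898812459) (nat_lit 0) (nat_lit 4283913605) (nat_lit 1900) (nat_lit 21445822268) (nat_lit 485) (nat_lit 5) (nat_lit 484) (nat_lit 5) (nat_lit 509) (nat_lit 5) (nat_lit 622) (nat_lit 615) (nat_lit 323)) (XT.lf (nat_lit 0) (nat_lit 8064659529) (nat_lit 1824) (nat_lit 11209288406) (nat_lit 1900) (nat_lit 9644591165) (nat_lit 485) (nat_lit 5) (nat_lit 509) (nat_lit 5) (nat_lit 510) (nat_lit 5) (nat_lit 623) (nat_lit 615) (nat_lit 322)))) (XT.nd (nat_lit 156) (nat_lit 0) (nat_lit 76) (XT.nd (nat_lit 78) (nat_lit 0) (nat_lit 76) (XT.lf (nat_lit 76) (nat_lit 3619327178) (nat_lit 0) (nat_lit 5394647264) (nat_lit 1900) (nat_lit 20199360449) (nat_lit 486) (nat_lit 5) (nat_lit 485) (nat_lit 5) (nat_lit 510) (nat_lit 5) (nat_lit 624) (nat_lit 615) (nat_lit 321)) (XT.lf (nat_lit 0) (nat_lit 10112795738)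 (nat_lit 1824) (nat_lit 10674827438) (nat_lit 1900) (nat_lit 8723793085) (nat_lit 486) (nat_lit 5) (nat_lit 510) (nat_lit 5) (nat_lit 511) (nat_lit 5) (nat_lit 625) (nat_lit 615) (nat_lit 320))) (XT.nd (nat_lit 78) (nat_lit 0) (nat_lit 76) (XT.lf (nat_lit 76) (nat_lit 4565538400) (nat_lit 0) (nat_lit 6731376095) (nat_lit 1900) (nat_lit 18517278403) (nat_lit 487) (nat_lit 5) (nat_lit 486) (nat_lit 5) (nat_lit 511) (nat_lit 5) (nat_lit 626) (nat_lit 615) (nat_lit 319)) (XT.lf (nat_lit 0) (nat_lit 12624195124) (nat_lit 1824) (nat_lit 9917423957) (nat_lit 1900) (nat_lit 7579016457) (nat_lit 487) (nat_lit 5) (nat_lit 511) (nat_lit 5) (nat_lit 512) (nat_lit 5) (nat_lit 627) (nat_lit 615) (nat_lit 318))))) (XT.nd (nat_lit 312) (nat_lit 0) (nat_lit 152) (XT.nd (nat_lit 156) (nat_lit 0) (nat_lit 76) (XT.nd (nat_lit 78) (nat_lit 0) (nat_lit 76) (XT.lf (nat_lit 76) (nat_lit 5749905106) (nat_lit 0) (nat_lit 8308054773) (nat_lit 1900) (nat_lit 16373648442) (nat_lit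 488) (nat_lit 5) (nat_lit 487) (nat_lit 5) (nat_lit 512) (nat_lit 5) (nat_lit 628) (nat_lit 615) (nat_lit 317)) (XT.lf (nat_lit 0) (nat_lit 15625773841) (nat_lit 1824) (nat_lit 8924609138) (nat_lit 1900) (nat_lit 6196310160) (nat_lit 488) (nat_lit 5) (nat_lit 512) (nat_lit 5) (nat_lit 513) (nat_lit 5) (nat_lit 629) (nat_lit 615) (nat_lit 316))) (XT.nd (nat_lit 78) (nat_lit 0) (nat_lit 76) (XT.lf (nat_lit 76) (nat_lit 7185480462) (nat_lit 0) (nat_lit 10139236193) (nat_lit 1900) (nat_lit 13741367603) (nat_lit 489) (nat_lit 5) (nat_lit 488) (nat_lit 5) (nat_lit 513) (nat_lit 5) (nat_lit 630) (nat_lit 615) (nat_lit 315)) (XT.lf (nat_lit 0) (nat_lit 19145662428) (nat_lit 1824) (nat_lit 7683319036) (nat_lit 1900) (nat_lit 4561121310) (nat_lit 489) (nat_lit 5) (nat_lit 513) (nat_lit 5) (nat_lit 514) (nat_lit 5) (nat_lit 631) (nat_lit 615) (nat_lit 314)))) (XT.nd (nat_lit 156) (nat_lit 0) (nat_lit 76) (XT.nd (nat_lit 78) (nat_lit 0) (nat_lit 76) (XT.lf (nat_lit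 76) (nat_lit 8885935325) (nat_lit 0) (nat_lit 12240100329) (nat_lit 1900) (nat_lit 10592105890) (nat_lit 490) (nat_lit 5) (nat_lit 489) (nat_lit 5) (nat_lit 514) (nat_lit 5) (nat_lit 632) (nat_lit 615) (nat_lit 313)) (XT.lf (nat_lit 0) (nat_lit 23213259038) (nat_lit 1824) (nat_lit 6179870937) (nat_lit 1900) (nat_lit 2658266315) (nat_lit 490) (nat_lit 5) (nat_lit 514) (nat_lit 5) (nat_lit 515) (nat_lit 5) (nat_lit 633) (nat_lit 615) (nat_lit 312))) (XT.nd (nat_lit 78) (nat_lit 0) (nat_lit 76) (XT.lf (nat_lit 76) (nat_lit 10865582792) (nat_lit 0) (nat_lit 14626484141) (nat_lit 1900) (nat_lit 6896252449) (nat_lit 491) (nat_lit 5) (nat_lit 490) (nat_lit 5) (nat_lit 515) (nat_lit 5) (nat_lit 634) (nat_lit 615) (nat_lit 311)) (XT.lf (nat_lit 0) (nat_lit 27859284783) (nat_lit 1824) (nat_lit 4399938680) (nat_lit 1900) (nat_lit 471900850) (nat_lit 491) (nat_lit 5) (nat_lit 515) (nat_lit 5) (nat_lit 516) (nat_lit 5) (nat_lit 635) (nat_lit 615) (nat_lit 310)))))))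 (XT.nd (nat_lit 1170) (nat_lit 7600) (nat_lit 0) (XT.nd (nat_lit 546) (nat_lit 3648) (nat_lit 0) (XT.nd (nat_lit 234) (nat_lit 1064) (nat_lit 0) (XT.nd (nat_lit 78) (nat_lit 1824) (nat_lit 0) (XT.lf (nat_lit 76) (nat_lit 13139403794) (nat_lit 0) (nat_lit 17314912595) (nat_lit 1900) (nat_lit 2622859614) (nat_lit 492) (nat_lit 5) (nat_lit 491) (nat_lit 5) (nat_lit 516) (nat_lit 5) (nat_lit 636) (nat_lit 615) (nat_lit 309)) (XT.nd (nat_lit 78) (nat_lit 1824) (nat_lit 0) (XT.lf (nat_lit 76) (nat_lit 31087811571) (nat_lit 0) (nat_lit 2041283069) (nat_lit 1900) (nat_lit 300497217) (nat_lit 492) (nat_lit 5) (nat_lit 491) (nat_lit 5) (nat_lit 516) (nat_lit 5) (nat_lit 637) (nat_lit 615) (nat_lit 308)) (XT.lf (nat_lit 0) (nat_lit 2230769532) (nat_lit 1900) (nat_lit 18076891684) (nat_lit 1976) (nat_lit 13477334615) (nat_lit 467) (nat_lit 5) (nat_lit 492) (nat_lit 5) (nat_lit 493) (nat_lit 5) (nat_lit 638) (nat_lit 615) (nat_lit 307)))) (XT.nd (nat_lit 156) (nat_lit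 1064) (nat_lit 0) (XT.nd (nat_lit 78) (nat_lit 0) (nat_lit 76) (XT.lf (nat_lit 0) (nat_lit 4836346476) (nat_lit 1900) (nat_lit 13461265) (nat_lit 1976) (nat_lit 29297106293) (nat_lit 467) (nat_lit 5) (nat_lit 492) (nat_lit 5) (nat_lit 493) (nat_lit 5) (nat_lit 639) (nat_lit 615) (nat_lit 306)) (XT.lf (nat_lit 0) (nat_lit 7685237675) (nat_lit 1900) (nat_lit 15930828013) (nat_lit 76) (nat_lit 10896180906) (nat_lit 468) (nat_lit 5) (nat_lit 493) (nat_lit 5) (nat_lit 469) (nat_lit 5) (nat_lit 640) (nat_lit 615) (nat_lit 305))) (XT.nd (nat_lit 78) (nat_lit 0) (nat_lit 0) (XT.lf (nat_lit 0) (nat_lit 2664945363) (nat_lit 1140) (nat_lit 7974096581) (nat_lit 1216) (nat_lit 24244885201) (nat_lit 453) (nat_lit 5) (nat_lit 468) (nat_lit 5) (nat_lit 469) (nat_lit 5) (nat_lit 641) (nat_lit 615) (nat_lit 304)) (XT.lf (nat_lit 0) (nat_lit 13809797551) (nat_lit 1216) (nat_lit 13466251555) (nat_lit 76) (nat_lit 7983834738) (nat_lit 453) (nat_lit 5) (nat_lit 469) (nat_lit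 5) (nat_lit 454) (nat_lit 5) (nat_lit 642) (nat_lit 615) (nat_lit 303))))) (XT.nd (nat_lit 312) (nat_lit 1824) (nat_lit 0) (XT.nd (nat_lit 156) (nat_lit 912) (nat_lit 0) (XT.nd (nat_lit 78) (nat_lit 0) (nat_lit 0) (XT.lf (nat_lit 0) (nat_lit 5681865875) (nat_lit 912) (nat_lit 11450278839) (nat_lit 988) (nat_lit 18509451481) (nat_lit 441) (nat_lit 5) (nat_lit 453) (nat_lit 5) (nat_lit 454) (nat_lit 5) (nat_lit 643) (nat_lit 615) (nat_lit 302)) (XT.lf (nat_lit 0) (nat_lit 20640865772) (nat_lit 988) (nat_lit 10666112692) (nat_lit 76) (nat_lit 4721565829) (nat_lit 441) (nat_lit 5) (nat_lit 454) (nat_lit 5) (nat_lit 442) (nat_lit 5) (nat_lit 644) (nat_lit 615) (nat_lit 301))) (XT.nd (nat_lit 78) (nat_lit 0) (nat_lit 0) (XT.lf (nat_lit 0) (nat_lit 9054932754) (nat_lit 912) (nat_lit 15297977463) (nat_lit 988) (nat_lit 12067658200) (nat_lit 429) (nat_lit 5) (nat_lit 441) (nat_lit 5) (nat_lit 442) (nat_lit 5) (nat_lit 645) (nat_lit 615) (nat_lit 300)) (XT.lf (nat_lit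 0) (nat_lit 28216489296) (nat_lit 988) (nat_lit 7512582270) (nat_lit 76) (nat_lit 1089815622) (nat_lit 429) (nat_lit 5) (nat_lit 442) (nat_lit 5) (nat_lit 430) (nat_lit 5) (nat_lit 646) (nat_lit 615) (nat_lit 299)))) (XT.nd (nat_lit 156) (nat_lit 988) (nat_lit 0) (XT.nd (nat_lit 78) (nat_lit 0) (nat_lit 0) (XT.lf (nat_lit 0) (nat_lit 12802766411) (nat_lit 836) (nat_lit 19537586402) (nat_lit 912) (nat_lit 4881159306) (nat_lit 418) (nat_lit 5) (nat_lit 429) (nat_lit 5) (nat_lit 430) (nat_lit 5) (nat_lit 647) (nat_lit 615) (nat_lit 298)) (XT.lf (nat_lit 0) (nat_lit 33624900823) (nat_lit 836) (nat_lit 2970802935) (nat_lit 912) (nat_lit 1035505624) (nat_lit 418) (nat_lit 5) (nat_lit 429) (nat_lit 5) (nat_lit 430) (nat_lit 5) (nat_lit 648) (nat_lit 615) (nat_lit 297))) (XT.nd (nat_lit 78) (nat_lit 0) (nat_lit 0) (XT.lf (nat_lit 0) (nat_lit 3049582125) (nat_lit 988) (nat_lit 21120353427) (nat_lit 76) (nat_lit 13874782476) (nat_lit 405) (nat_lit 5) (nat_lit 418)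 (nat_lit 5) (nat_lit 406) (nat_lit 5) (nat_lit 649) (nat_lit 615) (nat_lit 296)) (XT.lf (nat_lit 0) (nat_lit 7247889624) (nat_lit 988) (nat_lit 166078044) (nat_lit 76) (nat_lit 31051484655) (nat_lit 405) (nat_lit 5) (nat_lit 418) (nat_lit 5) (nat_lit 406) (nat_lit 5) (nat_lit 650) (nat_lit 615) (nat_lit 295)))))) (XT.nd (nat_lit 624) (nat_lit 3572) (nat_lit 0) (XT.nd (nat_lit 312) (nat_lit 1596) (nat_lit 0) (XT.nd (nat_lit 156) (nat_lit 760) (nat_lit 0) (XT.nd (nat_lit 78) (nat_lit 836) (nat_lit 0) (XT.lf (nat_lit 0) (nat_lit 11732090823) (nat_lit 912) (nat_lit 17467833402) (nat_lit 76) (nat_lit 9690638564) (nat_lit 394) (nat_lit 5) (nat_lit 406) (nat_lit 5) (nat_lit 395) (nat_lit 5) (nat_lit 651) (nat_lit 615) (nat_lit 294)) (XT.lf (nat_lit 0) (nat_lit 4125047675) (nat_lit 836) (nat_lit 12256610018) (nat_lit 912) (nat_lit 22941004172) (nat_lit 383) (nat_lit 5) (nat_lit 394) (nat_lit 5) (nat_lit 395) (nat_lit 5) (nat_lit 652) (nat_lit 615) (nat_lit 293)))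 (XT.nd (nat_lit 78) (nat_lit 760) (nat_lit 0) (XT.lf (nat_lit 0) (nat_lit 21273534880) (nat_lit 912) (nat_lit 13409271222) (nat_lit 76) (nat_lit 5077610478) (nat_lit 383) (nat_lit 5) (nat_lit 395) (nat_lit 5) (nat_lit 384) (nat_lit 5) (nat_lit 653) (nat_lit 615) (nat_lit 292)) (XT.lf (nat_lit 0) (nat_lit 8848369411) (nat_lit 760) (nat_lit 17552219877) (nat_lit 836) (nat_lit 13803590340) (nat_lit 373) (nat_lit 5) (nat_lit 383) (nat_lit 5) (nat_lit 384) (nat_lit 5) (nat_lit 654) (nat_lit 615) (nat_lit 291)))) (XT.nd (nat_lit 156) (nat_lit 836) (nat_lit 0) (XT.nd (nat_lit 78) (nat_lit 760) (nat_lit 0) (XT.lf (nat_lit 0) (nat_lit 31718987401) (nat_lit 836) (nat_lit 8923535554) (nat_lit 76) (nat_lit 12518963) (nat_lit 373) (nat_lit 5) (nat_lit 384) (nat_lit 5) (nat_lit 374) (nat_lit 5) (nat_lit 655) (nat_lit 615) (nat_lit 290)) (XT.lf (nat_lit 0) (nat_lit 14023731748) (nat_lit 760) (nat_lit 23326074233) (nat_lit 836) (nat_lit 3760994455) (nat_lit 363) (nat_lit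 5) (nat_lit 373) (nat_lit 5) (nat_lit 374) (nat_lit 5) (nat_lit 656) (nat_lit 615) (nat_lit 289))) (XT.nd (nat_lit 78) (nat_lit 760) (nat_lit 0) (XT.lf (nat_lit 0) (nat_lit 1556710639) (nat_lit 836) (nat_lit 4035165191) (nat_lit 76) (nat_lit 35982420326) (nat_lit 362) (nat_lit 5) (nat_lit 373) (nat_lit 5) (nat_lit 363) (nat_lit 5) (nat_lit 657) (nat_lit 615) (nat_lit 288)) (XT.lf (nat_lit 0) (nat_lit 7139371446) (nat_lit 836) (nat_lit 22416126960) (nat_lit 76) (nat_lit 12486886985) (nat_lit 352) (nat_lit 5) (nat_lit 363) (nat_lit 5) (nat_lit 353) (nat_lit 5) (nat_lit 658) (nat_lit 615) (nat_lit 287))))) (XT.nd (nat_lit 312) (nat_lit 2128) (nat_lit 0) (XT.nd (nat_lit 156) (nat_lit 684) (nat_lit 0) (XT.nd (nat_lit 78) (nat_lit 0) (nat_lit 0) (XT.lf (nat_lit 0) (nat_lit 1274484456) (nat_lit 760) (nat_lit 11630572860) (nat_lit 836) (nat_lit 29613351688) (nat_lit 342) (nat_lit 5) (nat_lit 352) (nat_lit 5) (nat_lit 353) (nat_lit 5) (nat_lit 659) (nat_lit 615)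 (nat_lit 286)) (XT.lf (nat_lit 0) (nat_lit 18979493018) (nat_lit 836) (nat_lit 17303717215) (nat_lit 76) (nat_lit 6716874164) (nat_lit 342) (nat_lit 5) (nat_lit 353) (nat_lit 5) (nat_lit 343) (nat_lit 5) (nat_lit 660) (nat_lit 615) (nat_lit 285))) (XT.nd (nat_lit 78) (nat_lit 0) (nat_lit 0) (XT.lf (nat_lit 0) (nat_lit 7130468073) (nat_lit 684) (nat_lit 18167113060) (nat_lit 760) (nat_lit 18191368919) (nat_lit 333) (nat_lit 5) (nat_lit 342) (nat_lit 5) (nat_lit 343) (nat_lit 5) (nat_lit 661) (nat_lit 615) (nat_lit 284)) (XT.lf (nat_lit 0) (nat_lit 31859795609) (nat_lit 760) (nat_lit 11701500339) (nat_lit 76) (nat_lit 423941810) (nat_lit 333) (nat_lit 5) (nat_lit 343) (nat_lit 5) (nat_lit 334) (nat_lit 5) (nat_lit 662) (nat_lit 615) (nat_lit 283)))) (XT.nd (nat_lit 156) (nat_lit 1368) (nat_lit 0) (XT.nd (nat_lit 78) (nat_lit 76) (nat_lit 0) (XT.lf (nat_lit 0) (nat_lit 13504110933) (nat_lit 684) (nat_lit 25256012854) (nat_lit 760) (nat_lit 5727190070) (nat_lit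 324) (nat_lit 5) (nat_lit 333) (nat_lit 5) (nat_lit 334) (nat_lit 5) (nat_lit 663) (nat_lit 615) (nat_lit 282)) (XT.lf (nat_lit 0) (nat_lit 866476854) (nat_lit 760) (nat_lit 5632430574) (nat_lit 76) (nat_lit 38498861736) (nat_lit 323) (nat_lit 5) (nat_lit 333) (nat_lit 5) (nat_lit 324) (nat_lit 5) (nat_lit 664) (nat_lit 615) (nat_lit 281))) (XT.nd (nat_lit 78) (nat_lit 684) (nat_lit 0) (XT.lf (nat_lit 0) (nat_lit 7730266506) (nat_lit 760) (nat_lit 25143789560) (nat_lit 76) (nat_lit 12639321674) (nat_lit 314) (nat_lit 5) (nat_lit 324) (nat_lit 5) (nat_lit 315) (nat_lit 5) (nat_lit 665) (nat_lit 615) (nat_lit 280)) (XT.lf (nat_lit 0) (nat_lit 896624627) (nat_lit 684) (nat_lit 13920534411) (nat_lit 760) (nat_lit 31220422935) (nat_lit 305) (nat_lit 5) (nat_lit 314) (nat_lit 5) (nat_lit 315) (nat_lit 5) (nat_lit 666) (nat_lit 615) (nat_lit 279))))))))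
noncomputable def xc227 : XT := (XT.nd (nat_lit 78234) (nat_lit 0) (nat_lit 9424) (XT.nd (nat_lit 1170) (nat_lit 1064) (nat_lit 0) (XT.nd (nat_lit 546) (nat_lit 2280) (nat_lit 0) (XT.nd (nat_lit 234) (nat_lit 1900) (nat_lit 0) (XT.nd (nat_lit 78) (nat_lit 608) (nat_lit 0) (XT.lf (nat_lit 0) (nat_lit 22249704512) (nat_lit 760) (nat_lit 18807784568) (nat_lit 76) (nat_lit 5510702933) (nat_lit 305) (nat_lit 5) (nat_lit 315) (nat_lit 5) (nat_lit 306) (nat_lit 5) (nat_lit 667) (nat_lit 615) (nat_lit 278)) (XT.nd (nat_lit 78) (nat_lit 0) (nat_lit 0) (XT.lf (nat_lit 0) (nat_lit 8064343154) (nat_lit 608) (nat_lit 21910057694) (nat_lit 684) (nat_lit 17132143431) (nat_lit 297) (nat_lit 5) (nat_lit 305) (nat_lit 5) (nat_lit 306) (nat_lit 5) (nat_lit 668) (nat_lit 615) (nat_lit 277)) (XT.lf (nat_lit 0) (nat_lit 35727581501) (nat_lit 608) (nat_lit 2251183927) (nat_lit 684) (nat_lit 9674394701) (nat_lit 297) (nat_lit 5) (nat_lit 305) (nat_lit 5) (nat_lit 306) (nat_lit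 5) (nat_lit 669) (nat_lit 615) (nat_lit 276)))) (XT.nd (nat_lit 156) (nat_lit 1216) (nat_lit 0) (XT.nd (nat_lit 78) (nat_lit 76) (nat_lit 0) (XT.lf (nat_lit 0) (nat_lit 15824066584) (nat_lit 608) (nat_lit 30536449050) (nat_lit 684) (nat_lit 1845846719) (nat_lit 289) (nat_lit 5) (nat_lit 297) (nat_lit 5) (nat_lit 298) (nat_lit 5) (nat_lit 670) (nat_lit 615) (nat_lit 275)) (XT.lf (nat_lit 0) (nat_lit 6153207984) (nat_lit 684) (nat_lit 4535243025) (nat_lit 76) (nat_lit 38079491363) (nat_lit 288) (nat_lit 5) (nat_lit 297) (nat_lit 5) (nat_lit 289) (nat_lit 5) (nat_lit 671) (nat_lit 615) (nat_lit 274))) (XT.nd (nat_lit 78) (nat_lit 608) (nat_lit 0) (XT.lf (nat_lit 0) (nat_lit 14506667294) (nat_lit 684) (nat_lit 25228255930) (nat_lit 76) (nat_lit 9601203980) (nat_lit 280) (nat_lit 5) (nat_lit 289) (nat_lit 5) (nat_lit 281) (nat_lit 5) (nat_lit 672) (nat_lit 615) (nat_lit 273)) (XT.lf (nat_lit 0) (nat_lit 3443169006) (nat_lit 608) (nat_lit 19706819546) (nat_lit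 684) (nat_lit 26763231348) (nat_lit 272) (nat_lit 5) (nat_lit 280) (nat_lit 5) (nat_lit 281) (nat_lit 5) (nat_lit 673) (nat_lit 615) (nat_lit 272))))) (XT.nd (nat_lit 312) (nat_lit 1064) (nat_lit 0) (XT.nd (nat_lit 156) (nat_lit 684) (nat_lit 0) (XT.nd (nat_lit 78) (nat_lit 532) (nat_lit 0) (XT.lf (nat_lit 0) (nat_lit 32140305855) (nat_lit 684) (nat_lit 17475547662) (nat_lit 76) (nat_lit 882518362) (nat_lit 272) (nat_lit 5) (nat_lit 281) (nat_lit 5) (nat_lit 273) (nat_lit 5) (nat_lit 674) (nat_lit 615) (nat_lit 271)) (XT.lf (nat_lit 0) (nat_lit 12126128809) (nat_lit 532) (nat_lit 29392586265) (nat_lit 608) (nat_lit 9572346133) (nat_lit 265) (nat_lit 5) (nat_lit 272) (nat_lit 5) (nat_lit 273) (nat_lit 5) (nat_lit 675) (nat_lit 615) (nat_lit 270))) (XT.nd (nat_lit 78) (nat_lit 684) (nat_lit 0) (XT.lf (nat_lit 0) (nat_lit 42555488198) (nat_lit 532) (nat_lit 8645531046) (nat_lit 608) (nat_lit 492258564) (nat_lit 265) (nat_lit 5) (nat_lit 272) (nat_lit 5) (nat_lit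 273) (nat_lit 5) (nat_lit 676) (nat_lit 615) (nat_lit 269)) (XT.lf (nat_lit 0) (nat_lit 8875708467) (nat_lit 684) (nat_lit 30876350668) (nat_lit 76) (nat_lit 12549915078) (nat_lit 256) (nat_lit 5) (nat_lit 265) (nat_lit 5) (nat_lit 257) (nat_lit 5) (nat_lit 677) (nat_lit 615) (nat_lit 268)))) (XT.nd (nat_lit 156) (nat_lit 532) (nat_lit 0) (XT.nd (nat_lit 78) (nat_lit 532) (nat_lit 0) (XT.lf (nat_lit 0) (nat_lit 18542507730) (nat_lit 684) (nat_lit 259602172) (nat_lit 76) (nat_lit 34118308303) (nat_lit 256) (nat_lit 5) (nat_lit 265) (nat_lit 5) (nat_lit 257) (nat_lit 5) (nat_lit 678) (nat_lit 615) (nat_lit 267)) (XT.lf (nat_lit 0) (nat_lit 28623490038) (nat_lit 608) (nat_lit 22185362677) (nat_lit 76) (nat_lit 2737961439) (nat_lit 249) (nat_lit 5) (nat_lit 257) (nat_lit 5) (nat_lit 250) (nat_lit 5) (nat_lit 679) (nat_lit 615) (nat_lit 266))) (XT.nd (nat_lit 78) (nat_lit 0) (nat_lit 0) (XT.lf (nat_lit 0) (nat_lit 9430681594) (nat_lit 532) (nat_lit 29662014999)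 (nat_lit 608) (nat_lit 15089309357) (nat_lit 242) (nat_lit 5) (nat_lit 249) (nat_lit 5) (nat_lit 250) (nat_lit 5) (nat_lit 680) (nat_lit 615) (nat_lit 265)) (XT.lf (nat_lit 0) (nat_lit 41978566520) (nat_lit 532) (nat_lit 7940709423) (nat_lit 608) (nat_lit 4907665884) (nat_lit 242) (nat_lit 5) (nat_lit 249) (nat_lit 5) (nat_lit 250) (nat_lit 5) (nat_lit 681) (nat_lit 615) (nat_lit 264)))))) (XT.nd (nat_lit 76440) (nat_lit 0) (nat_lit 19380) (XT.nd (nat_lit 76128) (nat_lit 0) (nat_lit 19228) (XT.nd (nat_lit 156) (nat_lit 532) (nat_lit 0) (XT.nd (nat_lit 78) (nat_lit 0) (nat_lit 0) (XT.lf (nat_lit 0) (nat_lit 5627593556) (nat_lit 532) (nat_lit 35657791517) (nat_lit 76) (nat_lit 14194243621) (nat_lit 235) (nat_lit 5) (nat_lit 242) (nat_lit 5) (nat_lit 236) (nat_lit 5) (nat_lit 682) (nat_lit 615) (nat_lit 263)) (XT.lf (nat_lit 0) (nat_lit 16446415957) (nat_lit 532) (nat_lit 2910891430) (nat_lit 76) (nat_lit 36784641707) (nat_lit 235) (nat_lit 5) (nat_lit 242)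 (nat_lit 5) (nat_lit 236) (nat_lit 5) (nat_lit 683) (nat_lit 615) (nat_lit 262))) (XT.nd (nat_lit 75894) (nat_lit 0) (nat_lit 19228) (XT.lf (nat_lit 0) (nat_lit 27702219406) (nat_lit 608) (nat_lit 25939426739) (nat_lit 76) (nat_lit 3171457683) (nat_lit 228) (nat_lit 5) (nat_lit 236) (nat_lit 5) (nat_lit 229) (nat_lit 5) (nat_lit 684) (nat_lit 615) (nat_lit 261)) (XT.lf (nat_lit 0) (nat_lit 2135351174) (nat_lit 1900) (nat_lit 5740183074) (nat_lit 1900) (nat_lit 5740183074) (nat_lit 481) (nat_lit 3) (nat_lit 506) (nat_lit 3) (nat_lit 506) (nat_lit 5) (nat_lit 616) (nat_lit 616) (nat_lit 328)))) (XT.nd (nat_lit 156) (nat_lit 0) (nat_lit 76) (XT.nd (nat_lit 78) (nat_lit 0) (nat_lit 76) (XT.lf (nat_lit 76) (nat_lit 2108271645) (nat_lit 0) (nat_lit 2308057115) (nat_lit 1900) (nat_lit 23085359144) (nat_lit 482) (nat_lit 5) (nat_lit 481) (nat_lit 3) (nat_lit 506) (nat_lit 5) (nat_lit 617) (nat_lit 616) (nat_lit 327)) (XT.lf (nat_lit 0) (nat_lit 4714117299) (nat_lit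 1824) (nat_lit 11727319204) (nat_lit 1900) (nat_lit 11332924803) (nat_lit 482) (nat_lit 5) (nat_lit 506) (nat_lit 5) (nat_lit 507) (nat_lit 5) (nat_lit 618) (nat_lit 616) (nat_lit 326))) (XT.nd (nat_lit 78) (nat_lit 0) (nat_lit 76) (XT.lf (nat_lit 76) (nat_lit 2224753451) (nat_lit 0) (nat_lit 2820542757) (nat_lit 1900) (nat_lit 23006643346) (nat_lit 483) (nat_lit 5) (nat_lit 482) (nat_lit 5) (nat_lit 507) (nat_lit 5) (nat_lit 619) (nat_lit 616) (nat_lit 325)) (XT.lf (nat_lit 0) (nat_lit 5531956667) (nat_lit 1824) (nat_lit 11792356889) (nat_lit 1900) (nat_lit 11007778720) (nat_lit 483) (nat_lit 5) (nat_lit 507) (nat_lit 5) (nat_lit 508) (nat_lit 5) (nat_lit 620) (nat_lit 616) (nat_lit 324))))) (XT.nd (nat_lit 312) (nat_lit 0) (nat_lit 152) (XT.nd (nat_lit 156) (nat_lit 0) (nat_lit 76) (XT.nd (nat_lit 78) (nat_lit 0) (nat_lit 76) (XT.lf (nat_lit 76) (nat_lit 2536498629) (nat_lit 0) (nat_lit 3524792130) (nat_lit 1900) (nat_lit 22555898551) (nat_lit 484) (nat_lit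 5) (nat_lit 483) (nat_lit 5) (nat_lit 508) (nat_lit 5) (nat_lit 621) (nat_lit 616) (nat_lit 323)) (XT.lf (nat_lit 0) (nat_lit 6747204645) (nat_lit 1824) (nat_lit 11664951245) (nat_lit 1900) (nat_lit 10492912598) (nat_lit 484) (nat_lit 5) (nat_lit 508) (nat_lit 5) (nat_lit 509) (nat_lit 5) (nat_lit 622) (nat_lit 616) (nat_lit 322))) (XT.nd (nat_lit 78) (nat_lit 0) (nat_lit 76) (XT.lf (nat_lit 76) (nat_lit 3054547348) (nat_lit 0) (nat_lit 4433340935) (nat_lit 1900) (nat_lit 21709996001) (nat_lit 485) (nat_lit 5) (nat_lit 484) (nat_lit 5) (nat_lit 509) (nat_lit 5) (nat_lit 623) (nat_lit 616) (nat_lit 321)) (XT.lf (nat_lit 0) (nat_lit 8383887814) (nat_lit 1824) (nat_lit 11334055003) (nat_lit 1900) (nat_lit 9775803598) (nat_lit 485) (nat_lit 5) (nat_lit 509) (nat_lit 5) (nat_lit 510) (nat_lit 5) (nat_lit 624) (nat_lit 616) (nat_lit 320)))) (XT.nd (nat_lit 156) (nat_lit 0) (nat_lit 76) (XT.nd (nat_lit 78) (nat_lit 0) (nat_lit 76) (XT.lf (nat_lit 76) (nat_lit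 3790478819) (nat_lit 0) (nat_lit 5559254689) (nat_lit 1900) (nat_lit 20444753819) (nat_lit 486) (nat_lit 5) (nat_lit 485) (nat_lit 5) (nat_lit 510) (nat_lit 5) (nat_lit 625) (nat_lit 616) (nat_lit 319)) (XT.lf (nat_lit 0) (nat_lit 10467121602) (nat_lit 1824) (nat_lit 10788081253) (nat_lit 1900) (nat_lit 8843395752) (nat_lit 486) (nat_lit 5) (nat_lit 510) (nat_lit 5) (nat_lit 511) (nat_lit 5) (nat_lit 626) (nat_lit 616) (nat_lit 318))) (XT.nd (nat_lit 78) (nat_lit 0) (nat_lit 76) (XT.lf (nat_lit 76) (nat_lit 4756432409) (nat_lit 0) (nat_lit 6916155122) (nat_lit 1900) (nat_lit 18734890040) (nat_lit 487) (nat_lit 5) (nat_lit 486) (nat_lit 5) (nat_lit 511) (nat_lit 5) (nat_lit 627) (nat_lit 616) (nat_lit 317)) (XT.lf (nat_lit 0) (nat_lit 13023158565) (nat_lit 1824) (nat_lit 10014882198) (nat_lit 1900) (nat_lit 7682073493) (nat_lit 487) (nat_lit 5) (nat_lit 511) (nat_lit 5) (nat_lit 512) (nat_lit 5) (nat_lit 628) (nat_lit 616) (nat_lit 316))))))) (XT.nd (nat_lit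 1170) (nat_lit 7676) (nat_lit 0) (XT.nd (nat_lit 546) (nat_lit 2584) (nat_lit 0) (XT.nd (nat_lit 234) (nat_lit 0) (nat_lit 152) (XT.nd (nat_lit 78) (nat_lit 0) (nat_lit 76) (XT.lf (nat_lit 76) (nat_lit 5965129696) (nat_lit 0) (nat_lit 8518247509) (nat_lit 1900) (nat_lit 16553973805) (nat_lit 488) (nat_lit 5) (nat_lit 487) (nat_lit 5) (nat_lit 512) (nat_lit 5) (nat_lit 629) (nat_lit 616) (nat_lit 315)) (XT.nd (nat_lit 78) (nat_lit 0) (nat_lit 0) (XT.lf (nat_lit 0) (nat_lit 16079438578) (nat_lit 1824) (nat_lit 9001726960) (nat_lit 1900) (nat_lit 6277634247) (nat_lit 488) (nat_lit 5) (nat_lit 512) (nat_lit 5) (nat_lit 513) (nat_lit 5) (nat_lit 630) (nat_lit 616) (nat_lit 314)) (XT.lf (nat_lit 76) (nat_lit 7429897495) (nat_lit 0) (nat_lit 10380348981) (nat_lit 1900) (nat_lit 13874374611) (nat_lit 489) (nat_lit 5) (nat_lit 488) (nat_lit 5) (nat_lit 513) (nat_lit 5) (nat_lit 631) (nat_lit 616) (nat_lit 313)))) (XT.nd (nat_lit 156) (nat_lit 0) (nat_lit 76) (XT.nd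 (nat_lit 78) (nat_lit 0) (nat_lit 0) (XT.lf (nat_lit 0) (nat_lit 19664641006) (nat_lit 1824) (nat_lit 7735278424) (nat_lit 1900) (nat_lit 4615260027) (nat_lit 489) (nat_lit 5) (nat_lit 513) (nat_lit 5) (nat_lit 514) (nat_lit 5) (nat_lit 632) (nat_lit 616) (nat_lit 312)) (XT.lf (nat_lit 76) (nat_lit 9164691899) (nat_lit 0) (nat_lit 12517917855) (nat_lit 1900) (nat_lit 10667209567) (nat_lit 490) (nat_lit 5) (nat_lit 489) (nat_lit 5) (nat_lit 514) (nat_lit 5) (nat_lit 633) (nat_lit 616) (nat_lit 311))) (XT.nd (nat_lit 78) (nat_lit 0) (nat_lit 0) (XT.lf (nat_lit 0) (nat_lit 23808738952) (nat_lit 1824) (nat_lit 6201569061) (nat_lit 1900) (nat_lit 2679488000) (nat_lit 490) (nat_lit 5) (nat_lit 514) (nat_lit 5) (nat_lit 515) (nat_lit 5) (nat_lit 634) (nat_lit 616) (nat_lit 310)) (XT.lf (nat_lit 76) (nat_lit 11184123353) (nat_lit 0) (nat_lit 14947084059) (nat_lit 1900) (nat_lit 6902288543) (nat_lit 491) (nat_lit 5) (nat_lit 490) (nat_lit 5) (nat_lit 515) (nat_lit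 5) (nat_lit 635) (nat_lit 616) (nat_lit 309))))) (XT.nd (nat_lit 312) (nat_lit 1064) (nat_lit 0) (XT.nd (nat_lit 156) (nat_lit 1824) (nat_lit 0) (XT.nd (nat_lit 78) (nat_lit 0) (nat_lit 0) (XT.lf (nat_lit 0) (nat_lit 28543055664) (nat_lit 1824) (nat_lit 4385975718) (nat_lit 1900) (nat_lit 454179955) (nat_lit 491) (nat_lit 5) (nat_lit 515) (nat_lit 5) (nat_lit 516) (nat_lit 5) (nat_lit 636) (nat_lit 616) (nat_lit 308)) (XT.lf (nat_lit 76) (nat_lit 13503482804) (nat_lit 0) (nat_lit 17684680684) (nat_lit 1900) (nat_lit 2548057136) (nat_lit 492) (nat_lit 5) (nat_lit 491) (nat_lit 5) (nat_lit 516) (nat_lit 5) (nat_lit 637) (nat_lit 616) (nat_lit 307))) (XT.nd (nat_lit 78) (nat_lit 1824) (nat_lit 0) (XT.lf (nat_lit 76) (nat_lit 31808872640) (nat_lit 0) (nat_lit 2105118374) (nat_lit 1900) (nat_lit 181742779) (nat_lit 492) (nat_lit 5) (nat_lit 491) (nat_lit 5) (nat_lit 516) (nat_lit 5) (nat_lit 638) (nat_lit 616) (nat_lit 306)) (XT.lf (nat_lit 0) (nat_lit 2396612917)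 (nat_lit 1900) (nat_lit 18335581280) (nat_lit 1976) (nat_lit 13726073520) (nat_lit 467) (nat_lit 5) (nat_lit 492) (nat_lit 5) (nat_lit 493) (nat_lit 5) (nat_lit 639) (nat_lit 616) (nat_lit 305)))) (XT.nd (nat_lit 156) (nat_lit 1064) (nat_lit 0) (XT.nd (nat_lit 78) (nat_lit 0) (nat_lit 76) (XT.lf (nat_lit 76) (nat_lit 88258642) (nat_lit 0) (nat_lit 4964238772) (nat_lit 1976) (nat_lit 29774963019) (nat_lit 468) (nat_lit 5) (nat_lit 467) (nat_lit 5) (nat_lit 493) (nat_lit 5) (nat_lit 640) (nat_lit 616) (nat_lit 304)) (XT.lf (nat_lit 0) (nat_lit 7956002958) (nat_lit 1900) (nat_lit 16146819187) (nat_lit 76) (nat_lit 11097324835) (nat_lit 468) (nat_lit 5) (nat_lit 493) (nat_lit 5) (nat_lit 469) (nat_lit 5) (nat_lit 641) (nat_lit 616) (nat_lit 303))) (XT.nd (nat_lit 78) (nat_lit 0) (nat_lit 0) (XT.lf (nat_lit 0) (nat_lit 2820194489) (nat_lit 1140) (nat_lit 8147055446) (nat_lit 1216) (nat_lit 24612043939) (nat_lit 453) (nat_lit 5) (nat_lit 468) (nat_lit 5) (nat_lit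 469) (nat_lit 5) (nat_lit 642) (nat_lit 616) (nat_lit 302)) (XT.lf (nat_lit 0) (nat_lit 14199071593) (nat_lit 1216) (nat_lit 13633273122) (nat_lit 76) (nat_lit 8130472040) (nat_lit 453) (nat_lit 5) (nat_lit 469) (nat_lit 5) (nat_lit 454) (nat_lit 5) (nat_lit 643) (nat_lit 616) (nat_lit 301)))))) (XT.nd (nat_lit 624) (nat_lit 4028) (nat_lit 0) (XT.nd (nat_lit 312) (nat_lit 1824) (nat_lit 0) (XT.nd (nat_lit 156) (nat_lit 912) (nat_lit 0) (XT.nd (nat_lit 78) (nat_lit 0) (nat_lit 0) (XT.lf (nat_lit 0) (nat_lit 5897133608) (nat_lit 912) (nat_lit 11689174725) (nat_lit 988) (nat_lit 18765886228) (nat_lit 441) (nat_lit 5) (nat_lit 453) (nat_lit 5) (nat_lit 454) (nat_lit 5) (nat_lit 644) (nat_lit 616) (nat_lit 300)) (XT.lf (nat_lit 0) (nat_lit 21162954176) (nat_lit 988) (nat_lit 10777544565) (nat_lit 76) (nat_lit 4806427935) (nat_lit 441) (nat_lit 5) (nat_lit 454) (nat_lit 5) (nat_lit 442) (nat_lit 5) (nat_lit 645) (nat_lit 616) (nat_lit 299))) (XT.nd (nat_lit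 78) (nat_lit 0) (nat_lit 0) (XT.lf (nat_lit 0) (nat_lit 9337251458) (nat_lit 912) (nat_lit 15610502669) (nat_lit 988) (nat_lit 12199066923) (nat_lit 429) (nat_lit 5) (nat_lit 441) (nat_lit 5) (nat_lit 442) (nat_lit 5) (nat_lit 646) (nat_lit 616) (nat_lit 298)) (XT.lf (nat_lit 0) (nat_lit 28886449550) (nat_lit 988) (nat_lit 7561440373) (nat_lit 76) (nat_lit 1105259438) (nat_lit 429) (nat_lit 5) (nat_lit 442) (nat_lit 5) (nat_lit 430) (nat_lit 5) (nat_lit 647) (nat_lit 616) (nat_lit 297)))) (XT.nd (nat_lit 156) (nat_lit 988) (nat_lit 0) (XT.nd (nat_lit 78) (nat_lit 0) (nat_lit 0) (XT.lf (nat_lit 0) (nat_lit 13159548219) (nat_lit 836) (nat_lit 19931824915) (nat_lit 912) (nat_lit 4872482057) (nat_lit 418) (nat_lit 5) (nat_lit 429) (nat_lit 5) (nat_lit 430) (nat_lit 5) (nat_lit 648) (nat_lit 616) (nat_lit 296)) (XT.lf (nat_lit 0) (nat_lit 34396150290) (nat_lit 836) (nat_lit 3033637411) (nat_lit 912) (nat_lit 951999624) (nat_lit 418) (nat_lit 5) (nat_lit 429)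 (nat_lit 5) (nat_lit 430) (nat_lit 5) (nat_lit 649) (nat_lit 616) (nat_lit 295))) (XT.nd (nat_lit 78) (nat_lit 0) (nat_lit 0) (XT.lf (nat_lit 0) (nat_lit 3212039100) (nat_lit 988) (nat_lit 21441252737) (nat_lit 76) (nat_lit 14150288509) (nat_lit 405) (nat_lit 5) (nat_lit 418) (nat_lit 5) (nat_lit 406) (nat_lit 5) (nat_lit 650) (nat_lit 616) (nat_lit 294)) (XT.lf (nat_lit 0) (nat_lit 7492323233) (nat_lit 988) (nat_lit 69882195) (nat_lit 76) (nat_lit 31670563743) (nat_lit 405) (nat_lit 5) (nat_lit 418) (nat_lit 5) (nat_lit 406) (nat_lit 5) (nat_lit 651) (nat_lit 616) (nat_lit 293))))) (XT.nd (nat_lit 312) (nat_lit 1596) (nat_lit 0) (XT.nd (nat_lit 156) (nat_lit 760) (nat_lit 0) (XT.nd (nat_lit 78) (nat_lit 836) (nat_lit 0) (XT.lf (nat_lit 0) (nat_lit 12064904347) (nat_lit 912) (nat_lit 17716365921) (nat_lit 76) (nat_lit 9885137712) (nat_lit 394) (nat_lit 5) (nat_lit 406) (nat_lit 5) (nat_lit 395) (nat_lit 5) (nat_lit 652) (nat_lit 616) (nat_lit 292)) (XT.lf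 (nat_lit 0) (nat_lit 4307709461) (nat_lit 836) (nat_lit 12498478469) (nat_lit 912) (nat_lit 23300986652) (nat_lit 383) (nat_lit 5) (nat_lit 394) (nat_lit 5) (nat_lit 395) (nat_lit 5) (nat_lit 653) (nat_lit 616) (nat_lit 291))) (XT.nd (nat_lit 78) (nat_lit 760) (nat_lit 0) (XT.lf (nat_lit 0) (nat_lit 21794023492) (nat_lit 912) (nat_lit 13577378055) (nat_lit 76) (nat_lit 5182320476) (nat_lit 383) (nat_lit 5) (nat_lit 395) (nat_lit 5) (nat_lit 384) (nat_lit 5) (nat_lit 654) (nat_lit 616) (nat_lit 290)) (XT.lf (nat_lit 0) (nat_lit 9124756978) (nat_lit 760) (nat_lit 17897644416) (nat_lit 836) (nat_lit 13983983341) (nat_lit 373) (nat_lit 5) (nat_lit 383) (nat_lit 5) (nat_lit 384) (nat_lit 5) (nat_lit 655) (nat_lit 616) (nat_lit 289)))) (XT.nd (nat_lit 156) (nat_lit 836) (nat_lit 0) (XT.nd (nat_lit 78) (nat_lit 760) (nat_lit 0) (XT.lf (nat_lit 0) (nat_lit 32445364020) (nat_lit 836) (nat_lit 9002729622) (nat_lit 76) (nat_lit 18206747) (nat_lit 373) (nat_lit 5)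 (nat_lit 384) (nat_lit 5) (nat_lit 374) (nat_lit 5) (nat_lit 656) (nat_lit 616) (nat_lit 288)) (XT.lf (nat_lit 0) (nat_lit 14402829891) (nat_lit 760) (nat_lit 23784805551) (nat_lit 836) (nat_lit 3743561955) (nat_lit 363) (nat_lit 5) (nat_lit 373) (nat_lit 5) (nat_lit 374) (nat_lit 5) (nat_lit 657) (nat_lit 616) (nat_lit 287))) (XT.nd (nat_lit 78) (nat_lit 760) (nat_lit 0) (XT.lf (nat_lit 0) (nat_lit 1677489201) (nat_lit 836) (nat_lit 4017985165) (nat_lit 76) (nat_lit 36708512536) (nat_lit 362) (nat_lit 5) (nat_lit 373) (nat_lit 5) (nat_lit 363) (nat_lit 5) (nat_lit 658) (nat_lit 616) (nat_lit 286)) (XT.lf (nat_lit 0) (nat_lit 7370733459) (nat_lit 836) (nat_lit 22765494160) (nat_lit 76) (nat_lit 12745231743) (nat_lit 352) (nat_lit 5) (nat_lit 363) (nat_lit 5) (nat_lit 353) (nat_lit 5) (nat_lit 659) (nat_lit 616) (nat_lit 285))))))))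
noncomputable def xc228 : XT := (XT.nd (nat_lit 78312) (nat_lit 0) (nat_lit 12084) (XT.nd (nat_lit 1170) (nat_lit 2812) (nat_lit 0) (XT.nd (nat_lit 546) (nat_lit 3192) (nat_lit 0) (XT.nd (nat_lit 234) (nat_lit 1444) (nat_lit 0) (XT.nd (nat_lit 78) (nat_lit 684) (nat_lit 0) (XT.lf (nat_lit 0) (nat_lit 1398278462) (nat_lit 760) (nat_lit 11852356085) (nat_lit 836) (nat_lit 30116390915) (nat_lit 342) (nat_lit 5) (nat_lit 352) (nat_lit 5) (nat_lit 353) (nat_lit 5) (nat_lit 660) (nat_lit 616) (nat_lit 284)) (XT.nd (nat_lit 78) (nat_lit 684) (nat_lit 0) (XT.lf (nat_lit 0) (nat_lit 19444912672) (nat_lit 836) (nat_lit 17551766328) (nat_lit 76) (nat_lit 6861688331) (nat_lit 342) (nat_lit 5) (nat_lit 353) (nat_lit 5) (nat_lit 343) (nat_lit 5) (nat_lit 661) (nat_lit 616) (nat_lit 283)) (XT.lf (nat_lit 0) (nat_lit 7370457763) (nat_lit 684) (nat_lit 18517854106) (nat_lit 760) (nat_lit 18468719486) (nat_lit 333) (nat_lit 5) (nat_lit 342) (nat_lit 5) (nat_lit 343) (nat_lit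 5) (nat_lit 662) (nat_lit 616) (nat_lit 282)))) (XT.nd (nat_lit 156) (nat_lit 760) (nat_lit 0) (XT.nd (nat_lit 78) (nat_lit 684) (nat_lit 0) (XT.lf (nat_lit 0) (nat_lit 32580188511) (nat_lit 760) (nat_lit 11838475237) (nat_lit 76) (nat_lit 444612751) (nat_lit 333) (nat_lit 5) (nat_lit 343) (nat_lit 5) (nat_lit 334) (nat_lit 5) (nat_lit 663) (nat_lit 616) (nat_lit 281)) (XT.lf (nat_lit 0) (nat_lit 13870609739) (nat_lit 684) (nat_lit 25746908199) (nat_lit 760) (nat_lit 5757896328) (nat_lit 324) (nat_lit 5) (nat_lit 333) (nat_lit 5) (nat_lit 334) (nat_lit 5) (nat_lit 664) (nat_lit 616) (nat_lit 280))) (XT.nd (nat_lit 78) (nat_lit 684) (nat_lit 0) (XT.lf (nat_lit 0) (nat_lit 964922076) (nat_lit 760) (nat_lit 5649473180) (nat_lit 76) (nat_lit 39281705024) (nat_lit 323) (nat_lit 5) (nat_lit 333) (nat_lit 5) (nat_lit 324) (nat_lit 5) (nat_lit 665) (nat_lit 616) (nat_lit 279)) (XT.lf (nat_lit 0) (nat_lit 7965109991) (nat_lit 760) (nat_lit 25550179900) (nat_lit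 76) (nat_lit 12906748725) (nat_lit 314) (nat_lit 5) (nat_lit 324) (nat_lit 5) (nat_lit 315) (nat_lit 5) (nat_lit 666) (nat_lit 616) (nat_lit 278))))) (XT.nd (nat_lit 312) (nat_lit 1900) (nat_lit 0) (XT.nd (nat_lit 156) (nat_lit 608) (nat_lit 0) (XT.nd (nat_lit 78) (nat_lit 0) (nat_lit 0) (XT.lf (nat_lit 0) (nat_lit 1010407798) (nat_lit 684) (nat_lit 14182381604) (nat_lit 760) (nat_lit 31763956588) (nat_lit 305) (nat_lit 5) (nat_lit 314) (nat_lit 5) (nat_lit 315) (nat_lit 5) (nat_lit 667) (nat_lit 616) (nat_lit 277)) (XT.lf (nat_lit 0) (nat_lit 22772536568) (nat_lit 760) (nat_lit 19088517945) (nat_lit 76) (nat_lit 5636942739) (nat_lit 305) (nat_lit 5) (nat_lit 315) (nat_lit 5) (nat_lit 306) (nat_lit 5) (nat_lit 668) (nat_lit 616) (nat_lit 276))) (XT.nd (nat_lit 78) (nat_lit 0) (nat_lit 0) (XT.lf (nat_lit 0) (nat_lit 8320424553) (nat_lit 608) (nat_lit 22330391513) (nat_lit 684) (nat_lit 17396318750) (nat_lit 297) (nat_lit 5) (nat_lit 305) (nat_lit 5) (nat_lit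 306) (nat_lit 5) (nat_lit 669) (nat_lit 616) (nat_lit 275)) (XT.lf (nat_lit 0) (nat_lit 36535068950) (nat_lit 608) (nat_lit 2278690610) (nat_lit 684) (nat_lit 9790953625) (nat_lit 297) (nat_lit 5) (nat_lit 305) (nat_lit 5) (nat_lit 306) (nat_lit 5) (nat_lit 670) (nat_lit 616) (nat_lit 274)))) (XT.nd (nat_lit 156) (nat_lit 1216) (nat_lit 0) (XT.nd (nat_lit 78) (nat_lit 76) (nat_lit 0) (XT.lf (nat_lit 0) (nat_lit 16234259543) (nat_lit 608) (nat_lit 31128126367) (nat_lit 684) (nat_lit 1806608755) (nat_lit 289) (nat_lit 5) (nat_lit 297) (nat_lit 5) (nat_lit 298) (nat_lit 5) (nat_lit 671) (nat_lit 616) (nat_lit 273)) (XT.lf (nat_lit 0) (nat_lit 6349954607) (nat_lit 684) (nat_lit 4533092872) (nat_lit 76) (nat_lit 38858778423) (nat_lit 288) (nat_lit 5) (nat_lit 297) (nat_lit 5) (nat_lit 289) (nat_lit 5) (nat_lit 672) (nat_lit 616) (nat_lit 272))) (XT.nd (nat_lit 78) (nat_lit 608) (nat_lit 0) (XT.lf (nat_lit 0) (nat_lit 14869763266) (nat_lit 684) (nat_lit 25639244562)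 (nat_lit 76) (nat_lit 9812381032) (nat_lit 280) (nat_lit 5) (nat_lit 289) (nat_lit 5) (nat_lit 281) (nat_lit 5) (nat_lit 673) (nat_lit 616) (nat_lit 271)) (XT.lf (nat_lit 0) (nat_lit 3604993238) (nat_lit 608) (nat_lit 20080130635) (nat_lit 684) (nat_lit 27224916111) (nat_lit 272) (nat_lit 5) (nat_lit 280) (nat_lit 5) (nat_lit 281) (nat_lit 5) (nat_lit 674) (nat_lit 616) (nat_lit 270)))))) (XT.nd (nat_lit 624) (nat_lit 532) (nat_lit 0) (XT.nd (nat_lit 312) (nat_lit 1064) (nat_lit 0) (XT.nd (nat_lit 156) (nat_lit 684) (nat_lit 0) (XT.nd (nat_lit 78) (nat_lit 532) (nat_lit 0) (XT.lf (nat_lit 0) (nat_lit 32853965660) (nat_lit 684) (nat_lit 17732637091) (nat_lit 76) (nat_lit 920317920) (nat_lit 272) (nat_lit 5) (nat_lit 281) (nat_lit 5) (nat_lit 273) (nat_lit 5) (nat_lit 675) (nat_lit 616) (nat_lit 269)) (XT.lf (nat_lit 0) (nat_lit 12460464873) (nat_lit 532) (nat_lit 29958685017) (nat_lit 608) (nat_lit 9692329790) (nat_lit 265) (nat_lit 5) (nat_lit 272) (nat_lit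 5) (nat_lit 273) (nat_lit 5) (nat_lit 676) (nat_lit 616) (nat_lit 268))) (XT.nd (nat_lit 78) (nat_lit 684) (nat_lit 0) (XT.lf (nat_lit 0) (nat_lit 43496611185) (nat_lit 532) (nat_lit 8797115222) (nat_lit 608) (nat_lit 432041711) (nat_lit 265) (nat_lit 5) (nat_lit 272) (nat_lit 5) (nat_lit 273) (nat_lit 5) (nat_lit 677) (nat_lit 616) (nat_lit 267)) (XT.lf (nat_lit 0) (nat_lit 9121739142) (nat_lit 684) (nat_lit 31402316006) (nat_lit 76) (nat_lit 12822586767) (nat_lit 256) (nat_lit 5) (nat_lit 265) (nat_lit 5) (nat_lit 257) (nat_lit 5) (nat_lit 678) (nat_lit 616) (nat_lit 266)))) (XT.nd (nat_lit 156) (nat_lit 532) (nat_lit 0) (XT.nd (nat_lit 78) (nat_lit 532) (nat_lit 0) (XT.lf (nat_lit 0) (nat_lit 18980530929) (nat_lit 684) (nat_lit 175027867) (nat_lit 76) (nat_lit 34821922888) (nat_lit 256) (nat_lit 5) (nat_lit 265) (nat_lit 5) (nat_lit 257) (nat_lit 5) (nat_lit 679) (nat_lit 616) (nat_lit 265)) (XT.lf (nat_lit 0) (nat_lit 29262542402) (nat_lit 608) (nat_lit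 22538711705) (nat_lit 76) (nat_lit 2815163284) (nat_lit 249) (nat_lit 5) (nat_lit 257) (nat_lit 5) (nat_lit 250) (nat_lit 5) (nat_lit 680) (nat_lit 616) (nat_lit 264))) (XT.nd (nat_lit 78) (nat_lit 0) (nat_lit 0) (XT.lf (nat_lit 0) (nat_lit 9709058989) (nat_lit 532) (nat_lit 30231351364) (nat_lit 608) (nat_lit 15323917151) (nat_lit 242) (nat_lit 5) (nat_lit 249) (nat_lit 5) (nat_lit 250) (nat_lit 5) (nat_lit 681) (nat_lit 616) (nat_lit 263)) (XT.lf (nat_lit 0) (nat_lit 42906141540) (nat_lit 532) (nat_lit 8076088381) (nat_lit 608) (nat_lit 4939958031) (nat_lit 242) (nat_lit 5) (nat_lit 249) (nat_lit 5) (nat_lit 250) (nat_lit 5) (nat_lit 682) (nat_lit 616) (nat_lit 262))))) (XT.nd (nat_lit 76206) (nat_lit 0) (nat_lit 18772) (XT.nd (nat_lit 76050) (nat_lit 0) (nat_lit 18696) (XT.nd (nat_lit 78) (nat_lit 0) (nat_lit 0) (XT.lf (nat_lit 0) (nat_lit 5804597302) (nat_lit 532) (nat_lit 36281531758) (nat_lit 76) (nat_lit 14501801880) (nat_lit 235) (nat_lit 5) (nat_lit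 242) (nat_lit 5) (nat_lit 236) (nat_lit 5) (nat_lit 683) (nat_lit 616) (nat_lit 261)) (XT.lf (nat_lit 0) (nat_lit 16838532390) (nat_lit 532) (nat_lit 2881446916) (nat_lit 76) (nat_lit 37543543744) (nat_lit 235) (nat_lit 5) (nat_lit 242) (nat_lit 5) (nat_lit 236) (nat_lit 5) (nat_lit 684) (nat_lit 616) (nat_lit 260))) (XT.nd (nat_lit 78) (nat_lit 0) (nat_lit 0) (XT.lf (nat_lit 0) (nat_lit 2266709941) (nat_lit 1900) (nat_lit 5809773005) (nat_lit 1900) (nat_lit 5809773005) (nat_lit 481) (nat_lit 3) (nat_lit 506) (nat_lit 3) (nat_lit 506) (nat_lit 5) (nat_lit 617) (nat_lit 617) (nat_lit 326)) (XT.lf (nat_lit 76) (nat_lit 2240269621) (nat_lit 0) (nat_lit 2438795914) (nat_lit 1900) (nat_lit 23369162662) (nat_lit 482) (nat_lit 5) (nat_lit 481) (nat_lit 3) (nat_lit 506) (nat_lit 5) (nat_lit 618) (nat_lit 617) (nat_lit 325)))) (XT.nd (nat_lit 156) (nat_lit 0) (nat_lit 76) (XT.nd (nat_lit 78) (nat_lit 0) (nat_lit 0) (XT.lf (nat_lit 0) (nat_lit 4978851670) (nat_lit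 1824) (nat_lit 11869831135) (nat_lit 1900) (nat_lit 11477751529) (nat_lit 482) (nat_lit 5) (nat_lit 506) (nat_lit 5) (nat_lit 507) (nat_lit 5) (nat_lit 619) (nat_lit 617) (nat_lit 324)) (XT.lf (nat_lit 76) (nat_lit 2360677483) (nat_lit 0) (nat_lit 2953228096) (nat_lit 1900) (nat_lit 23295713642) (nat_lit 483) (nat_lit 5) (nat_lit 482) (nat_lit 5) (nat_lit 507) (nat_lit 5) (nat_lit 620) (nat_lit 617) (nat_lit 323))) (XT.nd (nat_lit 78) (nat_lit 0) (nat_lit 0) (XT.lf (nat_lit 0) (nat_lit 5806525429) (nat_lit 1824) (nat_lit 11934789014) (nat_lit 1900) (nat_lit 11154136128) (nat_lit 483) (nat_lit 5) (nat_lit 507) (nat_lit 5) (nat_lit 508) (nat_lit 5) (nat_lit 621) (nat_lit 617) (nat_lit 322)) (XT.lf (nat_lit 76) (nat_lit 2680029042) (nat_lit 0) (nat_lit 3663805377) (nat_lit 1900) (nat_lit 22842467461) (nat_lit 484) (nat_lit 5) (nat_lit 483) (nat_lit 5) (nat_lit 508) (nat_lit 5) (nat_lit 622) (nat_lit 617) (nat_lit 321))))))) (XT.nd (nat_lit 1170) (nat_lit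 6840) (nat_lit 0) (XT.nd (nat_lit 546) (nat_lit 0) (nat_lit 228) (XT.nd (nat_lit 234) (nat_lit 0) (nat_lit 76) (XT.nd (nat_lit 78) (nat_lit 0) (nat_lit 0) (XT.lf (nat_lit 0) (nat_lit 7039867350) (nat_lit 1824) (nat_lit 11803665449) (nat_lit 1900) (nat_lit 10636477923) (nat_lit 484) (nat_lit 5) (nat_lit 508) (nat_lit 5) (nat_lit 509) (nat_lit 5) (nat_lit 623) (nat_lit 617) (nat_lit 320)) (XT.nd (nat_lit 78) (nat_lit 0) (nat_lit 76) (XT.lf (nat_lit 76) (nat_lit 3209600847) (nat_lit 0) (nat_lit 4583281359) (nat_lit 1900) (nat_lit 21985850370) (nat_lit 485) (nat_lit 5) (nat_lit 484) (nat_lit 5) (nat_lit 509) (nat_lit 5) (nat_lit 624) (nat_lit 617) (nat_lit 319)) (XT.lf (nat_lit 0) (nat_lit 8703367853) (nat_lit 1824) (nat_lit 11465177499) (nat_lit 1900) (nat_lit 9912035365) (nat_lit 485) (nat_lit 5) (nat_lit 509) (nat_lit 5) (nat_lit 510) (nat_lit 5) (nat_lit 625) (nat_lit 617) (nat_lit 318)))) (XT.nd (nat_lit 156) (nat_lit 0) (nat_lit 76) (XT.nd (nat_lit 78)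 (nat_lit 0) (nat_lit 76) (XT.lf (nat_lit 76) (nat_lit 3961218324) (nat_lit 0) (nat_lit 5724951970) (nat_lit 1900) (nat_lit 20701213447) (nat_lit 486) (nat_lit 5) (nat_lit 485) (nat_lit 5) (nat_lit 510) (nat_lit 5) (nat_lit 626) (nat_lit 617) (nat_lit 317)) (XT.lf (nat_lit 0) (nat_lit 10822628923) (nat_lit 1824) (nat_lit 10907492692) (nat_lit 1900) (nat_lit 8967521265) (nat_lit 486) (nat_lit 5) (nat_lit 510) (nat_lit 5) (nat_lit 511) (nat_lit 5) (nat_lit 627) (nat_lit 617) (nat_lit 316))) (XT.nd (nat_lit 78) (nat_lit 0) (nat_lit 76) (XT.lf (nat_lit 76) (nat_lit 4947277361) (nat_lit 0) (nat_lit 7102682285) (nat_lit 1900) (nat_lit 18962784754) (nat_lit 487) (nat_lit 5) (nat_lit 486) (nat_lit 5) (nat_lit 511) (nat_lit 5) (nat_lit 628) (nat_lit 617) (nat_lit 315)) (XT.lf (nat_lit 0) (nat_lit 13424413297) (nat_lit 1824) (nat_lit 10118207294) (nat_lit 1900) (nat_lit 7789075889) (nat_lit 487) (nat_lit 5) (nat_lit 511) (nat_lit 5) (nat_lit 512) (nat_lit 5) (nat_lit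 629) (nat_lit 617) (nat_lit 314))))) (XT.nd (nat_lit 312) (nat_lit 0) (nat_lit 152) (XT.nd (nat_lit 156) (nat_lit 0) (nat_lit 76) (XT.nd (nat_lit 78) (nat_lit 0) (nat_lit 76) (XT.lf (nat_lit 76) (nat_lit 6180766860) (nat_lit 0) (nat_lit 8730934298) (nat_lit 1900) (nat_lit 16743619596) (nat_lit 488) (nat_lit 5) (nat_lit 487) (nat_lit 5) (nat_lit 512) (nat_lit 5) (nat_lit 630) (nat_lit 617) (nat_lit 313)) (XT.lf (nat_lit 0) (nat_lit 16536695612) (nat_lit 1824) (nat_lit 9084323629) (nat_lit 1900) (nat_lit 6362239108) (nat_lit 488) (nat_lit 5) (nat_lit 512) (nat_lit 5) (nat_lit 513) (nat_lit 5) (nat_lit 631) (nat_lit 617) (nat_lit 312))) (XT.nd (nat_lit 78) (nat_lit 0) (nat_lit 76) (XT.lf (nat_lit 76) (nat_lit 7675292276) (nat_lit 0) (nat_lit 10624795698) (nat_lit 1900) (nat_lit 14015548815) (nat_lit 489) (nat_lit 5) (nat_lit 488) (nat_lit 5) (nat_lit 513) (nat_lit 5) (nat_lit 632) (nat_lit 617) (nat_lit 311)) (XT.lf (nat_lit 0) (nat_lit 20188715573) (nat_lit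 1824) (nat_lit 7792226406) (nat_lit 1900) (nat_lit 4671921523) (nat_lit 489) (nat_lit 5) (nat_lit 513) (nat_lit 5) (nat_lit 514) (nat_lit 5) (nat_lit 633) (nat_lit 617) (nat_lit 310)))) (XT.nd (nat_lit 156) (nat_lit 0) (nat_lit 76) (XT.nd (nat_lit 78) (nat_lit 0) (nat_lit 76) (XT.lf (nat_lit 76) (nat_lit 9445100181) (nat_lit 0) (nat_lit 12800009698) (nat_lit 1900) (nat_lit 10749125038) (nat_lit 490) (nat_lit 5) (nat_lit 489) (nat_lit 5) (nat_lit 514) (nat_lit 5) (nat_lit 634) (nat_lit 617) (nat_lit 309)) (XT.lf (nat_lit 0) (nat_lit 24411033236) (nat_lit 1824) (nat_lit 6227658021) (nat_lit 1900) (nat_lit 2702374529) (nat_lit 490) (nat_lit 5) (nat_lit 514) (nat_lit 5) (nat_lit 515) (nat_lit 5) (nat_lit 635) (nat_lit 617) (nat_lit 308))) (XT.nd (nat_lit 78) (nat_lit 0) (nat_lit 76) (XT.lf (nat_lit 76) (nat_lit 11505103883) (nat_lit 0) (nat_lit 15273005974) (nat_lit 1900) (nat_lit 6913566768) (nat_lit 491) (nat_lit 5) (nat_lit 490) (nat_lit 5) (nat_lit 515)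 (nat_lit 5) (nat_lit 636) (nat_lit 617) (nat_lit 307)) (XT.lf (nat_lit 0) (nat_lit 29235586507) (nat_lit 1824) (nat_lit 4375692795) (nat_lit 1900) (nat_lit 437159257) (nat_lit 491) (nat_lit 5) (nat_lit 515) (nat_lit 5) (nat_lit 516) (nat_lit 5) (nat_lit 637) (nat_lit 617) (nat_lit 306)))))) (XT.nd (nat_lit 624) (nat_lit 3572) (nat_lit 0) (XT.nd (nat_lit 312) (nat_lit 1976) (nat_lit 0) (XT.nd (nat_lit 156) (nat_lit 1824) (nat_lit 0) (XT.nd (nat_lit 78) (nat_lit 0) (nat_lit 0) (XT.lf (nat_lit 76) (nat_lit 13870910144) (nat_lit 0) (nat_lit 18060932772) (nat_lit 1900) (nat_lit 2476700257) (nat_lit 492) (nat_lit 5) (nat_lit 491) (nat_lit 5) (nat_lit 516) (nat_lit 5) (nat_lit 638) (nat_lit 617) (nat_lit 305)) (XT.lf (nat_lit 76) (nat_lit 32540498803) (nat_lit 0) (nat_lit 2169336893) (nat_lit 1900) (nat_lit 65458005) (nat_lit 492) (nat_lit 5) (nat_lit 491) (nat_lit 5) (nat_lit 516) (nat_lit 5) (nat_lit 639) (nat_lit 617) (nat_lit 304))) (XT.nd (nat_lit 78) (nat_lit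 0) (nat_lit 0) (XT.lf (nat_lit 0) (nat_lit 2561065738) (nat_lit 1900) (nat_lit 18603438391) (nat_lit 1976) (nat_lit 13980595195) (nat_lit 467) (nat_lit 5) (nat_lit 492) (nat_lit 5) (nat_lit 493) (nat_lit 5) (nat_lit 640) (nat_lit 617) (nat_lit 303)) (XT.lf (nat_lit 76) (nat_lit 188227971) (nat_lit 0) (nat_lit 5080192844) (nat_lit 1976) (nat_lit 30253288087) (nat_lit 468) (nat_lit 5) (nat_lit 467) (nat_lit 5) (nat_lit 493) (nat_lit 5) (nat_lit 641) (nat_lit 617) (nat_lit 302)))) (XT.nd (nat_lit 156) (nat_lit 912) (nat_lit 0) (XT.nd (nat_lit 78) (nat_lit 1140) (nat_lit 0) (XT.lf (nat_lit 0) (nat_lit 8227637943) (nat_lit 1900) (nat_lit 16371115253) (nat_lit 76) (nat_lit 11303143218) (nat_lit 468) (nat_lit 5) (nat_lit 493) (nat_lit 5) (nat_lit 469) (nat_lit 5) (nat_lit 642) (nat_lit 617) (nat_lit 301)) (XT.lf (nat_lit 0) (nat_lit 2974589747) (nat_lit 1140) (nat_lit 8322950163) (nat_lit 1216) (nat_lit 24991117798) (nat_lit 453) (nat_lit 5) (nat_lit 468) (nat_lit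 5) (nat_lit 469) (nat_lit 5) (nat_lit 643) (nat_lit 617) (nat_lit 300))) (XT.nd (nat_lit 78) (nat_lit 912) (nat_lit 0) (XT.lf (nat_lit 0) (nat_lit 14591740154) (nat_lit 1216) (nat_lit 13807607687) (nat_lit 76) (nat_lit 8280548423) (nat_lit 453) (nat_lit 5) (nat_lit 469) (nat_lit 5) (nat_lit 454) (nat_lit 5) (nat_lit 644) (nat_lit 617) (nat_lit 299)) (XT.lf (nat_lit 0) (nat_lit 6112760263) (nat_lit 912) (nat_lit 11932464475) (nat_lit 988) (nat_lit 19031866887) (nat_lit 441) (nat_lit 5) (nat_lit 453) (nat_lit 5) (nat_lit 454) (nat_lit 5) (nat_lit 645) (nat_lit 617) (nat_lit 298))))) (XT.nd (nat_lit 312) (nat_lit 1824) (nat_lit 0) (XT.nd (nat_lit 156) (nat_lit 836) (nat_lit 0) (XT.nd (nat_lit 78) (nat_lit 912) (nat_lit 0) (XT.lf (nat_lit 0) (nat_lit 21691241218) (nat_lit 988) (nat_lit 10895161603) (nat_lit 76) (nat_lit 4893358866) (nat_lit 441) (nat_lit 5) (nat_lit 454) (nat_lit 5) (nat_lit 442) (nat_lit 5) (nat_lit 646) (nat_lit 617) (nat_lit 297)) (XT.lf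 (nat_lit 0) (nat_lit 9621286038) (nat_lit 912) (nat_lit 15929023426) (nat_lit 988) (nat_lit 12337373097) (nat_lit 429) (nat_lit 5) (nat_lit 441) (nat_lit 5) (nat_lit 442) (nat_lit 5) (nat_lit 647) (nat_lit 617) (nat_lit 296))) (XT.nd (nat_lit 78) (nat_lit 836) (nat_lit 0) (XT.lf (nat_lit 0) (nat_lit 29565707249) (nat_lit 988) (nat_lit 7615212873) (nat_lit 76) (nat_lit 1121258805) (nat_lit 429) (nat_lit 5) (nat_lit 442) (nat_lit 5) (nat_lit 430) (nat_lit 5) (nat_lit 648) (nat_lit 617) (nat_lit 295)) (XT.lf (nat_lit 0) (nat_lit 13519554331) (nat_lit 836) (nat_lit 20333812803) (nat_lit 912) (nat_lit 4867759039) (nat_lit 418) (nat_lit 5) (nat_lit 429) (nat_lit 5) (nat_lit 430) (nat_lit 5) (nat_lit 649) (nat_lit 617) (nat_lit 294)))) (XT.nd (nat_lit 156) (nat_lit 836) (nat_lit 0) (XT.nd (nat_lit 78) (nat_lit 988) (nat_lit 0) (XT.lf (nat_lit 0) (nat_lit 35178990108) (nat_lit 836) (nat_lit 3097595835) (nat_lit 912) (nat_lit 870870343) (nat_lit 418) (nat_lit 5)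 (nat_lit 429) (nat_lit 5) (nat_lit 430) (nat_lit 5) (nat_lit 650) (nat_lit 617) (nat_lit 293)) (XT.lf (nat_lit 0) (nat_lit 3373805193) (nat_lit 988) (nat_lit 21772511703) (nat_lit 76) (nat_lit 14431381921) (nat_lit 405) (nat_lit 5) (nat_lit 418) (nat_lit 5) (nat_lit 406) (nat_lit 5) (nat_lit 651) (nat_lit 617) (nat_lit 292))) (XT.nd (nat_lit 78) (nat_lit 0) (nat_lit 0) (XT.lf (nat_lit 0) (nat_lit 24697095) (nat_lit 836) (nat_lit 7713246000) (nat_lit 912) (nat_lit 32277563411) (nat_lit 394) (nat_lit 5) (nat_lit 405) (nat_lit 5) (nat_lit 406) (nat_lit 5) (nat_lit 652) (nat_lit 617) (nat_lit 291)) (XT.lf (nat_lit 0) (nat_lit 12400562015) (nat_lit 912) (nat_lit 17973784215) (nat_lit 76) (nat_lit 10083500190) (nat_lit 394) (nat_lit 5) (nat_lit 406) (nat_lit 5) (nat_lit 395) (nat_lit 5) (nat_lit 653) (nat_lit 617) (nat_lit 290))))))))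
noncomputable def xc229 : XT := (XT.nd (nat_lit 78390) (nat_lit 0) (nat_lit 14744) (XT.nd (nat_lit 1170) (nat_lit 5320) (nat_lit 0) (XT.nd (nat_lit 546) (nat_lit 3572) (nat_lit 0) (XT.nd (nat_lit 234) (nat_lit 1596) (nat_lit 0) (XT.nd (nat_lit 78) (nat_lit 760) (nat_lit 0) (XT.lf (nat_lit 0) (nat_lit 4490135115) (nat_lit 836) (nat_lit 12745311024) (nat_lit 912) (nat_lit 23672006767) (nat_lit 383) (nat_lit 5) (nat_lit 394) (nat_lit 5) (nat_lit 395) (nat_lit 5) (nat_lit 654) (nat_lit 617) (nat_lit 289)) (XT.nd (nat_lit 78) (nat_lit 760) (nat_lit 0) (XT.lf (nat_lit 0) (nat_lit 22321232216) (nat_lit 912) (nat_lit 13752733200) (nat_lit 76) (nat_lit 5289002054) (nat_lit 383) (nat_lit 5) (nat_lit 395) (nat_lit 5) (nat_lit 384) (nat_lit 5) (nat_lit 655) (nat_lit 617) (nat_lit 288)) (XT.lf (nat_lit 0) (nat_lit 9402811689) (nat_lit 760) (nat_lit 18250195672) (nat_lit 836) (nat_lit 14171699527) (nat_lit 373) (nat_lit 5) (nat_lit 383) (nat_lit 5) (nat_lit 384) (nat_lit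 5) (nat_lit 656) (nat_lit 617) (nat_lit 287)))) (XT.nd (nat_lit 156) (nat_lit 836) (nat_lit 0) (XT.nd (nat_lit 78) (nat_lit 760) (nat_lit 0) (XT.lf (nat_lit 0) (nat_lit 33182695821) (nat_lit 836) (nat_lit 9087362604) (nat_lit 76) (nat_lit 23797146) (nat_lit 373) (nat_lit 5) (nat_lit 384) (nat_lit 5) (nat_lit 374) (nat_lit 5) (nat_lit 657) (nat_lit 617) (nat_lit 286)) (XT.lf (nat_lit 0) (nat_lit 14785680325) (nat_lit 760) (nat_lit 24253013996) (nat_lit 836) (nat_lit 3729378610) (nat_lit 363) (nat_lit 5) (nat_lit 373) (nat_lit 5) (nat_lit 374) (nat_lit 5) (nat_lit 658) (nat_lit 617) (nat_lit 285))) (XT.nd (nat_lit 78) (nat_lit 760) (nat_lit 0) (XT.lf (nat_lit 0) (nat_lit 1797202335) (nat_lit 836) (nat_lit 4004262468) (nat_lit 76) (nat_lit 37448876369) (nat_lit 362) (nat_lit 5) (nat_lit 373) (nat_lit 5) (nat_lit 363) (nat_lit 5) (nat_lit 659) (nat_lit 617) (nat_lit 284)) (XT.lf (nat_lit 0) (nat_lit 7603283254) (nat_lit 836) (nat_lit 23125691261) (nat_lit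 76) (nat_lit 13008409175) (nat_lit 352) (nat_lit 5) (nat_lit 363) (nat_lit 5) (nat_lit 353) (nat_lit 5) (nat_lit 660) (nat_lit 617) (nat_lit 283))))) (XT.nd (nat_lit 312) (nat_lit 2128) (nat_lit 0) (XT.nd (nat_lit 156) (nat_lit 684) (nat_lit 0) (XT.nd (nat_lit 78) (nat_lit 0) (nat_lit 0) (XT.lf (nat_lit 0) (nat_lit 1520731072) (nat_lit 760) (nat_lit 12078995448) (nat_lit 836) (nat_lit 30632955750) (nat_lit 342) (nat_lit 5) (nat_lit 352) (nat_lit 5) (nat_lit 353) (nat_lit 5) (nat_lit 661) (nat_lit 617) (nat_lit 282)) (XT.lf (nat_lit 0) (nat_lit 19916307843) (nat_lit 836) (nat_lit 17808582863) (nat_lit 76) (nat_lit 7008991960) (nat_lit 342) (nat_lit 5) (nat_lit 353) (nat_lit 5) (nat_lit 343) (nat_lit 5) (nat_lit 662) (nat_lit 617) (nat_lit 281))) (XT.nd (nat_lit 78) (nat_lit 0) (nat_lit 0) (XT.lf (nat_lit 0) (nat_lit 7611465850) (nat_lit 684) (nat_lit 18876099294) (nat_lit 760) (nat_lit 18754975065) (nat_lit 333) (nat_lit 5) (nat_lit 342) (nat_lit 5) (nat_lit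 343) (nat_lit 5) (nat_lit 663) (nat_lit 617) (nat_lit 280)) (XT.lf (nat_lit 0) (nat_lit 33311758630) (nat_lit 760) (nat_lit 11981958402) (nat_lit 76) (nat_lit 465223677) (nat_lit 333) (nat_lit 5) (nat_lit 343) (nat_lit 5) (nat_lit 334) (nat_lit 5) (nat_lit 664) (nat_lit 617) (nat_lit 279)))) (XT.nd (nat_lit 156) (nat_lit 1368) (nat_lit 0) (XT.nd (nat_lit 78) (nat_lit 76) (nat_lit 0) (XT.lf (nat_lit 0) (nat_lit 14240694548) (nat_lit 684) (nat_lit 26248173822) (nat_lit 760) (nat_lit 5792472226) (nat_lit 324) (nat_lit 5) (nat_lit 333) (nat_lit 5) (nat_lit 334) (nat_lit 5) (nat_lit 665) (nat_lit 617) (nat_lit 278)) (XT.lf (nat_lit 0) (nat_lit 1062186381) (nat_lit 760) (nat_lit 5670569135) (nat_lit 76) (nat_lit 40079705573) (nat_lit 323) (nat_lit 5) (nat_lit 333) (nat_lit 5) (nat_lit 324) (nat_lit 5) (nat_lit 666) (nat_lit 617) (nat_lit 277))) (XT.nd (nat_lit 78) (nat_lit 684) (nat_lit 0) (XT.lf (nat_lit 0) (nat_lit 8201534600) (nat_lit 760) (nat_lit 25968444694)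 (nat_lit 76) (nat_lit 13178955805) (nat_lit 314) (nat_lit 5) (nat_lit 324) (nat_lit 5) (nat_lit 315) (nat_lit 5) (nat_lit 667) (nat_lit 617) (nat_lit 276)) (XT.lf (nat_lit 0) (nat_lit 1122744635) (nat_lit 684) (nat_lit 14450108921) (nat_lit 760) (nat_lit 32321501381) (nat_lit 305) (nat_lit 5) (nat_lit 314) (nat_lit 5) (nat_lit 315) (nat_lit 5) (nat_lit 668) (nat_lit 617) (nat_lit 275)))))) (XT.nd (nat_lit 624) (nat_lit 2812) (nat_lit 0) (XT.nd (nat_lit 312) (nat_lit 1292) (nat_lit 0) (XT.nd (nat_lit 156) (nat_lit 608) (nat_lit 0) (XT.nd (nat_lit 78) (nat_lit 608) (nat_lit 0) (XT.lf (nat_lit 0) (nat_lit 23302802722) (nat_lit 760) (nat_lit 19378571355) (nat_lit 76) (nat_lit 5765085041) (nat_lit 305) (nat_lit 5) (nat_lit 315) (nat_lit 5) (nat_lit 306) (nat_lit 5) (nat_lit 669) (nat_lit 617) (nat_lit 274)) (XT.lf (nat_lit 0) (nat_lit 8577946592) (nat_lit 608) (nat_lit 22759825819) (nat_lit 684) (nat_lit 17668824565) (nat_lit 297) (nat_lit 5) (nat_lit 305)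 (nat_lit 5) (nat_lit 306) (nat_lit 5) (nat_lit 670) (nat_lit 617) (nat_lit 273))) (XT.nd (nat_lit 78) (nat_lit 608) (nat_lit 0) (XT.lf (nat_lit 0) (nat_lit 37355097337) (nat_lit 608) (nat_lit 2307427633) (nat_lit 684) (nat_lit 9912830973) (nat_lit 297) (nat_lit 5) (nat_lit 305) (nat_lit 5) (nat_lit 306) (nat_lit 5) (nat_lit 671) (nat_lit 617) (nat_lit 272)) (XT.lf (nat_lit 0) (nat_lit 16649017424) (nat_lit 608) (nat_lit 31732377030) (nat_lit 684) (nat_lit 1769543220) (nat_lit 289) (nat_lit 5) (nat_lit 297) (nat_lit 5) (nat_lit 298) (nat_lit 5) (nat_lit 672) (nat_lit 617) (nat_lit 271)))) (XT.nd (nat_lit 156) (nat_lit 608) (nat_lit 0) (XT.nd (nat_lit 78) (nat_lit 608) (nat_lit 0) (XT.lf (nat_lit 0) (nat_lit 6547774983) (nat_lit 684) (nat_lit 4534505389) (nat_lit 76) (nat_lit 39652964018) (nat_lit 288) (nat_lit 5) (nat_lit 297) (nat_lit 5) (nat_lit 289) (nat_lit 5) (nat_lit 673) (nat_lit 617) (nat_lit 270)) (XT.lf (nat_lit 0) (nat_lit 15237287929) (nat_lit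 684) (nat_lit 26062086656) (nat_lit 76) (nat_lit 10027037892) (nat_lit 280) (nat_lit 5) (nat_lit 289) (nat_lit 5) (nat_lit 281) (nat_lit 5) (nat_lit 674) (nat_lit 617) (nat_lit 269))) (XT.nd (nat_lit 78) (nat_lit 0) (nat_lit 0) (XT.lf (nat_lit 0) (nat_lit 3766444171) (nat_lit 608) (nat_lit 20461716618) (nat_lit 684) (nat_lit 27698691765) (nat_lit 272) (nat_lit 5) (nat_lit 280) (nat_lit 5) (nat_lit 281) (nat_lit 5) (nat_lit 675) (nat_lit 617) (nat_lit 268)) (XT.lf (nat_lit 0) (nat_lit 33579147325) (nat_lit 684) (nat_lit 17998457150) (nat_lit 76) (nat_lit 958091052) (nat_lit 272) (nat_lit 5) (nat_lit 281) (nat_lit 5) (nat_lit 273) (nat_lit 5) (nat_lit 676) (nat_lit 617) (nat_lit 267))))) (XT.nd (nat_lit 312) (nat_lit 1596) (nat_lit 0) (XT.nd (nat_lit 156) (nat_lit 684) (nat_lit 0) (XT.nd (nat_lit 78) (nat_lit 0) (nat_lit 0) (XT.lf (nat_lit 0) (nat_lit 12797922428) (nat_lit 532) (nat_lit 30536950438) (nat_lit 608) (nat_lit 9817488127) (nat_lit 265) (nat_lit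 5) (nat_lit 272) (nat_lit 5) (nat_lit 273) (nat_lit 5) (nat_lit 677) (nat_lit 617) (nat_lit 266)) (XT.lf (nat_lit 0) (nat_lit 44453061308) (nat_lit 532) (nat_lit 8952559213) (nat_lit 608) (nat_lit 373341115) (nat_lit 265) (nat_lit 5) (nat_lit 272) (nat_lit 5) (nat_lit 273) (nat_lit 5) (nat_lit 678) (nat_lit 617) (nat_lit 265))) (XT.nd (nat_lit 78) (nat_lit 0) (nat_lit 0) (XT.lf (nat_lit 0) (nat_lit 9370029851) (nat_lit 684) (nat_lit 31942356102) (nat_lit 76) (nat_lit 13099870286) (nat_lit 256) (nat_lit 5) (nat_lit 265) (nat_lit 5) (nat_lit 257) (nat_lit 5) (nat_lit 679) (nat_lit 617) (nat_lit 264)) (XT.lf (nat_lit 0) (nat_lit 19424706180) (nat_lit 684) (nat_lit 92247813) (nat_lit 76) (nat_lit 35538784664) (nat_lit 256) (nat_lit 5) (nat_lit 265) (nat_lit 5) (nat_lit 257) (nat_lit 5) (nat_lit 680) (nat_lit 617) (nat_lit 263)))) (XT.nd (nat_lit 156) (nat_lit 532) (nat_lit 0) (XT.nd (nat_lit 78) (nat_lit 532) (nat_lit 0) (XT.lf (nat_lit 0) (nat_lit 29911790331)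 (nat_lit 608) (nat_lit 22902636434) (nat_lit 76) (nat_lit 2893037691) (nat_lit 249) (nat_lit 5) (nat_lit 257) (nat_lit 5) (nat_lit 250) (nat_lit 5) (nat_lit 681) (nat_lit 617) (nat_lit 262)) (XT.lf (nat_lit 0) (nat_lit 9989518296) (nat_lit 532) (nat_lit 30813002675) (nat_lit 608) (nat_lit 15565825719) (nat_lit 242) (nat_lit 5) (nat_lit 249) (nat_lit 5) (nat_lit 250) (nat_lit 5) (nat_lit 682) (nat_lit 617) (nat_lit 261))) (XT.nd (nat_lit 78) (nat_lit 532) (nat_lit 0) (XT.lf (nat_lit 0) (nat_lit 43848850770) (nat_lit 532) (nat_lit 8215084937) (nat_lit 608) (nat_lit 4975453492) (nat_lit 242) (nat_lit 5) (nat_lit 249) (nat_lit 5) (nat_lit 250) (nat_lit 5) (nat_lit 683) (nat_lit 617) (nat_lit 260)) (XT.lf (nat_lit 0) (nat_lit 5982638379) (nat_lit 532) (nat_lit 36921218921) (nat_lit 76) (nat_lit 14814592038) (nat_lit 235) (nat_lit 5) (nat_lit 242) (nat_lit 5) (nat_lit 236) (nat_lit 5) (nat_lit 684) (nat_lit 617) (nat_lit 259))))))) (XT.nd (nat_lit 1170) (nat_lit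 3952) (nat_lit 0) (XT.nd (nat_lit 546) (nat_lit 0) (nat_lit 228) (XT.nd (nat_lit 234) (nat_lit 0) (nat_lit 76) (XT.nd (nat_lit 78) (nat_lit 0) (nat_lit 0) (XT.lf (nat_lit 0) (nat_lit 2397253428) (nat_lit 1900) (nat_lit 5882510439) (nat_lit 1900) (nat_lit 5882510439) (nat_lit 481) (nat_lit 3) (nat_lit 506) (nat_lit 3) (nat_lit 506) (nat_lit 5) (nat_lit 618) (nat_lit 618) (nat_lit 324)) (XT.nd (nat_lit 78) (nat_lit 0) (nat_lit 76) (XT.lf (nat_lit 76) (nat_lit 2371419250) (nat_lit 0) (nat_lit 2568865236) (nat_lit 1900) (nat_lit 23665550467) (nat_lit 482) (nat_lit 5) (nat_lit 481) (nat_lit 3) (nat_lit 506) (nat_lit 5) (nat_lit 619) (nat_lit 618) (nat_lit 323)) (XT.lf (nat_lit 0) (nat_lit 5242261869) (nat_lit 1824) (nat_lit 12018767115) (nat_lit 1900) (nat_lit 11628652417) (nat_lit 482) (nat_lit 5) (nat_lit 506) (nat_lit 5) (nat_lit 507) (nat_lit 5) (nat_lit 620) (nat_lit 618) (nat_lit 322)))) (XT.nd (nat_lit 156) (nat_lit 0) (nat_lit 76) (XT.nd (nat_lit 78)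 (nat_lit 0) (nat_lit 76) (XT.lf (nat_lit 76) (nat_lit 2495769698) (nat_lit 0) (nat_lit 3085605309) (nat_lit 1900) (nat_lit 23597207912) (nat_lit 483) (nat_lit 5) (nat_lit 482) (nat_lit 5) (nat_lit 507) (nat_lit 5) (nat_lit 621) (nat_lit 618) (nat_lit 321)) (XT.lf (nat_lit 0) (nat_lit 6080219979) (nat_lit 1824) (nat_lit 12083697201) (nat_lit 1900) (nat_lit 11306286358) (nat_lit 483) (nat_lit 5) (nat_lit 507) (nat_lit 5) (nat_lit 508) (nat_lit 5) (nat_lit 622) (nat_lit 618) (nat_lit 320))) (XT.nd (nat_lit 78) (nat_lit 0) (nat_lit 76) (XT.lf (nat_lit 76) (nat_lit 2822826508) (nat_lit 0) (nat_lit 3802938275) (nat_lit 1900) (nat_lit 23141157390) (nat_lit 484) (nat_lit 5) (nat_lit 483) (nat_lit 5) (nat_lit 508) (nat_lit 5) (nat_lit 623) (nat_lit 618) (nat_lit 319)) (XT.lf (nat_lit 0) (nat_lit 7332258903) (nat_lit 1824) (nat_lit 11948826781) (nat_lit 1900) (nat_lit 10785488789) (nat_lit 484) (nat_lit 5) (nat_lit 508) (nat_lit 5) (nat_lit 509) (nat_lit 5) (nat_lit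 624) (nat_lit 618) (nat_lit 318))))) (XT.nd (nat_lit 312) (nat_lit 0) (nat_lit 152) (XT.nd (nat_lit 156) (nat_lit 0) (nat_lit 76) (XT.nd (nat_lit 78) (nat_lit 0) (nat_lit 76) (XT.lf (nat_lit 76) (nat_lit 3364106736) (nat_lit 0) (nat_lit 4733841262) (nat_lit 1900) (nat_lit 22273370576) (nat_lit 485) (nat_lit 5) (nat_lit 484) (nat_lit 5) (nat_lit 509) (nat_lit 5) (nat_lit 625) (nat_lit 618) (nat_lit 317)) (XT.lf (nat_lit 0) (nat_lit 9023342825) (nat_lit 1824) (nat_lit 11602633103) (nat_lit 1900) (nat_lit 10053293850) (nat_lit 485) (nat_lit 5) (nat_lit 509) (nat_lit 5) (nat_lit 510) (nat_lit 5) (nat_lit 626) (nat_lit 618) (nat_lit 316))) (XT.nd (nat_lit 78) (nat_lit 0) (nat_lit 76) (XT.lf (nat_lit 76) (nat_lit 4131686374) (nat_lit 0) (nat_lit 5891846422) (nat_lit 1900) (nat_lit 20968721523) (nat_lit 486) (nat_lit 5) (nat_lit 485) (nat_lit 5) (nat_lit 510) (nat_lit 5) (nat_lit 627) (nat_lit 618) (nat_lit 315)) (XT.lf (nat_lit 0) (nat_lit 11179570629) (nat_lit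 1824) (nat_lit 11033033756) (nat_lit 1900) (nat_lit 9096177340) (nat_lit 486) (nat_lit 5) (nat_lit 510) (nat_lit 5) (nat_lit 511) (nat_lit 5) (nat_lit 628) (nat_lit 618) (nat_lit 314)))) (XT.nd (nat_lit 156) (nat_lit 0) (nat_lit 76) (XT.nd (nat_lit 78) (nat_lit 0) (nat_lit 76) (XT.lf (nat_lit 76) (nat_lit 5138222430) (nat_lit 0) (nat_lit 7291068169) (nat_lit 1900) (nat_lit 19200937906) (nat_lit 487) (nat_lit 5) (nat_lit 486) (nat_lit 5) (nat_lit 511) (nat_lit 5) (nat_lit 629) (nat_lit 618) (nat_lit 313)) (XT.lf (nat_lit 0) (nat_lit 13828226015) (nat_lit 1824) (nat_lit 10227364455) (nat_lit 1900) (nat_lit 7900029385) (nat_lit 487) (nat_lit 5) (nat_lit 511) (nat_lit 5) (nat_lit 512) (nat_lit 5) (nat_lit 630) (nat_lit 618) (nat_lit 312))) (XT.nd (nat_lit 78) (nat_lit 0) (nat_lit 76) (XT.lf (nat_lit 76) (nat_lit 6396975978) (nat_lit 0) (nat_lit 8946231414) (nat_lit 1900) (nat_lit 16942550345) (nat_lit 488) (nat_lit 5) (nat_lit 487) (nat_lit 5) (nat_lit 512)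 (nat_lit 5) (nat_lit 631) (nat_lit 618) (nat_lit 311)) (XT.lf (nat_lit 0) (nat_lit 16997829622) (nat_lit 1824) (nat_lit 9172355863) (nat_lit 1900) (nat_lit 6450126121) (nat_lit 488) (nat_lit 5) (nat_lit 512) (nat_lit 5) (nat_lit 513) (nat_lit 5) (nat_lit 632) (nat_lit 618) (nat_lit 310)))))) (XT.nd (nat_lit 624) (nat_lit 2812) (nat_lit 0) (XT.nd (nat_lit 312) (nat_lit 1672) (nat_lit 0) (XT.nd (nat_lit 156) (nat_lit 0) (nat_lit 76) (XT.nd (nat_lit 78) (nat_lit 0) (nat_lit 76) (XT.lf (nat_lit 76) (nat_lit 7921836214) (nat_lit 0) (nat_lit 10872700818) (nat_lit 1900) (nat_lit 14164839715) (nat_lit 489) (nat_lit 5) (nat_lit 488) (nat_lit 5) (nat_lit 513) (nat_lit 5) (nat_lit 633) (nat_lit 618) (nat_lit 309)) (XT.lf (nat_lit 0) (nat_lit 20718193216) (nat_lit 1824) (nat_lit 7854109395) (nat_lit 1900) (nat_lit 4731100338) (nat_lit 489) (nat_lit 5) (nat_lit 513) (nat_lit 5) (nat_lit 514) (nat_lit 5) (nat_lit 634) (nat_lit 618) (nat_lit 308))) (XT.nd (nat_lit 78)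 (nat_lit 0) (nat_lit 76) (XT.lf (nat_lit 76) (nat_lit 9727345557) (nat_lit 0) (nat_lit 13086511128) (nat_lit 1900) (nat_lit 10837782356) (nat_lit 490) (nat_lit 5) (nat_lit 489) (nat_lit 5) (nat_lit 514) (nat_lit 5) (nat_lit 635) (nat_lit 618) (nat_lit 307)) (XT.lf (nat_lit 0) (nat_lit 25020476032) (nat_lit 1824) (nat_lit 6258071984) (nat_lit 1900) (nat_lit 2726911032) (nat_lit 490) (nat_lit 5) (nat_lit 514) (nat_lit 5) (nat_lit 515) (nat_lit 5) (nat_lit 636) (nat_lit 618) (nat_lit 306)))) (XT.nd (nat_lit 156) (nat_lit 1824) (nat_lit 0) (XT.nd (nat_lit 78) (nat_lit 0) (nat_lit 76) (XT.lf (nat_lit 76) (nat_lit 11828725821) (nat_lit 0) (nat_lit 15604398653) (nat_lit 1900) (nat_lit 6929993095) (nat_lit 491) (nat_lit 5) (nat_lit 490) (nat_lit 5) (nat_lit 515) (nat_lit 5) (nat_lit 637) (nat_lit 618) (nat_lit 305)) (XT.lf (nat_lit 0) (nat_lit 29937243382) (nat_lit 1824) (nat_lit 4369009768) (nat_lit 1900) (nat_lit 420811806) (nat_lit 491) (nat_lit 5) (nat_lit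 515) (nat_lit 5) (nat_lit 516) (nat_lit 5) (nat_lit 638) (nat_lit 618) (nat_lit 304))) (XT.nd (nat_lit 78) (nat_lit 1900) (nat_lit 0) (XT.lf (nat_lit 76) (nat_lit 14241905514) (nat_lit 0) (nat_lit 18443833929) (nat_lit 1900) (nat_lit 2408665998) (nat_lit 492) (nat_lit 5) (nat_lit 491) (nat_lit 5) (nat_lit 516) (nat_lit 5) (nat_lit 639) (nat_lit 618) (nat_lit 303)) (XT.lf (nat_lit 0) (nat_lit 47859806) (nat_lit 1900) (nat_lit 2185800014) (nat_lit 1976) (nat_lit 33234870128) (nat_lit 466) (nat_lit 5) (nat_lit 491) (nat_lit 5) (nat_lit 492) (nat_lit 5) (nat_lit 640) (nat_lit 618) (nat_lit 302))))) (XT.nd (nat_lit 312) (nat_lit 1824) (nat_lit 0) (XT.nd (nat_lit 156) (nat_lit 1064) (nat_lit 0) (XT.nd (nat_lit 78) (nat_lit 0) (nat_lit 0) (XT.lf (nat_lit 0) (nat_lit 2724282980) (nat_lit 1900) (nat_lit 18880491285) (nat_lit 1976) (nat_lit 14240983920) (nat_lit 467) (nat_lit 5) (nat_lit 492) (nat_lit 5) (nat_lit 493) (nat_lit 5) (nat_lit 641) (nat_lit 618) (nat_lit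 301)) (XT.lf (nat_lit 76) (nat_lit 286383299) (nat_lit 0) (nat_lit 5197818708) (nat_lit 1976) (nat_lit 30745729673) (nat_lit 468) (nat_lit 5) (nat_lit 467) (nat_lit 5) (nat_lit 493) (nat_lit 5) (nat_lit 642) (nat_lit 618) (nat_lit 300))) (XT.nd (nat_lit 78) (nat_lit 1140) (nat_lit 0) (XT.lf (nat_lit 0) (nat_lit 8500336536) (nat_lit 1900) (nat_lit 16603727565) (nat_lit 76) (nat_lit 11513704243) (nat_lit 468) (nat_lit 5) (nat_lit 493) (nat_lit 5) (nat_lit 469) (nat_lit 5) (nat_lit 643) (nat_lit 618) (nat_lit 299)) (XT.lf (nat_lit 0) (nat_lit 3128267786) (nat_lit 1140) (nat_lit 8501859769) (nat_lit 1216) (nat_lit 25382167549) (nat_lit 453) (nat_lit 5) (nat_lit 468) (nat_lit 5) (nat_lit 469) (nat_lit 5) (nat_lit 644) (nat_lit 618) (nat_lit 298)))) (XT.nd (nat_lit 156) (nat_lit 912) (nat_lit 0) (XT.nd (nat_lit 78) (nat_lit 912) (nat_lit 0) (XT.lf (nat_lit 0) (nat_lit 14988041634) (nat_lit 1216) (nat_lit 13989247253) (nat_lit 76) (nat_lit 8434113007) (nat_lit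 453) (nat_lit 5) (nat_lit 469) (nat_lit 5) (nat_lit 454) (nat_lit 5) (nat_lit 645) (nat_lit 618) (nat_lit 297)) (XT.lf (nat_lit 0) (nat_lit 6328906263) (nat_lit 912) (nat_lit 12180250881) (nat_lit 988) (nat_lit 19307412851) (nat_lit 441) (nat_lit 5) (nat_lit 453) (nat_lit 5) (nat_lit 454) (nat_lit 5) (nat_lit 646) (nat_lit 618) (nat_lit 296))) (XT.nd (nat_lit 78) (nat_lit 912) (nat_lit 0) (XT.lf (nat_lit 0) (nat_lit 22226015638) (nat_lit 988) (nat_lit 11018933874) (nat_lit 76) (nat_lit 4982385571) (nat_lit 441) (nat_lit 5) (nat_lit 454) (nat_lit 5) (nat_lit 442) (nat_lit 5) (nat_lit 647) (nat_lit 618) (nat_lit 295)) (XT.lf (nat_lit 0) (nat_lit 9907223439) (nat_lit 912) (nat_lit 16253669547) (nat_lit 988) (nat_lit 12482548889) (nat_lit 429) (nat_lit 5) (nat_lit 441) (nat_lit 5) (nat_lit 442) (nat_lit 5) (nat_lit 648) (nat_lit 618) (nat_lit 294))))))))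
noncomputable def xc230 : XT := (XT.nd (nat_lit 2418) (nat_lit 1748) (nat_lit 0) (XT.nd (nat_lit 1170) (nat_lit 5852) (nat_lit 0) (XT.nd (nat_lit 546) (nat_lit 3116) (nat_lit 0) (XT.nd (nat_lit 234) (nat_lit 2660) (nat_lit 0) (XT.nd (nat_lit 78) (nat_lit 836) (nat_lit 0) (XT.lf (nat_lit 0) (nat_lit 30254607618) (nat_lit 988) (nat_lit 7673845170) (nat_lit 76) (nat_lit 1137815256) (nat_lit 429) (nat_lit 5) (nat_lit 442) (nat_lit 5) (nat_lit 430) (nat_lit 5) (nat_lit 649) (nat_lit 618) (nat_lit 293)) (XT.nd (nat_lit 78) (nat_lit 0) (nat_lit 0) (XT.lf (nat_lit 0) (nat_lit 13883001115) (nat_lit 836) (nat_lit 20743710310) (nat_lit 912) (nat_lit 4866909050) (nat_lit 418) (nat_lit 5) (nat_lit 429) (nat_lit 5) (nat_lit 430) (nat_lit 5) (nat_lit 650) (nat_lit 618) (nat_lit 292)) (XT.lf (nat_lit 0) (nat_lit 35973800986) (nat_lit 836) (nat_lit 3162705841) (nat_lit 912) (nat_lit 792008171) (nat_lit 418) (nat_lit 5) (nat_lit 429) (nat_lit 5) (nat_lit 430) (nat_lit 5)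 (nat_lit 651) (nat_lit 618) (nat_lit 291)))) (XT.nd (nat_lit 156) (nat_lit 836) (nat_lit 0) (XT.nd (nat_lit 78) (nat_lit 836) (nat_lit 0) (XT.lf (nat_lit 0) (nat_lit 3535019580) (nat_lit 988) (nat_lit 22114184459) (nat_lit 76) (nat_lit 14718171461) (nat_lit 405) (nat_lit 5) (nat_lit 418) (nat_lit 5) (nat_lit 406) (nat_lit 5) (nat_lit 652) (nat_lit 618) (nat_lit 290)) (XT.lf (nat_lit 0) (nat_lit 118351559) (nat_lit 836) (nat_lit 7866855537) (nat_lit 912) (nat_lit 32828756961) (nat_lit 394) (nat_lit 5) (nat_lit 405) (nat_lit 5) (nat_lit 406) (nat_lit 5) (nat_lit 653) (nat_lit 618) (nat_lit 289))) (XT.nd (nat_lit 78) (nat_lit 836) (nat_lit 0) (XT.lf (nat_lit 0) (nat_lit 12739268738) (nat_lit 912) (nat_lit 18240113970) (nat_lit 76) (nat_lit 10285804300) (nat_lit 394) (nat_lit 5) (nat_lit 406) (nat_lit 5) (nat_lit 395) (nat_lit 5) (nat_lit 654) (nat_lit 618) (nat_lit 288)) (XT.lf (nat_lit 0) (nat_lit 4672470944) (nat_lit 836) (nat_lit 12997202045) (nat_lit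 912) (nat_lit 24054136234) (nat_lit 383) (nat_lit 5) (nat_lit 394) (nat_lit 5) (nat_lit 395) (nat_lit 5) (nat_lit 655) (nat_lit 618) (nat_lit 287))))) (XT.nd (nat_lit 312) (nat_lit 1596) (nat_lit 0) (XT.nd (nat_lit 156) (nat_lit 760) (nat_lit 0) (XT.nd (nat_lit 78) (nat_lit 760) (nat_lit 0) (XT.lf (nat_lit 0) (nat_lit 22855438726) (nat_lit 912) (nat_lit 13935330715) (nat_lit 76) (nat_lit 5397699404) (nat_lit 383) (nat_lit 5) (nat_lit 395) (nat_lit 5) (nat_lit 384) (nat_lit 5) (nat_lit 656) (nat_lit 618) (nat_lit 286)) (XT.lf (nat_lit 0) (nat_lit 9682716801) (nat_lit 760) (nat_lit 18610007705) (nat_lit 836) (nat_lit 14366741091) (nat_lit 373) (nat_lit 5) (nat_lit 383) (nat_lit 5) (nat_lit 384) (nat_lit 5) (nat_lit 657) (nat_lit 618) (nat_lit 285))) (XT.nd (nat_lit 78) (nat_lit 760) (nat_lit 0) (XT.lf (nat_lit 0) (nat_lit 33931340625) (nat_lit 836) (nat_lit 9177393584) (nat_lit 76) (nat_lit 29296410) (nat_lit 373) (nat_lit 5) (nat_lit 384) (nat_lit 5) (nat_lit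 374) (nat_lit 5) (nat_lit 658) (nat_lit 618) (nat_lit 284)) (XT.lf (nat_lit 0) (nat_lit 15172506807) (nat_lit 760) (nat_lit 24730877365) (nat_lit 836) (nat_lit 3718369697) (nat_lit 363) (nat_lit 5) (nat_lit 373) (nat_lit 5) (nat_lit 374) (nat_lit 5) (nat_lit 659) (nat_lit 618) (nat_lit 283)))) (XT.nd (nat_lit 156) (nat_lit 760) (nat_lit 0) (XT.nd (nat_lit 78) (nat_lit 760) (nat_lit 0) (XT.lf (nat_lit 0) (nat_lit 1915963904) (nat_lit 836) (nat_lit 3993918652) (nat_lit 76) (nat_lit 38203806974) (nat_lit 362) (nat_lit 5) (nat_lit 373) (nat_lit 5) (nat_lit 363) (nat_lit 5) (nat_lit 660) (nat_lit 618) (nat_lit 282)) (XT.lf (nat_lit 0) (nat_lit 7837178144) (nat_lit 836) (nat_lit 23496785649) (nat_lit 76) (nat_lit 13276528912) (nat_lit 352) (nat_lit 5) (nat_lit 363) (nat_lit 5) (nat_lit 353) (nat_lit 5) (nat_lit 661) (nat_lit 618) (nat_lit 281))) (XT.nd (nat_lit 78) (nat_lit 0) (nat_lit 0) (XT.lf (nat_lit 0) (nat_lit 1641963687) (nat_lit 760) (nat_lit 12310571744)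 (nat_lit 836) (nat_lit 31163182163) (nat_lit 342) (nat_lit 5) (nat_lit 352) (nat_lit 5) (nat_lit 353) (nat_lit 5) (nat_lit 662) (nat_lit 618) (nat_lit 280)) (XT.lf (nat_lit 0) (nat_lit 20393927461) (nat_lit 836) (nat_lit 18074194359) (nat_lit 76) (nat_lit 7158850636) (nat_lit 342) (nat_lit 5) (nat_lit 353) (nat_lit 5) (nat_lit 343) (nat_lit 5) (nat_lit 663) (nat_lit 618) (nat_lit 279)))))) (XT.nd (nat_lit 624) (nat_lit 2432) (nat_lit 0) (XT.nd (nat_lit 312) (nat_lit 1976) (nat_lit 0) (XT.nd (nat_lit 156) (nat_lit 760) (nat_lit 0) (XT.nd (nat_lit 78) (nat_lit 0) (nat_lit 0) (XT.lf (nat_lit 0) (nat_lit 7853659537) (nat_lit 684) (nat_lit 19241979706) (nat_lit 760) (nat_lit 19050183359) (nat_lit 333) (nat_lit 5) (nat_lit 342) (nat_lit 5) (nat_lit 343) (nat_lit 5) (nat_lit 664) (nat_lit 618) (nat_lit 278)) (XT.lf (nat_lit 0) (nat_lit 34054854960) (nat_lit 760) (nat_lit 12131933652) (nat_lit 76) (nat_lit 485791771) (nat_lit 333) (nat_lit 5) (nat_lit 343) (nat_lit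 5) (nat_lit 334) (nat_lit 5) (nat_lit 665) (nat_lit 618) (nat_lit 277))) (XT.nd (nat_lit 78) (nat_lit 76) (nat_lit 0) (XT.lf (nat_lit 0) (nat_lit 14614582463) (nat_lit 684) (nat_lit 26759995679) (nat_lit 760) (nat_lit 5830868740) (nat_lit 324) (nat_lit 5) (nat_lit 333) (nat_lit 5) (nat_lit 334) (nat_lit 5) (nat_lit 666) (nat_lit 618) (nat_lit 276)) (XT.lf (nat_lit 0) (nat_lit 1158368463) (nat_lit 760) (nat_lit 5695655347) (nat_lit 76) (nat_lit 40893185928) (nat_lit 323) (nat_lit 5) (nat_lit 333) (nat_lit 5) (nat_lit 324) (nat_lit 5) (nat_lit 667) (nat_lit 618) (nat_lit 275)))) (XT.nd (nat_lit 156) (nat_lit 608) (nat_lit 0) (XT.nd (nat_lit 78) (nat_lit 684) (nat_lit 0) (XT.lf (nat_lit 0) (nat_lit 8439692945) (nat_lit 760) (nat_lit 26398675944) (nat_lit 76) (nat_lit 13456060588) (nat_lit 314) (nat_lit 5) (nat_lit 324) (nat_lit 5) (nat_lit 315) (nat_lit 5) (nat_lit 668) (nat_lit 618) (nat_lit 274)) (XT.lf (nat_lit 0) (nat_lit 1233750739) (nat_lit 684) (nat_lit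 14723808991) (nat_lit 760) (nat_lit 32893215589) (nat_lit 305) (nat_lit 5) (nat_lit 314) (nat_lit 5) (nat_lit 315) (nat_lit 5) (nat_lit 669) (nat_lit 618) (nat_lit 273))) (XT.nd (nat_lit 78) (nat_lit 608) (nat_lit 0) (XT.lf (nat_lit 0) (nat_lit 23840769025) (nat_lit 760) (nat_lit 19677987314) (nat_lit 76) (nat_lit 5895192055) (nat_lit 305) (nat_lit 5) (nat_lit 315) (nat_lit 5) (nat_lit 306) (nat_lit 5) (nat_lit 670) (nat_lit 618) (nat_lit 272)) (XT.lf (nat_lit 0) (nat_lit 8837081022) (nat_lit 608) (nat_lit 23198515679) (nat_lit 684) (nat_lit 17949709170) (nat_lit 297) (nat_lit 5) (nat_lit 305) (nat_lit 5) (nat_lit 306) (nat_lit 5) (nat_lit 671) (nat_lit 618) (nat_lit 271))))) (XT.nd (nat_lit 312) (nat_lit 1140) (nat_lit 0) (XT.nd (nat_lit 156) (nat_lit 684) (nat_lit 0) (XT.nd (nat_lit 78) (nat_lit 608) (nat_lit 0) (XT.lf (nat_lit 0) (nat_lit 38188057615) (nat_lit 608) (nat_lit 2337393190) (nat_lit 684) (nat_lit 10040017115) (nat_lit 297) (nat_lit 5) (nat_lit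 305) (nat_lit 5) (nat_lit 306) (nat_lit 5) (nat_lit 672) (nat_lit 618) (nat_lit 270)) (XT.lf (nat_lit 0) (nat_lit 17068572830) (nat_lit 608) (nat_lit 32349423779) (nat_lit 684) (nat_lit 1734578730) (nat_lit 289) (nat_lit 5) (nat_lit 297) (nat_lit 5) (nat_lit 298) (nat_lit 5) (nat_lit 673) (nat_lit 618) (nat_lit 269))) (XT.nd (nat_lit 78) (nat_lit 608) (nat_lit 0) (XT.lf (nat_lit 0) (nat_lit 6746801690) (nat_lit 684) (nat_lit 4539411818) (nat_lit 76) (nat_lit 40462372806) (nat_lit 288) (nat_lit 5) (nat_lit 297) (nat_lit 5) (nat_lit 289) (nat_lit 5) (nat_lit 674) (nat_lit 618) (nat_lit 268)) (XT.lf (nat_lit 0) (nat_lit 15609439876) (nat_lit 684) (nat_lit 26496878180) (nat_lit 76) (nat_lit 10245273037) (nat_lit 280) (nat_lit 5) (nat_lit 289) (nat_lit 5) (nat_lit 281) (nat_lit 5) (nat_lit 675) (nat_lit 618) (nat_lit 267)))) (XT.nd (nat_lit 156) (nat_lit 532) (nat_lit 0) (XT.nd (nat_lit 78) (nat_lit 0) (nat_lit 0) (XT.lf (nat_lit 0) (nat_lit 3927654512) (nat_lit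 608) (nat_lit 20851711590) (nat_lit 684) (nat_lit 28184689180) (nat_lit 272) (nat_lit 5) (nat_lit 280) (nat_lit 5) (nat_lit 281) (nat_lit 5) (nat_lit 676) (nat_lit 618) (nat_lit 266)) (XT.lf (nat_lit 0) (nat_lit 34316188127) (nat_lit 684) (nat_lit 18273043091) (nat_lit 76) (nat_lit 995867610) (nat_lit 272) (nat_lit 5) (nat_lit 281) (nat_lit 5) (nat_lit 273) (nat_lit 5) (nat_lit 677) (nat_lit 618) (nat_lit 265))) (XT.nd (nat_lit 78) (nat_lit 0) (nat_lit 0) (XT.lf (nat_lit 0) (nat_lit 13138702347) (nat_lit 532) (nat_lit 31127593061) (nat_lit 608) (nat_lit 9947816879) (nat_lit 265) (nat_lit 5) (nat_lit 272) (nat_lit 5) (nat_lit 273) (nat_lit 5) (nat_lit 678) (nat_lit 618) (nat_lit 264)) (XT.lf (nat_lit 0) (nat_lit 45425280839) (nat_lit 532) (nat_lit 9111908059) (nat_lit 608) (nat_lit 316081456) (nat_lit 265) (nat_lit 5) (nat_lit 272) (nat_lit 5) (nat_lit 273) (nat_lit 5) (nat_lit 679) (nat_lit 618) (nat_lit 263))))))) (XT.nd (nat_lit 77220) (nat_lit 0) (nat_lit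 17024) (XT.nd (nat_lit 76596) (nat_lit 0) (nat_lit 18240) (XT.nd (nat_lit 234) (nat_lit 532) (nat_lit 0) (XT.nd (nat_lit 78) (nat_lit 532) (nat_lit 0) (XT.lf (nat_lit 0) (nat_lit 9620729108) (nat_lit 684) (nat_lit 32496614389) (nat_lit 76) (nat_lit 13381890552) (nat_lit 256) (nat_lit 5) (nat_lit 265) (nat_lit 5) (nat_lit 257) (nat_lit 5) (nat_lit 680) (nat_lit 618) (nat_lit 262)) (XT.nd (nat_lit 78) (nat_lit 532) (nat_lit 0) (XT.lf (nat_lit 0) (nat_lit 19875257814) (nat_lit 684) (nat_lit 11162539) (nat_lit 76) (nat_lit 36269190612) (nat_lit 256) (nat_lit 5) (nat_lit 265) (nat_lit 5) (nat_lit 257) (nat_lit 5) (nat_lit 681) (nat_lit 618) (nat_lit 261)) (XT.lf (nat_lit 0) (nat_lit 30571538134) (nat_lit 608) (nat_lit 23277212129) (nat_lit 76) (nat_lit 2971631952) (nat_lit 249) (nat_lit 5) (nat_lit 257) (nat_lit 5) (nat_lit 250) (nat_lit 5) (nat_lit 682) (nat_lit 618) (nat_lit 260)))) (XT.nd (nat_lit 76206) (nat_lit 0) (nat_lit 18164) (XT.nd (nat_lit 78) (nat_lit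 0) (nat_lit 0) (XT.lf (nat_lit 0) (nat_lit 10272236504) (nat_lit 532) (nat_lit 31407179188) (nat_lit 608) (nat_lit 15815079782) (nat_lit 242) (nat_lit 5) (nat_lit 249) (nat_lit 5) (nat_lit 250) (nat_lit 5) (nat_lit 683) (nat_lit 618) (nat_lit 259)) (XT.lf (nat_lit 0) (nat_lit 44807129592) (nat_lit 532) (nat_lit 8357736105) (nat_lit 608) (nat_lit 5014117021) (nat_lit 242) (nat_lit 5) (nat_lit 249) (nat_lit 5) (nat_lit 250) (nat_lit 5) (nat_lit 684) (nat_lit 618) (nat_lit 258))) (XT.nd (nat_lit 78) (nat_lit 0) (nat_lit 0) (XT.lf (nat_lit 0) (nat_lit 2527099004) (nat_lit 1900) (nat_lit 5958390150) (nat_lit 1900) (nat_lit 5958390150) (nat_lit 481) (nat_lit 3) (nat_lit 506) (nat_lit 3) (nat_lit 506) (nat_lit 5) (nat_lit 619) (nat_lit 619) (nat_lit 322)) (XT.lf (nat_lit 76) (nat_lit 2501839019) (nat_lit 0) (nat_lit 2698379221) (nat_lit 1900) (nat_lit 23974505990) (nat_lit 482) (nat_lit 5) (nat_lit 481) (nat_lit 3) (nat_lit 506) (nat_lit 5) (nat_lit 620) (nat_lit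 619) (nat_lit 321))))) (XT.nd (nat_lit 312) (nat_lit 0) (nat_lit 152) (XT.nd (nat_lit 156) (nat_lit 0) (nat_lit 76) (XT.nd (nat_lit 78) (nat_lit 0) (nat_lit 0) (XT.lf (nat_lit 0) (nat_lit 5504578430) (nat_lit 1824) (nat_lit 12174116849) (nat_lit 1900) (nat_lit 11785625559) (nat_lit 482) (nat_lit 5) (nat_lit 506) (nat_lit 5) (nat_lit 507) (nat_lit 5) (nat_lit 621) (nat_lit 619) (nat_lit 320)) (XT.lf (nat_lit 76) (nat_lit 2630151321) (nat_lit 0) (nat_lit 3217783247) (nat_lit 1900) (nat_lit 23911116696) (nat_lit 483) (nat_lit 5) (nat_lit 482) (nat_lit 5) (nat_lit 507) (nat_lit 5) (nat_lit 622) (nat_lit 619) (nat_lit 319))) (XT.nd (nat_lit 78) (nat_lit 0) (nat_lit 0) (XT.lf (nat_lit 0) (nat_lit 6353270017) (nat_lit 1824) (nat_lit 12239070113) (nat_lit 1900) (nat_lit 11464233987) (nat_lit 483) (nat_lit 5) (nat_lit 507) (nat_lit 5) (nat_lit 508) (nat_lit 5) (nat_lit 623) (nat_lit 619) (nat_lit 318)) (XT.lf (nat_lit 76) (nat_lit 2965016301) (nat_lit 0) (nat_lit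 3942296531) (nat_lit 1900) (nat_lit 23451962640) (nat_lit 484) (nat_lit 5) (nat_lit 483) (nat_lit 5) (nat_lit 508) (nat_lit 5) (nat_lit 624) (nat_lit 619) (nat_lit 317)))) (XT.nd (nat_lit 156) (nat_lit 0) (nat_lit 76) (XT.nd (nat_lit 78) (nat_lit 0) (nat_lit 0) (XT.lf (nat_lit 0) (nat_lit 7624611699) (nat_lit 1824) (nat_lit 12100421562) (nat_lit 1900) (nat_lit 10939954146) (nat_lit 484) (nat_lit 5) (nat_lit 508) (nat_lit 5) (nat_lit 509) (nat_lit 5) (nat_lit 625) (nat_lit 619) (nat_lit 316)) (XT.lf (nat_lit 76) (nat_lit 3518195745) (nat_lit 0) (nat_lit 4885125427) (nat_lit 1900) (nat_lit 22572551175) (nat_lit 485) (nat_lit 5) (nat_lit 484) (nat_lit 5) (nat_lit 509) (nat_lit 5) (nat_lit 626) (nat_lit 619) (nat_lit 315))) (XT.nd (nat_lit 78) (nat_lit 0) (nat_lit 0) (XT.lf (nat_lit 0) (nat_lit 9344051527) (nat_lit 1824) (nat_lit 11746404387) (nat_lit 1900) (nat_lit 10199590193) (nat_lit 485) (nat_lit 5) (nat_lit 509) (nat_lit 5) (nat_lit 510) (nat_lit 5)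 (nat_lit 627) (nat_lit 619) (nat_lit 314)) (XT.lf (nat_lit 76) (nat_lit 4302020681) (nat_lit 0) (nat_lit 6060044185) (nat_lit 1900) (nat_lit 21247269163) (nat_lit 486) (nat_lit 5) (nat_lit 485) (nat_lit 5) (nat_lit 510) (nat_lit 5) (nat_lit 628) (nat_lit 619) (nat_lit 313)))))) (XT.nd (nat_lit 624) (nat_lit 1520) (nat_lit 0) (XT.nd (nat_lit 312) (nat_lit 0) (nat_lit 152) (XT.nd (nat_lit 156) (nat_lit 0) (nat_lit 76) (XT.nd (nat_lit 78) (nat_lit 0) (nat_lit 0) (XT.lf (nat_lit 0) (nat_lit 11538195805) (nat_lit 1824) (nat_lit 11164681752) (nat_lit 1900) (nat_lit 9229375060) (nat_lit 486) (nat_lit 5) (nat_lit 510) (nat_lit 5) (nat_lit 511) (nat_lit 5) (nat_lit 629) (nat_lit 619) (nat_lit 312)) (XT.lf (nat_lit 76) (nat_lit 5329413948) (nat_lit 0) (nat_lit 7481422633) (nat_lit 1900) (nat_lit 19449333304) (nat_lit 487) (nat_lit 5) (nat_lit 486) (nat_lit 5) (nat_lit 511) (nat_lit 5) (nat_lit 630) (nat_lit 619) (nat_lit 311))) (XT.nd (nat_lit 78) (nat_lit 0) (nat_lit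 0) (XT.lf (nat_lit 0) (nat_lit 14234860174) (nat_lit 1824) (nat_lit 10342324099) (nat_lit 1900) (nat_lit 8014942677) (nat_lit 487) (nat_lit 5) (nat_lit 511) (nat_lit 5) (nat_lit 512) (nat_lit 5) (nat_lit 631) (nat_lit 619) (nat_lit 310)) (XT.lf (nat_lit 76) (nat_lit 6613913750) (nat_lit 0) (nat_lit 9164254880) (nat_lit 1900) (nat_lit 17150738489) (nat_lit 488) (nat_lit 5) (nat_lit 487) (nat_lit 5) (nat_lit 512) (nat_lit 5) (nat_lit 632) (nat_lit 619) (nat_lit 309)))) (XT.nd (nat_lit 156) (nat_lit 0) (nat_lit 76) (XT.nd (nat_lit 78) (nat_lit 0) (nat_lit 0) (XT.lf (nat_lit 0) (nat_lit 17463122719) (nat_lit 1824) (nat_lit 9265785449) (nat_lit 1900) (nat_lit 6541299183) (nat_lit 488) (nat_lit 5) (nat_lit 512) (nat_lit 5) (nat_lit 513) (nat_lit 5) (nat_lit 633) (nat_lit 619) (nat_lit 308)) (XT.lf (nat_lit 76) (nat_lit 8169698249) (nat_lit 0) (nat_lit 11124189058) (nat_lit 1900) (nat_lit 14322204102) (nat_lit 489) (nat_lit 5) (nat_lit 488) (nat_lit 5) (nat_lit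 513) (nat_lit 5) (nat_lit 634) (nat_lit 619) (nat_lit 307))) (XT.nd (nat_lit 78) (nat_lit 0) (nat_lit 0) (XT.lf (nat_lit 0) (nat_lit 21253379199) (nat_lit 1824) (nat_lit 7920878684) (nat_lit 1900) (nat_lit 4792793072) (nat_lit 489) (nat_lit 5) (nat_lit 513) (nat_lit 5) (nat_lit 514) (nat_lit 5) (nat_lit 635) (nat_lit 619) (nat_lit 306)) (XT.lf (nat_lit 76) (nat_lit 10011611203) (nat_lit 0) (nat_lit 13377558186) (nat_lit 1900) (nat_lit 10933118180) (nat_lit 490) (nat_lit 5) (nat_lit 489) (nat_lit 5) (nat_lit 514) (nat_lit 5) (nat_lit 636) (nat_lit 619) (nat_lit 305))))) (XT.nd (nat_lit 312) (nat_lit 1824) (nat_lit 0) (XT.nd (nat_lit 156) (nat_lit 0) (nat_lit 76) (XT.nd (nat_lit 78) (nat_lit 0) (nat_lit 0) (XT.lf (nat_lit 0) (nat_lit 25637400481) (nat_lit 1824) (nat_lit 6292749766) (nat_lit 1900) (nat_lit 2753084213) (nat_lit 490) (nat_lit 5) (nat_lit 514) (nat_lit 5) (nat_lit 515) (nat_lit 5) (nat_lit 637) (nat_lit 619) (nat_lit 304)) (XT.lf (nat_lit 76)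 (nat_lit 12155188708) (nat_lit 0) (nat_lit 15941412192) (nat_lit 1900) (nat_lit 6951479339) (nat_lit 491) (nat_lit 5) (nat_lit 490) (nat_lit 5) (nat_lit 515) (nat_lit 5) (nat_lit 638) (nat_lit 619) (nat_lit 303))) (XT.nd (nat_lit 78) (nat_lit 0) (nat_lit 0) (XT.lf (nat_lit 0) (nat_lit 30648392272) (nat_lit 1824) (nat_lit 4365850861) (nat_lit 1900) (nat_lit 405111706) (nat_lit 491) (nat_lit 5) (nat_lit 515) (nat_lit 5) (nat_lit 516) (nat_lit 5) (nat_lit 639) (nat_lit 619) (nat_lit 302)) (XT.lf (nat_lit 76) (nat_lit 14616687075) (nat_lit 0) (nat_lit 18833551152) (nat_lit 1900) (nat_lit 2343836373) (nat_lit 492) (nat_lit 5) (nat_lit 491) (nat_lit 5) (nat_lit 516) (nat_lit 5) (nat_lit 640) (nat_lit 619) (nat_lit 301)))) (XT.nd (nat_lit 156) (nat_lit 0) (nat_lit 76) (XT.nd (nat_lit 78) (nat_lit 0) (nat_lit 76) (XT.lf (nat_lit 0) (nat_lit 158151209) (nat_lit 1900) (nat_lit 2139880023) (nat_lit 1976) (nat_lit 33877679488) (nat_lit 466) (nat_lit 5) (nat_lit 491)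 (nat_lit 5) (nat_lit 492) (nat_lit 5) (nat_lit 641) (nat_lit 619) (nat_lit 300)) (XT.lf (nat_lit 0) (nat_lit 2886415629) (nat_lit 1900) (nat_lit 19166774820) (nat_lit 1976) (nat_lit 14507326878) (nat_lit 467) (nat_lit 5) (nat_lit 492) (nat_lit 5) (nat_lit 493) (nat_lit 5) (nat_lit 642) (nat_lit 619) (nat_lit 299))) (XT.nd (nat_lit 78) (nat_lit 0) (nat_lit 76) (XT.lf (nat_lit 76) (nat_lit 382836426) (nat_lit 0) (nat_lit 5317174935) (nat_lit 1976) (nat_lit 31252393425) (nat_lit 468) (nat_lit 5) (nat_lit 467) (nat_lit 5) (nat_lit 493) (nat_lit 5) (nat_lit 643) (nat_lit 619) (nat_lit 298)) (XT.lf (nat_lit 0) (nat_lit 8774289666) (nat_lit 1900) (nat_lit 16844673710) (nat_lit 76) (nat_lit 11729078444) (nat_lit 468) (nat_lit 5) (nat_lit 493) (nat_lit 5) (nat_lit 469) (nat_lit 5) (nat_lit 644) (nat_lit 619) (nat_lit 297))))))))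
noncomputable def xc231 : XT := (XT.nd (nat_lit 2418) (nat_lit 3496) (nat_lit 0) (XT.nd (nat_lit 1170) (nat_lit 6460) (nat_lit 0) (XT.nd (nat_lit 546) (nat_lit 3420) (nat_lit 0) (XT.nd (nat_lit 234) (nat_lit 1748) (nat_lit 0) (XT.nd (nat_lit 78) (nat_lit 912) (nat_lit 0) (XT.lf (nat_lit 0) (nat_lit 3281362019) (nat_lit 1140) (nat_lit 8683864096) (nat_lit 1216) (nat_lit 25785262067) (nat_lit 453) (nat_lit 5) (nat_lit 468) (nat_lit 5) (nat_lit 469) (nat_lit 5) (nat_lit 645) (nat_lit 619) (nat_lit 296)) (XT.nd (nat_lit 78) (nat_lit 912) (nat_lit 0) (XT.lf (nat_lit 0) (nat_lit 15388212574) (nat_lit 1216) (nat_lit 14178189649) (nat_lit 76) (nat_lit 8591216659) (nat_lit 453) (nat_lit 5) (nat_lit 469) (nat_lit 5) (nat_lit 454) (nat_lit 5) (nat_lit 646) (nat_lit 619) (nat_lit 295)) (XT.lf (nat_lit 0) (nat_lit 6545729289) (nat_lit 912) (nat_lit 12432638210) (nat_lit 988) (nat_lit 19592550560) (nat_lit 441) (nat_lit 5) (nat_lit 453) (nat_lit 5) (nat_lit 454) (nat_lit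 5) (nat_lit 647) (nat_lit 619) (nat_lit 294)))) (XT.nd (nat_lit 156) (nat_lit 836) (nat_lit 0) (XT.nd (nat_lit 78) (nat_lit 912) (nat_lit 0) (XT.lf (nat_lit 0) (nat_lit 22767565550) (nat_lit 988) (nat_lit 11148836809) (nat_lit 76) (nat_lit 5073536096) (nat_lit 441) (nat_lit 5) (nat_lit 454) (nat_lit 5) (nat_lit 442) (nat_lit 5) (nat_lit 648) (nat_lit 619) (nat_lit 293)) (XT.lf (nat_lit 0) (nat_lit 10195248414) (nat_lit 912) (nat_lit 16584573053) (nat_lit 988) (nat_lit 12634572350) (nat_lit 429) (nat_lit 5) (nat_lit 441) (nat_lit 5) (nat_lit 442) (nat_lit 5) (nat_lit 649) (nat_lit 619) (nat_lit 292))) (XT.nd (nat_lit 78) (nat_lit 836) (nat_lit 0) (XT.lf (nat_lit 0) (nat_lit 30953496603) (nat_lit 988) (nat_lit 7737287509) (nat_lit 76) (nat_lit 1154930726) (nat_lit 429) (nat_lit 5) (nat_lit 442) (nat_lit 5) (nat_lit 430) (nat_lit 5) (nat_lit 650) (nat_lit 619) (nat_lit 291)) (XT.lf (nat_lit 0) (nat_lit 14250103369) (nat_lit 836) (nat_lit 21161680682) (nat_lit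 912) (nat_lit 4869855487) (nat_lit 418) (nat_lit 5) (nat_lit 429) (nat_lit 5) (nat_lit 430) (nat_lit 5) (nat_lit 651) (nat_lit 619) (nat_lit 290))))) (XT.nd (nat_lit 312) (nat_lit 1596) (nat_lit 0) (XT.nd (nat_lit 156) (nat_lit 836) (nat_lit 0) (XT.nd (nat_lit 78) (nat_lit 988) (nat_lit 0) (XT.lf (nat_lit 0) (nat_lit 36780965468) (nat_lit 836) (nat_lit 3228995415) (nat_lit 912) (nat_lit 715307409) (nat_lit 418) (nat_lit 5) (nat_lit 429) (nat_lit 5) (nat_lit 430) (nat_lit 5) (nat_lit 652) (nat_lit 619) (nat_lit 289)) (XT.lf (nat_lit 0) (nat_lit 3695818283) (nat_lit 988) (nat_lit 22466332163) (nat_lit 76) (nat_lit 15010768167) (nat_lit 405) (nat_lit 5) (nat_lit 418) (nat_lit 5) (nat_lit 406) (nat_lit 5) (nat_lit 653) (nat_lit 619) (nat_lit 288))) (XT.nd (nat_lit 78) (nat_lit 0) (nat_lit 0) (XT.lf (nat_lit 0) (nat_lit 210261575) (nat_lit 836) (nat_lit 8023562713) (nat_lit 912) (nat_lit 33394638406) (nat_lit 394) (nat_lit 5) (nat_lit 405) (nat_lit 5) (nat_lit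 406) (nat_lit 5) (nat_lit 654) (nat_lit 619) (nat_lit 287)) (XT.lf (nat_lit 0) (nat_lit 13081227780) (nat_lit 912) (nat_lit 18515387290) (nat_lit 76) (nat_lit 10492129869) (nat_lit 394) (nat_lit 5) (nat_lit 406) (nat_lit 5) (nat_lit 395) (nat_lit 5) (nat_lit 655) (nat_lit 619) (nat_lit 286)))) (XT.nd (nat_lit 156) (nat_lit 760) (nat_lit 0) (XT.nd (nat_lit 78) (nat_lit 0) (nat_lit 0) (XT.lf (nat_lit 0) (nat_lit 4854860316) (nat_lit 836) (nat_lit 13254247970) (nat_lit 912) (nat_lit 24447453996) (nat_lit 383) (nat_lit 5) (nat_lit 394) (nat_lit 5) (nat_lit 395) (nat_lit 5) (nat_lit 656) (nat_lit 619) (nat_lit 285)) (XT.lf (nat_lit 0) (nat_lit 23396920690) (nat_lit 912) (nat_lit 14125170405) (nat_lit 76) (nat_lit 5508457419) (nat_lit 383) (nat_lit 5) (nat_lit 395) (nat_lit 5) (nat_lit 384) (nat_lit 5) (nat_lit 657) (nat_lit 619) (nat_lit 284))) (XT.nd (nat_lit 78) (nat_lit 0) (nat_lit 0) (XT.lf (nat_lit 0) (nat_lit 9964653410) (nat_lit 760) (nat_lit 18977217586)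 (nat_lit 836) (nat_lit 14569115872) (nat_lit 373) (nat_lit 5) (nat_lit 383) (nat_lit 5) (nat_lit 384) (nat_lit 5) (nat_lit 658) (nat_lit 619) (nat_lit 283)) (XT.lf (nat_lit 0) (nat_lit 34691658026) (nat_lit 836) (nat_lit 9272786637) (nat_lit 76) (nat_lit 34710598) (nat_lit 373) (nat_lit 5) (nat_lit 384) (nat_lit 5) (nat_lit 374) (nat_lit 5) (nat_lit 659) (nat_lit 619) (nat_lit 282)))))) (XT.nd (nat_lit 624) (nat_lit 2736) (nat_lit 0) (XT.nd (nat_lit 312) (nat_lit 1368) (nat_lit 0) (XT.nd (nat_lit 156) (nat_lit 1520) (nat_lit 0) (XT.nd (nat_lit 78) (nat_lit 76) (nat_lit 0) (XT.lf (nat_lit 0) (nat_lit 15563531796) (nat_lit 760) (nat_lit 25218577467) (nat_lit 836) (nat_lit 3710464421) (nat_lit 363) (nat_lit 5) (nat_lit 373) (nat_lit 5) (nat_lit 374) (nat_lit 5) (nat_lit 660) (nat_lit 619) (nat_lit 281)) (XT.lf (nat_lit 0) (nat_lit 2033884799) (nat_lit 836) (nat_lit 3986879430) (nat_lit 76) (nat_lit 38973605026) (nat_lit 362) (nat_lit 5) (nat_lit 373) (nat_lit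 5) (nat_lit 363) (nat_lit 5) (nat_lit 661) (nat_lit 619) (nat_lit 280))) (XT.nd (nat_lit 78) (nat_lit 760) (nat_lit 0) (XT.lf (nat_lit 0) (nat_lit 8072573403) (nat_lit 836) (nat_lit 23878851852) (nat_lit 76) (nat_lit 13549702276) (nat_lit 352) (nat_lit 5) (nat_lit 363) (nat_lit 5) (nat_lit 353) (nat_lit 5) (nat_lit 662) (nat_lit 619) (nat_lit 279)) (XT.lf (nat_lit 0) (nat_lit 1762094381) (nat_lit 760) (nat_lit 12547168018) (nat_lit 836) (nat_lit 31707214067) (nat_lit 342) (nat_lit 5) (nat_lit 352) (nat_lit 5) (nat_lit 353) (nat_lit 5) (nat_lit 663) (nat_lit 619) (nat_lit 278)))) (XT.nd (nat_lit 156) (nat_lit 684) (nat_lit 0) (XT.nd (nat_lit 78) (nat_lit 684) (nat_lit 0) (XT.lf (nat_lit 0) (nat_lit 20878020410) (nat_lit 836) (nat_lit 18348634646) (nat_lit 76) (nat_lit 7311330644) (nat_lit 342) (nat_lit 5) (nat_lit 353) (nat_lit 5) (nat_lit 343) (nat_lit 5) (nat_lit 664) (nat_lit 619) (nat_lit 277)) (XT.lf (nat_lit 0) (nat_lit 8097203673) (nat_lit 684) (nat_lit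 19615629782) (nat_lit 760) (nat_lit 19354398093) (nat_lit 333) (nat_lit 5) (nat_lit 342) (nat_lit 5) (nat_lit 343) (nat_lit 5) (nat_lit 665) (nat_lit 619) (nat_lit 276))) (XT.nd (nat_lit 78) (nat_lit 684) (nat_lit 0) (XT.lf (nat_lit 0) (nat_lit 34809828605) (nat_lit 760) (nat_lit 12288390166) (nat_lit 76) (nat_lit 506333848) (nat_lit 333) (nat_lit 5) (nat_lit 343) (nat_lit 5) (nat_lit 334) (nat_lit 5) (nat_lit 666) (nat_lit 619) (nat_lit 275)) (XT.lf (nat_lit 0) (nat_lit 14992489283) (nat_lit 684) (nat_lit 27282564278) (nat_lit 760) (nat_lit 5873040776) (nat_lit 324) (nat_lit 5) (nat_lit 333) (nat_lit 5) (nat_lit 334) (nat_lit 5) (nat_lit 667) (nat_lit 619) (nat_lit 274))))) (XT.nd (nat_lit 312) (nat_lit 1292) (nat_lit 0) (XT.nd (nat_lit 156) (nat_lit 684) (nat_lit 0) (XT.nd (nat_lit 78) (nat_lit 684) (nat_lit 0) (XT.lf (nat_lit 0) (nat_lit 1253564239) (nat_lit 760) (nat_lit 5724673057) (nat_lit 76) (nat_lit 41722474333) (nat_lit 323) (nat_lit 5) (nat_lit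 333) (nat_lit 5) (nat_lit 324) (nat_lit 5) (nat_lit 668) (nat_lit 619) (nat_lit 273)) (XT.lf (nat_lit 0) (nat_lit 8679735989) (nat_lit 760) (nat_lit 26840973143) (nat_lit 76) (nat_lit 13738182250) (nat_lit 314) (nat_lit 5) (nat_lit 324) (nat_lit 5) (nat_lit 315) (nat_lit 5) (nat_lit 669) (nat_lit 619) (nat_lit 272))) (XT.nd (nat_lit 78) (nat_lit 0) (nat_lit 0) (XT.lf (nat_lit 0) (nat_lit 1343538414) (nat_lit 684) (nat_lit 15003577261) (nat_lit 760) (nat_lit 33479265387) (nat_lit 305) (nat_lit 5) (nat_lit 314) (nat_lit 5) (nat_lit 315) (nat_lit 5) (nat_lit 670) (nat_lit 619) (nat_lit 271)) (XT.lf (nat_lit 0) (nat_lit 24386702292) (nat_lit 760) (nat_lit 19986814777) (nat_lit 76) (nat_lit 6027326301) (nat_lit 305) (nat_lit 5) (nat_lit 315) (nat_lit 5) (nat_lit 306) (nat_lit 5) (nat_lit 671) (nat_lit 619) (nat_lit 270)))) (XT.nd (nat_lit 156) (nat_lit 684) (nat_lit 0) (XT.nd (nat_lit 78) (nat_lit 0) (nat_lit 0) (XT.lf (nat_lit 0) (nat_lit 9097997477) (nat_lit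 608) (nat_lit 23646620310) (nat_lit 684) (nat_lit 18239026414) (nat_lit 297) (nat_lit 5) (nat_lit 305) (nat_lit 5) (nat_lit 306) (nat_lit 5) (nat_lit 672) (nat_lit 619) (nat_lit 269)) (XT.lf (nat_lit 0) (nat_lit 39034343115) (nat_lit 608) (nat_lit 2368586463) (nat_lit 684) (nat_lit 10172506733) (nat_lit 297) (nat_lit 5) (nat_lit 305) (nat_lit 5) (nat_lit 306) (nat_lit 5) (nat_lit 673) (nat_lit 619) (nat_lit 268))) (XT.nd (nat_lit 78) (nat_lit 76) (nat_lit 0) (XT.lf (nat_lit 0) (nat_lit 17493157530) (nat_lit 608) (nat_lit 32979494922) (nat_lit 684) (nat_lit 1701646935) (nat_lit 289) (nat_lit 5) (nat_lit 297) (nat_lit 5) (nat_lit 298) (nat_lit 5) (nat_lit 674) (nat_lit 619) (nat_lit 267)) (XT.lf (nat_lit 0) (nat_lit 6947165642) (nat_lit 684) (nat_lit 4547747460) (nat_lit 76) (nat_lit 41287334898) (nat_lit 288) (nat_lit 5) (nat_lit 297) (nat_lit 5) (nat_lit 289) (nat_lit 5) (nat_lit 675) (nat_lit 619) (nat_lit 266))))))) (XT.nd (nat_lit 77298) (nat_lit 0)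 (nat_lit 18392) (XT.nd (nat_lit 546) (nat_lit 532) (nat_lit 0) (XT.nd (nat_lit 234) (nat_lit 1748) (nat_lit 0) (XT.nd (nat_lit 78) (nat_lit 608) (nat_lit 0) (XT.lf (nat_lit 0) (nat_lit 15986417397) (nat_lit 684) (nat_lit 26943722502) (nat_lit 76) (nat_lit 10467185789) (nat_lit 280) (nat_lit 5) (nat_lit 289) (nat_lit 5) (nat_lit 281) (nat_lit 5) (nat_lit 676) (nat_lit 619) (nat_lit 265)) (XT.nd (nat_lit 78) (nat_lit 0) (nat_lit 0) (XT.lf (nat_lit 0) (nat_lit 4088754178) (nat_lit 608) (nat_lit 21250253550) (nat_lit 684) (nat_lit 28683046150) (nat_lit 272) (nat_lit 5) (nat_lit 280) (nat_lit 5) (nat_lit 281) (nat_lit 5) (nat_lit 677) (nat_lit 619) (nat_lit 264)) (XT.lf (nat_lit 0) (nat_lit 35065427936) (nat_lit 684) (nat_lit 18556436285) (nat_lit 76) (nat_lit 1033676867) (nat_lit 272) (nat_lit 5) (nat_lit 281) (nat_lit 5) (nat_lit 273) (nat_lit 5) (nat_lit 678) (nat_lit 619) (nat_lit 263)))) (XT.nd (nat_lit 156) (nat_lit 1216) (nat_lit 0) (XT.nd (nat_lit 78)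 (nat_lit 0) (nat_lit 0) (XT.lf (nat_lit 0) (nat_lit 13483004143) (nat_lit 532) (nat_lit 31730828904) (nat_lit 608) (nat_lit 10083315883) (nat_lit 265) (nat_lit 5) (nat_lit 272) (nat_lit 5) (nat_lit 273) (nat_lit 5) (nat_lit 679) (nat_lit 619) (nat_lit 262)) (XT.lf (nat_lit 0) (nat_lit 46413715621) (nat_lit 532) (nat_lit 9275208947) (nat_lit 608) (nat_lit 260190013) (nat_lit 265) (nat_lit 5) (nat_lit 272) (nat_lit 5) (nat_lit 273) (nat_lit 5) (nat_lit 680) (nat_lit 619) (nat_lit 261))) (XT.nd (nat_lit 78) (nat_lit 532) (nat_lit 0) (XT.lf (nat_lit 0) (nat_lit 9873984386) (nat_lit 684) (nat_lit 33065242530) (nat_lit 76) (nat_lit 13668773711) (nat_lit 256) (nat_lit 5) (nat_lit 265) (nat_lit 5) (nat_lit 257) (nat_lit 5) (nat_lit 681) (nat_lit 619) (nat_lit 260)) (XT.lf (nat_lit 0) (nat_lit 69232150) (nat_lit 532) (nat_lit 20263628062) (nat_lit 608) (nat_lit 36944659763) (nat_lit 249) (nat_lit 5) (nat_lit 256) (nat_lit 5) (nat_lit 257) (nat_lit 5) (nat_lit 682)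 (nat_lit 619) (nat_lit 259))))) (XT.nd (nat_lit 76440) (nat_lit 0) (nat_lit 18240) (XT.nd (nat_lit 76284) (nat_lit 0) (nat_lit 18164) (XT.nd (nat_lit 78) (nat_lit 532) (nat_lit 0) (XT.lf (nat_lit 0) (nat_lit 31242092307) (nat_lit 608) (nat_lit 23662520853) (nat_lit 76) (nat_lit 3050992992) (nat_lit 249) (nat_lit 5) (nat_lit 257) (nat_lit 5) (nat_lit 250) (nat_lit 5) (nat_lit 683) (nat_lit 619) (nat_lit 258)) (XT.lf (nat_lit 0) (nat_lit 10557388888) (nat_lit 532) (nat_lit 32014096761) (nat_lit 608) (nat_lit 16071728887) (nat_lit 242) (nat_lit 5) (nat_lit 249) (nat_lit 5) (nat_lit 250) (nat_lit 5) (nat_lit 684) (nat_lit 619) (nat_lit 257))) (XT.nd (nat_lit 78) (nat_lit 0) (nat_lit 0) (XT.lf (nat_lit 0) (nat_lit 2656361195) (nat_lit 1900) (nat_lit 6037409454) (nat_lit 1900) (nat_lit 6037409454) (nat_lit 481) (nat_lit 3) (nat_lit 506) (nat_lit 3) (nat_lit 506) (nat_lit 5) (nat_lit 620) (nat_lit 620) (nat_lit 320)) (XT.lf (nat_lit 76) (nat_lit 2631644527) (nat_lit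 0) (nat_lit 2827449344) (nat_lit 1900) (nat_lit 24296022747) (nat_lit 482) (nat_lit 5) (nat_lit 481) (nat_lit 3) (nat_lit 506) (nat_lit 5) (nat_lit 621) (nat_lit 620) (nat_lit 319)))) (XT.nd (nat_lit 156) (nat_lit 0) (nat_lit 76) (XT.nd (nat_lit 78) (nat_lit 0) (nat_lit 0) (XT.lf (nat_lit 0) (nat_lit 5766026519) (nat_lit 1824) (nat_lit 12335875226) (nat_lit 1900) (nat_lit 11948673801) (nat_lit 482) (nat_lit 5) (nat_lit 506) (nat_lit 5) (nat_lit 507) (nat_lit 5) (nat_lit 622) (nat_lit 620) (nat_lit 318)) (XT.lf (nat_lit 76) (nat_lit 2763940651) (nat_lit 0) (nat_lit 3349868470) (nat_lit 1900) (nat_lit 24237440362) (nat_lit 483) (nat_lit 5) (nat_lit 482) (nat_lit 5) (nat_lit 507) (nat_lit 5) (nat_lit 623) (nat_lit 620) (nat_lit 317))) (XT.nd (nat_lit 78) (nat_lit 0) (nat_lit 0) (XT.lf (nat_lit 0) (nat_lit 6625900236) (nat_lit 1824) (nat_lit 12400901657) (nat_lit 1900) (nat_lit 11627988007) (nat_lit 483) (nat_lit 5) (nat_lit 507) (nat_lit 5) (nat_lit 508)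 (nat_lit 5) (nat_lit 624) (nat_lit 620) (nat_lit 316)) (XT.lf (nat_lit 76) (nat_lit 3106720762) (nat_lit 0) (nat_lit 4081983956) (nat_lit 1900) (nat_lit 23774887035) (nat_lit 484) (nat_lit 5) (nat_lit 483) (nat_lit 5) (nat_lit 508) (nat_lit 5) (nat_lit 625) (nat_lit 620) (nat_lit 315)))))) (XT.nd (nat_lit 624) (nat_lit 0) (nat_lit 304) (XT.nd (nat_lit 312) (nat_lit 0) (nat_lit 152) (XT.nd (nat_lit 156) (nat_lit 0) (nat_lit 76) (XT.nd (nat_lit 78) (nat_lit 0) (nat_lit 0) (XT.lf (nat_lit 0) (nat_lit 7917153546) (nat_lit 1824) (nat_lit 12258441379) (nat_lit 1900) (nat_lit 11099887007) (nat_lit 484) (nat_lit 5) (nat_lit 508) (nat_lit 5) (nat_lit 509) (nat_lit 5) (nat_lit 626) (nat_lit 620) (nat_lit 314)) (XT.lf (nat_lit 76) (nat_lit 3671995717) (nat_lit 0) (nat_lit 5037237143) (nat_lit 1900) (nat_lit 22883395880) (nat_lit 485) (nat_lit 5) (nat_lit 484) (nat_lit 5) (nat_lit 509) (nat_lit 5) (nat_lit 627) (nat_lit 620) (nat_lit 313))) (XT.nd (nat_lit 78) (nat_lit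 0) (nat_lit 0) (XT.lf (nat_lit 0) (nat_lit 9665728640) (nat_lit 1824) (nat_lit 11896479169) (nat_lit 1900) (nat_lit 10350939232) (nat_lit 485) (nat_lit 5) (nat_lit 509) (nat_lit 5) (nat_lit 510) (nat_lit 5) (nat_lit 628) (nat_lit 620) (nat_lit 312)) (XT.lf (nat_lit 76) (nat_lit 4472356155) (nat_lit 0) (nat_lit 6229650331) (nat_lit 1900) (nat_lit 21536856231) (nat_lit 486) (nat_lit 5) (nat_lit 485) (nat_lit 5) (nat_lit 510) (nat_lit 5) (nat_lit 629) (nat_lit 620) (nat_lit 311)))) (XT.nd (nat_lit 156) (nat_lit 0) (nat_lit 76) (XT.nd (nat_lit 78) (nat_lit 0) (nat_lit 0) (XT.lf (nat_lit 0) (nat_lit 11898749959) (nat_lit 1824) (nat_lit 11302419179) (nat_lit 1900) (nat_lit 9367128818) (nat_lit 486) (nat_lit 5) (nat_lit 510) (nat_lit 5) (nat_lit 511) (nat_lit 5) (nat_lit 630) (nat_lit 620) (nat_lit 310)) (XT.lf (nat_lit 76) (nat_lit 5520995565) (nat_lit 0) (nat_lit 7673854912) (nat_lit 1900) (nat_lit 19707963030) (nat_lit 487) (nat_lit 5) (nat_lit 486) (nat_lit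 5) (nat_lit 511) (nat_lit 5) (nat_lit 631) (nat_lit 620) (nat_lit 309))) (XT.nd (nat_lit 78) (nat_lit 0) (nat_lit 0) (XT.lf (nat_lit 0) (nat_lit 14644576253) (nat_lit 1824) (nat_lit 10463061734) (nat_lit 1900) (nat_lit 8133827367) (nat_lit 487) (nat_lit 5) (nat_lit 511) (nat_lit 5) (nat_lit 512) (nat_lit 5) (nat_lit 632) (nat_lit 620) (nat_lit 308)) (XT.lf (nat_lit 76) (nat_lit 6831734367) (nat_lit 0) (nat_lit 9385120559) (nat_lit 1900) (nat_lit 17368164194) (nat_lit 488) (nat_lit 5) (nat_lit 487) (nat_lit 5) (nat_lit 512) (nat_lit 5) (nat_lit 633) (nat_lit 620) (nat_lit 307))))) (XT.nd (nat_lit 312) (nat_lit 0) (nat_lit 152) (XT.nd (nat_lit 156) (nat_lit 0) (nat_lit 76) (XT.nd (nat_lit 78) (nat_lit 0) (nat_lit 0) (XT.lf (nat_lit 0) (nat_lit 17932854707) (nat_lit 1824) (nat_lit 9364579118) (nat_lit 1900) (nat_lit 6635764672) (nat_lit 488) (nat_lit 5) (nat_lit 512) (nat_lit 5) (nat_lit 513) (nat_lit 5) (nat_lit 634) (nat_lit 620) (nat_lit 306)) (XT.lf (nat_lit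 76) (nat_lit 8419045030) (nat_lit 0) (nat_lit 11379385472) (nat_lit 1900) (nat_lit 14487605886) (nat_lit 489) (nat_lit 5) (nat_lit 488) (nat_lit 5) (nat_lit 513) (nat_lit 5) (nat_lit 635) (nat_lit 620) (nat_lit 305))) (XT.nd (nat_lit 78) (nat_lit 0) (nat_lit 0) (XT.lf (nat_lit 0) (nat_lit 21794577231) (nat_lit 1824) (nat_lit 7992490318) (nat_lit 1900) (nat_lit 4856998345) (nat_lit 489) (nat_lit 5) (nat_lit 513) (nat_lit 5) (nat_lit 514) (nat_lit 5) (nat_lit 636) (nat_lit 620) (nat_lit 304)) (XT.lf (nat_lit 76) (nat_lit 10298078274) (nat_lit 0) (nat_lit 13673287777) (nat_lit 1900) (nat_lit 11035075601) (nat_lit 490) (nat_lit 5) (nat_lit 489) (nat_lit 5) (nat_lit 514) (nat_lit 5) (nat_lit 637) (nat_lit 620) (nat_lit 303)))) (XT.nd (nat_lit 156) (nat_lit 0) (nat_lit 76) (XT.nd (nat_lit 78) (nat_lit 0) (nat_lit 0) (XT.lf (nat_lit 0) (nat_lit 26262139002) (nat_lit 1824) (nat_lit 6331634694) (nat_lit 1900) (nat_lit 2780882307) (nat_lit 490) (nat_lit 5) (nat_lit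 514) (nat_lit 5) (nat_lit 515) (nat_lit 5) (nat_lit 638) (nat_lit 620) (nat_lit 302)) (XT.lf (nat_lit 76) (nat_lit 12484690378) (nat_lit 0) (nat_lit 16284198111) (nat_lit 1900) (nat_lit 6977942973) (nat_lit 491) (nat_lit 5) (nat_lit 490) (nat_lit 5) (nat_lit 515) (nat_lit 5) (nat_lit 639) (nat_lit 620) (nat_lit 301))) (XT.nd (nat_lit 78) (nat_lit 0) (nat_lit 0) (XT.lf (nat_lit 0) (nat_lit 31369399355) (nat_lit 1824) (nat_lit 4366144518) (nat_lit 1900) (nat_lit 390034071) (nat_lit 491) (nat_lit 5) (nat_lit 515) (nat_lit 5) (nat_lit 516) (nat_lit 5) (nat_lit 640) (nat_lit 620) (nat_lit 300)) (XT.lf (nat_lit 76) (nat_lit 14995471654) (nat_lit 0) (nat_lit 19230253455) (nat_lit 1900) (nat_lit 2282098197) (nat_lit 492) (nat_lit 5) (nat_lit 491) (nat_lit 5) (nat_lit 516) (nat_lit 5) (nat_lit 641) (nat_lit 620) (nat_lit 299))))))))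
noncomputable def xc232 : XT := (XT.nd (nat_lit 2418) (nat_lit 4256) (nat_lit 0) (XT.nd (nat_lit 1170) (nat_lit 6764) (nat_lit 0) (XT.nd (nat_lit 546) (nat_lit 3572) (nat_lit 0) (XT.nd (nat_lit 234) (nat_lit 1900) (nat_lit 0) (XT.nd (nat_lit 78) (nat_lit 0) (nat_lit 76) (XT.lf (nat_lit 0) (nat_lit 266402860) (nat_lit 1900) (nat_lit 2096522307) (nat_lit 1976) (nat_lit 34534194974) (nat_lit 466) (nat_lit 5) (nat_lit 491) (nat_lit 5) (nat_lit 492) (nat_lit 5) (nat_lit 642) (nat_lit 620) (nat_lit 298)) (XT.nd (nat_lit 78) (nat_lit 0) (nat_lit 0) (XT.lf (nat_lit 0) (nat_lit 3047610867) (nat_lit 1900) (nat_lit 19462330336) (nat_lit 1976) (nat_lit 14779714170) (nat_lit 467) (nat_lit 5) (nat_lit 492) (nat_lit 5) (nat_lit 493) (nat_lit 5) (nat_lit 643) (nat_lit 620) (nat_lit 297)) (XT.lf (nat_lit 76) (nat_lit 477695635) (nat_lit 0) (nat_lit 5438320292) (nat_lit 1976) (nat_lit 31773393964) (nat_lit 468) (nat_lit 5) (nat_lit 467) (nat_lit 5) (nat_lit 493) (nat_lit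 5) (nat_lit 644) (nat_lit 620) (nat_lit 296)))) (XT.nd (nat_lit 156) (nat_lit 912) (nat_lit 0) (XT.nd (nat_lit 78) (nat_lit 1140) (nat_lit 0) (XT.lf (nat_lit 0) (nat_lit 9049685494) (nat_lit 1900) (nat_lit 17093977405) (nat_lit 76) (nat_lit 11949338710) (nat_lit 468) (nat_lit 5) (nat_lit 493) (nat_lit 5) (nat_lit 469) (nat_lit 5) (nat_lit 645) (nat_lit 620) (nat_lit 295)) (XT.lf (nat_lit 0) (nat_lit 3434002790) (nat_lit 1140) (nat_lit 8869043811) (nat_lit 1216) (nat_lit 26200478234) (nat_lit 453) (nat_lit 5) (nat_lit 468) (nat_lit 5) (nat_lit 469) (nat_lit 5) (nat_lit 646) (nat_lit 620) (nat_lit 294))) (XT.nd (nat_lit 78) (nat_lit 912) (nat_lit 0) (XT.lf (nat_lit 0) (nat_lit 15792487887) (nat_lit 1216) (nat_lit 14374438420) (nat_lit 76) (nat_lit 8751911996) (nat_lit 453) (nat_lit 5) (nat_lit 469) (nat_lit 5) (nat_lit 454) (nat_lit 5) (nat_lit 647) (nat_lit 620) (nat_lit 293)) (XT.lf (nat_lit 0) (nat_lit 6763384456) (nat_lit 912) (nat_lit 12689732258) (nat_lit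 988) (nat_lit 19887313387) (nat_lit 441) (nat_lit 5) (nat_lit 453) (nat_lit 5) (nat_lit 454) (nat_lit 5) (nat_lit 648) (nat_lit 620) (nat_lit 292))))) (XT.nd (nat_lit 312) (nat_lit 1824) (nat_lit 0) (XT.nd (nat_lit 156) (nat_lit 836) (nat_lit 0) (XT.nd (nat_lit 78) (nat_lit 912) (nat_lit 0) (XT.lf (nat_lit 0) (nat_lit 23316178683) (nat_lit 988) (nat_lit 11284851086) (nat_lit 76) (nat_lit 5166839588) (nat_lit 441) (nat_lit 5) (nat_lit 454) (nat_lit 5) (nat_lit 442) (nat_lit 5) (nat_lit 649) (nat_lit 620) (nat_lit 291)) (XT.lf (nat_lit 0) (nat_lit 10485543720) (nat_lit 912) (nat_lit 16921868238) (nat_lit 988) (nat_lit 12793427275) (nat_lit 429) (nat_lit 5) (nat_lit 441) (nat_lit 5) (nat_lit 442) (nat_lit 5) (nat_lit 650) (nat_lit 620) (nat_lit 290))) (XT.nd (nat_lit 78) (nat_lit 836) (nat_lit 0) (XT.lf (nat_lit 0) (nat_lit 31662721122) (nat_lit 988) (nat_lit 7805494847) (nat_lit 76) (nat_lit 1172607545) (nat_lit 429) (nat_lit 5) (nat_lit 442) (nat_lit 5)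 (nat_lit 430) (nat_lit 5) (nat_lit 651) (nat_lit 620) (nat_lit 289)) (XT.lf (nat_lit 0) (nat_lit 14621074516) (nat_lit 836) (nat_lit 21587890233) (nat_lit 912) (nat_lit 4876526199) (nat_lit 418) (nat_lit 5) (nat_lit 429) (nat_lit 5) (nat_lit 430) (nat_lit 5) (nat_lit 652) (nat_lit 620) (nat_lit 288)))) (XT.nd (nat_lit 156) (nat_lit 836) (nat_lit 0) (XT.nd (nat_lit 78) (nat_lit 988) (nat_lit 0) (XT.lf (nat_lit 0) (nat_lit 37600868189) (nat_lit 836) (nat_lit 3296492909) (nat_lit 912) (nat_lit 640666109) (nat_lit 418) (nat_lit 5) (nat_lit 429) (nat_lit 5) (nat_lit 430) (nat_lit 5) (nat_lit 653) (nat_lit 620) (nat_lit 287)) (XT.lf (nat_lit 0) (nat_lit 3856334333) (nat_lit 988) (nat_lit 22829022912) (nat_lit 76) (nat_lit 15309285411) (nat_lit 405) (nat_lit 5) (nat_lit 418) (nat_lit 5) (nat_lit 406) (nat_lit 5) (nat_lit 654) (nat_lit 620) (nat_lit 286))) (XT.nd (nat_lit 78) (nat_lit 0) (nat_lit 0) (XT.lf (nat_lit 0) (nat_lit 300532728) (nat_lit 836) (nat_lit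 8183428494) (nat_lit 912) (nat_lit 33975359227) (nat_lit 394) (nat_lit 5) (nat_lit 405) (nat_lit 5) (nat_lit 406) (nat_lit 5) (nat_lit 655) (nat_lit 620) (nat_lit 285)) (XT.lf (nat_lit 0) (nat_lit 13426640943) (nat_lit 912) (nat_lit 18799642595) (nat_lit 76) (nat_lit 10702558283) (nat_lit 394) (nat_lit 5) (nat_lit 406) (nat_lit 5) (nat_lit 395) (nat_lit 5) (nat_lit 656) (nat_lit 620) (nat_lit 284)))))) (XT.nd (nat_lit 624) (nat_lit 2812) (nat_lit 0) (XT.nd (nat_lit 312) (nat_lit 2356) (nat_lit 0) (XT.nd (nat_lit 156) (nat_lit 760) (nat_lit 0) (XT.nd (nat_lit 78) (nat_lit 0) (nat_lit 0) (XT.lf (nat_lit 0) (nat_lit 5037443829) (nat_lit 836) (nat_lit 13516547350) (nat_lit 912) (nat_lit 24852046133) (nat_lit 383) (nat_lit 5) (nat_lit 394) (nat_lit 5) (nat_lit 395) (nat_lit 5) (nat_lit 657) (nat_lit 620) (nat_lit 283)) (XT.lf (nat_lit 0) (nat_lit 23945955980) (nat_lit 912) (nat_lit 14322257700) (nat_lit 76) (nat_lit 5621321709) (nat_lit 383) (nat_lit 5) (nat_lit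 395) (nat_lit 5) (nat_lit 384) (nat_lit 5) (nat_lit 658) (nat_lit 620) (nat_lit 282))) (XT.nd (nat_lit 78) (nat_lit 0) (nat_lit 0) (XT.lf (nat_lit 0) (nat_lit 10248800644) (nat_lit 760) (nat_lit 19351965442) (nat_lit 836) (nat_lit 14778837250) (nat_lit 373) (nat_lit 5) (nat_lit 383) (nat_lit 5) (nat_lit 384) (nat_lit 5) (nat_lit 659) (nat_lit 620) (nat_lit 281)) (XT.lf (nat_lit 0) (nat_lit 35464009630) (nat_lit 836) (nat_lit 9373510711) (nat_lit 76) (nat_lit 40045583) (nat_lit 373) (nat_lit 5) (nat_lit 384) (nat_lit 5) (nat_lit 374) (nat_lit 5) (nat_lit 660) (nat_lit 620) (nat_lit 280)))) (XT.nd (nat_lit 156) (nat_lit 1520) (nat_lit 0) (XT.nd (nat_lit 78) (nat_lit 76) (nat_lit 0) (XT.lf (nat_lit 0) (nat_lit 15958976646) (nat_lit 760) (nat_lit 25716300183) (nat_lit 836) (nat_lit 3705595787) (nat_lit 363) (nat_lit 5) (nat_lit 373) (nat_lit 5) (nat_lit 374) (nat_lit 5) (nat_lit 661) (nat_lit 620) (nat_lit 279)) (XT.lf (nat_lit 0) (nat_lit 2151073084) (nat_lit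 836) (nat_lit 3983074539) (nat_lit 76) (nat_lit 39758576851) (nat_lit 362) (nat_lit 5) (nat_lit 373) (nat_lit 5) (nat_lit 363) (nat_lit 5) (nat_lit 662) (nat_lit 620) (nat_lit 278))) (XT.nd (nat_lit 78) (nat_lit 760) (nat_lit 0) (XT.lf (nat_lit 0) (nat_lit 8309622426) (nat_lit 836) (nat_lit 24271971461) (nat_lit 76) (nat_lit 13828042328) (nat_lit 352) (nat_lit 5) (nat_lit 363) (nat_lit 5) (nat_lit 353) (nat_lit 5) (nat_lit 663) (nat_lit 620) (nat_lit 277)) (XT.lf (nat_lit 0) (nat_lit 1881238057) (nat_lit 760) (nat_lit 12788869587) (nat_lit 836) (nat_lit 32265203274) (nat_lit 342) (nat_lit 5) (nat_lit 352) (nat_lit 5) (nat_lit 353) (nat_lit 5) (nat_lit 664) (nat_lit 620) (nat_lit 276))))) (XT.nd (nat_lit 312) (nat_lit 1444) (nat_lit 0) (XT.nd (nat_lit 156) (nat_lit 684) (nat_lit 0) (XT.nd (nat_lit 78) (nat_lit 684) (nat_lit 0) (XT.lf (nat_lit 0) (nat_lit 21368835720) (nat_lit 836) (nat_lit 18631943749) (nat_lit 76) (nat_lit 7466499006) (nat_lit 342) (nat_lit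 5) (nat_lit 353) (nat_lit 5) (nat_lit 343) (nat_lit 5) (nat_lit 665) (nat_lit 620) (nat_lit 275)) (XT.lf (nat_lit 0) (nat_lit 8342260919) (nat_lit 684) (nat_lit 19997187362) (nat_lit 760) (nat_lit 19667678929) (nat_lit 333) (nat_lit 5) (nat_lit 342) (nat_lit 5) (nat_lit 343) (nat_lit 5) (nat_lit 666) (nat_lit 620) (nat_lit 274))) (XT.nd (nat_lit 78) (nat_lit 684) (nat_lit 0) (XT.lf (nat_lit 0) (nat_lit 35577033006) (nat_lit 760) (nat_lit 12451322369) (nat_lit 76) (nat_lit 526866369) (nat_lit 333) (nat_lit 5) (nat_lit 343) (nat_lit 5) (nat_lit 334) (nat_lit 5) (nat_lit 667) (nat_lit 620) (nat_lit 273)) (XT.lf (nat_lit 0) (nat_lit 15374629698) (nat_lit 684) (nat_lit 27816074738) (nat_lit 760) (nat_lit 5918947055) (nat_lit 324) (nat_lit 5) (nat_lit 333) (nat_lit 5) (nat_lit 334) (nat_lit 5) (nat_lit 668) (nat_lit 620) (nat_lit 272)))) (XT.nd (nat_lit 156) (nat_lit 684) (nat_lit 0) (XT.nd (nat_lit 78) (nat_lit 684) (nat_lit 0) (XT.lf (nat_lit 0) (nat_lit 1347866980)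 (nat_lit 760) (nat_lit 5757567713) (nat_lit 76) (nat_lit 42567904872) (nat_lit 323) (nat_lit 5) (nat_lit 333) (nat_lit 5) (nat_lit 324) (nat_lit 5) (nat_lit 669) (nat_lit 620) (nat_lit 271)) (XT.lf (nat_lit 0) (nat_lit 8921813201) (nat_lit 760) (nat_lit 27295443202) (nat_lit 76) (nat_lit 14025441521) (nat_lit 314) (nat_lit 5) (nat_lit 324) (nat_lit 5) (nat_lit 315) (nat_lit 5) (nat_lit 670) (nat_lit 620) (nat_lit 270))) (XT.nd (nat_lit 78) (nat_lit 0) (nat_lit 0) (XT.lf (nat_lit 0) (nat_lit 1452216814) (nat_lit 684) (nat_lit 15289512023) (nat_lit 760) (nat_lit 34079824826) (nat_lit 305) (nat_lit 5) (nat_lit 314) (nat_lit 5) (nat_lit 315) (nat_lit 5) (nat_lit 671) (nat_lit 620) (nat_lit 269)) (XT.lf (nat_lit 0) (nat_lit 24940870292) (nat_lit 760) (nat_lit 20305109046) (nat_lit 76) (nat_lit 6161550647) (nat_lit 305) (nat_lit 5) (nat_lit 315) (nat_lit 5) (nat_lit 306) (nat_lit 5) (nat_lit 672) (nat_lit 620) (nat_lit 268))))))) (XT.nd (nat_lit 77454) (nat_lit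 0) (nat_lit 17784) (XT.nd (nat_lit 546) (nat_lit 1748) (nat_lit 0) (XT.nd (nat_lit 234) (nat_lit 1292) (nat_lit 0) (XT.nd (nat_lit 78) (nat_lit 608) (nat_lit 0) (XT.lf (nat_lit 0) (nat_lit 9360863649) (nat_lit 608) (nat_lit 24104303118) (nat_lit 684) (nat_lit 18536835645) (nat_lit 297) (nat_lit 5) (nat_lit 305) (nat_lit 5) (nat_lit 306) (nat_lit 5) (nat_lit 673) (nat_lit 620) (nat_lit 267)) (XT.nd (nat_lit 78) (nat_lit 608) (nat_lit 0) (XT.lf (nat_lit 0) (nat_lit 39894349804) (nat_lit 608) (nat_lit 2401007606) (nat_lit 684) (nat_lit 10310298732) (nat_lit 297) (nat_lit 5) (nat_lit 305) (nat_lit 5) (nat_lit 306) (nat_lit 5) (nat_lit 674) (nat_lit 620) (nat_lit 266)) (XT.lf (nat_lit 0) (nat_lit 17923002652) (nat_lit 608) (nat_lit 33622824409) (nat_lit 684) (nat_lit 1670682402) (nat_lit 289) (nat_lit 5) (nat_lit 297) (nat_lit 5) (nat_lit 298) (nat_lit 5) (nat_lit 675) (nat_lit 620) (nat_lit 265)))) (XT.nd (nat_lit 156) (nat_lit 608) (nat_lit 0) (XT.nd (nat_lit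 78) (nat_lit 608) (nat_lit 0) (XT.lf (nat_lit 0) (nat_lit 7148996228) (nat_lit 684) (nat_lit 4559451549) (nat_lit 76) (nat_lit 42128186014) (nat_lit 288) (nat_lit 5) (nat_lit 297) (nat_lit 5) (nat_lit 289) (nat_lit 5) (nat_lit 676) (nat_lit 620) (nat_lit 264)) (XT.lf (nat_lit 0) (nat_lit 16368418643) (nat_lit 684) (nat_lit 27402730322) (nat_lit 76) (nat_lit 10692876383) (nat_lit 280) (nat_lit 5) (nat_lit 289) (nat_lit 5) (nat_lit 281) (nat_lit 5) (nat_lit 677) (nat_lit 620) (nat_lit 263))) (XT.nd (nat_lit 78) (nat_lit 0) (nat_lit 0) (XT.lf (nat_lit 0) (nat_lit 4249870453) (nat_lit 608) (nat_lit 21657484426) (nat_lit 684) (nat_lit 29193907368) (nat_lit 272) (nat_lit 5) (nat_lit 280) (nat_lit 5) (nat_lit 281) (nat_lit 5) (nat_lit 678) (nat_lit 620) (nat_lit 262)) (XT.lf (nat_lit 0) (nat_lit 35827209435) (nat_lit 684) (nat_lit 18848684130) (nat_lit 76) (nat_lit 1071547545) (nat_lit 272) (nat_lit 5) (nat_lit 281) (nat_lit 5) (nat_lit 273) (nat_lit 5) (nat_lit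 679) (nat_lit 620) (nat_lit 261))))) (XT.nd (nat_lit 76596) (nat_lit 0) (nat_lit 17632) (XT.nd (nat_lit 156) (nat_lit 1216) (nat_lit 0) (XT.nd (nat_lit 78) (nat_lit 0) (nat_lit 0) (XT.lf (nat_lit 0) (nat_lit 13831026153) (nat_lit 532) (nat_lit 32346879529) (nat_lit 608) (nat_lit 10223988992) (nat_lit 265) (nat_lit 5) (nat_lit 272) (nat_lit 5) (nat_lit 273) (nat_lit 5) (nat_lit 680) (nat_lit 620) (nat_lit 260)) (XT.lf (nat_lit 0) (nat_lit 47418815353) (nat_lit 532) (nat_lit 9442511211) (nat_lit 608) (nat_lit 205596550) (nat_lit 265) (nat_lit 5) (nat_lit 272) (nat_lit 5) (nat_lit 273) (nat_lit 5) (nat_lit 681) (nat_lit 620) (nat_lit 259))) (XT.nd (nat_lit 78) (nat_lit 532) (nat_lit 0) (XT.lf (nat_lit 0) (nat_lit 10129942251) (nat_lit 684) (nat_lit 33648400372) (nat_lit 76) (nat_lit 13960647213) (nat_lit 256) (nat_lit 5) (nat_lit 265) (nat_lit 5) (nat_lit 257) (nat_lit 5) (nat_lit 682) (nat_lit 620) (nat_lit 258)) (XT.lf (nat_lit 0) (nat_lit 148249676) (nat_lit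 532) (nat_lit 20649103331) (nat_lit 608) (nat_lit 37624559441) (nat_lit 249) (nat_lit 5) (nat_lit 256) (nat_lit 5) (nat_lit 257) (nat_lit 5) (nat_lit 683) (nat_lit 620) (nat_lit 257)))) (XT.nd (nat_lit 156) (nat_lit 0) (nat_lit 76) (XT.nd (nat_lit 78) (nat_lit 0) (nat_lit 0) (XT.lf (nat_lit 0) (nat_lit 2785151828) (nat_lit 1900) (nat_lit 6119568160) (nat_lit 1900) (nat_lit 6119568160) (nat_lit 481) (nat_lit 3) (nat_lit 506) (nat_lit 3) (nat_lit 506) (nat_lit 5) (nat_lit 621) (nat_lit 621) (nat_lit 318)) (XT.lf (nat_lit 76) (nat_lit 2760948629) (nat_lit 0) (nat_lit 2956184547) (nat_lit 1900) (nat_lit 24630104138) (nat_lit 482) (nat_lit 5) (nat_lit 481) (nat_lit 3) (nat_lit 506) (nat_lit 5) (nat_lit 622) (nat_lit 621) (nat_lit 317))) (XT.nd (nat_lit 78) (nat_lit 0) (nat_lit 0) (XT.lf (nat_lit 0) (nat_lit 6026826212) (nat_lit 1824) (nat_lit 12504042211) (nat_lit 1900) (nat_lit 12117804649) (nat_lit 482) (nat_lit 5) (nat_lit 506) (nat_lit 5) (nat_lit 507)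 (nat_lit 5) (nat_lit 623) (nat_lit 621) (nat_lit 316)) (XT.lf (nat_lit 76) (nat_lit 2897253203) (nat_lit 0) (nat_lit 3481965377) (nat_lit 1900) (nat_lit 24576188912) (nat_lit 483) (nat_lit 5) (nat_lit 482) (nat_lit 5) (nat_lit 507) (nat_lit 5) (nat_lit 624) (nat_lit 621) (nat_lit 315)))))) (XT.nd (nat_lit 624) (nat_lit 0) (nat_lit 304) (XT.nd (nat_lit 312) (nat_lit 0) (nat_lit 152) (XT.nd (nat_lit 156) (nat_lit 0) (nat_lit 76) (XT.nd (nat_lit 78) (nat_lit 0) (nat_lit 0) (XT.lf (nat_lit 0) (nat_lit 6898330601) (nat_lit 1824) (nat_lit 12569190877) (nat_lit 1900) (nat_lit 11797561743) (nat_lit 483) (nat_lit 5) (nat_lit 507) (nat_lit 5) (nat_lit 508) (nat_lit 5) (nat_lit 625) (nat_lit 621) (nat_lit 314)) (XT.lf (nat_lit 76) (nat_lit 3248059459) (nat_lit 0) (nat_lit 4222102580) (nat_lit 1900) (nat_lit 24109943737) (nat_lit 484) (nat_lit 5) (nat_lit 483) (nat_lit 5) (nat_lit 508) (nat_lit 5) (nat_lit 626) (nat_lit 621) (nat_lit 313))) (XT.nd (nat_lit 78) (nat_lit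 0) (nat_lit 0) (XT.lf (nat_lit 0) (nat_lit 8210107934) (nat_lit 1824) (nat_lit 12422882973) (nat_lit 1900) (nat_lit 11265304371) (nat_lit 484) (nat_lit 5) (nat_lit 508) (nat_lit 5) (nat_lit 509) (nat_lit 5) (nat_lit 627) (nat_lit 621) (nat_lit 312)) (XT.lf (nat_lit 76) (nat_lit 3825631765) (nat_lit 0) (nat_lit 5190278318) (nat_lit 1900) (nat_lit 23205917394) (nat_lit 485) (nat_lit 5) (nat_lit 484) (nat_lit 5) (nat_lit 509) (nat_lit 5) (nat_lit 628) (nat_lit 621) (nat_lit 311)))) (XT.nd (nat_lit 156) (nat_lit 0) (nat_lit 76) (XT.nd (nat_lit 78) (nat_lit 0) (nat_lit 0) (XT.lf (nat_lit 0) (nat_lit 9988604999) (nat_lit 1824) (nat_lit 12052850405) (nat_lit 1900) (nat_lit 10507359433) (nat_lit 485) (nat_lit 5) (nat_lit 509) (nat_lit 5) (nat_lit 510) (nat_lit 5) (nat_lit 629) (nat_lit 621) (nat_lit 310)) (XT.lf (nat_lit 76) (nat_lit 4642825058) (nat_lit 0) (nat_lit 6400768964) (nat_lit 1900) (nat_lit 21837491169) (nat_lit 486) (nat_lit 5) (nat_lit 485) (nat_lit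 5) (nat_lit 510) (nat_lit 5) (nat_lit 630) (nat_lit 621) (nat_lit 309))) (XT.nd (nat_lit 78) (nat_lit 0) (nat_lit 0) (XT.lf (nat_lit 0) (nat_lit 12261475283) (nat_lit 1824) (nat_lit 11446233607) (nat_lit 1900) (nat_lit 9509456262) (nat_lit 486) (nat_lit 5) (nat_lit 510) (nat_lit 5) (nat_lit 511) (nat_lit 5) (nat_lit 631) (nat_lit 621) (nat_lit 308)) (XT.lf (nat_lit 76) (nat_lit 5713108419) (nat_lit 0) (nat_lit 7868473712) (nat_lit 1900) (nat_lit 19976827270) (nat_lit 487) (nat_lit 5) (nat_lit 486) (nat_lit 5) (nat_lit 511) (nat_lit 5) (nat_lit 632) (nat_lit 621) (nat_lit 307))))) (XT.nd (nat_lit 312) (nat_lit 0) (nat_lit 152) (XT.nd (nat_lit 156) (nat_lit 0) (nat_lit 76) (XT.nd (nat_lit 78) (nat_lit 0) (nat_lit 0) (XT.lf (nat_lit 0) (nat_lit 15057632019) (nat_lit 1824) (nat_lit 10589557833) (nat_lit 1900) (nat_lit 8256697914) (nat_lit 487) (nat_lit 5) (nat_lit 511) (nat_lit 5) (nat_lit 512) (nat_lit 5) (nat_lit 633) (nat_lit 621) (nat_lit 306)) (XT.lf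 (nat_lit 76) (nat_lit 7050589682) (nat_lit 0) (nat_lit 9608944252) (nat_lit 1900) (nat_lit 17594815189) (nat_lit 488) (nat_lit 5) (nat_lit 487) (nat_lit 5) (nat_lit 512) (nat_lit 5) (nat_lit 634) (nat_lit 621) (nat_lit 305))) (XT.nd (nat_lit 78) (nat_lit 0) (nat_lit 0) (XT.lf (nat_lit 0) (nat_lit 18407303357) (nat_lit 1824) (nat_lit 9468708416) (nat_lit 1900) (nat_lit 6733531392) (nat_lit 488) (nat_lit 5) (nat_lit 512) (nat_lit 5) (nat_lit 513) (nat_lit 5) (nat_lit 635) (nat_lit 621) (nat_lit 304)) (XT.lf (nat_lit 76) (nat_lit 8670041095) (nat_lit 0) (nat_lit 11638415543) (nat_lit 1900) (nat_lit 14661015925) (nat_lit 489) (nat_lit 5) (nat_lit 488) (nat_lit 5) (nat_lit 513) (nat_lit 5) (nat_lit 636) (nat_lit 621) (nat_lit 303)))) (XT.nd (nat_lit 156) (nat_lit 0) (nat_lit 76) (XT.nd (nat_lit 78) (nat_lit 0) (nat_lit 0) (XT.lf (nat_lit 0) (nat_lit 22342089737) (nat_lit 1824) (nat_lit 8068904966) (nat_lit 1900) (nat_lit 4923716753) (nat_lit 489) (nat_lit 5)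 (nat_lit 513) (nat_lit 5) (nat_lit 514) (nat_lit 5) (nat_lit 637) (nat_lit 621) (nat_lit 302)) (XT.lf (nat_lit 76) (nat_lit 10586926082) (nat_lit 0) (nat_lit 13973837757) (nat_lit 1900) (nat_lit 11143603966) (nat_lit 490) (nat_lit 5) (nat_lit 489) (nat_lit 5) (nat_lit 514) (nat_lit 5) (nat_lit 638) (nat_lit 621) (nat_lit 301))) (XT.nd (nat_lit 78) (nat_lit 0) (nat_lit 0) (XT.lf (nat_lit 0) (nat_lit 26895023565) (nat_lit 1824) (nat_lit 6374674475) (nat_lit 1900) (nat_lit 2810295042) (nat_lit 490) (nat_lit 5) (nat_lit 514) (nat_lit 5) (nat_lit 515) (nat_lit 5) (nat_lit 639) (nat_lit 621) (nat_lit 300)) (XT.lf (nat_lit 76) (nat_lit 12817427145) (nat_lit 0) (nat_lit 16632909444) (nat_lit 1900) (nat_lit 7009306952) (nat_lit 491) (nat_lit 5) (nat_lit 490) (nat_lit 5) (nat_lit 515) (nat_lit 5) (nat_lit 640) (nat_lit 621) (nat_lit 299))))))))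
noncomputable def xc233 : XT := (XT.nd (nat_lit 2418) (nat_lit 4408) (nat_lit 0) (XT.nd (nat_lit 1170) (nat_lit 6916) (nat_lit 0) (XT.nd (nat_lit 546) (nat_lit 3648) (nat_lit 0) (XT.nd (nat_lit 234) (nat_lit 988) (nat_lit 0) (XT.nd (nat_lit 78) (nat_lit 1900) (nat_lit 0) (XT.lf (nat_lit 0) (nat_lit 32100631284) (nat_lit 1824) (nat_lit 4369823272) (nat_lit 1900) (nat_lit 375554986) (nat_lit 491) (nat_lit 5) (nat_lit 515) (nat_lit 5) (nat_lit 516) (nat_lit 5) (nat_lit 641) (nat_lit 621) (nat_lit 298)) (XT.nd (nat_lit 78) (nat_lit 1900) (nat_lit 0) (XT.lf (nat_lit 76) (nat_lit 15378474933) (nat_lit 0) (nat_lit 19634111965) (nat_lit 1900) (nat_lit 2223342907) (nat_lit 492) (nat_lit 5) (nat_lit 491) (nat_lit 5) (nat_lit 516) (nat_lit 5) (nat_lit 642) (nat_lit 621) (nat_lit 297)) (XT.lf (nat_lit 0) (nat_lit 372738825) (nat_lit 1900) (nat_lit 2055642952) (nat_lit 1976) (nat_lit 35204657705) (nat_lit 466) (nat_lit 5) (nat_lit 491) (nat_lit 5) (nat_lit 492) (nat_lit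 5) (nat_lit 643) (nat_lit 621) (nat_lit 296)))) (XT.nd (nat_lit 156) (nat_lit 1064) (nat_lit 0) (XT.nd (nat_lit 78) (nat_lit 0) (nat_lit 0) (XT.lf (nat_lit 0) (nat_lit 3208012263) (nat_lit 1900) (nat_lit 19767205566) (nat_lit 1976) (nat_lit 15058238821) (nat_lit 467) (nat_lit 5) (nat_lit 492) (nat_lit 5) (nat_lit 493) (nat_lit 5) (nat_lit 644) (nat_lit 621) (nat_lit 295)) (XT.lf (nat_lit 76) (nat_lit 571065849) (nat_lit 0) (nat_lit 5561313782) (nat_lit 1976) (nat_lit 32308854799) (nat_lit 468) (nat_lit 5) (nat_lit 467) (nat_lit 5) (nat_lit 493) (nat_lit 5) (nat_lit 645) (nat_lit 621) (nat_lit 294))) (XT.nd (nat_lit 78) (nat_lit 1140) (nat_lit 0) (XT.lf (nat_lit 0) (nat_lit 9326709610) (nat_lit 1900) (nat_lit 17351668392) (nat_lit 76) (nat_lit 12174560295) (nat_lit 468) (nat_lit 5) (nat_lit 493) (nat_lit 5) (nat_lit 469) (nat_lit 5) (nat_lit 646) (nat_lit 621) (nat_lit 293)) (XT.lf (nat_lit 0) (nat_lit 3586317535) (nat_lit 1140) (nat_lit 9057480467) (nat_lit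 1216) (nat_lit 26627900837) (nat_lit 453) (nat_lit 5) (nat_lit 468) (nat_lit 5) (nat_lit 469) (nat_lit 5) (nat_lit 647) (nat_lit 621) (nat_lit 292))))) (XT.nd (nat_lit 312) (nat_lit 1824) (nat_lit 0) (XT.nd (nat_lit 156) (nat_lit 912) (nat_lit 0) (XT.nd (nat_lit 78) (nat_lit 912) (nat_lit 0) (XT.lf (nat_lit 0) (nat_lit 16201101063) (nat_lit 1216) (nat_lit 14578002715) (nat_lit 76) (nat_lit 8916253392) (nat_lit 453) (nat_lit 5) (nat_lit 469) (nat_lit 5) (nat_lit 454) (nat_lit 5) (nat_lit 648) (nat_lit 621) (nat_lit 291)) (XT.lf (nat_lit 0) (nat_lit 6982024484) (nat_lit 912) (nat_lit 12951640401) (nat_lit 988) (nat_lit 20191741522) (nat_lit 441) (nat_lit 5) (nat_lit 453) (nat_lit 5) (nat_lit 454) (nat_lit 5) (nat_lit 649) (nat_lit 621) (nat_lit 290))) (XT.nd (nat_lit 78) (nat_lit 912) (nat_lit 0) (XT.lf (nat_lit 0) (nat_lit 23872142608) (nat_lit 988) (nat_lit 11426962508) (nat_lit 76) (nat_lit 5262326294) (nat_lit 441) (nat_lit 5) (nat_lit 454) (nat_lit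 5) (nat_lit 442) (nat_lit 5) (nat_lit 650) (nat_lit 621) (nat_lit 289)) (XT.lf (nat_lit 0) (nat_lit 10778290290) (nat_lit 912) (nat_lit 17265691728) (nat_lit 988) (nat_lit 12959103085) (nat_lit 429) (nat_lit 5) (nat_lit 441) (nat_lit 5) (nat_lit 442) (nat_lit 5) (nat_lit 651) (nat_lit 621) (nat_lit 288)))) (XT.nd (nat_lit 156) (nat_lit 988) (nat_lit 0) (XT.nd (nat_lit 78) (nat_lit 836) (nat_lit 0) (XT.lf (nat_lit 0) (nat_lit 32382629320) (nat_lit 988) (nat_lit 7878426724) (nat_lit 76) (nat_lit 1190848436) (nat_lit 429) (nat_lit 5) (nat_lit 442) (nat_lit 5) (nat_lit 430) (nat_lit 5) (nat_lit 652) (nat_lit 621) (nat_lit 287)) (XT.lf (nat_lit 0) (nat_lit 14996126803) (nat_lit 836) (nat_lit 22022508417) (nat_lit 912) (nat_lit 4886853342) (nat_lit 418) (nat_lit 5) (nat_lit 429) (nat_lit 5) (nat_lit 430) (nat_lit 5) (nat_lit 653) (nat_lit 621) (nat_lit 286))) (XT.nd (nat_lit 78) (nat_lit 988) (nat_lit 0) (XT.lf (nat_lit 0) (nat_lit 38433896138) (nat_lit 836)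 (nat_lit 3365227060) (nat_lit 912) (nat_lit 567985920) (nat_lit 418) (nat_lit 5) (nat_lit 429) (nat_lit 5) (nat_lit 430) (nat_lit 5) (nat_lit 654) (nat_lit 621) (nat_lit 285)) (XT.lf (nat_lit 0) (nat_lit 4016697933) (nat_lit 988) (nat_lit 23202331653) (nat_lit 76) (nat_lit 15613838940) (nat_lit 405) (nat_lit 5) (nat_lit 418) (nat_lit 5) (nat_lit 406) (nat_lit 5) (nat_lit 655) (nat_lit 621) (nat_lit 284)))))) (XT.nd (nat_lit 624) (nat_lit 3648) (nat_lit 0) (XT.nd (nat_lit 312) (nat_lit 1596) (nat_lit 0) (XT.nd (nat_lit 156) (nat_lit 836) (nat_lit 0) (XT.nd (nat_lit 78) (nat_lit 0) (nat_lit 0) (XT.lf (nat_lit 0) (nat_lit 389267259) (nat_lit 836) (nat_lit 8346515102) (nat_lit 912) (nat_lit 34571079457) (nat_lit 394) (nat_lit 5) (nat_lit 405) (nat_lit 5) (nat_lit 406) (nat_lit 5) (nat_lit 656) (nat_lit 621) (nat_lit 283)) (XT.lf (nat_lit 0) (nat_lit 13775708756) (nat_lit 912) (nat_lit 19092924528) (nat_lit 76) (nat_lit 10917172516) (nat_lit 394) (nat_lit 5)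 (nat_lit 406) (nat_lit 5) (nat_lit 395) (nat_lit 5) (nat_lit 657) (nat_lit 621) (nat_lit 282))) (XT.nd (nat_lit 78) (nat_lit 0) (nat_lit 0) (XT.lf (nat_lit 0) (nat_lit 5220359474) (nat_lit 836) (nat_lit 13784200886) (nat_lit 912) (nat_lit 25268005795) (nat_lit 383) (nat_lit 5) (nat_lit 394) (nat_lit 5) (nat_lit 395) (nat_lit 5) (nat_lit 658) (nat_lit 621) (nat_lit 281)) (XT.lf (nat_lit 0) (nat_lit 24502822884) (nat_lit 912) (nat_lit 14526603552) (nat_lit 76) (nat_lit 5736338630) (nat_lit 383) (nat_lit 5) (nat_lit 395) (nat_lit 5) (nat_lit 384) (nat_lit 5) (nat_lit 659) (nat_lit 621) (nat_lit 280)))) (XT.nd (nat_lit 156) (nat_lit 836) (nat_lit 0) (XT.nd (nat_lit 78) (nat_lit 0) (nat_lit 0) (XT.lf (nat_lit 0) (nat_lit 10535335831) (nat_lit 760) (nat_lit 19734394510) (nat_lit 836) (nat_lit 14995924049) (nat_lit 373) (nat_lit 5) (nat_lit 383) (nat_lit 5) (nat_lit 384) (nat_lit 5) (nat_lit 660) (nat_lit 621) (nat_lit 279)) (XT.lf (nat_lit 0) (nat_lit 36248759300)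 (nat_lit 836) (nat_lit 9479539500) (nat_lit 76) (nat_lit 45307060) (nat_lit 373) (nat_lit 5) (nat_lit 384) (nat_lit 5) (nat_lit 374) (nat_lit 5) (nat_lit 661) (nat_lit 621) (nat_lit 278))) (XT.nd (nat_lit 78) (nat_lit 76) (nat_lit 0) (XT.lf (nat_lit 0) (nat_lit 16359061805) (nat_lit 760) (nat_lit 26224235536) (nat_lit 836) (nat_lit 3703700473) (nat_lit 363) (nat_lit 5) (nat_lit 373) (nat_lit 5) (nat_lit 374) (nat_lit 5) (nat_lit 662) (nat_lit 621) (nat_lit 277)) (XT.lf (nat_lit 0) (nat_lit 2267634135) (nat_lit 836) (nat_lit 3982437607) (nat_lit 76) (nat_lit 40559034551) (nat_lit 362) (nat_lit 5) (nat_lit 373) (nat_lit 5) (nat_lit 363) (nat_lit 5) (nat_lit 663) (nat_lit 621) (nat_lit 276))))) (XT.nd (nat_lit 312) (nat_lit 1444) (nat_lit 0) (XT.nd (nat_lit 156) (nat_lit 684) (nat_lit 0) (XT.nd (nat_lit 78) (nat_lit 760) (nat_lit 0) (XT.lf (nat_lit 0) (nat_lit 8548476885) (nat_lit 836) (nat_lit 24676233046) (nat_lit 76) (nat_lit 14111663927) (nat_lit 352)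 (nat_lit 5) (nat_lit 363) (nat_lit 5) (nat_lit 353) (nat_lit 5) (nat_lit 664) (nat_lit 621) (nat_lit 275)) (XT.lf (nat_lit 0) (nat_lit 1999506598) (nat_lit 760) (nat_lit 13035764057) (nat_lit 836) (nat_lit 32837309459) (nat_lit 342) (nat_lit 5) (nat_lit 352) (nat_lit 5) (nat_lit 353) (nat_lit 5) (nat_lit 665) (nat_lit 621) (nat_lit 274))) (XT.nd (nat_lit 78) (nat_lit 684) (nat_lit 0) (XT.lf (nat_lit 0) (nat_lit 21866622760) (nat_lit 836) (nat_lit 18924167792) (nat_lit 76) (nat_lit 7624423517) (nat_lit 342) (nat_lit 5) (nat_lit 353) (nat_lit 5) (nat_lit 343) (nat_lit 5) (nat_lit 666) (nat_lit 621) (nat_lit 273)) (XT.lf (nat_lit 0) (nat_lit 8588991924) (nat_lit 684) (nat_lit 20386793725) (nat_lit 760) (nat_lit 19990091402) (nat_lit 333) (nat_lit 5) (nat_lit 342) (nat_lit 5) (nat_lit 343) (nat_lit 5) (nat_lit 667) (nat_lit 621) (nat_lit 272)))) (XT.nd (nat_lit 156) (nat_lit 760) (nat_lit 0) (XT.nd (nat_lit 78) (nat_lit 684) (nat_lit 0) (XT.lf (nat_lit 0)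 (nat_lit 36356824175) (nat_lit 760) (nat_lit 12620729823) (nat_lit 76) (nat_lit 547405469) (nat_lit 333) (nat_lit 5) (nat_lit 343) (nat_lit 5) (nat_lit 334) (nat_lit 5) (nat_lit 668) (nat_lit 621) (nat_lit 271)) (XT.lf (nat_lit 0) (nat_lit 15761217476) (nat_lit 684) (nat_lit 28360726851) (nat_lit 760) (nat_lit 5968550011) (nat_lit 324) (nat_lit 5) (nat_lit 333) (nat_lit 5) (nat_lit 334) (nat_lit 5) (nat_lit 669) (nat_lit 621) (nat_lit 270))) (XT.nd (nat_lit 78) (nat_lit 684) (nat_lit 0) (XT.lf (nat_lit 0) (nat_lit 1441367434) (nat_lit 760) (nat_lit 5794288843) (nat_lit 76) (nat_lit 43429817614) (nat_lit 323) (nat_lit 5) (nat_lit 333) (nat_lit 5) (nat_lit 324) (nat_lit 5) (nat_lit 670) (nat_lit 621) (nat_lit 269)) (XT.lf (nat_lit 0) (nat_lit 9166072699) (nat_lit 760) (nat_lit 27762200390) (nat_lit 76) (nat_lit 14317960757) (nat_lit 314) (nat_lit 5) (nat_lit 324) (nat_lit 5) (nat_lit 315) (nat_lit 5) (nat_lit 671) (nat_lit 621) (nat_lit 268))))))) (XT.nd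 (nat_lit 77532) (nat_lit 0) (nat_lit 17176) (XT.nd (nat_lit 546) (nat_lit 1824) (nat_lit 0) (XT.nd (nat_lit 234) (nat_lit 1292) (nat_lit 0) (XT.nd (nat_lit 78) (nat_lit 608) (nat_lit 0) (XT.lf (nat_lit 0) (nat_lit 1559892091) (nat_lit 684) (nat_lit 15581714428) (nat_lit 760) (nat_lit 34695075813) (nat_lit 305) (nat_lit 5) (nat_lit 314) (nat_lit 5) (nat_lit 315) (nat_lit 5) (nat_lit 672) (nat_lit 621) (nat_lit 267)) (XT.nd (nat_lit 78) (nat_lit 608) (nat_lit 0) (XT.lf (nat_lit 0) (nat_lit 25503541941) (nat_lit 760) (nat_lit 20632931694) (nat_lit 76) (nat_lit 6297928355) (nat_lit 305) (nat_lit 5) (nat_lit 315) (nat_lit 5) (nat_lit 306) (nat_lit 5) (nat_lit 673) (nat_lit 621) (nat_lit 266)) (XT.lf (nat_lit 0) (nat_lit 9625845458) (nat_lit 608) (nat_lit 24571731742) (nat_lit 684) (nat_lit 18843201636) (nat_lit 297) (nat_lit 5) (nat_lit 305) (nat_lit 5) (nat_lit 306) (nat_lit 5) (nat_lit 674) (nat_lit 621) (nat_lit 265)))) (XT.nd (nat_lit 156) (nat_lit 684)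 (nat_lit 0) (XT.nd (nat_lit 78) (nat_lit 608) (nat_lit 0) (XT.lf (nat_lit 0) (nat_lit 40768476542) (nat_lit 608) (nat_lit 2434657721) (nat_lit 684) (nat_lit 10453396157) (nat_lit 297) (nat_lit 5) (nat_lit 305) (nat_lit 5) (nat_lit 306) (nat_lit 5) (nat_lit 675) (nat_lit 621) (nat_lit 264)) (XT.lf (nat_lit 0) (nat_lit 18358338879) (nat_lit 608) (nat_lit 34279651897) (nat_lit 684) (nat_lit 1641622509) (nat_lit 289) (nat_lit 5) (nat_lit 297) (nat_lit 5) (nat_lit 298) (nat_lit 5) (nat_lit 676) (nat_lit 621) (nat_lit 263))) (XT.nd (nat_lit 78) (nat_lit 608) (nat_lit 0) (XT.lf (nat_lit 0) (nat_lit 7352421437) (nat_lit 684) (nat_lit 4574467128) (nat_lit 76) (nat_lit 42985267628) (nat_lit 288) (nat_lit 5) (nat_lit 297) (nat_lit 5) (nat_lit 289) (nat_lit 5) (nat_lit 677) (nat_lit 621) (nat_lit 262)) (XT.lf (nat_lit 0) (nat_lit 16755641782) (nat_lit 684) (nat_lit 27874019617) (nat_lit 76) (nat_lit 10922446019) (nat_lit 280) (nat_lit 5) (nat_lit 289) (nat_lit 5)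 (nat_lit 281) (nat_lit 5) (nat_lit 678) (nat_lit 621) (nat_lit 261))))) (XT.nd (nat_lit 312) (nat_lit 684) (nat_lit 0) (XT.nd (nat_lit 156) (nat_lit 532) (nat_lit 0) (XT.nd (nat_lit 78) (nat_lit 0) (nat_lit 0) (XT.lf (nat_lit 0) (nat_lit 4411128139) (nat_lit 608) (nat_lit 22073550113) (nat_lit 684) (nat_lit 29717424399) (nat_lit 272) (nat_lit 5) (nat_lit 280) (nat_lit 5) (nat_lit 281) (nat_lit 5) (nat_lit 679) (nat_lit 621) (nat_lit 260)) (XT.lf (nat_lit 0) (nat_lit 36601878326) (nat_lit 684) (nat_lit 19149839972) (nat_lit 76) (nat_lit 1109507850) (nat_lit 272) (nat_lit 5) (nat_lit 281) (nat_lit 5) (nat_lit 273) (nat_lit 5) (nat_lit 680) (nat_lit 621) (nat_lit 259))) (XT.nd (nat_lit 78) (nat_lit 0) (nat_lit 0) (XT.lf (nat_lit 0) (nat_lit 14182965715) (nat_lit 532) (nat_lit 32975972104) (nat_lit 608) (nat_lit 10369844004) (nat_lit 265) (nat_lit 5) (nat_lit 272) (nat_lit 5) (nat_lit 273) (nat_lit 5) (nat_lit 681) (nat_lit 621) (nat_lit 258)) (XT.lf (nat_lit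 0) (nat_lit 48441033854) (nat_lit 532) (nat_lit 9613866322) (nat_lit 608) (nat_lit 152233218) (nat_lit 265) (nat_lit 5) (nat_lit 272) (nat_lit 5) (nat_lit 273) (nat_lit 5) (nat_lit 682) (nat_lit 621) (nat_lit 257)))) (XT.nd (nat_lit 76518) (nat_lit 0) (nat_lit 17100) (XT.nd (nat_lit 76440) (nat_lit 0) (nat_lit 17100) (XT.lf (nat_lit 0) (nat_lit 10388748494) (nat_lit 684) (nat_lit 34246255915) (nat_lit 76) (nat_lit 14257639885) (nat_lit 256) (nat_lit 5) (nat_lit 265) (nat_lit 5) (nat_lit 257) (nat_lit 5) (nat_lit 683) (nat_lit 621) (nat_lit 256)) (XT.lf (nat_lit 0) (nat_lit 2913580171) (nat_lit 1900) (nat_lit 6204868516) (nat_lit 1900) (nat_lit 6204868516) (nat_lit 481) (nat_lit 3) (nat_lit 506) (nat_lit 3) (nat_lit 506) (nat_lit 5) (nat_lit 622) (nat_lit 622) (nat_lit 316))) (XT.nd (nat_lit 78) (nat_lit 0) (nat_lit 76) (XT.lf (nat_lit 76) (nat_lit 2889861575) (nat_lit 0) (nat_lit 3084691374) (nat_lit 1900) (nat_lit 24976763252) (nat_lit 482) (nat_lit 5)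 (nat_lit 481) (nat_lit 3) (nat_lit 506) (nat_lit 5) (nat_lit 623) (nat_lit 622) (nat_lit 315)) (XT.lf (nat_lit 0) (nat_lit 6287192765) (nat_lit 1824) (nat_lit 12678622748) (nat_lit 1900) (nat_lit 12293030189) (nat_lit 482) (nat_lit 5) (nat_lit 506) (nat_lit 5) (nat_lit 507) (nat_lit 5) (nat_lit 624) (nat_lit 622) (nat_lit 314)))))) (XT.nd (nat_lit 624) (nat_lit 0) (nat_lit 304) (XT.nd (nat_lit 312) (nat_lit 0) (nat_lit 152) (XT.nd (nat_lit 156) (nat_lit 0) (nat_lit 76) (XT.nd (nat_lit 78) (nat_lit 0) (nat_lit 76) (XT.lf (nat_lit 76) (nat_lit 3030201862) (nat_lit 0) (nat_lit 3614176326) (nat_lit 1900) (nat_lit 24927381801) (nat_lit 483) (nat_lit 5) (nat_lit 482) (nat_lit 5) (nat_lit 507) (nat_lit 5) (nat_lit 625) (nat_lit 622) (nat_lit 313)) (XT.lf (nat_lit 0) (nat_lit 7170776605) (nat_lit 1824) (nat_lit 12743941848) (nat_lit 1900) (nat_lit 11972972778) (nat_lit 483) (nat_lit 5) (nat_lit 507) (nat_lit 5) (nat_lit 508) (nat_lit 5) (nat_lit 626) (nat_lit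 622) (nat_lit 312))) (XT.nd (nat_lit 78) (nat_lit 0) (nat_lit 76) (XT.lf (nat_lit 76) (nat_lit 3389149331) (nat_lit 0) (nat_lit 4362752767) (nat_lit 1900) (nat_lit 24457155069) (nat_lit 484) (nat_lit 5) (nat_lit 483) (nat_lit 5) (nat_lit 508) (nat_lit 5) (nat_lit 627) (nat_lit 622) (nat_lit 311)) (XT.lf (nat_lit 0) (nat_lit 8503694288) (nat_lit 1824) (nat_lit 12593748136) (nat_lit 1900) (nat_lit 11436227168) (nat_lit 484) (nat_lit 5) (nat_lit 508) (nat_lit 5) (nat_lit 509) (nat_lit 5) (nat_lit 628) (nat_lit 622) (nat_lit 310)))) (XT.nd (nat_lit 156) (nat_lit 0) (nat_lit 76) (XT.nd (nat_lit 78) (nat_lit 0) (nat_lit 76) (XT.lf (nat_lit 76) (nat_lit 3979226420) (nat_lit 0) (nat_lit 5344349582) (nat_lit 1900) (nat_lit 23540137238) (nat_lit 485) (nat_lit 5) (nat_lit 484) (nat_lit 5) (nat_lit 509) (nat_lit 5) (nat_lit 629) (nat_lit 622) (nat_lit 309)) (XT.lf (nat_lit 0) (nat_lit 10312907844) (nat_lit 1824) (nat_lit 12215516075) (nat_lit 1900) (nat_lit 10668872843)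 (nat_lit 485) (nat_lit 5) (nat_lit 509) (nat_lit 5) (nat_lit 510) (nat_lit 5) (nat_lit 630) (nat_lit 622) (nat_lit 308))) (XT.nd (nat_lit 78) (nat_lit 0) (nat_lit 76) (XT.lf (nat_lit 76) (nat_lit 4813557164) (nat_lit 0) (nat_lit 6573503323) (nat_lit 1900) (nat_lit 22149190832) (nat_lit 486) (nat_lit 5) (nat_lit 485) (nat_lit 5) (nat_lit 510) (nat_lit 5) (nat_lit 631) (nat_lit 622) (nat_lit 307)) (XT.lf (nat_lit 0) (nat_lit 12626610906) (nat_lit 1824) (nat_lit 11596117568) (nat_lit 1900) (nat_lit 9656378247) (nat_lit 486) (nat_lit 5) (nat_lit 510) (nat_lit 5) (nat_lit 511) (nat_lit 5) (nat_lit 632) (nat_lit 622) (nat_lit 306))))) (XT.nd (nat_lit 312) (nat_lit 0) (nat_lit 152) (XT.nd (nat_lit 156) (nat_lit 0) (nat_lit 76) (XT.nd (nat_lit 78) (nat_lit 0) (nat_lit 76) (XT.lf (nat_lit 76) (nat_lit 5905891294) (nat_lit 0) (nat_lit 8065387306) (nat_lit 1900) (nat_lit 20255934153) (nat_lit 487) (nat_lit 5) (nat_lit 486) (nat_lit 5) (nat_lit 511) (nat_lit 5) (nat_lit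 633) (nat_lit 622) (nat_lit 305)) (XT.lf (nat_lit 0) (nat_lit 15474282776) (nat_lit 1824) (nat_lit 10721797725) (nat_lit 1900) (nat_lit 8383571586) (nat_lit 487) (nat_lit 5) (nat_lit 511) (nat_lit 5) (nat_lit 512) (nat_lit 5) (nat_lit 634) (nat_lit 622) (nat_lit 304))) (XT.nd (nat_lit 78) (nat_lit 0) (nat_lit 76) (XT.lf (nat_lit 76) (nat_lit 7270629377) (nat_lit 0) (nat_lit 9835841785) (nat_lit 1900) (nat_lit 17830686610) (nat_lit 488) (nat_lit 5) (nat_lit 487) (nat_lit 5) (nat_lit 512) (nat_lit 5) (nat_lit 635) (nat_lit 622) (nat_lit 303)) (XT.lf (nat_lit 0) (nat_lit 18886744653) (nat_lit 1824) (nat_lit 9578149593) (nat_lit 1900) (nat_lit 6834610542) (nat_lit 488) (nat_lit 5) (nat_lit 512) (nat_lit 5) (nat_lit 513) (nat_lit 5) (nat_lit 636) (nat_lit 622) (nat_lit 302)))) (XT.nd (nat_lit 156) (nat_lit 0) (nat_lit 76) (XT.nd (nat_lit 78) (nat_lit 0) (nat_lit 76) (XT.lf (nat_lit 76) (nat_lit 8922849033) (nat_lit 0) (nat_lit 11901405270) (nat_lit 1900) (nat_lit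 14842411869) (nat_lit 489) (nat_lit 5) (nat_lit 488) (nat_lit 5) (nat_lit 513) (nat_lit 5) (nat_lit 637) (nat_lit 622) (nat_lit 301)) (XT.lf (nat_lit 0) (nat_lit 22896218115) (nat_lit 1824) (nat_lit 8150087796) (nat_lit 1900) (nat_lit 4992950836) (nat_lit 489) (nat_lit 5) (nat_lit 513) (nat_lit 5) (nat_lit 514) (nat_lit 5) (nat_lit 638) (nat_lit 622) (nat_lit 300))) (XT.nd (nat_lit 78) (nat_lit 0) (nat_lit 76) (XT.lf (nat_lit 76) (nat_lit 10878332273) (nat_lit 0) (nat_lit 14279347024) (nat_lit 1900) (nat_lit 11258658718) (nat_lit 490) (nat_lit 5) (nat_lit 489) (nat_lit 5) (nat_lit 514) (nat_lit 5) (nat_lit 639) (nat_lit 622) (nat_lit 299)) (XT.lf (nat_lit 0) (nat_lit 27536385958) (nat_lit 1824) (nat_lit 6421821065) (nat_lit 1900) (nat_lit 2841313599) (nat_lit 490) (nat_lit 5) (nat_lit 514) (nat_lit 5) (nat_lit 515) (nat_lit 5) (nat_lit 640) (nat_lit 622) (nat_lit 298))))))))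
noncomputable def xc234 : XT := (XT.nd (nat_lit 2418) (nat_lit 4408) (nat_lit 0) (XT.nd (nat_lit 1170) (nat_lit 7220) (nat_lit 0) (XT.nd (nat_lit 546) (nat_lit 3648) (nat_lit 0) (XT.nd (nat_lit 234) (nat_lit 1824) (nat_lit 0) (XT.nd (nat_lit 78) (nat_lit 0) (nat_lit 76) (XT.lf (nat_lit 76) (nat_lit 13153593989) (nat_lit 0) (nat_lit 16987700822) (nat_lit 1900) (nat_lit 7045499550) (nat_lit 491) (nat_lit 5) (nat_lit 490) (nat_lit 5) (nat_lit 515) (nat_lit 5) (nat_lit 641) (nat_lit 622) (nat_lit 297)) (XT.nd (nat_lit 78) (nat_lit 0) (nat_lit 0) (XT.lf (nat_lit 0) (nat_lit 32842455466) (nat_lit 1824) (nat_lit 4376823605) (nat_lit 1900) (nat_lit 361651470) (nat_lit 491) (nat_lit 5) (nat_lit 515) (nat_lit 5) (nat_lit 516) (nat_lit 5) (nat_lit 642) (nat_lit 622) (nat_lit 296)) (XT.lf (nat_lit 76) (nat_lit 15765911642) (nat_lit 0) (nat_lit 20045300010) (nat_lit 1900) (nat_lit 2167466384) (nat_lit 492) (nat_lit 5) (nat_lit 491) (nat_lit 5) (nat_lit 516) (nat_lit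 5) (nat_lit 643) (nat_lit 622) (nat_lit 295)))) (XT.nd (nat_lit 156) (nat_lit 0) (nat_lit 76) (XT.nd (nat_lit 78) (nat_lit 0) (nat_lit 76) (XT.lf (nat_lit 0) (nat_lit 477279248) (nat_lit 1900) (nat_lit 2017161615) (nat_lit 1976) (nat_lit 35889314903) (nat_lit 466) (nat_lit 5) (nat_lit 491) (nat_lit 5) (nat_lit 492) (nat_lit 5) (nat_lit 644) (nat_lit 622) (nat_lit 294)) (XT.lf (nat_lit 0) (nat_lit 3367759954) (nat_lit 1900) (nat_lit 20081454544) (nat_lit 1976) (nat_lit 15342996799) (nat_lit 467) (nat_lit 5) (nat_lit 492) (nat_lit 5) (nat_lit 493) (nat_lit 5) (nat_lit 645) (nat_lit 622) (nat_lit 293))) (XT.nd (nat_lit 78) (nat_lit 0) (nat_lit 76) (XT.lf (nat_lit 76) (nat_lit 663048779) (nat_lit 0) (nat_lit 5686214687) (nat_lit 1976) (nat_lit 32858908245) (nat_lit 468) (nat_lit 5) (nat_lit 467) (nat_lit 5) (nat_lit 493) (nat_lit 5) (nat_lit 646) (nat_lit 622) (nat_lit 292)) (XT.lf (nat_lit 0) (nat_lit 9605545231) (nat_lit 1900) (nat_lit 17617782343) (nat_lit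 76) (nat_lit 12404820830) (nat_lit 468) (nat_lit 5) (nat_lit 493) (nat_lit 5) (nat_lit 469) (nat_lit 5) (nat_lit 647) (nat_lit 622) (nat_lit 291))))) (XT.nd (nat_lit 312) (nat_lit 1748) (nat_lit 0) (XT.nd (nat_lit 156) (nat_lit 912) (nat_lit 0) (XT.nd (nat_lit 78) (nat_lit 0) (nat_lit 0) (XT.lf (nat_lit 0) (nat_lit 3738430938) (nat_lit 1140) (nat_lit 9249256547) (nat_lit 1216) (nat_lit 27067622482) (nat_lit 453) (nat_lit 5) (nat_lit 468) (nat_lit 5) (nat_lit 469) (nat_lit 5) (nat_lit 648) (nat_lit 622) (nat_lit 290)) (XT.lf (nat_lit 0) (nat_lit 16614284387) (nat_lit 1216) (nat_lit 14788897185) (nat_lit 76) (nat_lit 9084296987) (nat_lit 453) (nat_lit 5) (nat_lit 469) (nat_lit 5) (nat_lit 454) (nat_lit 5) (nat_lit 649) (nat_lit 622) (nat_lit 289))) (XT.nd (nat_lit 78) (nat_lit 0) (nat_lit 0) (XT.lf (nat_lit 0) (nat_lit 7201799863) (nat_lit 912) (nat_lit 13218471650) (nat_lit 988) (nat_lit 20505881877) (nat_lit 441) (nat_lit 5) (nat_lit 453) (nat_lit 5) (nat_lit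 454) (nat_lit 5) (nat_lit 650) (nat_lit 622) (nat_lit 288)) (XT.lf (nat_lit 0) (nat_lit 24435744968) (nat_lit 988) (nat_lit 11575161888) (nat_lit 76) (nat_lit 5360027562) (nat_lit 441) (nat_lit 5) (nat_lit 454) (nat_lit 5) (nat_lit 442) (nat_lit 5) (nat_lit 651) (nat_lit 622) (nat_lit 287)))) (XT.nd (nat_lit 156) (nat_lit 836) (nat_lit 0) (XT.nd (nat_lit 78) (nat_lit 0) (nat_lit 0) (XT.lf (nat_lit 0) (nat_lit 11073667413) (nat_lit 912) (nat_lit 17616182539) (nat_lit 988) (nat_lit 13131594705) (nat_lit 429) (nat_lit 5) (nat_lit 441) (nat_lit 5) (nat_lit 442) (nat_lit 5) (nat_lit 652) (nat_lit 622) (nat_lit 286)) (XT.lf (nat_lit 0) (nat_lit 33113570809) (nat_lit 988) (nat_lit 7956047142) (nat_lit 76) (nat_lit 1209656504) (nat_lit 429) (nat_lit 5) (nat_lit 442) (nat_lit 5) (nat_lit 430) (nat_lit 5) (nat_lit 653) (nat_lit 622) (nat_lit 285))) (XT.nd (nat_lit 78) (nat_lit 0) (nat_lit 0) (XT.lf (nat_lit 0) (nat_lit 15375471481) (nat_lit 836) (nat_lit 22465707892)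 (nat_lit 912) (nat_lit 4900773242) (nat_lit 418) (nat_lit 5) (nat_lit 429) (nat_lit 5) (nat_lit 430) (nat_lit 5) (nat_lit 654) (nat_lit 622) (nat_lit 284)) (XT.lf (nat_lit 0) (nat_lit 39280438905) (nat_lit 836) (nat_lit 3435227000) (nat_lit 912) (nat_lit 497171945) (nat_lit 418) (nat_lit 5) (nat_lit 429) (nat_lit 5) (nat_lit 430) (nat_lit 5) (nat_lit 655) (nat_lit 622) (nat_lit 283)))))) (XT.nd (nat_lit 624) (nat_lit 3040) (nat_lit 0) (XT.nd (nat_lit 312) (nat_lit 1520) (nat_lit 0) (XT.nd (nat_lit 156) (nat_lit 836) (nat_lit 0) (XT.nd (nat_lit 78) (nat_lit 836) (nat_lit 0) (XT.lf (nat_lit 0) (nat_lit 4177036614) (nat_lit 988) (nat_lit 23586340111) (nat_lit 76) (nat_lit 15924546919) (nat_lit 405) (nat_lit 5) (nat_lit 418) (nat_lit 5) (nat_lit 406) (nat_lit 5) (nat_lit 656) (nat_lit 622) (nat_lit 282)) (XT.lf (nat_lit 0) (nat_lit 476564212) (nat_lit 836) (nat_lit 8512886041) (nat_lit 912) (nat_lit 35181967642) (nat_lit 394) (nat_lit 5) (nat_lit 405) (nat_lit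 5) (nat_lit 406) (nat_lit 5) (nat_lit 657) (nat_lit 622) (nat_lit 281))) (XT.nd (nat_lit 78) (nat_lit 836) (nat_lit 0) (XT.lf (nat_lit 0) (nat_lit 14128630652) (nat_lit 912) (nat_lit 19395283865) (nat_lit 76) (nat_lit 11136057170) (nat_lit 394) (nat_lit 5) (nat_lit 406) (nat_lit 5) (nat_lit 395) (nat_lit 5) (nat_lit 658) (nat_lit 622) (nat_lit 280)) (XT.lf (nat_lit 0) (nat_lit 5403742796) (nat_lit 836) (nat_lit 14057311460) (nat_lit 912) (nat_lit 25695433136) (nat_lit 383) (nat_lit 5) (nat_lit 394) (nat_lit 5) (nat_lit 395) (nat_lit 5) (nat_lit 659) (nat_lit 622) (nat_lit 279)))) (XT.nd (nat_lit 156) (nat_lit 760) (nat_lit 0) (XT.nd (nat_lit 78) (nat_lit 760) (nat_lit 0) (XT.lf (nat_lit 0) (nat_lit 25067800319) (nat_lit 912) (nat_lit 14738224338) (nat_lit 76) (nat_lit 5853555298) (nat_lit 383) (nat_lit 5) (nat_lit 395) (nat_lit 5) (nat_lit 384) (nat_lit 5) (nat_lit 660) (nat_lit 622) (nat_lit 278)) (XT.lf (nat_lit 0) (nat_lit 10824434680) (nat_lit 760)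 (nat_lit 20124651180) (nat_lit 836) (nat_lit 15220400445) (nat_lit 373) (nat_lit 5) (nat_lit 383) (nat_lit 5) (nat_lit 384) (nat_lit 5) (nat_lit 661) (nat_lit 622) (nat_lit 277))) (XT.nd (nat_lit 78) (nat_lit 760) (nat_lit 0) (XT.lf (nat_lit 0) (nat_lit 37046273390) (nat_lit 836) (nat_lit 9590851334) (nat_lit 76) (nat_lit 50500558) (nat_lit 373) (nat_lit 5) (nat_lit 384) (nat_lit 5) (nat_lit 374) (nat_lit 5) (nat_lit 662) (nat_lit 622) (nat_lit 276)) (XT.lf (nat_lit 0) (nat_lit 16764007004) (nat_lit 760) (nat_lit 26742577753) (nat_lit 836) (nat_lit 3704718706) (nat_lit 363) (nat_lit 5) (nat_lit 373) (nat_lit 5) (nat_lit 374) (nat_lit 5) (nat_lit 663) (nat_lit 622) (nat_lit 275))))) (XT.nd (nat_lit 312) (nat_lit 1444) (nat_lit 0) (XT.nd (nat_lit 156) (nat_lit 760) (nat_lit 0) (XT.nd (nat_lit 78) (nat_lit 760) (nat_lit 0) (XT.lf (nat_lit 0) (nat_lit 2383670776) (nat_lit 836) (nat_lit 3984906022) (nat_lit 76) (nat_lit 41375296136) (nat_lit 362) (nat_lit 5)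 (nat_lit 373) (nat_lit 5) (nat_lit 363) (nat_lit 5) (nat_lit 664) (nat_lit 622) (nat_lit 274)) (XT.lf (nat_lit 0) (nat_lit 8789286878) (nat_lit 836) (nat_lit 25091732097) (nat_lit 76) (nat_lit 14400683780) (nat_lit 352) (nat_lit 5) (nat_lit 363) (nat_lit 5) (nat_lit 353) (nat_lit 5) (nat_lit 665) (nat_lit 622) (nat_lit 273))) (XT.nd (nat_lit 78) (nat_lit 0) (nat_lit 0) (XT.lf (nat_lit 0) (nat_lit 2117009013) (nat_lit 760) (nat_lit 13287941350) (nat_lit 836) (nat_lit 33423700131) (nat_lit 342) (nat_lit 5) (nat_lit 352) (nat_lit 5) (nat_lit 353) (nat_lit 5) (nat_lit 666) (nat_lit 622) (nat_lit 272)) (XT.lf (nat_lit 0) (nat_lit 22371631421) (nat_lit 836) (nat_lit 19225358922) (nat_lit 76) (nat_lit 7785172781) (nat_lit 342) (nat_lit 5) (nat_lit 353) (nat_lit 5) (nat_lit 343) (nat_lit 5) (nat_lit 667) (nat_lit 622) (nat_lit 271)))) (XT.nd (nat_lit 156) (nat_lit 760) (nat_lit 0) (XT.nd (nat_lit 78) (nat_lit 0) (nat_lit 0) (XT.lf (nat_lit 0) (nat_lit 8837555486)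 (nat_lit 684) (nat_lit 20784593627) (nat_lit 760) (nat_lit 20321706855) (nat_lit 333) (nat_lit 5) (nat_lit 342) (nat_lit 5) (nat_lit 343) (nat_lit 5) (nat_lit 668) (nat_lit 622) (nat_lit 270)) (XT.lf (nat_lit 0) (nat_lit 37149560917) (nat_lit 760) (nat_lit 12796617129) (nat_lit 76) (nat_lit 567966970) (nat_lit 333) (nat_lit 5) (nat_lit 343) (nat_lit 5) (nat_lit 334) (nat_lit 5) (nat_lit 669) (nat_lit 622) (nat_lit 269))) (XT.nd (nat_lit 78) (nat_lit 76) (nat_lit 0) (XT.lf (nat_lit 0) (nat_lit 16152465647) (nat_lit 684) (nat_lit 28916725142) (nat_lit 760) (nat_lit 6021815680) (nat_lit 324) (nat_lit 5) (nat_lit 333) (nat_lit 5) (nat_lit 334) (nat_lit 5) (nat_lit 670) (nat_lit 622) (nat_lit 268)) (XT.lf (nat_lit 0) (nat_lit 1534153947) (nat_lit 760) (nat_lit 5834789937) (nat_lit 76) (nat_lit 44308558761) (nat_lit 323) (nat_lit 5) (nat_lit 333) (nat_lit 5) (nat_lit 324) (nat_lit 5) (nat_lit 671) (nat_lit 622) (nat_lit 267))))))) (XT.nd (nat_lit 77610) (nat_lit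 0) (nat_lit 16492) (XT.nd (nat_lit 546) (nat_lit 1748) (nat_lit 0) (XT.nd (nat_lit 234) (nat_lit 1292) (nat_lit 0) (XT.nd (nat_lit 78) (nat_lit 684) (nat_lit 0) (XT.lf (nat_lit 0) (nat_lit 9412661391) (nat_lit 760) (nat_lit 28241366277) (nat_lit 76) (nat_lit 14615863999) (nat_lit 314) (nat_lit 5) (nat_lit 324) (nat_lit 5) (nat_lit 315) (nat_lit 5) (nat_lit 672) (nat_lit 622) (nat_lit 266)) (XT.nd (nat_lit 78) (nat_lit 0) (nat_lit 0) (XT.lf (nat_lit 0) (nat_lit 1666667540) (nat_lit 684) (nat_lit 15880288514) (nat_lit 760) (nat_lit 35325208097) (nat_lit 305) (nat_lit 5) (nat_lit 314) (nat_lit 5) (nat_lit 315) (nat_lit 5) (nat_lit 673) (nat_lit 622) (nat_lit 265)) (XT.lf (nat_lit 0) (nat_lit 26074987485) (nat_lit 760) (nat_lit 20970350485) (nat_lit 76) (nat_lit 6436523114) (nat_lit 305) (nat_lit 5) (nat_lit 315) (nat_lit 5) (nat_lit 306) (nat_lit 5) (nat_lit 674) (nat_lit 622) (nat_lit 264)))) (XT.nd (nat_lit 156) (nat_lit 684) (nat_lit 0) (XT.nd (nat_lit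 78) (nat_lit 0) (nat_lit 0) (XT.lf (nat_lit 0) (nat_lit 9893107212) (nat_lit 608) (nat_lit 25049078105) (nat_lit 684) (nat_lit 19158194542) (nat_lit 297) (nat_lit 5) (nat_lit 305) (nat_lit 5) (nat_lit 306) (nat_lit 5) (nat_lit 675) (nat_lit 622) (nat_lit 263)) (XT.lf (nat_lit 0) (nat_lit 41657125331) (nat_lit 608) (nat_lit 2469538844) (nat_lit 684) (nat_lit 10601806112) (nat_lit 297) (nat_lit 5) (nat_lit 305) (nat_lit 5) (nat_lit 306) (nat_lit 5) (nat_lit 676) (nat_lit 622) (nat_lit 262))) (XT.nd (nat_lit 78) (nat_lit 76) (nat_lit 0) (XT.lf (nat_lit 0) (nat_lit 18799396634) (nat_lit 608) (nat_lit 34950222829) (nat_lit 684) (nat_lit 1614407341) (nat_lit 289) (nat_lit 5) (nat_lit 297) (nat_lit 5) (nat_lit 298) (nat_lit 5) (nat_lit 677) (nat_lit 622) (nat_lit 261)) (XT.lf (nat_lit 0) (nat_lit 7557567985) (nat_lit 684) (nat_lit 4592740926) (nat_lit 76) (nat_lit 43858927128) (nat_lit 288) (nat_lit 5) (nat_lit 297) (nat_lit 5) (nat_lit 289) (nat_lit 5) (nat_lit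 678) (nat_lit 622) (nat_lit 260))))) (XT.nd (nat_lit 312) (nat_lit 0) (nat_lit 0) (XT.nd (nat_lit 156) (nat_lit 532) (nat_lit 0) (XT.nd (nat_lit 78) (nat_lit 608) (nat_lit 0) (XT.lf (nat_lit 0) (nat_lit 17148285150) (nat_lit 684) (nat_lit 28357715589) (nat_lit 76) (nat_lit 11155996928) (nat_lit 280) (nat_lit 5) (nat_lit 289) (nat_lit 5) (nat_lit 281) (nat_lit 5) (nat_lit 679) (nat_lit 622) (nat_lit 259)) (XT.lf (nat_lit 0) (nat_lit 4572649698) (nat_lit 608) (nat_lit 22498600507) (nat_lit 684) (nat_lit 30253755667) (nat_lit 272) (nat_lit 5) (nat_lit 280) (nat_lit 5) (nat_lit 281) (nat_lit 5) (nat_lit 680) (nat_lit 622) (nat_lit 258))) (XT.nd (nat_lit 78) (nat_lit 532) (nat_lit 0) (XT.lf (nat_lit 0) (nat_lit 37389783541) (nat_lit 684) (nat_lit 19459963031) (nat_lit 76) (nat_lit 1147585506) (nat_lit 272) (nat_lit 5) (nat_lit 281) (nat_lit 5) (nat_lit 273) (nat_lit 5) (nat_lit 681) (nat_lit 622) (nat_lit 257)) (XT.lf (nat_lit 0) (nat_lit 14539019337) (nat_lit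 532) (nat_lit 33618339475) (nat_lit 608) (nat_lit 10520892588) (nat_lit 265) (nat_lit 5) (nat_lit 272) (nat_lit 5) (nat_lit 273) (nat_lit 5) (nat_lit 682) (nat_lit 622) (nat_lit 256)))) (XT.nd (nat_lit 76596) (nat_lit 0) (nat_lit 16416) (XT.nd (nat_lit 76518) (nat_lit 0) (nat_lit 16416) (XT.lf (nat_lit 0) (nat_lit 49480829343) (nat_lit 532) (nat_lit 9789327892) (nat_lit 608) (nat_lit 100034455) (nat_lit 265) (nat_lit 5) (nat_lit 272) (nat_lit 5) (nat_lit 273) (nat_lit 5) (nat_lit 683) (nat_lit 622) (nat_lit 255)) (XT.lf (nat_lit 0) (nat_lit 3041753069) (nat_lit 1900) (nat_lit 6293315168) (nat_lit 1900) (nat_lit 6293315168) (nat_lit 481) (nat_lit 3) (nat_lit 506) (nat_lit 3) (nat_lit 506) (nat_lit 5) (nat_lit 623) (nat_lit 623) (nat_lit 314))) (XT.nd (nat_lit 78) (nat_lit 0) (nat_lit 76) (XT.lf (nat_lit 76) (nat_lit 3018491154) (nat_lit 0) (nat_lit 3213074107) (nat_lit 1900) (nat_lit 25336022692) (nat_lit 482) (nat_lit 5) (nat_lit 481) (nat_lit 3) (nat_lit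 506) (nat_lit 5) (nat_lit 624) (nat_lit 623) (nat_lit 313)) (XT.lf (nat_lit 0) (nat_lit 6547336879) (nat_lit 1824) (nat_lit 12859626665) (nat_lit 1900) (nat_lit 12474367000) (nat_lit 482) (nat_lit 5) (nat_lit 506) (nat_lit 5) (nat_lit 507) (nat_lit 5) (nat_lit 625) (nat_lit 623) (nat_lit 312)))))) (XT.nd (nat_lit 624) (nat_lit 0) (nat_lit 304) (XT.nd (nat_lit 312) (nat_lit 0) (nat_lit 152) (XT.nd (nat_lit 156) (nat_lit 0) (nat_lit 76) (XT.nd (nat_lit 78) (nat_lit 0) (nat_lit 76) (XT.lf (nat_lit 76) (nat_lit 3162897013) (nat_lit 0) (nat_lit 3746601762) (nat_lit 1900) (nat_lit 25291047767) (nat_lit 483) (nat_lit 5) (nat_lit 482) (nat_lit 5) (nat_lit 507) (nat_lit 5) (nat_lit 626) (nat_lit 623) (nat_lit 311)) (XT.lf (nat_lit 0) (nat_lit 7443449531) (nat_lit 1824) (nat_lit 12925163585) (nat_lit 1900) (nat_lit 12154242883) (nat_lit 483) (nat_lit 5) (nat_lit 507) (nat_lit 5) (nat_lit 508) (nat_lit 5) (nat_lit 627) (nat_lit 623) (nat_lit 310))) (XT.nd (nat_lit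 78) (nat_lit 0) (nat_lit 76) (XT.lf (nat_lit 76) (nat_lit 3530104832) (nat_lit 0) (nat_lit 4504033329) (nat_lit 1900) (nat_lit 24816552359) (nat_lit 484) (nat_lit 5) (nat_lit 483) (nat_lit 5) (nat_lit 508) (nat_lit 5) (nat_lit 628) (nat_lit 623) (nat_lit 309)) (XT.lf (nat_lit 0) (nat_lit 8798128222) (nat_lit 1824) (nat_lit 12771043613) (nat_lit 1900) (nat_lit 11612680190) (nat_lit 484) (nat_lit 5) (nat_lit 508) (nat_lit 5) (nat_lit 509) (nat_lit 5) (nat_lit 629) (nat_lit 623) (nat_lit 308)))) (XT.nd (nat_lit 156) (nat_lit 0) (nat_lit 76) (XT.nd (nat_lit 78) (nat_lit 0) (nat_lit 76) (XT.lf (nat_lit 76) (nat_lit 4132899780) (nat_lit 0) (nat_lit 5499550393) (nat_lit 1900) (nat_lit 23886085596) (nat_lit 485) (nat_lit 5) (nat_lit 484) (nat_lit 5) (nat_lit 509) (nat_lit 5) (nat_lit 630) (nat_lit 623) (nat_lit 307)) (XT.lf (nat_lit 0) (nat_lit 10638861064) (nat_lit 1824) (nat_lit 12384479090) (nat_lit 1900) (nat_lit 10835505031) (nat_lit 485) (nat_lit 5) (nat_lit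 509) (nat_lit 5) (nat_lit 510) (nat_lit 5) (nat_lit 631) (nat_lit 623) (nat_lit 306))) (XT.nd (nat_lit 78) (nat_lit 0) (nat_lit 76) (XT.lf (nat_lit 76) (nat_lit 4984679908) (nat_lit 0) (nat_lit 6747955877) (nat_lit 1900) (nat_lit 22471980339) (nat_lit 486) (nat_lit 5) (nat_lit 485) (nat_lit 5) (nat_lit 510) (nat_lit 5) (nat_lit 632) (nat_lit 623) (nat_lit 305)) (XT.lf (nat_lit 0) (nat_lit 12994393141) (nat_lit 1824) (nat_lit 11752068455) (nat_lit 1900) (nat_lit 9807918788) (nat_lit 486) (nat_lit 5) (nat_lit 510) (nat_lit 5) (nat_lit 511) (nat_lit 5) (nat_lit 633) (nat_lit 623) (nat_lit 304))))) (XT.nd (nat_lit 312) (nat_lit 0) (nat_lit 152) (XT.nd (nat_lit 156) (nat_lit 0) (nat_lit 76) (XT.nd (nat_lit 78) (nat_lit 0) (nat_lit 76) (XT.lf (nat_lit 76) (nat_lit 6099480772) (nat_lit 0) (nat_lit 8264703625) (nat_lit 1900) (nat_lit 20545299604) (nat_lit 487) (nat_lit 5) (nat_lit 486) (nat_lit 5) (nat_lit 511) (nat_lit 5) (nat_lit 634) (nat_lit 623) (nat_lit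 303)) (XT.lf (nat_lit 0) (nat_lit 15894781616) (nat_lit 1824) (nat_lit 10859771488) (nat_lit 1900) (nat_lit 8514468426) (nat_lit 487) (nat_lit 5) (nat_lit 511) (nat_lit 5) (nat_lit 512) (nat_lit 5) (nat_lit 635) (nat_lit 623) (nat_lit 302))) (XT.nd (nat_lit 78) (nat_lit 0) (nat_lit 76) (XT.lf (nat_lit 76) (nat_lit 7492001116) (nat_lit 0) (nat_lit 10065929102) (nat_lit 1900) (nat_lit 18075780847) (nat_lit 488) (nat_lit 5) (nat_lit 487) (nat_lit 5) (nat_lit 512) (nat_lit 5) (nat_lit 636) (nat_lit 623) (nat_lit 301)) (XT.lf (nat_lit 0) (nat_lit 19371453045) (nat_lit 1824) (nat_lit 9692883489) (nat_lit 1900) (nat_lit 6939015673) (nat_lit 488) (nat_lit 5) (nat_lit 512) (nat_lit 5) (nat_lit 513) (nat_lit 5) (nat_lit 637) (nat_lit 623) (nat_lit 300)))) (XT.nd (nat_lit 156) (nat_lit 0) (nat_lit 76) (XT.nd (nat_lit 78) (nat_lit 0) (nat_lit 76) (XT.lf (nat_lit 76) (nat_lit 9177629655) (nat_lit 0) (nat_lit 12168481257) (nat_lit 1900) (nat_lit 15031778010) (nat_lit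 489) (nat_lit 5) (nat_lit 488) (nat_lit 5) (nat_lit 513) (nat_lit 5) (nat_lit 638) (nat_lit 623) (nat_lit 299)) (XT.lf (nat_lit 0) (nat_lit 23457262992) (nat_lit 1824) (nat_lit 8236008362) (nat_lit 1900) (nat_lit 5064705036) (nat_lit 489) (nat_lit 5) (nat_lit 513) (nat_lit 5) (nat_lit 514) (nat_lit 5) (nat_lit 639) (nat_lit 623) (nat_lit 298))) (XT.nd (nat_lit 78) (nat_lit 0) (nat_lit 76) (XT.lf (nat_lit 76) (nat_lit 11172472995) (nat_lit 0) (nat_lit 14589955601) (nat_lit 1900) (nat_lit 11380201243) (nat_lit 490) (nat_lit 5) (nat_lit 489) (nat_lit 5) (nat_lit 514) (nat_lit 5) (nat_lit 640) (nat_lit 623) (nat_lit 297)) (XT.lf (nat_lit 0) (nat_lit 28186558046) (nat_lit 1824) (nat_lit 6473030556) (nat_lit 1900) (nat_lit 2873930583) (nat_lit 490) (nat_lit 5) (nat_lit 514) (nat_lit 5) (nat_lit 515) (nat_lit 5) (nat_lit 641) (nat_lit 623) (nat_lit 296))))))))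
noncomputable def xc235 : XT := (XT.nd (nat_lit 2418) (nat_lit 4408) (nat_lit 0) (XT.nd (nat_lit 1170) (nat_lit 7220) (nat_lit 0) (XT.nd (nat_lit 546) (nat_lit 3648) (nat_lit 0) (XT.nd (nat_lit 234) (nat_lit 1824) (nat_lit 0) (XT.nd (nat_lit 78) (nat_lit 0) (nat_lit 76) (XT.lf (nat_lit 76) (nat_lit 13493384727) (nat_lit 0) (nat_lit 17348728569) (nat_lit 1900) (nat_lit 7086454196) (nat_lit 491) (nat_lit 5) (nat_lit 490) (nat_lit 5) (nat_lit 515) (nat_lit 5) (nat_lit 642) (nat_lit 623) (nat_lit 295)) (XT.nd (nat_lit 78) (nat_lit 0) (nat_lit 0) (XT.lf (nat_lit 0) (nat_lit 33595240326) (nat_lit 1824) (nat_lit 4387085825) (nat_lit 1900) (nat_lit 348301439) (nat_lit 491) (nat_lit 5) (nat_lit 515) (nat_lit 5) (nat_lit 516) (nat_lit 5) (nat_lit 643) (nat_lit 623) (nat_lit 294)) (XT.lf (nat_lit 76) (nat_lit 16157995745) (nat_lit 0) (nat_lit 20463993214) (nat_lit 1900) (nat_lit 2114368786) (nat_lit 492) (nat_lit 5) (nat_lit 491) (nat_lit 5) (nat_lit 516) (nat_lit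 5) (nat_lit 644) (nat_lit 623) (nat_lit 293)))) (XT.nd (nat_lit 156) (nat_lit 0) (nat_lit 76) (XT.nd (nat_lit 78) (nat_lit 0) (nat_lit 76) (XT.lf (nat_lit 0) (nat_lit 580140526) (nat_lit 1900) (nat_lit 1981001392) (nat_lit 1976) (nat_lit 36588419967) (nat_lit 466) (nat_lit 5) (nat_lit 491) (nat_lit 5) (nat_lit 492) (nat_lit 5) (nat_lit 645) (nat_lit 623) (nat_lit 292)) (XT.lf (nat_lit 0) (nat_lit 3526990822) (nat_lit 1900) (nat_lit 20405137525) (nat_lit 1976) (nat_lit 15634087033) (nat_lit 467) (nat_lit 5) (nat_lit 492) (nat_lit 5) (nat_lit 493) (nat_lit 5) (nat_lit 646) (nat_lit 623) (nat_lit 291))) (XT.nd (nat_lit 78) (nat_lit 0) (nat_lit 76) (XT.lf (nat_lit 76) (nat_lit 753743061) (nat_lit 0) (nat_lit 5813082607) (nat_lit 1976) (nat_lit 33423695359) (nat_lit 468) (nat_lit 5) (nat_lit 467) (nat_lit 5) (nat_lit 493) (nat_lit 5) (nat_lit 647) (nat_lit 623) (nat_lit 290)) (XT.lf (nat_lit 0) (nat_lit 9886373387) (nat_lit 1900) (nat_lit 17892360772) (nat_lit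 76) (nat_lit 12640200339) (nat_lit 468) (nat_lit 5) (nat_lit 493) (nat_lit 5) (nat_lit 469) (nat_lit 5) (nat_lit 648) (nat_lit 623) (nat_lit 289))))) (XT.nd (nat_lit 312) (nat_lit 1748) (nat_lit 0) (XT.nd (nat_lit 156) (nat_lit 912) (nat_lit 0) (XT.nd (nat_lit 78) (nat_lit 0) (nat_lit 0) (XT.lf (nat_lit 0) (nat_lit 3890465082) (nat_lit 1140) (nat_lit 9444455509) (nat_lit 1216) (nat_lit 27519743510) (nat_lit 453) (nat_lit 5) (nat_lit 468) (nat_lit 5) (nat_lit 469) (nat_lit 5) (nat_lit 649) (nat_lit 623) (nat_lit 288)) (XT.lf (nat_lit 0) (nat_lit 17032269135) (nat_lit 1216) (nat_lit 15007141888) (nat_lit 76) (nat_lit 9256100696) (nat_lit 453) (nat_lit 5) (nat_lit 469) (nat_lit 5) (nat_lit 454) (nat_lit 5) (nat_lit 650) (nat_lit 623) (nat_lit 287))) (XT.nd (nat_lit 78) (nat_lit 0) (nat_lit 0) (XT.lf (nat_lit 0) (nat_lit 7422859014) (nat_lit 912) (nat_lit 13490336701) (nat_lit 988) (nat_lit 20829787985) (nat_lit 441) (nat_lit 5) (nat_lit 453) (nat_lit 5) (nat_lit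 454) (nat_lit 5) (nat_lit 651) (nat_lit 623) (nat_lit 286)) (XT.lf (nat_lit 0) (nat_lit 25007273696) (nat_lit 988) (nat_lit 11729444951) (nat_lit 76) (nat_lit 5459975847) (nat_lit 441) (nat_lit 5) (nat_lit 454) (nat_lit 5) (nat_lit 442) (nat_lit 5) (nat_lit 652) (nat_lit 623) (nat_lit 285)))) (XT.nd (nat_lit 156) (nat_lit 836) (nat_lit 0) (XT.nd (nat_lit 78) (nat_lit 0) (nat_lit 0) (XT.lf (nat_lit 0) (nat_lit 11371852909) (nat_lit 912) (nat_lit 17973482136) (nat_lit 988) (nat_lit 13310902452) (nat_lit 429) (nat_lit 5) (nat_lit 441) (nat_lit 5) (nat_lit 442) (nat_lit 5) (nat_lit 653) (nat_lit 623) (nat_lit 284)) (XT.lf (nat_lit 0) (nat_lit 33855896918) (nat_lit 988) (nat_lit 8038324452) (nat_lit 76) (nat_lit 1229035236) (nat_lit 429) (nat_lit 5) (nat_lit 442) (nat_lit 5) (nat_lit 430) (nat_lit 5) (nat_lit 654) (nat_lit 623) (nat_lit 283))) (XT.nd (nat_lit 78) (nat_lit 0) (nat_lit 0) (XT.lf (nat_lit 0) (nat_lit 15759318994) (nat_lit 836) (nat_lit 22917664597)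 (nat_lit 912) (nat_lit 4918226262) (nat_lit 418) (nat_lit 5) (nat_lit 429) (nat_lit 5) (nat_lit 430) (nat_lit 5) (nat_lit 655) (nat_lit 623) (nat_lit 282)) (XT.lf (nat_lit 0) (nat_lit 40140888942) (nat_lit 836) (nat_lit 3506522273) (nat_lit 912) (nat_lit 428132595) (nat_lit 418) (nat_lit 5) (nat_lit 429) (nat_lit 5) (nat_lit 430) (nat_lit 5) (nat_lit 656) (nat_lit 623) (nat_lit 281)))))) (XT.nd (nat_lit 624) (nat_lit 3040) (nat_lit 0) (XT.nd (nat_lit 312) (nat_lit 1520) (nat_lit 0) (XT.nd (nat_lit 156) (nat_lit 836) (nat_lit 0) (XT.nd (nat_lit 78) (nat_lit 836) (nat_lit 0) (XT.lf (nat_lit 0) (nat_lit 4337475387) (nat_lit 988) (nat_lit 23981136718) (nat_lit 76) (nat_lit 16241529977) (nat_lit 405) (nat_lit 5) (nat_lit 418) (nat_lit 5) (nat_lit 406) (nat_lit 5) (nat_lit 657) (nat_lit 623) (nat_lit 280)) (XT.lf (nat_lit 0) (nat_lit 562519572) (nat_lit 836) (nat_lit 8682606118) (nat_lit 912) (nat_lit 35808200800) (nat_lit 394) (nat_lit 5) (nat_lit 405) (nat_lit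 5) (nat_lit 406) (nat_lit 5) (nat_lit 658) (nat_lit 623) (nat_lit 279))) (XT.nd (nat_lit 78) (nat_lit 836) (nat_lit 0) (XT.lf (nat_lit 0) (nat_lit 14485605151) (nat_lit 912) (nat_lit 19706777438) (nat_lit 76) (nat_lit 11359298501) (nat_lit 394) (nat_lit 5) (nat_lit 406) (nat_lit 5) (nat_lit 395) (nat_lit 5) (nat_lit 659) (nat_lit 623) (nat_lit 278)) (XT.lf (nat_lit 0) (nat_lit 5587727045) (nat_lit 836) (nat_lit 14335984175) (nat_lit 912) (nat_lit 26134435247) (nat_lit 383) (nat_lit 5) (nat_lit 394) (nat_lit 5) (nat_lit 395) (nat_lit 5) (nat_lit 660) (nat_lit 623) (nat_lit 277)))) (XT.nd (nat_lit 156) (nat_lit 760) (nat_lit 0) (XT.nd (nat_lit 78) (nat_lit 760) (nat_lit 0) (XT.lf (nat_lit 0) (nat_lit 25641168031) (nat_lit 912) (nat_lit 14957141760) (nat_lit 76) (nat_lit 5973019614) (nat_lit 383) (nat_lit 5) (nat_lit 395) (nat_lit 5) (nat_lit 384) (nat_lit 5) (nat_lit 661) (nat_lit 623) (nat_lit 276)) (XT.lf (nat_lit 0) (nat_lit 11116271444) (nat_lit 760)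 (nat_lit 20522885053) (nat_lit 836) (nat_lit 15452295877) (nat_lit 373) (nat_lit 5) (nat_lit 383) (nat_lit 5) (nat_lit 384) (nat_lit 5) (nat_lit 662) (nat_lit 623) (nat_lit 275))) (XT.nd (nat_lit 78) (nat_lit 760) (nat_lit 0) (XT.lf (nat_lit 0) (nat_lit 37856920989) (nat_lit 836) (nat_lit 9707429072) (nat_lit 76) (nat_lit 55631443) (nat_lit 373) (nat_lit 5) (nat_lit 384) (nat_lit 5) (nat_lit 374) (nat_lit 5) (nat_lit 663) (nat_lit 623) (nat_lit 274)) (XT.lf (nat_lit 0) (nat_lit 17174031437) (nat_lit 760) (nat_lit 27271525335) (nat_lit 836) (nat_lit 3708594148) (nat_lit 363) (nat_lit 5) (nat_lit 373) (nat_lit 5) (nat_lit 374) (nat_lit 5) (nat_lit 664) (nat_lit 623) (nat_lit 273))))) (XT.nd (nat_lit 312) (nat_lit 1444) (nat_lit 0) (XT.nd (nat_lit 156) (nat_lit 760) (nat_lit 0) (XT.nd (nat_lit 78) (nat_lit 760) (nat_lit 0) (XT.lf (nat_lit 0) (nat_lit 2499283405) (nat_lit 836) (nat_lit 3990420812) (nat_lit 76) (nat_lit 42207685656) (nat_lit 362) (nat_lit 5)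 (nat_lit 373) (nat_lit 5) (nat_lit 363) (nat_lit 5) (nat_lit 665) (nat_lit 623) (nat_lit 272)) (XT.lf (nat_lit 0) (nat_lit 9032201081) (nat_lit 836) (nat_lit 25518570959) (nat_lit 76) (nat_lit 14695220500) (nat_lit 352) (nat_lit 5) (nat_lit 363) (nat_lit 5) (nat_lit 353) (nat_lit 5) (nat_lit 666) (nat_lit 623) (nat_lit 271))) (XT.nd (nat_lit 78) (nat_lit 0) (nat_lit 0) (XT.lf (nat_lit 0) (nat_lit 2233851580) (nat_lit 760) (nat_lit 13545493731) (nat_lit 836) (nat_lit 34024550607) (nat_lit 342) (nat_lit 5) (nat_lit 352) (nat_lit 5) (nat_lit 353) (nat_lit 5) (nat_lit 667) (nat_lit 623) (nat_lit 270)) (XT.lf (nat_lit 0) (nat_lit 22884112306) (nat_lit 836) (nat_lit 19535575226) (nat_lit 76) (nat_lit 7948816254) (nat_lit 342) (nat_lit 5) (nat_lit 353) (nat_lit 5) (nat_lit 343) (nat_lit 5) (nat_lit 668) (nat_lit 623) (nat_lit 269)))) (XT.nd (nat_lit 156) (nat_lit 760) (nat_lit 0) (XT.nd (nat_lit 78) (nat_lit 0) (nat_lit 0) (XT.lf (nat_lit 0) (nat_lit 9088108715)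 (nat_lit 684) (nat_lit 21190735354) (nat_lit 760) (nat_lit 20662602376) (nat_lit 333) (nat_lit 5) (nat_lit 342) (nat_lit 5) (nat_lit 343) (nat_lit 5) (nat_lit 669) (nat_lit 623) (nat_lit 268)) (XT.lf (nat_lit 0) (nat_lit 37955605055) (nat_lit 760) (nat_lit 12978993829) (nat_lit 76) (nat_lit 588566402) (nat_lit 333) (nat_lit 5) (nat_lit 343) (nat_lit 5) (nat_lit 334) (nat_lit 5) (nat_lit 670) (nat_lit 623) (nat_lit 267))) (XT.nd (nat_lit 78) (nat_lit 76) (nat_lit 0) (XT.lf (nat_lit 0) (nat_lit 16548586684) (nat_lit 684) (nat_lit 29484278940) (nat_lit 760) (nat_lit 6078713614) (nat_lit 324) (nat_lit 5) (nat_lit 333) (nat_lit 5) (nat_lit 334) (nat_lit 5) (nat_lit 671) (nat_lit 623) (nat_lit 266)) (XT.lf (nat_lit 0) (nat_lit 1626312577) (nat_lit 760) (nat_lit 5879028331) (nat_lit 76) (nat_lit 45204480796) (nat_lit 323) (nat_lit 5) (nat_lit 333) (nat_lit 5) (nat_lit 324) (nat_lit 5) (nat_lit 672) (nat_lit 623) (nat_lit 265))))))) (XT.nd (nat_lit 77688) (nat_lit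 0) (nat_lit 16568) (XT.nd (nat_lit 546) (nat_lit 1748) (nat_lit 0) (XT.nd (nat_lit 234) (nat_lit 1292) (nat_lit 0) (XT.nd (nat_lit 78) (nat_lit 684) (nat_lit 0) (XT.lf (nat_lit 0) (nat_lit 9661725113) (nat_lit 760) (nat_lit 28733069689) (nat_lit 76) (nat_lit 14919277038) (nat_lit 314) (nat_lit 5) (nat_lit 324) (nat_lit 5) (nat_lit 315) (nat_lit 5) (nat_lit 673) (nat_lit 623) (nat_lit 264)) (XT.nd (nat_lit 78) (nat_lit 0) (nat_lit 0) (XT.lf (nat_lit 0) (nat_lit 1772643726) (nat_lit 684) (nat_lit 16185341225) (nat_lit 760) (nat_lit 35970419263) (nat_lit 305) (nat_lit 5) (nat_lit 314) (nat_lit 5) (nat_lit 315) (nat_lit 5) (nat_lit 674) (nat_lit 623) (nat_lit 263)) (XT.lf (nat_lit 0) (nat_lit 26655478685) (nat_lit 760) (nat_lit 21317439306) (nat_lit 76) (nat_lit 6577399090) (nat_lit 305) (nat_lit 5) (nat_lit 315) (nat_lit 5) (nat_lit 306) (nat_lit 5) (nat_lit 675) (nat_lit 623) (nat_lit 262)))) (XT.nd (nat_lit 156) (nat_lit 684) (nat_lit 0) (XT.nd (nat_lit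 78) (nat_lit 0) (nat_lit 0) (XT.lf (nat_lit 0) (nat_lit 10162811767) (nat_lit 608) (nat_lit 25536518460) (nat_lit 684) (nat_lit 19481889836) (nat_lit 297) (nat_lit 5) (nat_lit 305) (nat_lit 5) (nat_lit 306) (nat_lit 5) (nat_lit 676) (nat_lit 623) (nat_lit 261)) (XT.lf (nat_lit 0) (nat_lit 42560701574) (nat_lit 608) (nat_lit 2505653927) (nat_lit 684) (nat_lit 10755539689) (nat_lit 297) (nat_lit 5) (nat_lit 305) (nat_lit 5) (nat_lit 306) (nat_lit 5) (nat_lit 677) (nat_lit 623) (nat_lit 260))) (XT.nd (nat_lit 78) (nat_lit 76) (nat_lit 0) (XT.lf (nat_lit 0) (nat_lit 19246406269) (nat_lit 608) (nat_lit 35634788505) (nat_lit 684) (nat_lit 1588979593) (nat_lit 289) (nat_lit 5) (nat_lit 297) (nat_lit 5) (nat_lit 298) (nat_lit 5) (nat_lit 678) (nat_lit 623) (nat_lit 259)) (XT.lf (nat_lit 0) (nat_lit 7764561444) (nat_lit 684) (nat_lit 4614223250) (nat_lit 76) (nat_lit 44749517961) (nat_lit 288) (nat_lit 5) (nat_lit 297) (nat_lit 5) (nat_lit 289) (nat_lit 5) (nat_lit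 679) (nat_lit 623) (nat_lit 258))))) (XT.nd (nat_lit 76830) (nat_lit 0) (nat_lit 16416) (XT.nd (nat_lit 156) (nat_lit 532) (nat_lit 0) (XT.nd (nat_lit 78) (nat_lit 608) (nat_lit 0) (XT.lf (nat_lit 0) (nat_lit 17546547405) (nat_lit 684) (nat_lit 28853950619) (nat_lit 76) (nat_lit 11393632426) (nat_lit 280) (nat_lit 5) (nat_lit 289) (nat_lit 5) (nat_lit 281) (nat_lit 5) (nat_lit 680) (nat_lit 623) (nat_lit 257)) (XT.lf (nat_lit 0) (nat_lit 4734555400) (nat_lit 608) (nat_lit 22932789541) (nat_lit 684) (nat_lit 30803066439) (nat_lit 272) (nat_lit 5) (nat_lit 280) (nat_lit 5) (nat_lit 281) (nat_lit 5) (nat_lit 681) (nat_lit 623) (nat_lit 256))) (XT.nd (nat_lit 78) (nat_lit 532) (nat_lit 0) (XT.lf (nat_lit 0) (nat_lit 38191277452) (nat_lit 684) (nat_lit 19779118327) (nat_lit 76) (nat_lit 1185807785) (nat_lit 272) (nat_lit 5) (nat_lit 281) (nat_lit 5) (nat_lit 273) (nat_lit 5) (nat_lit 682) (nat_lit 623) (nat_lit 255)) (XT.lf (nat_lit 0) (nat_lit 14899382873)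 (nat_lit 532) (nat_lit 34274220229) (nat_lit 608) (nat_lit 10677150216) (nat_lit 265) (nat_lit 5) (nat_lit 272) (nat_lit 5) (nat_lit 273) (nat_lit 5) (nat_lit 683) (nat_lit 623) (nat_lit 254)))) (XT.nd (nat_lit 156) (nat_lit 0) (nat_lit 76) (XT.nd (nat_lit 78) (nat_lit 0) (nat_lit 0) (XT.lf (nat_lit 0) (nat_lit 3169775073) (nat_lit 1900) (nat_lit 6384915115) (nat_lit 1900) (nat_lit 6384915115) (nat_lit 481) (nat_lit 3) (nat_lit 506) (nat_lit 3) (nat_lit 506) (nat_lit 5) (nat_lit 624) (nat_lit 624) (nat_lit 312)) (XT.lf (nat_lit 76) (nat_lit 3146942818) (nat_lit 0) (nat_lit 3341434882) (nat_lit 1900) (nat_lit 25707914402) (nat_lit 482) (nat_lit 5) (nat_lit 481) (nat_lit 3) (nat_lit 506) (nat_lit 5) (nat_lit 625) (nat_lit 624) (nat_lit 311))) (XT.nd (nat_lit 78) (nat_lit 0) (nat_lit 0) (XT.lf (nat_lit 0) (nat_lit 6807464949) (nat_lit 1824) (nat_lit 13047068585) (nat_lit 1900) (nat_lit 12661836086) (nat_lit 482) (nat_lit 5) (nat_lit 506) (nat_lit 5) (nat_lit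 507) (nat_lit 5) (nat_lit 626) (nat_lit 624) (nat_lit 310)) (XT.lf (nat_lit 76) (nat_lit 3295446681) (nat_lit 0) (nat_lit 3879340323) (nat_lit 1900) (nat_lit 25667224672) (nat_lit 483) (nat_lit 5) (nat_lit 482) (nat_lit 5) (nat_lit 507) (nat_lit 5) (nat_lit 627) (nat_lit 624) (nat_lit 309)))))) (XT.nd (nat_lit 624) (nat_lit 0) (nat_lit 304) (XT.nd (nat_lit 312) (nat_lit 0) (nat_lit 152) (XT.nd (nat_lit 156) (nat_lit 0) (nat_lit 76) (XT.nd (nat_lit 78) (nat_lit 0) (nat_lit 0) (XT.lf (nat_lit 0) (nat_lit 7716556693) (nat_lit 1824) (nat_lit 13112869952) (nat_lit 1900) (nat_lit 12341397954) (nat_lit 483) (nat_lit 5) (nat_lit 507) (nat_lit 5) (nat_lit 508) (nat_lit 5) (nat_lit 628) (nat_lit 624) (nat_lit 308)) (XT.lf (nat_lit 76) (nat_lit 3671038064) (nat_lit 0) (nat_lit 4646041625) (nat_lit 1900) (nat_lit 25188175782) (nat_lit 484) (nat_lit 5) (nat_lit 483) (nat_lit 5) (nat_lit 508) (nat_lit 5) (nat_lit 629) (nat_lit 624) (nat_lit 307))) (XT.nd (nat_lit 78)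 (nat_lit 0) (nat_lit 0) (XT.lf (nat_lit 0) (nat_lit 9093621784) (nat_lit 1824) (nat_lit 12954781012) (nat_lit 1900) (nat_lit 11794692040) (nat_lit 484) (nat_lit 5) (nat_lit 508) (nat_lit 5) (nat_lit 509) (nat_lit 5) (nat_lit 630) (nat_lit 624) (nat_lit 306)) (XT.lf (nat_lit 76) (nat_lit 4286769647) (nat_lit 0) (nat_lit 5655979136) (nat_lit 1900) (nat_lit 24243801169) (nat_lit 485) (nat_lit 5) (nat_lit 484) (nat_lit 5) (nat_lit 509) (nat_lit 5) (nat_lit 631) (nat_lit 624) (nat_lit 305)))) (XT.nd (nat_lit 156) (nat_lit 0) (nat_lit 76) (XT.nd (nat_lit 78) (nat_lit 0) (nat_lit 0) (XT.lf (nat_lit 0) (nat_lit 10966685445) (nat_lit 1824) (nat_lit 12559747193) (nat_lit 1900) (nat_lit 11007285038) (nat_lit 485) (nat_lit 5) (nat_lit 509) (nat_lit 5) (nat_lit 510) (nat_lit 5) (nat_lit 632) (nat_lit 624) (nat_lit 304)) (XT.lf (nat_lit 76) (nat_lit 5156318528) (nat_lit 0) (nat_lit 6924228420) (nat_lit 1900) (nat_lit 22805892927) (nat_lit 486) (nat_lit 5) (nat_lit 485)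 (nat_lit 5) (nat_lit 510) (nat_lit 5) (nat_lit 633) (nat_lit 624) (nat_lit 303))) (XT.nd (nat_lit 78) (nat_lit 0) (nat_lit 0) (XT.lf (nat_lit 0) (nat_lit 13365055722) (nat_lit 1824) (nat_lit 11914088425) (nat_lit 1900) (nat_lit 9964105015) (nat_lit 486) (nat_lit 5) (nat_lit 510) (nat_lit 5) (nat_lit 511) (nat_lit 5) (nat_lit 634) (nat_lit 624) (nat_lit 302)) (XT.lf (nat_lit 76) (nat_lit 6294011383) (nat_lit 0) (nat_lit 8466530351) (nat_lit 1900) (nat_lit 20844947203) (nat_lit 487) (nat_lit 5) (nat_lit 486) (nat_lit 5) (nat_lit 511) (nat_lit 5) (nat_lit 635) (nat_lit 624) (nat_lit 301))))) (XT.nd (nat_lit 312) (nat_lit 0) (nat_lit 152) (XT.nd (nat_lit 156) (nat_lit 0) (nat_lit 76) (XT.nd (nat_lit 78) (nat_lit 0) (nat_lit 0) (XT.lf (nat_lit 0) (nat_lit 16319379655) (nat_lit 1824) (nat_lit 11003473846) (nat_lit 1900) (nat_lit 8649411205) (nat_lit 487) (nat_lit 5) (nat_lit 511) (nat_lit 5) (nat_lit 512) (nat_lit 5) (nat_lit 636) (nat_lit 624) (nat_lit 300))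 (XT.lf (nat_lit 76) (nat_lit 7714850703) (nat_lit 0) (nat_lit 10299322349) (nat_lit 1900) (nat_lit 18330107406) (nat_lit 488) (nat_lit 5) (nat_lit 487) (nat_lit 5) (nat_lit 512) (nat_lit 5) (nat_lit 637) (nat_lit 624) (nat_lit 299))) (XT.nd (nat_lit 78) (nat_lit 0) (nat_lit 0) (XT.lf (nat_lit 0) (nat_lit 19861701693) (nat_lit 1824) (nat_lit 9812895431) (nat_lit 1900) (nat_lit 7046762654) (nat_lit 488) (nat_lit 5) (nat_lit 512) (nat_lit 5) (nat_lit 513) (nat_lit 5) (nat_lit 638) (nat_lit 624) (nat_lit 298)) (XT.lf (nat_lit 76) (nat_lit 9434542149) (nat_lit 0) (nat_lit 12439770800) (nat_lit 1900) (nat_lit 15229105134) (nat_lit 489) (nat_lit 5) (nat_lit 488) (nat_lit 5) (nat_lit 513) (nat_lit 5) (nat_lit 639) (nat_lit 624) (nat_lit 297)))) (XT.nd (nat_lit 156) (nat_lit 0) (nat_lit 76) (XT.nd (nat_lit 78) (nat_lit 0) (nat_lit 0) (XT.lf (nat_lit 0) (nat_lit 24025524472) (nat_lit 1824) (nat_lit 8326640497) (nat_lit 1900) (nat_lit 5138985664) (nat_lit 489) (nat_lit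 5) (nat_lit 513) (nat_lit 5) (nat_lit 514) (nat_lit 5) (nat_lit 640) (nat_lit 624) (nat_lit 296)) (XT.lf (nat_lit 76) (nat_lit 11469523067) (nat_lit 0) (nat_lit 14905804730) (nat_lit 1900) (nat_lit 11508198723) (nat_lit 490) (nat_lit 5) (nat_lit 489) (nat_lit 5) (nat_lit 514) (nat_lit 5) (nat_lit 641) (nat_lit 624) (nat_lit 295))) (XT.nd (nat_lit 78) (nat_lit 0) (nat_lit 0) (XT.lf (nat_lit 0) (nat_lit 28845872030) (nat_lit 1824) (nat_lit 6528263052) (nat_lit 1900) (nat_lit 2908139983) (nat_lit 490) (nat_lit 5) (nat_lit 514) (nat_lit 5) (nat_lit 515) (nat_lit 5) (nat_lit 642) (nat_lit 624) (nat_lit 294)) (XT.lf (nat_lit 76) (nat_lit 13836992194) (nat_lit 0) (nat_lit 17716150786) (nat_lit 1900) (nat_lit 7132109323) (nat_lit 491) (nat_lit 5) (nat_lit 490) (nat_lit 5) (nat_lit 515) (nat_lit 5) (nat_lit 643) (nat_lit 624) (nat_lit 293))))))))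
noncomputable def xc236 : XT := (XT.nd (nat_lit 2418) (nat_lit 3192) (nat_lit 0) (XT.nd (nat_lit 1170) (nat_lit 6916) (nat_lit 0) (XT.nd (nat_lit 546) (nat_lit 3648) (nat_lit 0) (XT.nd (nat_lit 234) (nat_lit 988) (nat_lit 0) (XT.nd (nat_lit 78) (nat_lit 1900) (nat_lit 0) (XT.lf (nat_lit 0) (nat_lit 34359355581) (nat_lit 1824) (nat_lit 4400553942) (nat_lit 1900) (nat_lit 335483672) (nat_lit 491) (nat_lit 5) (nat_lit 515) (nat_lit 5) (nat_lit 516) (nat_lit 5) (nat_lit 644) (nat_lit 624) (nat_lit 292)) (XT.nd (nat_lit 78) (nat_lit 1900) (nat_lit 0) (XT.lf (nat_lit 76) (nat_lit 16554940617) (nat_lit 0) (nat_lit 20890369582) (nat_lit 1900) (nat_lit 2063954388) (nat_lit 492) (nat_lit 5) (nat_lit 491) (nat_lit 5) (nat_lit 516) (nat_lit 5) (nat_lit 645) (nat_lit 624) (nat_lit 291)) (XT.lf (nat_lit 0) (nat_lit 681435467) (nat_lit 1900) (nat_lit 1947088686) (nat_lit 1976) (nat_lit 37302232547) (nat_lit 466) (nat_lit 5) (nat_lit 491) (nat_lit 5) (nat_lit 492) (nat_lit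 5) (nat_lit 646) (nat_lit 624) (nat_lit 290)))) (XT.nd (nat_lit 156) (nat_lit 1064) (nat_lit 0) (XT.nd (nat_lit 78) (nat_lit 0) (nat_lit 0) (XT.lf (nat_lit 0) (nat_lit 3685838663) (nat_lit 1900) (nat_lit 20738320907) (nat_lit 1976) (nat_lit 15931611428) (nat_lit 467) (nat_lit 5) (nat_lit 492) (nat_lit 5) (nat_lit 493) (nat_lit 5) (nat_lit 647) (nat_lit 624) (nat_lit 289)) (XT.lf (nat_lit 76) (nat_lit 843244400) (nat_lit 0) (nat_lit 5941977503) (nat_lit 1976) (nat_lit 34003365872) (nat_lit 468) (nat_lit 5) (nat_lit 467) (nat_lit 5) (nat_lit 493) (nat_lit 5) (nat_lit 648) (nat_lit 624) (nat_lit 288))) (XT.nd (nat_lit 78) (nat_lit 1140) (nat_lit 0) (XT.lf (nat_lit 0) (nat_lit 10169373107) (nat_lit 1900) (nat_lit 18175450955) (nat_lit 76) (nat_lit 12880781252) (nat_lit 468) (nat_lit 5) (nat_lit 493) (nat_lit 5) (nat_lit 469) (nat_lit 5) (nat_lit 649) (nat_lit 624) (nat_lit 287)) (XT.lf (nat_lit 0) (nat_lit 4042539594) (nat_lit 1140) (nat_lit 9643161835) (nat_lit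 1216) (nat_lit 27984371923) (nat_lit 453) (nat_lit 5) (nat_lit 468) (nat_lit 5) (nat_lit 469) (nat_lit 5) (nat_lit 650) (nat_lit 624) (nat_lit 286))))) (XT.nd (nat_lit 312) (nat_lit 1824) (nat_lit 0) (XT.nd (nat_lit 156) (nat_lit 912) (nat_lit 0) (XT.nd (nat_lit 78) (nat_lit 912) (nat_lit 0) (XT.lf (nat_lit 0) (nat_lit 17455285779) (nat_lit 1216) (nat_lit 15232762195) (nat_lit 76) (nat_lit 9431724218) (nat_lit 453) (nat_lit 5) (nat_lit 469) (nat_lit 5) (nat_lit 454) (nat_lit 5) (nat_lit 651) (nat_lit 624) (nat_lit 285)) (XT.lf (nat_lit 0) (nat_lit 7645348445) (nat_lit 912) (nat_lit 13767347989) (nat_lit 988) (nat_lit 21163519913) (nat_lit 441) (nat_lit 5) (nat_lit 453) (nat_lit 5) (nat_lit 454) (nat_lit 5) (nat_lit 652) (nat_lit 624) (nat_lit 284))) (XT.nd (nat_lit 78) (nat_lit 912) (nat_lit 0) (XT.lf (nat_lit 0) (nat_lit 25587017237) (nat_lit 988) (nat_lit 11889812229) (nat_lit 76) (nat_lit 5562204712) (nat_lit 441) (nat_lit 5) (nat_lit 454) (nat_lit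 5) (nat_lit 442) (nat_lit 5) (nat_lit 653) (nat_lit 624) (nat_lit 283)) (XT.lf (nat_lit 0) (nat_lit 11673023288) (nat_lit 912) (nat_lit 18337734504) (nat_lit 988) (nat_lit 13497031934) (nat_lit 429) (nat_lit 5) (nat_lit 441) (nat_lit 5) (nat_lit 442) (nat_lit 5) (nat_lit 654) (nat_lit 624) (nat_lit 282)))) (XT.nd (nat_lit 156) (nat_lit 988) (nat_lit 0) (XT.nd (nat_lit 78) (nat_lit 836) (nat_lit 0) (XT.lf (nat_lit 0) (nat_lit 34609960929) (nat_lit 988) (nat_lit 8125231239) (nat_lit 76) (nat_lit 1248988491) (nat_lit 429) (nat_lit 5) (nat_lit 442) (nat_lit 5) (nat_lit 430) (nat_lit 5) (nat_lit 655) (nat_lit 624) (nat_lit 281)) (XT.lf (nat_lit 0) (nat_lit 16147879156) (nat_lit 836) (nat_lit 23378557824) (nat_lit 912) (nat_lit 4939156681) (nat_lit 418) (nat_lit 5) (nat_lit 429) (nat_lit 5) (nat_lit 430) (nat_lit 5) (nat_lit 656) (nat_lit 624) (nat_lit 280))) (XT.nd (nat_lit 78) (nat_lit 988) (nat_lit 0) (XT.lf (nat_lit 0) (nat_lit 41015641801) (nat_lit 836)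 (nat_lit 3579142850) (nat_lit 912) (nat_lit 360779456) (nat_lit 418) (nat_lit 5) (nat_lit 429) (nat_lit 5) (nat_lit 430) (nat_lit 5) (nat_lit 657) (nat_lit 624) (nat_lit 279)) (XT.lf (nat_lit 0) (nat_lit 4498136892) (nat_lit 988) (nat_lit 24386816551) (nat_lit 76) (nat_lit 16564911248) (nat_lit 405) (nat_lit 5) (nat_lit 418) (nat_lit 5) (nat_lit 406) (nat_lit 5) (nat_lit 658) (nat_lit 624) (nat_lit 278)))))) (XT.nd (nat_lit 624) (nat_lit 3648) (nat_lit 0) (XT.nd (nat_lit 312) (nat_lit 1596) (nat_lit 0) (XT.nd (nat_lit 156) (nat_lit 836) (nat_lit 0) (XT.nd (nat_lit 78) (nat_lit 0) (nat_lit 0) (XT.lf (nat_lit 0) (nat_lit 647226399) (nat_lit 836) (nat_lit 8855741475) (nat_lit 912) (nat_lit 36449964398) (nat_lit 394) (nat_lit 5) (nat_lit 405) (nat_lit 5) (nat_lit 406) (nat_lit 5) (nat_lit 659) (nat_lit 624) (nat_lit 277)) (XT.lf (nat_lit 0) (nat_lit 14846830023) (nat_lit 912) (nat_lit 20027468057) (nat_lit 76) (nat_lit 11586984460) (nat_lit 394) (nat_lit 5)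 (nat_lit 406) (nat_lit 5) (nat_lit 395) (nat_lit 5) (nat_lit 660) (nat_lit 624) (nat_lit 276))) (XT.nd (nat_lit 78) (nat_lit 0) (nat_lit 0) (XT.lf (nat_lit 0) (nat_lit 5772443325) (nat_lit 836) (nat_lit 14620326393) (nat_lit 912) (nat_lit 26585126114) (nat_lit 383) (nat_lit 5) (nat_lit 394) (nat_lit 5) (nat_lit 395) (nat_lit 5) (nat_lit 661) (nat_lit 624) (nat_lit 275)) (XT.lf (nat_lit 0) (nat_lit 26223206794) (nat_lit 912) (nat_lit 15183382765) (nat_lit 76) (nat_lit 6094780284) (nat_lit 383) (nat_lit 5) (nat_lit 395) (nat_lit 5) (nat_lit 384) (nat_lit 5) (nat_lit 662) (nat_lit 624) (nat_lit 274)))) (XT.nd (nat_lit 156) (nat_lit 836) (nat_lit 0) (XT.nd (nat_lit 78) (nat_lit 0) (nat_lit 0) (XT.lf (nat_lit 0) (nat_lit 11411019086) (nat_lit 760) (nat_lit 20929248992) (nat_lit 836) (nat_lit 15691644969) (nat_lit 373) (nat_lit 5) (nat_lit 383) (nat_lit 5) (nat_lit 384) (nat_lit 5) (nat_lit 663) (nat_lit 624) (nat_lit 273)) (XT.lf (nat_lit 0) (nat_lit 38681074144)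 (nat_lit 836) (nat_lit 9829259999) (nat_lit 76) (nat_lit 60704926) (nat_lit 373) (nat_lit 5) (nat_lit 384) (nat_lit 5) (nat_lit 374) (nat_lit 5) (nat_lit 664) (nat_lit 624) (nat_lit 272))) (XT.nd (nat_lit 78) (nat_lit 76) (nat_lit 0) (XT.lf (nat_lit 0) (nat_lit 17589353947) (nat_lit 760) (nat_lit 27811281126) (nat_lit 836) (nat_lit 3715273787) (nat_lit 363) (nat_lit 5) (nat_lit 373) (nat_lit 5) (nat_lit 374) (nat_lit 5) (nat_lit 665) (nat_lit 624) (nat_lit 271)) (XT.lf (nat_lit 0) (nat_lit 2614570124) (nat_lit 836) (nat_lit 3998926527) (nat_lit 76) (nat_lit 43056533331) (nat_lit 362) (nat_lit 5) (nat_lit 373) (nat_lit 5) (nat_lit 363) (nat_lit 5) (nat_lit 666) (nat_lit 624) (nat_lit 270))))) (XT.nd (nat_lit 312) (nat_lit 1444) (nat_lit 0) (XT.nd (nat_lit 156) (nat_lit 684) (nat_lit 0) (XT.nd (nat_lit 78) (nat_lit 760) (nat_lit 0) (XT.lf (nat_lit 0) (nat_lit 9277366888) (nat_lit 836) (nat_lit 25956858776) (nat_lit 76) (nat_lit 14995394656) (nat_lit 352)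 (nat_lit 5) (nat_lit 363) (nat_lit 5) (nat_lit 353) (nat_lit 5) (nat_lit 667) (nat_lit 624) (nat_lit 269)) (XT.lf (nat_lit 0) (nat_lit 2350137979) (nat_lit 760) (nat_lit 13808515825) (nat_lit 836) (nat_lit 34640043996) (nat_lit 342) (nat_lit 5) (nat_lit 352) (nat_lit 5) (nat_lit 353) (nat_lit 5) (nat_lit 668) (nat_lit 624) (nat_lit 268))) (XT.nd (nat_lit 78) (nat_lit 684) (nat_lit 0) (XT.lf (nat_lit 0) (nat_lit 23404316905) (nat_lit 836) (nat_lit 19854880662) (nat_lit 76) (nat_lit 8115424276) (nat_lit 342) (nat_lit 5) (nat_lit 353) (nat_lit 5) (nat_lit 343) (nat_lit 5) (nat_lit 669) (nat_lit 624) (nat_lit 267)) (XT.lf (nat_lit 0) (nat_lit 9340807181) (nat_lit 684) (nat_lit 21605370759) (nat_lit 760) (nat_lit 21012860753) (nat_lit 333) (nat_lit 5) (nat_lit 342) (nat_lit 5) (nat_lit 343) (nat_lit 5) (nat_lit 670) (nat_lit 624) (nat_lit 266)))) (XT.nd (nat_lit 156) (nat_lit 760) (nat_lit 0) (XT.nd (nat_lit 78) (nat_lit 684) (nat_lit 0) (XT.lf (nat_lit 0)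 (nat_lit 38775321655) (nat_lit 760) (nat_lit 13167874318) (nat_lit 76) (nat_lit 609219018) (nat_lit 333) (nat_lit 5) (nat_lit 343) (nat_lit 5) (nat_lit 334) (nat_lit 5) (nat_lit 671) (nat_lit 624) (nat_lit 265)) (XT.lf (nat_lit 0) (nat_lit 16949792677) (nat_lit 684) (nat_lit 30063602441) (nat_lit 760) (nat_lit 6139216779) (nat_lit 324) (nat_lit 5) (nat_lit 333) (nat_lit 5) (nat_lit 334) (nat_lit 5) (nat_lit 672) (nat_lit 624) (nat_lit 264))) (XT.nd (nat_lit 78) (nat_lit 684) (nat_lit 0) (XT.lf (nat_lit 0) (nat_lit 1717927210) (nat_lit 760) (nat_lit 5926965103) (nat_lit 76) (nat_lit 46117942635) (nat_lit 323) (nat_lit 5) (nat_lit 333) (nat_lit 5) (nat_lit 324) (nat_lit 5) (nat_lit 673) (nat_lit 624) (nat_lit 263)) (XT.lf (nat_lit 0) (nat_lit 9913408763) (nat_lit 760) (nat_lit 29237446659) (nat_lit 76) (nat_lit 15228327475) (nat_lit 314) (nat_lit 5) (nat_lit 324) (nat_lit 5) (nat_lit 315) (nat_lit 5) (nat_lit 674) (nat_lit 624) (nat_lit 262))))))) (XT.nd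 (nat_lit 77844) (nat_lit 0) (nat_lit 14744) (XT.nd (nat_lit 546) (nat_lit 608) (nat_lit 0) (XT.nd (nat_lit 234) (nat_lit 1292) (nat_lit 0) (XT.nd (nat_lit 78) (nat_lit 608) (nat_lit 0) (XT.lf (nat_lit 0) (nat_lit 1877918627) (nat_lit 684) (nat_lit 16496982440) (nat_lit 760) (nat_lit 36630914734) (nat_lit 305) (nat_lit 5) (nat_lit 314) (nat_lit 5) (nat_lit 315) (nat_lit 5) (nat_lit 675) (nat_lit 624) (nat_lit 261)) (XT.nd (nat_lit 78) (nat_lit 608) (nat_lit 0) (XT.lf (nat_lit 0) (nat_lit 27245288999) (nat_lit 760) (nat_lit 21674278107) (nat_lit 76) (nat_lit 6720620960) (nat_lit 305) (nat_lit 5) (nat_lit 315) (nat_lit 5) (nat_lit 306) (nat_lit 5) (nat_lit 676) (nat_lit 624) (nat_lit 260)) (XT.lf (nat_lit 0) (nat_lit 10435120685) (nat_lit 608) (nat_lit 26034233444) (nat_lit 684) (nat_lit 19814368275) (nat_lit 297) (nat_lit 5) (nat_lit 305) (nat_lit 5) (nat_lit 306) (nat_lit 5) (nat_lit 677) (nat_lit 624) (nat_lit 259)))) (XT.nd (nat_lit 156) (nat_lit 684)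 (nat_lit 0) (XT.nd (nat_lit 78) (nat_lit 608) (nat_lit 0) (XT.lf (nat_lit 0) (nat_lit 43479614314) (nat_lit 608) (nat_lit 2543006824) (nat_lit 684) (nat_lit 10914611896) (nat_lit 297) (nat_lit 5) (nat_lit 305) (nat_lit 5) (nat_lit 306) (nat_lit 5) (nat_lit 678) (nat_lit 624) (nat_lit 258)) (XT.lf (nat_lit 0) (nat_lit 19699598236) (nat_lit 608) (nat_lit 36333606171) (nat_lit 684) (nat_lit 1565284468) (nat_lit 289) (nat_lit 5) (nat_lit 297) (nat_lit 5) (nat_lit 298) (nat_lit 5) (nat_lit 679) (nat_lit 624) (nat_lit 257))) (XT.nd (nat_lit 78) (nat_lit 608) (nat_lit 0) (XT.lf (nat_lit 0) (nat_lit 7973526355) (nat_lit 684) (nat_lit 4638867869) (nat_lit 76) (nat_lit 45657399795) (nat_lit 288) (nat_lit 5) (nat_lit 297) (nat_lit 5) (nat_lit 289) (nat_lit 5) (nat_lit 680) (nat_lit 624) (nat_lit 256)) (XT.lf (nat_lit 0) (nat_lit 17950627673) (nat_lit 684) (nat_lit 29362864231) (nat_lit 76) (nat_lit 11635456977) (nat_lit 280) (nat_lit 5) (nat_lit 289) (nat_lit 5)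 (nat_lit 281) (nat_lit 5) (nat_lit 681) (nat_lit 624) (nat_lit 255))))) (XT.nd (nat_lit 76986) (nat_lit 0) (nat_lit 15960) (XT.nd (nat_lit 76830) (nat_lit 0) (nat_lit 15884) (XT.nd (nat_lit 76752) (nat_lit 0) (nat_lit 15884) (XT.lf (nat_lit 0) (nat_lit 4896963451) (nat_lit 608) (nat_lit 23376275228) (nat_lit 684) (nat_lit 31365528824) (nat_lit 272) (nat_lit 5) (nat_lit 280) (nat_lit 5) (nat_lit 281) (nat_lit 5) (nat_lit 682) (nat_lit 624) (nat_lit 254)) (XT.lf (nat_lit 0) (nat_lit 3297748565) (nat_lit 1900) (nat_lit 6479677664) (nat_lit 1900) (nat_lit 6479677664) (nat_lit 481) (nat_lit 3) (nat_lit 506) (nat_lit 3) (nat_lit 506) (nat_lit 5) (nat_lit 625) (nat_lit 625) (nat_lit 310))) (XT.nd (nat_lit 78) (nat_lit 0) (nat_lit 76) (XT.lf (nat_lit 76) (nat_lit 3275319815) (nat_lit 0) (nat_lit 3469873820) (nat_lit 1900) (nat_lit 26092479510) (nat_lit 482) (nat_lit 5) (nat_lit 481) (nat_lit 3) (nat_lit 506) (nat_lit 5) (nat_lit 626) (nat_lit 625) (nat_lit 309))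 (XT.lf (nat_lit 0) (nat_lit 7067779312) (nat_lit 1824) (nat_lit 13240967844) (nat_lit 1900) (nat_lit 12855462797) (nat_lit 482) (nat_lit 5) (nat_lit 506) (nat_lit 5) (nat_lit 507) (nat_lit 5) (nat_lit 627) (nat_lit 625) (nat_lit 308)))) (XT.nd (nat_lit 156) (nat_lit 0) (nat_lit 76) (XT.nd (nat_lit 78) (nat_lit 0) (nat_lit 76) (XT.lf (nat_lit 76) (nat_lit 3427956660) (nat_lit 0) (nat_lit 4012488957) (nat_lit 1900) (nat_lit 26055959352) (nat_lit 483) (nat_lit 5) (nat_lit 482) (nat_lit 5) (nat_lit 507) (nat_lit 5) (nat_lit 628) (nat_lit 625) (nat_lit 307)) (XT.lf (nat_lit 0) (nat_lit 7990301679) (nat_lit 1824) (nat_lit 13307079576) (nat_lit 1900) (nat_lit 12534467948) (nat_lit 483) (nat_lit 5) (nat_lit 507) (nat_lit 5) (nat_lit 508) (nat_lit 5) (nat_lit 629) (nat_lit 625) (nat_lit 306))) (XT.nd (nat_lit 78) (nat_lit 0) (nat_lit 76) (XT.lf (nat_lit 76) (nat_lit 3812058918) (nat_lit 0) (nat_lit 4788873674) (nat_lit 1900) (nat_lit 25572074223) (nat_lit 484)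 (nat_lit 5) (nat_lit 483) (nat_lit 5) (nat_lit 508) (nat_lit 5) (nat_lit 630) (nat_lit 625) (nat_lit 305)) (XT.lf (nat_lit 0) (nat_lit 9390383682) (nat_lit 1824) (nat_lit 13144976715) (nat_lit 1900) (nat_lit 11982295075) (nat_lit 484) (nat_lit 5) (nat_lit 508) (nat_lit 5) (nat_lit 509) (nat_lit 5) (nat_lit 631) (nat_lit 625) (nat_lit 304)))))) (XT.nd (nat_lit 624) (nat_lit 1368) (nat_lit 0) (XT.nd (nat_lit 312) (nat_lit 0) (nat_lit 152) (XT.nd (nat_lit 156) (nat_lit 0) (nat_lit 76) (XT.nd (nat_lit 78) (nat_lit 0) (nat_lit 76) (XT.lf (nat_lit 76) (nat_lit 4440951668) (nat_lit 0) (nat_lit 5813733220) (nat_lit 1900) (nat_lit 24613331038) (nat_lit 485) (nat_lit 5) (nat_lit 484) (nat_lit 5) (nat_lit 509) (nat_lit 5) (nat_lit 632) (nat_lit 625) (nat_lit 303)) (XT.lf (nat_lit 0) (nat_lit 11296598891) (nat_lit 1824) (nat_lit 12741332872) (nat_lit 1900) (nat_lit 11184245335) (nat_lit 485) (nat_lit 5) (nat_lit 509) (nat_lit 5) (nat_lit 510) (nat_lit 5) (nat_lit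 633) (nat_lit 625) (nat_lit 302))) (XT.nd (nat_lit 78) (nat_lit 0) (nat_lit 76) (XT.lf (nat_lit 76) (nat_lit 5328596207) (nat_lit 0) (nat_lit 7102422163) (nat_lit 1900) (nat_lit 23150969822) (nat_lit 486) (nat_lit 5) (nat_lit 485) (nat_lit 5) (nat_lit 510) (nat_lit 5) (nat_lit 634) (nat_lit 625) (nat_lit 301)) (XT.lf (nat_lit 0) (nat_lit 13738830038) (nat_lit 1824) (nat_lit 12082184304) (nat_lit 1900) (nat_lit 10124967134) (nat_lit 486) (nat_lit 5) (nat_lit 510) (nat_lit 5) (nat_lit 511) (nat_lit 5) (nat_lit 635) (nat_lit 625) (nat_lit 300)))) (XT.nd (nat_lit 156) (nat_lit 0) (nat_lit 76) (XT.nd (nat_lit 78) (nat_lit 0) (nat_lit 76) (XT.lf (nat_lit 76) (nat_lit 6489615751) (nat_lit 0) (nat_lit 8670975004) (nat_lit 1900) (nat_lit 21154908054) (nat_lit 487) (nat_lit 5) (nat_lit 486) (nat_lit 5) (nat_lit 511) (nat_lit 5) (nat_lit 636) (nat_lit 625) (nat_lit 299)) (XT.lf (nat_lit 0) (nat_lit 16748326271) (nat_lit 1824) (nat_lit 11152904076) (nat_lit 1900)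 (nat_lit 8788425391) (nat_lit 487) (nat_lit 5) (nat_lit 511) (nat_lit 5) (nat_lit 512) (nat_lit 5) (nat_lit 637) (nat_lit 625) (nat_lit 298))) (XT.nd (nat_lit 78) (nat_lit 0) (nat_lit 76) (XT.lf (nat_lit 76) (nat_lit 7939322231) (nat_lit 0) (nat_lit 10536137962) (nat_lit 1900) (nat_lit 18593682779) (nat_lit 488) (nat_lit 5) (nat_lit 487) (nat_lit 5) (nat_lit 512) (nat_lit 5) (nat_lit 638) (nat_lit 625) (nat_lit 297)) (XT.lf (nat_lit 0) (nat_lit 20357762705) (nat_lit 1824) (nat_lit 9938175130) (nat_lit 1900) (nat_lit 7157869636) (nat_lit 488) (nat_lit 5) (nat_lit 512) (nat_lit 5) (nat_lit 513) (nat_lit 5) (nat_lit 639) (nat_lit 625) (nat_lit 296))))) (XT.nd (nat_lit 312) (nat_lit 1672) (nat_lit 0) (XT.nd (nat_lit 156) (nat_lit 0) (nat_lit 76) (XT.nd (nat_lit 78) (nat_lit 0) (nat_lit 76) (XT.lf (nat_lit 76) (nat_lit 9693744239) (nat_lit 0) (nat_lit 12715401968) (nat_lit 1900) (nat_lit 15434390393) (nat_lit 489) (nat_lit 5) (nat_lit 488) (nat_lit 5) (nat_lit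 513) (nat_lit 5) (nat_lit 640) (nat_lit 625) (nat_lit 295)) (XT.lf (nat_lit 0) (nat_lit 24601302377) (nat_lit 1824) (nat_lit 8421962202) (nat_lit 1900) (nat_lit 5215800870) (nat_lit 489) (nat_lit 5) (nat_lit 513) (nat_lit 5) (nat_lit 514) (nat_lit 5) (nat_lit 641) (nat_lit 625) (nat_lit 294))) (XT.nd (nat_lit 78) (nat_lit 0) (nat_lit 76) (XT.lf (nat_lit 76) (nat_lit 11769656138) (nat_lit 0) (nat_lit 15227036949) (nat_lit 1900) (nat_lit 11642623996) (nat_lit 490) (nat_lit 5) (nat_lit 489) (nat_lit 5) (nat_lit 514) (nat_lit 5) (nat_lit 642) (nat_lit 625) (nat_lit 293)) (XT.lf (nat_lit 0) (nat_lit 29514660696) (nat_lit 1824) (nat_lit 6587482567) (nat_lit 1900) (nat_lit 2943937142) (nat_lit 490) (nat_lit 5) (nat_lit 514) (nat_lit 5) (nat_lit 515) (nat_lit 5) (nat_lit 643) (nat_lit 625) (nat_lit 292)))) (XT.nd (nat_lit 156) (nat_lit 1824) (nat_lit 0) (XT.nd (nat_lit 78) (nat_lit 0) (nat_lit 76) (XT.lf (nat_lit 76) (nat_lit 14184608405) (nat_lit 0) (nat_lit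 18090127440) (nat_lit 1900) (nat_lit 7182408221) (nat_lit 491) (nat_lit 5) (nat_lit 490) (nat_lit 5) (nat_lit 515) (nat_lit 5) (nat_lit 644) (nat_lit 625) (nat_lit 291)) (XT.lf (nat_lit 0) (nat_lit 35135172498) (nat_lit 1824) (nat_lit 4417175556) (nat_lit 1900) (nat_lit 323177780) (nat_lit 491) (nat_lit 5) (nat_lit 515) (nat_lit 5) (nat_lit 516) (nat_lit 5) (nat_lit 645) (nat_lit 625) (nat_lit 290))) (XT.nd (nat_lit 78) (nat_lit 1900) (nat_lit 0) (XT.lf (nat_lit 76) (nat_lit 16956959227) (nat_lit 0) (nat_lit 21324609601) (nat_lit 1900) (nat_lit 2016131424) (nat_lit 492) (nat_lit 5) (nat_lit 491) (nat_lit 5) (nat_lit 516) (nat_lit 5) (nat_lit 646) (nat_lit 625) (nat_lit 289)) (XT.lf (nat_lit 0) (nat_lit 781273453) (nat_lit 1900) (nat_lit 1915353092) (nat_lit 1976) (nat_lit 38031018626) (nat_lit 466) (nat_lit 5) (nat_lit 491) (nat_lit 5) (nat_lit 492) (nat_lit 5) (nat_lit 647) (nat_lit 625) (nat_lit 288))))))))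
noncomputable def xc237 : XT := (XT.nd (nat_lit 2418) (nat_lit 1292) (nat_lit 0) (XT.nd (nat_lit 1170) (nat_lit 6536) (nat_lit 0) (XT.nd (nat_lit 546) (nat_lit 4408) (nat_lit 0) (XT.nd (nat_lit 234) (nat_lit 1976) (nat_lit 0) (XT.nd (nat_lit 78) (nat_lit 0) (nat_lit 0) (XT.lf (nat_lit 0) (nat_lit 3844434353) (nat_lit 1900) (nat_lit 21081077168) (nat_lit 1976) (nat_lit 16235674889) (nat_lit 467) (nat_lit 5) (nat_lit 492) (nat_lit 5) (nat_lit 493) (nat_lit 5) (nat_lit 648) (nat_lit 625) (nat_lit 287)) (XT.nd (nat_lit 78) (nat_lit 0) (nat_lit 76) (XT.lf (nat_lit 76) (nat_lit 931645694) (nat_lit 0) (nat_lit 6072959732) (nat_lit 1976) (nat_lit 34598078140) (nat_lit 468) (nat_lit 5) (nat_lit 467) (nat_lit 5) (nat_lit 493) (nat_lit 5) (nat_lit 649) (nat_lit 625) (nat_lit 286)) (XT.lf (nat_lit 0) (nat_lit 10454721596) (nat_lit 1900) (nat_lit 18467105848) (nat_lit 76) (nat_lit 13126648420) (nat_lit 468) (nat_lit 5) (nat_lit 493) (nat_lit 5) (nat_lit 469) (nat_lit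 5) (nat_lit 650) (nat_lit 625) (nat_lit 285)))) (XT.nd (nat_lit 156) (nat_lit 912) (nat_lit 0) (XT.nd (nat_lit 78) (nat_lit 0) (nat_lit 0) (XT.lf (nat_lit 0) (nat_lit 4194771788) (nat_lit 1140) (nat_lit 9845461073) (nat_lit 1216) (nat_lit 28461623320) (nat_lit 453) (nat_lit 5) (nat_lit 468) (nat_lit 5) (nat_lit 469) (nat_lit 5) (nat_lit 651) (nat_lit 625) (nat_lit 284)) (XT.lf (nat_lit 0) (nat_lit 17883564179) (nat_lit 1216) (nat_lit 15465788709) (nat_lit 76) (nat_lit 9611229049) (nat_lit 453) (nat_lit 5) (nat_lit 469) (nat_lit 5) (nat_lit 454) (nat_lit 5) (nat_lit 652) (nat_lit 625) (nat_lit 283))) (XT.nd (nat_lit 78) (nat_lit 0) (nat_lit 0) (XT.lf (nat_lit 0) (nat_lit 7869412902) (nat_lit 912) (nat_lit 14049619742) (nat_lit 988) (nat_lit 21507144184) (nat_lit 441) (nat_lit 5) (nat_lit 453) (nat_lit 5) (nat_lit 454) (nat_lit 5) (nat_lit 653) (nat_lit 625) (nat_lit 282)) (XT.lf (nat_lit 0) (nat_lit 26175264759) (nat_lit 988) (nat_lit 12056268968) (nat_lit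 76) (nat_lit 5666748833) (nat_lit 441) (nat_lit 5) (nat_lit 454) (nat_lit 5) (nat_lit 442) (nat_lit 5) (nat_lit 654) (nat_lit 625) (nat_lit 281))))) (XT.nd (nat_lit 312) (nat_lit 2660) (nat_lit 0) (XT.nd (nat_lit 156) (nat_lit 836) (nat_lit 0) (XT.nd (nat_lit 78) (nat_lit 0) (nat_lit 0) (XT.lf (nat_lit 0) (nat_lit 11977353920) (nat_lit 912) (nat_lit 18709086200) (nat_lit 988) (nat_lit 13689993941) (nat_lit 429) (nat_lit 5) (nat_lit 441) (nat_lit 5) (nat_lit 442) (nat_lit 5) (nat_lit 655) (nat_lit 625) (nat_lit 280)) (XT.lf (nat_lit 0) (nat_lit 35376118310) (nat_lit 988) (nat_lit 8216744225) (nat_lit 76) (nat_lit 1269520500) (nat_lit 429) (nat_lit 5) (nat_lit 442) (nat_lit 5) (nat_lit 430) (nat_lit 5) (nat_lit 656) (nat_lit 625) (nat_lit 279))) (XT.nd (nat_lit 78) (nat_lit 0) (nat_lit 0) (XT.lf (nat_lit 0) (nat_lit 16541361329) (nat_lit 836) (nat_lit 23848570286) (nat_lit 912) (nat_lit 4963512568) (nat_lit 418) (nat_lit 5) (nat_lit 429) (nat_lit 5) (nat_lit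 430) (nat_lit 5) (nat_lit 657) (nat_lit 625) (nat_lit 278)) (XT.lf (nat_lit 0) (nat_lit 41905096391) (nat_lit 836) (nat_lit 3653119144) (nat_lit 912) (nat_lit 295027157) (nat_lit 418) (nat_lit 5) (nat_lit 429) (nat_lit 5) (nat_lit 430) (nat_lit 5) (nat_lit 658) (nat_lit 625) (nat_lit 277)))) (XT.nd (nat_lit 156) (nat_lit 836) (nat_lit 0) (XT.nd (nat_lit 78) (nat_lit 836) (nat_lit 0) (XT.lf (nat_lit 0) (nat_lit 4659141533) (nat_lit 988) (nat_lit 24803481273) (nat_lit 76) (nat_lit 16894816424) (nat_lit 405) (nat_lit 5) (nat_lit 418) (nat_lit 5) (nat_lit 406) (nat_lit 5) (nat_lit 659) (nat_lit 625) (nat_lit 276)) (XT.lf (nat_lit 0) (nat_lit 730774959) (nat_lit 836) (nat_lit 9032359606) (nat_lit 912) (nat_lit 37107452328) (nat_lit 394) (nat_lit 5) (nat_lit 405) (nat_lit 5) (nat_lit 406) (nat_lit 5) (nat_lit 660) (nat_lit 625) (nat_lit 275))) (XT.nd (nat_lit 78) (nat_lit 836) (nat_lit 0) (XT.lf (nat_lit 0) (nat_lit 15212502465) (nat_lit 912) (nat_lit 20357424445)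 (nat_lit 76) (nat_lit 11819204722) (nat_lit 394) (nat_lit 5) (nat_lit 406) (nat_lit 5) (nat_lit 395) (nat_lit 5) (nat_lit 661) (nat_lit 625) (nat_lit 274)) (XT.lf (nat_lit 0) (nat_lit 5958020737) (nat_lit 836) (nat_lit 14910447776) (nat_lit 912) (nat_lit 27047626562) (nat_lit 383) (nat_lit 5) (nat_lit 394) (nat_lit 5) (nat_lit 395) (nat_lit 5) (nat_lit 662) (nat_lit 625) (nat_lit 273)))))) (XT.nd (nat_lit 624) (nat_lit 3420) (nat_lit 0) (XT.nd (nat_lit 312) (nat_lit 1596) (nat_lit 0) (XT.nd (nat_lit 156) (nat_lit 760) (nat_lit 0) (XT.nd (nat_lit 78) (nat_lit 760) (nat_lit 0) (XT.lf (nat_lit 0) (nat_lit 26814198614) (nat_lit 912) (nat_lit 15416979457) (nat_lit 76) (nat_lit 6218886845) (nat_lit 383) (nat_lit 5) (nat_lit 395) (nat_lit 5) (nat_lit 384) (nat_lit 5) (nat_lit 663) (nat_lit 625) (nat_lit 272)) (XT.lf (nat_lit 0) (nat_lit 11708849438) (nat_lit 760) (nat_lit 21343899175) (nat_lit 836) (nat_lit 15938487456) (nat_lit 373) (nat_lit 5) (nat_lit 383)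 (nat_lit 5) (nat_lit 384) (nat_lit 5) (nat_lit 664) (nat_lit 625) (nat_lit 271))) (XT.nd (nat_lit 78) (nat_lit 760) (nat_lit 0) (XT.lf (nat_lit 0) (nat_lit 39519108099) (nat_lit 836) (nat_lit 9956335726) (nat_lit 76) (nat_lit 65726075) (nat_lit 373) (nat_lit 5) (nat_lit 384) (nat_lit 5) (nat_lit 374) (nat_lit 5) (nat_lit 665) (nat_lit 625) (nat_lit 270)) (XT.lf (nat_lit 0) (nat_lit 18010193199) (nat_lit 760) (nat_lit 28362052390) (nat_lit 836) (nat_lit 3724707823) (nat_lit 363) (nat_lit 5) (nat_lit 373) (nat_lit 5) (nat_lit 374) (nat_lit 5) (nat_lit 666) (nat_lit 625) (nat_lit 269)))) (XT.nd (nat_lit 156) (nat_lit 760) (nat_lit 0) (XT.nd (nat_lit 78) (nat_lit 760) (nat_lit 0) (XT.lf (nat_lit 0) (nat_lit 2729626858) (nat_lit 836) (nat_lit 4010371127) (nat_lit 76) (nat_lit 43922175687) (nat_lit 362) (nat_lit 5) (nat_lit 373) (nat_lit 5) (nat_lit 363) (nat_lit 5) (nat_lit 667) (nat_lit 625) (nat_lit 268)) (XT.lf (nat_lit 0) (nat_lit 9524930551) (nat_lit 836)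 (nat_lit 26406711443) (nat_lit 76) (nat_lit 15301328833) (nat_lit 352) (nat_lit 5) (nat_lit 363) (nat_lit 5) (nat_lit 353) (nat_lit 5) (nat_lit 668) (nat_lit 625) (nat_lit 267))) (XT.nd (nat_lit 78) (nat_lit 0) (nat_lit 0) (XT.lf (nat_lit 0) (nat_lit 2465969428) (nat_lit 760) (nat_lit 14077104653) (nat_lit 836) (nat_lit 35270371190) (nat_lit 342) (nat_lit 5) (nat_lit 352) (nat_lit 5) (nat_lit 353) (nat_lit 5) (nat_lit 669) (nat_lit 625) (nat_lit 266)) (XT.lf (nat_lit 0) (nat_lit 23932497778) (nat_lit 836) (nat_lit 20183344990) (nat_lit 76) (nat_lit 8285068110) (nat_lit 342) (nat_lit 5) (nat_lit 353) (nat_lit 5) (nat_lit 343) (nat_lit 5) (nat_lit 670) (nat_lit 625) (nat_lit 265))))) (XT.nd (nat_lit 312) (nat_lit 1976) (nat_lit 0) (XT.nd (nat_lit 156) (nat_lit 760) (nat_lit 0) (XT.nd (nat_lit 78) (nat_lit 0) (nat_lit 0) (XT.lf (nat_lit 0) (nat_lit 9595805075) (nat_lit 684) (nat_lit 22028655316) (nat_lit 760) (nat_lit 21372570418) (nat_lit 333) (nat_lit 5)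 (nat_lit 342) (nat_lit 5) (nat_lit 343) (nat_lit 5) (nat_lit 671) (nat_lit 625) (nat_lit 264)) (XT.lf (nat_lit 0) (nat_lit 39609079240) (nat_lit 760) (nat_lit 13363277761) (nat_lit 76) (nat_lit 629939815) (nat_lit 333) (nat_lit 5) (nat_lit 343) (nat_lit 5) (nat_lit 334) (nat_lit 5) (nat_lit 672) (nat_lit 625) (nat_lit 263))) (XT.nd (nat_lit 78) (nat_lit 76) (nat_lit 0) (XT.lf (nat_lit 0) (nat_lit 17356295509) (nat_lit 684) (nat_lit 30654914785) (nat_lit 760) (nat_lit 6203301473) (nat_lit 324) (nat_lit 5) (nat_lit 333) (nat_lit 5) (nat_lit 334) (nat_lit 5) (nat_lit 673) (nat_lit 625) (nat_lit 262)) (XT.lf (nat_lit 0) (nat_lit 1809079661) (nat_lit 760) (nat_lit 5978564964) (nat_lit 76) (nat_lit 47049309775) (nat_lit 323) (nat_lit 5) (nat_lit 333) (nat_lit 5) (nat_lit 324) (nat_lit 5) (nat_lit 674) (nat_lit 625) (nat_lit 261)))) (XT.nd (nat_lit 156) (nat_lit 608) (nat_lit 0) (XT.nd (nat_lit 78) (nat_lit 684) (nat_lit 0) (XT.lf (nat_lit 0) (nat_lit 10167856434)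 (nat_lit 760) (nat_lit 29754640399) (nat_lit 76) (nat_lit 15543144790) (nat_lit 314) (nat_lit 5) (nat_lit 324) (nat_lit 5) (nat_lit 315) (nat_lit 5) (nat_lit 675) (nat_lit 625) (nat_lit 260)) (XT.lf (nat_lit 0) (nat_lit 1982587751) (nat_lit 684) (nat_lit 16815325003) (nat_lit 760) (nat_lit 37306907775) (nat_lit 305) (nat_lit 5) (nat_lit 314) (nat_lit 5) (nat_lit 315) (nat_lit 5) (nat_lit 676) (nat_lit 625) (nat_lit 259))) (XT.nd (nat_lit 78) (nat_lit 608) (nat_lit 0) (XT.lf (nat_lit 0) (nat_lit 27844693760) (nat_lit 760) (nat_lit 22040952842) (nat_lit 76) (nat_lit 6866253956) (nat_lit 305) (nat_lit 5) (nat_lit 315) (nat_lit 5) (nat_lit 306) (nat_lit 5) (nat_lit 677) (nat_lit 625) (nat_lit 258)) (XT.lf (nat_lit 0) (nat_lit 10710194381) (nat_lit 608) (nat_lit 26542408131) (nat_lit 684) (nat_lit 20155715850) (nat_lit 297) (nat_lit 5) (nat_lit 305) (nat_lit 5) (nat_lit 306) (nat_lit 5) (nat_lit 678) (nat_lit 625) (nat_lit 257))))))) (XT.nd (nat_lit 77922)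 (nat_lit 0) (nat_lit 13148) (XT.nd (nat_lit 77298) (nat_lit 0) (nat_lit 15352) (XT.nd (nat_lit 234) (nat_lit 608) (nat_lit 0) (XT.nd (nat_lit 78) (nat_lit 684) (nat_lit 0) (XT.lf (nat_lit 0) (nat_lit 44414276485) (nat_lit 608) (nat_lit 2581602272) (nat_lit 684) (nat_lit 11079041594) (nat_lit 297) (nat_lit 5) (nat_lit 305) (nat_lit 5) (nat_lit 306) (nat_lit 5) (nat_lit 679) (nat_lit 625) (nat_lit 256)) (XT.nd (nat_lit 78) (nat_lit 76) (nat_lit 0) (XT.lf (nat_lit 0) (nat_lit 20159203275) (nat_lit 608) (nat_lit 37046939093) (nat_lit 684) (nat_lit 1543269592) (nat_lit 289) (nat_lit 5) (nat_lit 297) (nat_lit 5) (nat_lit 298) (nat_lit 5) (nat_lit 680) (nat_lit 625) (nat_lit 255)) (XT.lf (nat_lit 0) (nat_lit 8184586349) (nat_lit 684) (nat_lit 4666631918) (nat_lit 76) (nat_lit 46582938674) (nat_lit 288) (nat_lit 5) (nat_lit 297) (nat_lit 5) (nat_lit 289) (nat_lit 5) (nat_lit 681) (nat_lit 625) (nat_lit 254)))) (XT.nd (nat_lit 76908) (nat_lit 0) (nat_lit 15276)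 (XT.nd (nat_lit 76830) (nat_lit 0) (nat_lit 15276) (XT.lf (nat_lit 0) (nat_lit 18360725693) (nat_lit 684) (nat_lit 29884603062) (nat_lit 76) (nat_lit 11881576250) (nat_lit 280) (nat_lit 5) (nat_lit 289) (nat_lit 5) (nat_lit 281) (nat_lit 5) (nat_lit 682) (nat_lit 625) (nat_lit 253)) (XT.lf (nat_lit 0) (nat_lit 3425773886) (nat_lit 1900) (nat_lit 6577614400) (nat_lit 1900) (nat_lit 6577614400) (nat_lit 481) (nat_lit 3) (nat_lit 506) (nat_lit 3) (nat_lit 506) (nat_lit 5) (nat_lit 626) (nat_lit 626) (nat_lit 308))) (XT.nd (nat_lit 78) (nat_lit 0) (nat_lit 76) (XT.lf (nat_lit 76) (nat_lit 3403723309) (nat_lit 0) (nat_lit 3598489135) (nat_lit 1900) (nat_lit 26489768182) (nat_lit 482) (nat_lit 5) (nat_lit 481) (nat_lit 3) (nat_lit 506) (nat_lit 5) (nat_lit 627) (nat_lit 626) (nat_lit 307)) (XT.lf (nat_lit 0) (nat_lit 7328478482) (nat_lit 1824) (nat_lit 13441348416) (nat_lit 1900) (nat_lit 13055276772) (nat_lit 482) (nat_lit 5) (nat_lit 506) (nat_lit 5) (nat_lit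 507) (nat_lit 5) (nat_lit 628) (nat_lit 626) (nat_lit 306))))) (XT.nd (nat_lit 312) (nat_lit 0) (nat_lit 152) (XT.nd (nat_lit 156) (nat_lit 0) (nat_lit 76) (XT.nd (nat_lit 78) (nat_lit 0) (nat_lit 76) (XT.lf (nat_lit 76) (nat_lit 3560530639) (nat_lit 0) (nat_lit 4146143031) (nat_lit 1900) (nat_lit 26457307476) (nat_lit 483) (nat_lit 5) (nat_lit 482) (nat_lit 5) (nat_lit 507) (nat_lit 5) (nat_lit 629) (nat_lit 626) (nat_lit 305)) (XT.lf (nat_lit 0) (nat_lit 8264884579) (nat_lit 1824) (nat_lit 13507815771) (nat_lit 1900) (nat_lit 12733486829) (nat_lit 483) (nat_lit 5) (nat_lit 507) (nat_lit 5) (nat_lit 508) (nat_lit 5) (nat_lit 630) (nat_lit 626) (nat_lit 304))) (XT.nd (nat_lit 78) (nat_lit 0) (nat_lit 76) (XT.lf (nat_lit 76) (nat_lit 3953275194) (nat_lit 0) (nat_lit 4932624250) (nat_lit 1900) (nat_lit 25968305140) (nat_lit 484) (nat_lit 5) (nat_lit 483) (nat_lit 5) (nat_lit 508) (nat_lit 5) (nat_lit 631) (nat_lit 626) (nat_lit 303)) (XT.lf (nat_lit 0) (nat_lit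 9688619520) (nat_lit 1824) (nat_lit 13341651800) (nat_lit 1900) (nat_lit 12175525362) (nat_lit 484) (nat_lit 5) (nat_lit 508) (nat_lit 5) (nat_lit 509) (nat_lit 5) (nat_lit 632) (nat_lit 626) (nat_lit 302)))) (XT.nd (nat_lit 156) (nat_lit 0) (nat_lit 76) (XT.nd (nat_lit 78) (nat_lit 0) (nat_lit 76) (XT.lf (nat_lit 76) (nat_lit 4595559463) (nat_lit 0) (nat_lit 5972909173) (nat_lit 1900) (nat_lit 24994730537) (nat_lit 485) (nat_lit 5) (nat_lit 484) (nat_lit 5) (nat_lit 509) (nat_lit 5) (nat_lit 633) (nat_lit 626) (nat_lit 301)) (XT.lf (nat_lit 0) (nat_lit 11628816660) (nat_lit 1824) (nat_lit 12929253278) (nat_lit 1900) (nat_lit 11366421780) (nat_lit 485) (nat_lit 5) (nat_lit 509) (nat_lit 5) (nat_lit 510) (nat_lit 5) (nat_lit 634) (nat_lit 626) (nat_lit 300))) (XT.nd (nat_lit 78) (nat_lit 0) (nat_lit 76) (XT.lf (nat_lit 76) (nat_lit 5501634211) (nat_lit 0) (nat_lit 7282637825) (nat_lit 1900) (nat_lit 23507260111) (nat_lit 486) (nat_lit 5) (nat_lit 485) (nat_lit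 5) (nat_lit 510) (nat_lit 5) (nat_lit 635) (nat_lit 626) (nat_lit 299)) (XT.lf (nat_lit 0) (nat_lit 14115945356) (nat_lit 1824) (nat_lit 12256367504) (nat_lit 1900) (nat_lit 10290538389) (nat_lit 486) (nat_lit 5) (nat_lit 510) (nat_lit 5) (nat_lit 511) (nat_lit 5) (nat_lit 636) (nat_lit 626) (nat_lit 298)))))) (XT.nd (nat_lit 624) (nat_lit 2508) (nat_lit 0) (XT.nd (nat_lit 312) (nat_lit 0) (nat_lit 152) (XT.nd (nat_lit 156) (nat_lit 0) (nat_lit 76) (XT.nd (nat_lit 78) (nat_lit 0) (nat_lit 76) (XT.lf (nat_lit 76) (nat_lit 6686424733) (nat_lit 0) (nat_lit 8878145030) (nat_lit 1900) (nat_lit 21475220658) (nat_lit 487) (nat_lit 5) (nat_lit 486) (nat_lit 5) (nat_lit 511) (nat_lit 5) (nat_lit 637) (nat_lit 626) (nat_lit 297)) (XT.lf (nat_lit 0) (nat_lit 17181869327) (nat_lit 1824) (nat_lit 11308065920) (nat_lit 1900) (nat_lit 8931539114) (nat_lit 487) (nat_lit 5) (nat_lit 511) (nat_lit 5) (nat_lit 512) (nat_lit 5) (nat_lit 638) (nat_lit 626) (nat_lit 296)))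 (XT.nd (nat_lit 78) (nat_lit 0) (nat_lit 76) (XT.lf (nat_lit 76) (nat_lit 8165558228) (nat_lit 0) (nat_lit 10776492754) (nat_lit 1900) (nat_lit 18866530314) (nat_lit 488) (nat_lit 5) (nat_lit 487) (nat_lit 5) (nat_lit 512) (nat_lit 5) (nat_lit 639) (nat_lit 626) (nat_lit 295)) (XT.lf (nat_lit 0) (nat_lit 20859907365) (nat_lit 1824) (nat_lit 10068716595) (nat_lit 1900) (nat_lit 7272357026) (nat_lit 488) (nat_lit 5) (nat_lit 512) (nat_lit 5) (nat_lit 513) (nat_lit 5) (nat_lit 640) (nat_lit 626) (nat_lit 294)))) (XT.nd (nat_lit 156) (nat_lit 0) (nat_lit 76) (XT.nd (nat_lit 78) (nat_lit 0) (nat_lit 76) (XT.lf (nat_lit 76) (nat_lit 9955392333) (nat_lit 0) (nat_lit 12995503696) (nat_lit 1900) (nat_lit 15647637174) (nat_lit 489) (nat_lit 5) (nat_lit 488) (nat_lit 5) (nat_lit 513) (nat_lit 5) (nat_lit 641) (nat_lit 626) (nat_lit 293)) (XT.lf (nat_lit 0) (nat_lit 25184896491) (nat_lit 1824) (nat_lit 8521955556) (nat_lit 1900) (nat_lit 5295160614) (nat_lit 489)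 (nat_lit 5) (nat_lit 513) (nat_lit 5) (nat_lit 514) (nat_lit 5) (nat_lit 642) (nat_lit 626) (nat_lit 292))) (XT.nd (nat_lit 78) (nat_lit 0) (nat_lit 76) (XT.lf (nat_lit 76) (nat_lit 12073044850) (nat_lit 0) (nat_lit 15553796186) (nat_lit 1900) (nat_lit 11783455425) (nat_lit 490) (nat_lit 5) (nat_lit 489) (nat_lit 5) (nat_lit 514) (nat_lit 5) (nat_lit 643) (nat_lit 626) (nat_lit 291)) (XT.lf (nat_lit 0) (nat_lit 30193257664) (nat_lit 1824) (nat_lit 6650656914) (nat_lit 1900) (nat_lit 2981318730) (nat_lit 490) (nat_lit 5) (nat_lit 514) (nat_lit 5) (nat_lit 515) (nat_lit 5) (nat_lit 644) (nat_lit 626) (nat_lit 290))))) (XT.nd (nat_lit 312) (nat_lit 988) (nat_lit 0) (XT.nd (nat_lit 156) (nat_lit 1824) (nat_lit 0) (XT.nd (nat_lit 78) (nat_lit 0) (nat_lit 76) (XT.lf (nat_lit 76) (nat_lit 14536424724) (nat_lit 0) (nat_lit 18470820453) (nat_lit 1900) (nat_lit 7237298899) (nat_lit 491) (nat_lit 5) (nat_lit 490) (nat_lit 5) (nat_lit 515) (nat_lit 5) (nat_lit 645)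 (nat_lit 626) (nat_lit 289)) (XT.lf (nat_lit 0) (nat_lit 35923064149) (nat_lit 1824) (nat_lit 4436901742) (nat_lit 1900) (nat_lit 311364167) (nat_lit 491) (nat_lit 5) (nat_lit 515) (nat_lit 5) (nat_lit 516) (nat_lit 5) (nat_lit 646) (nat_lit 626) (nat_lit 288))) (XT.nd (nat_lit 78) (nat_lit 1900) (nat_lit 0) (XT.lf (nat_lit 76) (nat_lit 17364264306) (nat_lit 0) (nat_lit 21766896320) (nat_lit 1900) (nat_lit 1970811943) (nat_lit 492) (nat_lit 5) (nat_lit 491) (nat_lit 5) (nat_lit 516) (nat_lit 5) (nat_lit 647) (nat_lit 626) (nat_lit 287)) (XT.lf (nat_lit 0) (nat_lit 879760587) (nat_lit 1900) (nat_lit 1885727275) (nat_lit 1976) (nat_lit 38775050597) (nat_lit 466) (nat_lit 5) (nat_lit 491) (nat_lit 5) (nat_lit 492) (nat_lit 5) (nat_lit 648) (nat_lit 626) (nat_lit 286)))) (XT.nd (nat_lit 156) (nat_lit 1064) (nat_lit 0) (XT.nd (nat_lit 78) (nat_lit 0) (nat_lit 0) (XT.lf (nat_lit 0) (nat_lit 4002906005) (nat_lit 1900) (nat_lit 21433484796) (nat_lit 1976) (nat_lit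 16546385342) (nat_lit 467) (nat_lit 5) (nat_lit 492) (nat_lit 5) (nat_lit 493) (nat_lit 5) (nat_lit 649) (nat_lit 626) (nat_lit 285)) (XT.lf (nat_lit 76) (nat_lit 1019037169) (nat_lit 0) (nat_lit 6206090091) (nat_lit 1976) (nat_lit 35207999094) (nat_lit 468) (nat_lit 5) (nat_lit 467) (nat_lit 5) (nat_lit 493) (nat_lit 5) (nat_lit 650) (nat_lit 626) (nat_lit 284))) (XT.nd (nat_lit 78) (nat_lit 1140) (nat_lit 0) (XT.lf (nat_lit 0) (nat_lit 10742594408) (nat_lit 1900) (nat_lit 18767384021) (nat_lit 76) (nat_lit 13377889139) (nat_lit 468) (nat_lit 5) (nat_lit 493) (nat_lit 5) (nat_lit 469) (nat_lit 5) (nat_lit 651) (nat_lit 626) (nat_lit 283)) (XT.lf (nat_lit 0) (nat_lit 4347276798) (nat_lit 1140) (nat_lit 10051439885) (nat_lit 1216) (nat_lit 28951620837) (nat_lit 453) (nat_lit 5) (nat_lit 468) (nat_lit 5) (nat_lit 469) (nat_lit 5) (nat_lit 652) (nat_lit 626) (nat_lit 282))))))))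
noncomputable def xc238 : XT := (XT.nd (nat_lit 79248) (nat_lit 0) (nat_lit 10716) (XT.nd (nat_lit 1170) (nat_lit 5700) (nat_lit 0) (XT.nd (nat_lit 546) (nat_lit 4180) (nat_lit 0) (XT.nd (nat_lit 234) (nat_lit 1748) (nat_lit 0) (XT.nd (nat_lit 78) (nat_lit 912) (nat_lit 0) (XT.lf (nat_lit 0) (nat_lit 18317333776) (nat_lit 1216) (nat_lit 15706257184) (nat_lit 76) (nat_lit 9794678492) (nat_lit 453) (nat_lit 5) (nat_lit 469) (nat_lit 5) (nat_lit 454) (nat_lit 5) (nat_lit 653) (nat_lit 626) (nat_lit 281)) (XT.nd (nat_lit 78) (nat_lit 0) (nat_lit 0) (XT.lf (nat_lit 0) (nat_lit 8095195517) (nat_lit 912) (nat_lit 14337268031) (nat_lit 988) (nat_lit 21860733697) (nat_lit 441) (nat_lit 5) (nat_lit 453) (nat_lit 5) (nat_lit 454) (nat_lit 5) (nat_lit 654) (nat_lit 626) (nat_lit 280)) (XT.lf (nat_lit 0) (nat_lit 26772306364) (nat_lit 988) (nat_lit 12228825042) (nat_lit 76) (nat_lit 5773644004) (nat_lit 441) (nat_lit 5) (nat_lit 454) (nat_lit 5) (nat_lit 442) (nat_lit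 5) (nat_lit 655) (nat_lit 626) (nat_lit 279)))) (XT.nd (nat_lit 156) (nat_lit 836) (nat_lit 0) (XT.nd (nat_lit 78) (nat_lit 0) (nat_lit 0) (XT.lf (nat_lit 0) (nat_lit 12285019190) (nat_lit 912) (nat_lit 19087686423) (nat_lit 988) (nat_lit 13889804362) (nat_lit 429) (nat_lit 5) (nat_lit 441) (nat_lit 5) (nat_lit 442) (nat_lit 5) (nat_lit 656) (nat_lit 626) (nat_lit 278)) (XT.lf (nat_lit 0) (nat_lit 36154726953) (nat_lit 988) (nat_lit 8312844162) (nat_lit 76) (nat_lit 1290635862) (nat_lit 429) (nat_lit 5) (nat_lit 442) (nat_lit 5) (nat_lit 430) (nat_lit 5) (nat_lit 657) (nat_lit 626) (nat_lit 277))) (XT.nd (nat_lit 78) (nat_lit 0) (nat_lit 0) (XT.lf (nat_lit 0) (nat_lit 16939974588) (nat_lit 836) (nat_lit 24327888198) (nat_lit 912) (nat_lit 4991245674) (nat_lit 418) (nat_lit 5) (nat_lit 429) (nat_lit 5) (nat_lit 430) (nat_lit 5) (nat_lit 658) (nat_lit 626) (nat_lit 276)) (XT.lf (nat_lit 0) (nat_lit 42809655215) (nat_lit 836) (nat_lit 3728482024) (nat_lit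 912) (nat_lit 230793244) (nat_lit 418) (nat_lit 5) (nat_lit 429) (nat_lit 5) (nat_lit 430) (nat_lit 5) (nat_lit 659) (nat_lit 626) (nat_lit 275))))) (XT.nd (nat_lit 312) (nat_lit 1520) (nat_lit 0) (XT.nd (nat_lit 156) (nat_lit 836) (nat_lit 0) (XT.nd (nat_lit 78) (nat_lit 836) (nat_lit 0) (XT.lf (nat_lit 0) (nat_lit 4820607624) (nat_lit 988) (nat_lit 25231239087) (nat_lit 76) (nat_lit 17231373797) (nat_lit 405) (nat_lit 5) (nat_lit 418) (nat_lit 5) (nat_lit 406) (nat_lit 5) (nat_lit 660) (nat_lit 626) (nat_lit 274)) (XT.lf (nat_lit 0) (nat_lit 813252850) (nat_lit 836) (nat_lit 9212529386) (nat_lit 912) (nat_lit 37780866889) (nat_lit 394) (nat_lit 5) (nat_lit 405) (nat_lit 5) (nat_lit 406) (nat_lit 5) (nat_lit 661) (nat_lit 626) (nat_lit 273))) (XT.nd (nat_lit 78) (nat_lit 836) (nat_lit 0) (XT.lf (nat_lit 0) (nat_lit 15582819260) (nat_lit 912) (nat_lit 20696721172) (nat_lit 76) (nat_lit 12056050728) (nat_lit 394) (nat_lit 5) (nat_lit 406) (nat_lit 5) (nat_lit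 395) (nat_lit 5) (nat_lit 662) (nat_lit 626) (nat_lit 272)) (XT.lf (nat_lit 0) (nat_lit 6144586521) (nat_lit 836) (nat_lit 15206460322) (nat_lit 912) (nat_lit 27522064219) (nat_lit 383) (nat_lit 5) (nat_lit 394) (nat_lit 5) (nat_lit 395) (nat_lit 5) (nat_lit 663) (nat_lit 626) (nat_lit 271)))) (XT.nd (nat_lit 156) (nat_lit 760) (nat_lit 0) (XT.nd (nat_lit 78) (nat_lit 760) (nat_lit 0) (XT.lf (nat_lit 0) (nat_lit 27414426919) (nat_lit 912) (nat_lit 15657969024) (nat_lit 76) (nat_lit 6345389684) (nat_lit 383) (nat_lit 5) (nat_lit 395) (nat_lit 5) (nat_lit 384) (nat_lit 5) (nat_lit 664) (nat_lit 626) (nat_lit 270)) (XT.lf (nat_lit 0) (nat_lit 12009933357) (nat_lit 760) (nat_lit 21766995155) (nat_lit 836) (nat_lit 16192868112) (nat_lit 373) (nat_lit 5) (nat_lit 383) (nat_lit 5) (nat_lit 384) (nat_lit 5) (nat_lit 665) (nat_lit 626) (nat_lit 269))) (XT.nd (nat_lit 78) (nat_lit 760) (nat_lit 0) (XT.lf (nat_lit 0) (nat_lit 40371401518) (nat_lit 836) (nat_lit 10088652106)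 (nat_lit 76) (nat_lit 70699814) (nat_lit 373) (nat_lit 5) (nat_lit 384) (nat_lit 5) (nat_lit 374) (nat_lit 5) (nat_lit 666) (nat_lit 626) (nat_lit 268)) (XT.lf (nat_lit 0) (nat_lit 18436767856) (nat_lit 760) (nat_lit 28924050878) (nat_lit 836) (nat_lit 3736849578) (nat_lit 363) (nat_lit 5) (nat_lit 373) (nat_lit 5) (nat_lit 374) (nat_lit 5) (nat_lit 667) (nat_lit 626) (nat_lit 267)))))) (XT.nd (nat_lit 624) (nat_lit 2660) (nat_lit 0) (XT.nd (nat_lit 312) (nat_lit 1444) (nat_lit 0) (XT.nd (nat_lit 156) (nat_lit 760) (nat_lit 0) (XT.nd (nat_lit 78) (nat_lit 760) (nat_lit 0) (XT.lf (nat_lit 0) (nat_lit 2844547472) (nat_lit 836) (nat_lit 4024705875) (nat_lit 76) (nat_lit 44804955695) (nat_lit 362) (nat_lit 5) (nat_lit 373) (nat_lit 5) (nat_lit 363) (nat_lit 5) (nat_lit 668) (nat_lit 626) (nat_lit 266)) (XT.lf (nat_lit 0) (nat_lit 9775037318) (nat_lit 836) (nat_lit 26868251566) (nat_lit 76) (nat_lit 15613147686) (nat_lit 352) (nat_lit 5) (nat_lit 363) (nat_lit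 5) (nat_lit 353) (nat_lit 5) (nat_lit 669) (nat_lit 626) (nat_lit 265))) (XT.nd (nat_lit 78) (nat_lit 0) (nat_lit 0) (XT.lf (nat_lit 0) (nat_lit 2581444804) (nat_lit 760) (nat_lit 14351359656) (nat_lit 836) (nat_lit 35915730858) (nat_lit 342) (nat_lit 5) (nat_lit 352) (nat_lit 5) (nat_lit 353) (nat_lit 5) (nat_lit 670) (nat_lit 626) (nat_lit 264)) (XT.lf (nat_lit 0) (nat_lit 24468908723) (nat_lit 836) (nat_lit 20521043720) (nat_lit 76) (nat_lit 8457819981) (nat_lit 342) (nat_lit 5) (nat_lit 353) (nat_lit 5) (nat_lit 343) (nat_lit 5) (nat_lit 671) (nat_lit 626) (nat_lit 263)))) (XT.nd (nat_lit 156) (nat_lit 760) (nat_lit 0) (XT.nd (nat_lit 78) (nat_lit 0) (nat_lit 0) (XT.lf (nat_lit 0) (nat_lit 9853255346) (nat_lit 684) (nat_lit 22460748166) (nat_lit 760) (nat_lit 21741825411) (nat_lit 333) (nat_lit 5) (nat_lit 342) (nat_lit 5) (nat_lit 343) (nat_lit 5) (nat_lit 672) (nat_lit 626) (nat_lit 262)) (XT.lf (nat_lit 0) (nat_lit 40457250014) (nat_lit 760) (nat_lit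 13565228010) (nat_lit 76) (nat_lit 650743549) (nat_lit 333) (nat_lit 5) (nat_lit 343) (nat_lit 5) (nat_lit 334) (nat_lit 5) (nat_lit 673) (nat_lit 626) (nat_lit 261))) (XT.nd (nat_lit 78) (nat_lit 76) (nat_lit 0) (XT.lf (nat_lit 0) (nat_lit 17768307019) (nat_lit 684) (nat_lit 31258440122) (nat_lit 760) (nat_lit 6270947239) (nat_lit 324) (nat_lit 5) (nat_lit 333) (nat_lit 5) (nat_lit 334) (nat_lit 5) (nat_lit 674) (nat_lit 626) (nat_lit 260)) (XT.lf (nat_lit 0) (nat_lit 1899849785) (nat_lit 760) (nat_lit 6033796163) (nat_lit 76) (nat_lit 47998954455) (nat_lit 323) (nat_lit 5) (nat_lit 333) (nat_lit 5) (nat_lit 324) (nat_lit 5) (nat_lit 675) (nat_lit 626) (nat_lit 259))))) (XT.nd (nat_lit 312) (nat_lit 684) (nat_lit 0) (XT.nd (nat_lit 156) (nat_lit 608) (nat_lit 0) (XT.nd (nat_lit 78) (nat_lit 684) (nat_lit 0) (XT.lf (nat_lit 0) (nat_lit 10425211541) (nat_lit 760) (nat_lit 30284801264) (nat_lit 76) (nat_lit 15863860402) (nat_lit 314) (nat_lit 5) (nat_lit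 324) (nat_lit 5) (nat_lit 315) (nat_lit 5) (nat_lit 676) (nat_lit 626) (nat_lit 258)) (XT.lf (nat_lit 0) (nat_lit 2086744265) (nat_lit 684) (nat_lit 17140484746) (nat_lit 760) (nat_lit 37998619505) (nat_lit 305) (nat_lit 5) (nat_lit 314) (nat_lit 5) (nat_lit 315) (nat_lit 5) (nat_lit 677) (nat_lit 626) (nat_lit 257))) (XT.nd (nat_lit 78) (nat_lit 608) (nat_lit 0) (XT.lf (nat_lit 0) (nat_lit 28453970355) (nat_lit 760) (nat_lit 22417555417) (nat_lit 76) (nat_lit 7014363903) (nat_lit 305) (nat_lit 5) (nat_lit 315) (nat_lit 5) (nat_lit 306) (nat_lit 5) (nat_lit 678) (nat_lit 626) (nat_lit 256)) (XT.lf (nat_lit 0) (nat_lit 10988192274) (nat_lit 608) (nat_lit 27061232089) (nat_lit 684) (nat_lit 20506023755) (nat_lit 297) (nat_lit 5) (nat_lit 305) (nat_lit 5) (nat_lit 306) (nat_lit 5) (nat_lit 679) (nat_lit 626) (nat_lit 255)))) (XT.nd (nat_lit 156) (nat_lit 76) (nat_lit 0) (XT.nd (nat_lit 78) (nat_lit 608) (nat_lit 0) (XT.lf (nat_lit 0) (nat_lit 45365105157)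 (nat_lit 608) (nat_lit 2621445882) (nat_lit 684) (nat_lit 11248851434) (nat_lit 297) (nat_lit 5) (nat_lit 305) (nat_lit 5) (nat_lit 306) (nat_lit 5) (nat_lit 680) (nat_lit 626) (nat_lit 254)) (XT.lf (nat_lit 0) (nat_lit 20625452579) (nat_lit 608) (nat_lit 37775056651) (nat_lit 684) (nat_lit 1522884921) (nat_lit 289) (nat_lit 5) (nat_lit 297) (nat_lit 5) (nat_lit 298) (nat_lit 5) (nat_lit 681) (nat_lit 626) (nat_lit 253))) (XT.nd (nat_lit 76908) (nat_lit 0) (nat_lit 14668) (XT.lf (nat_lit 0) (nat_lit 8397864262) (nat_lit 684) (nat_lit 4697475795) (nat_lit 76) (nat_lit 47526507178) (nat_lit 288) (nat_lit 5) (nat_lit 297) (nat_lit 5) (nat_lit 289) (nat_lit 5) (nat_lit 682) (nat_lit 626) (nat_lit 252)) (XT.lf (nat_lit 0) (nat_lit 3553949445) (nat_lit 1900) (nat_lit 6678739144) (nat_lit 1900) (nat_lit 6678739144) (nat_lit 481) (nat_lit 3) (nat_lit 506) (nat_lit 3) (nat_lit 506) (nat_lit 5) (nat_lit 627) (nat_lit 627) (nat_lit 306))))))) (XT.nd (nat_lit 1170)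 (nat_lit 3952) (nat_lit 0) (XT.nd (nat_lit 546) (nat_lit 0) (nat_lit 304) (XT.nd (nat_lit 234) (nat_lit 0) (nat_lit 152) (XT.nd (nat_lit 78) (nat_lit 0) (nat_lit 76) (XT.lf (nat_lit 76) (nat_lit 3532252501) (nat_lit 0) (nat_lit 3727377256) (nat_lit 1900) (nat_lit 26899839480) (nat_lit 482) (nat_lit 5) (nat_lit 481) (nat_lit 3) (nat_lit 506) (nat_lit 5) (nat_lit 628) (nat_lit 627) (nat_lit 305)) (XT.nd (nat_lit 78) (nat_lit 0) (nat_lit 0) (XT.lf (nat_lit 0) (nat_lit 7589757378) (nat_lit 1824) (nat_lit 13648238836) (nat_lit 1900) (nat_lit 13261311872) (nat_lit 482) (nat_lit 5) (nat_lit 506) (nat_lit 5) (nat_lit 507) (nat_lit 5) (nat_lit 629) (nat_lit 627) (nat_lit 304)) (XT.lf (nat_lit 76) (nat_lit 3693270323) (nat_lit 0) (nat_lit 4280396432) (nat_lit 1900) (nat_lit 26871333419) (nat_lit 483) (nat_lit 5) (nat_lit 482) (nat_lit 5) (nat_lit 507) (nat_lit 5) (nat_lit 630) (nat_lit 627) (nat_lit 303)))) (XT.nd (nat_lit 156) (nat_lit 0) (nat_lit 76) (XT.nd (nat_lit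 78) (nat_lit 0) (nat_lit 0) (XT.lf (nat_lit 0) (nat_lit 8540502212) (nat_lit 1824) (nat_lit 13715106460) (nat_lit 1900) (nat_lit 12938492516) (nat_lit 483) (nat_lit 5) (nat_lit 507) (nat_lit 5) (nat_lit 508) (nat_lit 5) (nat_lit 631) (nat_lit 627) (nat_lit 302)) (XT.lf (nat_lit 76) (nat_lit 4094792734) (nat_lit 0) (nat_lit 5077386984) (nat_lit 1900) (nat_lit 26376934441) (nat_lit 484) (nat_lit 5) (nat_lit 483) (nat_lit 5) (nat_lit 508) (nat_lit 5) (nat_lit 632) (nat_lit 627) (nat_lit 301))) (XT.nd (nat_lit 78) (nat_lit 0) (nat_lit 0) (XT.lf (nat_lit 0) (nat_lit 9988532015) (nat_lit 1824) (nat_lit 13544831963) (nat_lit 1900) (nat_lit 12374422629) (nat_lit 484) (nat_lit 5) (nat_lit 508) (nat_lit 5) (nat_lit 509) (nat_lit 5) (nat_lit 633) (nat_lit 627) (nat_lit 300)) (XT.lf (nat_lit 76) (nat_lit 4750704757) (nat_lit 0) (nat_lit 6133602736) (nat_lit 1900) (nat_lit 25388063131) (nat_lit 485) (nat_lit 5) (nat_lit 484) (nat_lit 5) (nat_lit 509) (nat_lit 5) (nat_lit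 634) (nat_lit 627) (nat_lit 299))))) (XT.nd (nat_lit 312) (nat_lit 0) (nat_lit 152) (XT.nd (nat_lit 156) (nat_lit 0) (nat_lit 76) (XT.nd (nat_lit 78) (nat_lit 0) (nat_lit 0) (XT.lf (nat_lit 0) (nat_lit 11963551578) (nat_lit 1824) (nat_lit 13123530143) (nat_lit 1900) (nat_lit 11553853578) (nat_lit 485) (nat_lit 5) (nat_lit 509) (nat_lit 5) (nat_lit 510) (nat_lit 5) (nat_lit 635) (nat_lit 627) (nat_lit 298)) (XT.lf (nat_lit 76) (nat_lit 5675552016) (nat_lit 0) (nat_lit 7464975720) (nat_lit 1900) (nat_lit 23874820627) (nat_lit 486) (nat_lit 5) (nat_lit 485) (nat_lit 5) (nat_lit 510) (nat_lit 5) (nat_lit 636) (nat_lit 627) (nat_lit 297))) (XT.nd (nat_lit 78) (nat_lit 0) (nat_lit 0) (XT.lf (nat_lit 0) (nat_lit 14496629042) (nat_lit 1824) (nat_lit 12436653941) (nat_lit 1900) (nat_lit 10460855032) (nat_lit 486) (nat_lit 5) (nat_lit 510) (nat_lit 5) (nat_lit 511) (nat_lit 5) (nat_lit 637) (nat_lit 627) (nat_lit 296)) (XT.lf (nat_lit 76) (nat_lit 6884567555) (nat_lit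 0) (nat_lit 9088147881) (nat_lit 1900) (nat_lit 21805930802) (nat_lit 487) (nat_lit 5) (nat_lit 486) (nat_lit 5) (nat_lit 511) (nat_lit 5) (nat_lit 638) (nat_lit 627) (nat_lit 295)))) (XT.nd (nat_lit 156) (nat_lit 0) (nat_lit 76) (XT.nd (nat_lit 78) (nat_lit 0) (nat_lit 0) (XT.lf (nat_lit 0) (nat_lit 17620255397) (nat_lit 1824) (nat_lit 11468967494) (nat_lit 1900) (nat_lit 9078783136) (nat_lit 487) (nat_lit 5) (nat_lit 511) (nat_lit 5) (nat_lit 512) (nat_lit 5) (nat_lit 639) (nat_lit 627) (nat_lit 294)) (XT.lf (nat_lit 76) (nat_lit 8393699797) (nat_lit 0) (nat_lit 11020503993) (nat_lit 1900) (nat_lit 19148680104) (nat_lit 488) (nat_lit 5) (nat_lit 487) (nat_lit 5) (nat_lit 512) (nat_lit 5) (nat_lit 640) (nat_lit 627) (nat_lit 293))) (XT.nd (nat_lit 78) (nat_lit 0) (nat_lit 0) (XT.lf (nat_lit 0) (nat_lit 21368406363) (nat_lit 1824) (nat_lit 10204518033) (nat_lit 1900) (nat_lit 7390247455) (nat_lit 488) (nat_lit 5) (nat_lit 512) (nat_lit 5) (nat_lit 513)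 (nat_lit 5) (nat_lit 641) (nat_lit 627) (nat_lit 292)) (XT.lf (nat_lit 76) (nat_lit 10219641673) (nat_lit 0) (nat_lit 13280205857) (nat_lit 1900) (nat_lit 15868854983) (nat_lit 489) (nat_lit 5) (nat_lit 488) (nat_lit 5) (nat_lit 513) (nat_lit 5) (nat_lit 642) (nat_lit 627) (nat_lit 291)))))) (XT.nd (nat_lit 624) (nat_lit 2812) (nat_lit 0) (XT.nd (nat_lit 312) (nat_lit 1748) (nat_lit 0) (XT.nd (nat_lit 156) (nat_lit 0) (nat_lit 76) (XT.nd (nat_lit 78) (nat_lit 0) (nat_lit 0) (XT.lf (nat_lit 0) (nat_lit 25776606787) (nat_lit 1824) (nat_lit 8626606614) (nat_lit 1900) (nat_lit 5377076635) (nat_lit 489) (nat_lit 5) (nat_lit 513) (nat_lit 5) (nat_lit 514) (nat_lit 5) (nat_lit 643) (nat_lit 627) (nat_lit 290)) (XT.lf (nat_lit 76) (nat_lit 12379860984) (nat_lit 0) (nat_lit 15886227836) (nat_lit 1900) (nat_lit 11930676772) (nat_lit 490) (nat_lit 5) (nat_lit 489) (nat_lit 5) (nat_lit 514) (nat_lit 5) (nat_lit 644) (nat_lit 627) (nat_lit 289))) (XT.nd (nat_lit 78)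 (nat_lit 0) (nat_lit 0) (XT.lf (nat_lit 0) (nat_lit 30881997629) (nat_lit 1824) (nat_lit 6717757611) (nat_lit 1900) (nat_lit 3020282711) (nat_lit 490) (nat_lit 5) (nat_lit 514) (nat_lit 5) (nat_lit 515) (nat_lit 5) (nat_lit 645) (nat_lit 627) (nat_lit 288)) (XT.lf (nat_lit 76) (nat_lit 14892632025) (nat_lit 0) (nat_lit 18858393786) (nat_lit 1900) (nat_lit 7296733953) (nat_lit 491) (nat_lit 5) (nat_lit 490) (nat_lit 5) (nat_lit 515) (nat_lit 5) (nat_lit 646) (nat_lit 627) (nat_lit 287)))) (XT.nd (nat_lit 156) (nat_lit 1900) (nat_lit 0) (XT.nd (nat_lit 78) (nat_lit 0) (nat_lit 0) (XT.lf (nat_lit 0) (nat_lit 36723405672) (nat_lit 1824) (nat_lit 4459686946) (nat_lit 1900) (nat_lit 300024006) (nat_lit 491) (nat_lit 5) (nat_lit 515) (nat_lit 5) (nat_lit 516) (nat_lit 5) (nat_lit 647) (nat_lit 627) (nat_lit 286)) (XT.lf (nat_lit 76) (nat_lit 17777068523) (nat_lit 0) (nat_lit 22217415453) (nat_lit 1900) (nat_lit 1927911659) (nat_lit 492) (nat_lit 5) (nat_lit 491)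 (nat_lit 5) (nat_lit 516) (nat_lit 5) (nat_lit 648) (nat_lit 627) (nat_lit 285))) (XT.nd (nat_lit 78) (nat_lit 0) (nat_lit 76) (XT.lf (nat_lit 0) (nat_lit 976999844) (nat_lit 1900) (nat_lit 1858146858) (nat_lit 1976) (nat_lit 39534607356) (nat_lit 466) (nat_lit 5) (nat_lit 491) (nat_lit 5) (nat_lit 492) (nat_lit 5) (nat_lit 649) (nat_lit 627) (nat_lit 284)) (XT.lf (nat_lit 0) (nat_lit 4161379124) (nat_lit 1900) (nat_lit 21795628237) (nat_lit 1976) (nat_lit 16863853760) (nat_lit 467) (nat_lit 5) (nat_lit 492) (nat_lit 5) (nat_lit 493) (nat_lit 5) (nat_lit 650) (nat_lit 627) (nat_lit 283))))) (XT.nd (nat_lit 312) (nat_lit 1824) (nat_lit 0) (XT.nd (nat_lit 156) (nat_lit 1064) (nat_lit 0) (XT.nd (nat_lit 78) (nat_lit 0) (nat_lit 76) (XT.lf (nat_lit 76) (nat_lit 1105506494) (nat_lit 0) (nat_lit 6341429852) (nat_lit 1976) (nat_lit 35833304203) (nat_lit 468) (nat_lit 5) (nat_lit 467) (nat_lit 5) (nat_lit 493) (nat_lit 5) (nat_lit 651) (nat_lit 627) (nat_lit 282))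 (XT.lf (nat_lit 0) (nat_lit 11033165616) (nat_lit 1900) (nat_lit 19076349596) (nat_lit 76) (nat_lit 13634593164) (nat_lit 468) (nat_lit 5) (nat_lit 493) (nat_lit 5) (nat_lit 469) (nat_lit 5) (nat_lit 652) (nat_lit 627) (nat_lit 281))) (XT.nd (nat_lit 78) (nat_lit 0) (nat_lit 0) (XT.lf (nat_lit 0) (nat_lit 4500167716) (nat_lit 1140) (nat_lit 10261186089) (nat_lit 1216) (nat_lit 29454495094) (nat_lit 453) (nat_lit 5) (nat_lit 468) (nat_lit 5) (nat_lit 469) (nat_lit 5) (nat_lit 653) (nat_lit 627) (nat_lit 280)) (XT.lf (nat_lit 0) (nat_lit 18756823774) (nat_lit 1216) (nat_lit 15954208453) (nat_lit 76) (nat_lit 9982137673) (nat_lit 453) (nat_lit 5) (nat_lit 469) (nat_lit 5) (nat_lit 454) (nat_lit 5) (nat_lit 654) (nat_lit 627) (nat_lit 279)))) (XT.nd (nat_lit 156) (nat_lit 912) (nat_lit 0) (XT.nd (nat_lit 78) (nat_lit 0) (nat_lit 0) (XT.lf (nat_lit 0) (nat_lit 8322837947) (nat_lit 912) (nat_lit 14630410829) (nat_lit 988) (nat_lit 22224367660) (nat_lit 441)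 (nat_lit 5) (nat_lit 453) (nat_lit 5) (nat_lit 454) (nat_lit 5) (nat_lit 655) (nat_lit 627) (nat_lit 278)) (XT.lf (nat_lit 0) (nat_lit 27378433297) (nat_lit 988) (nat_lit 12407494868) (nat_lit 76) (nat_lit 5882927145) (nat_lit 441) (nat_lit 5) (nat_lit 454) (nat_lit 5) (nat_lit 442) (nat_lit 5) (nat_lit 656) (nat_lit 627) (nat_lit 277))) (XT.nd (nat_lit 78) (nat_lit 0) (nat_lit 0) (XT.lf (nat_lit 0) (nat_lit 12596192653) (nat_lit 912) (nat_lit 19473687075) (nat_lit 988) (nat_lit 14096484093) (nat_lit 429) (nat_lit 5) (nat_lit 441) (nat_lit 5) (nat_lit 442) (nat_lit 5) (nat_lit 657) (nat_lit 627) (nat_lit 276)) (XT.lf (nat_lit 0) (nat_lit 36946147402) (nat_lit 988) (nat_lit 8413515744) (nat_lit 76) (nat_lit 1312339536) (nat_lit 429) (nat_lit 5) (nat_lit 442) (nat_lit 5) (nat_lit 430) (nat_lit 5) (nat_lit 658) (nat_lit 627) (nat_lit 275))))))))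
noncomputable def xc239 : XT := (XT.nd (nat_lit 79404) (nat_lit 0) (nat_lit 5776) (XT.nd (nat_lit 1170) (nat_lit 2736) (nat_lit 0) (XT.nd (nat_lit 546) (nat_lit 3800) (nat_lit 0) (XT.nd (nat_lit 234) (nat_lit 1672) (nat_lit 0) (XT.nd (nat_lit 78) (nat_lit 988) (nat_lit 0) (XT.lf (nat_lit 0) (nat_lit 17343927899) (nat_lit 836) (nat_lit 24816701351) (nat_lit 912) (nat_lit 5022311317) (nat_lit 418) (nat_lit 5) (nat_lit 429) (nat_lit 5) (nat_lit 430) (nat_lit 5) (nat_lit 659) (nat_lit 627) (nat_lit 274)) (XT.nd (nat_lit 78) (nat_lit 988) (nat_lit 0) (XT.lf (nat_lit 0) (nat_lit 43729724612) (nat_lit 836) (nat_lit 3805262830) (nat_lit 912) (nat_lit 167998059) (nat_lit 418) (nat_lit 5) (nat_lit 429) (nat_lit 5) (nat_lit 430) (nat_lit 5) (nat_lit 660) (nat_lit 627) (nat_lit 273)) (XT.lf (nat_lit 0) (nat_lit 4982651514) (nat_lit 988) (nat_lit 25670204688) (nat_lit 76) (nat_lit 17574714311) (nat_lit 405) (nat_lit 5) (nat_lit 418) (nat_lit 5) (nat_lit 406) (nat_lit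 5) (nat_lit 661) (nat_lit 627) (nat_lit 272)))) (XT.nd (nat_lit 156) (nat_lit 836) (nat_lit 0) (XT.nd (nat_lit 78) (nat_lit 0) (nat_lit 0) (XT.lf (nat_lit 0) (nat_lit 894745120) (nat_lit 836) (nat_lit 9396321101) (nat_lit 912) (nat_lit 38470418785) (nat_lit 394) (nat_lit 5) (nat_lit 405) (nat_lit 5) (nat_lit 406) (nat_lit 5) (nat_lit 662) (nat_lit 627) (nat_lit 271)) (XT.lf (nat_lit 0) (nat_lit 15957976938) (nat_lit 912) (nat_lit 21045438600) (nat_lit 76) (nat_lit 12297615718) (nat_lit 394) (nat_lit 5) (nat_lit 406) (nat_lit 5) (nat_lit 395) (nat_lit 5) (nat_lit 663) (nat_lit 627) (nat_lit 270))) (XT.nd (nat_lit 78) (nat_lit 0) (nat_lit 0) (XT.lf (nat_lit 0) (nat_lit 6332266188) (nat_lit 836) (nat_lit 15508478408) (nat_lit 912) (nat_lit 28008573483) (nat_lit 383) (nat_lit 5) (nat_lit 394) (nat_lit 5) (nat_lit 395) (nat_lit 5) (nat_lit 664) (nat_lit 627) (nat_lit 269)) (XT.lf (nat_lit 0) (nat_lit 28024176754) (nat_lit 912) (nat_lit 15906393665) (nat_lit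 76) (nat_lit 6474340059) (nat_lit 383) (nat_lit 5) (nat_lit 395) (nat_lit 5) (nat_lit 384) (nat_lit 5) (nat_lit 665) (nat_lit 627) (nat_lit 268))))) (XT.nd (nat_lit 312) (nat_lit 2204) (nat_lit 0) (XT.nd (nat_lit 156) (nat_lit 836) (nat_lit 0) (XT.nd (nat_lit 78) (nat_lit 0) (nat_lit 0) (XT.lf (nat_lit 0) (nat_lit 12314440877) (nat_lit 760) (nat_lit 22198699915) (nat_lit 836) (nat_lit 16454836688) (nat_lit 373) (nat_lit 5) (nat_lit 383) (nat_lit 5) (nat_lit 384) (nat_lit 5) (nat_lit 666) (nat_lit 627) (nat_lit 267)) (XT.lf (nat_lit 0) (nat_lit 41238336715) (nat_lit 836) (nat_lit 10226209140) (nat_lit 76) (nat_lit 75630936) (nat_lit 373) (nat_lit 5) (nat_lit 384) (nat_lit 5) (nat_lit 374) (nat_lit 5) (nat_lit 667) (nat_lit 627) (nat_lit 266))) (XT.nd (nat_lit 78) (nat_lit 76) (nat_lit 0) (XT.lf (nat_lit 0) (nat_lit 18869296748) (nat_lit 760) (nat_lit 29497492912) (nat_lit 836) (nat_lit 3751655388) (nat_lit 363) (nat_lit 5) (nat_lit 373) (nat_lit 5) (nat_lit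 374) (nat_lit 5) (nat_lit 668) (nat_lit 627) (nat_lit 265)) (XT.lf (nat_lit 0) (nat_lit 2959423886) (nat_lit 836) (nat_lit 4041885234) (nat_lit 76) (nat_lit 45705222912) (nat_lit 362) (nat_lit 5) (nat_lit 373) (nat_lit 5) (nat_lit 363) (nat_lit 5) (nat_lit 669) (nat_lit 627) (nat_lit 264)))) (XT.nd (nat_lit 156) (nat_lit 684) (nat_lit 0) (XT.nd (nat_lit 78) (nat_lit 760) (nat_lit 0) (XT.lf (nat_lit 0) (nat_lit 10027831564) (nat_lit 836) (nat_lit 27341608421) (nat_lit 76) (nat_lit 15930977995) (nat_lit 352) (nat_lit 5) (nat_lit 363) (nat_lit 5) (nat_lit 353) (nat_lit 5) (nat_lit 670) (nat_lit 627) (nat_lit 263)) (XT.lf (nat_lit 0) (nat_lit 2696660770) (nat_lit 760) (nat_lit 14631382726) (nat_lit 836) (nat_lit 36576329446) (nat_lit 342) (nat_lit 5) (nat_lit 352) (nat_lit 5) (nat_lit 353) (nat_lit 5) (nat_lit 671) (nat_lit 627) (nat_lit 262))) (XT.nd (nat_lit 78) (nat_lit 684) (nat_lit 0) (XT.lf (nat_lit 0) (nat_lit 25013804959) (nat_lit 836) (nat_lit 20868058048)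 (nat_lit 76) (nat_lit 8633753109) (nat_lit 342) (nat_lit 5) (nat_lit 353) (nat_lit 5) (nat_lit 343) (nat_lit 5) (nat_lit 672) (nat_lit 627) (nat_lit 261)) (XT.lf (nat_lit 0) (nat_lit 10113309850) (nat_lit 684) (nat_lit 22901812172) (nat_lit 760) (nat_lit 22120725342) (nat_lit 333) (nat_lit 5) (nat_lit 342) (nat_lit 5) (nat_lit 343) (nat_lit 5) (nat_lit 673) (nat_lit 627) (nat_lit 260)))))) (XT.nd (nat_lit 77610) (nat_lit 0) (nat_lit 13984) (XT.nd (nat_lit 312) (nat_lit 1292) (nat_lit 0) (XT.nd (nat_lit 156) (nat_lit 760) (nat_lit 0) (XT.nd (nat_lit 78) (nat_lit 684) (nat_lit 0) (XT.lf (nat_lit 0) (nat_lit 41320210074) (nat_lit 760) (nat_lit 13773753538) (nat_lit 76) (nat_lit 671644750) (nat_lit 333) (nat_lit 5) (nat_lit 343) (nat_lit 5) (nat_lit 334) (nat_lit 5) (nat_lit 674) (nat_lit 627) (nat_lit 259)) (XT.lf (nat_lit 0) (nat_lit 18186039172) (nat_lit 684) (nat_lit 31874407697) (nat_lit 760) (nat_lit 6342136789) (nat_lit 324) (nat_lit 5) (nat_lit 333)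 (nat_lit 5) (nat_lit 334) (nat_lit 5) (nat_lit 675) (nat_lit 627) (nat_lit 258))) (XT.nd (nat_lit 78) (nat_lit 684) (nat_lit 0) (XT.lf (nat_lit 0) (nat_lit 1990315572) (nat_lit 760) (nat_lit 6092630389) (nat_lit 76) (nat_lit 48967255809) (nat_lit 323) (nat_lit 5) (nat_lit 333) (nat_lit 5) (nat_lit 324) (nat_lit 5) (nat_lit 676) (nat_lit 627) (nat_lit 257)) (XT.lf (nat_lit 0) (nat_lit 10685616943) (nat_lit 760) (nat_lit 30828086732) (nat_lit 76) (nat_lit 16190607733) (nat_lit 314) (nat_lit 5) (nat_lit 324) (nat_lit 5) (nat_lit 315) (nat_lit 5) (nat_lit 677) (nat_lit 627) (nat_lit 256)))) (XT.nd (nat_lit 156) (nat_lit 608) (nat_lit 0) (XT.nd (nat_lit 78) (nat_lit 0) (nat_lit 0) (XT.lf (nat_lit 0) (nat_lit 2190479111) (nat_lit 684) (nat_lit 17472580525) (nat_lit 760) (nat_lit 38706278913) (nat_lit 305) (nat_lit 5) (nat_lit 314) (nat_lit 5) (nat_lit 315) (nat_lit 5) (nat_lit 678) (nat_lit 627) (nat_lit 255)) (XT.lf (nat_lit 0) (nat_lit 29073398397) (nat_lit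 760) (nat_lit 22804183648) (nat_lit 76) (nat_lit 7165017260) (nat_lit 305) (nat_lit 5) (nat_lit 315) (nat_lit 5) (nat_lit 306) (nat_lit 5) (nat_lit 679) (nat_lit 627) (nat_lit 254))) (XT.nd (nat_lit 78) (nat_lit 0) (nat_lit 0) (XT.lf (nat_lit 0) (nat_lit 11269272925) (nat_lit 608) (nat_lit 27590899441) (nat_lit 684) (nat_lit 20865388356) (nat_lit 297) (nat_lit 5) (nat_lit 305) (nat_lit 5) (nat_lit 306) (nat_lit 5) (nat_lit 680) (nat_lit 627) (nat_lit 253)) (XT.lf (nat_lit 0) (nat_lit 46332521776) (nat_lit 608) (nat_lit 2662544123) (nat_lit 684) (nat_lit 11424067802) (nat_lit 297) (nat_lit 5) (nat_lit 305) (nat_lit 5) (nat_lit 306) (nat_lit 5) (nat_lit 681) (nat_lit 627) (nat_lit 252))))) (XT.nd (nat_lit 312) (nat_lit 0) (nat_lit 152) (XT.nd (nat_lit 156) (nat_lit 0) (nat_lit 76) (XT.nd (nat_lit 78) (nat_lit 0) (nat_lit 0) (XT.lf (nat_lit 0) (nat_lit 3682371842) (nat_lit 1900) (nat_lit 6783067921) (nat_lit 1900) (nat_lit 6783067921) (nat_lit 481) (nat_lit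 3) (nat_lit 506) (nat_lit 3) (nat_lit 506) (nat_lit 5) (nat_lit 628) (nat_lit 628) (nat_lit 304)) (XT.lf (nat_lit 76) (nat_lit 3661004747) (nat_lit 0) (nat_lit 3856632931) (nat_lit 1900) (nat_lit 27322761234) (nat_lit 482) (nat_lit 5) (nat_lit 481) (nat_lit 3) (nat_lit 506) (nat_lit 5) (nat_lit 629) (nat_lit 628) (nat_lit 303))) (XT.nd (nat_lit 78) (nat_lit 0) (nat_lit 0) (XT.lf (nat_lit 0) (nat_lit 7851807549) (nat_lit 1824) (nat_lit 13861672136) (nat_lit 1900) (nat_lit 13473606127) (nat_lit 482) (nat_lit 5) (nat_lit 506) (nat_lit 5) (nat_lit 507) (nat_lit 5) (nat_lit 630) (nat_lit 628) (nat_lit 302)) (XT.lf (nat_lit 76) (nat_lit 3826275551) (nat_lit 0) (nat_lit 4415341673) (nat_lit 1900) (nat_lit 27298110139) (nat_lit 483) (nat_lit 5) (nat_lit 482) (nat_lit 5) (nat_lit 507) (nat_lit 5) (nat_lit 631) (nat_lit 628) (nat_lit 301)))) (XT.nd (nat_lit 156) (nat_lit 0) (nat_lit 76) (XT.nd (nat_lit 78) (nat_lit 0) (nat_lit 0) (XT.lf (nat_lit 0) (nat_lit 8817348339)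 (nat_lit 1824) (nat_lit 13928984113) (nat_lit 1900) (nat_lit 13149526832) (nat_lit 483) (nat_lit 5) (nat_lit 507) (nat_lit 5) (nat_lit 508) (nat_lit 5) (nat_lit 632) (nat_lit 628) (nat_lit 300)) (XT.lf (nat_lit 76) (nat_lit 4236715536) (nat_lit 0) (nat_lit 5223254456) (nat_lit 1900) (nat_lit 26798036374) (nat_lit 484) (nat_lit 5) (nat_lit 483) (nat_lit 5) (nat_lit 508) (nat_lit 5) (nat_lit 633) (nat_lit 628) (nat_lit 299))) (XT.nd (nat_lit 78) (nat_lit 0) (nat_lit 0) (XT.lf (nat_lit 0) (nat_lit 10290321210) (nat_lit 1824) (nat_lit 13754547448) (nat_lit 1900) (nat_lit 12579030228) (nat_lit 484) (nat_lit 5) (nat_lit 508) (nat_lit 5) (nat_lit 509) (nat_lit 5) (nat_lit 634) (nat_lit 628) (nat_lit 298)) (XT.lf (nat_lit 76) (nat_lit 4906497498) (nat_lit 0) (nat_lit 6295908950) (nat_lit 1900) (nat_lit 25793400310) (nat_lit 485) (nat_lit 5) (nat_lit 484) (nat_lit 5) (nat_lit 509) (nat_lit 5) (nat_lit 635) (nat_lit 628) (nat_lit 297))))))) (XT.nd (nat_lit 1248)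 (nat_lit 7068) (nat_lit 0) (XT.nd (nat_lit 624) (nat_lit 1444) (nat_lit 0) (XT.nd (nat_lit 312) (nat_lit 0) (nat_lit 152) (XT.nd (nat_lit 156) (nat_lit 0) (nat_lit 76) (XT.nd (nat_lit 78) (nat_lit 0) (nat_lit 0) (XT.lf (nat_lit 0) (nat_lit 12301014251) (nat_lit 1824) (nat_lit 13324189711) (nat_lit 1900) (nat_lit 11746583247) (nat_lit 485) (nat_lit 5) (nat_lit 509) (nat_lit 5) (nat_lit 510) (nat_lit 5) (nat_lit 636) (nat_lit 628) (nat_lit 296)) (XT.lf (nat_lit 76) (nat_lit 5850467439) (nat_lit 0) (nat_lit 7649535845) (nat_lit 1900) (nat_lit 24253715842) (nat_lit 486) (nat_lit 5) (nat_lit 485) (nat_lit 5) (nat_lit 510) (nat_lit 5) (nat_lit 637) (nat_lit 628) (nat_lit 295))) (XT.nd (nat_lit 78) (nat_lit 0) (nat_lit 0) (XT.lf (nat_lit 0) (nat_lit 14881106779) (nat_lit 1824) (nat_lit 12623063958) (nat_lit 1900) (nat_lit 10635956289) (nat_lit 486) (nat_lit 5) (nat_lit 510) (nat_lit 5) (nat_lit 511) (nat_lit 5) (nat_lit 638) (nat_lit 628) (nat_lit 294)) (XT.lf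 (nat_lit 76) (nat_lit 7084171948) (nat_lit 0) (nat_lit 9301091107) (nat_lit 1900) (nat_lit 22147091451) (nat_lit 487) (nat_lit 5) (nat_lit 486) (nat_lit 5) (nat_lit 511) (nat_lit 5) (nat_lit 639) (nat_lit 628) (nat_lit 293)))) (XT.nd (nat_lit 156) (nat_lit 0) (nat_lit 76) (XT.nd (nat_lit 78) (nat_lit 0) (nat_lit 0) (XT.lf (nat_lit 0) (nat_lit 18063729982) (nat_lit 1824) (nat_lit 11635621214) (nat_lit 1900) (nat_lit 9230190825) (nat_lit 487) (nat_lit 5) (nat_lit 511) (nat_lit 5) (nat_lit 512) (nat_lit 5) (nat_lit 640) (nat_lit 628) (nat_lit 292)) (XT.lf (nat_lit 76) (nat_lit 8623886754) (nat_lit 0) (nat_lit 11268289490) (nat_lit 1900) (nat_lit 19440168878) (nat_lit 488) (nat_lit 5) (nat_lit 487) (nat_lit 5) (nat_lit 512) (nat_lit 5) (nat_lit 641) (nat_lit 628) (nat_lit 291))) (XT.nd (nat_lit 78) (nat_lit 0) (nat_lit 0) (XT.lf (nat_lit 0) (nat_lit 21883530019) (nat_lit 1824) (nat_lit 10345581776) (nat_lit 1900) (nat_lit 7511565753) (nat_lit 488) (nat_lit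 5) (nat_lit 512) (nat_lit 5) (nat_lit 513) (nat_lit 5) (nat_lit 642) (nat_lit 628) (nat_lit 290)) (XT.lf (nat_lit 76) (nat_lit 10486646475) (nat_lit 0) (nat_lit 13569639355) (nat_lit 1900) (nat_lit 16098059327) (nat_lit 489) (nat_lit 5) (nat_lit 488) (nat_lit 5) (nat_lit 513) (nat_lit 5) (nat_lit 643) (nat_lit 628) (nat_lit 289))))) (XT.nd (nat_lit 312) (nat_lit 1748) (nat_lit 0) (XT.nd (nat_lit 156) (nat_lit 0) (nat_lit 76) (XT.nd (nat_lit 78) (nat_lit 0) (nat_lit 0) (XT.lf (nat_lit 0) (nat_lit 26376733661) (nat_lit 1824) (nat_lit 8735905324) (nat_lit 1900) (nat_lit 5461562429) (nat_lit 489) (nat_lit 5) (nat_lit 513) (nat_lit 5) (nat_lit 514) (nat_lit 5) (nat_lit 644) (nat_lit 628) (nat_lit 288)) (XT.lf (nat_lit 76) (nat_lit 12690275617) (nat_lit 0) (nat_lit 16224478850) (nat_lit 1900) (nat_lit 12084277081) (nat_lit 490) (nat_lit 5) (nat_lit 489) (nat_lit 5) (nat_lit 514) (nat_lit 5) (nat_lit 645) (nat_lit 628) (nat_lit 287))) (XT.nd (nat_lit 78) (nat_lit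 0) (nat_lit 0) (XT.lf (nat_lit 0) (nat_lit 31581216600) (nat_lit 1824) (nat_lit 6788759782) (nat_lit 1900) (nat_lit 3060828317) (nat_lit 490) (nat_lit 5) (nat_lit 514) (nat_lit 5) (nat_lit 515) (nat_lit 5) (nat_lit 646) (nat_lit 628) (nat_lit 286)) (XT.lf (nat_lit 76) (nat_lit 15253420851) (nat_lit 0) (nat_lit 19253013530) (nat_lit 1900) (nat_lit 7360670434) (nat_lit 491) (nat_lit 5) (nat_lit 490) (nat_lit 5) (nat_lit 515) (nat_lit 5) (nat_lit 647) (nat_lit 628) (nat_lit 285)))) (XT.nd (nat_lit 156) (nat_lit 1900) (nat_lit 0) (XT.nd (nat_lit 78) (nat_lit 0) (nat_lit 0) (XT.lf (nat_lit 0) (nat_lit 37536574516) (nat_lit 1824) (nat_lit 4485488883) (nat_lit 1900) (nat_lit 289139207) (nat_lit 491) (nat_lit 5) (nat_lit 515) (nat_lit 5) (nat_lit 516) (nat_lit 5) (nat_lit 648) (nat_lit 628) (nat_lit 284)) (XT.lf (nat_lit 76) (nat_lit 18195584644) (nat_lit 0) (nat_lit 22676355464) (nat_lit 1900) (nat_lit 1887349821) (nat_lit 492) (nat_lit 5) (nat_lit 491) (nat_lit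 5) (nat_lit 516) (nat_lit 5) (nat_lit 649) (nat_lit 628) (nat_lit 283))) (XT.nd (nat_lit 78) (nat_lit 0) (nat_lit 76) (XT.lf (nat_lit 0) (nat_lit 1073091211) (nat_lit 1900) (nat_lit 1832550315) (nat_lit 1976) (nat_lit 40309974384) (nat_lit 466) (nat_lit 5) (nat_lit 491) (nat_lit 5) (nat_lit 492) (nat_lit 5) (nat_lit 650) (nat_lit 628) (nat_lit 282)) (XT.lf (nat_lit 0) (nat_lit 4319976755) (nat_lit 1900) (nat_lit 22167597843) (nat_lit 1976) (nat_lit 17188194187) (nat_lit 467) (nat_lit 5) (nat_lit 492) (nat_lit 5) (nat_lit 493) (nat_lit 5) (nat_lit 651) (nat_lit 628) (nat_lit 281)))))) (XT.nd (nat_lit 624) (nat_lit 4256) (nat_lit 0) (XT.nd (nat_lit 312) (nat_lit 1824) (nat_lit 0) (XT.nd (nat_lit 156) (nat_lit 1064) (nat_lit 0) (XT.nd (nat_lit 78) (nat_lit 0) (nat_lit 76) (XT.lf (nat_lit 76) (nat_lit 1191138906) (nat_lit 0) (nat_lit 6479040800) (nat_lit 1976) (nat_lit 36474177446) (nat_lit 468) (nat_lit 5) (nat_lit 467) (nat_lit 5) (nat_lit 493) (nat_lit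 5) (nat_lit 652) (nat_lit 628) (nat_lit 280)) (XT.lf (nat_lit 0) (nat_lit 11326607974) (nat_lit 1900) (nat_lit 19394072180) (nat_lit 76) (nat_lit 13896852733) (nat_lit 468) (nat_lit 5) (nat_lit 493) (nat_lit 5) (nat_lit 469) (nat_lit 5) (nat_lit 653) (nat_lit 628) (nat_lit 279))) (XT.nd (nat_lit 78) (nat_lit 0) (nat_lit 0) (XT.lf (nat_lit 0) (nat_lit 4653555712) (nat_lit 1140) (nat_lit 10474788710) (nat_lit 1216) (nat_lit 29970384151) (nat_lit 453) (nat_lit 5) (nat_lit 468) (nat_lit 5) (nat_lit 469) (nat_lit 5) (nat_lit 654) (nat_lit 628) (nat_lit 278)) (XT.lf (nat_lit 0) (nat_lit 19202263328) (nat_lit 1216) (nat_lit 16209688360) (nat_lit 76) (nat_lit 10173673556) (nat_lit 453) (nat_lit 5) (nat_lit 469) (nat_lit 5) (nat_lit 454) (nat_lit 5) (nat_lit 655) (nat_lit 628) (nat_lit 277)))) (XT.nd (nat_lit 156) (nat_lit 912) (nat_lit 0) (XT.nd (nat_lit 78) (nat_lit 0) (nat_lit 0) (XT.lf (nat_lit 0) (nat_lit 8552480519) (nat_lit 912) (nat_lit 14929168064) (nat_lit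 988) (nat_lit 22598131532) (nat_lit 441) (nat_lit 5) (nat_lit 453) (nat_lit 5) (nat_lit 454) (nat_lit 5) (nat_lit 656) (nat_lit 628) (nat_lit 276)) (XT.lf (nat_lit 0) (nat_lit 27993938146) (nat_lit 988) (nat_lit 12592297326) (nat_lit 76) (nat_lit 5994636303) (nat_lit 441) (nat_lit 5) (nat_lit 454) (nat_lit 5) (nat_lit 442) (nat_lit 5) (nat_lit 657) (nat_lit 628) (nat_lit 275))) (XT.nd (nat_lit 78) (nat_lit 0) (nat_lit 0) (XT.lf (nat_lit 0) (nat_lit 12911047186) (nat_lit 912) (nat_lit 19867242826) (nat_lit 988) (nat_lit 14310058953) (nat_lit 429) (nat_lit 5) (nat_lit 441) (nat_lit 5) (nat_lit 442) (nat_lit 5) (nat_lit 658) (nat_lit 628) (nat_lit 274)) (XT.lf (nat_lit 0) (nat_lit 37750743081) (nat_lit 988) (nat_lit 8518747514) (nat_lit 76) (nat_lit 1334636843) (nat_lit 429) (nat_lit 5) (nat_lit 442) (nat_lit 5) (nat_lit 430) (nat_lit 5) (nat_lit 659) (nat_lit 628) (nat_lit 273))))) (XT.nd (nat_lit 312) (nat_lit 1596) (nat_lit 0) (XT.nd (nat_lit 156) (nat_lit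 1824) (nat_lit 0) (XT.nd (nat_lit 78) (nat_lit 0) (nat_lit 0) (XT.lf (nat_lit 0) (nat_lit 17753430274) (nat_lit 836) (nat_lit 25315203188) (nat_lit 912) (nat_lit 5056668279) (nat_lit 418) (nat_lit 5) (nat_lit 429) (nat_lit 5) (nat_lit 430) (nat_lit 5) (nat_lit 660) (nat_lit 628) (nat_lit 272)) (XT.lf (nat_lit 0) (nat_lit 44665715003) (nat_lit 836) (nat_lit 3883493390) (nat_lit 912) (nat_lit 106564624) (nat_lit 418) (nat_lit 5) (nat_lit 429) (nat_lit 5) (nat_lit 430) (nat_lit 5) (nat_lit 661) (nat_lit 628) (nat_lit 271))) (XT.nd (nat_lit 78) (nat_lit 836) (nat_lit 0) (XT.lf (nat_lit 0) (nat_lit 5145387722) (nat_lit 988) (nat_lit 26120499227) (nat_lit 76) (nat_lit 17924971609) (nat_lit 405) (nat_lit 5) (nat_lit 418) (nat_lit 5) (nat_lit 406) (nat_lit 5) (nat_lit 662) (nat_lit 628) (nat_lit 270)) (XT.lf (nat_lit 0) (nat_lit 975334382) (nat_lit 836) (nat_lit 9583806469) (nat_lit 912) (nat_lit 39176327121) (nat_lit 394) (nat_lit 5) (nat_lit 405) (nat_lit 5)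 (nat_lit 406) (nat_lit 5) (nat_lit 663) (nat_lit 628) (nat_lit 269)))) (XT.nd (nat_lit 156) (nat_lit 760) (nat_lit 0) (XT.nd (nat_lit 78) (nat_lit 836) (nat_lit 0) (XT.lf (nat_lit 0) (nat_lit 16338171937) (nat_lit 912) (nat_lit 21403662832) (nat_lit 76) (nat_lit 12543994768) (nat_lit 394) (nat_lit 5) (nat_lit 406) (nat_lit 5) (nat_lit 395) (nat_lit 5) (nat_lit 664) (nat_lit 628) (nat_lit 268)) (XT.lf (nat_lit 0) (nat_lit 6521183653) (nat_lit 836) (nat_lit 15816618833) (nat_lit 912) (nat_lit 28507295491) (nat_lit 383) (nat_lit 5) (nat_lit 394) (nat_lit 5) (nat_lit 395) (nat_lit 5) (nat_lit 665) (nat_lit 628) (nat_lit 267))) (XT.nd (nat_lit 78) (nat_lit 760) (nat_lit 0) (XT.lf (nat_lit 0) (nat_lit 28643734968) (nat_lit 912) (nat_lit 16162300528) (nat_lit 76) (nat_lit 6605790125) (nat_lit 383) (nat_lit 5) (nat_lit 395) (nat_lit 5) (nat_lit 384) (nat_lit 5) (nat_lit 666) (nat_lit 628) (nat_lit 266)) (XT.lf (nat_lit 0) (nat_lit 12622541356) (nat_lit 760) (nat_lit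 22639179926) (nat_lit 836) (nat_lit 16724447852) (nat_lit 373) (nat_lit 5) (nat_lit 383) (nat_lit 5) (nat_lit 384) (nat_lit 5) (nat_lit 667) (nat_lit 628) (nat_lit 265))))))))
noncomputable def xc240 : XT := (XT.nd (nat_lit 79482) (nat_lit 0) (nat_lit 2736) (XT.nd (nat_lit 78234) (nat_lit 0) (nat_lit 13984) (XT.nd (nat_lit 546) (nat_lit 2736) (nat_lit 0) (XT.nd (nat_lit 234) (nat_lit 2204) (nat_lit 0) (XT.nd (nat_lit 78) (nat_lit 836) (nat_lit 0) (XT.lf (nat_lit 0) (nat_lit 42120299881) (nat_lit 836) (nat_lit 10369010900) (nat_lit 76) (nat_lit 80524106) (nat_lit 373) (nat_lit 5) (nat_lit 384) (nat_lit 5) (nat_lit 374) (nat_lit 5) (nat_lit 668) (nat_lit 628) (nat_lit 264)) (XT.nd (nat_lit 78) (nat_lit 76) (nat_lit 0) (XT.lf (nat_lit 0) (nat_lit 19307999036) (nat_lit 760) (nat_lit 30082599455) (nat_lit 836) (nat_lit 3769084514) (nat_lit 363) (nat_lit 5) (nat_lit 373) (nat_lit 5) (nat_lit 374) (nat_lit 5) (nat_lit 669) (nat_lit 628) (nat_lit 263)) (XT.lf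 (nat_lit 0) (nat_lit 3074346182) (nat_lit 836) (nat_lit 4061866770) (nat_lit 76) (nat_lit 46623333621) (nat_lit 362) (nat_lit 5) (nat_lit 373) (nat_lit 5) (nat_lit 363) (nat_lit 5) (nat_lit 670) (nat_lit 628) (nat_lit 262)))) (XT.nd (nat_lit 156) (nat_lit 684) (nat_lit 0) (XT.nd (nat_lit 78) (nat_lit 760) (nat_lit 0) (XT.lf (nat_lit 0) (nat_lit 10283456917) (nat_lit 836) (nat_lit 27826917929) (nat_lit 76) (nat_lit 16254948723) (nat_lit 352) (nat_lit 5) (nat_lit 363) (nat_lit 5) (nat_lit 353) (nat_lit 5) (nat_lit 671) (nat_lit 628) (nat_lit 261)) (XT.lf (nat_lit 0) (nat_lit 2811711891) (nat_lit 760) (nat_lit 14917278236) (nat_lit 836) (nat_lit 37252381190) (nat_lit 342) (nat_lit 5) (nat_lit 352) (nat_lit 5) (nat_lit 353) (nat_lit 5) (nat_lit 672) (nat_lit 628) (nat_lit 260))) (XT.nd (nat_lit 78) (nat_lit 684) (nat_lit 0) (XT.lf (nat_lit 0) (nat_lit 25567443284) (nat_lit 836) (nat_lit 21224474817) (nat_lit 76) (nat_lit 8812941751) (nat_lit 342) (nat_lit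 5) (nat_lit 353) (nat_lit 5) (nat_lit 343) (nat_lit 5) (nat_lit 673) (nat_lit 628) (nat_lit 259)) (XT.lf (nat_lit 0) (nat_lit 10376119490) (nat_lit 684) (nat_lit 23352013969) (nat_lit 760) (nat_lit 22509375357) (nat_lit 333) (nat_lit 5) (nat_lit 342) (nat_lit 5) (nat_lit 343) (nat_lit 5) (nat_lit 674) (nat_lit 628) (nat_lit 258))))) (XT.nd (nat_lit 312) (nat_lit 1292) (nat_lit 0) (XT.nd (nat_lit 156) (nat_lit 760) (nat_lit 0) (XT.nd (nat_lit 78) (nat_lit 684) (nat_lit 0) (XT.lf (nat_lit 0) (nat_lit 42198339632) (nat_lit 760) (nat_lit 13988887362) (nat_lit 76) (nat_lit 692657738) (nat_lit 333) (nat_lit 5) (nat_lit 343) (nat_lit 5) (nat_lit 334) (nat_lit 5) (nat_lit 675) (nat_lit 628) (nat_lit 257)) (XT.lf (nat_lit 0) (nat_lit 18609704220) (nat_lit 684) (nat_lit 32503051917) (nat_lit 760) (nat_lit 6416855922) (nat_lit 324) (nat_lit 5) (nat_lit 333) (nat_lit 5) (nat_lit 334) (nat_lit 5) (nat_lit 676) (nat_lit 628) (nat_lit 256))) (XT.nd (nat_lit 78) (nat_lit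 684) (nat_lit 0) (XT.lf (nat_lit 0) (nat_lit 2080553248) (nat_lit 760) (nat_lit 6155042689) (nat_lit 76) (nat_lit 49954600027) (nat_lit 323) (nat_lit 5) (nat_lit 333) (nat_lit 5) (nat_lit 324) (nat_lit 5) (nat_lit 677) (nat_lit 628) (nat_lit 255)) (XT.lf (nat_lit 0) (nat_lit 10949215067) (nat_lit 760) (nat_lit 31384661388) (nat_lit 76) (nat_lit 16523522275) (nat_lit 314) (nat_lit 5) (nat_lit 324) (nat_lit 5) (nat_lit 315) (nat_lit 5) (nat_lit 678) (nat_lit 628) (nat_lit 254)))) (XT.nd (nat_lit 156) (nat_lit 608) (nat_lit 0) (XT.nd (nat_lit 78) (nat_lit 0) (nat_lit 0) (XT.lf (nat_lit 0) (nat_lit 2293881120) (nat_lit 684) (nat_lit 17811734255) (nat_lit 760) (nat_lit 39430122887) (nat_lit 305) (nat_lit 5) (nat_lit 314) (nat_lit 5) (nat_lit 315) (nat_lit 5) (nat_lit 679) (nat_lit 628) (nat_lit 253)) (XT.lf (nat_lit 0) (nat_lit 29703259901) (nat_lit 760) (nat_lit 23200941218) (nat_lit 76) (nat_lit 7318281156) (nat_lit 305) (nat_lit 5) (nat_lit 315) (nat_lit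 5) (nat_lit 306) (nat_lit 5) (nat_lit 680) (nat_lit 628) (nat_lit 252))) (XT.nd (nat_lit 77142) (nat_lit 0) (nat_lit 13984) (XT.lf (nat_lit 0) (nat_lit 11553594183) (nat_lit 608) (nat_lit 28131608923) (nat_lit 684) (nat_lit 21233911161) (nat_lit 297) (nat_lit 5) (nat_lit 305) (nat_lit 5) (nat_lit 306) (nat_lit 5) (nat_lit 681) (nat_lit 628) (nat_lit 251)) (XT.lf (nat_lit 0) (nat_lit 3811135973) (nat_lit 1900) (nat_lit 6890618932) (nat_lit 1900) (nat_lit 6890618932) (nat_lit 481) (nat_lit 3) (nat_lit 506) (nat_lit 3) (nat_lit 506) (nat_lit 5) (nat_lit 629) (nat_lit 629) (nat_lit 302)))))) (XT.nd (nat_lit 624) (nat_lit 0) (nat_lit 304) (XT.nd (nat_lit 312) (nat_lit 0) (nat_lit 152) (XT.nd (nat_lit 156) (nat_lit 0) (nat_lit 76) (XT.nd (nat_lit 78) (nat_lit 0) (nat_lit 76) (XT.lf (nat_lit 76) (nat_lit 3790075665) (nat_lit 0) (nat_lit 3986349336) (nat_lit 1900) (nat_lit 27758609928) (nat_lit 482) (nat_lit 5) (nat_lit 481) (nat_lit 3) (nat_lit 506) (nat_lit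 5) (nat_lit 630) (nat_lit 629) (nat_lit 301)) (XT.lf (nat_lit 0) (nat_lit 8114817387) (nat_lit 1824) (nat_lit 14081685782) (nat_lit 1900) (nat_lit 13692201679) (nat_lit 482) (nat_lit 5) (nat_lit 506) (nat_lit 5) (nat_lit 507) (nat_lit 5) (nat_lit 631) (nat_lit 629) (nat_lit 300))) (XT.nd (nat_lit 78) (nat_lit 0) (nat_lit 76) (XT.lf (nat_lit 76) (nat_lit 3959644414) (nat_lit 0) (nat_lit 4551069992) (nat_lit 1900) (nat_lit 27737719065) (nat_lit 483) (nat_lit 5) (nat_lit 482) (nat_lit 5) (nat_lit 507) (nat_lit 5) (nat_lit 632) (nat_lit 629) (nat_lit 299)) (XT.lf (nat_lit 0) (nat_lit 9095613879) (nat_lit 1824) (nat_lit 14149485675) (nat_lit 1900) (nat_lit 13366635463) (nat_lit 483) (nat_lit 5) (nat_lit 507) (nat_lit 5) (nat_lit 508) (nat_lit 5) (nat_lit 633) (nat_lit 629) (nat_lit 298)))) (XT.nd (nat_lit 156) (nat_lit 0) (nat_lit 76) (XT.nd (nat_lit 78) (nat_lit 0) (nat_lit 76) (XT.lf (nat_lit 76) (nat_lit 4379145874) (nat_lit 0) (nat_lit 5370318287) (nat_lit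 1900) (nat_lit 27231693414) (nat_lit 484) (nat_lit 5) (nat_lit 483) (nat_lit 5) (nat_lit 508) (nat_lit 5) (nat_lit 634) (nat_lit 629) (nat_lit 297)) (XT.lf (nat_lit 0) (nat_lit 10594184684) (nat_lit 1824) (nat_lit 13970832982) (nat_lit 1900) (nat_lit 12789395095) (nat_lit 484) (nat_lit 5) (nat_lit 508) (nat_lit 5) (nat_lit 509) (nat_lit 5) (nat_lit 635) (nat_lit 629) (nat_lit 296))) (XT.nd (nat_lit 78) (nat_lit 0) (nat_lit 76) (XT.lf (nat_lit 76) (nat_lit 5063045986) (nat_lit 0) (nat_lit 6459922246) (nat_lit 1900) (nat_lit 26210821484) (nat_lit 485) (nat_lit 5) (nat_lit 484) (nat_lit 5) (nat_lit 509) (nat_lit 5) (nat_lit 636) (nat_lit 629) (nat_lit 295)) (XT.lf (nat_lit 0) (nat_lit 12641413278) (nat_lit 1824) (nat_lit 13531262668) (nat_lit 1900) (nat_lit 11944656586) (nat_lit 485) (nat_lit 5) (nat_lit 509) (nat_lit 5) (nat_lit 510) (nat_lit 5) (nat_lit 637) (nat_lit 629) (nat_lit 294))))) (XT.nd (nat_lit 312) (nat_lit 0) (nat_lit 152) (XT.nd (nat_lit 156)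 (nat_lit 0) (nat_lit 76) (XT.nd (nat_lit 78) (nat_lit 0) (nat_lit 76) (XT.lf (nat_lit 76) (nat_lit 6026496764) (nat_lit 0) (nat_lit 7836417960) (nat_lit 1900) (nat_lit 24644017766) (nat_lit 486) (nat_lit 5) (nat_lit 485) (nat_lit 5) (nat_lit 510) (nat_lit 5) (nat_lit 638) (nat_lit 629) (nat_lit 293)) (XT.lf (nat_lit 0) (nat_lit 15269602766) (nat_lit 1824) (nat_lit 12815622257) (nat_lit 1900) (nat_lit 10815884330) (nat_lit 486) (nat_lit 5) (nat_lit 510) (nat_lit 5) (nat_lit 511) (nat_lit 5) (nat_lit 639) (nat_lit 629) (nat_lit 292))) (XT.nd (nat_lit 78) (nat_lit 0) (nat_lit 76) (XT.lf (nat_lit 76) (nat_lit 7285364269) (nat_lit 0) (nat_lit 9517082430) (nat_lit 1900) (nat_lit 22498762647) (nat_lit 487) (nat_lit 5) (nat_lit 486) (nat_lit 5) (nat_lit 511) (nat_lit 5) (nat_lit 640) (nat_lit 629) (nat_lit 291)) (XT.lf (nat_lit 0) (nat_lit 18512537720) (nat_lit 1824) (nat_lit 11808043722) (nat_lit 1900) (nat_lit 9385798127) (nat_lit 487) (nat_lit 5) (nat_lit 511)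 (nat_lit 5) (nat_lit 512) (nat_lit 5) (nat_lit 641) (nat_lit 629) (nat_lit 290)))) (XT.nd (nat_lit 156) (nat_lit 0) (nat_lit 76) (XT.nd (nat_lit 78) (nat_lit 0) (nat_lit 76) (XT.lf (nat_lit 76) (nat_lit 8856257761) (nat_lit 0) (nat_lit 11519967676) (nat_lit 1900) (nat_lit 19741039894) (nat_lit 488) (nat_lit 5) (nat_lit 487) (nat_lit 5) (nat_lit 512) (nat_lit 5) (nat_lit 642) (nat_lit 629) (nat_lit 289)) (XT.lf (nat_lit 0) (nat_lit 22405548493) (nat_lit 1824) (nat_lit 10491914193) (nat_lit 1900) (nat_lit 7636338926) (nat_lit 488) (nat_lit 5) (nat_lit 512) (nat_lit 5) (nat_lit 513) (nat_lit 5) (nat_lit 643) (nat_lit 629) (nat_lit 288))) (XT.nd (nat_lit 78) (nat_lit 0) (nat_lit 76) (XT.lf (nat_lit 76) (nat_lit 10756560075) (nat_lit 0) (nat_lit 13863936199) (nat_lit 1900) (nat_lit 16335271613) (nat_lit 489) (nat_lit 5) (nat_lit 488) (nat_lit 5) (nat_lit 513) (nat_lit 5) (nat_lit 644) (nat_lit 629) (nat_lit 287)) (XT.lf (nat_lit 0) (nat_lit 26985578157) (nat_lit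 1824) (nat_lit 8849845438) (nat_lit 1900) (nat_lit 5548633221) (nat_lit 489) (nat_lit 5) (nat_lit 513) (nat_lit 5) (nat_lit 514) (nat_lit 5) (nat_lit 645) (nat_lit 629) (nat_lit 286))))))) (XT.nd (nat_lit 1170) (nat_lit 7296) (nat_lit 0) (XT.nd (nat_lit 546) (nat_lit 2812) (nat_lit 0) (XT.nd (nat_lit 234) (nat_lit 1748) (nat_lit 0) (XT.nd (nat_lit 78) (nat_lit 0) (nat_lit 76) (XT.lf (nat_lit 76) (nat_lit 13004459266) (nat_lit 0) (nat_lit 16568697817) (nat_lit 1900) (nat_lit 12244250563) (nat_lit 490) (nat_lit 5) (nat_lit 489) (nat_lit 5) (nat_lit 514) (nat_lit 5) (nat_lit 646) (nat_lit 629) (nat_lit 285)) (XT.nd (nat_lit 78) (nat_lit 0) (nat_lit 0) (XT.lf (nat_lit 0) (nat_lit 32291252139) (nat_lit 1824) (nat_lit 6863642069) (nat_lit 1900) (nat_lit 3102956025) (nat_lit 490) (nat_lit 5) (nat_lit 514) (nat_lit 5) (nat_lit 515) (nat_lit 5) (nat_lit 647) (nat_lit 629) (nat_lit 284)) (XT.lf (nat_lit 76) (nat_lit 15618981565) (nat_lit 0) (nat_lit 19654847992)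 (nat_lit 1900) (nat_lit 7429069736) (nat_lit 491) (nat_lit 5) (nat_lit 490) (nat_lit 5) (nat_lit 515) (nat_lit 5) (nat_lit 648) (nat_lit 629) (nat_lit 283)))) (XT.nd (nat_lit 156) (nat_lit 1900) (nat_lit 0) (XT.nd (nat_lit 78) (nat_lit 0) (nat_lit 0) (XT.lf (nat_lit 0) (nat_lit 38362950691) (nat_lit 1824) (nat_lit 4514268440) (nat_lit 1900) (nat_lit 278692389) (nat_lit 491) (nat_lit 5) (nat_lit 515) (nat_lit 5) (nat_lit 516) (nat_lit 5) (nat_lit 649) (nat_lit 629) (nat_lit 282)) (XT.lf (nat_lit 76) (nat_lit 18620025701) (nat_lit 0) (nat_lit 23143907662) (nat_lit 1900) (nat_lit 1849049075) (nat_lit 492) (nat_lit 5) (nat_lit 491) (nat_lit 5) (nat_lit 516) (nat_lit 5) (nat_lit 650) (nat_lit 629) (nat_lit 281))) (XT.nd (nat_lit 78) (nat_lit 0) (nat_lit 76) (XT.lf (nat_lit 0) (nat_lit 1168131822) (nat_lit 1900) (nat_lit 1808878868) (nat_lit 1976) (nat_lit 41101443846) (nat_lit 466) (nat_lit 5) (nat_lit 491) (nat_lit 5) (nat_lit 492) (nat_lit 5) (nat_lit 651)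 (nat_lit 629) (nat_lit 280)) (XT.lf (nat_lit 0) (nat_lit 4478819628) (nat_lit 1900) (nat_lit 22549489824) (nat_lit 1976) (nat_lit 17519523768) (nat_lit 467) (nat_lit 5) (nat_lit 492) (nat_lit 5) (nat_lit 493) (nat_lit 5) (nat_lit 652) (nat_lit 629) (nat_lit 279))))) (XT.nd (nat_lit 312) (nat_lit 1824) (nat_lit 0) (XT.nd (nat_lit 156) (nat_lit 1064) (nat_lit 0) (XT.nd (nat_lit 78) (nat_lit 0) (nat_lit 76) (XT.lf (nat_lit 76) (nat_lit 1276017318) (nat_lit 0) (nat_lit 6618985276) (nat_lit 1976) (nat_lit 37130811281) (nat_lit 468) (nat_lit 5) (nat_lit 467) (nat_lit 5) (nat_lit 493) (nat_lit 5) (nat_lit 653) (nat_lit 629) (nat_lit 278)) (XT.lf (nat_lit 0) (nat_lit 11623093081) (nat_lit 1900) (nat_lit 19720626818) (nat_lit 76) (nat_lit 14164762593) (nat_lit 468) (nat_lit 5) (nat_lit 493) (nat_lit 5) (nat_lit 469) (nat_lit 5) (nat_lit 654) (nat_lit 629) (nat_lit 277))) (XT.nd (nat_lit 78) (nat_lit 0) (nat_lit 0) (XT.lf (nat_lit 0) (nat_lit 4807550166) (nat_lit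 1140) (nat_lit 10692338021) (nat_lit 1216) (nat_lit 30499433466) (nat_lit 453) (nat_lit 5) (nat_lit 468) (nat_lit 5) (nat_lit 469) (nat_lit 5) (nat_lit 655) (nat_lit 629) (nat_lit 276)) (XT.lf (nat_lit 0) (nat_lit 19653881719) (nat_lit 1216) (nat_lit 16472747696) (nat_lit 76) (nat_lit 10369354956) (nat_lit 453) (nat_lit 5) (nat_lit 469) (nat_lit 5) (nat_lit 454) (nat_lit 5) (nat_lit 656) (nat_lit 629) (nat_lit 275)))) (XT.nd (nat_lit 156) (nat_lit 912) (nat_lit 0) (XT.nd (nat_lit 78) (nat_lit 0) (nat_lit 0) (XT.lf (nat_lit 0) (nat_lit 8784262361) (nat_lit 912) (nat_lit 15233661669) (nat_lit 988) (nat_lit 22982116959) (nat_lit 441) (nat_lit 5) (nat_lit 453) (nat_lit 5) (nat_lit 454) (nat_lit 5) (nat_lit 657) (nat_lit 629) (nat_lit 274)) (XT.lf (nat_lit 0) (nat_lit 28619115048) (nat_lit 988) (nat_lit 12783255692) (nat_lit 76) (nat_lit 6108810667) (nat_lit 441) (nat_lit 5) (nat_lit 454) (nat_lit 5) (nat_lit 442) (nat_lit 5) (nat_lit 658) (nat_lit 629) (nat_lit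 273))) (XT.nd (nat_lit 78) (nat_lit 0) (nat_lit 0) (XT.lf (nat_lit 0) (nat_lit 13229755134) (nat_lit 912) (nat_lit 20268511183) (nat_lit 988) (nat_lit 14530559612) (nat_lit 429) (nat_lit 5) (nat_lit 441) (nat_lit 5) (nat_lit 442) (nat_lit 5) (nat_lit 659) (nat_lit 629) (nat_lit 272)) (XT.lf (nat_lit 0) (nat_lit 38568880523) (nat_lit 988) (nat_lit 8628531784) (nat_lit 76) (nat_lit 1357533459) (nat_lit 429) (nat_lit 5) (nat_lit 442) (nat_lit 5) (nat_lit 430) (nat_lit 5) (nat_lit 660) (nat_lit 629) (nat_lit 271)))))) (XT.nd (nat_lit 624) (nat_lit 3040) (nat_lit 0) (XT.nd (nat_lit 312) (nat_lit 1596) (nat_lit 0) (XT.nd (nat_lit 156) (nat_lit 1824) (nat_lit 0) (XT.nd (nat_lit 78) (nat_lit 0) (nat_lit 0) (XT.lf (nat_lit 0) (nat_lit 18168690937) (nat_lit 836) (nat_lit 25823590882) (nat_lit 912) (nat_lit 5094278707) (nat_lit 418) (nat_lit 5) (nat_lit 429) (nat_lit 5) (nat_lit 430) (nat_lit 5) (nat_lit 661) (nat_lit 629) (nat_lit 270)) (XT.lf (nat_lit 0) (nat_lit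 45618041124) (nat_lit 836) (nat_lit 3963206033) (nat_lit 912) (nat_lit 46418527) (nat_lit 418) (nat_lit 5) (nat_lit 429) (nat_lit 5) (nat_lit 430) (nat_lit 5) (nat_lit 662) (nat_lit 629) (nat_lit 269))) (XT.nd (nat_lit 78) (nat_lit 836) (nat_lit 0) (XT.lf (nat_lit 0) (nat_lit 5308929058) (nat_lit 988) (nat_lit 26582250278) (nat_lit 76) (nat_lit 18282282087) (nat_lit 405) (nat_lit 5) (nat_lit 418) (nat_lit 5) (nat_lit 406) (nat_lit 5) (nat_lit 663) (nat_lit 629) (nat_lit 268)) (XT.lf (nat_lit 0) (nat_lit 1055100932) (nat_lit 836) (nat_lit 9775058670) (nat_lit 912) (nat_lit 39898819407) (nat_lit 394) (nat_lit 5) (nat_lit 405) (nat_lit 5) (nat_lit 406) (nat_lit 5) (nat_lit 664) (nat_lit 629) (nat_lit 267)))) (XT.nd (nat_lit 156) (nat_lit 760) (nat_lit 0) (XT.nd (nat_lit 78) (nat_lit 836) (nat_lit 0) (XT.lf (nat_lit 0) (nat_lit 16723600755) (nat_lit 912) (nat_lit 21771485666) (nat_lit 76) (nat_lit 12795284828) (nat_lit 394) (nat_lit 5) (nat_lit 406) (nat_lit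 5) (nat_lit 395) (nat_lit 5) (nat_lit 665) (nat_lit 629) (nat_lit 266)) (XT.lf (nat_lit 0) (nat_lit 6711461365) (nat_lit 836) (nat_lit 16131000861) (nat_lit 912) (nat_lit 29018378097) (nat_lit 383) (nat_lit 5) (nat_lit 394) (nat_lit 5) (nat_lit 395) (nat_lit 5) (nat_lit 666) (nat_lit 629) (nat_lit 265))) (XT.nd (nat_lit 78) (nat_lit 760) (nat_lit 0) (XT.lf (nat_lit 0) (nat_lit 29273390405) (nat_lit 912) (nat_lit 16425741646) (nat_lit 76) (nat_lit 6739792957) (nat_lit 383) (nat_lit 5) (nat_lit 395) (nat_lit 5) (nat_lit 384) (nat_lit 5) (nat_lit 667) (nat_lit 629) (nat_lit 264)) (XT.lf (nat_lit 0) (nat_lit 12934403623) (nat_lit 760) (nat_lit 23088605214) (nat_lit 836) (nat_lit 17001761137) (nat_lit 373) (nat_lit 5) (nat_lit 383) (nat_lit 5) (nat_lit 384) (nat_lit 5) (nat_lit 668) (nat_lit 629) (nat_lit 263))))) (XT.nd (nat_lit 312) (nat_lit 1444) (nat_lit 0) (XT.nd (nat_lit 156) (nat_lit 836) (nat_lit 0) (XT.nd (nat_lit 78) (nat_lit 760) (nat_lit 0) (XT.lf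 (nat_lit 0) (nat_lit 43017681303) (nat_lit 836) (nat_lit 10517065453) (nat_lit 76) (nat_lit 85383869) (nat_lit 373) (nat_lit 5) (nat_lit 384) (nat_lit 5) (nat_lit 374) (nat_lit 5) (nat_lit 669) (nat_lit 629) (nat_lit 262)) (XT.lf (nat_lit 0) (nat_lit 19753094382) (nat_lit 760) (nat_lit 30679596202) (nat_lit 836) (nat_lit 3789099056) (nat_lit 363) (nat_lit 5) (nat_lit 373) (nat_lit 5) (nat_lit 374) (nat_lit 5) (nat_lit 670) (nat_lit 629) (nat_lit 261))) (XT.nd (nat_lit 78) (nat_lit 760) (nat_lit 0) (XT.lf (nat_lit 0) (nat_lit 3189402712) (nat_lit 836) (nat_lit 4084611056) (nat_lit 76) (nat_lit 47559650977) (nat_lit 362) (nat_lit 5) (nat_lit 373) (nat_lit 5) (nat_lit 363) (nat_lit 5) (nat_lit 671) (nat_lit 629) (nat_lit 260)) (XT.lf (nat_lit 0) (nat_lit 10542056393) (nat_lit 836) (nat_lit 28324322626) (nat_lit 76) (nat_lit 16585191073) (nat_lit 352) (nat_lit 5) (nat_lit 363) (nat_lit 5) (nat_lit 353) (nat_lit 5) (nat_lit 672) (nat_lit 629) (nat_lit 259))))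 (XT.nd (nat_lit 156) (nat_lit 684) (nat_lit 0) (XT.nd (nat_lit 78) (nat_lit 0) (nat_lit 0) (XT.lf (nat_lit 0) (nat_lit 2926690753) (nat_lit 760) (nat_lit 15209153073) (nat_lit 836) (nat_lit 37944108124) (nat_lit 342) (nat_lit 5) (nat_lit 352) (nat_lit 5) (nat_lit 353) (nat_lit 5) (nat_lit 673) (nat_lit 629) (nat_lit 258)) (XT.lf (nat_lit 0) (nat_lit 26130082256) (nat_lit 836) (nat_lit 21590386466) (nat_lit 76) (nat_lit 8995461235) (nat_lit 342) (nat_lit 5) (nat_lit 353) (nat_lit 5) (nat_lit 343) (nat_lit 5) (nat_lit 674) (nat_lit 629) (nat_lit 257))) (XT.nd (nat_lit 78) (nat_lit 0) (nat_lit 0) (XT.lf (nat_lit 0) (nat_lit 10641834346) (nat_lit 684) (nat_lit 23811524024) (nat_lit 760) (nat_lit 22907886113) (nat_lit 333) (nat_lit 5) (nat_lit 342) (nat_lit 5) (nat_lit 343) (nat_lit 5) (nat_lit 675) (nat_lit 629) (nat_lit 256)) (XT.lf (nat_lit 0) (nat_lit 43092023222) (nat_lit 760) (nat_lit 14210666987) (nat_lit 76) (nat_lit 713796643) (nat_lit 333) (nat_lit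 5) (nat_lit 343) (nat_lit 5) (nat_lit 334) (nat_lit 5) (nat_lit 676) (nat_lit 629) (nat_lit 255))))))))
noncomputable def xc241 : XT := (XT.nd (nat_lit 79560) (nat_lit 0) (nat_lit 684) (XT.nd (nat_lit 78312) (nat_lit 0) (nat_lit 12236) (XT.nd (nat_lit 77688) (nat_lit 0) (nat_lit 13452) (XT.nd (nat_lit 234) (nat_lit 684) (nat_lit 0) (XT.nd (nat_lit 78) (nat_lit 760) (nat_lit 0) (XT.lf (nat_lit 0) (nat_lit 19039514860) (nat_lit 684) (nat_lit 33144612443) (nat_lit 760) (nat_lit 6495093462) (nat_lit 324) (nat_lit 5) (nat_lit 333) (nat_lit 5) (nat_lit 334) (nat_lit 5) (nat_lit 677) (nat_lit 629) (nat_lit 254)) (XT.nd (nat_lit 78) (nat_lit 684) (nat_lit 0) (XT.lf (nat_lit 0) (nat_lit 2170637366) (nat_lit 760) (nat_lit 6221011374) (nat_lit 76) (nat_lit 50961380514) (nat_lit 323) (nat_lit 5) (nat_lit 333) (nat_lit 5) (nat_lit 324) (nat_lit 5) (nat_lit 678) (nat_lit 629) (nat_lit 253)) (XT.lf (nat_lit 0) (nat_lit 11216148027) (nat_lit 760) (nat_lit 31954696909)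 (nat_lit 76) (nat_lit 16862741650) (nat_lit 314) (nat_lit 5) (nat_lit 324) (nat_lit 5) (nat_lit 315) (nat_lit 5) (nat_lit 679) (nat_lit 629) (nat_lit 252)))) (XT.nd (nat_lit 77298) (nat_lit 0) (nat_lit 13376) (XT.nd (nat_lit 78) (nat_lit 0) (nat_lit 0) (XT.lf (nat_lit 0) (nat_lit 2397037123) (nat_lit 684) (nat_lit 18158070939) (nat_lit 760) (nat_lit 40170396236) (nat_lit 305) (nat_lit 5) (nat_lit 314) (nat_lit 5) (nat_lit 315) (nat_lit 5) (nat_lit 680) (nat_lit 629) (nat_lit 251)) (XT.lf (nat_lit 0) (nat_lit 30343839455) (nat_lit 760) (nat_lit 23607937644) (nat_lit 76) (nat_lit 7474223434) (nat_lit 305) (nat_lit 5) (nat_lit 315) (nat_lit 5) (nat_lit 306) (nat_lit 5) (nat_lit 681) (nat_lit 629) (nat_lit 250))) (XT.nd (nat_lit 78) (nat_lit 0) (nat_lit 0) (XT.lf (nat_lit 0) (nat_lit 3940335137) (nat_lit 1900) (nat_lit 7001412522) (nat_lit 1900) (nat_lit 7001412522) (nat_lit 481) (nat_lit 3) (nat_lit 506) (nat_lit 3) (nat_lit 506) (nat_lit 5) (nat_lit 630)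 (nat_lit 630) (nat_lit 300)) (XT.lf (nat_lit 76) (nat_lit 3919559245) (nat_lit 0) (nat_lit 4116618179) (nat_lit 1900) (nat_lit 28207470582) (nat_lit 482) (nat_lit 5) (nat_lit 481) (nat_lit 3) (nat_lit 506) (nat_lit 5) (nat_lit 631) (nat_lit 630) (nat_lit 299))))) (XT.nd (nat_lit 312) (nat_lit 0) (nat_lit 152) (XT.nd (nat_lit 156) (nat_lit 0) (nat_lit 76) (XT.nd (nat_lit 78) (nat_lit 0) (nat_lit 0) (XT.lf (nat_lit 0) (nat_lit 8378972334) (nat_lit 1824) (nat_lit 14308321615) (nat_lit 1900) (nat_lit 13917144742) (nat_lit 482) (nat_lit 5) (nat_lit 506) (nat_lit 5) (nat_lit 507) (nat_lit 5) (nat_lit 632) (nat_lit 630) (nat_lit 298)) (XT.lf (nat_lit 76) (nat_lit 4093473356) (nat_lit 0) (nat_lit 4687671442) (nat_lit 1900) (nat_lit 28190249998) (nat_lit 483) (nat_lit 5) (nat_lit 482) (nat_lit 5) (nat_lit 507) (nat_lit 5) (nat_lit 633) (nat_lit 630) (nat_lit 297))) (XT.nd (nat_lit 78) (nat_lit 0) (nat_lit 0) (XT.lf (nat_lit 0) (nat_lit 9375487107) (nat_lit 1824)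 (nat_lit 14376652512) (nat_lit 1900) (nat_lit 13589867917) (nat_lit 483) (nat_lit 5) (nat_lit 507) (nat_lit 5) (nat_lit 508) (nat_lit 5) (nat_lit 634) (nat_lit 630) (nat_lit 296)) (XT.lf (nat_lit 76) (nat_lit 4522184412) (nat_lit 0) (nat_lit 5518669235) (nat_lit 1900) (nat_lit 27677996172) (nat_lit 484) (nat_lit 5) (nat_lit 483) (nat_lit 5) (nat_lit 508) (nat_lit 5) (nat_lit 635) (nat_lit 630) (nat_lit 295)))) (XT.nd (nat_lit 156) (nat_lit 0) (nat_lit 76) (XT.nd (nat_lit 78) (nat_lit 0) (nat_lit 0) (XT.lf (nat_lit 0) (nat_lit 10900317753) (nat_lit 1824) (nat_lit 14193727712) (nat_lit 1900) (nat_lit 13005567716) (nat_lit 484) (nat_lit 5) (nat_lit 508) (nat_lit 5) (nat_lit 509) (nat_lit 5) (nat_lit 636) (nat_lit 630) (nat_lit 294)) (XT.lf (nat_lit 76) (nat_lit 5220456981) (nat_lit 0) (nat_lit 6625736528) (nat_lit 1900) (nat_lit 26640413892) (nat_lit 485) (nat_lit 5) (nat_lit 484) (nat_lit 5) (nat_lit 509) (nat_lit 5) (nat_lit 637) (nat_lit 630) (nat_lit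 293))) (XT.nd (nat_lit 78) (nat_lit 0) (nat_lit 0) (XT.lf (nat_lit 0) (nat_lit 12984955443) (nat_lit 1824) (nat_lit 13744784079) (nat_lit 1900) (nat_lit 12148122646) (nat_lit 485) (nat_lit 5) (nat_lit 509) (nat_lit 5) (nat_lit 510) (nat_lit 5) (nat_lit 638) (nat_lit 630) (nat_lit 292)) (XT.lf (nat_lit 76) (nat_lit 6203754858) (nat_lit 0) (nat_lit 8025721673) (nat_lit 1900) (nat_lit 25045805855) (nat_lit 486) (nat_lit 5) (nat_lit 485) (nat_lit 5) (nat_lit 510) (nat_lit 5) (nat_lit 639) (nat_lit 630) (nat_lit 291)))))) (XT.nd (nat_lit 624) (nat_lit 1520) (nat_lit 0) (XT.nd (nat_lit 312) (nat_lit 0) (nat_lit 152) (XT.nd (nat_lit 156) (nat_lit 0) (nat_lit 76) (XT.nd (nat_lit 78) (nat_lit 0) (nat_lit 0) (XT.lf (nat_lit 0) (nat_lit 15662339931) (nat_lit 1824) (nat_lit 13014357827) (nat_lit 1900) (nat_lit 11000684250) (nat_lit 486) (nat_lit 5) (nat_lit 510) (nat_lit 5) (nat_lit 511) (nat_lit 5) (nat_lit 640) (nat_lit 630) (nat_lit 290)) (XT.lf (nat_lit 76) (nat_lit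 7488269635) (nat_lit 0) (nat_lit 9736229826) (nat_lit 1900) (nat_lit 22861011416) (nat_lit 487) (nat_lit 5) (nat_lit 486) (nat_lit 5) (nat_lit 511) (nat_lit 5) (nat_lit 641) (nat_lit 630) (nat_lit 289))) (XT.nd (nat_lit 78) (nat_lit 0) (nat_lit 0) (XT.lf (nat_lit 0) (nat_lit 18966922594) (nat_lit 1824) (nat_lit 11986255811) (nat_lit 1900) (nat_lit 9545643544) (nat_lit 487) (nat_lit 5) (nat_lit 511) (nat_lit 5) (nat_lit 512) (nat_lit 5) (nat_lit 642) (nat_lit 630) (nat_lit 288)) (XT.lf (nat_lit 76) (nat_lit 9090950460) (nat_lit 0) (nat_lit 11775657684) (nat_lit 1900) (nat_lit 20051342852) (nat_lit 488) (nat_lit 5) (nat_lit 487) (nat_lit 5) (nat_lit 512) (nat_lit 5) (nat_lit 643) (nat_lit 630) (nat_lit 287)))) (XT.nd (nat_lit 156) (nat_lit 0) (nat_lit 76) (XT.nd (nat_lit 78) (nat_lit 0) (nat_lit 0) (XT.lf (nat_lit 0) (nat_lit 22934732006) (nat_lit 1824) (nat_lit 10643525624) (nat_lit 1900) (nat_lit 7764596134) (nat_lit 488) (nat_lit 5) (nat_lit 512) (nat_lit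 5) (nat_lit 513) (nat_lit 5) (nat_lit 644) (nat_lit 630) (nat_lit 286)) (XT.lf (nat_lit 76) (nat_lit 11029535058) (nat_lit 0) (nat_lit 14163229587) (nat_lit 1900) (nat_lit 16580519048) (nat_lit 489) (nat_lit 5) (nat_lit 488) (nat_lit 5) (nat_lit 513) (nat_lit 5) (nat_lit 645) (nat_lit 630) (nat_lit 285))) (XT.nd (nat_lit 78) (nat_lit 0) (nat_lit 0) (XT.lf (nat_lit 0) (nat_lit 27603442183) (nat_lit 1824) (nat_lit 8968424438) (nat_lit 1900) (nat_lit 5638305946) (nat_lit 489) (nat_lit 5) (nat_lit 513) (nat_lit 5) (nat_lit 514) (nat_lit 5) (nat_lit 646) (nat_lit 630) (nat_lit 284)) (XT.lf (nat_lit 76) (nat_lit 13322582031) (nat_lit 0) (nat_lit 16919035048) (nat_lit 1900) (nat_lit 12410596493) (nat_lit 490) (nat_lit 5) (nat_lit 489) (nat_lit 5) (nat_lit 514) (nat_lit 5) (nat_lit 647) (nat_lit 630) (nat_lit 283))))) (XT.nd (nat_lit 312) (nat_lit 1824) (nat_lit 0) (XT.nd (nat_lit 156) (nat_lit 0) (nat_lit 76) (XT.nd (nat_lit 78) (nat_lit 0) (nat_lit 0) (XT.lf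 (nat_lit 0) (nat_lit 33012443585) (nat_lit 1824) (nat_lit 6942386549) (nat_lit 1900) (nat_lit 3146667530) (nat_lit 490) (nat_lit 5) (nat_lit 514) (nat_lit 5) (nat_lit 515) (nat_lit 5) (nat_lit 648) (nat_lit 630) (nat_lit 282)) (XT.lf (nat_lit 76) (nat_lit 15989504503) (nat_lit 0) (nat_lit 20064067781) (nat_lit 1900) (nat_lit 7501897471) (nat_lit 491) (nat_lit 5) (nat_lit 490) (nat_lit 5) (nat_lit 515) (nat_lit 5) (nat_lit 649) (nat_lit 630) (nat_lit 281))) (XT.nd (nat_lit 78) (nat_lit 0) (nat_lit 0) (XT.lf (nat_lit 0) (nat_lit 39202917014) (nat_lit 1824) (nat_lit 4545989582) (nat_lit 1900) (nat_lit 268666849) (nat_lit 491) (nat_lit 5) (nat_lit 515) (nat_lit 5) (nat_lit 516) (nat_lit 5) (nat_lit 650) (nat_lit 630) (nat_lit 280)) (XT.lf (nat_lit 76) (nat_lit 19050605150) (nat_lit 0) (nat_lit 23620266292) (nat_lit 1900) (nat_lit 1812935340) (nat_lit 492) (nat_lit 5) (nat_lit 491) (nat_lit 5) (nat_lit 516) (nat_lit 5) (nat_lit 651) (nat_lit 630) (nat_lit 279))))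 (XT.nd (nat_lit 156) (nat_lit 0) (nat_lit 76) (XT.nd (nat_lit 78) (nat_lit 0) (nat_lit 76) (XT.lf (nat_lit 0) (nat_lit 1262216092) (nat_lit 1900) (nat_lit 1787076387) (nat_lit 1976) (nat_lit 41909314683) (nat_lit 466) (nat_lit 5) (nat_lit 491) (nat_lit 5) (nat_lit 492) (nat_lit 5) (nat_lit 652) (nat_lit 630) (nat_lit 278)) (XT.lf (nat_lit 0) (nat_lit 4638026295) (nat_lit 1900) (nat_lit 22941406210) (nat_lit 1976) (nat_lit 17857962780) (nat_lit 467) (nat_lit 5) (nat_lit 492) (nat_lit 5) (nat_lit 493) (nat_lit 5) (nat_lit 653) (nat_lit 630) (nat_lit 277))) (XT.nd (nat_lit 78) (nat_lit 0) (nat_lit 76) (XT.lf (nat_lit 76) (nat_lit 1360222434) (nat_lit 0) (nat_lit 6761326208) (nat_lit 1976) (nat_lit 37803406637) (nat_lit 468) (nat_lit 5) (nat_lit 467) (nat_lit 5) (nat_lit 493) (nat_lit 5) (nat_lit 654) (nat_lit 630) (nat_lit 276)) (XT.lf (nat_lit 0) (nat_lit 11922791532) (nat_lit 1900) (nat_lit 20056093944) (nat_lit 76) (nat_lit 14438420019) (nat_lit 468) (nat_lit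 5) (nat_lit 493) (nat_lit 5) (nat_lit 469) (nat_lit 5) (nat_lit 655) (nat_lit 630) (nat_lit 275))))))) (XT.nd (nat_lit 1170) (nat_lit 4484) (nat_lit 0) (XT.nd (nat_lit 546) (nat_lit 3420) (nat_lit 0) (XT.nd (nat_lit 234) (nat_lit 1748) (nat_lit 0) (XT.nd (nat_lit 78) (nat_lit 912) (nat_lit 0) (XT.lf (nat_lit 0) (nat_lit 4962258781) (nat_lit 1140) (nat_lit 10913925589) (nat_lit 1216) (nat_lit 31041795869) (nat_lit 453) (nat_lit 5) (nat_lit 468) (nat_lit 5) (nat_lit 469) (nat_lit 5) (nat_lit 656) (nat_lit 630) (nat_lit 274)) (XT.nd (nat_lit 78) (nat_lit 912) (nat_lit 0) (XT.lf (nat_lit 0) (nat_lit 20111908531) (nat_lit 1216) (nat_lit 16743442143) (nat_lit 76) (nat_lit 10569252559) (nat_lit 453) (nat_lit 5) (nat_lit 469) (nat_lit 5) (nat_lit 454) (nat_lit 5) (nat_lit 657) (nat_lit 630) (nat_lit 273)) (XT.lf (nat_lit 0) (nat_lit 9018321533) (nat_lit 912) (nat_lit 15544015644) (nat_lit 988) (nat_lit 23376421733) (nat_lit 441) (nat_lit 5) (nat_lit 453) (nat_lit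 5) (nat_lit 454) (nat_lit 5) (nat_lit 658) (nat_lit 630) (nat_lit 272)))) (XT.nd (nat_lit 156) (nat_lit 836) (nat_lit 0) (XT.nd (nat_lit 78) (nat_lit 912) (nat_lit 0) (XT.lf (nat_lit 0) (nat_lit 29254259882) (nat_lit 988) (nat_lit 12980397564) (nat_lit 76) (nat_lit 6225490569) (nat_lit 441) (nat_lit 5) (nat_lit 454) (nat_lit 5) (nat_lit 442) (nat_lit 5) (nat_lit 659) (nat_lit 630) (nat_lit 271)) (XT.lf (nat_lit 0) (nat_lit 13552488457) (nat_lit 912) (nat_lit 20677652553) (nat_lit 988) (nat_lit 14758021515) (nat_lit 429) (nat_lit 5) (nat_lit 441) (nat_lit 5) (nat_lit 442) (nat_lit 5) (nat_lit 660) (nat_lit 630) (nat_lit 270))) (XT.nd (nat_lit 78) (nat_lit 836) (nat_lit 0) (XT.lf (nat_lit 0) (nat_lit 39400929586) (nat_lit 988) (nat_lit 8742864549) (nat_lit 76) (nat_lit 1381035416) (nat_lit 429) (nat_lit 5) (nat_lit 442) (nat_lit 5) (nat_lit 430) (nat_lit 5) (nat_lit 661) (nat_lit 630) (nat_lit 269)) (XT.lf (nat_lit 0) (nat_lit 18589919483) (nat_lit 836)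 (nat_lit 26342065421) (nat_lit 912) (nat_lit 5135108016) (nat_lit 418) (nat_lit 5) (nat_lit 429) (nat_lit 5) (nat_lit 430) (nat_lit 5) (nat_lit 662) (nat_lit 630) (nat_lit 268))))) (XT.nd (nat_lit 312) (nat_lit 1596) (nat_lit 0) (XT.nd (nat_lit 156) (nat_lit 836) (nat_lit 0) (XT.nd (nat_lit 78) (nat_lit 912) (nat_lit 0) (XT.lf (nat_lit 0) (nat_lit 12348085) (nat_lit 912) (nat_lit 4032002658) (nat_lit 76) (nat_lit 46574691319) (nat_lit 417) (nat_lit 5) (nat_lit 429) (nat_lit 5) (nat_lit 418) (nat_lit 5) (nat_lit 663) (nat_lit 630) (nat_lit 267)) (XT.lf (nat_lit 0) (nat_lit 5473386744) (nat_lit 988) (nat_lit 27055591810) (nat_lit 76) (nat_lit 18646784943) (nat_lit 405) (nat_lit 5) (nat_lit 418) (nat_lit 5) (nat_lit 406) (nat_lit 5) (nat_lit 664) (nat_lit 630) (nat_lit 266))) (XT.nd (nat_lit 78) (nat_lit 0) (nat_lit 0) (XT.lf (nat_lit 0) (nat_lit 1134122848) (nat_lit 836) (nat_lit 9970152378) (nat_lit 912) (nat_lit 40638131574) (nat_lit 394) (nat_lit 5) (nat_lit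 405) (nat_lit 5) (nat_lit 406) (nat_lit 5) (nat_lit 665) (nat_lit 630) (nat_lit 265)) (XT.lf (nat_lit 0) (nat_lit 17114460100) (nat_lit 912) (nat_lit 22149004553) (nat_lit 76) (nat_lit 13051584762) (nat_lit 394) (nat_lit 5) (nat_lit 406) (nat_lit 5) (nat_lit 395) (nat_lit 5) (nat_lit 666) (nat_lit 630) (nat_lit 264)))) (XT.nd (nat_lit 156) (nat_lit 760) (nat_lit 0) (XT.nd (nat_lit 78) (nat_lit 0) (nat_lit 0) (XT.lf (nat_lit 0) (nat_lit 6903220426) (nat_lit 836) (nat_lit 16451746263) (nat_lit 912) (nat_lit 29541975854) (nat_lit 383) (nat_lit 5) (nat_lit 394) (nat_lit 5) (nat_lit 395) (nat_lit 5) (nat_lit 667) (nat_lit 630) (nat_lit 263)) (XT.lf (nat_lit 0) (nat_lit 29913434086) (nat_lit 912) (nat_lit 16696773883) (nat_lit 76) (nat_lit 6876402570) (nat_lit 383) (nat_lit 5) (nat_lit 395) (nat_lit 5) (nat_lit 384) (nat_lit 5) (nat_lit 668) (nat_lit 630) (nat_lit 262))) (XT.nd (nat_lit 78) (nat_lit 0) (nat_lit 0) (XT.lf (nat_lit 0) (nat_lit 13250196116) (nat_lit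 760) (nat_lit 23547149415) (nat_lit 836) (nat_lit 17286840889) (nat_lit 373) (nat_lit 5) (nat_lit 383) (nat_lit 5) (nat_lit 384) (nat_lit 5) (nat_lit 669) (nat_lit 630) (nat_lit 261)) (XT.lf (nat_lit 0) (nat_lit 43930875590) (nat_lit 836) (nat_lit 10670384785) (nat_lit 76) (nat_lit 90214653) (nat_lit 373) (nat_lit 5) (nat_lit 384) (nat_lit 5) (nat_lit 374) (nat_lit 5) (nat_lit 670) (nat_lit 630) (nat_lit 260)))))) (XT.nd (nat_lit 624) (nat_lit 760) (nat_lit 0) (XT.nd (nat_lit 312) (nat_lit 1368) (nat_lit 0) (XT.nd (nat_lit 156) (nat_lit 1520) (nat_lit 0) (XT.nd (nat_lit 78) (nat_lit 76) (nat_lit 0) (XT.lf (nat_lit 0) (nat_lit 20204803103) (nat_lit 760) (nat_lit 31288713652) (nat_lit 836) (nat_lit 3811663863) (nat_lit 363) (nat_lit 5) (nat_lit 373) (nat_lit 5) (nat_lit 374) (nat_lit 5) (nat_lit 671) (nat_lit 630) (nat_lit 259)) (XT.lf (nat_lit 0) (nat_lit 3304680199) (nat_lit 836) (nat_lit 4110081583) (nat_lit 76) (nat_lit 48514545153) (nat_lit 362) (nat_lit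 5) (nat_lit 373) (nat_lit 5) (nat_lit 363) (nat_lit 5) (nat_lit 672) (nat_lit 630) (nat_lit 258))) (XT.nd (nat_lit 78) (nat_lit 760) (nat_lit 0) (XT.lf (nat_lit 0) (nat_lit 10803772508) (nat_lit 836) (nat_lit 28833971650) (nat_lit 76) (nat_lit 16921838546) (nat_lit 352) (nat_lit 5) (nat_lit 363) (nat_lit 5) (nat_lit 353) (nat_lit 5) (nat_lit 673) (nat_lit 630) (nat_lit 257)) (XT.lf (nat_lit 0) (nat_lit 3041688066) (nat_lit 760) (nat_lit 15507116674) (nat_lit 836) (nat_lit 38651740104) (nat_lit 342) (nat_lit 5) (nat_lit 352) (nat_lit 5) (nat_lit 353) (nat_lit 5) (nat_lit 674) (nat_lit 630) (nat_lit 256)))) (XT.nd (nat_lit 156) (nat_lit 684) (nat_lit 0) (XT.nd (nat_lit 78) (nat_lit 684) (nat_lit 0) (XT.lf (nat_lit 0) (nat_lit 26701982350) (nat_lit 836) (nat_lit 21965890997) (nat_lit 76) (nat_lit 9181388001) (nat_lit 342) (nat_lit 5) (nat_lit 353) (nat_lit 5) (nat_lit 343) (nat_lit 5) (nat_lit 675) (nat_lit 630) (nat_lit 255)) (XT.lf (nat_lit 0) (nat_lit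 10910603816) (nat_lit 684) (nat_lit 24280516688) (nat_lit 760) (nat_lit 23316373755) (nat_lit 333) (nat_lit 5) (nat_lit 342) (nat_lit 5) (nat_lit 343) (nat_lit 5) (nat_lit 676) (nat_lit 630) (nat_lit 254))) (XT.nd (nat_lit 78) (nat_lit 684) (nat_lit 0) (XT.lf (nat_lit 0) (nat_lit 44001649920) (nat_lit 760) (nat_lit 14439134343) (nat_lit 76) (nat_lit 735075411) (nat_lit 333) (nat_lit 5) (nat_lit 343) (nat_lit 5) (nat_lit 334) (nat_lit 5) (nat_lit 677) (nat_lit 630) (nat_lit 253)) (XT.lf (nat_lit 0) (nat_lit 19475684392) (nat_lit 684) (nat_lit 33799334265) (nat_lit 760) (nat_lit 6576841180) (nat_lit 324) (nat_lit 5) (nat_lit 333) (nat_lit 5) (nat_lit 334) (nat_lit 5) (nat_lit 678) (nat_lit 630) (nat_lit 252))))) (XT.nd (nat_lit 77610) (nat_lit 0) (nat_lit 12768) (XT.nd (nat_lit 77454) (nat_lit 0) (nat_lit 12692) (XT.nd (nat_lit 78) (nat_lit 684) (nat_lit 0) (XT.lf (nat_lit 0) (nat_lit 2260640898) (nat_lit 760) (nat_lit 6290517945) (nat_lit 76) (nat_lit 51987998058)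 (nat_lit 323) (nat_lit 5) (nat_lit 333) (nat_lit 5) (nat_lit 324) (nat_lit 5) (nat_lit 679) (nat_lit 630) (nat_lit 251)) (XT.lf (nat_lit 0) (nat_lit 11486557742) (nat_lit 760) (nat_lit 32538372059) (nat_lit 76) (nat_lit 17208405681) (nat_lit 314) (nat_lit 5) (nat_lit 324) (nat_lit 5) (nat_lit 315) (nat_lit 5) (nat_lit 680) (nat_lit 630) (nat_lit 250))) (XT.nd (nat_lit 78) (nat_lit 0) (nat_lit 0) (XT.lf (nat_lit 0) (nat_lit 4070061145) (nat_lit 1900) (nat_lit 7115471156) (nat_lit 1900) (nat_lit 7115471156) (nat_lit 481) (nat_lit 3) (nat_lit 506) (nat_lit 3) (nat_lit 506) (nat_lit 5) (nat_lit 631) (nat_lit 631) (nat_lit 298)) (XT.lf (nat_lit 76) (nat_lit 4049547957) (nat_lit 0) (nat_lit 4247529796) (nat_lit 1900) (nat_lit 28669436656) (nat_lit 482) (nat_lit 5) (nat_lit 481) (nat_lit 3) (nat_lit 506) (nat_lit 5) (nat_lit 632) (nat_lit 631) (nat_lit 297)))) (XT.nd (nat_lit 156) (nat_lit 0) (nat_lit 76) (XT.nd (nat_lit 78) (nat_lit 0) (nat_lit 0) (XT.lf (nat_lit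 0) (nat_lit 8644455086) (nat_lit 1824) (nat_lit 14541625799) (nat_lit 1900) (nat_lit 14148485551) (nat_lit 482) (nat_lit 5) (nat_lit 506) (nat_lit 5) (nat_lit 507) (nat_lit 5) (nat_lit 633) (nat_lit 631) (nat_lit 296)) (XT.lf (nat_lit 76) (nat_lit 4227857293) (nat_lit 0) (nat_lit 4825234993) (nat_lit 1900) (nat_lit 28655801010) (nat_lit 483) (nat_lit 5) (nat_lit 482) (nat_lit 5) (nat_lit 507) (nat_lit 5) (nat_lit 634) (nat_lit 631) (nat_lit 295))) (XT.nd (nat_lit 78) (nat_lit 0) (nat_lit 0) (XT.lf (nat_lit 0) (nat_lit 9657153856) (nat_lit 1824) (nat_lit 14610530356) (nat_lit 1900) (nat_lit 13819277486) (nat_lit 483) (nat_lit 5) (nat_lit 507) (nat_lit 5) (nat_lit 508) (nat_lit 5) (nat_lit 635) (nat_lit 631) (nat_lit 294)) (XT.lf (nat_lit 76) (nat_lit 4665930312) (nat_lit 0) (nat_lit 5668397273) (nat_lit 1900) (nat_lit 28137043302) (nat_lit 484) (nat_lit 5) (nat_lit 483) (nat_lit 5) (nat_lit 508) (nat_lit 5) (nat_lit 636) (nat_lit 631) (nat_lit 293))))))))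
noncomputable def xc242 : XT := (XT.nd (nat_lit 2418) (nat_lit 5396) (nat_lit 0) (XT.nd (nat_lit 1170) (nat_lit 6840) (nat_lit 0) (XT.nd (nat_lit 546) (nat_lit 0) (nat_lit 228) (XT.nd (nat_lit 234) (nat_lit 0) (nat_lit 76) (XT.nd (nat_lit 78) (nat_lit 0) (nat_lit 0) (XT.lf (nat_lit 0) (nat_lit 11208913666) (nat_lit 1824) (nat_lit 14423275152) (nat_lit 1900) (nat_lit 13227602100) (nat_lit 484) (nat_lit 5) (nat_lit 508) (nat_lit 5) (nat_lit 509) (nat_lit 5) (nat_lit 637) (nat_lit 631) (nat_lit 292)) (XT.nd (nat_lit 78) (nat_lit 0) (nat_lit 76) (XT.lf (nat_lit 76) (nat_lit 5378835819) (nat_lit 0) (nat_lit 6793445258) (nat_lit 1900) (nat_lit 27082272515) (nat_lit 485) (nat_lit 5) (nat_lit 484) (nat_lit 5) (nat_lit 509) (nat_lit 5) (nat_lit 638) (nat_lit 631) (nat_lit 291)) (XT.lf (nat_lit 0) (nat_lit 13331845920) (nat_lit 1824) (nat_lit 13964793331) (nat_lit 1900) (nat_lit 12357033703) (nat_lit 485) (nat_lit 5) (nat_lit 509) (nat_lit 5) (nat_lit 510) (nat_lit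 5) (nat_lit 639) (nat_lit 631) (nat_lit 290)))) (XT.nd (nat_lit 156) (nat_lit 0) (nat_lit 76) (XT.nd (nat_lit 78) (nat_lit 0) (nat_lit 76) (XT.lf (nat_lit 76) (nat_lit 6382355291) (nat_lit 0) (nat_lit 8217546520) (nat_lit 1900) (nat_lit 25459166930) (nat_lit 486) (nat_lit 5) (nat_lit 485) (nat_lit 5) (nat_lit 510) (nat_lit 5) (nat_lit 640) (nat_lit 631) (nat_lit 289)) (XT.lf (nat_lit 0) (nat_lit 16059540122) (nat_lit 1824) (nat_lit 13219303888) (nat_lit 1900) (nat_lit 11190404041) (nat_lit 486) (nat_lit 5) (nat_lit 510) (nat_lit 5) (nat_lit 511) (nat_lit 5) (nat_lit 641) (nat_lit 631) (nat_lit 288))) (XT.nd (nat_lit 78) (nat_lit 0) (nat_lit 76) (XT.lf (nat_lit 76) (nat_lit 7693012036) (nat_lit 0) (nat_lit 9958641609) (nat_lit 1900) (nat_lit 23233911687) (nat_lit 487) (nat_lit 5) (nat_lit 486) (nat_lit 5) (nat_lit 511) (nat_lit 5) (nat_lit 642) (nat_lit 631) (nat_lit 287)) (XT.lf (nat_lit 0) (nat_lit 19427128135) (nat_lit 1824) (nat_lit 12170282363) (nat_lit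 1900) (nat_lit 9709768118) (nat_lit 487) (nat_lit 5) (nat_lit 511) (nat_lit 5) (nat_lit 512) (nat_lit 5) (nat_lit 643) (nat_lit 631) (nat_lit 286))))) (XT.nd (nat_lit 312) (nat_lit 0) (nat_lit 152) (XT.nd (nat_lit 156) (nat_lit 0) (nat_lit 76) (XT.nd (nat_lit 78) (nat_lit 0) (nat_lit 76) (XT.lf (nat_lit 76) (nat_lit 9328101595) (nat_lit 0) (nat_lit 12035479425) (nat_lit 1900) (nat_lit 20371133799) (nat_lit 488) (nat_lit 5) (nat_lit 487) (nat_lit 5) (nat_lit 512) (nat_lit 5) (nat_lit 644) (nat_lit 631) (nat_lit 285)) (XT.lf (nat_lit 0) (nat_lit 23471351044) (nat_lit 1824) (nat_lit 10800430304) (nat_lit 1900) (nat_lit 7896368668) (nat_lit 488) (nat_lit 5) (nat_lit 512) (nat_lit 5) (nat_lit 513) (nat_lit 5) (nat_lit 645) (nat_lit 631) (nat_lit 284))) (XT.nd (nat_lit 78) (nat_lit 0) (nat_lit 76) (XT.lf (nat_lit 76) (nat_lit 11305723396) (nat_lit 0) (nat_lit 14467653986) (nat_lit 1900) (nat_lit 16833834546) (nat_lit 489) (nat_lit 5) (nat_lit 488) (nat_lit 5)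 (nat_lit 513) (nat_lit 5) (nat_lit 646) (nat_lit 631) (nat_lit 283)) (XT.lf (nat_lit 0) (nat_lit 28230628733) (nat_lit 1824) (nat_lit 9091643457) (nat_lit 1900) (nat_lit 5730599228) (nat_lit 489) (nat_lit 5) (nat_lit 513) (nat_lit 5) (nat_lit 514) (nat_lit 5) (nat_lit 647) (nat_lit 631) (nat_lit 282)))) (XT.nd (nat_lit 156) (nat_lit 0) (nat_lit 76) (XT.nd (nat_lit 78) (nat_lit 0) (nat_lit 76) (XT.lf (nat_lit 76) (nat_lit 13644813737) (nat_lit 0) (nat_lit 17275642655) (nat_lit 1900) (nat_lit 12583319110) (nat_lit 490) (nat_lit 5) (nat_lit 489) (nat_lit 5) (nat_lit 514) (nat_lit 5) (nat_lit 648) (nat_lit 631) (nat_lit 281)) (XT.lf (nat_lit 0) (nat_lit 33745132291) (nat_lit 1824) (nat_lit 7024978645) (nat_lit 1900) (nat_lit 3191965726) (nat_lit 490) (nat_lit 5) (nat_lit 514) (nat_lit 5) (nat_lit 515) (nat_lit 5) (nat_lit 649) (nat_lit 631) (nat_lit 280))) (XT.nd (nat_lit 78) (nat_lit 0) (nat_lit 76) (XT.lf (nat_lit 76) (nat_lit 16365180124) (nat_lit 0) (nat_lit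 20480845896) (nat_lit 1900) (nat_lit 7579123367) (nat_lit 491) (nat_lit 5) (nat_lit 490) (nat_lit 5) (nat_lit 515) (nat_lit 5) (nat_lit 650) (nat_lit 631) (nat_lit 279)) (XT.lf (nat_lit 0) (nat_lit 40056859351) (nat_lit 1824) (nat_lit 4580619268) (nat_lit 1900) (nat_lit 259046542) (nat_lit 491) (nat_lit 5) (nat_lit 515) (nat_lit 5) (nat_lit 516) (nat_lit 5) (nat_lit 651) (nat_lit 631) (nat_lit 278)))))) (XT.nd (nat_lit 624) (nat_lit 3572) (nat_lit 0) (XT.nd (nat_lit 312) (nat_lit 1900) (nat_lit 0) (XT.nd (nat_lit 156) (nat_lit 0) (nat_lit 76) (XT.nd (nat_lit 78) (nat_lit 1900) (nat_lit 0) (XT.lf (nat_lit 76) (nat_lit 19487537030) (nat_lit 0) (nat_lit 24105628632) (nat_lit 1900) (nat_lit 1778937688) (nat_lit 492) (nat_lit 5) (nat_lit 491) (nat_lit 5) (nat_lit 516) (nat_lit 5) (nat_lit 652) (nat_lit 631) (nat_lit 277)) (XT.lf (nat_lit 0) (nat_lit 1355435840) (nat_lit 1900) (nat_lit 1767089293) (nat_lit 1976) (nat_lit 42733892709) (nat_lit 466) (nat_lit 5)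 (nat_lit 491) (nat_lit 5) (nat_lit 492) (nat_lit 5) (nat_lit 653) (nat_lit 631) (nat_lit 276))) (XT.nd (nat_lit 78) (nat_lit 0) (nat_lit 0) (XT.lf (nat_lit 0) (nat_lit 4797713267) (nat_lit 1900) (nat_lit 23343454817) (nat_lit 1976) (nat_lit 18203634662) (nat_lit 467) (nat_lit 5) (nat_lit 492) (nat_lit 5) (nat_lit 493) (nat_lit 5) (nat_lit 654) (nat_lit 631) (nat_lit 275)) (XT.lf (nat_lit 76) (nat_lit 1443832851) (nat_lit 0) (nat_lit 6906127152) (nat_lit 1976) (nat_lit 38492172895) (nat_lit 468) (nat_lit 5) (nat_lit 467) (nat_lit 5) (nat_lit 493) (nat_lit 5) (nat_lit 655) (nat_lit 631) (nat_lit 274)))) (XT.nd (nat_lit 156) (nat_lit 912) (nat_lit 0) (XT.nd (nat_lit 78) (nat_lit 1140) (nat_lit 0) (XT.lf (nat_lit 0) (nat_lit 12225873073) (nat_lit 1900) (nat_lit 20400559335) (nat_lit 76) (nat_lit 14717924841) (nat_lit 468) (nat_lit 5) (nat_lit 493) (nat_lit 5) (nat_lit 469) (nat_lit 5) (nat_lit 656) (nat_lit 631) (nat_lit 273)) (XT.lf (nat_lit 0) (nat_lit 5117787705)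 (nat_lit 1140) (nat_lit 11139644323) (nat_lit 1216) (nat_lit 31597631531) (nat_lit 453) (nat_lit 5) (nat_lit 468) (nat_lit 5) (nat_lit 469) (nat_lit 5) (nat_lit 657) (nat_lit 631) (nat_lit 272))) (XT.nd (nat_lit 78) (nat_lit 912) (nat_lit 0) (XT.lf (nat_lit 0) (nat_lit 20576573823) (nat_lit 1216) (nat_lit 17021832221) (nat_lit 76) (nat_lit 10773438941) (nat_lit 453) (nat_lit 5) (nat_lit 469) (nat_lit 5) (nat_lit 454) (nat_lit 5) (nat_lit 658) (nat_lit 631) (nat_lit 271)) (XT.lf (nat_lit 0) (nat_lit 9254795157) (nat_lit 912) (nat_lit 15860356108) (nat_lit 988) (nat_lit 23781149740) (nat_lit 441) (nat_lit 5) (nat_lit 453) (nat_lit 5) (nat_lit 454) (nat_lit 5) (nat_lit 659) (nat_lit 631) (nat_lit 270))))) (XT.nd (nat_lit 312) (nat_lit 1824) (nat_lit 0) (XT.nd (nat_lit 156) (nat_lit 836) (nat_lit 0) (XT.nd (nat_lit 78) (nat_lit 912) (nat_lit 0) (XT.lf (nat_lit 0) (nat_lit 29899670466) (nat_lit 988) (nat_lit 13183754802) (nat_lit 76) (nat_lit 6344717497) (nat_lit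 441) (nat_lit 5) (nat_lit 454) (nat_lit 5) (nat_lit 442) (nat_lit 5) (nat_lit 660) (nat_lit 631) (nat_lit 269)) (XT.lf (nat_lit 0) (nat_lit 13879418869) (nat_lit 912) (nat_lit 21094830311) (nat_lit 988) (nat_lit 14992484820) (nat_lit 429) (nat_lit 5) (nat_lit 441) (nat_lit 5) (nat_lit 442) (nat_lit 5) (nat_lit 661) (nat_lit 631) (nat_lit 268))) (XT.nd (nat_lit 78) (nat_lit 836) (nat_lit 0) (XT.lf (nat_lit 0) (nat_lit 40247263684) (nat_lit 988) (nat_lit 8861745417) (nat_lit 76) (nat_lit 1405149096) (nat_lit 429) (nat_lit 5) (nat_lit 442) (nat_lit 5) (nat_lit 430) (nat_lit 5) (nat_lit 662) (nat_lit 631) (nat_lit 267)) (XT.lf (nat_lit 0) (nat_lit 19017326030) (nat_lit 836) (nat_lit 26870831682) (nat_lit 912) (nat_lit 5179124801) (nat_lit 418) (nat_lit 5) (nat_lit 429) (nat_lit 5) (nat_lit 430) (nat_lit 5) (nat_lit 663) (nat_lit 631) (nat_lit 266)))) (XT.nd (nat_lit 156) (nat_lit 836) (nat_lit 0) (XT.nd (nat_lit 78) (nat_lit 912) (nat_lit 0) (XT.lf (nat_lit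 0) (nat_lit 69375151) (nat_lit 912) (nat_lit 4057368791) (nat_lit 76) (nat_lit 47503541818) (nat_lit 417) (nat_lit 5) (nat_lit 429) (nat_lit 5) (nat_lit 418) (nat_lit 5) (nat_lit 664) (nat_lit 631) (nat_lit 265)) (XT.lf (nat_lit 0) (nat_lit 5638870535) (nat_lit 988) (nat_lit 27540664168) (nat_lit 76) (nat_lit 19018622233) (nat_lit 405) (nat_lit 5) (nat_lit 418) (nat_lit 5) (nat_lit 406) (nat_lit 5) (nat_lit 665) (nat_lit 631) (nat_lit 264))) (XT.nd (nat_lit 78) (nat_lit 0) (nat_lit 0) (XT.lf (nat_lit 0) (nat_lit 1212476103) (nat_lit 836) (nat_lit 10169163782) (nat_lit 912) (nat_lit 41394507987) (nat_lit 394) (nat_lit 5) (nat_lit 405) (nat_lit 5) (nat_lit 406) (nat_lit 5) (nat_lit 666) (nat_lit 631) (nat_lit 263)) (XT.lf (nat_lit 0) (nat_lit 17510947045) (nat_lit 912) (nat_lit 22536322567) (nat_lit 76) (nat_lit 13312995386) (nat_lit 394) (nat_lit 5) (nat_lit 406) (nat_lit 5) (nat_lit 395) (nat_lit 5) (nat_lit 667) (nat_lit 631) (nat_lit 262))))))) (XT.nd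 (nat_lit 78546) (nat_lit 0) (nat_lit 12084) (XT.nd (nat_lit 546) (nat_lit 2204) (nat_lit 0) (XT.nd (nat_lit 234) (nat_lit 1596) (nat_lit 0) (XT.nd (nat_lit 78) (nat_lit 760) (nat_lit 0) (XT.lf (nat_lit 0) (nat_lit 7096580714) (nat_lit 836) (nat_lit 16778979367) (nat_lit 912) (nat_lit 30078250008) (nat_lit 383) (nat_lit 5) (nat_lit 394) (nat_lit 5) (nat_lit 395) (nat_lit 5) (nat_lit 668) (nat_lit 631) (nat_lit 261)) (XT.nd (nat_lit 78) (nat_lit 760) (nat_lit 0) (XT.lf (nat_lit 0) (nat_lit 30564159393) (nat_lit 912) (nat_lit 16975458884) (nat_lit 76) (nat_lit 7015673945) (nat_lit 383) (nat_lit 5) (nat_lit 395) (nat_lit 5) (nat_lit 384) (nat_lit 5) (nat_lit 669) (nat_lit 631) (nat_lit 260)) (XT.lf (nat_lit 0) (nat_lit 13570087025) (nat_lit 760) (nat_lit 24014989843) (nat_lit 836) (nat_lit 17579756224) (nat_lit 373) (nat_lit 5) (nat_lit 383) (nat_lit 5) (nat_lit 384) (nat_lit 5) (nat_lit 670) (nat_lit 631) (nat_lit 259)))) (XT.nd (nat_lit 156) (nat_lit 836)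 (nat_lit 0) (XT.nd (nat_lit 78) (nat_lit 760) (nat_lit 0) (XT.lf (nat_lit 0) (nat_lit 44860281897) (nat_lit 836) (nat_lit 10828984736) (nat_lit 76) (nat_lit 95020779) (nat_lit 373) (nat_lit 5) (nat_lit 384) (nat_lit 5) (nat_lit 374) (nat_lit 5) (nat_lit 671) (nat_lit 631) (nat_lit 258)) (XT.lf (nat_lit 0) (nat_lit 20663346332) (nat_lit 760) (nat_lit 31910187200) (nat_lit 836) (nat_lit 3836746453) (nat_lit 363) (nat_lit 5) (nat_lit 373) (nat_lit 5) (nat_lit 374) (nat_lit 5) (nat_lit 672) (nat_lit 631) (nat_lit 257))) (XT.nd (nat_lit 78) (nat_lit 760) (nat_lit 0) (XT.lf (nat_lit 0) (nat_lit 3420263839) (nat_lit 836) (nat_lit 4138244678) (nat_lit 76) (nat_lit 49488393492) (nat_lit 362) (nat_lit 5) (nat_lit 373) (nat_lit 5) (nat_lit 363) (nat_lit 5) (nat_lit 673) (nat_lit 631) (nat_lit 256)) (XT.lf (nat_lit 0) (nat_lit 11068747408) (nat_lit 836) (nat_lit 29356020721) (nat_lit 76) (nat_lit 17265027001) (nat_lit 352) (nat_lit 5) (nat_lit 363) (nat_lit 5) (nat_lit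 353) (nat_lit 5) (nat_lit 674) (nat_lit 631) (nat_lit 255))))) (XT.nd (nat_lit 312) (nat_lit 760) (nat_lit 0) (XT.nd (nat_lit 156) (nat_lit 684) (nat_lit 0) (XT.nd (nat_lit 78) (nat_lit 0) (nat_lit 0) (XT.lf (nat_lit 0) (nat_lit 3156792779) (nat_lit 760) (nat_lit 15811281056) (nat_lit 836) (nat_lit 39375514832) (nat_lit 342) (nat_lit 5) (nat_lit 352) (nat_lit 5) (nat_lit 353) (nat_lit 5) (nat_lit 675) (nat_lit 631) (nat_lit 254)) (XT.lf (nat_lit 0) (nat_lit 27283406128) (nat_lit 836) (nat_lit 22351091940) (nat_lit 76) (nat_lit 9370799634) (nat_lit 342) (nat_lit 5) (nat_lit 353) (nat_lit 5) (nat_lit 343) (nat_lit 5) (nat_lit 676) (nat_lit 631) (nat_lit 253))) (XT.nd (nat_lit 78) (nat_lit 0) (nat_lit 0) (XT.lf (nat_lit 0) (nat_lit 11182576736) (nat_lit 684) (nat_lit 24759170258) (nat_lit 760) (nat_lit 23734959900) (nat_lit 333) (nat_lit 5) (nat_lit 342) (nat_lit 5) (nat_lit 343) (nat_lit 5) (nat_lit 677) (nat_lit 631) (nat_lit 252)) (XT.lf (nat_lit 0) (nat_lit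 44927613554) (nat_lit 760) (nat_lit 14674335729) (nat_lit 76) (nat_lit 756507825) (nat_lit 333) (nat_lit 5) (nat_lit 343) (nat_lit 5) (nat_lit 334) (nat_lit 5) (nat_lit 678) (nat_lit 631) (nat_lit 251)))) (XT.nd (nat_lit 77532) (nat_lit 0) (nat_lit 12008) (XT.nd (nat_lit 78) (nat_lit 76) (nat_lit 0) (XT.lf (nat_lit 0) (nat_lit 19918426871) (nat_lit 684) (nat_lit 34467467790) (nat_lit 760) (nat_lit 6662093736) (nat_lit 324) (nat_lit 5) (nat_lit 333) (nat_lit 5) (nat_lit 334) (nat_lit 5) (nat_lit 679) (nat_lit 631) (nat_lit 250)) (XT.lf (nat_lit 0) (nat_lit 2350635325) (nat_lit 760) (nat_lit 6363547011) (nat_lit 76) (nat_lit 53034860992) (nat_lit 323) (nat_lit 5) (nat_lit 333) (nat_lit 5) (nat_lit 324) (nat_lit 5) (nat_lit 680) (nat_lit 631) (nat_lit 249))) (XT.nd (nat_lit 78) (nat_lit 0) (nat_lit 0) (XT.lf (nat_lit 0) (nat_lit 4200404415) (nat_lit 1900) (nat_lit 7232819395) (nat_lit 1900) (nat_lit 7232819395) (nat_lit 481) (nat_lit 3) (nat_lit 506) (nat_lit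 3) (nat_lit 506) (nat_lit 5) (nat_lit 632) (nat_lit 632) (nat_lit 296)) (XT.lf (nat_lit 76) (nat_lit 4180132848) (nat_lit 0) (nat_lit 4379173254) (nat_lit 1900) (nat_lit 29144609955) (nat_lit 482) (nat_lit 5) (nat_lit 481) (nat_lit 3) (nat_lit 506) (nat_lit 5) (nat_lit 633) (nat_lit 632) (nat_lit 295)))))) (XT.nd (nat_lit 624) (nat_lit 0) (nat_lit 304) (XT.nd (nat_lit 312) (nat_lit 0) (nat_lit 152) (XT.nd (nat_lit 156) (nat_lit 0) (nat_lit 76) (XT.nd (nat_lit 78) (nat_lit 0) (nat_lit 0) (XT.lf (nat_lit 0) (nat_lit 8911445789) (nat_lit 1824) (nat_lit 14781648773) (nat_lit 1900) (nat_lit 14386278324) (nat_lit 482) (nat_lit 5) (nat_lit 506) (nat_lit 5) (nat_lit 507) (nat_lit 5) (nat_lit 634) (nat_lit 632) (nat_lit 294)) (XT.lf (nat_lit 76) (nat_lit 4362889708) (nat_lit 0) (nat_lit 4963848615) (nat_lit 1900) (nat_lit 29134478364) (nat_lit 483) (nat_lit 5) (nat_lit 482) (nat_lit 5) (nat_lit 507) (nat_lit 5) (nat_lit 635) (nat_lit 632) (nat_lit 293))) (XT.nd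 (nat_lit 78) (nat_lit 0) (nat_lit 0) (XT.lf (nat_lit 0) (nat_lit 9940797709) (nat_lit 1824) (nat_lit 14851169254) (nat_lit 1900) (nat_lit 14054921217) (nat_lit 483) (nat_lit 5) (nat_lit 507) (nat_lit 5) (nat_lit 508) (nat_lit 5) (nat_lit 636) (nat_lit 632) (nat_lit 292)) (XT.lf (nat_lit 76) (nat_lit 4810481340) (nat_lit 0) (nat_lit 5819591683) (nat_lit 1900) (nat_lit 28608941422) (nat_lit 484) (nat_lit 5) (nat_lit 483) (nat_lit 5) (nat_lit 508) (nat_lit 5) (nat_lit 637) (nat_lit 632) (nat_lit 291)))) (XT.nd (nat_lit 156) (nat_lit 0) (nat_lit 76) (XT.nd (nat_lit 78) (nat_lit 0) (nat_lit 0) (XT.lf (nat_lit 0) (nat_lit 11520163793) (nat_lit 1824) (nat_lit 14659523129) (nat_lit 1900) (nat_lit 13455555747) (nat_lit 484) (nat_lit 5) (nat_lit 508) (nat_lit 5) (nat_lit 509) (nat_lit 5) (nat_lit 638) (nat_lit 632) (nat_lit 290)) (XT.lf (nat_lit 76) (nat_lit 5538286525) (nat_lit 0) (nat_lit 6963141537) (nat_lit 1900) (nat_lit 27536499996) (nat_lit 485) (nat_lit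 5) (nat_lit 484) (nat_lit 5) (nat_lit 509) (nat_lit 5) (nat_lit 639) (nat_lit 632) (nat_lit 289))) (XT.nd (nat_lit 78) (nat_lit 0) (nat_lit 0) (XT.lf (nat_lit 0) (nat_lit 13682288459) (nat_lit 1824) (nat_lit 14191334074) (nat_lit 1900) (nat_lit 12571445238) (nat_lit 485) (nat_lit 5) (nat_lit 509) (nat_lit 5) (nat_lit 510) (nat_lit 5) (nat_lit 640) (nat_lit 632) (nat_lit 288)) (XT.lf (nat_lit 76) (nat_lit 6562410446) (nat_lit 0) (nat_lit 8411992042) (nat_lit 1900) (nat_lit 25884195096) (nat_lit 486) (nat_lit 5) (nat_lit 485) (nat_lit 5) (nat_lit 510) (nat_lit 5) (nat_lit 641) (nat_lit 632) (nat_lit 287))))) (XT.nd (nat_lit 312) (nat_lit 0) (nat_lit 152) (XT.nd (nat_lit 156) (nat_lit 0) (nat_lit 76) (XT.nd (nat_lit 78) (nat_lit 0) (nat_lit 0) (XT.lf (nat_lit 0) (nat_lit 16461424304) (nat_lit 1824) (nat_lit 13430497833) (nat_lit 1900) (nat_lit 11385094577) (nat_lit 486) (nat_lit 5) (nat_lit 510) (nat_lit 5) (nat_lit 511) (nat_lit 5) (nat_lit 642) (nat_lit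 632) (nat_lit 286)) (XT.lf (nat_lit 76) (nat_lit 7899714461) (nat_lit 0) (nat_lit 10184426499) (nat_lit 1900) (nat_lit 23617544210) (nat_lit 487) (nat_lit 5) (nat_lit 486) (nat_lit 5) (nat_lit 511) (nat_lit 5) (nat_lit 643) (nat_lit 632) (nat_lit 285))) (XT.nd (nat_lit 78) (nat_lit 0) (nat_lit 0) (XT.lf (nat_lit 0) (nat_lit 19893397619) (nat_lit 1824) (nat_lit 12360152290) (nat_lit 1900) (nat_lit 9878215405) (nat_lit 487) (nat_lit 5) (nat_lit 511) (nat_lit 5) (nat_lit 512) (nat_lit 5) (nat_lit 644) (nat_lit 632) (nat_lit 284)) (XT.lf (nat_lit 76) (nat_lit 9567847139) (nat_lit 0) (nat_lit 12299553669) (nat_lit 1900) (nat_lit 20700475055) (nat_lit 488) (nat_lit 5) (nat_lit 487) (nat_lit 5) (nat_lit 512) (nat_lit 5) (nat_lit 645) (nat_lit 632) (nat_lit 283)))) (XT.nd (nat_lit 156) (nat_lit 0) (nat_lit 76) (XT.nd (nat_lit 78) (nat_lit 0) (nat_lit 0) (XT.lf (nat_lit 0) (nat_lit 24015676563) (nat_lit 1824) (nat_lit 10962646298) (nat_lit 1900) (nat_lit 8031689940)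 (nat_lit 488) (nat_lit 5) (nat_lit 512) (nat_lit 5) (nat_lit 513) (nat_lit 5) (nat_lit 646) (nat_lit 632) (nat_lit 282)) (XT.lf (nat_lit 76) (nat_lit 11585276577) (nat_lit 0) (nat_lit 14777345213) (nat_lit 1900) (nat_lit 17095256639) (nat_lit 489) (nat_lit 5) (nat_lit 488) (nat_lit 5) (nat_lit 513) (nat_lit 5) (nat_lit 647) (nat_lit 632) (nat_lit 281))) (XT.nd (nat_lit 78) (nat_lit 0) (nat_lit 0) (XT.lf (nat_lit 0) (nat_lit 28867442103) (nat_lit 1824) (nat_lit 9219507209) (nat_lit 1900) (nat_lit 5825533361) (nat_lit 489) (nat_lit 5) (nat_lit 513) (nat_lit 5) (nat_lit 514) (nat_lit 5) (nat_lit 648) (nat_lit 632) (nat_lit 280)) (XT.lf (nat_lit 76) (nat_lit 13971324070) (nat_lit 0) (nat_lit 17638674642) (nat_lit 1900) (nat_lit 12762427522) (nat_lit 490) (nat_lit 5) (nat_lit 489) (nat_lit 5) (nat_lit 514) (nat_lit 5) (nat_lit 649) (nat_lit 632) (nat_lit 279))))))))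
noncomputable def xc243 : XT := (XT.nd (nat_lit 79872) (nat_lit 0) (nat_lit 7980) (XT.nd (nat_lit 1170) (nat_lit 7144) (nat_lit 0) (XT.nd (nat_lit 546) (nat_lit 3648) (nat_lit 0) (XT.nd (nat_lit 234) (nat_lit 1824) (nat_lit 0) (XT.nd (nat_lit 78) (nat_lit 0) (nat_lit 0) (XT.lf (nat_lit 0) (nat_lit 34489661844) (nat_lit 1824) (nat_lit 7111407059) (nat_lit 1900) (nat_lit 3238854681) (nat_lit 490) (nat_lit 5) (nat_lit 514) (nat_lit 5) (nat_lit 515) (nat_lit 5) (nat_lit 650) (nat_lit 632) (nat_lit 278)) (XT.nd (nat_lit 78) (nat_lit 0) (nat_lit 76) (XT.lf (nat_lit 76) (nat_lit 16746199155) (nat_lit 0) (nat_lit 20905357816) (nat_lit 1900) (nat_lit 7660721163) (nat_lit 491) (nat_lit 5) (nat_lit 490) (nat_lit 5) (nat_lit 515) (nat_lit 5) (nat_lit 651) (nat_lit 632) (nat_lit 277)) (XT.lf (nat_lit 0) (nat_lit 40925166853) (nat_lit 1824) (nat_lit 4618127361) (nat_lit 1900) (nat_lit 249816050) (nat_lit 491) (nat_lit 5) (nat_lit 515) (nat_lit 5) (nat_lit 516) (nat_lit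 5) (nat_lit 652) (nat_lit 632) (nat_lit 276)))) (XT.nd (nat_lit 156) (nat_lit 0) (nat_lit 76) (XT.nd (nat_lit 78) (nat_lit 1900) (nat_lit 0) (XT.lf (nat_lit 76) (nat_lit 19931036113) (nat_lit 0) (nat_lit 24600195082) (nat_lit 1900) (nat_lit 1746988222) (nat_lit 492) (nat_lit 5) (nat_lit 491) (nat_lit 5) (nat_lit 516) (nat_lit 5) (nat_lit 653) (nat_lit 632) (nat_lit 275)) (XT.lf (nat_lit 0) (nat_lit 1447880414) (nat_lit 1900) (nat_lit 1748866467) (nat_lit 1976) (nat_lit 43575490723) (nat_lit 466) (nat_lit 5) (nat_lit 491) (nat_lit 5) (nat_lit 492) (nat_lit 5) (nat_lit 654) (nat_lit 632) (nat_lit 274))) (XT.nd (nat_lit 78) (nat_lit 0) (nat_lit 0) (XT.lf (nat_lit 0) (nat_lit 4957995144) (nat_lit 1900) (nat_lit 23755749213) (nat_lit 1976) (nat_lit 18556666051) (nat_lit 467) (nat_lit 5) (nat_lit 492) (nat_lit 5) (nat_lit 493) (nat_lit 5) (nat_lit 655) (nat_lit 632) (nat_lit 273)) (XT.lf (nat_lit 76) (nat_lit 1526925164) (nat_lit 0) (nat_lit 7053452328) (nat_lit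 1976) (nat_lit 39197327893) (nat_lit 468) (nat_lit 5) (nat_lit 467) (nat_lit 5) (nat_lit 493) (nat_lit 5) (nat_lit 656) (nat_lit 632) (nat_lit 272))))) (XT.nd (nat_lit 312) (nat_lit 1748) (nat_lit 0) (XT.nd (nat_lit 156) (nat_lit 912) (nat_lit 0) (XT.nd (nat_lit 78) (nat_lit 1140) (nat_lit 0) (XT.lf (nat_lit 0) (nat_lit 12532506749) (nat_lit 1900) (nat_lit 20754114074) (nat_lit 76) (nat_lit 15003379476) (nat_lit 468) (nat_lit 5) (nat_lit 493) (nat_lit 5) (nat_lit 469) (nat_lit 5) (nat_lit 657) (nat_lit 632) (nat_lit 271)) (XT.lf (nat_lit 0) (nat_lit 5274241641) (nat_lit 1140) (nat_lit 11369588520) (nat_lit 1216) (nat_lit 32167107944) (nat_lit 453) (nat_lit 5) (nat_lit 468) (nat_lit 5) (nat_lit 469) (nat_lit 5) (nat_lit 658) (nat_lit 632) (nat_lit 270))) (XT.nd (nat_lit 78) (nat_lit 912) (nat_lit 0) (XT.lf (nat_lit 0) (nat_lit 21048108300) (nat_lit 1216) (nat_lit 17307983240) (nat_lit 76) (nat_lit 10981988583) (nat_lit 453) (nat_lit 5) (nat_lit 469) (nat_lit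 5) (nat_lit 454) (nat_lit 5) (nat_lit 659) (nat_lit 632) (nat_lit 269)) (XT.lf (nat_lit 0) (nat_lit 9493819544) (nat_lit 912) (nat_lit 16182811358) (nat_lit 988) (nat_lit 24196410924) (nat_lit 441) (nat_lit 5) (nat_lit 453) (nat_lit 5) (nat_lit 454) (nat_lit 5) (nat_lit 660) (nat_lit 632) (nat_lit 268)))) (XT.nd (nat_lit 156) (nat_lit 836) (nat_lit 0) (XT.nd (nat_lit 78) (nat_lit 912) (nat_lit 0) (XT.lf (nat_lit 0) (nat_lit 30555646754) (nat_lit 988) (nat_lit 13393363469) (nat_lit 76) (nat_lit 6466534105) (nat_lit 441) (nat_lit 5) (nat_lit 454) (nat_lit 5) (nat_lit 442) (nat_lit 5) (nat_lit 661) (nat_lit 632) (nat_lit 267)) (XT.lf (nat_lit 0) (nat_lit 14210717975) (nat_lit 912) (nat_lit 21520210874) (nat_lit 988) (nat_lit 15233994334) (nat_lit 429) (nat_lit 5) (nat_lit 441) (nat_lit 5) (nat_lit 442) (nat_lit 5) (nat_lit 662) (nat_lit 632) (nat_lit 266))) (XT.nd (nat_lit 78) (nat_lit 836) (nat_lit 0) (XT.lf (nat_lit 0) (nat_lit 41108260001) (nat_lit 988)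 (nat_lit 8985177535) (nat_lit 76) (nat_lit 1429881231) (nat_lit 429) (nat_lit 5) (nat_lit 442) (nat_lit 5) (nat_lit 430) (nat_lit 5) (nat_lit 663) (nat_lit 632) (nat_lit 265)) (XT.lf (nat_lit 0) (nat_lit 19451121375) (nat_lit 836) (nat_lit 27410098520) (nat_lit 912) (nat_lit 5226300746) (nat_lit 418) (nat_lit 5) (nat_lit 429) (nat_lit 5) (nat_lit 430) (nat_lit 5) (nat_lit 664) (nat_lit 632) (nat_lit 264)))))) (XT.nd (nat_lit 624) (nat_lit 3724) (nat_lit 0) (XT.nd (nat_lit 312) (nat_lit 1596) (nat_lit 0) (XT.nd (nat_lit 156) (nat_lit 836) (nat_lit 0) (XT.nd (nat_lit 78) (nat_lit 912) (nat_lit 0) (XT.lf (nat_lit 0) (nat_lit 125337918) (nat_lit 912) (nat_lit 4085388601) (nat_lit 76) (nat_lit 48451071971) (nat_lit 417) (nat_lit 5) (nat_lit 429) (nat_lit 5) (nat_lit 418) (nat_lit 5) (nat_lit 665) (nat_lit 632) (nat_lit 263)) (XT.lf (nat_lit 0) (nat_lit 5805488830) (nat_lit 988) (nat_lit 28037614054) (nat_lit 76) (nat_lit 19397938920) (nat_lit 405) (nat_lit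 5) (nat_lit 418) (nat_lit 5) (nat_lit 406) (nat_lit 5) (nat_lit 666) (nat_lit 632) (nat_lit 262))) (XT.nd (nat_lit 78) (nat_lit 0) (nat_lit 0) (XT.lf (nat_lit 0) (nat_lit 1290234658) (nat_lit 836) (nat_lit 10372170621) (nat_lit 912) (nat_lit 42168201474) (nat_lit 394) (nat_lit 5) (nat_lit 405) (nat_lit 5) (nat_lit 406) (nat_lit 5) (nat_lit 667) (nat_lit 632) (nat_lit 261)) (XT.lf (nat_lit 0) (nat_lit 17913259163) (nat_lit 912) (nat_lit 22933548367) (nat_lit 76) (nat_lit 13579619508) (nat_lit 394) (nat_lit 5) (nat_lit 406) (nat_lit 5) (nat_lit 395) (nat_lit 5) (nat_lit 668) (nat_lit 632) (nat_lit 260)))) (XT.nd (nat_lit 156) (nat_lit 760) (nat_lit 0) (XT.nd (nat_lit 78) (nat_lit 0) (nat_lit 0) (XT.lf (nat_lit 0) (nat_lit 7291661002) (nat_lit 836) (nat_lit 17112827101) (nat_lit 912) (nat_lit 30627368484) (nat_lit 383) (nat_lit 5) (nat_lit 394) (nat_lit 5) (nat_lit 395) (nat_lit 5) (nat_lit 669) (nat_lit 632) (nat_lit 259)) (XT.lf (nat_lit 0) (nat_lit 31225862251)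 (nat_lit 912) (nat_lit 17261863029) (nat_lit 76) (nat_lit 7157663052) (nat_lit 383) (nat_lit 5) (nat_lit 395) (nat_lit 5) (nat_lit 384) (nat_lit 5) (nat_lit 670) (nat_lit 632) (nat_lit 258))) (XT.nd (nat_lit 78) (nat_lit 0) (nat_lit 0) (XT.lf (nat_lit 0) (nat_lit 13894244423) (nat_lit 760) (nat_lit 24492307555) (nat_lit 836) (nat_lit 17880580987) (nat_lit 373) (nat_lit 5) (nat_lit 383) (nat_lit 5) (nat_lit 384) (nat_lit 5) (nat_lit 671) (nat_lit 632) (nat_lit 257)) (XT.lf (nat_lit 0) (nat_lit 45806304138) (nat_lit 836) (nat_lit 10992884937) (nat_lit 76) (nat_lit 99806463) (nat_lit 373) (nat_lit 5) (nat_lit 384) (nat_lit 5) (nat_lit 374) (nat_lit 5) (nat_lit 672) (nat_lit 632) (nat_lit 256))))) (XT.nd (nat_lit 312) (nat_lit 1368) (nat_lit 0) (XT.nd (nat_lit 156) (nat_lit 1520) (nat_lit 0) (XT.nd (nat_lit 78) (nat_lit 76) (nat_lit 0) (XT.lf (nat_lit 0) (nat_lit 21128946176) (nat_lit 760) (nat_lit 32544257222) (nat_lit 836) (nat_lit 3864316939) (nat_lit 363)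 (nat_lit 5) (nat_lit 373) (nat_lit 5) (nat_lit 374) (nat_lit 5) (nat_lit 673) (nat_lit 632) (nat_lit 255)) (XT.lf (nat_lit 0) (nat_lit 3536237393) (nat_lit 836) (nat_lit 4169069418) (nat_lit 76) (nat_lit 50481580658) (nat_lit 362) (nat_lit 5) (nat_lit 373) (nat_lit 5) (nat_lit 363) (nat_lit 5) (nat_lit 674) (nat_lit 632) (nat_lit 254))) (XT.nd (nat_lit 78) (nat_lit 760) (nat_lit 0) (XT.lf (nat_lit 0) (nat_lit 11337122980) (nat_lit 836) (nat_lit 29890632137) (nat_lit 76) (nat_lit 17614894712) (nat_lit 352) (nat_lit 5) (nat_lit 363) (nat_lit 5) (nat_lit 353) (nat_lit 5) (nat_lit 675) (nat_lit 632) (nat_lit 253)) (XT.lf (nat_lit 0) (nat_lit 3272092179) (nat_lit 760) (nat_lit 16121760856) (nat_lit 836) (nat_lit 40115677882) (nat_lit 342) (nat_lit 5) (nat_lit 352) (nat_lit 5) (nat_lit 353) (nat_lit 5) (nat_lit 676) (nat_lit 632) (nat_lit 252)))) (XT.nd (nat_lit 156) (nat_lit 684) (nat_lit 0) (XT.nd (nat_lit 78) (nat_lit 684) (nat_lit 0) (XT.lf (nat_lit 0) (nat_lit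 27874618397) (nat_lit 836) (nat_lit 22746098327) (nat_lit 76) (nat_lit 9563774904) (nat_lit 342) (nat_lit 5) (nat_lit 353) (nat_lit 5) (nat_lit 343) (nat_lit 5) (nat_lit 677) (nat_lit 632) (nat_lit 251)) (XT.lf (nat_lit 0) (nat_lit 11457901516) (nat_lit 684) (nat_lit 25247667039) (nat_lit 760) (nat_lit 24163771622) (nat_lit 333) (nat_lit 5) (nat_lit 342) (nat_lit 5) (nat_lit 343) (nat_lit 5) (nat_lit 678) (nat_lit 632) (nat_lit 250))) (XT.nd (nat_lit 78) (nat_lit 684) (nat_lit 0) (XT.lf (nat_lit 0) (nat_lit 45870312918) (nat_lit 760) (nat_lit 14916321771) (nat_lit 76) (nat_lit 778107519) (nat_lit 333) (nat_lit 5) (nat_lit 343) (nat_lit 5) (nat_lit 334) (nat_lit 5) (nat_lit 679) (nat_lit 632) (nat_lit 249)) (XT.lf (nat_lit 0) (nat_lit 20367957261) (nat_lit 684) (nat_lit 35149268934) (nat_lit 760) (nat_lit 6750848619) (nat_lit 324) (nat_lit 5) (nat_lit 333) (nat_lit 5) (nat_lit 334) (nat_lit 5) (nat_lit 680) (nat_lit 632) (nat_lit 248))))))) (XT.nd (nat_lit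 1170) (nat_lit 3952) (nat_lit 0) (XT.nd (nat_lit 546) (nat_lit 0) (nat_lit 228) (XT.nd (nat_lit 234) (nat_lit 0) (nat_lit 76) (XT.nd (nat_lit 78) (nat_lit 0) (nat_lit 0) (XT.lf (nat_lit 0) (nat_lit 4331454071) (nat_lit 1900) (nat_lit 7353483871) (nat_lit 1900) (nat_lit 7353483871) (nat_lit 481) (nat_lit 3) (nat_lit 506) (nat_lit 3) (nat_lit 506) (nat_lit 5) (nat_lit 633) (nat_lit 633) (nat_lit 294)) (XT.nd (nat_lit 78) (nat_lit 0) (nat_lit 76) (XT.lf (nat_lit 76) (nat_lit 4311403644) (nat_lit 0) (nat_lit 4511636440) (nat_lit 1900) (nat_lit 29633100545) (nat_lit 482) (nat_lit 5) (nat_lit 481) (nat_lit 3) (nat_lit 506) (nat_lit 5) (nat_lit 634) (nat_lit 633) (nat_lit 293)) (XT.lf (nat_lit 0) (nat_lit 9180122226) (nat_lit 1824) (nat_lit 15028445203) (nat_lit 1900) (nat_lit 14630581228) (nat_lit 482) (nat_lit 5) (nat_lit 506) (nat_lit 5) (nat_lit 507) (nat_lit 5) (nat_lit 635) (nat_lit 633) (nat_lit 292)))) (XT.nd (nat_lit 156) (nat_lit 0) (nat_lit 76) (XT.nd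 (nat_lit 78) (nat_lit 0) (nat_lit 76) (XT.lf (nat_lit 76) (nat_lit 4498662755) (nat_lit 0) (nat_lit 5103599368) (nat_lit 1900) (nat_lit 29626396434) (nat_lit 483) (nat_lit 5) (nat_lit 482) (nat_lit 5) (nat_lit 507) (nat_lit 5) (nat_lit 636) (nat_lit 633) (nat_lit 291)) (XT.lf (nat_lit 0) (nat_lit 10226600184) (nat_lit 1824) (nat_lit 15098623523) (nat_lit 1900) (nat_lit 14296859877) (nat_lit 483) (nat_lit 5) (nat_lit 507) (nat_lit 5) (nat_lit 508) (nat_lit 5) (nat_lit 637) (nat_lit 633) (nat_lit 290))) (XT.nd (nat_lit 78) (nat_lit 0) (nat_lit 76) (XT.lf (nat_lit 76) (nat_lit 4955933970) (nat_lit 0) (nat_lit 5972341133) (nat_lit 1900) (nat_lit 29093805038) (nat_lit 484) (nat_lit 5) (nat_lit 483) (nat_lit 5) (nat_lit 508) (nat_lit 5) (nat_lit 638) (nat_lit 633) (nat_lit 289)) (XT.lf (nat_lit 0) (nat_lit 11834257817) (nat_lit 1824) (nat_lit 14902523736) (nat_lit 1900) (nat_lit 13689489626) (nat_lit 484) (nat_lit 5) (nat_lit 508) (nat_lit 5) (nat_lit 509) (nat_lit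 5) (nat_lit 639) (nat_lit 633) (nat_lit 288))))) (XT.nd (nat_lit 312) (nat_lit 0) (nat_lit 152) (XT.nd (nat_lit 156) (nat_lit 0) (nat_lit 76) (XT.nd (nat_lit 78) (nat_lit 0) (nat_lit 76) (XT.lf (nat_lit 76) (nat_lit 5698911915) (nat_lit 0) (nat_lit 7134918183) (nat_lit 1900) (nat_lit 28003206572) (nat_lit 485) (nat_lit 5) (nat_lit 484) (nat_lit 5) (nat_lit 509) (nat_lit 5) (nat_lit 640) (nat_lit 633) (nat_lit 287)) (XT.lf (nat_lit 0) (nat_lit 14036485575) (nat_lit 1824) (nat_lit 14424454179) (nat_lit 1900) (nat_lit 12791415917) (nat_lit 485) (nat_lit 5) (nat_lit 509) (nat_lit 5) (nat_lit 510) (nat_lit 5) (nat_lit 641) (nat_lit 633) (nat_lit 286))) (XT.nd (nat_lit 78) (nat_lit 0) (nat_lit 76) (XT.lf (nat_lit 76) (nat_lit 6744031637) (nat_lit 0) (nat_lit 8609157865) (nat_lit 1900) (nat_lit 26320991673) (nat_lit 486) (nat_lit 5) (nat_lit 485) (nat_lit 5) (nat_lit 510) (nat_lit 5) (nat_lit 642) (nat_lit 633) (nat_lit 285)) (XT.lf (nat_lit 0) (nat_lit 16868212748)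 (nat_lit 1824) (nat_lit 13647981172) (nat_lit 1900) (nat_lit 11584809594) (nat_lit 486) (nat_lit 5) (nat_lit 510) (nat_lit 5) (nat_lit 511) (nat_lit 5) (nat_lit 643) (nat_lit 633) (nat_lit 284)))) (XT.nd (nat_lit 156) (nat_lit 0) (nat_lit 76) (XT.nd (nat_lit 78) (nat_lit 0) (nat_lit 76) (XT.lf (nat_lit 76) (nat_lit 8108499009) (nat_lit 0) (nat_lit 10413693709) (nat_lit 1900) (nat_lit 24011996488) (nat_lit 487) (nat_lit 5) (nat_lit 486) (nat_lit 5) (nat_lit 511) (nat_lit 5) (nat_lit 644) (nat_lit 633) (nat_lit 283)) (XT.lf (nat_lit 0) (nat_lit 20365974262) (nat_lit 1824) (nat_lit 12555898473) (nat_lit 1900) (nat_lit 10051031467) (nat_lit 487) (nat_lit 5) (nat_lit 511) (nat_lit 5) (nat_lit 512) (nat_lit 5) (nat_lit 645) (nat_lit 633) (nat_lit 282))) (XT.nd (nat_lit 78) (nat_lit 0) (nat_lit 76) (XT.lf (nat_lit 76) (nat_lit 9810322413) (nat_lit 0) (nat_lit 12568002119) (nat_lit 1900) (nat_lit 21039435133) (nat_lit 488) (nat_lit 5) (nat_lit 487) (nat_lit 5)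 (nat_lit 512) (nat_lit 5) (nat_lit 646) (nat_lit 633) (nat_lit 281)) (XT.lf (nat_lit 0) (nat_lit 24567980192) (nat_lit 1824) (nat_lit 11130195445) (nat_lit 1900) (nat_lit 8170595460) (nat_lit 488) (nat_lit 5) (nat_lit 512) (nat_lit 5) (nat_lit 513) (nat_lit 5) (nat_lit 647) (nat_lit 633) (nat_lit 280)))))) (XT.nd (nat_lit 624) (nat_lit 2812) (nat_lit 0) (XT.nd (nat_lit 312) (nat_lit 1672) (nat_lit 0) (XT.nd (nat_lit 156) (nat_lit 0) (nat_lit 76) (XT.nd (nat_lit 78) (nat_lit 0) (nat_lit 76) (XT.lf (nat_lit 76) (nat_lit 11868345731) (nat_lit 0) (nat_lit 15092440509) (nat_lit 1900) (nat_lit 17364829401) (nat_lit 489) (nat_lit 5) (nat_lit 488) (nat_lit 5) (nat_lit 513) (nat_lit 5) (nat_lit 648) (nat_lit 633) (nat_lit 279)) (XT.lf (nat_lit 0) (nat_lit 29514188096) (nat_lit 1824) (nat_lit 9352023922) (nat_lit 1900) (nat_lit 5923130292) (nat_lit 489) (nat_lit 5) (nat_lit 513) (nat_lit 5) (nat_lit 514) (nat_lit 5) (nat_lit 649) (nat_lit 633) (nat_lit 278))) (XT.nd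 (nat_lit 78) (nat_lit 0) (nat_lit 76) (XT.lf (nat_lit 76) (nat_lit 14302282709) (nat_lit 0) (nat_lit 18008286980) (nat_lit 1900) (nat_lit 12947935616) (nat_lit 490) (nat_lit 5) (nat_lit 489) (nat_lit 5) (nat_lit 514) (nat_lit 5) (nat_lit 650) (nat_lit 633) (nat_lit 277)) (XT.lf (nat_lit 0) (nat_lit 35246378291) (nat_lit 1824) (nat_lit 7201663690) (nat_lit 1900) (nat_lit 3287339618) (nat_lit 490) (nat_lit 5) (nat_lit 514) (nat_lit 5) (nat_lit 515) (nat_lit 5) (nat_lit 651) (nat_lit 633) (nat_lit 276)))) (XT.nd (nat_lit 156) (nat_lit 1824) (nat_lit 0) (XT.nd (nat_lit 78) (nat_lit 0) (nat_lit 76) (XT.lf (nat_lit 76) (nat_lit 17132752731) (nat_lit 0) (nat_lit 21337781583) (nat_lit 1900) (nat_lit 7746668504) (nat_lit 491) (nat_lit 5) (nat_lit 490) (nat_lit 5) (nat_lit 515) (nat_lit 5) (nat_lit 652) (nat_lit 633) (nat_lit 275)) (XT.lf (nat_lit 0) (nat_lit 41808232201) (nat_lit 1824) (nat_lit 4658486551) (nat_lit 1900) (nat_lit 240960561) (nat_lit 491) (nat_lit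 5) (nat_lit 515) (nat_lit 5) (nat_lit 516) (nat_lit 5) (nat_lit 653) (nat_lit 633) (nat_lit 274))) (XT.nd (nat_lit 78) (nat_lit 1900) (nat_lit 0) (XT.lf (nat_lit 76) (nat_lit 20381318065) (nat_lit 0) (nat_lit 25104169261) (nat_lit 1900) (nat_lit 1717021971) (nat_lit 492) (nat_lit 5) (nat_lit 491) (nat_lit 5) (nat_lit 516) (nat_lit 5) (nat_lit 654) (nat_lit 633) (nat_lit 273)) (XT.lf (nat_lit 0) (nat_lit 1539636808) (nat_lit 1900) (nat_lit 1732359164) (nat_lit 1976) (nat_lit 44434428602) (nat_lit 466) (nat_lit 5) (nat_lit 491) (nat_lit 5) (nat_lit 492) (nat_lit 5) (nat_lit 655) (nat_lit 633) (nat_lit 272))))) (XT.nd (nat_lit 312) (nat_lit 1824) (nat_lit 0) (XT.nd (nat_lit 156) (nat_lit 1064) (nat_lit 0) (XT.nd (nat_lit 78) (nat_lit 0) (nat_lit 0) (XT.lf (nat_lit 0) (nat_lit 5118984738) (nat_lit 1900) (nat_lit 24178408699) (nat_lit 1976) (nat_lit 18917186814) (nat_lit 467) (nat_lit 5) (nat_lit 492) (nat_lit 5) (nat_lit 493) (nat_lit 5) (nat_lit 656) (nat_lit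 633) (nat_lit 271)) (XT.lf (nat_lit 76) (nat_lit 1609574063) (nat_lit 0) (nat_lit 7203366659) (nat_lit 1976) (nat_lit 39919097922) (nat_lit 468) (nat_lit 5) (nat_lit 467) (nat_lit 5) (nat_lit 493) (nat_lit 5) (nat_lit 657) (nat_lit 633) (nat_lit 270))) (XT.nd (nat_lit 78) (nat_lit 1140) (nat_lit 0) (XT.lf (nat_lit 0) (nat_lit 12842861051) (nat_lit 1900) (nat_lit 21116854518) (nat_lit 76) (nat_lit 15294888952) (nat_lit 468) (nat_lit 5) (nat_lit 493) (nat_lit 5) (nat_lit 469) (nat_lit 5) (nat_lit 658) (nat_lit 633) (nat_lit 269)) (XT.lf (nat_lit 0) (nat_lit 5431723957) (nat_lit 1140) (nat_lit 11603853906) (nat_lit 1216) (nat_lit 32750399914) (nat_lit 453) (nat_lit 5) (nat_lit 468) (nat_lit 5) (nat_lit 469) (nat_lit 5) (nat_lit 659) (nat_lit 633) (nat_lit 268)))) (XT.nd (nat_lit 156) (nat_lit 912) (nat_lit 0) (XT.nd (nat_lit 78) (nat_lit 912) (nat_lit 0) (XT.lf (nat_lit 0) (nat_lit 21526743477) (nat_lit 1216) (nat_lit 17601965256) (nat_lit 76) (nat_lit 11194977897)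 (nat_lit 453) (nat_lit 5) (nat_lit 469) (nat_lit 5) (nat_lit 454) (nat_lit 5) (nat_lit 660) (nat_lit 633) (nat_lit 267)) (XT.lf (nat_lit 0) (nat_lit 9735530309) (nat_lit 912) (nat_lit 16511511921) (nat_lit 988) (nat_lit 24622321254) (nat_lit 441) (nat_lit 5) (nat_lit 453) (nat_lit 5) (nat_lit 454) (nat_lit 5) (nat_lit 661) (nat_lit 633) (nat_lit 266))) (XT.nd (nat_lit 78) (nat_lit 912) (nat_lit 0) (XT.lf (nat_lit 0) (nat_lit 31222491022) (nat_lit 988) (nat_lit 13609263774) (nat_lit 76) (nat_lit 6590984219) (nat_lit 441) (nat_lit 5) (nat_lit 454) (nat_lit 5) (nat_lit 442) (nat_lit 5) (nat_lit 662) (nat_lit 633) (nat_lit 265)) (XT.lf (nat_lit 0) (nat_lit 14546557411) (nat_lit 912) (nat_lit 21953963761) (nat_lit 988) (nat_lit 15482599459) (nat_lit 429) (nat_lit 5) (nat_lit 441) (nat_lit 5) (nat_lit 442) (nat_lit 5) (nat_lit 663) (nat_lit 633) (nat_lit 264))))))))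
noncomputable def xc244 : XT := (XT.nd (nat_lit 80028) (nat_lit 0) (nat_lit 684) (XT.nd (nat_lit 1170) (nat_lit 684) (nat_lit 0) (XT.nd (nat_lit 546) (nat_lit 3116) (nat_lit 0) (XT.nd (nat_lit 234) (nat_lit 2584) (nat_lit 0) (XT.nd (nat_lit 78) (nat_lit 912) (nat_lit 0) (XT.lf (nat_lit 0) (nat_lit 41984299715) (nat_lit 988) (nat_lit 9113167523) (nat_lit 76) (nat_lit 1455238903) (nat_lit 429) (nat_lit 5) (nat_lit 442) (nat_lit 5) (nat_lit 430) (nat_lit 5) (nat_lit 664) (nat_lit 633) (nat_lit 263)) (XT.nd (nat_lit 78) (nat_lit 76) (nat_lit 0) (XT.lf (nat_lit 0) (nat_lit 19891517144) (nat_lit 836) (nat_lit 27960078850) (nat_lit 912) (nat_lit 5276610546) (nat_lit 418) (nat_lit 5) (nat_lit 429) (nat_lit 5) (nat_lit 430) (nat_lit 5) (nat_lit 665) (nat_lit 633) (nat_lit 262)) (XT.lf (nat_lit 0) (nat_lit 180300715) (nat_lit 912) (nat_lit 4116031815) (nat_lit 76) (nat_lit 49417651385) (nat_lit 417) (nat_lit 5) (nat_lit 429) (nat_lit 5) (nat_lit 418) (nat_lit 5)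 (nat_lit 666) (nat_lit 633) (nat_lit 261)))) (XT.nd (nat_lit 156) (nat_lit 836) (nat_lit 0) (XT.nd (nat_lit 78) (nat_lit 836) (nat_lit 0) (XT.lf (nat_lit 0) (nat_lit 5973348784) (nat_lit 988) (nat_lit 28546594519) (nat_lit 76) (nat_lit 19784882938) (nat_lit 405) (nat_lit 5) (nat_lit 418) (nat_lit 5) (nat_lit 406) (nat_lit 5) (nat_lit 667) (nat_lit 633) (nat_lit 260)) (XT.lf (nat_lit 0) (nat_lit 1367470563) (nat_lit 836) (nat_lit 10579252216) (nat_lit 912) (nat_lit 42959473353) (nat_lit 394) (nat_lit 5) (nat_lit 405) (nat_lit 5) (nat_lit 406) (nat_lit 5) (nat_lit 668) (nat_lit 633) (nat_lit 259))) (XT.nd (nat_lit 78) (nat_lit 836) (nat_lit 0) (XT.lf (nat_lit 0) (nat_lit 18321594682) (nat_lit 912) (nat_lit 23340796178) (nat_lit 76) (nat_lit 13851561970) (nat_lit 394) (nat_lit 5) (nat_lit 406) (nat_lit 5) (nat_lit 395) (nat_lit 5) (nat_lit 669) (nat_lit 633) (nat_lit 258)) (XT.lf (nat_lit 0) (nat_lit 7488579067) (nat_lit 836) (nat_lit 17453419039) (nat_lit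 912) (nat_lit 31189505892) (nat_lit 383) (nat_lit 5) (nat_lit 394) (nat_lit 5) (nat_lit 395) (nat_lit 5) (nat_lit 670) (nat_lit 633) (nat_lit 257))))) (XT.nd (nat_lit 312) (nat_lit 1596) (nat_lit 0) (XT.nd (nat_lit 156) (nat_lit 760) (nat_lit 0) (XT.nd (nat_lit 78) (nat_lit 760) (nat_lit 0) (XT.lf (nat_lit 0) (nat_lit 31898841309) (nat_lit 912) (nat_lit 17556057390) (nat_lit 76) (nat_lit 7302426874) (nat_lit 383) (nat_lit 5) (nat_lit 395) (nat_lit 5) (nat_lit 384) (nat_lit 5) (nat_lit 671) (nat_lit 633) (nat_lit 256)) (XT.lf (nat_lit 0) (nat_lit 14222836403) (nat_lit 760) (nat_lit 24979287420) (nat_lit 836) (nat_lit 18189393722) (nat_lit 373) (nat_lit 5) (nat_lit 383) (nat_lit 5) (nat_lit 384) (nat_lit 5) (nat_lit 672) (nat_lit 633) (nat_lit 255))) (XT.nd (nat_lit 78) (nat_lit 760) (nat_lit 0) (XT.lf (nat_lit 0) (nat_lit 46769351216) (nat_lit 836) (nat_lit 11162108752) (nat_lit 76) (nat_lit 104575822) (nat_lit 373) (nat_lit 5) (nat_lit 384) (nat_lit 5)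 (nat_lit 374) (nat_lit 5) (nat_lit 673) (nat_lit 633) (nat_lit 254)) (XT.lf (nat_lit 0) (nat_lit 21601825866) (nat_lit 760) (nat_lit 33191169161) (nat_lit 836) (nat_lit 3894347950) (nat_lit 363) (nat_lit 5) (nat_lit 373) (nat_lit 5) (nat_lit 374) (nat_lit 5) (nat_lit 674) (nat_lit 633) (nat_lit 253)))) (XT.nd (nat_lit 156) (nat_lit 760) (nat_lit 0) (XT.nd (nat_lit 78) (nat_lit 760) (nat_lit 0) (XT.lf (nat_lit 0) (nat_lit 3652683284) (nat_lit 836) (nat_lit 4202527551) (nat_lit 76) (nat_lit 51494498793) (nat_lit 362) (nat_lit 5) (nat_lit 373) (nat_lit 5) (nat_lit 363) (nat_lit 5) (nat_lit 675) (nat_lit 633) (nat_lit 252)) (XT.lf (nat_lit 0) (nat_lit 11609040973) (nat_lit 836) (nat_lit 30437974770) (nat_lit 76) (nat_lit 17971582427) (nat_lit 352) (nat_lit 5) (nat_lit 363) (nat_lit 5) (nat_lit 353) (nat_lit 5) (nat_lit 676) (nat_lit 633) (nat_lit 251))) (XT.nd (nat_lit 78) (nat_lit 0) (nat_lit 0) (XT.lf (nat_lit 0) (nat_lit 3387671993) (nat_lit 760) (nat_lit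 16438673370) (nat_lit 836) (nat_lit 40872482745) (nat_lit 342) (nat_lit 5) (nat_lit 352) (nat_lit 5) (nat_lit 353) (nat_lit 5) (nat_lit 677) (nat_lit 633) (nat_lit 250)) (XT.lf (nat_lit 0) (nat_lit 28475886377) (nat_lit 836) (nat_lit 23151024665) (nat_lit 76) (nat_lit 9760393806) (nat_lit 342) (nat_lit 5) (nat_lit 353) (nat_lit 5) (nat_lit 343) (nat_lit 5) (nat_lit 678) (nat_lit 633) (nat_lit 249)))))) (XT.nd (nat_lit 78234) (nat_lit 0) (nat_lit 11476) (XT.nd (nat_lit 77922) (nat_lit 0) (nat_lit 11324) (XT.nd (nat_lit 77766) (nat_lit 0) (nat_lit 11248) (XT.nd (nat_lit 77688) (nat_lit 0) (nat_lit 11248) (XT.lf (nat_lit 0) (nat_lit 11736726257) (nat_lit 684) (nat_lit 25746193405) (nat_lit 760) (nat_lit 24602941445) (nat_lit 333) (nat_lit 5) (nat_lit 342) (nat_lit 5) (nat_lit 343) (nat_lit 5) (nat_lit 679) (nat_lit 633) (nat_lit 248)) (XT.lf (nat_lit 0) (nat_lit 4463298038) (nat_lit 1900) (nat_lit 7477493273) (nat_lit 1900) (nat_lit 7477493273) (nat_lit 481)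 (nat_lit 3) (nat_lit 506) (nat_lit 3) (nat_lit 506) (nat_lit 5) (nat_lit 634) (nat_lit 634) (nat_lit 292))) (XT.nd (nat_lit 78) (nat_lit 0) (nat_lit 76) (XT.lf (nat_lit 76) (nat_lit 4443448844) (nat_lit 0) (nat_lit 4645006156) (nat_lit 1900) (nat_lit 30135026677) (nat_lit 482) (nat_lit 5) (nat_lit 481) (nat_lit 3) (nat_lit 506) (nat_lit 5) (nat_lit 635) (nat_lit 634) (nat_lit 291)) (XT.lf (nat_lit 0) (nat_lit 9450660004) (nat_lit 1824) (nat_lit 15282073943) (nat_lit 1900) (nat_lit 14881456345) (nat_lit 482) (nat_lit 5) (nat_lit 506) (nat_lit 5) (nat_lit 507) (nat_lit 5) (nat_lit 636) (nat_lit 634) (nat_lit 290)))) (XT.nd (nat_lit 156) (nat_lit 0) (nat_lit 76) (XT.nd (nat_lit 78) (nat_lit 0) (nat_lit 76) (XT.lf (nat_lit 76) (nat_lit 4635267356) (nat_lit 0) (nat_lit 5244573490) (nat_lit 1900) (nat_lit 30131677634) (nat_lit 483) (nat_lit 5) (nat_lit 482) (nat_lit 5) (nat_lit 507) (nat_lit 5) (nat_lit 637) (nat_lit 634) (nat_lit 289)) (XT.lf (nat_lit 0) (nat_lit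 10514740915) (nat_lit 1824) (nat_lit 15352951706) (nat_lit 1900) (nat_lit 14545157931) (nat_lit 483) (nat_lit 5) (nat_lit 507) (nat_lit 5) (nat_lit 508) (nat_lit 5) (nat_lit 638) (nat_lit 634) (nat_lit 288))) (XT.nd (nat_lit 78) (nat_lit 0) (nat_lit 76) (XT.lf (nat_lit 76) (nat_lit 5102383488) (nat_lit 0) (nat_lit 6126733762) (nat_lit 1900) (nat_lit 29591756483) (nat_lit 484) (nat_lit 5) (nat_lit 483) (nat_lit 5) (nat_lit 508) (nat_lit 5) (nat_lit 639) (nat_lit 634) (nat_lit 287)) (XT.lf (nat_lit 0) (nat_lit 12151383908) (nat_lit 1824) (nat_lit 15152333288) (nat_lit 1900) (nat_lit 13929468158) (nat_lit 484) (nat_lit 5) (nat_lit 508) (nat_lit 5) (nat_lit 509) (nat_lit 5) (nat_lit 640) (nat_lit 634) (nat_lit 286))))) (XT.nd (nat_lit 312) (nat_lit 0) (nat_lit 152) (XT.nd (nat_lit 156) (nat_lit 0) (nat_lit 76) (XT.nd (nat_lit 78) (nat_lit 0) (nat_lit 76) (XT.lf (nat_lit 76) (nat_lit 5860813702) (nat_lit 0) (nat_lit 7308867811) (nat_lit 1900) (nat_lit 28482510013)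 (nat_lit 485) (nat_lit 5) (nat_lit 484) (nat_lit 5) (nat_lit 509) (nat_lit 5) (nat_lit 641) (nat_lit 634) (nat_lit 285)) (XT.lf (nat_lit 0) (nat_lit 14394638726) (nat_lit 1824) (nat_lit 14664205683) (nat_lit 1900) (nat_lit 13017007570) (nat_lit 485) (nat_lit 5) (nat_lit 509) (nat_lit 5) (nat_lit 510) (nat_lit 5) (nat_lit 642) (nat_lit 634) (nat_lit 284))) (XT.nd (nat_lit 78) (nat_lit 0) (nat_lit 76) (XT.lf (nat_lit 76) (nat_lit 6927329207) (nat_lit 0) (nat_lit 8809143773) (nat_lit 1900) (nat_lit 26769665135) (nat_lit 486) (nat_lit 5) (nat_lit 485) (nat_lit 5) (nat_lit 510) (nat_lit 5) (nat_lit 643) (nat_lit 634) (nat_lit 283)) (XT.lf (nat_lit 0) (nat_lit 17280125213) (nat_lit 1824) (nat_lit 13871799487) (nat_lit 1900) (nat_lit 11789605675) (nat_lit 486) (nat_lit 5) (nat_lit 510) (nat_lit 5) (nat_lit 511) (nat_lit 5) (nat_lit 644) (nat_lit 634) (nat_lit 282)))) (XT.nd (nat_lit 156) (nat_lit 0) (nat_lit 76) (XT.nd (nat_lit 78) (nat_lit 0) (nat_lit 76) (XT.lf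 (nat_lit 76) (nat_lit 8319486999) (nat_lit 0) (nat_lit 10646553012) (nat_lit 1900) (nat_lit 24417362709) (nat_lit 487) (nat_lit 5) (nat_lit 486) (nat_lit 5) (nat_lit 511) (nat_lit 5) (nat_lit 645) (nat_lit 634) (nat_lit 281)) (XT.lf (nat_lit 0) (nat_lit 20845101409) (nat_lit 1824) (nat_lit 12757557712) (nat_lit 1900) (nat_lit 10228264855) (nat_lit 487) (nat_lit 5) (nat_lit 511) (nat_lit 5) (nat_lit 512) (nat_lit 5) (nat_lit 646) (nat_lit 634) (nat_lit 280))) (XT.nd (nat_lit 78) (nat_lit 0) (nat_lit 76) (XT.lf (nat_lit 76) (nat_lit 10055662205) (nat_lit 0) (nat_lit 12840947491) (nat_lit 1900) (nat_lit 21388088673) (nat_lit 488) (nat_lit 5) (nat_lit 487) (nat_lit 5) (nat_lit 512) (nat_lit 5) (nat_lit 647) (nat_lit 634) (nat_lit 279)) (XT.lf (nat_lit 0) (nat_lit 25128534431) (nat_lit 1824) (nat_lit 11303103296) (nat_lit 1900) (nat_lit 8313122826) (nat_lit 488) (nat_lit 5) (nat_lit 512) (nat_lit 5) (nat_lit 513) (nat_lit 5) (nat_lit 648) (nat_lit 634) (nat_lit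 278))))))) (XT.nd (nat_lit 1170) (nat_lit 7524) (nat_lit 0) (XT.nd (nat_lit 546) (nat_lit 3572) (nat_lit 0) (XT.nd (nat_lit 234) (nat_lit 0) (nat_lit 152) (XT.nd (nat_lit 78) (nat_lit 0) (nat_lit 76) (XT.lf (nat_lit 76) (nat_lit 12155081756) (nat_lit 0) (nat_lit 15413078623) (nat_lit 1900) (nat_lit 17642602373) (nat_lit 489) (nat_lit 5) (nat_lit 488) (nat_lit 5) (nat_lit 513) (nat_lit 5) (nat_lit 649) (nat_lit 634) (nat_lit 277)) (XT.nd (nat_lit 78) (nat_lit 0) (nat_lit 0) (XT.lf (nat_lit 0) (nat_lit 30171174232) (nat_lit 1824) (nat_lit 9489205279) (nat_lit 1900) (nat_lit 6023413605) (nat_lit 489) (nat_lit 5) (nat_lit 513) (nat_lit 5) (nat_lit 514) (nat_lit 5) (nat_lit 650) (nat_lit 634) (nat_lit 276)) (XT.lf (nat_lit 76) (nat_lit 14637859465) (nat_lit 0) (nat_lit 18384637691) (nat_lit 1900) (nat_lit 13139861979) (nat_lit 490) (nat_lit 5) (nat_lit 489) (nat_lit 5) (nat_lit 514) (nat_lit 5) (nat_lit 651) (nat_lit 634) (nat_lit 275)))) (XT.nd (nat_lit 156)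 (nat_lit 0) (nat_lit 76) (XT.nd (nat_lit 78) (nat_lit 0) (nat_lit 0) (XT.lf (nat_lit 0) (nat_lit 36015630357) (nat_lit 1824) (nat_lit 7295743570) (nat_lit 1900) (nat_lit 3337426898) (nat_lit 490) (nat_lit 5) (nat_lit 514) (nat_lit 5) (nat_lit 515) (nat_lit 5) (nat_lit 652) (nat_lit 634) (nat_lit 274)) (XT.lf (nat_lit 76) (nat_lit 17525032538) (nat_lit 0) (nat_lit 21778297894) (nat_lit 1900) (nat_lit 7836946855) (nat_lit 491) (nat_lit 5) (nat_lit 490) (nat_lit 5) (nat_lit 515) (nat_lit 5) (nat_lit 653) (nat_lit 634) (nat_lit 273))) (XT.nd (nat_lit 78) (nat_lit 0) (nat_lit 0) (XT.lf (nat_lit 0) (nat_lit 42706451833) (nat_lit 1824) (nat_lit 4701672279) (nat_lit 1900) (nat_lit 232465846) (nat_lit 491) (nat_lit 5) (nat_lit 515) (nat_lit 5) (nat_lit 516) (nat_lit 5) (nat_lit 654) (nat_lit 634) (nat_lit 272)) (XT.lf (nat_lit 76) (nat_lit 20838599588) (nat_lit 0) (nat_lit 25617758104) (nat_lit 1900) (nat_lit 1688976774) (nat_lit 492) (nat_lit 5) (nat_lit 491)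 (nat_lit 5) (nat_lit 516) (nat_lit 5) (nat_lit 655) (nat_lit 634) (nat_lit 271))))) (XT.nd (nat_lit 312) (nat_lit 1900) (nat_lit 0) (XT.nd (nat_lit 156) (nat_lit 0) (nat_lit 76) (XT.nd (nat_lit 78) (nat_lit 0) (nat_lit 76) (XT.lf (nat_lit 0) (nat_lit 1630789777) (nat_lit 1900) (nat_lit 1717520925) (nat_lit 1976) (nat_lit 45311033423) (nat_lit 466) (nat_lit 5) (nat_lit 491) (nat_lit 5) (nat_lit 492) (nat_lit 5) (nat_lit 656) (nat_lit 634) (nat_lit 270)) (XT.lf (nat_lit 0) (nat_lit 5280793202) (nat_lit 1900) (nat_lit 24611558287) (nat_lit 1976) (nat_lit 19285330091) (nat_lit 467) (nat_lit 5) (nat_lit 492) (nat_lit 5) (nat_lit 493) (nat_lit 5) (nat_lit 657) (nat_lit 634) (nat_lit 269))) (XT.nd (nat_lit 78) (nat_lit 0) (nat_lit 76) (XT.lf (nat_lit 76) (nat_lit 1691852430) (nat_lit 0) (nat_lit 7355935803) (nat_lit 1976) (nat_lit 40657717742) (nat_lit 468) (nat_lit 5) (nat_lit 467) (nat_lit 5) (nat_lit 493) (nat_lit 5) (nat_lit 658) (nat_lit 634) (nat_lit 268))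 (XT.lf (nat_lit 0) (nat_lit 13157104054) (nat_lit 1900) (nat_lit 21488882268) (nat_lit 76) (nat_lit 15592560939) (nat_lit 468) (nat_lit 5) (nat_lit 493) (nat_lit 5) (nat_lit 469) (nat_lit 5) (nat_lit 659) (nat_lit 634) (nat_lit 267)))) (XT.nd (nat_lit 156) (nat_lit 912) (nat_lit 0) (XT.nd (nat_lit 78) (nat_lit 0) (nat_lit 0) (XT.lf (nat_lit 0) (nat_lit 5590336794) (nat_lit 1140) (nat_lit 11842537689) (nat_lit 1216) (nat_lit 33347689545) (nat_lit 453) (nat_lit 5) (nat_lit 468) (nat_lit 5) (nat_lit 469) (nat_lit 5) (nat_lit 660) (nat_lit 634) (nat_lit 266)) (XT.lf (nat_lit 0) (nat_lit 22012711844) (nat_lit 1216) (nat_lit 17903853034) (nat_lit 76) (nat_lit 11412485242) (nat_lit 453) (nat_lit 5) (nat_lit 469) (nat_lit 5) (nat_lit 454) (nat_lit 5) (nat_lit 661) (nat_lit 634) (nat_lit 265))) (XT.nd (nat_lit 78) (nat_lit 0) (nat_lit 0) (XT.lf (nat_lit 0) (nat_lit 9980062498) (nat_lit 912) (nat_lit 16846590618) (nat_lit 988) (nat_lit 25059002697) (nat_lit 441)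 (nat_lit 5) (nat_lit 453) (nat_lit 5) (nat_lit 454) (nat_lit 5) (nat_lit 662) (nat_lit 634) (nat_lit 264)) (XT.lf (nat_lit 0) (nat_lit 31900508060) (nat_lit 988) (nat_lit 13831500027) (nat_lit 76) (nat_lit 6718112855) (nat_lit 441) (nat_lit 5) (nat_lit 454) (nat_lit 5) (nat_lit 442) (nat_lit 5) (nat_lit 663) (nat_lit 634) (nat_lit 263)))))) (XT.nd (nat_lit 624) (nat_lit 3116) (nat_lit 0) (XT.nd (nat_lit 312) (nat_lit 2584) (nat_lit 0) (XT.nd (nat_lit 156) (nat_lit 912) (nat_lit 0) (XT.nd (nat_lit 78) (nat_lit 0) (nat_lit 0) (XT.lf (nat_lit 0) (nat_lit 14887108970) (nat_lit 912) (nat_lit 22396261673) (nat_lit 988) (nat_lit 15738354138) (nat_lit 429) (nat_lit 5) (nat_lit 441) (nat_lit 5) (nat_lit 442) (nat_lit 5) (nat_lit 664) (nat_lit 634) (nat_lit 262)) (XT.lf (nat_lit 0) (nat_lit 42875768210) (nat_lit 988) (nat_lit 9245725412) (nat_lit 76) (nat_lit 1481229540) (nat_lit 429) (nat_lit 5) (nat_lit 442) (nat_lit 5) (nat_lit 430) (nat_lit 5) (nat_lit 665)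 (nat_lit 634) (nat_lit 261))) (XT.nd (nat_lit 78) (nat_lit 76) (nat_lit 0) (XT.lf (nat_lit 0) (nat_lit 20338725939) (nat_lit 836) (nat_lit 28520989730) (nat_lit 912) (nat_lit 5330031823) (nat_lit 418) (nat_lit 5) (nat_lit 429) (nat_lit 5) (nat_lit 430) (nat_lit 5) (nat_lit 666) (nat_lit 634) (nat_lit 260)) (XT.lf (nat_lit 0) (nat_lit 234325837) (nat_lit 912) (nat_lit 4149270792) (nat_lit 76) (nat_lit 50403657213) (nat_lit 417) (nat_lit 5) (nat_lit 429) (nat_lit 5) (nat_lit 418) (nat_lit 5) (nat_lit 667) (nat_lit 634) (nat_lit 259)))) (XT.nd (nat_lit 156) (nat_lit 836) (nat_lit 0) (XT.nd (nat_lit 78) (nat_lit 836) (nat_lit 0) (XT.lf (nat_lit 0) (nat_lit 6142556415) (nat_lit 988) (nat_lit 29067764956) (nat_lit 76) (nat_lit 20179605240) (nat_lit 405) (nat_lit 5) (nat_lit 418) (nat_lit 5) (nat_lit 406) (nat_lit 5) (nat_lit 668) (nat_lit 634) (nat_lit 258)) (XT.lf (nat_lit 0) (nat_lit 1444254050) (nat_lit 836) (nat_lit 10790489492) (nat_lit 912) (nat_lit 43768593472)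 (nat_lit 394) (nat_lit 5) (nat_lit 405) (nat_lit 5) (nat_lit 406) (nat_lit 5) (nat_lit 669) (nat_lit 634) (nat_lit 257))) (XT.nd (nat_lit 78) (nat_lit 836) (nat_lit 0) (XT.lf (nat_lit 0) (nat_lit 18736152620) (nat_lit 912) (nat_lit 23758185770) (nat_lit 76) (nat_lit 14128929687) (nat_lit 394) (nat_lit 5) (nat_lit 406) (nat_lit 5) (nat_lit 395) (nat_lit 5) (nat_lit 670) (nat_lit 634) (nat_lit 256)) (XT.lf (nat_lit 0) (nat_lit 7687451807) (nat_lit 836) (nat_lit 17800887454) (nat_lit 912) (nat_lit 31764843529) (nat_lit 383) (nat_lit 5) (nat_lit 394) (nat_lit 5) (nat_lit 395) (nat_lit 5) (nat_lit 671) (nat_lit 634) (nat_lit 255))))) (XT.nd (nat_lit 312) (nat_lit 1596) (nat_lit 0) (XT.nd (nat_lit 156) (nat_lit 760) (nat_lit 0) (XT.nd (nat_lit 78) (nat_lit 760) (nat_lit 0) (XT.lf (nat_lit 0) (nat_lit 32583398116) (nat_lit 912) (nat_lit 17858117695) (nat_lit 76) (nat_lit 7450023433) (nat_lit 383) (nat_lit 5) (nat_lit 395) (nat_lit 5) (nat_lit 384) (nat_lit 5)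 (nat_lit 672) (nat_lit 634) (nat_lit 254)) (XT.lf (nat_lit 0) (nat_lit 14556031205) (nat_lit 760) (nat_lit 25476118184) (nat_lit 836) (nat_lit 18506277631) (nat_lit 373) (nat_lit 5) (nat_lit 383) (nat_lit 5) (nat_lit 384) (nat_lit 5) (nat_lit 673) (nat_lit 634) (nat_lit 253))) (XT.nd (nat_lit 78) (nat_lit 760) (nat_lit 0) (XT.lf (nat_lit 0) (nat_lit 47749837236) (nat_lit 836) (nat_lit 11336683218) (nat_lit 76) (nat_lit 109332880) (nat_lit 373) (nat_lit 5) (nat_lit 384) (nat_lit 5) (nat_lit 374) (nat_lit 5) (nat_lit 674) (nat_lit 634) (nat_lit 252)) (XT.lf (nat_lit 0) (nat_lit 22082209910) (nat_lit 760) (nat_lit 33851173624) (nat_lit 836) (nat_lit 3926814563) (nat_lit 363) (nat_lit 5) (nat_lit 373) (nat_lit 5) (nat_lit 374) (nat_lit 5) (nat_lit 675) (nat_lit 634) (nat_lit 251)))) (XT.nd (nat_lit 156) (nat_lit 760) (nat_lit 0) (XT.nd (nat_lit 78) (nat_lit 760) (nat_lit 0) (XT.lf (nat_lit 0) (nat_lit 3769682685) (nat_lit 836) (nat_lit 4238593428) (nat_lit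 76) (nat_lit 52527547670) (nat_lit 362) (nat_lit 5) (nat_lit 373) (nat_lit 5) (nat_lit 363) (nat_lit 5) (nat_lit 676) (nat_lit 634) (nat_lit 250)) (XT.lf (nat_lit 0) (nat_lit 11884643104) (nat_lit 836) (nat_lit 30998224068) (nat_lit 76) (nat_lit 18335233435) (nat_lit 352) (nat_lit 5) (nat_lit 363) (nat_lit 5) (nat_lit 353) (nat_lit 5) (nat_lit 677) (nat_lit 634) (nat_lit 249))) (XT.nd (nat_lit 78) (nat_lit 0) (nat_lit 0) (XT.lf (nat_lit 0) (nat_lit 3503616485) (nat_lit 760) (nat_lit 16762138587) (nat_lit 836) (nat_lit 41646190863) (nat_lit 342) (nat_lit 5) (nat_lit 352) (nat_lit 5) (nat_lit 353) (nat_lit 5) (nat_lit 678) (nat_lit 634) (nat_lit 248)) (XT.lf (nat_lit 0) (nat_lit 29087479856) (nat_lit 836) (nat_lit 23565990920) (nat_lit 76) (nat_lit 9960737595) (nat_lit 342) (nat_lit 5) (nat_lit 353) (nat_lit 5) (nat_lit 343) (nat_lit 5) (nat_lit 679) (nat_lit 634) (nat_lit 247))))))))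
noncomputable def xc245 : XT := (XT.nd (nat_lit 2418) (nat_lit 6612) (nat_lit 0) (XT.nd (nat_lit 1170) (nat_lit 3952) (nat_lit 0) (XT.nd (nat_lit 546) (nat_lit 0) (nat_lit 228) (XT.nd (nat_lit 234) (nat_lit 0) (nat_lit 76) (XT.nd (nat_lit 78) (nat_lit 0) (nat_lit 0) (XT.lf (nat_lit 0) (nat_lit 4596023136) (nat_lit 1900) (nat_lit 7604878321) (nat_lit 1900) (nat_lit 7604878321) (nat_lit 481) (nat_lit 3) (nat_lit 506) (nat_lit 3) (nat_lit 506) (nat_lit 5) (nat_lit 635) (nat_lit 635) (nat_lit 290)) (XT.nd (nat_lit 78) (nat_lit 0) (nat_lit 76) (XT.lf (nat_lit 76) (nat_lit 4576355814) (nat_lit 0) (nat_lit 4779368204) (nat_lit 1900) (nat_lit 30650514716) (nat_lit 482) (nat_lit 5) (nat_lit 481) (nat_lit 3) (nat_lit 506) (nat_lit 5) (nat_lit 636) (nat_lit 635) (nat_lit 289)) (XT.lf (nat_lit 0) (nat_lit 9723232733) (nat_lit 1824) (nat_lit 15542598003) (nat_lit 1900) (nat_lit 15138969644) (nat_lit 482) (nat_lit 5) (nat_lit 506) (nat_lit 5) (nat_lit 507) (nat_lit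 5) (nat_lit 637) (nat_lit 635) (nat_lit 288)))) (XT.nd (nat_lit 156) (nat_lit 0) (nat_lit 76) (XT.nd (nat_lit 78) (nat_lit 0) (nat_lit 76) (XT.lf (nat_lit 76) (nat_lit 4772793298) (nat_lit 0) (nat_lit 5386856477) (nat_lit 1900) (nat_lit 30650452354) (nat_lit 483) (nat_lit 5) (nat_lit 482) (nat_lit 5) (nat_lit 507) (nat_lit 5) (nat_lit 638) (nat_lit 635) (nat_lit 287)) (XT.lf (nat_lit 0) (nat_lit 10805397833) (nat_lit 1824) (nat_lit 15614216538) (nat_lit 1900) (nat_lit 14799883520) (nat_lit 483) (nat_lit 5) (nat_lit 507) (nat_lit 5) (nat_lit 508) (nat_lit 5) (nat_lit 639) (nat_lit 635) (nat_lit 286))) (XT.nd (nat_lit 78) (nat_lit 0) (nat_lit 76) (XT.lf (nat_lit 76) (nat_lit 5249924082) (nat_lit 0) (nat_lit 6282857255) (nat_lit 1900) (nat_lit 30102925854) (nat_lit 484) (nat_lit 5) (nat_lit 483) (nat_lit 5) (nat_lit 508) (nat_lit 5) (nat_lit 640) (nat_lit 635) (nat_lit 285)) (XT.lf (nat_lit 0) (nat_lit 12471728901) (nat_lit 1824) (nat_lit 15409012285) (nat_lit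 1900) (nat_lit 14175559194) (nat_lit 484) (nat_lit 5) (nat_lit 508) (nat_lit 5) (nat_lit 509) (nat_lit 5) (nat_lit 641) (nat_lit 635) (nat_lit 284))))) (XT.nd (nat_lit 312) (nat_lit 0) (nat_lit 152) (XT.nd (nat_lit 156) (nat_lit 0) (nat_lit 76) (XT.nd (nat_lit 78) (nat_lit 0) (nat_lit 76) (XT.lf (nat_lit 76) (nat_lit 6024092594) (nat_lit 0) (nat_lit 7485082907) (nat_lit 1900) (nat_lit 28974535558) (nat_lit 485) (nat_lit 5) (nat_lit 484) (nat_lit 5) (nat_lit 509) (nat_lit 5) (nat_lit 642) (nat_lit 635) (nat_lit 283)) (XT.lf (nat_lit 0) (nat_lit 14756948494) (nat_lit 1824) (nat_lit 14910644757) (nat_lit 1900) (nat_lit 13248285183) (nat_lit 485) (nat_lit 5) (nat_lit 509) (nat_lit 5) (nat_lit 510) (nat_lit 5) (nat_lit 643) (nat_lit 635) (nat_lit 282))) (XT.nd (nat_lit 78) (nat_lit 0) (nat_lit 76) (XT.lf (nat_lit 76) (nat_lit 7112412639) (nat_lit 0) (nat_lit 9012049784) (nat_lit 1900) (nat_lit 27230331052) (nat_lit 486) (nat_lit 5) (nat_lit 485) (nat_lit 5)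 (nat_lit 510) (nat_lit 5) (nat_lit 644) (nat_lit 635) (nat_lit 281)) (XT.lf (nat_lit 0) (nat_lit 17697381129) (nat_lit 1824) (nat_lit 14102002385) (nat_lit 1900) (nat_lit 11999542242) (nat_lit 486) (nat_lit 5) (nat_lit 510) (nat_lit 5) (nat_lit 511) (nat_lit 5) (nat_lit 645) (nat_lit 635) (nat_lit 280)))) (XT.nd (nat_lit 156) (nat_lit 0) (nat_lit 76) (XT.nd (nat_lit 78) (nat_lit 0) (nat_lit 76) (XT.lf (nat_lit 76) (nat_lit 8532799087) (nat_lit 0) (nat_lit 10883114819) (nat_lit 1900) (nat_lit 24833743691) (nat_lit 487) (nat_lit 5) (nat_lit 486) (nat_lit 5) (nat_lit 511) (nat_lit 5) (nat_lit 646) (nat_lit 635) (nat_lit 279)) (XT.lf (nat_lit 0) (nat_lit 21331022719) (nat_lit 1824) (nat_lit 12965170678) (nat_lit 1900) (nat_lit 10409966598) (nat_lit 487) (nat_lit 5) (nat_lit 511) (nat_lit 5) (nat_lit 512) (nat_lit 5) (nat_lit 647) (nat_lit 635) (nat_lit 278))) (XT.nd (nat_lit 78) (nat_lit 0) (nat_lit 76) (XT.lf (nat_lit 76) (nat_lit 10304000886) (nat_lit 0)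 (nat_lit 13118513586) (nat_lit 1900) (nat_lit 21746516379) (nat_lit 488) (nat_lit 5) (nat_lit 487) (nat_lit 5) (nat_lit 512) (nat_lit 5) (nat_lit 648) (nat_lit 635) (nat_lit 277)) (XT.lf (nat_lit 0) (nat_lit 25697612843) (nat_lit 1824) (nat_lit 11481399062) (nat_lit 1900) (nat_lit 8459311711) (nat_lit 488) (nat_lit 5) (nat_lit 512) (nat_lit 5) (nat_lit 513) (nat_lit 5) (nat_lit 649) (nat_lit 635) (nat_lit 276)))))) (XT.nd (nat_lit 624) (nat_lit 2812) (nat_lit 0) (XT.nd (nat_lit 312) (nat_lit 1672) (nat_lit 0) (XT.nd (nat_lit 156) (nat_lit 0) (nat_lit 76) (XT.nd (nat_lit 78) (nat_lit 0) (nat_lit 76) (XT.lf (nat_lit 76) (nat_lit 12445635439) (nat_lit 0) (nat_lit 15739399888) (nat_lit 1900) (nat_lit 17928630491) (nat_lit 489) (nat_lit 5) (nat_lit 488) (nat_lit 5) (nat_lit 513) (nat_lit 5) (nat_lit 650) (nat_lit 635) (nat_lit 275)) (XT.lf (nat_lit 0) (nat_lit 30838709956) (nat_lit 1824) (nat_lit 9631066352) (nat_lit 1900) (nat_lit 6126408508) (nat_lit 489)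 (nat_lit 5) (nat_lit 513) (nat_lit 5) (nat_lit 514) (nat_lit 5) (nat_lit 651) (nat_lit 635) (nat_lit 274))) (XT.nd (nat_lit 78) (nat_lit 0) (nat_lit 76) (XT.lf (nat_lit 76) (nat_lit 14978224403) (nat_lit 0) (nat_lit 18767886934) (nat_lit 1900) (nat_lit 13338229817) (nat_lit 490) (nat_lit 5) (nat_lit 489) (nat_lit 5) (nat_lit 514) (nat_lit 5) (nat_lit 652) (nat_lit 635) (nat_lit 273)) (XT.lf (nat_lit 0) (nat_lit 36797769665) (nat_lit 1824) (nat_lit 7393644799) (nat_lit 1900) (nat_lit 3389124001) (nat_lit 490) (nat_lit 5) (nat_lit 514) (nat_lit 5) (nat_lit 515) (nat_lit 5) (nat_lit 653) (nat_lit 635) (nat_lit 272)))) (XT.nd (nat_lit 156) (nat_lit 1824) (nat_lit 0) (XT.nd (nat_lit 78) (nat_lit 0) (nat_lit 76) (XT.lf (nat_lit 76) (nat_lit 17923230952) (nat_lit 0) (nat_lit 22227090188) (nat_lit 1900) (nat_lit 7931541406) (nat_lit 491) (nat_lit 5) (nat_lit 490) (nat_lit 5) (nat_lit 515) (nat_lit 5) (nat_lit 654) (nat_lit 635) (nat_lit 271)) (XT.lf (nat_lit 0)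 (nat_lit 43620226188) (nat_lit 1824) (nat_lit 4747662661) (nat_lit 1900) (nat_lit 224318232) (nat_lit 491) (nat_lit 5) (nat_lit 515) (nat_lit 5) (nat_lit 516) (nat_lit 5) (nat_lit 655) (nat_lit 635) (nat_lit 270))) (XT.nd (nat_lit 78) (nat_lit 1900) (nat_lit 0) (XT.lf (nat_lit 76) (nat_lit 21303098570) (nat_lit 0) (nat_lit 26141171953) (nat_lit 1900) (nat_lit 1662793183) (nat_lit 492) (nat_lit 5) (nat_lit 491) (nat_lit 5) (nat_lit 516) (nat_lit 5) (nat_lit 656) (nat_lit 635) (nat_lit 269)) (XT.lf (nat_lit 0) (nat_lit 1721421944) (nat_lit 1900) (nat_lit 1704307502) (nat_lit 1976) (nat_lit 46205639567) (nat_lit 466) (nat_lit 5) (nat_lit 491) (nat_lit 5) (nat_lit 492) (nat_lit 5) (nat_lit 657) (nat_lit 635) (nat_lit 268))))) (XT.nd (nat_lit 312) (nat_lit 1824) (nat_lit 0) (XT.nd (nat_lit 156) (nat_lit 1064) (nat_lit 0) (XT.nd (nat_lit 78) (nat_lit 0) (nat_lit 0) (XT.lf (nat_lit 0) (nat_lit 5443530143) (nat_lit 1900) (nat_lit 25055328681) (nat_lit 1976) (nat_lit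 19661232331) (nat_lit 467) (nat_lit 5) (nat_lit 492) (nat_lit 5) (nat_lit 493) (nat_lit 5) (nat_lit 658) (nat_lit 635) (nat_lit 267)) (XT.lf (nat_lit 76) (nat_lit 1773831429) (nat_lit 0) (nat_lit 7511226194) (nat_lit 1976) (nat_lit 41413430595) (nat_lit 468) (nat_lit 5) (nat_lit 467) (nat_lit 5) (nat_lit 493) (nat_lit 5) (nat_lit 659) (nat_lit 635) (nat_lit 266))) (XT.nd (nat_lit 78) (nat_lit 1140) (nat_lit 0) (XT.lf (nat_lit 0) (nat_lit 13475403556) (nat_lit 1900) (nat_lit 21870304146) (nat_lit 76) (nat_lit 15896505783) (nat_lit 468) (nat_lit 5) (nat_lit 493) (nat_lit 5) (nat_lit 469) (nat_lit 5) (nat_lit 660) (nat_lit 635) (nat_lit 265)) (XT.lf (nat_lit 0) (nat_lit 5750181167) (nat_lit 1140) (nat_lit 12085738601) (nat_lit 1216) (nat_lit 33959166244) (nat_lit 453) (nat_lit 5) (nat_lit 468) (nat_lit 5) (nat_lit 469) (nat_lit 5) (nat_lit 661) (nat_lit 635) (nat_lit 264)))) (XT.nd (nat_lit 156) (nat_lit 912) (nat_lit 0) (XT.nd (nat_lit 78) (nat_lit 912)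 (nat_lit 0) (XT.lf (nat_lit 0) (nat_lit 22506247028) (nat_lit 1216) (nat_lit 18213726013) (nat_lit 76) (nat_lit 11634590952) (nat_lit 453) (nat_lit 5) (nat_lit 469) (nat_lit 5) (nat_lit 454) (nat_lit 5) (nat_lit 662) (nat_lit 635) (nat_lit 263)) (XT.lf (nat_lit 0) (nat_lit 10227550698) (nat_lit 912) (nat_lit 17188182617) (nat_lit 988) (nat_lit 25506583190) (nat_lit 441) (nat_lit 5) (nat_lit 453) (nat_lit 5) (nat_lit 454) (nat_lit 5) (nat_lit 663) (nat_lit 635) (nat_lit 262))) (XT.nd (nat_lit 78) (nat_lit 912) (nat_lit 0) (XT.lf (nat_lit 0) (nat_lit 32590005358) (nat_lit 988) (nat_lit 14060120585) (nat_lit 76) (nat_lit 6847966222) (nat_lit 441) (nat_lit 5) (nat_lit 454) (nat_lit 5) (nat_lit 442) (nat_lit 5) (nat_lit 664) (nat_lit 635) (nat_lit 261)) (XT.lf (nat_lit 0) (nat_lit 15232544740) (nat_lit 912) (nat_lit 22847280560) (nat_lit 988) (nat_lit 16001316808) (nat_lit 429) (nat_lit 5) (nat_lit 441) (nat_lit 5) (nat_lit 442) (nat_lit 5) (nat_lit 665) (nat_lit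 635) (nat_lit 260))))))) (XT.nd (nat_lit 78936) (nat_lit 0) (nat_lit 10564) (XT.nd (nat_lit 546) (nat_lit 3116) (nat_lit 0) (XT.nd (nat_lit 234) (nat_lit 2584) (nat_lit 0) (XT.nd (nat_lit 78) (nat_lit 912) (nat_lit 0) (XT.lf (nat_lit 0) (nat_lit 43783055298) (nat_lit 988) (nat_lit 9382864582) (nat_lit 76) (nat_lit 1507860916) (nat_lit 429) (nat_lit 5) (nat_lit 442) (nat_lit 5) (nat_lit 430) (nat_lit 5) (nat_lit 666) (nat_lit 635) (nat_lit 259)) (XT.nd (nat_lit 78) (nat_lit 76) (nat_lit 0) (XT.lf (nat_lit 0) (nat_lit 20792961485) (nat_lit 836) (nat_lit 29093052453) (nat_lit 912) (nat_lit 5386545056) (nat_lit 418) (nat_lit 5) (nat_lit 429) (nat_lit 5) (nat_lit 430) (nat_lit 5) (nat_lit 667) (nat_lit 635) (nat_lit 258)) (XT.lf (nat_lit 0) (nat_lit 287473626) (nat_lit 912) (nat_lit 4185080450) (nat_lit 76) (nat_lit 51409474303) (nat_lit 417) (nat_lit 5) (nat_lit 429) (nat_lit 5) (nat_lit 418) (nat_lit 5) (nat_lit 668) (nat_lit 635) (nat_lit 257)))) (XT.nd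 (nat_lit 156) (nat_lit 836) (nat_lit 0) (XT.nd (nat_lit 78) (nat_lit 836) (nat_lit 0) (XT.lf (nat_lit 0) (nat_lit 6313216708) (nat_lit 988) (nat_lit 29601291100) (nat_lit 76) (nat_lit 20582259863) (nat_lit 405) (nat_lit 5) (nat_lit 418) (nat_lit 5) (nat_lit 406) (nat_lit 5) (nat_lit 669) (nat_lit 635) (nat_lit 256)) (XT.lf (nat_lit 0) (nat_lit 1520653620) (nat_lit 836) (nat_lit 11005965017) (nat_lit 912) (nat_lit 44595840247) (nat_lit 394) (nat_lit 5) (nat_lit 405) (nat_lit 5) (nat_lit 406) (nat_lit 5) (nat_lit 670) (nat_lit 635) (nat_lit 255))) (XT.nd (nat_lit 78) (nat_lit 836) (nat_lit 0) (XT.lf (nat_lit 0) (nat_lit 19157132923) (nat_lit 912) (nat_lit 24185842438) (nat_lit 76) (nat_lit 14411831693) (nat_lit 394) (nat_lit 5) (nat_lit 406) (nat_lit 5) (nat_lit 395) (nat_lit 5) (nat_lit 671) (nat_lit 635) (nat_lit 254)) (XT.lf (nat_lit 0) (nat_lit 7888395345) (nat_lit 836) (nat_lit 18155367366) (nat_lit 912) (nat_lit 32353569387) (nat_lit 383) (nat_lit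 5) (nat_lit 394) (nat_lit 5) (nat_lit 395) (nat_lit 5) (nat_lit 672) (nat_lit 635) (nat_lit 253))))) (XT.nd (nat_lit 312) (nat_lit 1596) (nat_lit 0) (XT.nd (nat_lit 156) (nat_lit 760) (nat_lit 0) (XT.nd (nat_lit 78) (nat_lit 760) (nat_lit 0) (XT.lf (nat_lit 0) (nat_lit 33279837303) (nat_lit 912) (nat_lit 18168124300) (nat_lit 76) (nat_lit 7600511811) (nat_lit 383) (nat_lit 5) (nat_lit 395) (nat_lit 5) (nat_lit 384) (nat_lit 5) (nat_lit 673) (nat_lit 635) (nat_lit 252)) (XT.lf (nat_lit 0) (nat_lit 14893997343) (nat_lit 760) (nat_lit 25982992543) (nat_lit 836) (nat_lit 18831320556) (nat_lit 373) (nat_lit 5) (nat_lit 383) (nat_lit 5) (nat_lit 384) (nat_lit 5) (nat_lit 674) (nat_lit 635) (nat_lit 251))) (XT.nd (nat_lit 78) (nat_lit 760) (nat_lit 0) (XT.lf (nat_lit 0) (nat_lit 48748181728) (nat_lit 836) (nat_lit 11516639000) (nat_lit 76) (nat_lit 114081573) (nat_lit 373) (nat_lit 5) (nat_lit 384) (nat_lit 5) (nat_lit 374) (nat_lit 5) (nat_lit 675) (nat_lit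 635) (nat_lit 250)) (XT.lf (nat_lit 0) (nat_lit 22570324241) (nat_lit 760) (nat_lit 34524526470) (nat_lit 836) (nat_lit 3961694235) (nat_lit 363) (nat_lit 5) (nat_lit 373) (nat_lit 5) (nat_lit 374) (nat_lit 5) (nat_lit 676) (nat_lit 635) (nat_lit 249)))) (XT.nd (nat_lit 156) (nat_lit 760) (nat_lit 0) (XT.nd (nat_lit 78) (nat_lit 760) (nat_lit 0) (XT.lf (nat_lit 0) (nat_lit 3887315608) (nat_lit 836) (nat_lit 4277243926) (nat_lit 76) (nat_lit 53581134861) (nat_lit 362) (nat_lit 5) (nat_lit 373) (nat_lit 5) (nat_lit 363) (nat_lit 5) (nat_lit 677) (nat_lit 635) (nat_lit 248)) (XT.lf (nat_lit 0) (nat_lit 12164071176) (nat_lit 836) (nat_lit 31571562061) (nat_lit 76) (nat_lit 18705993620) (nat_lit 352) (nat_lit 5) (nat_lit 363) (nat_lit 5) (nat_lit 353) (nat_lit 5) (nat_lit 678) (nat_lit 635) (nat_lit 247))) (XT.nd (nat_lit 77844) (nat_lit 0) (nat_lit 10564) (XT.lf (nat_lit 0) (nat_lit 3620008549) (nat_lit 760) (nat_lit 17092279235) (nat_lit 836) (nat_lit 42437071680)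 (nat_lit 342) (nat_lit 5) (nat_lit 352) (nat_lit 5) (nat_lit 353) (nat_lit 5) (nat_lit 679) (nat_lit 635) (nat_lit 246)) (XT.lf (nat_lit 0) (nat_lit 4729715164) (nat_lit 1900) (nat_lit 7735671757) (nat_lit 1900) (nat_lit 7735671757) (nat_lit 481) (nat_lit 3) (nat_lit 506) (nat_lit 3) (nat_lit 506) (nat_lit 5) (nat_lit 636) (nat_lit 636) (nat_lit 288)))))) (XT.nd (nat_lit 624) (nat_lit 0) (nat_lit 304) (XT.nd (nat_lit 312) (nat_lit 0) (nat_lit 152) (XT.nd (nat_lit 156) (nat_lit 0) (nat_lit 76) (XT.nd (nat_lit 78) (nat_lit 0) (nat_lit 76) (XT.lf (nat_lit 76) (nat_lit 4710210874) (nat_lit 0) (nat_lit 4914807477) (nat_lit 1900) (nat_lit 31179699083) (nat_lit 482) (nat_lit 5) (nat_lit 481) (nat_lit 3) (nat_lit 506) (nat_lit 5) (nat_lit 637) (nat_lit 636) (nat_lit 287)) (XT.lf (nat_lit 0) (nat_lit 9998012198) (nat_lit 1824) (nat_lit 15810084508) (nat_lit 1900) (nat_lit 15403190955) (nat_lit 482) (nat_lit 5) (nat_lit 506) (nat_lit 5) (nat_lit 507) (nat_lit 5)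 (nat_lit 638) (nat_lit 636) (nat_lit 286))) (XT.nd (nat_lit 78) (nat_lit 0) (nat_lit 76) (XT.lf (nat_lit 76) (nat_lit 4911329320) (nat_lit 0) (nat_lit 5530533165) (nat_lit 1900) (nat_lit 31182858909) (nat_lit 483) (nat_lit 5) (nat_lit 482) (nat_lit 5) (nat_lit 507) (nat_lit 5) (nat_lit 639) (nat_lit 636) (nat_lit 285)) (XT.lf (nat_lit 0) (nat_lit 11098747330) (nat_lit 1824) (nat_lit 15882484912) (nat_lit 1900) (nat_lit 15061108440) (nat_lit 483) (nat_lit 5) (nat_lit 507) (nat_lit 5) (nat_lit 508) (nat_lit 5) (nat_lit 640) (nat_lit 636) (nat_lit 284)))) (XT.nd (nat_lit 156) (nat_lit 0) (nat_lit 76) (XT.nd (nat_lit 78) (nat_lit 0) (nat_lit 76) (XT.lf (nat_lit 76) (nat_lit 5398648942) (nat_lit 0) (nat_lit 6440798923) (nat_lit 1900) (nat_lit 30627450961) (nat_lit 484) (nat_lit 5) (nat_lit 483) (nat_lit 5) (nat_lit 508) (nat_lit 5) (nat_lit 641) (nat_lit 636) (nat_lit 283)) (XT.lf (nat_lit 0) (nat_lit 12795478468) (nat_lit 1824) (nat_lit 15672625375) (nat_lit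 1900) (nat_lit 14427833999) (nat_lit 484) (nat_lit 5) (nat_lit 508) (nat_lit 5) (nat_lit 509) (nat_lit 5) (nat_lit 642) (nat_lit 636) (nat_lit 282))) (XT.nd (nat_lit 78) (nat_lit 0) (nat_lit 76) (XT.lf (nat_lit 76) (nat_lit 6188848397) (nat_lit 0) (nat_lit 7663655903) (nat_lit 1900) (nat_lit 29479415874) (nat_lit 485) (nat_lit 5) (nat_lit 484) (nat_lit 5) (nat_lit 509) (nat_lit 5) (nat_lit 643) (nat_lit 636) (nat_lit 281)) (XT.lf (nat_lit 0) (nat_lit 15123614755) (nat_lit 1824) (nat_lit 15163831663) (nat_lit 1900) (nat_lit 13485316882) (nat_lit 485) (nat_lit 5) (nat_lit 509) (nat_lit 5) (nat_lit 510) (nat_lit 5) (nat_lit 644) (nat_lit 636) (nat_lit 280))))) (XT.nd (nat_lit 312) (nat_lit 0) (nat_lit 152) (XT.nd (nat_lit 156) (nat_lit 0) (nat_lit 76) (XT.nd (nat_lit 78) (nat_lit 0) (nat_lit 76) (XT.lf (nat_lit 76) (nat_lit 7299390658) (nat_lit 0) (nat_lit 9217976224) (nat_lit 1900) (nat_lit 27703112043) (nat_lit 486) (nat_lit 5) (nat_lit 485) (nat_lit 5)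 (nat_lit 510) (nat_lit 5) (nat_lit 645) (nat_lit 636) (nat_lit 279)) (XT.lf (nat_lit 0) (nat_lit 18120199774) (nat_lit 1824) (nat_lit 14338643460) (nat_lit 1900) (nat_lit 12214681543) (nat_lit 486) (nat_lit 5) (nat_lit 510) (nat_lit 5) (nat_lit 511) (nat_lit 5) (nat_lit 646) (nat_lit 636) (nat_lit 278))) (XT.nd (nat_lit 78) (nat_lit 0) (nat_lit 76) (XT.lf (nat_lit 76) (nat_lit 8748555364) (nat_lit 0) (nat_lit 11123490251) (nat_lit 1900) (nat_lit 25261246832) (nat_lit 487) (nat_lit 5) (nat_lit 486) (nat_lit 5) (nat_lit 511) (nat_lit 5) (nat_lit 647) (nat_lit 636) (nat_lit 277)) (XT.lf (nat_lit 0) (nat_lit 21823982352) (nat_lit 1824) (nat_lit 13178781870) (nat_lit 1900) (nat_lit 10596190196) (nat_lit 487) (nat_lit 5) (nat_lit 511) (nat_lit 5) (nat_lit 512) (nat_lit 5) (nat_lit 648) (nat_lit 636) (nat_lit 276)))) (XT.nd (nat_lit 156) (nat_lit 0) (nat_lit 76) (XT.nd (nat_lit 78) (nat_lit 0) (nat_lit 76) (XT.lf (nat_lit 76) (nat_lit 10555472519) (nat_lit 0)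 (nat_lit 13400825366) (nat_lit 1900) (nat_lit 22114804967) (nat_lit 488) (nat_lit 5) (nat_lit 487) (nat_lit 5) (nat_lit 512) (nat_lit 5) (nat_lit 649) (nat_lit 636) (nat_lit 275)) (XT.lf (nat_lit 0) (nat_lit 26275490247) (nat_lit 1824) (nat_lit 11665115567) (nat_lit 1900) (nat_lit 8609203856) (nat_lit 488) (nat_lit 5) (nat_lit 512) (nat_lit 5) (nat_lit 513) (nat_lit 5) (nat_lit 650) (nat_lit 636) (nat_lit 274))) (XT.nd (nat_lit 78) (nat_lit 0) (nat_lit 76) (XT.lf (nat_lit 76) (nat_lit 12740157575) (nat_lit 0) (nat_lit 16071546298) (nat_lit 1900) (nat_lit 18222974026) (nat_lit 489) (nat_lit 5) (nat_lit 488) (nat_lit 5) (nat_lit 513) (nat_lit 5) (nat_lit 651) (nat_lit 636) (nat_lit 273)) (XT.lf (nat_lit 0) (nat_lit 31517106839) (nat_lit 1824) (nat_lit 9777625557) (nat_lit 1900) (nat_lit 6232141822) (nat_lit 489) (nat_lit 5) (nat_lit 513) (nat_lit 5) (nat_lit 514) (nat_lit 5) (nat_lit 652) (nat_lit 636) (nat_lit 272))))))))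
noncomputable def xc246 : XT := (XT.nd (nat_lit 80340) (nat_lit 0) (nat_lit 2432) (XT.nd (nat_lit 1170) (nat_lit 5092) (nat_lit 0) (XT.nd (nat_lit 546) (nat_lit 2812) (nat_lit 0) (XT.nd (nat_lit 234) (nat_lit 1748) (nat_lit 0) (XT.nd (nat_lit 78) (nat_lit 0) (nat_lit 76) (XT.lf (nat_lit 76) (nat_lit 15323547973) (nat_lit 0) (nat_lit 19158197085) (nat_lit 1900) (nat_lit 13543066884) (nat_lit 490) (nat_lit 5) (nat_lit 489) (nat_lit 5) (nat_lit 514) (nat_lit 5) (nat_lit 653) (nat_lit 636) (nat_lit 271)) (XT.nd (nat_lit 78) (nat_lit 0) (nat_lit 0) (XT.lf (nat_lit 0) (nat_lit 37593150953) (nat_lit 1824) (nat_lit 7495368481) (nat_lit 1900) (nat_lit 3442439512) (nat_lit 490) (nat_lit 5) (nat_lit 514) (nat_lit 5) (nat_lit 515) (nat_lit 5) (nat_lit 654) (nat_lit 636) (nat_lit 270)) (XT.lf (nat_lit 76) (nat_lit 18327541172) (nat_lit 0) (nat_lit 22684344732) (nat_lit 1900) (nat_lit 8030440991) (nat_lit 491) (nat_lit 5) (nat_lit 490) (nat_lit 5) (nat_lit 515) (nat_lit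 5) (nat_lit 655) (nat_lit 636) (nat_lit 269)))) (XT.nd (nat_lit 156) (nat_lit 1900) (nat_lit 0) (XT.nd (nat_lit 78) (nat_lit 0) (nat_lit 0) (XT.lf (nat_lit 0) (nat_lit 44549959929) (nat_lit 1824) (nat_lit 4796438422) (nat_lit 1900) (nat_lit 216504586) (nat_lit 491) (nat_lit 5) (nat_lit 515) (nat_lit 5) (nat_lit 516) (nat_lit 5) (nat_lit 656) (nat_lit 636) (nat_lit 268)) (XT.lf (nat_lit 76) (nat_lit 21775034235) (nat_lit 0) (nat_lit 26674624656) (nat_lit 1900) (nat_lit 1638414362) (nat_lit 492) (nat_lit 5) (nat_lit 491) (nat_lit 5) (nat_lit 516) (nat_lit 5) (nat_lit 657) (nat_lit 636) (nat_lit 267))) (XT.nd (nat_lit 78) (nat_lit 0) (nat_lit 76) (XT.lf (nat_lit 0) (nat_lit 1811613908) (nat_lit 1900) (nat_lit 1692676771) (nat_lit 1976) (nat_lit 47118588839) (nat_lit 466) (nat_lit 5) (nat_lit 491) (nat_lit 5) (nat_lit 492) (nat_lit 5) (nat_lit 658) (nat_lit 636) (nat_lit 266)) (XT.lf (nat_lit 0) (nat_lit 5607303743) (nat_lit 1900) (nat_lit 25509856273) (nat_lit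 1976) (nat_lit 20045033330) (nat_lit 467) (nat_lit 5) (nat_lit 492) (nat_lit 5) (nat_lit 493) (nat_lit 5) (nat_lit 659) (nat_lit 636) (nat_lit 265))))) (XT.nd (nat_lit 312) (nat_lit 1824) (nat_lit 0) (XT.nd (nat_lit 156) (nat_lit 1064) (nat_lit 0) (XT.nd (nat_lit 78) (nat_lit 0) (nat_lit 76) (XT.lf (nat_lit 76) (nat_lit 1855580598) (nat_lit 0) (nat_lit 7669305076) (nat_lit 1976) (nat_lit 42186488229) (nat_lit 468) (nat_lit 5) (nat_lit 467) (nat_lit 5) (nat_lit 493) (nat_lit 5) (nat_lit 660) (nat_lit 636) (nat_lit 264)) (XT.lf (nat_lit 0) (nat_lit 13797927219) (nat_lit 1900) (nat_lit 22261232175) (nat_lit 76) (nat_lit 16206836538) (nat_lit 468) (nat_lit 5) (nat_lit 493) (nat_lit 5) (nat_lit 469) (nat_lit 5) (nat_lit 661) (nat_lit 636) (nat_lit 263))) (XT.nd (nat_lit 78) (nat_lit 0) (nat_lit 0) (XT.lf (nat_lit 0) (nat_lit 5911357067) (nat_lit 1140) (nat_lit 12333556947) (nat_lit 1216) (nat_lit 34585026719) (nat_lit 453) (nat_lit 5) (nat_lit 468) (nat_lit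 5) (nat_lit 469) (nat_lit 5) (nat_lit 662) (nat_lit 636) (nat_lit 262)) (XT.lf (nat_lit 0) (nat_lit 23007583952) (nat_lit 1216) (nat_lit 18531668275) (nat_lit 76) (nat_lit 11861377355) (nat_lit 453) (nat_lit 5) (nat_lit 469) (nat_lit 5) (nat_lit 454) (nat_lit 5) (nat_lit 663) (nat_lit 636) (nat_lit 261)))) (XT.nd (nat_lit 156) (nat_lit 912) (nat_lit 0) (XT.nd (nat_lit 78) (nat_lit 0) (nat_lit 0) (XT.lf (nat_lit 0) (nat_lit 10478129153) (nat_lit 912) (nat_lit 17536425496) (nat_lit 988) (nat_lit 25965196630) (nat_lit 441) (nat_lit 5) (nat_lit 453) (nat_lit 5) (nat_lit 454) (nat_lit 5) (nat_lit 664) (nat_lit 636) (nat_lit 260)) (XT.lf (nat_lit 0) (nat_lit 33291293294) (nat_lit 988) (nat_lit 14295177820) (nat_lit 76) (nat_lit 6980591742) (nat_lit 441) (nat_lit 5) (nat_lit 454) (nat_lit 5) (nat_lit 442) (nat_lit 5) (nat_lit 665) (nat_lit 636) (nat_lit 259))) (XT.nd (nat_lit 78) (nat_lit 0) (nat_lit 0) (XT.lf (nat_lit 0) (nat_lit 15583037225) (nat_lit 912) (nat_lit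 23307199694) (nat_lit 988) (nat_lit 16271550361) (nat_lit 429) (nat_lit 5) (nat_lit 441) (nat_lit 5) (nat_lit 442) (nat_lit 5) (nat_lit 666) (nat_lit 636) (nat_lit 258)) (XT.lf (nat_lit 0) (nat_lit 44706555430) (nat_lit 988) (nat_lit 9524601710) (nat_lit 76) (nat_lit 1535141149) (nat_lit 429) (nat_lit 5) (nat_lit 442) (nat_lit 5) (nat_lit 430) (nat_lit 5) (nat_lit 667) (nat_lit 636) (nat_lit 257)))))) (XT.nd (nat_lit 624) (nat_lit 836) (nat_lit 0) (XT.nd (nat_lit 312) (nat_lit 1596) (nat_lit 0) (XT.nd (nat_lit 156) (nat_lit 1748) (nat_lit 0) (XT.nd (nat_lit 78) (nat_lit 76) (nat_lit 0) (XT.lf (nat_lit 0) (nat_lit 21254438772) (nat_lit 836) (nat_lit 29676492634) (nat_lit 912) (nat_lit 5446133509) (nat_lit 418) (nat_lit 5) (nat_lit 429) (nat_lit 5) (nat_lit 430) (nat_lit 5) (nat_lit 668) (nat_lit 636) (nat_lit 256)) (XT.lf (nat_lit 0) (nat_lit 339802561) (nat_lit 912) (nat_lit 4223438193) (nat_lit 76) (nat_lit 52435495340) (nat_lit 417) (nat_lit 5) (nat_lit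 429) (nat_lit 5) (nat_lit 418) (nat_lit 5) (nat_lit 669) (nat_lit 636) (nat_lit 255))) (XT.nd (nat_lit 78) (nat_lit 836) (nat_lit 0) (XT.lf (nat_lit 0) (nat_lit 6485433719) (nat_lit 988) (nat_lit 30147345031) (nat_lit 76) (nat_lit 20993003981) (nat_lit 405) (nat_lit 5) (nat_lit 418) (nat_lit 5) (nat_lit 406) (nat_lit 5) (nat_lit 670) (nat_lit 636) (nat_lit 254)) (XT.lf (nat_lit 0) (nat_lit 1596736137) (nat_lit 836) (nat_lit 11225763033) (nat_lit 912) (nat_lit 45441500714) (nat_lit 394) (nat_lit 5) (nat_lit 405) (nat_lit 5) (nat_lit 406) (nat_lit 5) (nat_lit 671) (nat_lit 636) (nat_lit 253)))) (XT.nd (nat_lit 156) (nat_lit 760) (nat_lit 0) (XT.nd (nat_lit 78) (nat_lit 836) (nat_lit 0) (XT.lf (nat_lit 0) (nat_lit 19584736607) (nat_lit 912) (nat_lit 24623896996) (nat_lit 76) (nat_lit 14700379180) (nat_lit 394) (nat_lit 5) (nat_lit 406) (nat_lit 5) (nat_lit 395) (nat_lit 5) (nat_lit 672) (nat_lit 636) (nat_lit 252)) (XT.lf (nat_lit 0) (nat_lit 8091525132)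 (nat_lit 836) (nat_lit 18516996592) (nat_lit 912) (nat_lit 32955878172) (nat_lit 383) (nat_lit 5) (nat_lit 394) (nat_lit 5) (nat_lit 395) (nat_lit 5) (nat_lit 673) (nat_lit 636) (nat_lit 251))) (XT.nd (nat_lit 78) (nat_lit 760) (nat_lit 0) (XT.lf (nat_lit 0) (nat_lit 33988466752) (nat_lit 912) (nat_lit 18486162151) (nat_lit 76) (nat_lit 7753952180) (nat_lit 383) (nat_lit 5) (nat_lit 395) (nat_lit 5) (nat_lit 384) (nat_lit 5) (nat_lit 674) (nat_lit 636) (nat_lit 250)) (XT.lf (nat_lit 0) (nat_lit 15236903736) (nat_lit 760) (nat_lit 26500107213) (nat_lit 836) (nat_lit 19164614953) (nat_lit 373) (nat_lit 5) (nat_lit 383) (nat_lit 5) (nat_lit 384) (nat_lit 5) (nat_lit 675) (nat_lit 636) (nat_lit 249))))) (XT.nd (nat_lit 78234) (nat_lit 0) (nat_lit 9044) (XT.nd (nat_lit 156) (nat_lit 76) (nat_lit 0) (XT.nd (nat_lit 78) (nat_lit 760) (nat_lit 0) (XT.lf (nat_lit 0) (nat_lit 49764809863) (nat_lit 836) (nat_lit 11702010340) (nat_lit 76) (nat_lit 118825753) (nat_lit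 373) (nat_lit 5) (nat_lit 384) (nat_lit 5) (nat_lit 374) (nat_lit 5) (nat_lit 676) (nat_lit 636) (nat_lit 248)) (XT.lf (nat_lit 0) (nat_lit 23066396367) (nat_lit 760) (nat_lit 35211488907) (nat_lit 836) (nat_lit 3998966741) (nat_lit 363) (nat_lit 5) (nat_lit 373) (nat_lit 5) (nat_lit 374) (nat_lit 5) (nat_lit 677) (nat_lit 636) (nat_lit 247))) (XT.nd (nat_lit 78000) (nat_lit 0) (nat_lit 9044) (XT.lf (nat_lit 0) (nat_lit 4005660986) (nat_lit 836) (nat_lit 4318458383) (nat_lit 76) (nat_lit 54655675895) (nat_lit 362) (nat_lit 5) (nat_lit 373) (nat_lit 5) (nat_lit 363) (nat_lit 5) (nat_lit 678) (nat_lit 636) (nat_lit 246)) (XT.lf (nat_lit 0) (nat_lit 4864458992) (nat_lit 1900) (nat_lit 7869908327) (nat_lit 1900) (nat_lit 7869908327) (nat_lit 481) (nat_lit 3) (nat_lit 506) (nat_lit 3) (nat_lit 506) (nat_lit 5) (nat_lit 637) (nat_lit 637) (nat_lit 286)))) (XT.nd (nat_lit 156) (nat_lit 0) (nat_lit 76) (XT.nd (nat_lit 78) (nat_lit 0) (nat_lit 76) (XT.lf (nat_lit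 76) (nat_lit 4845099389) (nat_lit 0) (nat_lit 5051408036) (nat_lit 1900) (nat_lit 31722722200) (nat_lit 482) (nat_lit 5) (nat_lit 481) (nat_lit 3) (nat_lit 506) (nat_lit 5) (nat_lit 638) (nat_lit 637) (nat_lit 285)) (XT.lf (nat_lit 0) (nat_lit 10275168531) (nat_lit 1824) (nat_lit 16084604676) (nat_lit 1900) (nat_lit 15674193950) (nat_lit 482) (nat_lit 5) (nat_lit 506) (nat_lit 5) (nat_lit 507) (nat_lit 5) (nat_lit 639) (nat_lit 637) (nat_lit 284))) (XT.nd (nat_lit 78) (nat_lit 0) (nat_lit 76) (XT.lf (nat_lit 76) (nat_lit 5050963207) (nat_lit 0) (nat_lit 5675687811) (nat_lit 1900) (nat_lit 31729043489) (nat_lit 483) (nat_lit 5) (nat_lit 482) (nat_lit 5) (nat_lit 507) (nat_lit 5) (nat_lit 640) (nat_lit 637) (nat_lit 283)) (XT.lf (nat_lit 0) (nat_lit 11394964435) (nat_lit 1824) (nat_lit 16157827846) (nat_lit 1900) (nat_lit 15328908127) (nat_lit 483) (nat_lit 5) (nat_lit 507) (nat_lit 5) (nat_lit 508) (nat_lit 5) (nat_lit 641) (nat_lit 637) (nat_lit 282)))))))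 (XT.nd (nat_lit 1170) (nat_lit 6764) (nat_lit 0) (XT.nd (nat_lit 546) (nat_lit 0) (nat_lit 304) (XT.nd (nat_lit 234) (nat_lit 0) (nat_lit 152) (XT.nd (nat_lit 78) (nat_lit 0) (nat_lit 76) (XT.lf (nat_lit 76) (nat_lit 5548650351) (nat_lit 0) (nat_lit 6600645777) (nat_lit 1900) (nat_lit 31165477288) (nat_lit 484) (nat_lit 5) (nat_lit 483) (nat_lit 5) (nat_lit 508) (nat_lit 5) (nat_lit 642) (nat_lit 637) (nat_lit 281)) (XT.nd (nat_lit 78) (nat_lit 0) (nat_lit 0) (XT.lf (nat_lit 0) (nat_lit 13122817285) (nat_lit 1824) (nat_lit 15943241323) (nat_lit 1900) (nat_lit 14686367248) (nat_lit 484) (nat_lit 5) (nat_lit 508) (nat_lit 5) (nat_lit 509) (nat_lit 5) (nat_lit 643) (nat_lit 637) (nat_lit 280)) (XT.lf (nat_lit 76) (nat_lit 6355180104) (nat_lit 0) (nat_lit 7844679249) (nat_lit 1900) (nat_lit 29997291009) (nat_lit 485) (nat_lit 5) (nat_lit 484) (nat_lit 5) (nat_lit 509) (nat_lit 5) (nat_lit 644) (nat_lit 637) (nat_lit 279)))) (XT.nd (nat_lit 156) (nat_lit 0)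 (nat_lit 76) (XT.nd (nat_lit 78) (nat_lit 0) (nat_lit 0) (XT.lf (nat_lit 0) (nat_lit 15494836849) (nat_lit 1824) (nat_lit 15423830720) (nat_lit 1900) (nat_lit 13728173926) (nat_lit 485) (nat_lit 5) (nat_lit 509) (nat_lit 5) (nat_lit 510) (nat_lit 5) (nat_lit 645) (nat_lit 637) (nat_lit 278)) (XT.lf (nat_lit 76) (nat_lit 7488371326) (nat_lit 0) (nat_lit 9427023796) (nat_lit 1900) (nat_lit 28188137731) (nat_lit 486) (nat_lit 5) (nat_lit 485) (nat_lit 5) (nat_lit 510) (nat_lit 5) (nat_lit 646) (nat_lit 637) (nat_lit 277))) (XT.nd (nat_lit 78) (nat_lit 0) (nat_lit 0) (XT.lf (nat_lit 0) (nat_lit 18548800447) (nat_lit 1824) (nat_lit 14581780253) (nat_lit 1900) (nat_lit 12435088646) (nat_lit 486) (nat_lit 5) (nat_lit 510) (nat_lit 5) (nat_lit 511) (nat_lit 5) (nat_lit 647) (nat_lit 637) (nat_lit 276)) (XT.lf (nat_lit 76) (nat_lit 8966875468) (nat_lit 0) (nat_lit 11367791214) (nat_lit 1900) (nat_lit 25699986057) (nat_lit 487) (nat_lit 5) (nat_lit 486) (nat_lit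 5) (nat_lit 511) (nat_lit 5) (nat_lit 648) (nat_lit 637) (nat_lit 275))))) (XT.nd (nat_lit 312) (nat_lit 0) (nat_lit 152) (XT.nd (nat_lit 156) (nat_lit 0) (nat_lit 76) (XT.nd (nat_lit 78) (nat_lit 0) (nat_lit 0) (XT.lf (nat_lit 0) (nat_lit 22324225147) (nat_lit 1824) (nat_lit 13398439570) (nat_lit 1900) (nat_lit 10786991610) (nat_lit 487) (nat_lit 5) (nat_lit 511) (nat_lit 5) (nat_lit 512) (nat_lit 5) (nat_lit 649) (nat_lit 637) (nat_lit 274)) (XT.lf (nat_lit 76) (nat_lit 10810210973) (nat_lit 0) (nat_lit 13688009029) (nat_lit 1900) (nat_lit 22493047106) (nat_lit 488) (nat_lit 5) (nat_lit 487) (nat_lit 5) (nat_lit 512) (nat_lit 5) (nat_lit 650) (nat_lit 637) (nat_lit 273))) (XT.nd (nat_lit 78) (nat_lit 0) (nat_lit 0) (XT.lf (nat_lit 0) (nat_lit 26862442907) (nat_lit 1824) (nat_lit 11854289201) (nat_lit 1900) (nat_lit 8762843056) (nat_lit 488) (nat_lit 5) (nat_lit 512) (nat_lit 5) (nat_lit 513) (nat_lit 5) (nat_lit 651) (nat_lit 637) (nat_lit 272)) (XT.lf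 (nat_lit 76) (nat_lit 13038799084) (nat_lit 0) (nat_lit 16409661588) (nat_lit 1900) (nat_lit 18525698526) (nat_lit 489) (nat_lit 5) (nat_lit 488) (nat_lit 5) (nat_lit 513) (nat_lit 5) (nat_lit 652) (nat_lit 637) (nat_lit 271)))) (XT.nd (nat_lit 156) (nat_lit 0) (nat_lit 76) (XT.nd (nat_lit 78) (nat_lit 0) (nat_lit 0) (XT.lf (nat_lit 0) (nat_lit 32206678775) (nat_lit 1824) (nat_lit 9928904595) (nat_lit 1900) (nat_lit 6340641966) (nat_lit 489) (nat_lit 5) (nat_lit 513) (nat_lit 5) (nat_lit 514) (nat_lit 5) (nat_lit 653) (nat_lit 637) (nat_lit 270)) (XT.lf (nat_lit 76) (nat_lit 15674001134) (nat_lit 0) (nat_lit 19555732818) (nat_lit 1900) (nat_lit 13754405414) (nat_lit 490) (nat_lit 5) (nat_lit 489) (nat_lit 5) (nat_lit 514) (nat_lit 5) (nat_lit 654) (nat_lit 637) (nat_lit 269))) (XT.nd (nat_lit 78) (nat_lit 0) (nat_lit 0) (XT.lf (nat_lit 0) (nat_lit 38402132287) (nat_lit 1824) (nat_lit 7600918667) (nat_lit 1900) (nat_lit 3497383103) (nat_lit 490) (nat_lit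 5) (nat_lit 514) (nat_lit 5) (nat_lit 515) (nat_lit 5) (nat_lit 655) (nat_lit 637) (nat_lit 268)) (XT.lf (nat_lit 76) (nat_lit 18738157355) (nat_lit 0) (nat_lit 23150250716) (nat_lit 1900) (nat_lit 8133638004) (nat_lit 491) (nat_lit 5) (nat_lit 490) (nat_lit 5) (nat_lit 515) (nat_lit 5) (nat_lit 656) (nat_lit 637) (nat_lit 267)))))) (XT.nd (nat_lit 624) (nat_lit 4484) (nat_lit 0) (XT.nd (nat_lit 312) (nat_lit 988) (nat_lit 0) (XT.nd (nat_lit 156) (nat_lit 1900) (nat_lit 0) (XT.nd (nat_lit 78) (nat_lit 0) (nat_lit 0) (XT.lf (nat_lit 0) (nat_lit 45496062182) (nat_lit 1824) (nat_lit 4847982826) (nat_lit 1900) (nat_lit 209012291) (nat_lit 491) (nat_lit 5) (nat_lit 515) (nat_lit 5) (nat_lit 516) (nat_lit 5) (nat_lit 657) (nat_lit 637) (nat_lit 266)) (XT.lf (nat_lit 76) (nat_lit 22254627281) (nat_lit 0) (nat_lit 27218333666) (nat_lit 1900) (nat_lit 1615785990) (nat_lit 492) (nat_lit 5) (nat_lit 491) (nat_lit 5) (nat_lit 516) (nat_lit 5) (nat_lit 658) (nat_lit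 637) (nat_lit 265))) (XT.nd (nat_lit 78) (nat_lit 0) (nat_lit 76) (XT.lf (nat_lit 0) (nat_lit 1901444346) (nat_lit 1900) (nat_lit 1682588668) (nat_lit 1976) (nat_lit 48050230591) (nat_lit 466) (nat_lit 5) (nat_lit 491) (nat_lit 5) (nat_lit 492) (nat_lit 5) (nat_lit 659) (nat_lit 637) (nat_lit 264)) (XT.lf (nat_lit 0) (nat_lit 5772220864) (nat_lit 1900) (nat_lit 25975283137) (nat_lit 1976) (nat_lit 20436876281) (nat_lit 467) (nat_lit 5) (nat_lit 492) (nat_lit 5) (nat_lit 493) (nat_lit 5) (nat_lit 660) (nat_lit 637) (nat_lit 263)))) (XT.nd (nat_lit 156) (nat_lit 1064) (nat_lit 0) (XT.nd (nat_lit 78) (nat_lit 0) (nat_lit 76) (XT.lf (nat_lit 76) (nat_lit 1937167931) (nat_lit 0) (nat_lit 7830240543) (nat_lit 1976) (nat_lit 42977150925) (nat_lit 468) (nat_lit 5) (nat_lit 467) (nat_lit 5) (nat_lit 493) (nat_lit 5) (nat_lit 661) (nat_lit 637) (nat_lit 262)) (XT.lf (nat_lit 0) (nat_lit 14124842695) (nat_lit 1900) (nat_lit 22661783564) (nat_lit 76) (nat_lit 16523669001)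 (nat_lit 468) (nat_lit 5) (nat_lit 493) (nat_lit 5) (nat_lit 469) (nat_lit 5) (nat_lit 662) (nat_lit 637) (nat_lit 261))) (XT.nd (nat_lit 78) (nat_lit 0) (nat_lit 0) (XT.lf (nat_lit 0) (nat_lit 6073963560) (nat_lit 1140) (nat_lit 12586094651) (nat_lit 1216) (nat_lit 35225474995) (nat_lit 453) (nat_lit 5) (nat_lit 468) (nat_lit 5) (nat_lit 469) (nat_lit 5) (nat_lit 663) (nat_lit 637) (nat_lit 260)) (XT.lf (nat_lit 0) (nat_lit 23516958990) (nat_lit 1216) (nat_lit 18857768520) (nat_lit 76) (nat_lit 12092928800) (nat_lit 453) (nat_lit 5) (nat_lit 469) (nat_lit 5) (nat_lit 454) (nat_lit 5) (nat_lit 664) (nat_lit 637) (nat_lit 259))))) (XT.nd (nat_lit 312) (nat_lit 2660) (nat_lit 0) (XT.nd (nat_lit 156) (nat_lit 912) (nat_lit 0) (XT.nd (nat_lit 78) (nat_lit 0) (nat_lit 0) (XT.lf (nat_lit 0) (nat_lit 10731931876) (nat_lit 912) (nat_lit 17891459298) (nat_lit 988) (nat_lit 26434982853) (nat_lit 441) (nat_lit 5) (nat_lit 453) (nat_lit 5) (nat_lit 454) (nat_lit 5)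 (nat_lit 665) (nat_lit 637) (nat_lit 258)) (XT.lf (nat_lit 0) (nat_lit 34004685315) (nat_lit 988) (nat_lit 14536728073) (nat_lit 76) (nat_lit 7116038060) (nat_lit 441) (nat_lit 5) (nat_lit 454) (nat_lit 5) (nat_lit 442) (nat_lit 5) (nat_lit 666) (nat_lit 637) (nat_lit 257))) (XT.nd (nat_lit 78) (nat_lit 0) (nat_lit 0) (XT.lf (nat_lit 0) (nat_lit 15938759475) (nat_lit 912) (nat_lit 23776201745) (nat_lit 988) (nat_lit 16549122099) (nat_lit 429) (nat_lit 5) (nat_lit 441) (nat_lit 5) (nat_lit 442) (nat_lit 5) (nat_lit 667) (nat_lit 637) (nat_lit 256)) (XT.lf (nat_lit 0) (nat_lit 45646667917) (nat_lit 988) (nat_lit 9670956717) (nat_lit 76) (nat_lit 1563078704) (nat_lit 429) (nat_lit 5) (nat_lit 442) (nat_lit 5) (nat_lit 430) (nat_lit 5) (nat_lit 668) (nat_lit 637) (nat_lit 255)))) (XT.nd (nat_lit 156) (nat_lit 1748) (nat_lit 0) (XT.nd (nat_lit 78) (nat_lit 76) (nat_lit 0) (XT.lf (nat_lit 0) (nat_lit 21723374199) (nat_lit 836) (nat_lit 30271540299) (nat_lit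 912) (nat_lit 5508783161) (nat_lit 418) (nat_lit 5) (nat_lit 429) (nat_lit 5) (nat_lit 430) (nat_lit 5) (nat_lit 669) (nat_lit 637) (nat_lit 254)) (XT.lf (nat_lit 0) (nat_lit 391369337) (nat_lit 912) (nat_lit 4264323848) (nat_lit 76) (nat_lit 53482121001) (nat_lit 417) (nat_lit 5) (nat_lit 429) (nat_lit 5) (nat_lit 418) (nat_lit 5) (nat_lit 670) (nat_lit 637) (nat_lit 253))) (XT.nd (nat_lit 78) (nat_lit 836) (nat_lit 0) (XT.lf (nat_lit 0) (nat_lit 6659310671) (nat_lit 988) (nat_lit 30706105185) (nat_lit 76) (nat_lit 21411997972) (nat_lit 405) (nat_lit 5) (nat_lit 418) (nat_lit 5) (nat_lit 406) (nat_lit 5) (nat_lit 671) (nat_lit 637) (nat_lit 252)) (XT.lf (nat_lit 0) (nat_lit 1672566904) (nat_lit 836) (nat_lit 11449969486) (nat_lit 912) (nat_lit 46305870580) (nat_lit 394) (nat_lit 5) (nat_lit 405) (nat_lit 5) (nat_lit 406) (nat_lit 5) (nat_lit 672) (nat_lit 637) (nat_lit 251))))))))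
noncomputable def xc247 : XT := (XT.nd (nat_lit 80418) (nat_lit 0) (nat_lit 760) (XT.nd (nat_lit 79170) (nat_lit 0) (nat_lit 7828) (XT.nd (nat_lit 78546) (nat_lit 0) (nat_lit 8968) (XT.nd (nat_lit 234) (nat_lit 1520) (nat_lit 0) (XT.nd (nat_lit 78) (nat_lit 836) (nat_lit 0) (XT.lf (nat_lit 0) (nat_lit 20019165889) (nat_lit 912) (nat_lit 25072485767) (nat_lit 76) (nat_lit 14994685546) (nat_lit 394) (nat_lit 5) (nat_lit 406) (nat_lit 5) (nat_lit 395) (nat_lit 5) (nat_lit 673) (nat_lit 637) (nat_lit 250)) (XT.nd (nat_lit 78) (nat_lit 0) (nat_lit 0) (XT.lf (nat_lit 0) (nat_lit 8296956059) (nat_lit 836) (nat_lit 18885915801) (nat_lit 912) (nat_lit 33571971318) (nat_lit 383) (nat_lit 5) (nat_lit 394) (nat_lit 5) (nat_lit 395) (nat_lit 5) (nat_lit 674) (nat_lit 637) (nat_lit 249)) (XT.lf (nat_lit 0) (nat_lit 34709597778) (nat_lit 912) (nat_lit 18812320771) (nat_lit 76) (nat_lit 7910405822) (nat_lit 383) (nat_lit 5) (nat_lit 395) (nat_lit 5) (nat_lit 384) (nat_lit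 5) (nat_lit 675) (nat_lit 637) (nat_lit 248)))) (XT.nd (nat_lit 156) (nat_lit 760) (nat_lit 0) (XT.nd (nat_lit 78) (nat_lit 0) (nat_lit 0) (XT.lf (nat_lit 0) (nat_lit 15584919825) (nat_lit 760) (nat_lit 27027663010) (nat_lit 836) (nat_lit 19506257873) (nat_lit 373) (nat_lit 5) (nat_lit 383) (nat_lit 5) (nat_lit 384) (nat_lit 5) (nat_lit 676) (nat_lit 637) (nat_lit 247)) (XT.lf (nat_lit 0) (nat_lit 50800152678) (nat_lit 836) (nat_lit 11892835014) (nat_lit 76) (nat_lit 123569193) (nat_lit 373) (nat_lit 5) (nat_lit 384) (nat_lit 5) (nat_lit 374) (nat_lit 5) (nat_lit 677) (nat_lit 637) (nat_lit 246))) (XT.nd (nat_lit 78078) (nat_lit 0) (nat_lit 8968) (XT.lf (nat_lit 0) (nat_lit 23570655515) (nat_lit 760) (nat_lit 35912327593) (nat_lit 836) (nat_lit 4038614108) (nat_lit 363) (nat_lit 5) (nat_lit 373) (nat_lit 5) (nat_lit 374) (nat_lit 5) (nat_lit 678) (nat_lit 637) (nat_lit 245)) (XT.lf (nat_lit 0) (nat_lit 5000338642) (nat_lit 1900) (nat_lit 8007624770) (nat_lit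 1900) (nat_lit 8007624770) (nat_lit 481) (nat_lit 3) (nat_lit 506) (nat_lit 3) (nat_lit 506) (nat_lit 5) (nat_lit 638) (nat_lit 638) (nat_lit 284))))) (XT.nd (nat_lit 312) (nat_lit 0) (nat_lit 152) (XT.nd (nat_lit 156) (nat_lit 0) (nat_lit 76) (XT.nd (nat_lit 78) (nat_lit 0) (nat_lit 76) (XT.lf (nat_lit 76) (nat_lit 4981105854) (nat_lit 0) (nat_lit 5189253200) (nat_lit 1900) (nat_lit 32279734444) (nat_lit 482) (nat_lit 5) (nat_lit 481) (nat_lit 3) (nat_lit 506) (nat_lit 5) (nat_lit 639) (nat_lit 638) (nat_lit 283)) (XT.lf (nat_lit 0) (nat_lit 10554870371) (nat_lit 1824) (nat_lit 16366233793) (nat_lit 1900) (nat_lit 15952056122) (nat_lit 482) (nat_lit 5) (nat_lit 506) (nat_lit 5) (nat_lit 507) (nat_lit 5) (nat_lit 640) (nat_lit 638) (nat_lit 282))) (XT.nd (nat_lit 78) (nat_lit 0) (nat_lit 76) (XT.lf (nat_lit 76) (nat_lit 5191781877) (nat_lit 0) (nat_lit 5822404165) (nat_lit 1900) (nat_lit 32289160115) (nat_lit 483) (nat_lit 5) (nat_lit 482) (nat_lit 5)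 (nat_lit 507) (nat_lit 5) (nat_lit 641) (nat_lit 638) (nat_lit 281)) (XT.lf (nat_lit 0) (nat_lit 11694222968) (nat_lit 1824) (nat_lit 16440320462) (nat_lit 1900) (nat_lit 15603361643) (nat_lit 483) (nat_lit 5) (nat_lit 507) (nat_lit 5) (nat_lit 508) (nat_lit 5) (nat_lit 642) (nat_lit 638) (nat_lit 280)))) (XT.nd (nat_lit 156) (nat_lit 0) (nat_lit 76) (XT.nd (nat_lit 78) (nat_lit 0) (nat_lit 76) (XT.lf (nat_lit 76) (nat_lit 5700019772) (nat_lit 0) (nat_lit 6762484602) (nat_lit 1900) (nat_lit 31717157948) (nat_lit 484) (nat_lit 5) (nat_lit 483) (nat_lit 5) (nat_lit 508) (nat_lit 5) (nat_lit 643) (nat_lit 638) (nat_lit 279)) (XT.lf (nat_lit 0) (nat_lit 13453929193) (nat_lit 1824) (nat_lit 16220932987) (nat_lit 1900) (nat_lit 14951237008) (nat_lit 484) (nat_lit 5) (nat_lit 508) (nat_lit 5) (nat_lit 509) (nat_lit 5) (nat_lit 644) (nat_lit 638) (nat_lit 278))) (XT.nd (nat_lit 78) (nat_lit 0) (nat_lit 76) (XT.lf (nat_lit 76) (nat_lit 6523185993) (nat_lit 0) (nat_lit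 8028245487) (nat_lit 1900) (nat_lit 30528308357) (nat_lit 485) (nat_lit 5) (nat_lit 484) (nat_lit 5) (nat_lit 509) (nat_lit 5) (nat_lit 645) (nat_lit 638) (nat_lit 277)) (XT.lf (nat_lit 0) (nat_lit 15870813746) (nat_lit 1824) (nat_lit 15690710280) (nat_lit 1900) (nat_lit 13976930702) (nat_lit 485) (nat_lit 5) (nat_lit 509) (nat_lit 5) (nat_lit 510) (nat_lit 5) (nat_lit 646) (nat_lit 638) (nat_lit 276)))))) (XT.nd (nat_lit 624) (nat_lit 1444) (nat_lit 0) (XT.nd (nat_lit 312) (nat_lit 0) (nat_lit 152) (XT.nd (nat_lit 156) (nat_lit 0) (nat_lit 76) (XT.nd (nat_lit 78) (nat_lit 0) (nat_lit 76) (XT.lf (nat_lit 76) (nat_lit 7679462142) (nat_lit 0) (nat_lit 9639293652) (nat_lit 1900) (nat_lit 28685544706) (nat_lit 486) (nat_lit 5) (nat_lit 485) (nat_lit 5) (nat_lit 510) (nat_lit 5) (nat_lit 647) (nat_lit 638) (nat_lit 275)) (XT.lf (nat_lit 0) (nat_lit 18983402635) (nat_lit 1824) (nat_lit 14831474225) (nat_lit 1900) (nat_lit 12660831433) (nat_lit 486) (nat_lit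 5) (nat_lit 510) (nat_lit 5) (nat_lit 511) (nat_lit 5) (nat_lit 648) (nat_lit 638) (nat_lit 274))) (XT.nd (nat_lit 78) (nat_lit 0) (nat_lit 76) (XT.lf (nat_lit 76) (nat_lit 9187878679) (nat_lit 0) (nat_lit 11616130464) (nat_lit 1900) (nat_lit 26150081789) (nat_lit 487) (nat_lit 5) (nat_lit 486) (nat_lit 5) (nat_lit 511) (nat_lit 5) (nat_lit 649) (nat_lit 638) (nat_lit 273)) (XT.lf (nat_lit 0) (nat_lit 22831996798) (nat_lit 1824) (nat_lit 13624195811) (nat_lit 1900) (nat_lit 10982429260) (nat_lit 487) (nat_lit 5) (nat_lit 511) (nat_lit 5) (nat_lit 512) (nat_lit 5) (nat_lit 650) (nat_lit 638) (nat_lit 272)))) (XT.nd (nat_lit 156) (nat_lit 0) (nat_lit 76) (XT.nd (nat_lit 78) (nat_lit 0) (nat_lit 76) (XT.lf (nat_lit 76) (nat_lit 11068350028) (nat_lit 0) (nat_lit 13980192080) (nat_lit 1900) (nat_lit 22881341381) (nat_lit 488) (nat_lit 5) (nat_lit 487) (nat_lit 5) (nat_lit 512) (nat_lit 5) (nat_lit 651) (nat_lit 638) (nat_lit 271)) (XT.lf (nat_lit 0) (nat_lit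 27458748720) (nat_lit 1824) (nat_lit 12048959878) (nat_lit 1900) (nat_lit 8920275160) (nat_lit 488) (nat_lit 5) (nat_lit 512) (nat_lit 5) (nat_lit 513) (nat_lit 5) (nat_lit 652) (nat_lit 638) (nat_lit 270))) (XT.nd (nat_lit 78) (nat_lit 0) (nat_lit 76) (XT.lf (nat_lit 76) (nat_lit 13341711126) (nat_lit 0) (nat_lit 16753891310) (nat_lit 1900) (nat_lit 18836874759) (nat_lit 489) (nat_lit 5) (nat_lit 488) (nat_lit 5) (nat_lit 513) (nat_lit 5) (nat_lit 653) (nat_lit 638) (nat_lit 269)) (XT.lf (nat_lit 0) (nat_lit 32907742185) (nat_lit 1824) (nat_lit 10084928406) (nat_lit 1900) (nat_lit 6451938954) (nat_lit 489) (nat_lit 5) (nat_lit 513) (nat_lit 5) (nat_lit 514) (nat_lit 5) (nat_lit 654) (nat_lit 638) (nat_lit 268))))) (XT.nd (nat_lit 312) (nat_lit 1748) (nat_lit 0) (XT.nd (nat_lit 156) (nat_lit 0) (nat_lit 76) (XT.nd (nat_lit 78) (nat_lit 0) (nat_lit 76) (XT.lf (nat_lit 76) (nat_lit 16029755475) (nat_lit 0) (nat_lit 19960661192) (nat_lit 1900) (nat_lit 13972282058)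 (nat_lit 490) (nat_lit 5) (nat_lit 489) (nat_lit 5) (nat_lit 514) (nat_lit 5) (nat_lit 655) (nat_lit 638) (nat_lit 267)) (XT.lf (nat_lit 0) (nat_lit 39225075274) (nat_lit 1824) (nat_lit 7710302300) (nat_lit 1900) (nat_lit 3553965522) (nat_lit 490) (nat_lit 5) (nat_lit 514) (nat_lit 5) (nat_lit 515) (nat_lit 5) (nat_lit 656) (nat_lit 638) (nat_lit 266))) (XT.nd (nat_lit 78) (nat_lit 0) (nat_lit 76) (XT.lf (nat_lit 76) (nat_lit 19155274751) (nat_lit 0) (nat_lit 23625000338) (nat_lit 1900) (nat_lit 8241128328) (nat_lit 491) (nat_lit 5) (nat_lit 490) (nat_lit 5) (nat_lit 515) (nat_lit 5) (nat_lit 657) (nat_lit 638) (nat_lit 265)) (XT.lf (nat_lit 0) (nat_lit 46458946761) (nat_lit 1824) (nat_lit 4902281617) (nat_lit 1900) (nat_lit 201829229) (nat_lit 491) (nat_lit 5) (nat_lit 515) (nat_lit 5) (nat_lit 516) (nat_lit 5) (nat_lit 658) (nat_lit 638) (nat_lit 264)))) (XT.nd (nat_lit 156) (nat_lit 0) (nat_lit 76) (XT.nd (nat_lit 78) (nat_lit 1900) (nat_lit 0) (XT.lf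 (nat_lit 76) (nat_lit 22742100029) (nat_lit 0) (nat_lit 27772520136) (nat_lit 1900) (nat_lit 1594856169) (nat_lit 492) (nat_lit 5) (nat_lit 491) (nat_lit 5) (nat_lit 516) (nat_lit 5) (nat_lit 659) (nat_lit 638) (nat_lit 263)) (XT.lf (nat_lit 0) (nat_lit 1990990111) (nat_lit 1900) (nat_lit 1674005111) (nat_lit 1976) (nat_lit 49000921837) (nat_lit 466) (nat_lit 5) (nat_lit 491) (nat_lit 5) (nat_lit 492) (nat_lit 5) (nat_lit 660) (nat_lit 638) (nat_lit 262))) (XT.nd (nat_lit 78) (nat_lit 0) (nat_lit 0) (XT.lf (nat_lit 0) (nat_lit 5938387163) (nat_lit 1900) (nat_lit 26451757021) (nat_lit 1976) (nat_lit 20836907813) (nat_lit 467) (nat_lit 5) (nat_lit 492) (nat_lit 5) (nat_lit 493) (nat_lit 5) (nat_lit 661) (nat_lit 638) (nat_lit 261)) (XT.lf (nat_lit 76) (nat_lit 2018659964) (nat_lit 0) (nat_lit 7994101567) (nat_lit 1976) (nat_lit 43785687534) (nat_lit 468) (nat_lit 5) (nat_lit 467) (nat_lit 5) (nat_lit 493) (nat_lit 5) (nat_lit 662) (nat_lit 638) (nat_lit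 260))))))) (XT.nd (nat_lit 79404) (nat_lit 0) (nat_lit 8208) (XT.nd (nat_lit 624) (nat_lit 3420) (nat_lit 0) (XT.nd (nat_lit 312) (nat_lit 1748) (nat_lit 0) (XT.nd (nat_lit 156) (nat_lit 912) (nat_lit 0) (XT.nd (nat_lit 78) (nat_lit 1140) (nat_lit 0) (XT.lf (nat_lit 0) (nat_lit 14456317761) (nat_lit 1900) (nat_lit 23072080698) (nat_lit 76) (nat_lit 16847121747) (nat_lit 468) (nat_lit 5) (nat_lit 493) (nat_lit 5) (nat_lit 469) (nat_lit 5) (nat_lit 663) (nat_lit 638) (nat_lit 259)) (XT.lf (nat_lit 0) (nat_lit 6238098878) (nat_lit 1140) (nat_lit 12843455303) (nat_lit 1216) (nat_lit 35880722425) (nat_lit 453) (nat_lit 5) (nat_lit 468) (nat_lit 5) (nat_lit 469) (nat_lit 5) (nat_lit 664) (nat_lit 638) (nat_lit 258))) (XT.nd (nat_lit 78) (nat_lit 912) (nat_lit 0) (XT.lf (nat_lit 0) (nat_lit 24034610126) (nat_lit 1216) (nat_lit 19192120045) (nat_lit 76) (nat_lit 12329331684) (nat_lit 453) (nat_lit 5) (nat_lit 469) (nat_lit 5) (nat_lit 454) (nat_lit 5) (nat_lit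 665) (nat_lit 638) (nat_lit 257)) (XT.lf (nat_lit 0) (nat_lit 10989092754) (nat_lit 912) (nat_lit 18253426596) (nat_lit 988) (nat_lit 26916087634) (nat_lit 441) (nat_lit 5) (nat_lit 453) (nat_lit 5) (nat_lit 454) (nat_lit 5) (nat_lit 666) (nat_lit 638) (nat_lit 256)))) (XT.nd (nat_lit 156) (nat_lit 836) (nat_lit 0) (XT.nd (nat_lit 78) (nat_lit 912) (nat_lit 0) (XT.lf (nat_lit 0) (nat_lit 34730498126) (nat_lit 988) (nat_lit 14784831624) (nat_lit 76) (nat_lit 7254355056) (nat_lit 441) (nat_lit 5) (nat_lit 454) (nat_lit 5) (nat_lit 442) (nat_lit 5) (nat_lit 667) (nat_lit 638) (nat_lit 255)) (XT.lf (nat_lit 0) (nat_lit 16299885207) (nat_lit 912) (nat_lit 24254472856) (nat_lit 988) (nat_lit 16834103705) (nat_lit 429) (nat_lit 5) (nat_lit 441) (nat_lit 5) (nat_lit 442) (nat_lit 5) (nat_lit 668) (nat_lit 638) (nat_lit 254))) (XT.nd (nat_lit 78) (nat_lit 836) (nat_lit 0) (XT.lf (nat_lit 0) (nat_lit 46603797141) (nat_lit 988) (nat_lit 9821952718) (nat_lit 76) (nat_lit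 1591682389) (nat_lit 429) (nat_lit 5) (nat_lit 442) (nat_lit 5) (nat_lit 430) (nat_lit 5) (nat_lit 669) (nat_lit 638) (nat_lit 253)) (XT.lf (nat_lit 0) (nat_lit 22199985717) (nat_lit 836) (nat_lit 30878429978) (nat_lit 912) (nat_lit 5574482644) (nat_lit 418) (nat_lit 5) (nat_lit 429) (nat_lit 5) (nat_lit 430) (nat_lit 5) (nat_lit 670) (nat_lit 638) (nat_lit 252))))) (XT.nd (nat_lit 312) (nat_lit 1596) (nat_lit 0) (XT.nd (nat_lit 156) (nat_lit 836) (nat_lit 0) (XT.nd (nat_lit 78) (nat_lit 912) (nat_lit 0) (XT.lf (nat_lit 0) (nat_lit 442228946) (nat_lit 912) (nat_lit 4307719601) (nat_lit 76) (nat_lit 54549760109) (nat_lit 417) (nat_lit 5) (nat_lit 429) (nat_lit 5) (nat_lit 418) (nat_lit 5) (nat_lit 671) (nat_lit 638) (nat_lit 251)) (XT.lf (nat_lit 0) (nat_lit 6834950055) (nat_lit 988) (nat_lit 31277756368) (nat_lit 76) (nat_lit 21839405475) (nat_lit 405) (nat_lit 5) (nat_lit 418) (nat_lit 5) (nat_lit 406) (nat_lit 5) (nat_lit 672) (nat_lit 638) (nat_lit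 250))) (XT.nd (nat_lit 78) (nat_lit 0) (nat_lit 0) (XT.lf (nat_lit 0) (nat_lit 1748209749) (nat_lit 836) (nat_lit 11678672058) (nat_lit 912) (nat_lit 47189254285) (nat_lit 394) (nat_lit 5) (nat_lit 405) (nat_lit 5) (nat_lit 406) (nat_lit 5) (nat_lit 673) (nat_lit 638) (nat_lit 249)) (XT.lf (nat_lit 0) (nat_lit 20460624322) (nat_lit 912) (nat_lit 25531750584) (nat_lit 76) (nat_lit 15294866438) (nat_lit 394) (nat_lit 5) (nat_lit 406) (nat_lit 5) (nat_lit 395) (nat_lit 5) (nat_lit 674) (nat_lit 638) (nat_lit 248)))) (XT.nd (nat_lit 156) (nat_lit 760) (nat_lit 0) (XT.nd (nat_lit 78) (nat_lit 0) (nat_lit 0) (XT.lf (nat_lit 0) (nat_lit 8504802546) (nat_lit 836) (nat_lit 19262268561) (nat_lit 912) (nat_lit 34202057018) (nat_lit 383) (nat_lit 5) (nat_lit 394) (nat_lit 5) (nat_lit 395) (nat_lit 5) (nat_lit 675) (nat_lit 638) (nat_lit 247)) (XT.lf (nat_lit 0) (nat_lit 35443545299) (nat_lit 912) (nat_lit 19146694230) (nat_lit 76) (nat_lit 8069935160) (nat_lit 383)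 (nat_lit 5) (nat_lit 395) (nat_lit 5) (nat_lit 384) (nat_lit 5) (nat_lit 676) (nat_lit 638) (nat_lit 246))) (XT.nd (nat_lit 78234) (nat_lit 0) (nat_lit 8208) (XT.lf (nat_lit 0) (nat_lit 15938215698) (nat_lit 760) (nat_lit 27565864917) (nat_lit 836) (nat_lit 19856350948) (nat_lit 373) (nat_lit 5) (nat_lit 383) (nat_lit 5) (nat_lit 384) (nat_lit 5) (nat_lit 677) (nat_lit 638) (nat_lit 245)) (XT.lf (nat_lit 0) (nat_lit 5137437369) (nat_lit 1900) (nat_lit 8148859807) (nat_lit 1900) (nat_lit 8148859807) (nat_lit 481) (nat_lit 3) (nat_lit 506) (nat_lit 3) (nat_lit 506) (nat_lit 5) (nat_lit 639) (nat_lit 639) (nat_lit 282)))))) (XT.nd (nat_lit 624) (nat_lit 0) (nat_lit 304) (XT.nd (nat_lit 312) (nat_lit 0) (nat_lit 152) (XT.nd (nat_lit 156) (nat_lit 0) (nat_lit 76) (XT.nd (nat_lit 78) (nat_lit 0) (nat_lit 76) (XT.lf (nat_lit 76) (nat_lit 5118313973) (nat_lit 0) (nat_lit 5328425618) (nat_lit 1900) (nat_lit 32850894109) (nat_lit 482) (nat_lit 5) (nat_lit 481) (nat_lit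 3) (nat_lit 506) (nat_lit 5) (nat_lit 640) (nat_lit 639) (nat_lit 281)) (XT.lf (nat_lit 0) (nat_lit 10837285032) (nat_lit 1824) (nat_lit 16655051185) (nat_lit 1900) (nat_lit 16236858772) (nat_lit 482) (nat_lit 5) (nat_lit 506) (nat_lit 5) (nat_lit 507) (nat_lit 5) (nat_lit 641) (nat_lit 639) (nat_lit 280))) (XT.nd (nat_lit 78) (nat_lit 0) (nat_lit 76) (XT.lf (nat_lit 76) (nat_lit 5333871460) (nat_lit 0) (nat_lit 5970765548) (nat_lit 1900) (nat_lit 32863370611) (nat_lit 483) (nat_lit 5) (nat_lit 482) (nat_lit 5) (nat_lit 507) (nat_lit 5) (nat_lit 642) (nat_lit 639) (nat_lit 279)) (XT.lf (nat_lit 0) (nat_lit 11996695705) (nat_lit 1824) (nat_lit 16730041961) (nat_lit 1900) (nat_lit 15884551669) (nat_lit 483) (nat_lit 5) (nat_lit 507) (nat_lit 5) (nat_lit 508) (nat_lit 5) (nat_lit 643) (nat_lit 639) (nat_lit 278)))) (XT.nd (nat_lit 156) (nat_lit 0) (nat_lit 76) (XT.nd (nat_lit 78) (nat_lit 0) (nat_lit 76) (XT.lf (nat_lit 76) (nat_lit 5852847940) (nat_lit 0)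 (nat_lit 6926402026) (nat_lit 1900) (nat_lit 32282653658) (nat_lit 484) (nat_lit 5) (nat_lit 483) (nat_lit 5) (nat_lit 508) (nat_lit 5) (nat_lit 644) (nat_lit 639) (nat_lit 277)) (XT.lf (nat_lit 0) (nat_lit 13788997361) (nat_lit 1824) (nat_lit 16505777288) (nat_lit 1900) (nat_lit 15222524738) (nat_lit 484) (nat_lit 5) (nat_lit 508) (nat_lit 5) (nat_lit 509) (nat_lit 5) (nat_lit 645) (nat_lit 639) (nat_lit 276))) (XT.nd (nat_lit 78) (nat_lit 0) (nat_lit 76) (XT.lf (nat_lit 76) (nat_lit 6692963714) (nat_lit 0) (nat_lit 8214447319) (nat_lit 1900) (nat_lit 31072622628) (nat_lit 485) (nat_lit 5) (nat_lit 484) (nat_lit 5) (nat_lit 509) (nat_lit 5) (nat_lit 646) (nat_lit 639) (nat_lit 275)) (XT.lf (nat_lit 0) (nat_lit 16251744208) (nat_lit 1824) (nat_lit 15964542696) (nat_lit 1900) (nat_lit 14231664719) (nat_lit 485) (nat_lit 5) (nat_lit 509) (nat_lit 5) (nat_lit 510) (nat_lit 5) (nat_lit 647) (nat_lit 639) (nat_lit 274))))) (XT.nd (nat_lit 312) (nat_lit 0) (nat_lit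 152) (XT.nd (nat_lit 156) (nat_lit 0) (nat_lit 76) (XT.nd (nat_lit 78) (nat_lit 0) (nat_lit 76) (XT.lf (nat_lit 76) (nat_lit 7872770137) (nat_lit 0) (nat_lit 9854887464) (nat_lit 1900) (nat_lit 29195476497) (nat_lit 486) (nat_lit 5) (nat_lit 485) (nat_lit 5) (nat_lit 510) (nat_lit 5) (nat_lit 648) (nat_lit 639) (nat_lit 273)) (XT.lf (nat_lit 0) (nat_lit 19424226185) (nat_lit 1824) (nat_lit 15087790720) (nat_lit 1900) (nat_lit 12891980602) (nat_lit 486) (nat_lit 5) (nat_lit 510) (nat_lit 5) (nat_lit 511) (nat_lit 5) (nat_lit 649) (nat_lit 639) (nat_lit 272))) (XT.nd (nat_lit 78) (nat_lit 0) (nat_lit 76) (XT.lf (nat_lit 76) (nat_lit 9411684025) (nat_lit 0) (nat_lit 11868621688) (nat_lit 1900) (nat_lit 26611660905) (nat_lit 487) (nat_lit 5) (nat_lit 486) (nat_lit 5) (nat_lit 511) (nat_lit 5) (nat_lit 650) (nat_lit 639) (nat_lit 271)) (XT.lf (nat_lit 0) (nat_lit 23347544026) (nat_lit 1824) (nat_lit 13856106341) (nat_lit 1900) (nat_lit 11182564023) (nat_lit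 487) (nat_lit 5) (nat_lit 511) (nat_lit 5) (nat_lit 512) (nat_lit 5) (nat_lit 651) (nat_lit 639) (nat_lit 270)))) (XT.nd (nat_lit 156) (nat_lit 0) (nat_lit 76) (XT.nd (nat_lit 78) (nat_lit 0) (nat_lit 76) (XT.lf (nat_lit 76) (nat_lit 11330023484) (nat_lit 0) (nat_lit 14277503411) (nat_lit 1900) (nat_lit 23279792250) (nat_lit 488) (nat_lit 5) (nat_lit 487) (nat_lit 5) (nat_lit 512) (nat_lit 5) (nat_lit 652) (nat_lit 639) (nat_lit 269)) (XT.lf (nat_lit 0) (nat_lit 28064687396) (nat_lit 1824) (nat_lit 12249170998) (nat_lit 1900) (nat_lit 9081548064) (nat_lit 488) (nat_lit 5) (nat_lit 512) (nat_lit 5) (nat_lit 513) (nat_lit 5) (nat_lit 653) (nat_lit 639) (nat_lit 268))) (XT.nd (nat_lit 78) (nat_lit 0) (nat_lit 76) (XT.lf (nat_lit 76) (nat_lit 13649045214) (nat_lit 0) (nat_lit 17104382910) (nat_lit 1900) (nat_lit 19156578674) (nat_lit 489) (nat_lit 5) (nat_lit 488) (nat_lit 5) (nat_lit 513) (nat_lit 5) (nat_lit 654) (nat_lit 639) (nat_lit 267)) (XT.lf (nat_lit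 0) (nat_lit 33620616208) (nat_lit 1824) (nat_lit 10245725128) (nat_lit 1900) (nat_lit 6566064381) (nat_lit 489) (nat_lit 5) (nat_lit 513) (nat_lit 5) (nat_lit 514) (nat_lit 5) (nat_lit 655) (nat_lit 639) (nat_lit 266))))))))
noncomputable def xc248 : XT := (XT.nd (nat_lit 80652) (nat_lit 0) (nat_lit 0) (XT.nd (nat_lit 1170) (nat_lit 3496) (nat_lit 0) (XT.nd (nat_lit 546) (nat_lit 2812) (nat_lit 0) (XT.nd (nat_lit 234) (nat_lit 1748) (nat_lit 0) (XT.nd (nat_lit 78) (nat_lit 0) (nat_lit 76) (XT.lf (nat_lit 76) (nat_lit 16390983339) (nat_lit 0) (nat_lit 20373151730) (nat_lit 1900) (nat_lit 14196737825) (nat_lit 490) (nat_lit 5) (nat_lit 489) (nat_lit 5) (nat_lit 514) (nat_lit 5) (nat_lit 656) (nat_lit 639) (nat_lit 265)) (XT.nd (nat_lit 78) (nat_lit 0) (nat_lit 0) (XT.lf (nat_lit 0) (nat_lit 40062345274) (nat_lit 1824) (nat_lit 7823529165) (nat_lit 1900) (nat_lit 3612198578) (nat_lit 490) (nat_lit 5) (nat_lit 514) (nat_lit 5) (nat_lit 515) (nat_lit 5) (nat_lit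 657) (nat_lit 639) (nat_lit 264)) (XT.lf (nat_lit 76) (nat_lit 19579089827) (nat_lit 0) (nat_lit 24108788894) (nat_lit 1900) (nat_lit 8352911260) (nat_lit 491) (nat_lit 5) (nat_lit 490) (nat_lit 5) (nat_lit 515) (nat_lit 5) (nat_lit 658) (nat_lit 639) (nat_lit 263)))) (XT.nd (nat_lit 156) (nat_lit 1900) (nat_lit 0) (XT.nd (nat_lit 78) (nat_lit 0) (nat_lit 0) (XT.lf (nat_lit 0) (nat_lit 47439032401) (nat_lit 1824) (nat_lit 4959322958) (nat_lit 1900) (nat_lit 194943756) (nat_lit 491) (nat_lit 5) (nat_lit 515) (nat_lit 5) (nat_lit 516) (nat_lit 5) (nat_lit 659) (nat_lit 639) (nat_lit 262)) (XT.lf (nat_lit 76) (nat_lit 23237676556) (nat_lit 0) (nat_lit 28337409022) (nat_lit 1900) (nat_lit 1575575342) (nat_lit 492) (nat_lit 5) (nat_lit 491) (nat_lit 5) (nat_lit 516) (nat_lit 5) (nat_lit 660) (nat_lit 639) (nat_lit 261))) (XT.nd (nat_lit 78) (nat_lit 0) (nat_lit 76) (XT.lf (nat_lit 0) (nat_lit 2080326327) (nat_lit 1900) (nat_lit 1666889932) (nat_lit 1976) (nat_lit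 49971027389) (nat_lit 466) (nat_lit 5) (nat_lit 491) (nat_lit 5) (nat_lit 492) (nat_lit 5) (nat_lit 661) (nat_lit 639) (nat_lit 260)) (XT.lf (nat_lit 0) (nat_lit 6105907196) (nat_lit 1900) (nat_lit 26939431359) (nat_lit 1976) (nat_lit 21245278040) (nat_lit 467) (nat_lit 5) (nat_lit 492) (nat_lit 5) (nat_lit 493) (nat_lit 5) (nat_lit 662) (nat_lit 639) (nat_lit 259))))) (XT.nd (nat_lit 312) (nat_lit 1824) (nat_lit 0) (XT.nd (nat_lit 156) (nat_lit 1064) (nat_lit 0) (XT.nd (nat_lit 78) (nat_lit 0) (nat_lit 76) (XT.lf (nat_lit 76) (nat_lit 2100121855) (nat_lit 0) (nat_lit 8160958044) (nat_lit 1976) (nat_lit 44612375516) (nat_lit 468) (nat_lit 5) (nat_lit 467) (nat_lit 5) (nat_lit 493) (nat_lit 5) (nat_lit 663) (nat_lit 639) (nat_lit 258)) (XT.lf (nat_lit 0) (nat_lit 14792520444) (nat_lit 1900) (nat_lit 23492251131) (nat_lit 76) (nat_lit 17177316167) (nat_lit 468) (nat_lit 5) (nat_lit 493) (nat_lit 5) (nat_lit 469) (nat_lit 5) (nat_lit 664) (nat_lit 639) (nat_lit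 257))) (XT.nd (nat_lit 78) (nat_lit 0) (nat_lit 0) (XT.lf (nat_lit 0) (nat_lit 6403860517) (nat_lit 1140) (nat_lit 13105744208) (nat_lit 1216) (nat_lit 36550987709) (nat_lit 453) (nat_lit 5) (nat_lit 468) (nat_lit 5) (nat_lit 469) (nat_lit 5) (nat_lit 665) (nat_lit 639) (nat_lit 256)) (XT.lf (nat_lit 0) (nat_lit 24560777104) (nat_lit 1216) (nat_lit 19534820726) (nat_lit 76) (nat_lit 12570674477) (nat_lit 453) (nat_lit 5) (nat_lit 469) (nat_lit 5) (nat_lit 454) (nat_lit 5) (nat_lit 666) (nat_lit 639) (nat_lit 255)))) (XT.nd (nat_lit 156) (nat_lit 912) (nat_lit 0) (XT.nd (nat_lit 78) (nat_lit 0) (nat_lit 0) (XT.lf (nat_lit 0) (nat_lit 11249745660) (nat_lit 912) (nat_lit 18622472553) (nat_lit 988) (nat_lit 27408662678) (nat_lit 441) (nat_lit 5) (nat_lit 453) (nat_lit 5) (nat_lit 454) (nat_lit 5) (nat_lit 667) (nat_lit 639) (nat_lit 254)) (XT.lf (nat_lit 0) (nat_lit 35469051864) (nat_lit 988) (nat_lit 15039552660) (nat_lit 76) (nat_lit 7395593863) (nat_lit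 441) (nat_lit 5) (nat_lit 454) (nat_lit 5) (nat_lit 442) (nat_lit 5) (nat_lit 668) (nat_lit 639) (nat_lit 253))) (XT.nd (nat_lit 78) (nat_lit 0) (nat_lit 0) (XT.lf (nat_lit 0) (nat_lit 16666588932) (nat_lit 912) (nat_lit 24742202716) (nat_lit 988) (nat_lit 17126571213) (nat_lit 429) (nat_lit 5) (nat_lit 441) (nat_lit 5) (nat_lit 442) (nat_lit 5) (nat_lit 669) (nat_lit 639) (nat_lit 252)) (XT.lf (nat_lit 0) (nat_lit 47578352771) (nat_lit 988) (nat_lit 9977615981) (nat_lit 76) (nat_lit 1620961356) (nat_lit 429) (nat_lit 5) (nat_lit 442) (nat_lit 5) (nat_lit 430) (nat_lit 5) (nat_lit 670) (nat_lit 639) (nat_lit 251)))))) (XT.nd (nat_lit 78858) (nat_lit 0) (nat_lit 7448) (XT.nd (nat_lit 312) (nat_lit 836) (nat_lit 0) (XT.nd (nat_lit 156) (nat_lit 1748) (nat_lit 0) (XT.nd (nat_lit 78) (nat_lit 76) (nat_lit 0) (XT.lf (nat_lit 0) (nat_lit 22684492961) (nat_lit 836) (nat_lit 31497400802) (nat_lit 912) (nat_lit 5643223181) (nat_lit 418) (nat_lit 5) (nat_lit 429)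 (nat_lit 5) (nat_lit 430) (nat_lit 5) (nat_lit 671) (nat_lit 639) (nat_lit 250)) (XT.lf (nat_lit 0) (nat_lit 492434754) (nat_lit 912) (nat_lit 4353609938) (nat_lit 76) (nat_lit 55638829791) (nat_lit 417) (nat_lit 5) (nat_lit 429) (nat_lit 5) (nat_lit 418) (nat_lit 5) (nat_lit 672) (nat_lit 639) (nat_lit 249))) (XT.nd (nat_lit 78) (nat_lit 836) (nat_lit 0) (XT.lf (nat_lit 0) (nat_lit 7012453718) (nat_lit 988) (nat_lit 31862489772) (nat_lit 76) (nat_lit 22275393452) (nat_lit 405) (nat_lit 5) (nat_lit 418) (nat_lit 5) (nat_lit 406) (nat_lit 5) (nat_lit 673) (nat_lit 639) (nat_lit 248)) (XT.lf (nat_lit 0) (nat_lit 1823727104) (nat_lit 836) (nat_lit 11911960208) (nat_lit 912) (nat_lit 48091965066) (nat_lit 394) (nat_lit 5) (nat_lit 405) (nat_lit 5) (nat_lit 406) (nat_lit 5) (nat_lit 674) (nat_lit 639) (nat_lit 247)))) (XT.nd (nat_lit 156) (nat_lit 0) (nat_lit 0) (XT.nd (nat_lit 78) (nat_lit 836) (nat_lit 0) (XT.lf (nat_lit 0) (nat_lit 20909316927) (nat_lit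 912) (nat_lit 26001838789) (nat_lit 76) (nat_lit 15601039795) (nat_lit 394) (nat_lit 5) (nat_lit 406) (nat_lit 5) (nat_lit 395) (nat_lit 5) (nat_lit 675) (nat_lit 639) (nat_lit 246)) (XT.lf (nat_lit 0) (nat_lit 8715178649) (nat_lit 836) (nat_lit 19646201404) (nat_lit 912) (nat_lit 34846350248) (nat_lit 383) (nat_lit 5) (nat_lit 394) (nat_lit 5) (nat_lit 395) (nat_lit 5) (nat_lit 676) (nat_lit 639) (nat_lit 245))) (XT.nd (nat_lit 78312) (nat_lit 0) (nat_lit 7448) (XT.lf (nat_lit 0) (nat_lit 36190628014) (nat_lit 912) (nat_lit 19489381136) (nat_lit 76) (nat_lit 8232603779) (nat_lit 383) (nat_lit 5) (nat_lit 395) (nat_lit 5) (nat_lit 384) (nat_lit 5) (nat_lit 677) (nat_lit 639) (nat_lit 244)) (XT.lf (nat_lit 0) (nat_lit 5275837746) (nat_lit 1900) (nat_lit 8293654133) (nat_lit 1900) (nat_lit 8293654133) (nat_lit 481) (nat_lit 3) (nat_lit 506) (nat_lit 3) (nat_lit 506) (nat_lit 5) (nat_lit 640) (nat_lit 640) (nat_lit 280))))) (XT.nd (nat_lit 312) (nat_lit 0)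 (nat_lit 152) (XT.nd (nat_lit 156) (nat_lit 0) (nat_lit 76) (XT.nd (nat_lit 78) (nat_lit 0) (nat_lit 76) (XT.lf (nat_lit 76) (nat_lit 5256806745) (nat_lit 0) (nat_lit 5469007350) (nat_lit 1900) (nat_lit 33436367369) (nat_lit 482) (nat_lit 5) (nat_lit 481) (nat_lit 3) (nat_lit 506) (nat_lit 5) (nat_lit 641) (nat_lit 640) (nat_lit 279)) (XT.lf (nat_lit 0) (nat_lit 11122578650) (nat_lit 1824) (nat_lit 16951140211) (nat_lit 1900) (nat_lit 16528686996) (nat_lit 482) (nat_lit 5) (nat_lit 506) (nat_lit 5) (nat_lit 507) (nat_lit 5) (nat_lit 642) (nat_lit 640) (nat_lit 278))) (XT.nd (nat_lit 78) (nat_lit 0) (nat_lit 76) (XT.lf (nat_lit 76) (nat_lit 5477317388) (nat_lit 0) (nat_lit 6120854926) (nat_lit 1900) (nat_lit 33451844573) (nat_lit 483) (nat_lit 5) (nat_lit 482) (nat_lit 5) (nat_lit 507) (nat_lit 5) (nat_lit 643) (nat_lit 640) (nat_lit 277)) (XT.lf (nat_lit 0) (nat_lit 12302554530) (nat_lit 1824) (nat_lit 17027075605) (nat_lit 1900) (nat_lit 16172564495)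 (nat_lit 483) (nat_lit 5) (nat_lit 507) (nat_lit 5) (nat_lit 508) (nat_lit 5) (nat_lit 644) (nat_lit 640) (nat_lit 276)))) (XT.nd (nat_lit 156) (nat_lit 0) (nat_lit 76) (XT.nd (nat_lit 78) (nat_lit 0) (nat_lit 76) (XT.lf (nat_lit 76) (nat_lit 6007224942) (nat_lit 0) (nat_lit 7092484596) (nat_lit 1900) (nat_lit 32862132713) (nat_lit 484) (nat_lit 5) (nat_lit 483) (nat_lit 5) (nat_lit 508) (nat_lit 5) (nat_lit 645) (nat_lit 640) (nat_lit 275)) (XT.lf (nat_lit 0) (nat_lit 14128204436) (nat_lit 1824) (nat_lit 16797855195) (nat_lit 1900) (nat_lit 15500315285) (nat_lit 484) (nat_lit 5) (nat_lit 508) (nat_lit 5) (nat_lit 509) (nat_lit 5) (nat_lit 646) (nat_lit 640) (nat_lit 274))) (XT.nd (nat_lit 78) (nat_lit 0) (nat_lit 76) (XT.lf (nat_lit 76) (nat_lit 6864610379) (nat_lit 0) (nat_lit 8403377674) (nat_lit 1900) (nat_lit 31630395827) (nat_lit 485) (nat_lit 5) (nat_lit 484) (nat_lit 5) (nat_lit 509) (nat_lit 5) (nat_lit 647) (nat_lit 640) (nat_lit 273)) (XT.lf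 (nat_lit 0) (nat_lit 16637826946) (nat_lit 1824) (nat_lit 16245404301) (nat_lit 1900) (nat_lit 14492456610) (nat_lit 485) (nat_lit 5) (nat_lit 509) (nat_lit 5) (nat_lit 510) (nat_lit 5) (nat_lit 648) (nat_lit 640) (nat_lit 272))))))) (XT.nd (nat_lit 1170) (nat_lit 6308) (nat_lit 0) (XT.nd (nat_lit 546) (nat_lit 1444) (nat_lit 0) (XT.nd (nat_lit 234) (nat_lit 0) (nat_lit 152) (XT.nd (nat_lit 78) (nat_lit 0) (nat_lit 76) (XT.lf (nat_lit 76) (nat_lit 8068401964) (nat_lit 0) (nat_lit 10073907493) (nat_lit 1900) (nat_lit 29718083543) (nat_lit 486) (nat_lit 5) (nat_lit 485) (nat_lit 5) (nat_lit 510) (nat_lit 5) (nat_lit 649) (nat_lit 640) (nat_lit 271)) (XT.nd (nat_lit 78) (nat_lit 0) (nat_lit 0) (XT.lf (nat_lit 0) (nat_lit 19871491464) (nat_lit 1824) (nat_lit 15350798948) (nat_lit 1900) (nat_lit 13128609661) (nat_lit 486) (nat_lit 5) (nat_lit 510) (nat_lit 5) (nat_lit 511) (nat_lit 5) (nat_lit 650) (nat_lit 640) (nat_lit 270)) (XT.lf (nat_lit 76) (nat_lit 9638410373)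 (nat_lit 0) (nat_lit 12125379565) (nat_lit 1900) (nat_lit 27084856715) (nat_lit 487) (nat_lit 5) (nat_lit 486) (nat_lit 5) (nat_lit 511) (nat_lit 5) (nat_lit 651) (nat_lit 640) (nat_lit 269)))) (XT.nd (nat_lit 156) (nat_lit 0) (nat_lit 76) (XT.nd (nat_lit 78) (nat_lit 0) (nat_lit 0) (XT.lf (nat_lit 0) (nat_lit 23871114758) (nat_lit 1824) (nat_lit 14094230597) (nat_lit 1900) (nat_lit 11387459225) (nat_lit 487) (nat_lit 5) (nat_lit 511) (nat_lit 5) (nat_lit 512) (nat_lit 5) (nat_lit 652) (nat_lit 640) (nat_lit 268)) (XT.lf (nat_lit 76) (nat_lit 11595365261) (nat_lit 0) (nat_lit 14580073364) (nat_lit 1900) (nat_lit 23688510011) (nat_lit 488) (nat_lit 5) (nat_lit 487) (nat_lit 5) (nat_lit 512) (nat_lit 5) (nat_lit 653) (nat_lit 640) (nat_lit 267))) (XT.nd (nat_lit 78) (nat_lit 0) (nat_lit 0) (XT.lf (nat_lit 0) (nat_lit 28680540641) (nat_lit 1824) (nat_lit 12454969416) (nat_lit 1900) (nat_lit 9246711705) (nat_lit 488) (nat_lit 5) (nat_lit 512) (nat_lit 5) (nat_lit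 513) (nat_lit 5) (nat_lit 654) (nat_lit 640) (nat_lit 266)) (XT.lf (nat_lit 76) (nat_lit 13960953325) (nat_lit 0) (nat_lit 17461285806) (nat_lit 1900) (nat_lit 19484891351) (nat_lit 489) (nat_lit 5) (nat_lit 488) (nat_lit 5) (nat_lit 513) (nat_lit 5) (nat_lit 655) (nat_lit 640) (nat_lit 265))))) (XT.nd (nat_lit 312) (nat_lit 1748) (nat_lit 0) (XT.nd (nat_lit 156) (nat_lit 0) (nat_lit 76) (XT.nd (nat_lit 78) (nat_lit 0) (nat_lit 0) (XT.lf (nat_lit 0) (nat_lit 34345622899) (nat_lit 1824) (nat_lit 10411326052) (nat_lit 1900) (nat_lit 6683051420) (nat_lit 489) (nat_lit 5) (nat_lit 513) (nat_lit 5) (nat_lit 514) (nat_lit 5) (nat_lit 656) (nat_lit 640) (nat_lit 264)) (XT.lf (nat_lit 76) (nat_lit 16757857942) (nat_lit 0) (nat_lit 20793376504) (nat_lit 1900) (nat_lit 14427818032) (nat_lit 490) (nat_lit 5) (nat_lit 489) (nat_lit 5) (nat_lit 514) (nat_lit 5) (nat_lit 657) (nat_lit 640) (nat_lit 263))) (XT.nd (nat_lit 78) (nat_lit 0) (nat_lit 0) (XT.lf (nat_lit 0)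 (nat_lit 40914311608) (nat_lit 1824) (nat_lit 7940611839) (nat_lit 1900) (nat_lit 3672095131) (nat_lit 490) (nat_lit 5) (nat_lit 514) (nat_lit 5) (nat_lit 515) (nat_lit 5) (nat_lit 658) (nat_lit 640) (nat_lit 262)) (XT.lf (nat_lit 76) (nat_lit 20009800403) (nat_lit 0) (nat_lit 24601814874) (nat_lit 1900) (nat_lit 8468989443) (nat_lit 491) (nat_lit 5) (nat_lit 490) (nat_lit 5) (nat_lit 515) (nat_lit 5) (nat_lit 659) (nat_lit 640) (nat_lit 261)))) (XT.nd (nat_lit 156) (nat_lit 1900) (nat_lit 0) (XT.nd (nat_lit 78) (nat_lit 0) (nat_lit 0) (XT.lf (nat_lit 0) (nat_lit 48436742984) (nat_lit 1824) (nat_lit 5019097371) (nat_lit 1900) (nat_lit 188344690) (nat_lit 491) (nat_lit 5) (nat_lit 515) (nat_lit 5) (nat_lit 516) (nat_lit 5) (nat_lit 660) (nat_lit 640) (nat_lit 260)) (XT.lf (nat_lit 76) (nat_lit 23741582843) (nat_lit 0) (nat_lit 28913229177) (nat_lit 1900) (nat_lit 1557896200) (nat_lit 492) (nat_lit 5) (nat_lit 491) (nat_lit 5) (nat_lit 516) (nat_lit 5) (nat_lit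 661) (nat_lit 640) (nat_lit 259))) (XT.nd (nat_lit 78) (nat_lit 0) (nat_lit 76) (XT.lf (nat_lit 0) (nat_lit 2169526486) (nat_lit 1900) (nat_lit 1661208813) (nat_lit 1976) (nat_lit 50960919981) (nat_lit 466) (nat_lit 5) (nat_lit 491) (nat_lit 5) (nat_lit 492) (nat_lit 5) (nat_lit 662) (nat_lit 640) (nat_lit 258)) (XT.lf (nat_lit 0) (nat_lit 6274884519) (nat_lit 1900) (nat_lit 27438465275) (nat_lit 1976) (nat_lit 21662140608) (nat_lit 467) (nat_lit 5) (nat_lit 492) (nat_lit 5) (nat_lit 493) (nat_lit 5) (nat_lit 663) (nat_lit 640) (nat_lit 257)))))) (XT.nd (nat_lit 624) (nat_lit 3496) (nat_lit 0) (XT.nd (nat_lit 312) (nat_lit 1824) (nat_lit 0) (XT.nd (nat_lit 156) (nat_lit 1064) (nat_lit 0) (XT.nd (nat_lit 78) (nat_lit 0) (nat_lit 76) (XT.lf (nat_lit 76) (nat_lit 2181617459) (nat_lit 0) (nat_lit 8330880825) (nat_lit 1976) (nat_lit 45457500988) (nat_lit 468) (nat_lit 5) (nat_lit 467) (nat_lit 5) (nat_lit 493) (nat_lit 5) (nat_lit 664) (nat_lit 640) (nat_lit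 256)) (XT.lf (nat_lit 0) (nat_lit 15133619150) (nat_lit 1900) (nat_lit 23922427582) (nat_lit 76) (nat_lit 17514376509) (nat_lit 468) (nat_lit 5) (nat_lit 493) (nat_lit 5) (nat_lit 469) (nat_lit 5) (nat_lit 665) (nat_lit 640) (nat_lit 255))) (XT.nd (nat_lit 78) (nat_lit 0) (nat_lit 0) (XT.lf (nat_lit 0) (nat_lit 6571345321) (nat_lit 1140) (nat_lit 13373068434) (nat_lit 1216) (nat_lit 37236496924) (nat_lit 453) (nat_lit 5) (nat_lit 468) (nat_lit 5) (nat_lit 469) (nat_lit 5) (nat_lit 666) (nat_lit 640) (nat_lit 254)) (XT.lf (nat_lit 0) (nat_lit 25095701581) (nat_lit 1216) (nat_lit 19885973004) (nat_lit 76) (nat_lit 12817047751) (nat_lit 453) (nat_lit 5) (nat_lit 469) (nat_lit 5) (nat_lit 454) (nat_lit 5) (nat_lit 667) (nat_lit 640) (nat_lit 253)))) (XT.nd (nat_lit 156) (nat_lit 912) (nat_lit 0) (XT.nd (nat_lit 78) (nat_lit 0) (nat_lit 0) (XT.lf (nat_lit 0) (nat_lit 11514024551) (nat_lit 912) (nat_lit 18998744980) (nat_lit 988) (nat_lit 27912865623) (nat_lit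 441) (nat_lit 5) (nat_lit 453) (nat_lit 5) (nat_lit 454) (nat_lit 5) (nat_lit 668) (nat_lit 640) (nat_lit 252)) (XT.lf (nat_lit 0) (nat_lit 36220670286) (nat_lit 988) (nat_lit 15300959249) (nat_lit 76) (nat_lit 7539806880) (nat_lit 441) (nat_lit 5) (nat_lit 454) (nat_lit 5) (nat_lit 442) (nat_lit 5) (nat_lit 669) (nat_lit 640) (nat_lit 251))) (XT.nd (nat_lit 78) (nat_lit 0) (nat_lit 0) (XT.lf (nat_lit 0) (nat_lit 17039046066) (nat_lit 912) (nat_lit 25239584644) (nat_lit 988) (nat_lit 17426604975) (nat_lit 429) (nat_lit 5) (nat_lit 441) (nat_lit 5) (nat_lit 442) (nat_lit 5) (nat_lit 670) (nat_lit 640) (nat_lit 250)) (XT.lf (nat_lit 0) (nat_lit 48570749974) (nat_lit 988) (nat_lit 10137975883) (nat_lit 76) (nat_lit 1650925105) (nat_lit 429) (nat_lit 5) (nat_lit 442) (nat_lit 5) (nat_lit 430) (nat_lit 5) (nat_lit 671) (nat_lit 640) (nat_lit 249))))) (XT.nd (nat_lit 312) (nat_lit 836) (nat_lit 0) (XT.nd (nat_lit 156) (nat_lit 1748) (nat_lit 0) (XT.nd (nat_lit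 78) (nat_lit 76) (nat_lit 0) (XT.lf (nat_lit 0) (nat_lit 23177117392) (nat_lit 836) (nat_lit 32128696592) (nat_lit 912) (nat_lit 5714998529) (nat_lit 418) (nat_lit 5) (nat_lit 429) (nat_lit 5) (nat_lit 430) (nat_lit 5) (nat_lit 672) (nat_lit 640) (nat_lit 248)) (XT.lf (nat_lit 0) (nat_lit 542038572) (nat_lit 912) (nat_lit 4401981583) (nat_lit 76) (nat_lit 56749755636) (nat_lit 417) (nat_lit 5) (nat_lit 429) (nat_lit 5) (nat_lit 418) (nat_lit 5) (nat_lit 673) (nat_lit 640) (nat_lit 247))) (XT.nd (nat_lit 78) (nat_lit 836) (nat_lit 0) (XT.lf (nat_lit 0) (nat_lit 7191922959) (nat_lit 988) (nat_lit 32460503001) (nat_lit 76) (nat_lit 22720132259) (nat_lit 405) (nat_lit 5) (nat_lit 418) (nat_lit 5) (nat_lit 406) (nat_lit 5) (nat_lit 674) (nat_lit 640) (nat_lit 246)) (XT.lf (nat_lit 0) (nat_lit 1899180077) (nat_lit 836) (nat_lit 12149925199) (nat_lit 912) (nat_lit 49014325028) (nat_lit 394) (nat_lit 5) (nat_lit 405) (nat_lit 5) (nat_lit 406) (nat_lit 5) (nat_lit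 675) (nat_lit 640) (nat_lit 245)))) (XT.nd (nat_lit 78468) (nat_lit 0) (nat_lit 7448) (XT.nd (nat_lit 78) (nat_lit 836) (nat_lit 0) (XT.lf (nat_lit 0) (nat_lit 21365450322) (nat_lit 912) (nat_lit 26482903239) (nat_lit 76) (nat_lit 15913325902) (nat_lit 394) (nat_lit 5) (nat_lit 406) (nat_lit 5) (nat_lit 395) (nat_lit 5) (nat_lit 676) (nat_lit 640) (nat_lit 244)) (XT.lf (nat_lit 0) (nat_lit 8928198151) (nat_lit 836) (nat_lit 20037863870) (nat_lit 912) (nat_lit 35505072802) (nat_lit 383) (nat_lit 5) (nat_lit 394) (nat_lit 5) (nat_lit 395) (nat_lit 5) (nat_lit 677) (nat_lit 640) (nat_lit 243))) (XT.nd (nat_lit 78) (nat_lit 0) (nat_lit 0) (XT.lf (nat_lit 0) (nat_lit 5415621734) (nat_lit 1900) (nat_lit 8442050408) (nat_lit 1900) (nat_lit 8442050408) (nat_lit 481) (nat_lit 3) (nat_lit 506) (nat_lit 3) (nat_lit 506) (nat_lit 5) (nat_lit 641) (nat_lit 641) (nat_lit 278)) (XT.lf (nat_lit 76) (nat_lit 5396666536) (nat_lit 0) (nat_lit 5611079942) (nat_lit 1900) (nat_lit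 34036328260) (nat_lit 482) (nat_lit 5) (nat_lit 481) (nat_lit 3) (nat_lit 506) (nat_lit 5) (nat_lit 642) (nat_lit 641) (nat_lit 277))))))))
noncomputable def xc249 : XT := (XT.nd (nat_lit 2418) (nat_lit 1824) (nat_lit 0) (XT.nd (nat_lit 1170) (nat_lit 4864) (nat_lit 0) (XT.nd (nat_lit 546) (nat_lit 0) (nat_lit 228) (XT.nd (nat_lit 234) (nat_lit 0) (nat_lit 76) (XT.nd (nat_lit 78) (nat_lit 0) (nat_lit 0) (XT.lf (nat_lit 0) (nat_lit 11410916341) (nat_lit 1824) (nat_lit 17254588237) (nat_lit 1900) (nat_lit 16827629679) (nat_lit 482) (nat_lit 5) (nat_lit 506) (nat_lit 5) (nat_lit 507) (nat_lit 5) (nat_lit 643) (nat_lit 641) (nat_lit 276)) (XT.nd (nat_lit 78) (nat_lit 0) (nat_lit 76) (XT.lf (nat_lit 76) (nat_lit 5622204468) (nat_lit 0) (nat_lit 6272754981) (nat_lit 1900) (nat_lit 34054759347) (nat_lit 483) (nat_lit 5) (nat_lit 482) (nat_lit 5) (nat_lit 507) (nat_lit 5) (nat_lit 644) (nat_lit 641) (nat_lit 275)) (XT.lf (nat_lit 0) (nat_lit 12611970588) (nat_lit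 1824) (nat_lit 17331508702) (nat_lit 1900) (nat_lit 16467490018) (nat_lit 483) (nat_lit 5) (nat_lit 507) (nat_lit 5) (nat_lit 508) (nat_lit 5) (nat_lit 645) (nat_lit 641) (nat_lit 274)))) (XT.nd (nat_lit 156) (nat_lit 0) (nat_lit 76) (XT.nd (nat_lit 78) (nat_lit 0) (nat_lit 76) (XT.lf (nat_lit 76) (nat_lit 6163240301) (nat_lit 0) (nat_lit 7260818842) (nat_lit 1900) (nat_lit 33455770967) (nat_lit 484) (nat_lit 5) (nat_lit 483) (nat_lit 5) (nat_lit 508) (nat_lit 5) (nat_lit 646) (nat_lit 641) (nat_lit 273)) (XT.lf (nat_lit 0) (nat_lit 14471732699) (nat_lit 1824) (nat_lit 17097251709) (nat_lit 1900) (nat_lit 15784696881) (nat_lit 484) (nat_lit 5) (nat_lit 508) (nat_lit 5) (nat_lit 509) (nat_lit 5) (nat_lit 647) (nat_lit 641) (nat_lit 272))) (XT.nd (nat_lit 78) (nat_lit 0) (nat_lit 76) (XT.lf (nat_lit 76) (nat_lit 7038222647) (nat_lit 0) (nat_lit 8595129780) (nat_lit 1900) (nat_lit 32201797233) (nat_lit 485) (nat_lit 5) (nat_lit 484) (nat_lit 5) (nat_lit 509)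 (nat_lit 5) (nat_lit 648) (nat_lit 641) (nat_lit 271)) (XT.lf (nat_lit 0) (nat_lit 17029260776) (nat_lit 1824) (nat_lit 16533375393) (nat_lit 1900) (nat_lit 14759390129) (nat_lit 485) (nat_lit 5) (nat_lit 509) (nat_lit 5) (nat_lit 510) (nat_lit 5) (nat_lit 649) (nat_lit 641) (nat_lit 270))))) (XT.nd (nat_lit 312) (nat_lit 0) (nat_lit 152) (XT.nd (nat_lit 156) (nat_lit 0) (nat_lit 76) (XT.nd (nat_lit 78) (nat_lit 0) (nat_lit 76) (XT.lf (nat_lit 76) (nat_lit 8266463991) (nat_lit 0) (nat_lit 10296456653) (nat_lit 1900) (nat_lit 30253523181) (nat_lit 486) (nat_lit 5) (nat_lit 485) (nat_lit 5) (nat_lit 510) (nat_lit 5) (nat_lit 650) (nat_lit 641) (nat_lit 269)) (XT.lf (nat_lit 0) (nat_lit 20325419519) (nat_lit 1824) (nat_lit 15620571957) (nat_lit 1900) (nat_lit 13370794932) (nat_lit 486) (nat_lit 5) (nat_lit 510) (nat_lit 5) (nat_lit 511) (nat_lit 5) (nat_lit 651) (nat_lit 641) (nat_lit 268))) (XT.nd (nat_lit 78) (nat_lit 0) (nat_lit 76) (XT.lf (nat_lit 76)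 (nat_lit 9868176532) (nat_lit 0) (nat_lit 12386519839) (nat_lit 1900) (nat_lit 27569808935) (nat_lit 487) (nat_lit 5) (nat_lit 486) (nat_lit 5) (nat_lit 511) (nat_lit 5) (nat_lit 652) (nat_lit 641) (nat_lit 267)) (XT.lf (nat_lit 0) (nat_lit 24402958286) (nat_lit 1824) (nat_lit 14338631672) (nat_lit 1900) (nat_lit 11597180654) (nat_lit 487) (nat_lit 5) (nat_lit 511) (nat_lit 5) (nat_lit 512) (nat_lit 5) (nat_lit 653) (nat_lit 641) (nat_lit 266)))) (XT.nd (nat_lit 156) (nat_lit 0) (nat_lit 76) (XT.nd (nat_lit 78) (nat_lit 0) (nat_lit 76) (XT.lf (nat_lit 76) (nat_lit 11864509500) (nat_lit 0) (nat_lit 14888033814) (nat_lit 1900) (nat_lit 24107610773) (nat_lit 488) (nat_lit 5) (nat_lit 487) (nat_lit 5) (nat_lit 512) (nat_lit 5) (nat_lit 654) (nat_lit 641) (nat_lit 265)) (XT.lf (nat_lit 0) (nat_lit 29306592340) (nat_lit 1824) (nat_lit 12666405402) (nat_lit 1900) (nat_lit 9415818065) (nat_lit 488) (nat_lit 5) (nat_lit 512) (nat_lit 5) (nat_lit 513) (nat_lit 5)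 (nat_lit 655) (nat_lit 641) (nat_lit 264))) (XT.nd (nat_lit 78) (nat_lit 0) (nat_lit 76) (XT.lf (nat_lit 76) (nat_lit 14277588008) (nat_lit 0) (nat_lit 17824751466) (nat_lit 1900) (nat_lit 19821898966) (nat_lit 489) (nat_lit 5) (nat_lit 488) (nat_lit 5) (nat_lit 513) (nat_lit 5) (nat_lit 656) (nat_lit 641) (nat_lit 263)) (XT.lf (nat_lit 0) (nat_lit 35083087421) (nat_lit 1824) (nat_lit 10581765590) (nat_lit 1900) (nat_lit 6802934817) (nat_lit 489) (nat_lit 5) (nat_lit 513) (nat_lit 5) (nat_lit 514) (nat_lit 5) (nat_lit 657) (nat_lit 641) (nat_lit 262)))))) (XT.nd (nat_lit 624) (nat_lit 3648) (nat_lit 0) (XT.nd (nat_lit 312) (nat_lit 1748) (nat_lit 0) (XT.nd (nat_lit 156) (nat_lit 0) (nat_lit 76) (XT.nd (nat_lit 78) (nat_lit 0) (nat_lit 76) (XT.lf (nat_lit 76) (nat_lit 17130553486) (nat_lit 0) (nat_lit 21221510220) (nat_lit 1900) (nat_lit 14665572249) (nat_lit 490) (nat_lit 5) (nat_lit 489) (nat_lit 5) (nat_lit 514) (nat_lit 5) (nat_lit 658) (nat_lit 641)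 (nat_lit 261)) (XT.lf (nat_lit 0) (nat_lit 41781347773) (nat_lit 1824) (nat_lit 8061565646) (nat_lit 1900) (nat_lit 3733669080) (nat_lit 490) (nat_lit 5) (nat_lit 514) (nat_lit 5) (nat_lit 515) (nat_lit 5) (nat_lit 659) (nat_lit 641) (nat_lit 260))) (XT.nd (nat_lit 78) (nat_lit 0) (nat_lit 76) (XT.lf (nat_lit 76) (nat_lit 20447605771) (nat_lit 0) (nat_lit 25104280047) (nat_lit 1900) (nat_lit 8589368808) (nat_lit 491) (nat_lit 5) (nat_lit 490) (nat_lit 5) (nat_lit 515) (nat_lit 5) (nat_lit 660) (nat_lit 641) (nat_lit 259)) (XT.lf (nat_lit 0) (nat_lit 49452507769) (nat_lit 1824) (nat_lit 5081597691) (nat_lit 1900) (nat_lit 182021291) (nat_lit 491) (nat_lit 5) (nat_lit 515) (nat_lit 5) (nat_lit 516) (nat_lit 5) (nat_lit 661) (nat_lit 641) (nat_lit 258)))) (XT.nd (nat_lit 156) (nat_lit 0) (nat_lit 76) (XT.nd (nat_lit 78) (nat_lit 1900) (nat_lit 0) (XT.lf (nat_lit 76) (nat_lit 24254046906) (nat_lit 0) (nat_lit 29500213459) (nat_lit 1900) (nat_lit 1541773609)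 (nat_lit 492) (nat_lit 5) (nat_lit 491) (nat_lit 5) (nat_lit 516) (nat_lit 5) (nat_lit 662) (nat_lit 641) (nat_lit 257)) (XT.lf (nat_lit 0) (nat_lit 2258662528) (nat_lit 1900) (nat_lit 1656929224) (nat_lit 1976) (nat_lit 51970980407) (nat_lit 466) (nat_lit 5) (nat_lit 491) (nat_lit 5) (nat_lit 492) (nat_lit 5) (nat_lit 663) (nat_lit 641) (nat_lit 256))) (XT.nd (nat_lit 78) (nat_lit 0) (nat_lit 0) (XT.lf (nat_lit 0) (nat_lit 6445421789) (nat_lit 1900) (nat_lit 27949023593) (nat_lit 1976) (nat_lit 22087652748) (nat_lit 467) (nat_lit 5) (nat_lit 492) (nat_lit 5) (nat_lit 493) (nat_lit 5) (nat_lit 664) (nat_lit 641) (nat_lit 255)) (XT.lf (nat_lit 76) (nat_lit 2263209408) (nat_lit 0) (nat_lit 8503941752) (nat_lit 1976) (nat_lit 46321358776) (nat_lit 468) (nat_lit 5) (nat_lit 467) (nat_lit 5) (nat_lit 493) (nat_lit 5) (nat_lit 665) (nat_lit 641) (nat_lit 254))))) (XT.nd (nat_lit 312) (nat_lit 1748) (nat_lit 0) (XT.nd (nat_lit 156) (nat_lit 912) (nat_lit 0) (XT.nd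 (nat_lit 78) (nat_lit 1140) (nat_lit 0) (XT.lf (nat_lit 0) (nat_lit 15479782783) (nat_lit 1900) (nat_lit 24362747941) (nat_lit 76) (nat_lit 17858429917) (nat_lit 468) (nat_lit 5) (nat_lit 493) (nat_lit 5) (nat_lit 469) (nat_lit 5) (nat_lit 666) (nat_lit 641) (nat_lit 253)) (XT.lf (nat_lit 0) (nat_lit 6740649576) (nat_lit 1140) (nat_lit 13645536859) (nat_lit 1216) (nat_lit 37937483554) (nat_lit 453) (nat_lit 5) (nat_lit 468) (nat_lit 5) (nat_lit 469) (nat_lit 5) (nat_lit 667) (nat_lit 641) (nat_lit 252))) (XT.nd (nat_lit 78) (nat_lit 912) (nat_lit 0) (XT.lf (nat_lit 0) (nat_lit 25639627276) (nat_lit 1216) (nat_lit 20245683874) (nat_lit 76) (nat_lit 13068544208) (nat_lit 453) (nat_lit 5) (nat_lit 469) (nat_lit 5) (nat_lit 454) (nat_lit 5) (nat_lit 668) (nat_lit 641) (nat_lit 251)) (XT.lf (nat_lit 0) (nat_lit 11782063575) (nat_lit 912) (nat_lit 19382394405) (nat_lit 988) (nat_lit 28428860048) (nat_lit 441) (nat_lit 5) (nat_lit 453) (nat_lit 5) (nat_lit 454)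 (nat_lit 5) (nat_lit 669) (nat_lit 641) (nat_lit 250)))) (XT.nd (nat_lit 156) (nat_lit 836) (nat_lit 0) (XT.nd (nat_lit 78) (nat_lit 912) (nat_lit 0) (XT.lf (nat_lit 0) (nat_lit 36985680948) (nat_lit 988) (nat_lit 15569123317) (nat_lit 76) (nat_lit 7687047789) (nat_lit 441) (nat_lit 5) (nat_lit 454) (nat_lit 5) (nat_lit 442) (nat_lit 5) (nat_lit 670) (nat_lit 641) (nat_lit 249)) (XT.lf (nat_lit 0) (nat_lit 17417433058) (nat_lit 912) (nat_lit 25746815661) (nat_lit 988) (nat_lit 17734289649) (nat_lit 429) (nat_lit 5) (nat_lit 441) (nat_lit 5) (nat_lit 442) (nat_lit 5) (nat_lit 671) (nat_lit 641) (nat_lit 248))) (XT.nd (nat_lit 78) (nat_lit 836) (nat_lit 0) (XT.lf (nat_lit 0) (nat_lit 49581409638) (nat_lit 988) (nat_lit 10303064873) (nat_lit 76) (nat_lit 1681583477) (nat_lit 429) (nat_lit 5) (nat_lit 442) (nat_lit 5) (nat_lit 430) (nat_lit 5) (nat_lit 672) (nat_lit 641) (nat_lit 247)) (XT.lf (nat_lit 0) (nat_lit 23678082436) (nat_lit 836) (nat_lit 32772565962)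 (nat_lit 912) (nat_lit 5789804924) (nat_lit 418) (nat_lit 5) (nat_lit 429) (nat_lit 5) (nat_lit 430) (nat_lit 5) (nat_lit 673) (nat_lit 641) (nat_lit 246))))))) (XT.nd (nat_lit 79638) (nat_lit 0) (nat_lit 4484) (XT.nd (nat_lit 79014) (nat_lit 0) (nat_lit 6764) (XT.nd (nat_lit 78702) (nat_lit 0) (nat_lit 6612) (XT.nd (nat_lit 78) (nat_lit 1748) (nat_lit 0) (XT.lf (nat_lit 0) (nat_lit 591090725) (nat_lit 912) (nat_lit 4452823452) (nat_lit 76) (nat_lit 57882971865) (nat_lit 417) (nat_lit 5) (nat_lit 429) (nat_lit 5) (nat_lit 418) (nat_lit 5) (nat_lit 674) (nat_lit 641) (nat_lit 245)) (XT.nd (nat_lit 78) (nat_lit 836) (nat_lit 0) (XT.lf (nat_lit 0) (nat_lit 7373458618) (nat_lit 988) (nat_lit 33072000098) (nat_lit 76) (nat_lit 23173795706) (nat_lit 405) (nat_lit 5) (nat_lit 418) (nat_lit 5) (nat_lit 406) (nat_lit 5) (nat_lit 675) (nat_lit 641) (nat_lit 244)) (XT.lf (nat_lit 0) (nat_lit 1974628529) (nat_lit 836) (nat_lit 12392660138) (nat_lit 912) (nat_lit 49956665220)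 (nat_lit 394) (nat_lit 5) (nat_lit 405) (nat_lit 5) (nat_lit 406) (nat_lit 5) (nat_lit 676) (nat_lit 641) (nat_lit 243)))) (XT.nd (nat_lit 156) (nat_lit 0) (nat_lit 76) (XT.nd (nat_lit 78) (nat_lit 0) (nat_lit 0) (XT.lf (nat_lit 0) (nat_lit 5556870763) (nat_lit 1900) (nat_lit 8594093255) (nat_lit 1900) (nat_lit 8594093255) (nat_lit 481) (nat_lit 3) (nat_lit 506) (nat_lit 3) (nat_lit 506) (nat_lit 5) (nat_lit 642) (nat_lit 642) (nat_lit 276)) (XT.lf (nat_lit 76) (nat_lit 5537975162) (nat_lit 0) (nat_lit 5754724499) (nat_lit 1900) (nat_lit 34650958653) (nat_lit 482) (nat_lit 5) (nat_lit 481) (nat_lit 3) (nat_lit 506) (nat_lit 5) (nat_lit 643) (nat_lit 642) (nat_lit 275))) (XT.nd (nat_lit 78) (nat_lit 0) (nat_lit 0) (XT.lf (nat_lit 0) (nat_lit 11702462348) (nat_lit 1824) (nat_lit 17565486637) (nat_lit 1900) (nat_lit 17133779488) (nat_lit 482) (nat_lit 5) (nat_lit 506) (nat_lit 5) (nat_lit 507) (nat_lit 5) (nat_lit 644) (nat_lit 642) (nat_lit 274)) (XT.lf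 (nat_lit 76) (nat_lit 5768616966) (nat_lit 0) (nat_lit 6426548178) (nat_lit 1900) (nat_lit 34672300019) (nat_lit 483) (nat_lit 5) (nat_lit 482) (nat_lit 5) (nat_lit 507) (nat_lit 5) (nat_lit 645) (nat_lit 642) (nat_lit 273))))) (XT.nd (nat_lit 312) (nat_lit 0) (nat_lit 152) (XT.nd (nat_lit 156) (nat_lit 0) (nat_lit 76) (XT.nd (nat_lit 78) (nat_lit 0) (nat_lit 0) (XT.lf (nat_lit 0) (nat_lit 12925114427) (nat_lit 1824) (nat_lit 17643432594) (nat_lit 1900) (nat_lit 16769421742) (nat_lit 483) (nat_lit 5) (nat_lit 507) (nat_lit 5) (nat_lit 508) (nat_lit 5) (nat_lit 646) (nat_lit 642) (nat_lit 272)) (XT.lf (nat_lit 76) (nat_lit 6320983058) (nat_lit 0) (nat_lit 7431491345) (nat_lit 1900) (nat_lit 34063751822) (nat_lit 484) (nat_lit 5) (nat_lit 483) (nat_lit 5) (nat_lit 508) (nat_lit 5) (nat_lit 647) (nat_lit 642) (nat_lit 271))) (XT.nd (nat_lit 78) (nat_lit 0) (nat_lit 0) (XT.lf (nat_lit 0) (nat_lit 14819764215) (nat_lit 1824) (nat_lit 17404055845) (nat_lit 1900)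 (nat_lit 16075761147) (nat_lit 484) (nat_lit 5) (nat_lit 508) (nat_lit 5) (nat_lit 509) (nat_lit 5) (nat_lit 648) (nat_lit 642) (nat_lit 270)) (XT.lf (nat_lit 76) (nat_lit 7213896808) (nat_lit 0) (nat_lit 8789797228) (nat_lit 1900) (nat_lit 32787003390) (nat_lit 485) (nat_lit 5) (nat_lit 484) (nat_lit 5) (nat_lit 509) (nat_lit 5) (nat_lit 649) (nat_lit 642) (nat_lit 269)))) (XT.nd (nat_lit 156) (nat_lit 0) (nat_lit 76) (XT.nd (nat_lit 78) (nat_lit 0) (nat_lit 0) (XT.lf (nat_lit 0) (nat_lit 17426244773) (nat_lit 1824) (nat_lit 16828540215) (nat_lit 1900) (nat_lit 15032552159) (nat_lit 485) (nat_lit 5) (nat_lit 509) (nat_lit 5) (nat_lit 510) (nat_lit 5) (nat_lit 650) (nat_lit 642) (nat_lit 268)) (XT.lf (nat_lit 76) (nat_lit 8467062386) (nat_lit 0) (nat_lit 10522638583) (nat_lit 1900) (nat_lit 30801959625) (nat_lit 486) (nat_lit 5) (nat_lit 485) (nat_lit 5) (nat_lit 510) (nat_lit 5) (nat_lit 651) (nat_lit 642) (nat_lit 267))) (XT.nd (nat_lit 78) (nat_lit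 0) (nat_lit 0) (XT.lf (nat_lit 0) (nat_lit 20786232241) (nat_lit 1824) (nat_lit 15897186616) (nat_lit 1900) (nat_lit 13618615558) (nat_lit 486) (nat_lit 5) (nat_lit 510) (nat_lit 5) (nat_lit 511) (nat_lit 5) (nat_lit 652) (nat_lit 642) (nat_lit 266)) (XT.lf (nat_lit 76) (nat_lit 10101101338) (nat_lit 0) (nat_lit 12652159388) (nat_lit 1900) (nat_lit 28066663674) (nat_lit 487) (nat_lit 5) (nat_lit 486) (nat_lit 5) (nat_lit 511) (nat_lit 5) (nat_lit 653) (nat_lit 642) (nat_lit 265)))))) (XT.nd (nat_lit 624) (nat_lit 2584) (nat_lit 0) (XT.nd (nat_lit 312) (nat_lit 0) (nat_lit 152) (XT.nd (nat_lit 156) (nat_lit 0) (nat_lit 76) (XT.nd (nat_lit 78) (nat_lit 0) (nat_lit 0) (XT.lf (nat_lit 0) (nat_lit 24943325441) (nat_lit 1824) (nat_lit 14589376300) (nat_lit 1900) (nat_lit 11811796550) (nat_lit 487) (nat_lit 5) (nat_lit 511) (nat_lit 5) (nat_lit 512) (nat_lit 5) (nat_lit 654) (nat_lit 642) (nat_lit 264)) (XT.lf (nat_lit 76) (nat_lit 12137590669) (nat_lit 0) (nat_lit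 15201518233) (nat_lit 1900) (nat_lit 24537216431) (nat_lit 488) (nat_lit 5) (nat_lit 487) (nat_lit 5) (nat_lit 512) (nat_lit 5) (nat_lit 655) (nat_lit 642) (nat_lit 263))) (XT.nd (nat_lit 78) (nat_lit 0) (nat_lit 0) (XT.lf (nat_lit 0) (nat_lit 29943128729) (nat_lit 1824) (nat_lit 12883532625) (nat_lit 1900) (nat_lit 9588921168) (nat_lit 488) (nat_lit 5) (nat_lit 512) (nat_lit 5) (nat_lit 513) (nat_lit 5) (nat_lit 656) (nat_lit 642) (nat_lit 262)) (XT.lf (nat_lit 76) (nat_lit 14599102490) (nat_lit 0) (nat_lit 18194933486) (nat_lit 1900) (nat_lit 20167692758) (nat_lit 489) (nat_lit 5) (nat_lit 488) (nat_lit 5) (nat_lit 513) (nat_lit 5) (nat_lit 657) (nat_lit 642) (nat_lit 261)))) (XT.nd (nat_lit 156) (nat_lit 0) (nat_lit 76) (XT.nd (nat_lit 78) (nat_lit 0) (nat_lit 0) (XT.lf (nat_lit 0) (nat_lit 35833338235) (nat_lit 1824) (nat_lit 10757081233) (nat_lit 1900) (nat_lit 6925750883) (nat_lit 489) (nat_lit 5) (nat_lit 513) (nat_lit 5) (nat_lit 514) (nat_lit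 5) (nat_lit 658) (nat_lit 642) (nat_lit 260)) (XT.lf (nat_lit 76) (nat_lit 17509245279) (nat_lit 0) (nat_lit 21657730299) (nat_lit 1900) (nat_lit 14910054260) (nat_lit 490) (nat_lit 5) (nat_lit 489) (nat_lit 5) (nat_lit 514) (nat_lit 5) (nat_lit 659) (nat_lit 642) (nat_lit 259))) (XT.nd (nat_lit 78) (nat_lit 0) (nat_lit 0) (XT.lf (nat_lit 0) (nat_lit 42663831641) (nat_lit 1824) (nat_lit 8186408619) (nat_lit 1900) (nat_lit 3796935355) (nat_lit 490) (nat_lit 5) (nat_lit 514) (nat_lit 5) (nat_lit 515) (nat_lit 5) (nat_lit 660) (nat_lit 642) (nat_lit 258)) (XT.lf (nat_lit 76) (nat_lit 20892706830) (nat_lit 0) (nat_lit 25616389557) (nat_lit 1900) (nat_lit 8714058506) (nat_lit 491) (nat_lit 5) (nat_lit 490) (nat_lit 5) (nat_lit 515) (nat_lit 5) (nat_lit 661) (nat_lit 642) (nat_lit 257))))) (XT.nd (nat_lit 312) (nat_lit 988) (nat_lit 0) (XT.nd (nat_lit 156) (nat_lit 1900) (nat_lit 0) (XT.nd (nat_lit 78) (nat_lit 0) (nat_lit 0) (XT.lf (nat_lit 0) (nat_lit 50486761622)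 (nat_lit 1824) (nat_lit 5146819007) (nat_lit 1900) (nat_lit 175963243) (nat_lit 491) (nat_lit 5) (nat_lit 515) (nat_lit 5) (nat_lit 516) (nat_lit 5) (nat_lit 662) (nat_lit 642) (nat_lit 256)) (XT.lf (nat_lit 76) (nat_lit 24775298939) (nat_lit 0) (nat_lit 30098598831) (nat_lit 1900) (nat_lit 1527164525) (nat_lit 492) (nat_lit 5) (nat_lit 491) (nat_lit 5) (nat_lit 516) (nat_lit 5) (nat_lit 663) (nat_lit 642) (nat_lit 255))) (XT.nd (nat_lit 78) (nat_lit 0) (nat_lit 76) (XT.lf (nat_lit 0) (nat_lit 2347804938) (nat_lit 1900) (nat_lit 1654020361) (nat_lit 1976) (nat_lit 53001597657) (nat_lit 466) (nat_lit 5) (nat_lit 491) (nat_lit 5) (nat_lit 492) (nat_lit 5) (nat_lit 664) (nat_lit 642) (nat_lit 254)) (XT.lf (nat_lit 0) (nat_lit 6617620863) (nat_lit 1900) (nat_lit 28471276856) (nat_lit 1976) (nat_lit 22521975321) (nat_lit 467) (nat_lit 5) (nat_lit 492) (nat_lit 5) (nat_lit 493) (nat_lit 5) (nat_lit 665) (nat_lit 642) (nat_lit 253)))) (XT.nd (nat_lit 156) (nat_lit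 1064) (nat_lit 0) (XT.nd (nat_lit 78) (nat_lit 0) (nat_lit 76) (XT.lf (nat_lit 76) (nat_lit 2344959179) (nat_lit 0) (nat_lit 8680213695) (nat_lit 1976) (nat_lit 47204252472) (nat_lit 468) (nat_lit 5) (nat_lit 467) (nat_lit 5) (nat_lit 493) (nat_lit 5) (nat_lit 666) (nat_lit 642) (nat_lit 252)) (XT.lf (nat_lit 0) (nat_lit 15831180871) (nat_lit 1900) (nat_lit 24813355271) (nat_lit 76) (nat_lit 18209606472) (nat_lit 468) (nat_lit 5) (nat_lit 493) (nat_lit 5) (nat_lit 469) (nat_lit 5) (nat_lit 667) (nat_lit 642) (nat_lit 251))) (XT.nd (nat_lit 78) (nat_lit 0) (nat_lit 0) (XT.lf (nat_lit 0) (nat_lit 6911869093) (nat_lit 1140) (nat_lit 13923260223) (nat_lit 1216) (nat_lit 38654188522) (nat_lit 453) (nat_lit 5) (nat_lit 468) (nat_lit 5) (nat_lit 469) (nat_lit 5) (nat_lit 668) (nat_lit 642) (nat_lit 250)) (XT.lf (nat_lit 0) (nat_lit 26192800121) (nat_lit 1216) (nat_lit 20614064882) (nat_lit 76) (nat_lit 13325258712) (nat_lit 453) (nat_lit 5) (nat_lit 469) (nat_lit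 5) (nat_lit 454) (nat_lit 5) (nat_lit 669) (nat_lit 642) (nat_lit 249))))))))
noncomputable def xc250 : XT := (XT.nd (nat_lit 80964) (nat_lit 0) (nat_lit 988) (XT.nd (nat_lit 79716) (nat_lit 0) (nat_lit 4636) (XT.nd (nat_lit 79092) (nat_lit 0) (nat_lit 5776) (XT.nd (nat_lit 234) (nat_lit 1824) (nat_lit 0) (XT.nd (nat_lit 78) (nat_lit 912) (nat_lit 0) (XT.lf (nat_lit 0) (nat_lit 12053997170) (nat_lit 912) (nat_lit 19773574133) (nat_lit 988) (nat_lit 28956815481) (nat_lit 441) (nat_lit 5) (nat_lit 453) (nat_lit 5) (nat_lit 454) (nat_lit 5) (nat_lit 670) (nat_lit 642) (nat_lit 248)) (XT.nd (nat_lit 78) (nat_lit 912) (nat_lit 0) (XT.lf (nat_lit 0) (nat_lit 37764415382) (nat_lit 988) (nat_lit 15844120627) (nat_lit 76) (nat_lit 7837371570) (nat_lit 441) (nat_lit 5) (nat_lit 454) (nat_lit 5) (nat_lit 442) (nat_lit 5) (nat_lit 671) (nat_lit 642) (nat_lit 247)) (XT.lf (nat_lit 0) (nat_lit 17801927500) (nat_lit 912) (nat_lit 26264096577) (nat_lit 988) (nat_lit 18049714172)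 (nat_lit 429) (nat_lit 5) (nat_lit 441) (nat_lit 5) (nat_lit 442) (nat_lit 5) (nat_lit 672) (nat_lit 642) (nat_lit 246)))) (XT.nd (nat_lit 156) (nat_lit 988) (nat_lit 0) (XT.nd (nat_lit 78) (nat_lit 836) (nat_lit 0) (XT.lf (nat_lit 0) (nat_lit 50610758577) (nat_lit 988) (nat_lit 10472918435) (nat_lit 76) (nat_lit 1712946664) (nat_lit 429) (nat_lit 5) (nat_lit 442) (nat_lit 5) (nat_lit 430) (nat_lit 5) (nat_lit 673) (nat_lit 642) (nat_lit 245)) (XT.lf (nat_lit 0) (nat_lit 24187613611) (nat_lit 836) (nat_lit 33429262415) (nat_lit 912) (nat_lit 5867641031) (nat_lit 418) (nat_lit 5) (nat_lit 429) (nat_lit 5) (nat_lit 430) (nat_lit 5) (nat_lit 674) (nat_lit 642) (nat_lit 244))) (XT.nd (nat_lit 78) (nat_lit 912) (nat_lit 0) (XT.lf (nat_lit 0) (nat_lit 639640128) (nat_lit 912) (nat_lit 4506126591) (nat_lit 76) (nat_lit 59038921495) (nat_lit 417) (nat_lit 5) (nat_lit 429) (nat_lit 5) (nat_lit 418) (nat_lit 5) (nat_lit 675) (nat_lit 642) (nat_lit 243)) (XT.lf (nat_lit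 0) (nat_lit 7557161163) (nat_lit 988) (nat_lit 33697191578) (nat_lit 76) (nat_lit 23636561126) (nat_lit 405) (nat_lit 5) (nat_lit 418) (nat_lit 5) (nat_lit 406) (nat_lit 5) (nat_lit 676) (nat_lit 642) (nat_lit 242))))) (XT.nd (nat_lit 312) (nat_lit 0) (nat_lit 152) (XT.nd (nat_lit 156) (nat_lit 0) (nat_lit 76) (XT.nd (nat_lit 78) (nat_lit 0) (nat_lit 0) (XT.lf (nat_lit 0) (nat_lit 5699665804) (nat_lit 1900) (nat_lit 8749829252) (nat_lit 1900) (nat_lit 8749829252) (nat_lit 481) (nat_lit 3) (nat_lit 506) (nat_lit 3) (nat_lit 506) (nat_lit 5) (nat_lit 643) (nat_lit 643) (nat_lit 274)) (XT.lf (nat_lit 76) (nat_lit 5680813956) (nat_lit 0) (nat_lit 5900021755) (nat_lit 1900) (nat_lit 35280448249) (nat_lit 482) (nat_lit 5) (nat_lit 481) (nat_lit 3) (nat_lit 506) (nat_lit 5) (nat_lit 644) (nat_lit 643) (nat_lit 273))) (XT.nd (nat_lit 78) (nat_lit 0) (nat_lit 0) (XT.lf (nat_lit 0) (nat_lit 11997380184) (nat_lit 1824) (nat_lit 17883930774) (nat_lit 1900) (nat_lit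 17447232871) (nat_lit 482) (nat_lit 5) (nat_lit 506) (nat_lit 5) (nat_lit 507) (nat_lit 5) (nat_lit 645) (nat_lit 643) (nat_lit 272)) (XT.lf (nat_lit 76) (nat_lit 5916638680) (nat_lit 0) (nat_lit 6582316836) (nat_lit 1900) (nat_lit 35304659404) (nat_lit 483) (nat_lit 5) (nat_lit 482) (nat_lit 5) (nat_lit 507) (nat_lit 5) (nat_lit 646) (nat_lit 643) (nat_lit 271)))) (XT.nd (nat_lit 156) (nat_lit 0) (nat_lit 76) (XT.nd (nat_lit 78) (nat_lit 0) (nat_lit 0) (XT.lf (nat_lit 0) (nat_lit 13242156151) (nat_lit 1824) (nat_lit 17962942651) (nat_lit 1900) (nat_lit 17078456778) (nat_lit 483) (nat_lit 5) (nat_lit 507) (nat_lit 5) (nat_lit 508) (nat_lit 5) (nat_lit 647) (nat_lit 643) (nat_lit 270)) (XT.lf (nat_lit 76) (nat_lit 6480541850) (nat_lit 0) (nat_lit 7604588806) (nat_lit 1900) (nat_lit 34686266224) (nat_lit 484) (nat_lit 5) (nat_lit 483) (nat_lit 5) (nat_lit 508) (nat_lit 5) (nat_lit 648) (nat_lit 643) (nat_lit 269))) (XT.nd (nat_lit 78) (nat_lit 0) (nat_lit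 0) (XT.lf (nat_lit 0) (nat_lit 15172480974) (nat_lit 1824) (nat_lit 17718360627) (nat_lit 1900) (nat_lit 16373603099) (nat_lit 484) (nat_lit 5) (nat_lit 508) (nat_lit 5) (nat_lit 509) (nat_lit 5) (nat_lit 649) (nat_lit 643) (nat_lit 268)) (XT.lf (nat_lit 76) (nat_lit 7391728866) (nat_lit 0) (nat_lit 8987474039) (nat_lit 1900) (nat_lit 33386198103) (nat_lit 485) (nat_lit 5) (nat_lit 484) (nat_lit 5) (nat_lit 509) (nat_lit 5) (nat_lit 650) (nat_lit 643) (nat_lit 267)))))) (XT.nd (nat_lit 624) (nat_lit 1444) (nat_lit 0) (XT.nd (nat_lit 312) (nat_lit 0) (nat_lit 152) (XT.nd (nat_lit 156) (nat_lit 0) (nat_lit 76) (XT.nd (nat_lit 78) (nat_lit 0) (nat_lit 0) (XT.lf (nat_lit 0) (nat_lit 17828978415) (nat_lit 1824) (nat_lit 17130986947) (nat_lit 1900) (nat_lit 15312032718) (nat_lit 485) (nat_lit 5) (nat_lit 509) (nat_lit 5) (nat_lit 510) (nat_lit 5) (nat_lit 651) (nat_lit 643) (nat_lit 266)) (XT.lf (nat_lit 76) (nat_lit 8670303206) (nat_lit 0) (nat_lit 10752557712)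 (nat_lit 1900) (nat_lit 31363563967) (nat_lit 486) (nat_lit 5) (nat_lit 485) (nat_lit 5) (nat_lit 510) (nat_lit 5) (nat_lit 652) (nat_lit 643) (nat_lit 265))) (XT.nd (nat_lit 78) (nat_lit 0) (nat_lit 0) (XT.lf (nat_lit 0) (nat_lit 21254152514) (nat_lit 1824) (nat_lit 16180723600) (nat_lit 1900) (nat_lit 13872153504) (nat_lit 486) (nat_lit 5) (nat_lit 510) (nat_lit 5) (nat_lit 511) (nat_lit 5) (nat_lit 653) (nat_lit 643) (nat_lit 264)) (XT.lf (nat_lit 76) (nat_lit 10337303752) (nat_lit 0) (nat_lit 12922416294) (nat_lit 1900) (nat_lit 28575573418) (nat_lit 487) (nat_lit 5) (nat_lit 486) (nat_lit 5) (nat_lit 511) (nat_lit 5) (nat_lit 654) (nat_lit 643) (nat_lit 263)))) (XT.nd (nat_lit 156) (nat_lit 0) (nat_lit 76) (XT.nd (nat_lit 78) (nat_lit 0) (nat_lit 0) (XT.lf (nat_lit 0) (nat_lit 25492468757) (nat_lit 1824) (nat_lit 14846534832) (nat_lit 1900) (nat_lit 12031377621) (nat_lit 487) (nat_lit 5) (nat_lit 511) (nat_lit 5) (nat_lit 512) (nat_lit 5) (nat_lit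 655) (nat_lit 643) (nat_lit 262)) (XT.lf (nat_lit 76) (nat_lit 12414743654) (nat_lit 0) (nat_lit 15520661769) (nat_lit 1900) (nat_lit 24977454649) (nat_lit 488) (nat_lit 5) (nat_lit 487) (nat_lit 5) (nat_lit 512) (nat_lit 5) (nat_lit 656) (nat_lit 643) (nat_lit 261))) (XT.nd (nat_lit 78) (nat_lit 0) (nat_lit 0) (XT.lf (nat_lit 0) (nat_lit 30590438575) (nat_lit 1824) (nat_lit 13106408116) (nat_lit 1900) (nat_lit 9766077083) (nat_lit 488) (nat_lit 5) (nat_lit 512) (nat_lit 5) (nat_lit 513) (nat_lit 5) (nat_lit 657) (nat_lit 643) (nat_lit 260)) (XT.lf (nat_lit 76) (nat_lit 14925650785) (nat_lit 0) (nat_lit 18571987663) (nat_lit 1900) (nat_lit 20522369001) (nat_lit 489) (nat_lit 5) (nat_lit 488) (nat_lit 5) (nat_lit 513) (nat_lit 5) (nat_lit 658) (nat_lit 643) (nat_lit 259))))) (XT.nd (nat_lit 312) (nat_lit 1748) (nat_lit 0) (XT.nd (nat_lit 156) (nat_lit 0) (nat_lit 76) (XT.nd (nat_lit 78) (nat_lit 0) (nat_lit 0) (XT.lf (nat_lit 0) (nat_lit 36596707292) (nat_lit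 1824) (nat_lit 10937313525) (nat_lit 1900) (nat_lit 7051537499) (nat_lit 489) (nat_lit 5) (nat_lit 513) (nat_lit 5) (nat_lit 514) (nat_lit 5) (nat_lit 659) (nat_lit 643) (nat_lit 258)) (XT.lf (nat_lit 76) (nat_lit 17894109850) (nat_lit 0) (nat_lit 22102216964) (nat_lit 1900) (nat_lit 15161322018) (nat_lit 490) (nat_lit 5) (nat_lit 489) (nat_lit 5) (nat_lit 514) (nat_lit 5) (nat_lit 660) (nat_lit 643) (nat_lit 257))) (XT.nd (nat_lit 78) (nat_lit 0) (nat_lit 0) (XT.lf (nat_lit 0) (nat_lit 43562145675) (nat_lit 1824) (nat_lit 8315161454) (nat_lit 1900) (nat_lit 3861909908) (nat_lit 490) (nat_lit 5) (nat_lit 514) (nat_lit 5) (nat_lit 515) (nat_lit 5) (nat_lit 661) (nat_lit 643) (nat_lit 256)) (XT.lf (nat_lit 76) (nat_lit 21345306203) (nat_lit 0) (nat_lit 26138352017) (nat_lit 1900) (nat_lit 8843070859) (nat_lit 491) (nat_lit 5) (nat_lit 490) (nat_lit 5) (nat_lit 515) (nat_lit 5) (nat_lit 662) (nat_lit 643) (nat_lit 255)))) (XT.nd (nat_lit 156) (nat_lit 1900)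 (nat_lit 0) (XT.nd (nat_lit 78) (nat_lit 0) (nat_lit 0) (XT.lf (nat_lit 0) (nat_lit 51539945236) (nat_lit 1824) (nat_lit 5214758619) (nat_lit 1900) (nat_lit 170160637) (nat_lit 491) (nat_lit 5) (nat_lit 515) (nat_lit 5) (nat_lit 516) (nat_lit 5) (nat_lit 663) (nat_lit 643) (nat_lit 254)) (XT.lf (nat_lit 76) (nat_lit 25305571444) (nat_lit 0) (nat_lit 30708626461) (nat_lit 1900) (nat_lit 1514027927) (nat_lit 492) (nat_lit 5) (nat_lit 491) (nat_lit 5) (nat_lit 516) (nat_lit 5) (nat_lit 664) (nat_lit 643) (nat_lit 253))) (XT.nd (nat_lit 78) (nat_lit 0) (nat_lit 76) (XT.lf (nat_lit 0) (nat_lit 2437022819) (nat_lit 1900) (nat_lit 1652453086) (nat_lit 1976) (nat_lit 54053169059) (nat_lit 466) (nat_lit 5) (nat_lit 491) (nat_lit 5) (nat_lit 492) (nat_lit 5) (nat_lit 665) (nat_lit 643) (nat_lit 252)) (XT.lf (nat_lit 0) (nat_lit 6791582890) (nat_lit 1900) (nat_lit 29005401347) (nat_lit 1976) (nat_lit 22965272880) (nat_lit 467) (nat_lit 5) (nat_lit 492) (nat_lit 5)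 (nat_lit 493) (nat_lit 5) (nat_lit 666) (nat_lit 643) (nat_lit 251))))))) (XT.nd (nat_lit 79872) (nat_lit 0) (nat_lit 5016) (XT.nd (nat_lit 546) (nat_lit 836) (nat_lit 0) (XT.nd (nat_lit 234) (nat_lit 1824) (nat_lit 0) (XT.nd (nat_lit 78) (nat_lit 1064) (nat_lit 0) (XT.lf (nat_lit 76) (nat_lit 2426927165) (nat_lit 0) (nat_lit 8859770591) (nat_lit 1976) (nat_lit 48106494500) (nat_lit 468) (nat_lit 5) (nat_lit 467) (nat_lit 5) (nat_lit 493) (nat_lit 5) (nat_lit 667) (nat_lit 643) (nat_lit 250)) (XT.nd (nat_lit 78) (nat_lit 1140) (nat_lit 0) (XT.lf (nat_lit 0) (nat_lit 16187983682) (nat_lit 1900) (nat_lit 25274397821) (nat_lit 76) (nat_lit 18568039236) (nat_lit 468) (nat_lit 5) (nat_lit 493) (nat_lit 5) (nat_lit 469) (nat_lit 5) (nat_lit 668) (nat_lit 643) (nat_lit 249)) (XT.lf (nat_lit 0) (nat_lit 7085099291) (nat_lit 1140) (nat_lit 14206351174) (nat_lit 1216) (nat_lit 39386860237) (nat_lit 453) (nat_lit 5) (nat_lit 468) (nat_lit 5) (nat_lit 469) (nat_lit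 5) (nat_lit 669) (nat_lit 643) (nat_lit 248)))) (XT.nd (nat_lit 156) (nat_lit 912) (nat_lit 0) (XT.nd (nat_lit 78) (nat_lit 912) (nat_lit 0) (XT.lf (nat_lit 0) (nat_lit 26755468406) (nat_lit 1216) (nat_lit 20991232118) (nat_lit 76) (nat_lit 13587288318) (nat_lit 453) (nat_lit 5) (nat_lit 469) (nat_lit 5) (nat_lit 454) (nat_lit 5) (nat_lit 670) (nat_lit 643) (nat_lit 247)) (XT.lf (nat_lit 0) (nat_lit 12329960161) (nat_lit 912) (nat_lit 20172440309) (nat_lit 988) (nat_lit 29496907415) (nat_lit 441) (nat_lit 5) (nat_lit 453) (nat_lit 5) (nat_lit 454) (nat_lit 5) (nat_lit 671) (nat_lit 643) (nat_lit 246))) (XT.nd (nat_lit 78) (nat_lit 912) (nat_lit 0) (XT.lf (nat_lit 0) (nat_lit 38557209279) (nat_lit 988) (nat_lit 16126030762) (nat_lit 76) (nat_lit 7990834519) (nat_lit 441) (nat_lit 5) (nat_lit 454) (nat_lit 5) (nat_lit 442) (nat_lit 5) (nat_lit 672) (nat_lit 643) (nat_lit 245)) (XT.lf (nat_lit 0) (nat_lit 18192708246) (nat_lit 912) (nat_lit 26791632067) (nat_lit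 988) (nat_lit 18372971749) (nat_lit 429) (nat_lit 5) (nat_lit 441) (nat_lit 5) (nat_lit 442) (nat_lit 5) (nat_lit 673) (nat_lit 643) (nat_lit 244))))) (XT.nd (nat_lit 79014) (nat_lit 0) (nat_lit 4864) (XT.nd (nat_lit 78858) (nat_lit 0) (nat_lit 4788) (XT.nd (nat_lit 78) (nat_lit 836) (nat_lit 0) (XT.lf (nat_lit 0) (nat_lit 51659229751) (nat_lit 988) (nat_lit 10647575058) (nat_lit 76) (nat_lit 1745025202) (nat_lit 429) (nat_lit 5) (nat_lit 442) (nat_lit 5) (nat_lit 430) (nat_lit 5) (nat_lit 674) (nat_lit 643) (nat_lit 243)) (XT.lf (nat_lit 0) (nat_lit 24705938670) (nat_lit 836) (nat_lit 34099044448) (nat_lit 912) (nat_lit 5948507892) (nat_lit 418) (nat_lit 5) (nat_lit 429) (nat_lit 5) (nat_lit 430) (nat_lit 5) (nat_lit 675) (nat_lit 643) (nat_lit 242))) (XT.nd (nat_lit 78) (nat_lit 0) (nat_lit 0) (XT.lf (nat_lit 0) (nat_lit 5844087442) (nat_lit 1900) (nat_lit 8909306932) (nat_lit 1900) (nat_lit 8909306932) (nat_lit 481) (nat_lit 3) (nat_lit 506) (nat_lit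 3) (nat_lit 506) (nat_lit 5) (nat_lit 644) (nat_lit 644) (nat_lit 272)) (XT.lf (nat_lit 76) (nat_lit 5825263848) (nat_lit 0) (nat_lit 6047052145) (nat_lit 1900) (nat_lit 35924994569) (nat_lit 482) (nat_lit 5) (nat_lit 481) (nat_lit 3) (nat_lit 506) (nat_lit 5) (nat_lit 645) (nat_lit 644) (nat_lit 271)))) (XT.nd (nat_lit 156) (nat_lit 0) (nat_lit 76) (XT.nd (nat_lit 78) (nat_lit 0) (nat_lit 0) (XT.lf (nat_lit 0) (nat_lit 12295832775) (nat_lit 1824) (nat_lit 18210020006) (nat_lit 1900) (nat_lit 17768090055) (nat_lit 482) (nat_lit 5) (nat_lit 506) (nat_lit 5) (nat_lit 507) (nat_lit 5) (nat_lit 646) (nat_lit 644) (nat_lit 270)) (XT.lf (nat_lit 76) (nat_lit 6066353013) (nat_lit 0) (nat_lit 6740143194) (nat_lit 1900) (nat_lit 35952038044) (nat_lit 483) (nat_lit 5) (nat_lit 482) (nat_lit 5) (nat_lit 507) (nat_lit 5) (nat_lit 647) (nat_lit 644) (nat_lit 269))) (XT.nd (nat_lit 78) (nat_lit 0) (nat_lit 0) (XT.lf (nat_lit 0) (nat_lit 13563265551) (nat_lit 1824) (nat_lit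 18290138265) (nat_lit 1900) (nat_lit 17394695849) (nat_lit 483) (nat_lit 5) (nat_lit 507) (nat_lit 5) (nat_lit 508) (nat_lit 5) (nat_lit 648) (nat_lit 644) (nat_lit 268)) (XT.lf (nat_lit 76) (nat_lit 6642004984) (nat_lit 0) (nat_lit 7780198107) (nat_lit 1900) (nat_lit 35323512661) (nat_lit 484) (nat_lit 5) (nat_lit 483) (nat_lit 5) (nat_lit 508) (nat_lit 5) (nat_lit 649) (nat_lit 644) (nat_lit 267)))))) (XT.nd (nat_lit 624) (nat_lit 0) (nat_lit 304) (XT.nd (nat_lit 312) (nat_lit 0) (nat_lit 152) (XT.nd (nat_lit 156) (nat_lit 0) (nat_lit 76) (XT.nd (nat_lit 78) (nat_lit 0) (nat_lit 0) (XT.lf (nat_lit 0) (nat_lit 15530065036) (nat_lit 1824) (nat_lit 18040263082) (nat_lit 1900) (nat_lit 16678321152) (nat_lit 484) (nat_lit 5) (nat_lit 508) (nat_lit 5) (nat_lit 509) (nat_lit 5) (nat_lit 650) (nat_lit 644) (nat_lit 266)) (XT.lf (nat_lit 76) (nat_lit 7571814617) (nat_lit 0) (nat_lit 9188254724) (nat_lit 1900) (nat_lit 33999572435) (nat_lit 485) (nat_lit 5) (nat_lit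 484) (nat_lit 5) (nat_lit 509) (nat_lit 5) (nat_lit 651) (nat_lit 644) (nat_lit 265))) (XT.nd (nat_lit 78) (nat_lit 0) (nat_lit 0) (XT.lf (nat_lit 0) (nat_lit 18237661739) (nat_lit 1824) (nat_lit 17440807692) (nat_lit 1900) (nat_lit 15597924963) (nat_lit 485) (nat_lit 5) (nat_lit 509) (nat_lit 5) (nat_lit 510) (nat_lit 5) (nat_lit 652) (nat_lit 644) (nat_lit 264)) (XT.lf (nat_lit 76) (nat_lit 8876292481) (nat_lit 0) (nat_lit 10986319320) (nat_lit 1900) (nat_lit 31938514167) (nat_lit 486) (nat_lit 5) (nat_lit 485) (nat_lit 5) (nat_lit 510) (nat_lit 5) (nat_lit 653) (nat_lit 644) (nat_lit 263)))) (XT.nd (nat_lit 156) (nat_lit 0) (nat_lit 76) (XT.nd (nat_lit 78) (nat_lit 0) (nat_lit 0) (XT.lf (nat_lit 0) (nat_lit 21729404372) (nat_lit 1824) (nat_lit 16471267380) (nat_lit 1900) (nat_lit 14131493571) (nat_lit 486) (nat_lit 5) (nat_lit 510) (nat_lit 5) (nat_lit 511) (nat_lit 5) (nat_lit 654) (nat_lit 644) (nat_lit 262)) (XT.lf (nat_lit 76) (nat_lit 10576902949)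 (nat_lit 0) (nat_lit 13197409909) (nat_lit 1900) (nat_lit 29096697027) (nat_lit 487) (nat_lit 5) (nat_lit 486) (nat_lit 5) (nat_lit 511) (nat_lit 5) (nat_lit 655) (nat_lit 644) (nat_lit 261))) (XT.nd (nat_lit 78) (nat_lit 0) (nat_lit 0) (XT.lf (nat_lit 0) (nat_lit 26050642630) (nat_lit 1824) (nat_lit 15110181221) (nat_lit 1900) (nat_lit 12255997042) (nat_lit 487) (nat_lit 5) (nat_lit 511) (nat_lit 5) (nat_lit 512) (nat_lit 5) (nat_lit 656) (nat_lit 644) (nat_lit 260)) (XT.lf (nat_lit 76) (nat_lit 12696103859) (nat_lit 0) (nat_lit 15845601312) (nat_lit 1900) (nat_lit 25428458846) (nat_lit 488) (nat_lit 5) (nat_lit 487) (nat_lit 5) (nat_lit 512) (nat_lit 5) (nat_lit 657) (nat_lit 644) (nat_lit 259))))) (XT.nd (nat_lit 312) (nat_lit 0) (nat_lit 152) (XT.nd (nat_lit 156) (nat_lit 0) (nat_lit 76) (XT.nd (nat_lit 78) (nat_lit 0) (nat_lit 0) (XT.lf (nat_lit 0) (nat_lit 31248813353) (nat_lit 1824) (nat_lit 13335092256) (nat_lit 1900) (nat_lit 9947343926) (nat_lit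 488) (nat_lit 5) (nat_lit 512) (nat_lit 5) (nat_lit 513) (nat_lit 5) (nat_lit 658) (nat_lit 644) (nat_lit 258)) (XT.lf (nat_lit 76) (nat_lit 15257387797) (nat_lit 0) (nat_lit 18956072079) (nat_lit 1900) (nat_lit 20886028981) (nat_lit 489) (nat_lit 5) (nat_lit 488) (nat_lit 5) (nat_lit 513) (nat_lit 5) (nat_lit 659) (nat_lit 644) (nat_lit 257))) (XT.nd (nat_lit 78) (nat_lit 0) (nat_lit 0) (XT.lf (nat_lit 0) (nat_lit 37373530224) (nat_lit 1824) (nat_lit 11122506036) (nat_lit 1900) (nat_lit 7180334105) (nat_lit 489) (nat_lit 5) (nat_lit 513) (nat_lit 5) (nat_lit 514) (nat_lit 5) (nat_lit 660) (nat_lit 644) (nat_lit 256)) (XT.lf (nat_lit 76) (nat_lit 18285325059) (nat_lit 0) (nat_lit 22555153326) (nat_lit 1900) (nat_lit 15419437608) (nat_lit 490) (nat_lit 5) (nat_lit 489) (nat_lit 5) (nat_lit 514) (nat_lit 5) (nat_lit 661) (nat_lit 644) (nat_lit 255)))) (XT.nd (nat_lit 156) (nat_lit 0) (nat_lit 76) (XT.nd (nat_lit 78) (nat_lit 0) (nat_lit 0) (XT.lf (nat_lit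 0) (nat_lit 44476677133) (nat_lit 1824) (nat_lit 8447847482) (nat_lit 1900) (nat_lit 3928609703) (nat_lit 490) (nat_lit 5) (nat_lit 514) (nat_lit 5) (nat_lit 515) (nat_lit 5) (nat_lit 662) (nat_lit 644) (nat_lit 254)) (XT.lf (nat_lit 76) (nat_lit 21805608363) (nat_lit 0) (nat_lit 26670379600) (nat_lit 1900) (nat_lit 8976421301) (nat_lit 491) (nat_lit 5) (nat_lit 490) (nat_lit 5) (nat_lit 515) (nat_lit 5) (nat_lit 663) (nat_lit 644) (nat_lit 253))) (XT.nd (nat_lit 78) (nat_lit 0) (nat_lit 0) (XT.lf (nat_lit 0) (nat_lit 52612505369) (nat_lit 1824) (nat_lit 5285415990) (nat_lit 1900) (nat_lit 164603958) (nat_lit 491) (nat_lit 5) (nat_lit 515) (nat_lit 5) (nat_lit 516) (nat_lit 5) (nat_lit 664) (nat_lit 644) (nat_lit 252)) (XT.lf (nat_lit 76) (nat_lit 25845099373) (nat_lit 0) (nat_lit 31330541833) (nat_lit 1900) (nat_lit 1502324741) (nat_lit 492) (nat_lit 5) (nat_lit 491) (nat_lit 5) (nat_lit 516) (nat_lit 5) (nat_lit 665) (nat_lit 644) (nat_lit 251))))))))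
noncomputable def xc251 : XT := (XT.nd (nat_lit 81198) (nat_lit 0) (nat_lit 912) (XT.nd (nat_lit 79950) (nat_lit 0) (nat_lit 4104) (XT.nd (nat_lit 546) (nat_lit 912) (nat_lit 0) (XT.nd (nat_lit 234) (nat_lit 1900) (nat_lit 0) (XT.nd (nat_lit 78) (nat_lit 0) (nat_lit 76) (XT.lf (nat_lit 0) (nat_lit 2526383982) (nat_lit 1900) (nat_lit 1652199877) (nat_lit 1976) (nat_lit 55126100422) (nat_lit 466) (nat_lit 5) (nat_lit 491) (nat_lit 5) (nat_lit 492) (nat_lit 5) (nat_lit 666) (nat_lit 644) (nat_lit 250)) (XT.nd (nat_lit 78) (nat_lit 0) (nat_lit 0) (XT.lf (nat_lit 0) (nat_lit 6967408406) (nat_lit 1900) (nat_lit 29551579110) (nat_lit 1976) (nat_lit 23417713721) (nat_lit 467) (nat_lit 5) (nat_lit 492) (nat_lit 5) (nat_lit 493) (nat_lit 5) (nat_lit 667) (nat_lit 644) (nat_lit 249)) (XT.lf (nat_lit 76) (nat_lit 2509172746) (nat_lit 0) (nat_lit 9042687478) (nat_lit 1976) (nat_lit 49028406184) (nat_lit 468) (nat_lit 5) (nat_lit 467) (nat_lit 5) (nat_lit 493) (nat_lit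 5) (nat_lit 668) (nat_lit 644) (nat_lit 248)))) (XT.nd (nat_lit 156) (nat_lit 912) (nat_lit 0) (XT.nd (nat_lit 78) (nat_lit 1140) (nat_lit 0) (XT.lf (nat_lit 0) (nat_lit 16550362341) (nat_lit 1900) (nat_lit 25746029033) (nat_lit 76) (nat_lit 18933864298) (nat_lit 468) (nat_lit 5) (nat_lit 493) (nat_lit 5) (nat_lit 469) (nat_lit 5) (nat_lit 669) (nat_lit 644) (nat_lit 247)) (XT.lf (nat_lit 0) (nat_lit 7260435279) (nat_lit 1140) (nat_lit 14494924320) (nat_lit 1216) (nat_lit 40135754635) (nat_lit 453) (nat_lit 5) (nat_lit 468) (nat_lit 5) (nat_lit 469) (nat_lit 5) (nat_lit 670) (nat_lit 644) (nat_lit 246))) (XT.nd (nat_lit 78) (nat_lit 912) (nat_lit 0) (XT.lf (nat_lit 0) (nat_lit 27327882929) (nat_lit 1216) (nat_lit 21377306221) (nat_lit 76) (nat_lit 13854732309) (nat_lit 453) (nat_lit 5) (nat_lit 469) (nat_lit 5) (nat_lit 454) (nat_lit 5) (nat_lit 671) (nat_lit 644) (nat_lit 245)) (XT.lf (nat_lit 0) (nat_lit 12610087861) (nat_lit 912) (nat_lit 20579151989)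 (nat_lit 988) (nat_lit 30049317329) (nat_lit 441) (nat_lit 5) (nat_lit 453) (nat_lit 5) (nat_lit 454) (nat_lit 5) (nat_lit 672) (nat_lit 644) (nat_lit 244))))) (XT.nd (nat_lit 79092) (nat_lit 0) (nat_lit 3952) (XT.nd (nat_lit 156) (nat_lit 0) (nat_lit 0) (XT.nd (nat_lit 78) (nat_lit 912) (nat_lit 0) (XT.lf (nat_lit 0) (nat_lit 39364402667) (nat_lit 988) (nat_lit 16414937117) (nat_lit 76) (nat_lit 8147494268) (nat_lit 441) (nat_lit 5) (nat_lit 454) (nat_lit 5) (nat_lit 442) (nat_lit 5) (nat_lit 673) (nat_lit 644) (nat_lit 243)) (XT.lf (nat_lit 0) (nat_lit 18589955526) (nat_lit 912) (nat_lit 27329630759) (nat_lit 988) (nat_lit 18704159839) (nat_lit 429) (nat_lit 5) (nat_lit 441) (nat_lit 5) (nat_lit 442) (nat_lit 5) (nat_lit 674) (nat_lit 644) (nat_lit 242))) (XT.nd (nat_lit 78858) (nat_lit 0) (nat_lit 3952) (XT.lf (nat_lit 0) (nat_lit 52727262485) (nat_lit 988) (nat_lit 10827076209) (nat_lit 76) (nat_lit 1777829978) (nat_lit 429) (nat_lit 5) (nat_lit 442)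 (nat_lit 5) (nat_lit 430) (nat_lit 5) (nat_lit 675) (nat_lit 644) (nat_lit 241)) (XT.lf (nat_lit 0) (nat_lit 5990215944) (nat_lit 1900) (nat_lit 9072576784) (nat_lit 1900) (nat_lit 9072576784) (nat_lit 481) (nat_lit 3) (nat_lit 506) (nat_lit 3) (nat_lit 506) (nat_lit 5) (nat_lit 645) (nat_lit 645) (nat_lit 270)))) (XT.nd (nat_lit 156) (nat_lit 0) (nat_lit 76) (XT.nd (nat_lit 78) (nat_lit 0) (nat_lit 76) (XT.lf (nat_lit 76) (nat_lit 5971405432) (nat_lit 0) (nat_lit 6195895875) (nat_lit 1900) (nat_lit 36584802951) (nat_lit 482) (nat_lit 5) (nat_lit 481) (nat_lit 3) (nat_lit 506) (nat_lit 5) (nat_lit 646) (nat_lit 645) (nat_lit 269)) (XT.lf (nat_lit 0) (nat_lit 12597982598) (nat_lit 1824) (nat_lit 18543857676) (nat_lit 1900) (nat_lit 18096455054) (nat_lit 482) (nat_lit 5) (nat_lit 506) (nat_lit 5) (nat_lit 507) (nat_lit 5) (nat_lit 647) (nat_lit 645) (nat_lit 268))) (XT.nd (nat_lit 78) (nat_lit 0) (nat_lit 76) (XT.lf (nat_lit 76) (nat_lit 6217843049) (nat_lit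 0) (nat_lit 6900109477) (nat_lit 1900) (nat_lit 36614644215) (nat_lit 483) (nat_lit 5) (nat_lit 482) (nat_lit 5) (nat_lit 507) (nat_lit 5) (nat_lit 648) (nat_lit 645) (nat_lit 267)) (XT.lf (nat_lit 0) (nat_lit 13888612251) (nat_lit 1824) (nat_lit 18625122845) (nat_lit 1900) (nat_lit 17718243299) (nat_lit 483) (nat_lit 5) (nat_lit 507) (nat_lit 5) (nat_lit 508) (nat_lit 5) (nat_lit 649) (nat_lit 645) (nat_lit 266)))))) (XT.nd (nat_lit 624) (nat_lit 0) (nat_lit 304) (XT.nd (nat_lit 312) (nat_lit 0) (nat_lit 152) (XT.nd (nat_lit 156) (nat_lit 0) (nat_lit 76) (XT.nd (nat_lit 78) (nat_lit 0) (nat_lit 76) (XT.lf (nat_lit 76) (nat_lit 6805460517) (nat_lit 0) (nat_lit 7958406381) (nat_lit 1900) (nat_lit 35975697171) (nat_lit 484) (nat_lit 5) (nat_lit 483) (nat_lit 5) (nat_lit 508) (nat_lit 5) (nat_lit 650) (nat_lit 645) (nat_lit 265)) (XT.lf (nat_lit 0) (nat_lit 15892698673) (nat_lit 1824) (nat_lit 18369864231) (nat_lit 1900) (nat_lit 16990017132) (nat_lit 484)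 (nat_lit 5) (nat_lit 508) (nat_lit 5) (nat_lit 509) (nat_lit 5) (nat_lit 651) (nat_lit 645) (nat_lit 264))) (XT.nd (nat_lit 78) (nat_lit 0) (nat_lit 76) (XT.lf (nat_lit 76) (nat_lit 7754249732) (nat_lit 0) (nat_lit 9392234357) (nat_lit 1900) (nat_lit 34627324716) (nat_lit 485) (nat_lit 5) (nat_lit 484) (nat_lit 5) (nat_lit 509) (nat_lit 5) (nat_lit 652) (nat_lit 645) (nat_lit 263)) (XT.lf (nat_lit 0) (nat_lit 18652495477) (nat_lit 1824) (nat_lit 17758098477) (nat_lit 1900) (nat_lit 15890325207) (nat_lit 485) (nat_lit 5) (nat_lit 509) (nat_lit 5) (nat_lit 510) (nat_lit 5) (nat_lit 653) (nat_lit 645) (nat_lit 262)))) (XT.nd (nat_lit 156) (nat_lit 0) (nat_lit 76) (XT.nd (nat_lit 78) (nat_lit 0) (nat_lit 76) (XT.lf (nat_lit 76) (nat_lit 9085136296) (nat_lit 0) (nat_lit 11224029611) (nat_lit 1900) (nat_lit 32526995062) (nat_lit 486) (nat_lit 5) (nat_lit 485) (nat_lit 5) (nat_lit 510) (nat_lit 5) (nat_lit 654) (nat_lit 645) (nat_lit 261)) (XT.lf (nat_lit 0)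 (nat_lit 22212213152) (nat_lit 1824) (nat_lit 16768906211) (nat_lit 1900) (nat_lit 14396723401) (nat_lit 486) (nat_lit 5) (nat_lit 510) (nat_lit 5) (nat_lit 511) (nat_lit 5) (nat_lit 655) (nat_lit 645) (nat_lit 260))) (XT.nd (nat_lit 78) (nat_lit 0) (nat_lit 76) (XT.lf (nat_lit 76) (nat_lit 10820018403) (nat_lit 0) (nat_lit 13477260922) (nat_lit 1900) (nat_lit 29630199729) (nat_lit 487) (nat_lit 5) (nat_lit 486) (nat_lit 5) (nat_lit 511) (nat_lit 5) (nat_lit 656) (nat_lit 645) (nat_lit 259)) (XT.lf (nat_lit 0) (nat_lit 26618103481) (nat_lit 1824) (nat_lit 15380393008) (nat_lit 1900) (nat_lit 12485730466) (nat_lit 487) (nat_lit 5) (nat_lit 511) (nat_lit 5) (nat_lit 512) (nat_lit 5) (nat_lit 657) (nat_lit 645) (nat_lit 258))))) (XT.nd (nat_lit 312) (nat_lit 0) (nat_lit 152) (XT.nd (nat_lit 156) (nat_lit 0) (nat_lit 76) (XT.nd (nat_lit 78) (nat_lit 0) (nat_lit 76) (XT.lf (nat_lit 76) (nat_lit 12981807301) (nat_lit 0) (nat_lit 16176475573) (nat_lit 1900) (nat_lit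 25890368183) (nat_lit 488) (nat_lit 5) (nat_lit 487) (nat_lit 5) (nat_lit 512) (nat_lit 5) (nat_lit 658) (nat_lit 645) (nat_lit 257)) (XT.lf (nat_lit 0) (nat_lit 31918547411) (nat_lit 1824) (nat_lit 13569648751) (nat_lit 1900) (nat_lit 10132781866) (nat_lit 488) (nat_lit 5) (nat_lit 512) (nat_lit 5) (nat_lit 513) (nat_lit 5) (nat_lit 659) (nat_lit 645) (nat_lit 256))) (XT.nd (nat_lit 78) (nat_lit 0) (nat_lit 76) (XT.lf (nat_lit 76) (nat_lit 15594469421) (nat_lit 0) (nat_lit 19347347176) (nat_lit 1900) (nat_lit 21258778972) (nat_lit 489) (nat_lit 5) (nat_lit 488) (nat_lit 5) (nat_lit 513) (nat_lit 5) (nat_lit 660) (nat_lit 645) (nat_lit 255)) (XT.lf (nat_lit 0) (nat_lit 38164146528) (nat_lit 1824) (nat_lit 11312705330) (nat_lit 1900) (nat_lit 7312181711) (nat_lit 489) (nat_lit 5) (nat_lit 513) (nat_lit 5) (nat_lit 514) (nat_lit 5) (nat_lit 661) (nat_lit 645) (nat_lit 254)))) (XT.nd (nat_lit 156) (nat_lit 0) (nat_lit 76) (XT.nd (nat_lit 78) (nat_lit 0) (nat_lit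 76) (XT.lf (nat_lit 76) (nat_lit 18683070210) (nat_lit 0) (nat_lit 23016725464) (nat_lit 1900) (nat_lit 15684467220) (nat_lit 490) (nat_lit 5) (nat_lit 489) (nat_lit 5) (nat_lit 514) (nat_lit 5) (nat_lit 662) (nat_lit 645) (nat_lit 253)) (XT.lf (nat_lit 0) (nat_lit 45407818273) (nat_lit 1824) (nat_lit 8584492627) (nat_lit 1900) (nat_lit 3997052713) (nat_lit 490) (nat_lit 5) (nat_lit 514) (nat_lit 5) (nat_lit 515) (nat_lit 5) (nat_lit 663) (nat_lit 645) (nat_lit 252))) (XT.nd (nat_lit 78) (nat_lit 0) (nat_lit 76) (XT.lf (nat_lit 76) (nat_lit 22273819757) (nat_lit 0) (nat_lit 27212688136) (nat_lit 1900) (nat_lit 9114128337) (nat_lit 491) (nat_lit 5) (nat_lit 490) (nat_lit 5) (nat_lit 515) (nat_lit 5) (nat_lit 664) (nat_lit 645) (nat_lit 251)) (XT.lf (nat_lit 0) (nat_lit 53704895066) (nat_lit 1824) (nat_lit 5358792705) (nat_lit 1900) (nat_lit 159284070) (nat_lit 491) (nat_lit 5) (nat_lit 515) (nat_lit 5) (nat_lit 516) (nat_lit 5) (nat_lit 665) (nat_lit 645)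 (nat_lit 250))))))) (XT.nd (nat_lit 80106) (nat_lit 0) (nat_lit 3268) (XT.nd (nat_lit 546) (nat_lit 912) (nat_lit 0) (XT.nd (nat_lit 234) (nat_lit 988) (nat_lit 0) (XT.nd (nat_lit 78) (nat_lit 1900) (nat_lit 0) (XT.lf (nat_lit 76) (nat_lit 26394120257) (nat_lit 0) (nat_lit 31964594849) (nat_lit 1900) (nat_lit 1492017771) (nat_lit 492) (nat_lit 5) (nat_lit 491) (nat_lit 5) (nat_lit 516) (nat_lit 5) (nat_lit 666) (nat_lit 645) (nat_lit 249)) (XT.nd (nat_lit 78) (nat_lit 0) (nat_lit 76) (XT.lf (nat_lit 0) (nat_lit 2615955017) (nat_lit 1900) (nat_lit 1653234773) (nat_lit 1976) (nat_lit 56220806188) (nat_lit 466) (nat_lit 5) (nat_lit 491) (nat_lit 5) (nat_lit 492) (nat_lit 5) (nat_lit 667) (nat_lit 645) (nat_lit 248)) (XT.lf (nat_lit 0) (nat_lit 7145197421) (nat_lit 1900) (nat_lit 30109997982) (nat_lit 1976) (nat_lit 23879469941) (nat_lit 467) (nat_lit 5) (nat_lit 492) (nat_lit 5) (nat_lit 493) (nat_lit 5) (nat_lit 668) (nat_lit 645) (nat_lit 247)))) (XT.nd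 (nat_lit 156) (nat_lit 1064) (nat_lit 0) (XT.nd (nat_lit 78) (nat_lit 0) (nat_lit 76) (XT.lf (nat_lit 76) (nat_lit 2591754354) (nat_lit 0) (nat_lit 9229040531) (nat_lit 1976) (nat_lit 49970317824) (nat_lit 468) (nat_lit 5) (nat_lit 467) (nat_lit 5) (nat_lit 493) (nat_lit 5) (nat_lit 669) (nat_lit 645) (nat_lit 246)) (XT.lf (nat_lit 0) (nat_lit 16918488951) (nat_lit 1900) (nat_lit 26228407569) (nat_lit 76) (nat_lit 19307220821) (nat_lit 468) (nat_lit 5) (nat_lit 493) (nat_lit 5) (nat_lit 469) (nat_lit 5) (nat_lit 670) (nat_lit 645) (nat_lit 245))) (XT.nd (nat_lit 78) (nat_lit 0) (nat_lit 0) (XT.lf (nat_lit 0) (nat_lit 7437971937) (nat_lit 1140) (nat_lit 14789096281) (nat_lit 1216) (nat_lit 40901135235) (nat_lit 453) (nat_lit 5) (nat_lit 468) (nat_lit 5) (nat_lit 469) (nat_lit 5) (nat_lit 671) (nat_lit 645) (nat_lit 244)) (XT.lf (nat_lit 0) (nat_lit 27910297138) (nat_lit 1216) (nat_lit 21772412380) (nat_lit 76) (nat_lit 14127692223) (nat_lit 453) (nat_lit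 5) (nat_lit 469) (nat_lit 5) (nat_lit 454) (nat_lit 5) (nat_lit 672) (nat_lit 645) (nat_lit 243))))) (XT.nd (nat_lit 79248) (nat_lit 0) (nat_lit 3116) (XT.nd (nat_lit 79092) (nat_lit 0) (nat_lit 3040) (XT.nd (nat_lit 78) (nat_lit 0) (nat_lit 0) (XT.lf (nat_lit 0) (nat_lit 12894516163) (nat_lit 912) (nat_lit 20993871201) (nat_lit 988) (nat_lit 30614232707) (nat_lit 441) (nat_lit 5) (nat_lit 453) (nat_lit 5) (nat_lit 454) (nat_lit 5) (nat_lit 673) (nat_lit 645) (nat_lit 242)) (XT.lf (nat_lit 0) (nat_lit 40186340087) (nat_lit 988) (nat_lit 16710926881) (nat_lit 76) (nat_lit 8307409800) (nat_lit 441) (nat_lit 5) (nat_lit 454) (nat_lit 5) (nat_lit 442) (nat_lit 5) (nat_lit 674) (nat_lit 645) (nat_lit 241))) (XT.nd (nat_lit 78) (nat_lit 0) (nat_lit 0) (XT.lf (nat_lit 0) (nat_lit 6138131329) (nat_lit 1900) (nat_lit 9239691251) (nat_lit 1900) (nat_lit 9239691251) (nat_lit 481) (nat_lit 3) (nat_lit 506) (nat_lit 3) (nat_lit 506) (nat_lit 5) (nat_lit 646) (nat_lit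 646) (nat_lit 268)) (XT.lf (nat_lit 76) (nat_lit 6119319033) (nat_lit 0) (nat_lit 6346632985) (nat_lit 1900) (nat_lit 37260086564) (nat_lit 482) (nat_lit 5) (nat_lit 481) (nat_lit 3) (nat_lit 506) (nat_lit 5) (nat_lit 647) (nat_lit 646) (nat_lit 267)))) (XT.nd (nat_lit 156) (nat_lit 0) (nat_lit 76) (XT.nd (nat_lit 78) (nat_lit 0) (nat_lit 0) (XT.lf (nat_lit 0) (nat_lit 12903991815) (nat_lit 1824) (nat_lit 18885551121) (nat_lit 1900) (nat_lit 18432435672) (nat_lit 482) (nat_lit 5) (nat_lit 506) (nat_lit 5) (nat_lit 507) (nat_lit 5) (nat_lit 648) (nat_lit 646) (nat_lit 266)) (XT.lf (nat_lit 76) (nat_lit 6371191620) (nat_lit 0) (nat_lit 7062297959) (nat_lit 1900) (nat_lit 37292693933) (nat_lit 483) (nat_lit 5) (nat_lit 482) (nat_lit 5) (nat_lit 507) (nat_lit 5) (nat_lit 649) (nat_lit 646) (nat_lit 265))) (XT.nd (nat_lit 78) (nat_lit 0) (nat_lit 0) (XT.lf (nat_lit 0) (nat_lit 14218365838) (nat_lit 1824) (nat_lit 18968003825) (nat_lit 1900) (nat_lit 18049207101)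 (nat_lit 483) (nat_lit 5) (nat_lit 507) (nat_lit 5) (nat_lit 508) (nat_lit 5) (nat_lit 650) (nat_lit 646) (nat_lit 264)) (XT.lf (nat_lit 76) (nat_lit 6970996327) (nat_lit 0) (nat_lit 8139301067) (nat_lit 1900) (nat_lit 36643033352) (nat_lit 484) (nat_lit 5) (nat_lit 483) (nat_lit 5) (nat_lit 508) (nat_lit 5) (nat_lit 651) (nat_lit 646) (nat_lit 263)))))) (XT.nd (nat_lit 624) (nat_lit 0) (nat_lit 304) (XT.nd (nat_lit 312) (nat_lit 0) (nat_lit 152) (XT.nd (nat_lit 156) (nat_lit 0) (nat_lit 76) (XT.nd (nat_lit 78) (nat_lit 0) (nat_lit 0) (XT.lf (nat_lit 0) (nat_lit 16260564504) (nat_lit 1824) (nat_lit 18707269098) (nat_lit 1900) (nat_lit 17308796288) (nat_lit 484) (nat_lit 5) (nat_lit 508) (nat_lit 5) (nat_lit 509) (nat_lit 5) (nat_lit 652) (nat_lit 646) (nat_lit 262)) (XT.lf (nat_lit 76) (nat_lit 7939129826) (nat_lit 0) (nat_lit 9599508626) (nat_lit 1900) (nat_lit 35269660553) (nat_lit 485) (nat_lit 5) (nat_lit 484) (nat_lit 5) (nat_lit 509) (nat_lit 5)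 (nat_lit 653) (nat_lit 646) (nat_lit 261))) (XT.nd (nat_lit 78) (nat_lit 0) (nat_lit 0) (XT.lf (nat_lit 0) (nat_lit 19073681203) (nat_lit 1824) (nat_lit 18082959246) (nat_lit 1900) (nat_lit 16189332927) (nat_lit 485) (nat_lit 5) (nat_lit 509) (nat_lit 5) (nat_lit 510) (nat_lit 5) (nat_lit 654) (nat_lit 646) (nat_lit 260)) (XT.lf (nat_lit 76) (nat_lit 9296940872) (nat_lit 0) (nat_lit 11465795771) (nat_lit 1900) (nat_lit 33129198374) (nat_lit 486) (nat_lit 5) (nat_lit 485) (nat_lit 5) (nat_lit 510) (nat_lit 5) (nat_lit 655) (nat_lit 646) (nat_lit 259)))) (XT.nd (nat_lit 156) (nat_lit 0) (nat_lit 76) (XT.nd (nat_lit 78) (nat_lit 0) (nat_lit 0) (XT.lf (nat_lit 0) (nat_lit 22702805639) (nat_lit 1824) (nat_lit 17073732128) (nat_lit 1900) (nat_lit 14667933493) (nat_lit 486) (nat_lit 5) (nat_lit 510) (nat_lit 5) (nat_lit 511) (nat_lit 5) (nat_lit 656) (nat_lit 646) (nat_lit 258)) (XT.lf (nat_lit 76) (nat_lit 11066769977) (nat_lit 0) (nat_lit 13762091430) (nat_lit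 1900) (nat_lit 30176253130) (nat_lit 487) (nat_lit 5) (nat_lit 486) (nat_lit 5) (nat_lit 511) (nat_lit 5) (nat_lit 657) (nat_lit 646) (nat_lit 257))) (XT.nd (nat_lit 78) (nat_lit 0) (nat_lit 0) (XT.lf (nat_lit 0) (nat_lit 27195109916) (nat_lit 1824) (nat_lit 15657251313) (nat_lit 1900) (nat_lit 12720656036) (nat_lit 487) (nat_lit 5) (nat_lit 511) (nat_lit 5) (nat_lit 512) (nat_lit 5) (nat_lit 658) (nat_lit 646) (nat_lit 256)) (XT.lf (nat_lit 76) (nat_lit 13271990703) (nat_lit 0) (nat_lit 16513425147) (nat_lit 1900) (nat_lit 26363327566) (nat_lit 488) (nat_lit 5) (nat_lit 487) (nat_lit 5) (nat_lit 512) (nat_lit 5) (nat_lit 659) (nat_lit 646) (nat_lit 255))))) (XT.nd (nat_lit 312) (nat_lit 0) (nat_lit 152) (XT.nd (nat_lit 156) (nat_lit 0) (nat_lit 76) (XT.nd (nat_lit 78) (nat_lit 0) (nat_lit 0) (XT.lf (nat_lit 0) (nat_lit 32599938150) (nat_lit 1824) (nat_lit 13810144619) (nat_lit 1900) (nat_lit 10322453134) (nat_lit 488) (nat_lit 5) (nat_lit 512) (nat_lit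 5) (nat_lit 513) (nat_lit 5) (nat_lit 660) (nat_lit 646) (nat_lit 254)) (XT.lf (nat_lit 76) (nat_lit 15937052646) (nat_lit 0) (nat_lit 19745975833) (nat_lit 1900) (nat_lit 21640730225) (nat_lit 489) (nat_lit 5) (nat_lit 488) (nat_lit 5) (nat_lit 513) (nat_lit 5) (nat_lit 661) (nat_lit 646) (nat_lit 253))) (XT.nd (nat_lit 78) (nat_lit 0) (nat_lit 0) (XT.lf (nat_lit 0) (nat_lit 38968899758) (nat_lit 1824) (nat_lit 11507960949) (nat_lit 1900) (nat_lit 7447122888) (nat_lit 489) (nat_lit 5) (nat_lit 513) (nat_lit 5) (nat_lit 514) (nat_lit 5) (nat_lit 662) (nat_lit 646) (nat_lit 252)) (XT.lf (nat_lit 76) (nat_lit 19087526165) (nat_lit 0) (nat_lit 23487122518) (nat_lit 1900) (nat_lit 15956481113) (nat_lit 490) (nat_lit 5) (nat_lit 489) (nat_lit 5) (nat_lit 514) (nat_lit 5) (nat_lit 663) (nat_lit 646) (nat_lit 251)))) (XT.nd (nat_lit 156) (nat_lit 0) (nat_lit 76) (XT.nd (nat_lit 78) (nat_lit 0) (nat_lit 0) (XT.lf (nat_lit 0) (nat_lit 46355966562) (nat_lit 1824)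 (nat_lit 8725125381) (nat_lit 1900) (nat_lit 4067257912) (nat_lit 490) (nat_lit 5) (nat_lit 514) (nat_lit 5) (nat_lit 515) (nat_lit 5) (nat_lit 664) (nat_lit 646) (nat_lit 250)) (XT.lf (nat_lit 76) (nat_lit 22750148927) (nat_lit 0) (nat_lit 27765497209) (nat_lit 1900) (nat_lit 9256213489) (nat_lit 491) (nat_lit 5) (nat_lit 490) (nat_lit 5) (nat_lit 515) (nat_lit 5) (nat_lit 665) (nat_lit 646) (nat_lit 249))) (XT.nd (nat_lit 78) (nat_lit 0) (nat_lit 0) (XT.lf (nat_lit 0) (nat_lit 54817573887) (nat_lit 1824) (nat_lit 5434892431) (nat_lit 1900) (nat_lit 154192197) (nat_lit 491) (nat_lit 5) (nat_lit 515) (nat_lit 5) (nat_lit 516) (nat_lit 5) (nat_lit 666) (nat_lit 646) (nat_lit 248)) (XT.lf (nat_lit 76) (nat_lit 26952874343) (nat_lit 0) (nat_lit 32611039936) (nat_lit 1900) (nat_lit 1483071636) (nat_lit 492) (nat_lit 5) (nat_lit 491) (nat_lit 5) (nat_lit 516) (nat_lit 5) (nat_lit 667) (nat_lit 646) (nat_lit 247))))))))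
noncomputable def xc252 : XT := (XT.nd (nat_lit 81432) (nat_lit 0) (nat_lit 912) (XT.nd (nat_lit 80184) (nat_lit 0) (nat_lit 1900) (XT.nd (nat_lit 79560) (nat_lit 0) (nat_lit 3040) (XT.nd (nat_lit 234) (nat_lit 1900) (nat_lit 0) (XT.nd (nat_lit 78) (nat_lit 0) (nat_lit 76) (XT.lf (nat_lit 0) (nat_lit 2705801371) (nat_lit 1900) (nat_lit 1655533318) (nat_lit 1976) (nat_lit 57337709584) (nat_lit 466) (nat_lit 5) (nat_lit 491) (nat_lit 5) (nat_lit 492) (nat_lit 5) (nat_lit 668) (nat_lit 646) (nat_lit 246)) (XT.nd (nat_lit 78) (nat_lit 0) (nat_lit 0) (XT.lf (nat_lit 0) (nat_lit 7325049513) (nat_lit 1900) (nat_lit 30680851623) (nat_lit 1976) (nat_lit 24350717495) (nat_lit 467) (nat_lit 5) (nat_lit 492) (nat_lit 5) (nat_lit 493) (nat_lit 5) (nat_lit 669) (nat_lit 646) (nat_lit 245)) (XT.lf (nat_lit 76) (nat_lit 2674729534) (nat_lit 0) (nat_lit 9418907100) (nat_lit 1976) (nat_lit 50932568775) (nat_lit 468) (nat_lit 5) (nat_lit 467) (nat_lit 5) (nat_lit 493) (nat_lit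 5) (nat_lit 670) (nat_lit 646) (nat_lit 244)))) (XT.nd (nat_lit 156) (nat_lit 912) (nat_lit 0) (XT.nd (nat_lit 78) (nat_lit 1140) (nat_lit 0) (XT.lf (nat_lit 0) (nat_lit 17292536704) (nat_lit 1900) (nat_lit 26721697322) (nat_lit 76) (nat_lit 19688251085) (nat_lit 468) (nat_lit 5) (nat_lit 493) (nat_lit 5) (nat_lit 469) (nat_lit 5) (nat_lit 671) (nat_lit 646) (nat_lit 243)) (XT.lf (nat_lit 0) (nat_lit 7617803995) (nat_lit 1140) (nat_lit 15088985737) (nat_lit 1216) (nat_lit 41683273190) (nat_lit 453) (nat_lit 5) (nat_lit 468) (nat_lit 5) (nat_lit 469) (nat_lit 5) (nat_lit 672) (nat_lit 646) (nat_lit 242))) (XT.nd (nat_lit 78) (nat_lit 912) (nat_lit 0) (XT.lf (nat_lit 0) (nat_lit 28502967277) (nat_lit 1216) (nat_lit 22176680345) (nat_lit 76) (nat_lit 14406271891) (nat_lit 453) (nat_lit 5) (nat_lit 469) (nat_lit 5) (nat_lit 454) (nat_lit 5) (nat_lit 673) (nat_lit 646) (nat_lit 241)) (XT.lf (nat_lit 0) (nat_lit 13183381635) (nat_lit 912) (nat_lit 21416763015)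 (nat_lit 988) (nat_lit 31191847073) (nat_lit 441) (nat_lit 5) (nat_lit 453) (nat_lit 5) (nat_lit 454) (nat_lit 5) (nat_lit 674) (nat_lit 646) (nat_lit 240))))) (XT.nd (nat_lit 312) (nat_lit 0) (nat_lit 152) (XT.nd (nat_lit 156) (nat_lit 0) (nat_lit 76) (XT.nd (nat_lit 78) (nat_lit 0) (nat_lit 0) (XT.lf (nat_lit 0) (nat_lit 6287913435) (nat_lit 1900) (nat_lit 9410704732) (nat_lit 1900) (nat_lit 9410704732) (nat_lit 481) (nat_lit 3) (nat_lit 506) (nat_lit 3) (nat_lit 506) (nat_lit 5) (nat_lit 647) (nat_lit 647) (nat_lit 266)) (XT.lf (nat_lit 76) (nat_lit 6269084780) (nat_lit 0) (nat_lit 6499343414) (nat_lit 1900) (nat_lit 37951066413) (nat_lit 482) (nat_lit 5) (nat_lit 481) (nat_lit 3) (nat_lit 506) (nat_lit 5) (nat_lit 648) (nat_lit 647) (nat_lit 265))) (XT.nd (nat_lit 78) (nat_lit 0) (nat_lit 0) (XT.lf (nat_lit 0) (nat_lit 13214022406) (nat_lit 1824) (nat_lit 19235211674) (nat_lit 1900) (nat_lit 18776143513) (nat_lit 482) (nat_lit 5) (nat_lit 506) (nat_lit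 5) (nat_lit 507) (nat_lit 5) (nat_lit 649) (nat_lit 647) (nat_lit 264)) (XT.lf (nat_lit 76) (nat_lit 6526481379) (nat_lit 0) (nat_lit 7226791028) (nat_lit 1900) (nat_lit 37986410974) (nat_lit 483) (nat_lit 5) (nat_lit 482) (nat_lit 5) (nat_lit 507) (nat_lit 5) (nat_lit 650) (nat_lit 647) (nat_lit 263)))) (XT.nd (nat_lit 156) (nat_lit 0) (nat_lit 76) (XT.nd (nat_lit 78) (nat_lit 0) (nat_lit 0) (XT.lf (nat_lit 0) (nat_lit 14552695999) (nat_lit 1824) (nat_lit 19318892662) (nat_lit 1900) (nat_lit 18387698871) (nat_lit 483) (nat_lit 5) (nat_lit 507) (nat_lit 5) (nat_lit 508) (nat_lit 5) (nat_lit 651) (nat_lit 647) (nat_lit 262)) (XT.lf (nat_lit 76) (nat_lit 7138700182) (nat_lit 0) (nat_lit 8322969978) (nat_lit 1900) (nat_lit 37325742383) (nat_lit 484) (nat_lit 5) (nat_lit 483) (nat_lit 5) (nat_lit 508) (nat_lit 5) (nat_lit 652) (nat_lit 647) (nat_lit 261))) (XT.nd (nat_lit 78) (nat_lit 0) (nat_lit 0) (XT.lf (nat_lit 0) (nat_lit 16633845630) (nat_lit 1824) (nat_lit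 19052586704) (nat_lit 1900) (nat_lit 17634767305) (nat_lit 484) (nat_lit 5) (nat_lit 508) (nat_lit 5) (nat_lit 509) (nat_lit 5) (nat_lit 653) (nat_lit 647) (nat_lit 260)) (XT.lf (nat_lit 76) (nat_lit 8126550542) (nat_lit 0) (nat_lit 9810173907) (nat_lit 1900) (nat_lit 35926792848) (nat_lit 485) (nat_lit 5) (nat_lit 484) (nat_lit 5) (nat_lit 509) (nat_lit 5) (nat_lit 654) (nat_lit 647) (nat_lit 259)))))) (XT.nd (nat_lit 624) (nat_lit 1444) (nat_lit 0) (XT.nd (nat_lit 312) (nat_lit 0) (nat_lit 152) (XT.nd (nat_lit 156) (nat_lit 0) (nat_lit 76) (XT.nd (nat_lit 78) (nat_lit 0) (nat_lit 0) (XT.lf (nat_lit 0) (nat_lit 19501421471) (nat_lit 1824) (nat_lit 18415493864) (nat_lit 1900) (nat_lit 16495050781) (nat_lit 485) (nat_lit 5) (nat_lit 509) (nat_lit 5) (nat_lit 510) (nat_lit 5) (nat_lit 655) (nat_lit 647) (nat_lit 258)) (XT.lf (nat_lit 76) (nat_lit 9511812648) (nat_lit 0) (nat_lit 11711726034) (nat_lit 1900) (nat_lit 33745322720) (nat_lit 486) (nat_lit 5)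 (nat_lit 485) (nat_lit 5) (nat_lit 510) (nat_lit 5) (nat_lit 656) (nat_lit 647) (nat_lit 257))) (XT.nd (nat_lit 78) (nat_lit 0) (nat_lit 0) (XT.lf (nat_lit 0) (nat_lit 23201410218) (nat_lit 1824) (nat_lit 17385840942) (nat_lit 1900) (nat_lit 14945217214) (nat_lit 486) (nat_lit 5) (nat_lit 510) (nat_lit 5) (nat_lit 511) (nat_lit 5) (nat_lit 657) (nat_lit 647) (nat_lit 256)) (XT.lf (nat_lit 76) (nat_lit 11317278008) (nat_lit 0) (nat_lit 14052025001) (nat_lit 1900) (nat_lit 30735035215) (nat_lit 487) (nat_lit 5) (nat_lit 486) (nat_lit 5) (nat_lit 511) (nat_lit 5) (nat_lit 658) (nat_lit 647) (nat_lit 255)))) (XT.nd (nat_lit 156) (nat_lit 0) (nat_lit 76) (XT.nd (nat_lit 78) (nat_lit 0) (nat_lit 0) (XT.lf (nat_lit 0) (nat_lit 27781922885) (nat_lit 1824) (nat_lit 15940840826) (nat_lit 1900) (nat_lit 12960854394) (nat_lit 487) (nat_lit 5) (nat_lit 511) (nat_lit 5) (nat_lit 512) (nat_lit 5) (nat_lit 659) (nat_lit 647) (nat_lit 254)) (XT.lf (nat_lit 76) (nat_lit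 13566791586) (nat_lit 0) (nat_lit 16856592596) (nat_lit 1900) (nat_lit 26847487638) (nat_lit 488) (nat_lit 5) (nat_lit 487) (nat_lit 5) (nat_lit 512) (nat_lit 5) (nat_lit 660) (nat_lit 647) (nat_lit 253))) (XT.nd (nat_lit 78) (nat_lit 0) (nat_lit 0) (XT.lf (nat_lit 0) (nat_lit 33293286194) (nat_lit 1824) (nat_lit 14056650176) (nat_lit 1900) (nat_lit 10516422026) (nat_lit 488) (nat_lit 5) (nat_lit 512) (nat_lit 5) (nat_lit 513) (nat_lit 5) (nat_lit 661) (nat_lit 647) (nat_lit 252)) (XT.lf (nat_lit 76) (nat_lit 16285295657) (nat_lit 0) (nat_lit 20152123449) (nat_lit 1900) (nat_lit 22031998957) (nat_lit 489) (nat_lit 5) (nat_lit 488) (nat_lit 5) (nat_lit 513) (nat_lit 5) (nat_lit 662) (nat_lit 647) (nat_lit 251))))) (XT.nd (nat_lit 312) (nat_lit 1748) (nat_lit 0) (XT.nd (nat_lit 156) (nat_lit 0) (nat_lit 76) (XT.nd (nat_lit 78) (nat_lit 0) (nat_lit 0) (XT.lf (nat_lit 0) (nat_lit 39788137710) (nat_lit 1824) (nat_lit 11708325389) (nat_lit 1900) (nat_lit 7585201777)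 (nat_lit 489) (nat_lit 5) (nat_lit 513) (nat_lit 5) (nat_lit 514) (nat_lit 5) (nat_lit 663) (nat_lit 647) (nat_lit 250)) (XT.lf (nat_lit 76) (nat_lit 19498875448) (nat_lit 0) (nat_lit 23966536772) (nat_lit 1900) (nat_lit 16235553592) (nat_lit 490) (nat_lit 5) (nat_lit 489) (nat_lit 5) (nat_lit 514) (nat_lit 5) (nat_lit 664) (nat_lit 647) (nat_lit 249))) (XT.nd (nat_lit 78) (nat_lit 0) (nat_lit 0) (XT.lf (nat_lit 0) (nat_lit 47321524882) (nat_lit 1824) (nat_lit 8869776776) (nat_lit 1900) (nat_lit 4139245270) (nat_lit 490) (nat_lit 5) (nat_lit 514) (nat_lit 5) (nat_lit 515) (nat_lit 5) (nat_lit 665) (nat_lit 647) (nat_lit 248)) (XT.lf (nat_lit 76) (nat_lit 23234806630) (nat_lit 0) (nat_lit 28329030250) (nat_lit 1900) (nat_lit 9402701259) (nat_lit 491) (nat_lit 5) (nat_lit 490) (nat_lit 5) (nat_lit 515) (nat_lit 5) (nat_lit 666) (nat_lit 647) (nat_lit 247)))) (XT.nd (nat_lit 156) (nat_lit 1900) (nat_lit 0) (XT.nd (nat_lit 78) (nat_lit 0) (nat_lit 0) (XT.lf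 (nat_lit 0) (nat_lit 55951008141) (nat_lit 1824) (nat_lit 5513720874) (nat_lit 1900) (nat_lit 149319914) (nat_lit 491) (nat_lit 5) (nat_lit 515) (nat_lit 5) (nat_lit 516) (nat_lit 5) (nat_lit 667) (nat_lit 647) (nat_lit 246)) (XT.lf (nat_lit 76) (nat_lit 27521604725) (nat_lit 0) (nat_lit 33270136158) (nat_lit 1900) (nat_lit 1475452705) (nat_lit 492) (nat_lit 5) (nat_lit 491) (nat_lit 5) (nat_lit 516) (nat_lit 5) (nat_lit 668) (nat_lit 647) (nat_lit 245))) (XT.nd (nat_lit 78) (nat_lit 0) (nat_lit 76) (XT.lf (nat_lit 0) (nat_lit 2795987423) (nat_lit 1900) (nat_lit 1659072522) (nat_lit 1976) (nat_lit 58477242776) (nat_lit 466) (nat_lit 5) (nat_lit 491) (nat_lit 5) (nat_lit 492) (nat_lit 5) (nat_lit 669) (nat_lit 647) (nat_lit 244)) (XT.lf (nat_lit 0) (nat_lit 7507063904) (nat_lit 1900) (nat_lit 31264339552) (nat_lit 1976) (nat_lit 24831636262) (nat_lit 467) (nat_lit 5) (nat_lit 492) (nat_lit 5) (nat_lit 493) (nat_lit 5) (nat_lit 670) (nat_lit 647) (nat_lit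 243))))))) (XT.nd (nat_lit 80340) (nat_lit 0) (nat_lit 988) (XT.nd (nat_lit 79716) (nat_lit 0) (nat_lit 2280) (XT.nd (nat_lit 79404) (nat_lit 0) (nat_lit 2128) (XT.nd (nat_lit 78) (nat_lit 1064) (nat_lit 0) (XT.lf (nat_lit 76) (nat_lit 2758155010) (nat_lit 0) (nat_lit 9612365748) (nat_lit 1976) (nat_lit 51915507534) (nat_lit 468) (nat_lit 5) (nat_lit 467) (nat_lit 5) (nat_lit 493) (nat_lit 5) (nat_lit 671) (nat_lit 647) (nat_lit 242)) (XT.nd (nat_lit 78) (nat_lit 1140) (nat_lit 0) (XT.lf (nat_lit 0) (nat_lit 17672679992) (nat_lit 1900) (nat_lit 27226067449) (nat_lit 76) (nat_lit 20077100544) (nat_lit 468) (nat_lit 5) (nat_lit 493) (nat_lit 5) (nat_lit 469) (nat_lit 5) (nat_lit 672) (nat_lit 647) (nat_lit 241)) (XT.lf (nat_lit 0) (nat_lit 7800026106) (nat_lit 1140) (nat_lit 15394713482) (nat_lit 1216) (nat_lit 42482447354) (nat_lit 453) (nat_lit 5) (nat_lit 468) (nat_lit 5) (nat_lit 469) (nat_lit 5) (nat_lit 673) (nat_lit 647) (nat_lit 240)))) (XT.nd (nat_lit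 156) (nat_lit 0) (nat_lit 76) (XT.nd (nat_lit 78) (nat_lit 0) (nat_lit 0) (XT.lf (nat_lit 0) (nat_lit 6439641984) (nat_lit 1900) (nat_lit 9585673591) (nat_lit 1900) (nat_lit 9585673591) (nat_lit 481) (nat_lit 3) (nat_lit 506) (nat_lit 3) (nat_lit 506) (nat_lit 5) (nat_lit 648) (nat_lit 648) (nat_lit 264)) (XT.lf (nat_lit 76) (nat_lit 6420782668) (nat_lit 0) (nat_lit 6654107070) (nat_lit 1900) (nat_lit 38657971361) (nat_lit 482) (nat_lit 5) (nat_lit 481) (nat_lit 3) (nat_lit 506) (nat_lit 5) (nat_lit 649) (nat_lit 648) (nat_lit 263))) (XT.nd (nat_lit 78) (nat_lit 0) (nat_lit 0) (XT.lf (nat_lit 0) (nat_lit 13528236297) (nat_lit 1824) (nat_lit 19592954673) (nat_lit 1900) (nat_lit 19127693995) (nat_lit 482) (nat_lit 5) (nat_lit 506) (nat_lit 5) (nat_lit 507) (nat_lit 5) (nat_lit 650) (nat_lit 648) (nat_lit 262)) (XT.lf (nat_lit 76) (nat_lit 6683794865) (nat_lit 0) (nat_lit 7393671245) (nat_lit 1900) (nat_lit 38696026892) (nat_lit 483) (nat_lit 5) (nat_lit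 482) (nat_lit 5) (nat_lit 507) (nat_lit 5) (nat_lit 651) (nat_lit 648) (nat_lit 261))))) (XT.nd (nat_lit 312) (nat_lit 0) (nat_lit 152) (XT.nd (nat_lit 156) (nat_lit 0) (nat_lit 76) (XT.nd (nat_lit 78) (nat_lit 0) (nat_lit 0) (XT.lf (nat_lit 0) (nat_lit 14891772645) (nat_lit 1824) (nat_lit 19677904849) (nat_lit 1900) (nat_lit 18733833882) (nat_lit 483) (nat_lit 5) (nat_lit 507) (nat_lit 5) (nat_lit 508) (nat_lit 5) (nat_lit 652) (nat_lit 648) (nat_lit 260)) (XT.lf (nat_lit 76) (nat_lit 7308659814) (nat_lit 0) (nat_lit 8509501360) (nat_lit 1900) (nat_lit 38024053044) (nat_lit 484) (nat_lit 5) (nat_lit 483) (nat_lit 5) (nat_lit 508) (nat_lit 5) (nat_lit 653) (nat_lit 648) (nat_lit 259))) (XT.nd (nat_lit 78) (nat_lit 0) (nat_lit 0) (XT.lf (nat_lit 0) (nat_lit 17012725768) (nat_lit 1824) (nat_lit 19405930079) (nat_lit 1900) (nat_lit 17968042323) (nat_lit 484) (nat_lit 5) (nat_lit 508) (nat_lit 5) (nat_lit 509) (nat_lit 5) (nat_lit 654) (nat_lit 648) (nat_lit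 258)) (XT.lf (nat_lit 76) (nat_lit 8316607619) (nat_lit 0) (nat_lit 10024327316) (nat_lit 1900) (nat_lit 36598941819) (nat_lit 485) (nat_lit 5) (nat_lit 484) (nat_lit 5) (nat_lit 509) (nat_lit 5) (nat_lit 655) (nat_lit 648) (nat_lit 257)))) (XT.nd (nat_lit 156) (nat_lit 0) (nat_lit 76) (XT.nd (nat_lit 78) (nat_lit 0) (nat_lit 0) (XT.lf (nat_lit 0) (nat_lit 19935919954) (nat_lit 1824) (nat_lit 18755810116) (nat_lit 1900) (nat_lit 16807584626) (nat_lit 485) (nat_lit 5) (nat_lit 509) (nat_lit 5) (nat_lit 510) (nat_lit 5) (nat_lit 656) (nat_lit 648) (nat_lit 256)) (XT.lf (nat_lit 76) (nat_lit 9729858358) (nat_lit 0) (nat_lit 11961929747) (nat_lit 1900) (nat_lit 34375573637) (nat_lit 486) (nat_lit 5) (nat_lit 485) (nat_lit 5) (nat_lit 510) (nat_lit 5) (nat_lit 657) (nat_lit 648) (nat_lit 255))) (XT.nd (nat_lit 78) (nat_lit 0) (nat_lit 0) (XT.lf (nat_lit 0) (nat_lit 23708257017) (nat_lit 1824) (nat_lit 17705332244) (nat_lit 1900) (nat_lit 15228670819) (nat_lit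 486) (nat_lit 5) (nat_lit 510) (nat_lit 5) (nat_lit 511) (nat_lit 5) (nat_lit 658) (nat_lit 648) (nat_lit 254)) (XT.lf (nat_lit 76) (nat_lit 11571663392) (nat_lit 0) (nat_lit 14347186746) (nat_lit 1900) (nat_lit 31306730367) (nat_lit 487) (nat_lit 5) (nat_lit 486) (nat_lit 5) (nat_lit 511) (nat_lit 5) (nat_lit 659) (nat_lit 648) (nat_lit 253)))))) (XT.nd (nat_lit 624) (nat_lit 1596) (nat_lit 0) (XT.nd (nat_lit 312) (nat_lit 0) (nat_lit 152) (XT.nd (nat_lit 156) (nat_lit 0) (nat_lit 76) (XT.nd (nat_lit 78) (nat_lit 0) (nat_lit 0) (XT.lf (nat_lit 0) (nat_lit 28378805836) (nat_lit 1824) (nat_lit 16231249806) (nat_lit 1900) (nat_lit 13206408696) (nat_lit 487) (nat_lit 5) (nat_lit 511) (nat_lit 5) (nat_lit 512) (nat_lit 5) (nat_lit 660) (nat_lit 648) (nat_lit 252)) (XT.lf (nat_lit 76) (nat_lit 13866348360) (nat_lit 0) (nat_lit 17206122512) (nat_lit 1900) (nat_lit 27343004789) (nat_lit 488) (nat_lit 5) (nat_lit 487) (nat_lit 5) (nat_lit 512) (nat_lit 5) (nat_lit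 661) (nat_lit 648) (nat_lit 251))) (XT.nd (nat_lit 78) (nat_lit 0) (nat_lit 0) (XT.lf (nat_lit 0) (nat_lit 33998895555) (nat_lit 1824) (nat_lit 14309239028) (nat_lit 1900) (nat_lit 10714754916) (nat_lit 488) (nat_lit 5) (nat_lit 512) (nat_lit 5) (nat_lit 513) (nat_lit 5) (nat_lit 662) (nat_lit 648) (nat_lit 250)) (XT.lf (nat_lit 76) (nat_lit 16639357931) (nat_lit 0) (nat_lit 20565958016) (nat_lit 1900) (nat_lit 22432706340) (nat_lit 489) (nat_lit 5) (nat_lit 488) (nat_lit 5) (nat_lit 513) (nat_lit 5) (nat_lit 663) (nat_lit 648) (nat_lit 249)))) (XT.nd (nat_lit 156) (nat_lit 0) (nat_lit 76) (XT.nd (nat_lit 78) (nat_lit 0) (nat_lit 0) (XT.lf (nat_lit 0) (nat_lit 40622212610) (nat_lit 1824) (nat_lit 11913854086) (nat_lit 1900) (nat_lit 7726464090) (nat_lit 489) (nat_lit 5) (nat_lit 513) (nat_lit 5) (nat_lit 514) (nat_lit 5) (nat_lit 664) (nat_lit 648) (nat_lit 248)) (XT.lf (nat_lit 76) (nat_lit 19917302362) (nat_lit 0) (nat_lit 24455163743) (nat_lit 1900)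 (nat_lit 16521762988) (nat_lit 490) (nat_lit 5) (nat_lit 489) (nat_lit 5) (nat_lit 514) (nat_lit 5) (nat_lit 665) (nat_lit 648) (nat_lit 247))) (XT.nd (nat_lit 78) (nat_lit 0) (nat_lit 0) (XT.lf (nat_lit 0) (nat_lit 48304901736) (nat_lit 1824) (nat_lit 9018480353) (nat_lit 1900) (nat_lit 4213035750) (nat_lit 490) (nat_lit 5) (nat_lit 514) (nat_lit 5) (nat_lit 515) (nat_lit 5) (nat_lit 666) (nat_lit 648) (nat_lit 246)) (XT.lf (nat_lit 76) (nat_lit 23728005958) (nat_lit 0) (nat_lit 28903514639) (nat_lit 1900) (nat_lit 9553619087) (nat_lit 491) (nat_lit 5) (nat_lit 490) (nat_lit 5) (nat_lit 515) (nat_lit 5) (nat_lit 667) (nat_lit 648) (nat_lit 245))))) (XT.nd (nat_lit 312) (nat_lit 0) (nat_lit 76) (XT.nd (nat_lit 156) (nat_lit 1900) (nat_lit 0) (XT.nd (nat_lit 78) (nat_lit 0) (nat_lit 0) (XT.lf (nat_lit 0) (nat_lit 57105671110) (nat_lit 1824) (nat_lit 5595285753) (nat_lit 1900) (nat_lit 144659131) (nat_lit 491) (nat_lit 5) (nat_lit 515) (nat_lit 5) (nat_lit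 516) (nat_lit 5) (nat_lit 668) (nat_lit 648) (nat_lit 244)) (XT.lf (nat_lit 76) (nat_lit 28100557480) (nat_lit 0) (nat_lit 33942147323) (nat_lit 1900) (nat_lit 1469129037) (nat_lit 492) (nat_lit 5) (nat_lit 491) (nat_lit 5) (nat_lit 516) (nat_lit 5) (nat_lit 669) (nat_lit 648) (nat_lit 243))) (XT.nd (nat_lit 78) (nat_lit 0) (nat_lit 76) (XT.lf (nat_lit 0) (nat_lit 2886576553) (nat_lit 1900) (nat_lit 1663830805) (nat_lit 1976) (nat_lit 59639847032) (nat_lit 466) (nat_lit 5) (nat_lit 491) (nat_lit 5) (nat_lit 492) (nat_lit 5) (nat_lit 670) (nat_lit 648) (nat_lit 242)) (XT.lf (nat_lit 0) (nat_lit 7691339555) (nat_lit 1900) (nat_lit 31860667190) (nat_lit 1976) (nat_lit 25322410103) (nat_lit 467) (nat_lit 5) (nat_lit 492) (nat_lit 5) (nat_lit 493) (nat_lit 5) (nat_lit 671) (nat_lit 648) (nat_lit 241)))) (XT.nd (nat_lit 79404) (nat_lit 0) (nat_lit 1064) (XT.nd (nat_lit 78) (nat_lit 0) (nat_lit 76) (XT.lf (nat_lit 76) (nat_lit 2842086743) (nat_lit 0) (nat_lit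 9809496286) (nat_lit 1976) (nat_lit 52919491833) (nat_lit 468) (nat_lit 5) (nat_lit 467) (nat_lit 5) (nat_lit 493) (nat_lit 5) (nat_lit 672) (nat_lit 648) (nat_lit 240)) (XT.lf (nat_lit 0) (nat_lit 18059094524) (nat_lit 1900) (nat_lit 27741692394) (nat_lit 76) (nat_lit 20473917869) (nat_lit 468) (nat_lit 5) (nat_lit 493) (nat_lit 5) (nat_lit 469) (nat_lit 5) (nat_lit 673) (nat_lit 648) (nat_lit 239))) (XT.nd (nat_lit 78) (nat_lit 0) (nat_lit 0) (XT.lf (nat_lit 0) (nat_lit 6593396646) (nat_lit 1900) (nat_lit 9764656156) (nat_lit 1900) (nat_lit 9764656156) (nat_lit 481) (nat_lit 3) (nat_lit 506) (nat_lit 3) (nat_lit 506) (nat_lit 5) (nat_lit 649) (nat_lit 649) (nat_lit 262)) (XT.lf (nat_lit 76) (nat_lit 6574492623) (nat_lit 0) (nat_lit 6811003886) (nat_lit 1900) (nat_lit 39381038151) (nat_lit 482) (nat_lit 5) (nat_lit 481) (nat_lit 3) (nat_lit 506) (nat_lit 5) (nat_lit 650) (nat_lit 649) (nat_lit 261))))))))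
noncomputable def xc253 : XT := (XT.nd (nat_lit 81822) (nat_lit 0) (nat_lit 0) (XT.nd (nat_lit 1170) (nat_lit 1216) (nat_lit 0) (XT.nd (nat_lit 546) (nat_lit 0) (nat_lit 228) (XT.nd (nat_lit 234) (nat_lit 0) (nat_lit 76) (XT.nd (nat_lit 78) (nat_lit 0) (nat_lit 0) (XT.lf (nat_lit 0) (nat_lit 13846795490) (nat_lit 1824) (nat_lit 19958899468) (nat_lit 1900) (nat_lit 19487206364) (nat_lit 482) (nat_lit 5) (nat_lit 506) (nat_lit 5) (nat_lit 507) (nat_lit 5) (nat_lit 651) (nat_lit 649) (nat_lit 260)) (XT.nd (nat_lit 78) (nat_lit 0) (nat_lit 76) (XT.lf (nat_lit 76) (nat_lit 6843214571) (nat_lit 0) (nat_lit 7563021406) (nat_lit 1900) (nat_lit 39421781050) (nat_lit 483) (nat_lit 5) (nat_lit 482) (nat_lit 5) (nat_lit 507) (nat_lit 5) (nat_lit 652) (nat_lit 649) (nat_lit 259)) (XT.lf (nat_lit 0) (nat_lit 15235766042) (nat_lit 1824) (nat_lit 20045159922) (nat_lit 1900) (nat_lit 19087731085) (nat_lit 483) (nat_lit 5) (nat_lit 507) (nat_lit 5) (nat_lit 508) (nat_lit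 5) (nat_lit 653) (nat_lit 649) (nat_lit 258)))) (XT.nd (nat_lit 156) (nat_lit 0) (nat_lit 76) (XT.nd (nat_lit 78) (nat_lit 0) (nat_lit 76) (XT.lf (nat_lit 76) (nat_lit 7480962989) (nat_lit 0) (nat_lit 8698983949) (nat_lit 1900) (nat_lit 38738201746) (nat_lit 484) (nat_lit 5) (nat_lit 483) (nat_lit 5) (nat_lit 508) (nat_lit 5) (nat_lit 654) (nat_lit 649) (nat_lit 257)) (XT.lf (nat_lit 0) (nat_lit 17397389382) (nat_lit 1824) (nat_lit 19767416272) (nat_lit 1900) (nat_lit 18308736957) (nat_lit 484) (nat_lit 5) (nat_lit 508) (nat_lit 5) (nat_lit 509) (nat_lit 5) (nat_lit 655) (nat_lit 649) (nat_lit 256))) (XT.nd (nat_lit 78) (nat_lit 0) (nat_lit 76) (XT.lf (nat_lit 76) (nat_lit 8509396968) (nat_lit 0) (nat_lit 10242066776) (nat_lit 1900) (nat_lit 37286335029) (nat_lit 485) (nat_lit 5) (nat_lit 484) (nat_lit 5) (nat_lit 509) (nat_lit 5) (nat_lit 656) (nat_lit 649) (nat_lit 255)) (XT.lf (nat_lit 0) (nat_lit 20377381580) (nat_lit 1824) (nat_lit 19104019719) (nat_lit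 1900) (nat_lit 17127043536) (nat_lit 485) (nat_lit 5) (nat_lit 509) (nat_lit 5) (nat_lit 510) (nat_lit 5) (nat_lit 657) (nat_lit 649) (nat_lit 254))))) (XT.nd (nat_lit 312) (nat_lit 0) (nat_lit 152) (XT.nd (nat_lit 156) (nat_lit 0) (nat_lit 76) (XT.nd (nat_lit 78) (nat_lit 0) (nat_lit 76) (XT.lf (nat_lit 76) (nat_lit 9951185107) (nat_lit 0) (nat_lit 12216517432) (nat_lit 1900) (nat_lit 35020163601) (nat_lit 486) (nat_lit 5) (nat_lit 485) (nat_lit 5) (nat_lit 510) (nat_lit 5) (nat_lit 658) (nat_lit 649) (nat_lit 253)) (XT.lf (nat_lit 0) (nat_lit 24223578054) (nat_lit 1824) (nat_lit 18032309403) (nat_lit 1900) (nat_lit 15518393467) (nat_lit 486) (nat_lit 5) (nat_lit 510) (nat_lit 5) (nat_lit 511) (nat_lit 5) (nat_lit 659) (nat_lit 649) (nat_lit 252))) (XT.nd (nat_lit 78) (nat_lit 0) (nat_lit 76) (XT.lf (nat_lit 76) (nat_lit 11830047662) (nat_lit 0) (nat_lit 14647703380) (nat_lit 1900) (nat_lit 31891529379) (nat_lit 487) (nat_lit 5) (nat_lit 486) (nat_lit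 5) (nat_lit 511) (nat_lit 5) (nat_lit 660) (nat_lit 649) (nat_lit 251)) (XT.lf (nat_lit 0) (nat_lit 28986024872) (nat_lit 1824) (nat_lit 16528570077) (nat_lit 1900) (nat_lit 13457404626) (nat_lit 487) (nat_lit 5) (nat_lit 511) (nat_lit 5) (nat_lit 512) (nat_lit 5) (nat_lit 661) (nat_lit 649) (nat_lit 250)))) (XT.nd (nat_lit 156) (nat_lit 0) (nat_lit 76) (XT.nd (nat_lit 78) (nat_lit 0) (nat_lit 76) (XT.lf (nat_lit 76) (nat_lit 14170800417) (nat_lit 0) (nat_lit 17562161595) (nat_lit 1900) (nat_lit 27850041161) (nat_lit 488) (nat_lit 5) (nat_lit 487) (nat_lit 5) (nat_lit 512) (nat_lit 5) (nat_lit 662) (nat_lit 649) (nat_lit 249)) (XT.lf (nat_lit 0) (nat_lit 34717073810) (nat_lit 1824) (nat_lit 14567988062) (nat_lit 1900) (nat_lit 10917520266) (nat_lit 488) (nat_lit 5) (nat_lit 512) (nat_lit 5) (nat_lit 513) (nat_lit 5) (nat_lit 663) (nat_lit 649) (nat_lit 248))) (XT.nd (nat_lit 78) (nat_lit 0) (nat_lit 76) (XT.lf (nat_lit 76) (nat_lit 16999400338) (nat_lit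 0) (nat_lit 20987650204) (nat_lit 1900) (nat_lit 22842978502) (nat_lit 489) (nat_lit 5) (nat_lit 488) (nat_lit 5) (nat_lit 513) (nat_lit 5) (nat_lit 664) (nat_lit 649) (nat_lit 247)) (XT.lf (nat_lit 0) (nat_lit 41471481302) (nat_lit 1824) (nat_lit 12124605398) (nat_lit 1900) (nat_lit 7870957113) (nat_lit 489) (nat_lit 5) (nat_lit 513) (nat_lit 5) (nat_lit 514) (nat_lit 5) (nat_lit 665) (nat_lit 649) (nat_lit 246)))))) (XT.nd (nat_lit 80028) (nat_lit 0) (nat_lit 1140) (XT.nd (nat_lit 312) (nat_lit 1748) (nat_lit 0) (XT.nd (nat_lit 156) (nat_lit 0) (nat_lit 76) (XT.nd (nat_lit 78) (nat_lit 0) (nat_lit 76) (XT.lf (nat_lit 76) (nat_lit 20342993088) (nat_lit 0) (nat_lit 24953202269) (nat_lit 1900) (nat_lit 16815191639) (nat_lit 490) (nat_lit 5) (nat_lit 489) (nat_lit 5) (nat_lit 514) (nat_lit 5) (nat_lit 666) (nat_lit 649) (nat_lit 245)) (XT.lf (nat_lit 0) (nat_lit 49306511454) (nat_lit 1824) (nat_lit 9171272146) (nat_lit 1900) (nat_lit 4288651304) (nat_lit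 490) (nat_lit 5) (nat_lit 514) (nat_lit 5) (nat_lit 515) (nat_lit 5) (nat_lit 667) (nat_lit 649) (nat_lit 244))) (XT.nd (nat_lit 78) (nat_lit 0) (nat_lit 76) (XT.lf (nat_lit 76) (nat_lit 24229962458) (nat_lit 0) (nat_lit 29489181802) (nat_lit 1900) (nat_lit 9708997314) (nat_lit 491) (nat_lit 5) (nat_lit 490) (nat_lit 5) (nat_lit 515) (nat_lit 5) (nat_lit 668) (nat_lit 649) (nat_lit 243)) (XT.lf (nat_lit 0) (nat_lit 58282043285) (nat_lit 1824) (nat_lit 5679596755) (nat_lit 1900) (nat_lit 140202082) (nat_lit 491) (nat_lit 5) (nat_lit 515) (nat_lit 5) (nat_lit 516) (nat_lit 5) (nat_lit 669) (nat_lit 649) (nat_lit 242)))) (XT.nd (nat_lit 156) (nat_lit 0) (nat_lit 76) (XT.nd (nat_lit 78) (nat_lit 1900) (nat_lit 0) (XT.lf (nat_lit 76) (nat_lit 28689981799) (nat_lit 0) (nat_lit 34627342098) (nat_lit 1900) (nat_lit 1464070324) (nat_lit 492) (nat_lit 5) (nat_lit 491) (nat_lit 5) (nat_lit 516) (nat_lit 5) (nat_lit 670) (nat_lit 649) (nat_lit 241)) (XT.lf (nat_lit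 0) (nat_lit 2977631212) (nat_lit 1900) (nat_lit 1669787961) (nat_lit 1976) (nat_lit 60825972886) (nat_lit 466) (nat_lit 5) (nat_lit 491) (nat_lit 5) (nat_lit 492) (nat_lit 5) (nat_lit 671) (nat_lit 649) (nat_lit 240))) (XT.nd (nat_lit 79482) (nat_lit 0) (nat_lit 1064) (XT.lf (nat_lit 0) (nat_lit 7877975239) (nat_lit 1900) (nat_lit 32470045900) (nat_lit 1976) (nat_lit 25823226929) (nat_lit 467) (nat_lit 5) (nat_lit 492) (nat_lit 5) (nat_lit 493) (nat_lit 5) (nat_lit 672) (nat_lit 649) (nat_lit 239)) (XT.lf (nat_lit 0) (nat_lit 6749257103) (nat_lit 1900) (nat_lit 9947712729) (nat_lit 1900) (nat_lit 9947712729) (nat_lit 481) (nat_lit 3) (nat_lit 506) (nat_lit 3) (nat_lit 506) (nat_lit 5) (nat_lit 650) (nat_lit 650) (nat_lit 260))))) (XT.nd (nat_lit 312) (nat_lit 0) (nat_lit 152) (XT.nd (nat_lit 156) (nat_lit 0) (nat_lit 76) (XT.nd (nat_lit 78) (nat_lit 0) (nat_lit 76) (XT.lf (nat_lit 76) (nat_lit 6730294569) (nat_lit 0) (nat_lit 6970113886) (nat_lit 1900)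 (nat_lit 40120511435) (nat_lit 482) (nat_lit 5) (nat_lit 481) (nat_lit 3) (nat_lit 506) (nat_lit 5) (nat_lit 651) (nat_lit 650) (nat_lit 259)) (XT.lf (nat_lit 0) (nat_lit 14169862183) (nat_lit 1824) (nat_lit 20333169444) (nat_lit 1900) (nat_lit 19854803711) (nat_lit 482) (nat_lit 5) (nat_lit 506) (nat_lit 5) (nat_lit 507) (nat_lit 5) (nat_lit 652) (nat_lit 650) (nat_lit 258))) (XT.nd (nat_lit 78) (nat_lit 0) (nat_lit 76) (XT.lf (nat_lit 76) (nat_lit 7004823008) (nat_lit 0) (nat_lit 7734924602) (nat_lit 1900) (nat_lit 40163920651) (nat_lit 483) (nat_lit 5) (nat_lit 482) (nat_lit 5) (nat_lit 507) (nat_lit 5) (nat_lit 653) (nat_lit 650) (nat_lit 257)) (XT.lf (nat_lit 0) (nat_lit 15584846939) (nat_lit 1824) (nat_lit 20420781474) (nat_lit 1900) (nat_lit 19449513123) (nat_lit 483) (nat_lit 5) (nat_lit 507) (nat_lit 5) (nat_lit 508) (nat_lit 5) (nat_lit 654) (nat_lit 650) (nat_lit 256)))) (XT.nd (nat_lit 156) (nat_lit 0) (nat_lit 76) (XT.nd (nat_lit 78) (nat_lit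 0) (nat_lit 76) (XT.lf (nat_lit 76) (nat_lit 7655697568) (nat_lit 0) (nat_lit 8891507037) (nat_lit 1900) (nat_lit 39468432564) (nat_lit 484) (nat_lit 5) (nat_lit 483) (nat_lit 5) (nat_lit 508) (nat_lit 5) (nat_lit 655) (nat_lit 650) (nat_lit 255)) (XT.lf (nat_lit 0) (nat_lit 17788021808) (nat_lit 1824) (nat_lit 20137166357) (nat_lit 1900) (nat_lit 18656970316) (nat_lit 484) (nat_lit 5) (nat_lit 508) (nat_lit 5) (nat_lit 509) (nat_lit 5) (nat_lit 656) (nat_lit 650) (nat_lit 254))) (XT.nd (nat_lit 78) (nat_lit 0) (nat_lit 76) (XT.lf (nat_lit 76) (nat_lit 8705014738) (nat_lit 0) (nat_lit 10463491073) (nat_lit 1900) (nat_lit 37989207418) (nat_lit 485) (nat_lit 5) (nat_lit 484) (nat_lit 5) (nat_lit 509) (nat_lit 5) (nat_lit 657) (nat_lit 650) (nat_lit 253)) (XT.lf (nat_lit 0) (nat_lit 20826012667) (nat_lit 1824) (nat_lit 19460238331) (nat_lit 1900) (nat_lit 17453539825) (nat_lit 485) (nat_lit 5) (nat_lit 509) (nat_lit 5) (nat_lit 510) (nat_lit 5) (nat_lit 658)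 (nat_lit 650) (nat_lit 252))))))) (XT.nd (nat_lit 80652) (nat_lit 0) (nat_lit 1140) (XT.nd (nat_lit 546) (nat_lit 1444) (nat_lit 0) (XT.nd (nat_lit 234) (nat_lit 0) (nat_lit 152) (XT.nd (nat_lit 78) (nat_lit 0) (nat_lit 76) (XT.lf (nat_lit 76) (nat_lit 10175900448) (nat_lit 0) (nat_lit 12475600846) (nat_lit 1900) (nat_lit 35679312059) (nat_lit 486) (nat_lit 5) (nat_lit 485) (nat_lit 5) (nat_lit 510) (nat_lit 5) (nat_lit 659) (nat_lit 650) (nat_lit 251)) (XT.nd (nat_lit 78) (nat_lit 0) (nat_lit 0) (XT.lf (nat_lit 0) (nat_lit 24747607378) (nat_lit 1824) (nat_lit 18366879576) (nat_lit 1900) (nat_lit 15814487242) (nat_lit 486) (nat_lit 5) (nat_lit 510) (nat_lit 5) (nat_lit 511) (nat_lit 5) (nat_lit 660) (nat_lit 650) (nat_lit 250)) (XT.lf (nat_lit 76) (nat_lit 12092553077) (nat_lit 0) (nat_lit 14953703295) (nat_lit 1900) (nat_lit 32489629483) (nat_lit 487) (nat_lit 5) (nat_lit 486) (nat_lit 5) (nat_lit 511) (nat_lit 5) (nat_lit 661) (nat_lit 650) (nat_lit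 249)))) (XT.nd (nat_lit 156) (nat_lit 0) (nat_lit 76) (XT.nd (nat_lit 78) (nat_lit 0) (nat_lit 0) (XT.lf (nat_lit 0) (nat_lit 29603848906) (nat_lit 1824) (nat_lit 16832897029) (nat_lit 1900) (nat_lit 13713930416) (nat_lit 487) (nat_lit 5) (nat_lit 511) (nat_lit 5) (nat_lit 512) (nat_lit 5) (nat_lit 662) (nat_lit 650) (nat_lit 248)) (XT.lf (nat_lit 76) (nat_lit 14480288214) (nat_lit 0) (nat_lit 17924858722) (nat_lit 1900) (nat_lit 28368764665) (nat_lit 488) (nat_lit 5) (nat_lit 487) (nat_lit 5) (nat_lit 512) (nat_lit 5) (nat_lit 663) (nat_lit 650) (nat_lit 247))) (XT.nd (nat_lit 78) (nat_lit 0) (nat_lit 0) (XT.lf (nat_lit 0) (nat_lit 35448132264) (nat_lit 1824) (nat_lit 14832977439) (nat_lit 1900) (nat_lit 11124788637) (nat_lit 488) (nat_lit 5) (nat_lit 512) (nat_lit 5) (nat_lit 513) (nat_lit 5) (nat_lit 664) (nat_lit 650) (nat_lit 246)) (XT.lf (nat_lit 76) (nat_lit 17365585239) (nat_lit 0) (nat_lit 21417373438) (nat_lit 1900) (nat_lit 23262946526) (nat_lit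 489) (nat_lit 5) (nat_lit 488) (nat_lit 5) (nat_lit 513) (nat_lit 5) (nat_lit 665) (nat_lit 650) (nat_lit 245))))) (XT.nd (nat_lit 312) (nat_lit 1748) (nat_lit 0) (XT.nd (nat_lit 156) (nat_lit 0) (nat_lit 76) (XT.nd (nat_lit 78) (nat_lit 0) (nat_lit 0) (XT.lf (nat_lit 0) (nat_lit 42336305429) (nat_lit 1824) (nat_lit 12340640595) (nat_lit 1900) (nat_lit 8018729717) (nat_lit 489) (nat_lit 5) (nat_lit 513) (nat_lit 5) (nat_lit 514) (nat_lit 5) (nat_lit 666) (nat_lit 650) (nat_lit 244)) (XT.lf (nat_lit 76) (nat_lit 20776135802) (nat_lit 0) (nat_lit 25460854600) (nat_lit 1900) (nat_lit 17115925875) (nat_lit 490) (nat_lit 5) (nat_lit 489) (nat_lit 5) (nat_lit 514) (nat_lit 5) (nat_lit 667) (nat_lit 650) (nat_lit 243))) (XT.nd (nat_lit 78) (nat_lit 0) (nat_lit 0) (XT.lf (nat_lit 0) (nat_lit 50326774405) (nat_lit 1824) (nat_lit 9328190655) (nat_lit 1900) (nat_lit 4366114871) (nat_lit 490) (nat_lit 5) (nat_lit 514) (nat_lit 5) (nat_lit 515) (nat_lit 5) (nat_lit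 668) (nat_lit 650) (nat_lit 242)) (XT.lf (nat_lit 76) (nat_lit 24740894254) (nat_lit 0) (nat_lit 30086267313) (nat_lit 1900) (nat_lit 9868869154) (nat_lit 491) (nat_lit 5) (nat_lit 490) (nat_lit 5) (nat_lit 515) (nat_lit 5) (nat_lit 669) (nat_lit 650) (nat_lit 241)))) (XT.nd (nat_lit 156) (nat_lit 1900) (nat_lit 0) (XT.nd (nat_lit 78) (nat_lit 0) (nat_lit 0) (XT.lf (nat_lit 0) (nat_lit 59480612594) (nat_lit 1824) (nat_lit 5766665513) (nat_lit 1900) (nat_lit 135941311) (nat_lit 491) (nat_lit 5) (nat_lit 515) (nat_lit 5) (nat_lit 516) (nat_lit 5) (nat_lit 670) (nat_lit 650) (nat_lit 240)) (XT.lf (nat_lit 76) (nat_lit 29290130117) (nat_lit 0) (nat_lit 35325994118) (nat_lit 1900) (nat_lit 1460247834) (nat_lit 492) (nat_lit 5) (nat_lit 491) (nat_lit 5) (nat_lit 516) (nat_lit 5) (nat_lit 671) (nat_lit 650) (nat_lit 239))) (XT.nd (nat_lit 79560) (nat_lit 0) (nat_lit 1140) (XT.lf (nat_lit 0) (nat_lit 3069212986) (nat_lit 1900) (nat_lit 1676925107) (nat_lit 1976)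 (nat_lit 62036080302) (nat_lit 466) (nat_lit 5) (nat_lit 491) (nat_lit 5) (nat_lit 492) (nat_lit 5) (nat_lit 672) (nat_lit 650) (nat_lit 238)) (XT.lf (nat_lit 0) (nat_lit 6907303110) (nat_lit 1900) (nat_lit 10134905593) (nat_lit 1900) (nat_lit 10134905593) (nat_lit 481) (nat_lit 3) (nat_lit 506) (nat_lit 3) (nat_lit 506) (nat_lit 5) (nat_lit 651) (nat_lit 651) (nat_lit 258)))))) (XT.nd (nat_lit 624) (nat_lit 0) (nat_lit 304) (XT.nd (nat_lit 312) (nat_lit 0) (nat_lit 152) (XT.nd (nat_lit 156) (nat_lit 0) (nat_lit 76) (XT.nd (nat_lit 78) (nat_lit 0) (nat_lit 76) (XT.lf (nat_lit 76) (nat_lit 6888268486) (nat_lit 0) (nat_lit 7131517242) (nat_lit 1900) (nat_lit 40876643809) (nat_lit 482) (nat_lit 5) (nat_lit 481) (nat_lit 3) (nat_lit 506) (nat_lit 5) (nat_lit 652) (nat_lit 651) (nat_lit 257)) (XT.lf (nat_lit 0) (nat_lit 14497598896) (nat_lit 1824) (nat_lit 20715892027) (nat_lit 1900) (nat_lit 20230612991) (nat_lit 482) (nat_lit 5) (nat_lit 506) (nat_lit 5)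 (nat_lit 507) (nat_lit 5) (nat_lit 653) (nat_lit 651) (nat_lit 256))) (XT.nd (nat_lit 78) (nat_lit 0) (nat_lit 76) (XT.lf (nat_lit 76) (nat_lit 7168702768) (nat_lit 0) (nat_lit 7909464279) (nat_lit 1900) (nat_lit 40922700775) (nat_lit 483) (nat_lit 5) (nat_lit 482) (nat_lit 5) (nat_lit 507) (nat_lit 5) (nat_lit 654) (nat_lit 651) (nat_lit 255)) (XT.lf (nat_lit 0) (nat_lit 15939186684) (nat_lit 1824) (nat_lit 20804897175) (nat_lit 1900) (nat_lit 19819306363) (nat_lit 483) (nat_lit 5) (nat_lit 507) (nat_lit 5) (nat_lit 508) (nat_lit 5) (nat_lit 655) (nat_lit 651) (nat_lit 254)))) (XT.nd (nat_lit 156) (nat_lit 0) (nat_lit 76) (XT.nd (nat_lit 78) (nat_lit 0) (nat_lit 76) (XT.lf (nat_lit 76) (nat_lit 7832951580) (nat_lit 0) (nat_lit 9087160523) (nat_lit 1900) (nat_lit 40214997277) (nat_lit 484) (nat_lit 5) (nat_lit 483) (nat_lit 5) (nat_lit 508) (nat_lit 5) (nat_lit 656) (nat_lit 651) (nat_lit 253)) (XT.lf (nat_lit 0) (nat_lit 18184809386) (nat_lit 1824) (nat_lit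 20515305455) (nat_lit 1900) (nat_lit 19012865027) (nat_lit 484) (nat_lit 5) (nat_lit 508) (nat_lit 5) (nat_lit 509) (nat_lit 5) (nat_lit 657) (nat_lit 651) (nat_lit 252))) (XT.nd (nat_lit 78) (nat_lit 0) (nat_lit 76) (XT.lf (nat_lit 76) (nat_lit 8903557392) (nat_lit 0) (nat_lit 10688699919) (nat_lit 1900) (nat_lit 38707801339) (nat_lit 485) (nat_lit 5) (nat_lit 484) (nat_lit 5) (nat_lit 509) (nat_lit 5) (nat_lit 658) (nat_lit 651) (nat_lit 251)) (XT.lf (nat_lit 0) (nat_lit 21282021055) (nat_lit 1824) (nat_lit 19824585560) (nat_lit 1900) (nat_lit 17787189070) (nat_lit 485) (nat_lit 5) (nat_lit 509) (nat_lit 5) (nat_lit 510) (nat_lit 5) (nat_lit 659) (nat_lit 651) (nat_lit 250))))) (XT.nd (nat_lit 312) (nat_lit 0) (nat_lit 152) (XT.nd (nat_lit 156) (nat_lit 0) (nat_lit 76) (XT.nd (nat_lit 78) (nat_lit 0) (nat_lit 76) (XT.lf (nat_lit 76) (nat_lit 10404112459) (nat_lit 0) (nat_lit 12739293049) (nat_lit 1900) (nat_lit 36353245461) (nat_lit 486) (nat_lit 5)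 (nat_lit 485) (nat_lit 5) (nat_lit 510) (nat_lit 5) (nat_lit 660) (nat_lit 651) (nat_lit 249)) (XT.lf (nat_lit 0) (nat_lit 25280581212) (nat_lit 1824) (nat_lit 18709153716) (nat_lit 1900) (nat_lit 16117057173) (nat_lit 486) (nat_lit 5) (nat_lit 510) (nat_lit 5) (nat_lit 511) (nat_lit 5) (nat_lit 661) (nat_lit 651) (nat_lit 248))) (XT.nd (nat_lit 78) (nat_lit 0) (nat_lit 76) (XT.lf (nat_lit 76) (nat_lit 12359302699) (nat_lit 0) (nat_lit 15265316622) (nat_lit 1900) (nat_lit 33101234372) (nat_lit 487) (nat_lit 5) (nat_lit 486) (nat_lit 5) (nat_lit 511) (nat_lit 5) (nat_lit 662) (nat_lit 651) (nat_lit 247)) (XT.lf (nat_lit 0) (nat_lit 30232549814) (nat_lit 1824) (nat_lit 17144329624) (nat_lit 1900) (nat_lit 13976076862) (nat_lit 487) (nat_lit 5) (nat_lit 511) (nat_lit 5) (nat_lit 512) (nat_lit 5) (nat_lit 663) (nat_lit 651) (nat_lit 246)))) (XT.nd (nat_lit 156) (nat_lit 0) (nat_lit 76) (XT.nd (nat_lit 78) (nat_lit 0) (nat_lit 76) (XT.lf (nat_lit 76) (nat_lit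 14794953367) (nat_lit 0) (nat_lit 18294365022) (nat_lit 1900) (nat_lit 28899348993) (nat_lit 488) (nat_lit 5) (nat_lit 487) (nat_lit 5) (nat_lit 512) (nat_lit 5) (nat_lit 664) (nat_lit 651) (nat_lit 245)) (XT.lf (nat_lit 0) (nat_lit 36192386122) (nat_lit 1824) (nat_lit 15104290599) (nat_lit 1900) (nat_lit 11336632705) (nat_lit 488) (nat_lit 5) (nat_lit 512) (nat_lit 5) (nat_lit 513) (nat_lit 5) (nat_lit 665) (nat_lit 651) (nat_lit 244))) (XT.nd (nat_lit 78) (nat_lit 0) (nat_lit 76) (XT.lf (nat_lit 76) (nat_lit 17738076581) (nat_lit 0) (nat_lit 21855303981) (nat_lit 1900) (nat_lit 23692746454) (nat_lit 489) (nat_lit 5) (nat_lit 488) (nat_lit 5) (nat_lit 513) (nat_lit 5) (nat_lit 666) (nat_lit 651) (nat_lit 243)) (XT.lf (nat_lit 0) (nat_lit 43217051627) (nat_lit 1824) (nat_lit 12562023850) (nat_lit 1900) (nat_lit 8169832360) (nat_lit 489) (nat_lit 5) (nat_lit 513) (nat_lit 5) (nat_lit 514) (nat_lit 5) (nat_lit 667) (nat_lit 651) (nat_lit 242))))))))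
noncomputable def xc254 : XT := (XT.nd (nat_lit 161772) (nat_lit 0) (nat_lit 0) (XT.nd (nat_lit 80808) (nat_lit 0) (nat_lit 0) (XT.nd (nat_lit 80184) (nat_lit 0) (nat_lit 76) (XT.nd (nat_lit 234) (nat_lit 608) (nat_lit 0) (XT.nd (nat_lit 78) (nat_lit 0) (nat_lit 76) (XT.lf (nat_lit 76) (nat_lit 21216920775) (nat_lit 0) (nat_lit 25978326483) (nat_lit 1900) (nat_lit 17424056006) (nat_lit 490) (nat_lit 5) (nat_lit 489) (nat_lit 5) (nat_lit 514) (nat_lit 5) (nat_lit 668) (nat_lit 651) (nat_lit 241)) (XT.nd (nat_lit 78) (nat_lit 0) (nat_lit 0) (XT.lf (nat_lit 0) (nat_lit 51366117200) (nat_lit 1824) (nat_lit 9489276830) (nat_lit 1900) (nat_lit 4445450376) (nat_lit 490) (nat_lit 5) (nat_lit 514) (nat_lit 5) (nat_lit 515) (nat_lit 5) (nat_lit 669) (nat_lit 651) (nat_lit 240)) (XT.lf (nat_lit 76) (nat_lit 25261022160) (nat_lit 0) (nat_lit 30695010994) (nat_lit 1900) (nat_lit 10033270657) (nat_lit 491) (nat_lit 5) (nat_lit 490) (nat_lit 5) (nat_lit 515) (nat_lit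 5) (nat_lit 670) (nat_lit 651) (nat_lit 239)))) (XT.nd (nat_lit 79794) (nat_lit 0) (nat_lit 0) (XT.nd (nat_lit 79716) (nat_lit 760) (nat_lit 0) (XT.lf (nat_lit 0) (nat_lit 60701874638) (nat_lit 1824) (nat_lit 5856505574) (nat_lit 1900) (nat_lit 131869659) (nat_lit 491) (nat_lit 5) (nat_lit 515) (nat_lit 5) (nat_lit 516) (nat_lit 5) (nat_lit 671) (nat_lit 651) (nat_lit 238)) (XT.lf (nat_lit 0) (nat_lit 7067614557) (nat_lit 1900) (nat_lit 10326299024) (nat_lit 1900) (nat_lit 10326299024) (nat_lit 481) (nat_lit 3) (nat_lit 506) (nat_lit 3) (nat_lit 506) (nat_lit 5) (nat_lit 652) (nat_lit 652) (nat_lit 256))) (XT.nd (nat_lit 78) (nat_lit 0) (nat_lit 76) (XT.lf (nat_lit 76) (nat_lit 7048494472) (nat_lit 0) (nat_lit 7295294336) (nat_lit 1900) (nat_lit 41649695856) (nat_lit 482) (nat_lit 5) (nat_lit 481) (nat_lit 3) (nat_lit 506) (nat_lit 5) (nat_lit 653) (nat_lit 652) (nat_lit 255)) (XT.lf (nat_lit 0) (nat_lit 14830168587) (nat_lit 1824) (nat_lit 21107198713)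 (nat_lit 1900) (nat_lit 20614765048) (nat_lit 482) (nat_lit 5) (nat_lit 506) (nat_lit 5) (nat_lit 507) (nat_lit 5) (nat_lit 654) (nat_lit 652) (nat_lit 254))))) (XT.nd (nat_lit 312) (nat_lit 0) (nat_lit 152) (XT.nd (nat_lit 156) (nat_lit 0) (nat_lit 76) (XT.nd (nat_lit 78) (nat_lit 0) (nat_lit 76) (XT.lf (nat_lit 76) (nat_lit 7334936589) (nat_lit 0) (nat_lit 8086724291) (nat_lit 1900) (nat_lit 41698384424) (nat_lit 483) (nat_lit 5) (nat_lit 482) (nat_lit 5) (nat_lit 507) (nat_lit 5) (nat_lit 655) (nat_lit 652) (nat_lit 253)) (XT.lf (nat_lit 0) (nat_lit 16298957351) (nat_lit 1824) (nat_lit 21197638786) (nat_lit 1900) (nat_lit 20197240911) (nat_lit 483) (nat_lit 5) (nat_lit 507) (nat_lit 5) (nat_lit 508) (nat_lit 5) (nat_lit 656) (nat_lit 652) (nat_lit 252))) (XT.nd (nat_lit 78) (nat_lit 0) (nat_lit 76) (XT.lf (nat_lit 76) (nat_lit 8012813284) (nat_lit 0) (nat_lit 9286034976) (nat_lit 1900) (nat_lit 40978155413) (nat_lit 484) (nat_lit 5) (nat_lit 483) (nat_lit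 5) (nat_lit 508) (nat_lit 5) (nat_lit 657) (nat_lit 652) (nat_lit 251)) (XT.lf (nat_lit 0) (nat_lit 18587939582) (nat_lit 1824) (nat_lit 20901962747) (nat_lit 1900) (nat_lit 19376547265) (nat_lit 484) (nat_lit 5) (nat_lit 508) (nat_lit 5) (nat_lit 509) (nat_lit 5) (nat_lit 658) (nat_lit 652) (nat_lit 250)))) (XT.nd (nat_lit 156) (nat_lit 0) (nat_lit 76) (XT.nd (nat_lit 78) (nat_lit 0) (nat_lit 76) (XT.lf (nat_lit 76) (nat_lit 9105121772) (nat_lit 0) (nat_lit 10917794011) (nat_lit 1900) (nat_lit 39442366605) (nat_lit 485) (nat_lit 5) (nat_lit 484) (nat_lit 5) (nat_lit 509) (nat_lit 5) (nat_lit 659) (nat_lit 652) (nat_lit 249)) (XT.lf (nat_lit 0) (nat_lit 21745616239) (nat_lit 1824) (nat_lit 20197184981) (nat_lit 1900) (nat_lit 18128110139) (nat_lit 485) (nat_lit 5) (nat_lit 509) (nat_lit 5) (nat_lit 510) (nat_lit 5) (nat_lit 660) (nat_lit 652) (nat_lit 248))) (XT.nd (nat_lit 78) (nat_lit 0) (nat_lit 76) (XT.lf (nat_lit 76) (nat_lit 10635929811) (nat_lit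 0) (nat_lit 13007708462) (nat_lit 1900) (nat_lit 37042197299) (nat_lit 486) (nat_lit 5) (nat_lit 485) (nat_lit 5) (nat_lit 510) (nat_lit 5) (nat_lit 661) (nat_lit 652) (nat_lit 247)) (XT.lf (nat_lit 0) (nat_lit 25822738095) (nat_lit 1824) (nat_lit 19059246583) (nat_lit 1900) (nat_lit 16426211260) (nat_lit 486) (nat_lit 5) (nat_lit 510) (nat_lit 5) (nat_lit 511) (nat_lit 5) (nat_lit 662) (nat_lit 652) (nat_lit 246)))))) (XT.nd (nat_lit 624) (nat_lit 380) (nat_lit 0) (XT.nd (nat_lit 312) (nat_lit 0) (nat_lit 152) (XT.nd (nat_lit 156) (nat_lit 0) (nat_lit 76) (XT.nd (nat_lit 78) (nat_lit 0) (nat_lit 76) (XT.lf (nat_lit 76) (nat_lit 12630420472) (nat_lit 0) (nat_lit 15582675301) (nat_lit 1900) (nat_lit 33726554234) (nat_lit 487) (nat_lit 5) (nat_lit 486) (nat_lit 5) (nat_lit 511) (nat_lit 5) (nat_lit 663) (nat_lit 652) (nat_lit 245)) (XT.lf (nat_lit 0) (nat_lit 30872402588) (nat_lit 1824) (nat_lit 17462970402) (nat_lit 1900) (nat_lit 14243937342) (nat_lit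 487) (nat_lit 5) (nat_lit 511) (nat_lit 5) (nat_lit 512) (nat_lit 5) (nat_lit 664) (nat_lit 652) (nat_lit 244))) (XT.nd (nat_lit 78) (nat_lit 0) (nat_lit 76) (XT.lf (nat_lit 76) (nat_lit 15114938737) (nat_lit 0) (nat_lit 18670833951) (nat_lit 1900) (nat_lit 29441973646) (nat_lit 488) (nat_lit 5) (nat_lit 487) (nat_lit 5) (nat_lit 512) (nat_lit 5) (nat_lit 665) (nat_lit 652) (nat_lit 243)) (XT.lf (nat_lit 0) (nat_lit 36950154657) (nat_lit 1824) (nat_lit 15382014253) (nat_lit 1900) (nat_lit 11553127272) (nat_lit 488) (nat_lit 5) (nat_lit 512) (nat_lit 5) (nat_lit 513) (nat_lit 5) (nat_lit 666) (nat_lit 652) (nat_lit 242)))) (XT.nd (nat_lit 156) (nat_lit 0) (nat_lit 76) (XT.nd (nat_lit 78) (nat_lit 0) (nat_lit 76) (XT.lf (nat_lit 76) (nat_lit 18117039993) (nat_lit 0) (nat_lit 22301621012) (nat_lit 1900) (nat_lit 24132519297) (nat_lit 489) (nat_lit 5) (nat_lit 488) (nat_lit 5) (nat_lit 513) (nat_lit 5) (nat_lit 667) (nat_lit 652) (nat_lit 241)) (XT.lf (nat_lit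 0) (nat_lit 44114091708) (nat_lit 1824) (nat_lit 12788822231) (nat_lit 1900) (nat_lit 8324317097) (nat_lit 489) (nat_lit 5) (nat_lit 513) (nat_lit 5) (nat_lit 514) (nat_lit 5) (nat_lit 668) (nat_lit 652) (nat_lit 240))) (XT.nd (nat_lit 78) (nat_lit 0) (nat_lit 76) (XT.lf (nat_lit 76) (nat_lit 21665540484) (nat_lit 0) (nat_lit 26505827261) (nat_lit 1900) (nat_lit 17739676317) (nat_lit 490) (nat_lit 5) (nat_lit 489) (nat_lit 5) (nat_lit 514) (nat_lit 5) (nat_lit 669) (nat_lit 652) (nat_lit 239)) (XT.lf (nat_lit 0) (nat_lit 52424972903) (nat_lit 1824) (nat_lit 9654574057) (nat_lit 1900) (nat_lit 4526682728) (nat_lit 490) (nat_lit 5) (nat_lit 514) (nat_lit 5) (nat_lit 515) (nat_lit 5) (nat_lit 670) (nat_lit 652) (nat_lit 238))))) (XT.nd (nat_lit 80028) (nat_lit 0) (nat_lit 76) (XT.nd (nat_lit 79872) (nat_lit 0) (nat_lit 0) (XT.nd (nat_lit 79794) (nat_lit 684) (nat_lit 0) (XT.lf (nat_lit 76) (nat_lit 25790569806) (nat_lit 0) (nat_lit 31315657017) (nat_lit 1900)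 (nat_lit 10202240683) (nat_lit 491) (nat_lit 5) (nat_lit 490) (nat_lit 5) (nat_lit 515) (nat_lit 5) (nat_lit 671) (nat_lit 652) (nat_lit 237)) (XT.lf (nat_lit 0) (nat_lit 7230271523) (nat_lit 1900) (nat_lit 10521959298) (nat_lit 1900) (nat_lit 10521959298) (nat_lit 481) (nat_lit 3) (nat_lit 506) (nat_lit 3) (nat_lit 506) (nat_lit 5) (nat_lit 653) (nat_lit 653) (nat_lit 254))) (XT.nd (nat_lit 78) (nat_lit 0) (nat_lit 76) (XT.lf (nat_lit 76) (nat_lit 7211052805) (nat_lit 0) (nat_lit 7461525819) (nat_lit 1900) (nat_lit 42439936190) (nat_lit 482) (nat_lit 5) (nat_lit 481) (nat_lit 3) (nat_lit 506) (nat_lit 5) (nat_lit 654) (nat_lit 653) (nat_lit 253)) (XT.lf (nat_lit 0) (nat_lit 15167734774) (nat_lit 1824) (nat_lit 21507225084) (nat_lit 1900) (nat_lit 21007394642) (nat_lit 482) (nat_lit 5) (nat_lit 506) (nat_lit 5) (nat_lit 507) (nat_lit 5) (nat_lit 655) (nat_lit 653) (nat_lit 252)))) (XT.nd (nat_lit 156) (nat_lit 0) (nat_lit 76) (XT.nd (nat_lit 78) (nat_lit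 0) (nat_lit 76) (XT.lf (nat_lit 76) (nat_lit 7503607414) (nat_lit 0) (nat_lit 8266788964) (nat_lit 1900) (nat_lit 42491242571) (nat_lit 483) (nat_lit 5) (nat_lit 482) (nat_lit 5) (nat_lit 507) (nat_lit 5) (nat_lit 656) (nat_lit 653) (nat_lit 251)) (XT.lf (nat_lit 0) (nat_lit 16664331860) (nat_lit 1824) (nat_lit 21599142184) (nat_lit 1900) (nat_lit 20583450647) (nat_lit 483) (nat_lit 5) (nat_lit 507) (nat_lit 5) (nat_lit 508) (nat_lit 5) (nat_lit 657) (nat_lit 653) (nat_lit 250))) (XT.nd (nat_lit 78) (nat_lit 0) (nat_lit 76) (XT.lf (nat_lit 76) (nat_lit 8195371234) (nat_lit 0) (nat_lit 9488221692) (nat_lit 1900) (nat_lit 41758174299) (nat_lit 484) (nat_lit 5) (nat_lit 483) (nat_lit 5) (nat_lit 508) (nat_lit 5) (nat_lit 658) (nat_lit 653) (nat_lit 249)) (XT.lf (nat_lit 0) (nat_lit 18997601112) (nat_lit 1824) (nat_lit 21297271497) (nat_lit 1900) (nat_lit 19748146778) (nat_lit 484) (nat_lit 5) (nat_lit 508) (nat_lit 5) (nat_lit 509) (nat_lit 5) (nat_lit 659)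 (nat_lit 653) (nat_lit 248))))))) (XT.nd (nat_lit 81042) (nat_lit 0) (nat_lit 0) (XT.nd (nat_lit 546) (nat_lit 228) (nat_lit 0) (XT.nd (nat_lit 234) (nat_lit 0) (nat_lit 152) (XT.nd (nat_lit 78) (nat_lit 0) (nat_lit 76) (XT.lf (nat_lit 76) (nat_lit 9309805170) (nat_lit 0) (nat_lit 11150875087) (nat_lit 1900) (nat_lit 40193160534) (nat_lit 485) (nat_lit 5) (nat_lit 484) (nat_lit 5) (nat_lit 509) (nat_lit 5) (nat_lit 660) (nat_lit 653) (nat_lit 247)) (XT.nd (nat_lit 78) (nat_lit 0) (nat_lit 0) (XT.lf (nat_lit 0) (nat_lit 22217009497) (nat_lit 1824) (nat_lit 20578164158) (nat_lit 1900) (nat_lit 18476425212) (nat_lit 485) (nat_lit 5) (nat_lit 509) (nat_lit 5) (nat_lit 510) (nat_lit 5) (nat_lit 661) (nat_lit 653) (nat_lit 246)) (XT.lf (nat_lit 76) (nat_lit 10871461848) (nat_lit 0) (nat_lit 13280962931) (nat_lit 1900) (nat_lit 37746408151) (nat_lit 486) (nat_lit 5) (nat_lit 485) (nat_lit 5) (nat_lit 510) (nat_lit 5) (nat_lit 662) (nat_lit 653) (nat_lit 245))))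 (XT.nd (nat_lit 156) (nat_lit 0) (nat_lit 76) (XT.nd (nat_lit 78) (nat_lit 0) (nat_lit 0) (XT.lf (nat_lit 0) (nat_lit 26374319018) (nat_lit 1824) (nat_lit 19417276760) (nat_lit 1900) (nat_lit 16742060497) (nat_lit 486) (nat_lit 5) (nat_lit 510) (nat_lit 5) (nat_lit 511) (nat_lit 5) (nat_lit 663) (nat_lit 653) (nat_lit 244)) (XT.lf (nat_lit 76) (nat_lit 12906031303) (nat_lit 0) (nat_lit 15905913146) (nat_lit 1900) (nat_lit 34365805787) (nat_lit 487) (nat_lit 5) (nat_lit 486) (nat_lit 5) (nat_lit 511) (nat_lit 5) (nat_lit 664) (nat_lit 653) (nat_lit 243))) (XT.nd (nat_lit 78) (nat_lit 0) (nat_lit 0) (XT.lf (nat_lit 0) (nat_lit 31523685490) (nat_lit 1824) (nat_lit 17788925490) (nat_lit 1900) (nat_lit 14517607846) (nat_lit 487) (nat_lit 5) (nat_lit 511) (nat_lit 5) (nat_lit 512) (nat_lit 5) (nat_lit 665) (nat_lit 653) (nat_lit 242)) (XT.lf (nat_lit 76) (nat_lit 15440388514) (nat_lit 0) (nat_lit 19054421361) (nat_lit 1900) (nat_lit 29996823955) (nat_lit 488)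 (nat_lit 5) (nat_lit 487) (nat_lit 5) (nat_lit 512) (nat_lit 5) (nat_lit 666) (nat_lit 653) (nat_lit 241))))) (XT.nd (nat_lit 80184) (nat_lit 532) (nat_lit 0) (XT.nd (nat_lit 156) (nat_lit 0) (nat_lit 76) (XT.nd (nat_lit 78) (nat_lit 0) (nat_lit 0) (XT.lf (nat_lit 0) (nat_lit 37721761375) (nat_lit 1824) (nat_lit 15666238392) (nat_lit 1900) (nat_lit 11774349288) (nat_lit 488) (nat_lit 5) (nat_lit 512) (nat_lit 5) (nat_lit 513) (nat_lit 5) (nat_lit 667) (nat_lit 653) (nat_lit 240)) (XT.lf (nat_lit 76) (nat_lit 18502642885) (nat_lit 0) (nat_lit 22756506712) (nat_lit 1900) (nat_lit 24582411046) (nat_lit 489) (nat_lit 5) (nat_lit 488) (nat_lit 5) (nat_lit 513) (nat_lit 5) (nat_lit 668) (nat_lit 653) (nat_lit 239))) (XT.nd (nat_lit 78) (nat_lit 0) (nat_lit 0) (XT.lf (nat_lit 0) (nat_lit 45027802846) (nat_lit 1824) (nat_lit 13021105696) (nat_lit 1900) (nat_lit 8482237589) (nat_lit 489) (nat_lit 5) (nat_lit 513) (nat_lit 5) (nat_lit 514) (nat_lit 5) (nat_lit 669)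 (nat_lit 653) (nat_lit 238)) (XT.lf (nat_lit 76) (nat_lit 22122189714) (nat_lit 0) (nat_lit 27043569957) (nat_lit 1900) (nat_lit 18062885059) (nat_lit 490) (nat_lit 5) (nat_lit 489) (nat_lit 5) (nat_lit 514) (nat_lit 5) (nat_lit 670) (nat_lit 653) (nat_lit 237)))) (XT.nd (nat_lit 156) (nat_lit 0) (nat_lit 76) (XT.nd (nat_lit 78) (nat_lit 0) (nat_lit 0) (XT.lf (nat_lit 0) (nat_lit 7395354342) (nat_lit 1900) (nat_lit 10721954706) (nat_lit 1900) (nat_lit 10721954706) (nat_lit 481) (nat_lit 3) (nat_lit 506) (nat_lit 3) (nat_lit 506) (nat_lit 5) (nat_lit 654) (nat_lit 654) (nat_lit 252)) (XT.lf (nat_lit 76) (nat_lit 7376023999) (nat_lit 0) (nat_lit 7630292663) (nat_lit 1900) (nat_lit 43247641503) (nat_lit 482) (nat_lit 5) (nat_lit 481) (nat_lit 3) (nat_lit 506) (nat_lit 5) (nat_lit 655) (nat_lit 654) (nat_lit 251))) (XT.nd (nat_lit 78) (nat_lit 0) (nat_lit 0) (XT.lf (nat_lit 0) (nat_lit 15510461649) (nat_lit 1824) (nat_lit 21916110836) (nat_lit 1900) (nat_lit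 21408640470) (nat_lit 482) (nat_lit 5) (nat_lit 506) (nat_lit 5) (nat_lit 507) (nat_lit 5) (nat_lit 656) (nat_lit 654) (nat_lit 250)) (XT.lf (nat_lit 76) (nat_lit 7674798452) (nat_lit 0) (nat_lit 8449743148) (nat_lit 1900) (nat_lit 43301554215) (nat_lit 483) (nat_lit 5) (nat_lit 482) (nat_lit 5) (nat_lit 507) (nat_lit 5) (nat_lit 657) (nat_lit 654) (nat_lit 249)))))) (XT.nd (nat_lit 624) (nat_lit 152) (nat_lit 0) (XT.nd (nat_lit 312) (nat_lit 0) (nat_lit 152) (XT.nd (nat_lit 156) (nat_lit 0) (nat_lit 76) (XT.nd (nat_lit 78) (nat_lit 0) (nat_lit 0) (XT.lf (nat_lit 0) (nat_lit 17035484088) (nat_lit 1824) (nat_lit 22009547387) (nat_lit 1900) (nat_lit 20978073253) (nat_lit 483) (nat_lit 5) (nat_lit 507) (nat_lit 5) (nat_lit 508) (nat_lit 5) (nat_lit 658) (nat_lit 654) (nat_lit 248)) (XT.lf (nat_lit 76) (nat_lit 8380714342) (nat_lit 0) (nat_lit 9693812747) (nat_lit 1900) (nat_lit 42555329112) (nat_lit 484) (nat_lit 5) (nat_lit 483) (nat_lit 5) (nat_lit 508)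 (nat_lit 5) (nat_lit 659) (nat_lit 654) (nat_lit 247))) (XT.nd (nat_lit 78) (nat_lit 0) (nat_lit 0) (XT.lf (nat_lit 0) (nat_lit 19413984062) (nat_lit 1824) (nat_lit 21701369076) (nat_lit 1900) (nat_lit 20127796917) (nat_lit 484) (nat_lit 5) (nat_lit 508) (nat_lit 5) (nat_lit 509) (nat_lit 5) (nat_lit 660) (nat_lit 654) (nat_lit 246)) (XT.lf (nat_lit 76) (nat_lit 9517705389) (nat_lit 0) (nat_lit 11388045986) (nat_lit 1900) (nat_lit 40960448002) (nat_lit 485) (nat_lit 5) (nat_lit 484) (nat_lit 5) (nat_lit 509) (nat_lit 5) (nat_lit 661) (nat_lit 654) (nat_lit 245)))) (XT.nd (nat_lit 156) (nat_lit 0) (nat_lit 76) (XT.nd (nat_lit 78) (nat_lit 0) (nat_lit 0) (XT.lf (nat_lit 0) (nat_lit 22696414020) (nat_lit 1824) (nat_lit 20967654659) (nat_lit 1900) (nat_lit 18832259821) (nat_lit 485) (nat_lit 5) (nat_lit 509) (nat_lit 5) (nat_lit 510) (nat_lit 5) (nat_lit 662) (nat_lit 654) (nat_lit 244)) (XT.lf (nat_lit 76) (nat_lit 11110818652) (nat_lit 0) (nat_lit 13559173789)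 (nat_lit 1900) (nat_lit 38466125727) (nat_lit 486) (nat_lit 5) (nat_lit 485) (nat_lit 5) (nat_lit 510) (nat_lit 5) (nat_lit 663) (nat_lit 654) (nat_lit 243))) (XT.nd (nat_lit 78) (nat_lit 0) (nat_lit 0) (XT.lf (nat_lit 0) (nat_lit 26935567568) (nat_lit 1824) (nat_lit 19783366668) (nat_lit 1900) (nat_lit 17064718905) (nat_lit 486) (nat_lit 5) (nat_lit 510) (nat_lit 5) (nat_lit 511) (nat_lit 5) (nat_lit 664) (nat_lit 654) (nat_lit 242)) (XT.lf (nat_lit 76) (nat_lit 13186261138) (nat_lit 0) (nat_lit 16235165914) (nat_lit 1900) (nat_lit 35019212317) (nat_lit 487) (nat_lit 5) (nat_lit 486) (nat_lit 5) (nat_lit 511) (nat_lit 5) (nat_lit 665) (nat_lit 654) (nat_lit 241))))) (XT.nd (nat_lit 80340) (nat_lit 456) (nat_lit 0) (XT.nd (nat_lit 156) (nat_lit 0) (nat_lit 76) (XT.nd (nat_lit 78) (nat_lit 0) (nat_lit 0) (XT.lf (nat_lit 0) (nat_lit 32186680201) (nat_lit 1824) (nat_lit 18122304615) (nat_lit 1900) (nat_lit 14797186989) (nat_lit 487) (nat_lit 5) (nat_lit 511)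 (nat_lit 5) (nat_lit 512) (nat_lit 5) (nat_lit 666) (nat_lit 654) (nat_lit 240)) (XT.lf (nat_lit 76) (nat_lit 15771448305) (nat_lit 0) (nat_lit 19445285577) (nat_lit 1900) (nat_lit 30564091110) (nat_lit 488) (nat_lit 5) (nat_lit 487) (nat_lit 5) (nat_lit 512) (nat_lit 5) (nat_lit 667) (nat_lit 654) (nat_lit 239))) (XT.nd (nat_lit 78) (nat_lit 0) (nat_lit 0) (XT.lf (nat_lit 0) (nat_lit 38507534190) (nat_lit 1824) (nat_lit 15957056291) (nat_lit 1900) (nat_lit 12000377865) (nat_lit 488) (nat_lit 5) (nat_lit 512) (nat_lit 5) (nat_lit 513) (nat_lit 5) (nat_lit 668) (nat_lit 654) (nat_lit 238)) (XT.lf (nat_lit 76) (nat_lit 18895054540) (nat_lit 0) (nat_lit 23220146342) (nat_lit 1900) (nat_lit 25042572688) (nat_lit 489) (nat_lit 5) (nat_lit 488) (nat_lit 5) (nat_lit 513) (nat_lit 5) (nat_lit 669) (nat_lit 654) (nat_lit 237)))) (XT.nd (nat_lit 156) (nat_lit 0) (nat_lit 76) (XT.nd (nat_lit 78) (nat_lit 0) (nat_lit 0) (XT.lf (nat_lit 0) (nat_lit 7562943655) (nat_lit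 1900) (nat_lit 10926355567) (nat_lit 1900) (nat_lit 10926355567) (nat_lit 481) (nat_lit 3) (nat_lit 506) (nat_lit 3) (nat_lit 506) (nat_lit 5) (nat_lit 655) (nat_lit 655) (nat_lit 250)) (XT.lf (nat_lit 76) (nat_lit 7543488864) (nat_lit 0) (nat_lit 7801676225) (nat_lit 1900) (nat_lit 44073096630) (nat_lit 482) (nat_lit 5) (nat_lit 481) (nat_lit 3) (nat_lit 506) (nat_lit 5) (nat_lit 656) (nat_lit 655) (nat_lit 249))) (XT.nd (nat_lit 78) (nat_lit 0) (nat_lit 0) (XT.lf (nat_lit 0) (nat_lit 15858514191) (nat_lit 1824) (nat_lit 22333999806) (nat_lit 1900) (nat_lit 21818645206) (nat_lit 482) (nat_lit 5) (nat_lit 506) (nat_lit 5) (nat_lit 507) (nat_lit 5) (nat_lit 657) (nat_lit 655) (nat_lit 248)) (XT.lf (nat_lit 76) (nat_lit 7848593238) (nat_lit 0) (nat_lit 8635672270) (nat_lit 1900) (nat_lit 44129606438) (nat_lit 483) (nat_lit 5) (nat_lit 482) (nat_lit 5) (nat_lit 507) (nat_lit 5) (nat_lit 658) (nat_lit 655) (nat_lit 247))))))))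
noncomputable def xc255 : XT := (XT.nd (nat_lit 162786) (nat_lit 0) (nat_lit 0) (XT.nd (nat_lit 81276) (nat_lit 0) (nat_lit 0) (XT.nd (nat_lit 546) (nat_lit 152) (nat_lit 0) (XT.nd (nat_lit 234) (nat_lit 0) (nat_lit 76) (XT.nd (nat_lit 78) (nat_lit 0) (nat_lit 0) (XT.lf (nat_lit 0) (nat_lit 17412588995) (nat_lit 1824) (nat_lit 22428998579) (nat_lit 1900) (nat_lit 21381250243) (nat_lit 483) (nat_lit 5) (nat_lit 507) (nat_lit 5) (nat_lit 508) (nat_lit 5) (nat_lit 659) (nat_lit 655) (nat_lit 246)) (XT.nd (nat_lit 78) (nat_lit 0) (nat_lit 76) (XT.lf (nat_lit 76) (nat_lit 8568931938) (nat_lit 0) (nat_lit 9902901055) (nat_lit 1900) (nat_lit 43369902945) (nat_lit 484) (nat_lit 5) (nat_lit 483) (nat_lit 5) (nat_lit 508) (nat_lit 5) (nat_lit 660) (nat_lit 655) (nat_lit 245)) (XT.lf (nat_lit 0) (nat_lit 19837280014) (nat_lit 1824) (nat_lit 22114396985) (nat_lit 1900) (nat_lit 20515634674) (nat_lit 484) (nat_lit 5) (nat_lit 508) (nat_lit 5) (nat_lit 509) (nat_lit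 5) (nat_lit 661) (nat_lit 655) (nat_lit 244)))) (XT.nd (nat_lit 156) (nat_lit 0) (nat_lit 76) (XT.nd (nat_lit 78) (nat_lit 0) (nat_lit 76) (XT.lf (nat_lit 76) (nat_lit 9728920815) (nat_lit 0) (nat_lit 11629410710) (nat_lit 1900) (nat_lit 41744501500) (nat_lit 485) (nat_lit 5) (nat_lit 484) (nat_lit 5) (nat_lit 509) (nat_lit 5) (nat_lit 662) (nat_lit 655) (nat_lit 243)) (XT.lf (nat_lit 0) (nat_lit 23184045044) (nat_lit 1824) (nat_lit 21365792082) (nat_lit 1900) (nat_lit 19195742872) (nat_lit 485) (nat_lit 5) (nat_lit 509) (nat_lit 5) (nat_lit 510) (nat_lit 5) (nat_lit 663) (nat_lit 655) (nat_lit 242))) (XT.nd (nat_lit 78) (nat_lit 0) (nat_lit 76) (XT.lf (nat_lit 76) (nat_lit 11354111118) (nat_lit 0) (nat_lit 13842459917) (nat_lit 1900) (nat_lit 39201604925) (nat_lit 486) (nat_lit 5) (nat_lit 485) (nat_lit 5) (nat_lit 510) (nat_lit 5) (nat_lit 664) (nat_lit 655) (nat_lit 241)) (XT.lf (nat_lit 0) (nat_lit 27506730063) (nat_lit 1824) (nat_lit 20157642586)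 (nat_lit 1900) (nat_lit 17394303554) (nat_lit 486) (nat_lit 5) (nat_lit 510) (nat_lit 5) (nat_lit 511) (nat_lit 5) (nat_lit 665) (nat_lit 655) (nat_lit 240))))) (XT.nd (nat_lit 80418) (nat_lit 380) (nat_lit 0) (XT.nd (nat_lit 156) (nat_lit 0) (nat_lit 76) (XT.nd (nat_lit 78) (nat_lit 0) (nat_lit 76) (XT.lf (nat_lit 76) (nat_lit 13471237042) (nat_lit 0) (nat_lit 16570571371) (nat_lit 1900) (nat_lit 35687003729) (nat_lit 487) (nat_lit 5) (nat_lit 486) (nat_lit 5) (nat_lit 511) (nat_lit 5) (nat_lit 666) (nat_lit 655) (nat_lit 239)) (XT.lf (nat_lit 0) (nat_lit 32861671976) (nat_lit 1824) (nat_lit 18463221117) (nat_lit 1900) (nat_lit 15082776044) (nat_lit 487) (nat_lit 5) (nat_lit 511) (nat_lit 5) (nat_lit 512) (nat_lit 5) (nat_lit 667) (nat_lit 655) (nat_lit 238))) (XT.nd (nat_lit 78) (nat_lit 0) (nat_lit 76) (XT.lf (nat_lit 76) (nat_lit 16108265219) (nat_lit 0) (nat_lit 19843587472) (nat_lit 1900) (nat_lit 31143972198) (nat_lit 488) (nat_lit 5) (nat_lit 487)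 (nat_lit 5) (nat_lit 512) (nat_lit 5) (nat_lit 668) (nat_lit 655) (nat_lit 237)) (XT.lf (nat_lit 0) (nat_lit 39307805584) (nat_lit 1824) (nat_lit 16254564518) (nat_lit 1900) (nat_lit 12231294294) (nat_lit 488) (nat_lit 5) (nat_lit 512) (nat_lit 5) (nat_lit 513) (nat_lit 5) (nat_lit 669) (nat_lit 655) (nat_lit 236)))) (XT.nd (nat_lit 156) (nat_lit 0) (nat_lit 76) (XT.nd (nat_lit 78) (nat_lit 0) (nat_lit 0) (XT.lf (nat_lit 0) (nat_lit 7733120470) (nat_lit 1900) (nat_lit 11135234241) (nat_lit 1900) (nat_lit 11135234241) (nat_lit 481) (nat_lit 3) (nat_lit 506) (nat_lit 3) (nat_lit 506) (nat_lit 5) (nat_lit 656) (nat_lit 656) (nat_lit 248)) (XT.lf (nat_lit 76) (nat_lit 7713528561) (nat_lit 0) (nat_lit 7975758297) (nat_lit 1900) (nat_lit 44916594604) (nat_lit 482) (nat_lit 5) (nat_lit 481) (nat_lit 3) (nat_lit 506) (nat_lit 5) (nat_lit 657) (nat_lit 656) (nat_lit 247))) (XT.nd (nat_lit 78) (nat_lit 0) (nat_lit 0) (XT.lf (nat_lit 0) (nat_lit 16212058283) (nat_lit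 1824) (nat_lit 22761040003) (nat_lit 1900) (nat_lit 22237555524) (nat_lit 482) (nat_lit 5) (nat_lit 506) (nat_lit 5) (nat_lit 507) (nat_lit 5) (nat_lit 658) (nat_lit 656) (nat_lit 246)) (XT.lf (nat_lit 76) (nat_lit 8025075693) (nat_lit 0) (nat_lit 8824662398) (nat_lit 1900) (nat_lit 44975694471) (nat_lit 483) (nat_lit 5) (nat_lit 482) (nat_lit 5) (nat_lit 507) (nat_lit 5) (nat_lit 659) (nat_lit 656) (nat_lit 245)))))) (XT.nd (nat_lit 624) (nat_lit 152) (nat_lit 0) (XT.nd (nat_lit 312) (nat_lit 0) (nat_lit 152) (XT.nd (nat_lit 156) (nat_lit 0) (nat_lit 76) (XT.nd (nat_lit 78) (nat_lit 0) (nat_lit 0) (XT.lf (nat_lit 0) (nat_lit 17795822728) (nat_lit 1824) (nat_lit 22857644146) (nat_lit 1900) (nat_lit 21793127003) (nat_lit 483) (nat_lit 5) (nat_lit 507) (nat_lit 5) (nat_lit 508) (nat_lit 5) (nat_lit 660) (nat_lit 656) (nat_lit 244)) (XT.lf (nat_lit 76) (nat_lit 8760113834) (nat_lit 0) (nat_lit 10115580427) (nat_lit 1900) (nat_lit 44202186866) (nat_lit 484)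 (nat_lit 5) (nat_lit 483) (nat_lit 5) (nat_lit 508) (nat_lit 5) (nat_lit 661) (nat_lit 656) (nat_lit 243))) (XT.nd (nat_lit 78) (nat_lit 0) (nat_lit 0) (XT.lf (nat_lit 0) (nat_lit 20267682161) (nat_lit 1824) (nat_lit 22536500887) (nat_lit 1900) (nat_lit 20911800712) (nat_lit 484) (nat_lit 5) (nat_lit 508) (nat_lit 5) (nat_lit 509) (nat_lit 5) (nat_lit 662) (nat_lit 656) (nat_lit 242)) (XT.lf (nat_lit 76) (nat_lit 9943550479) (nat_lit 0) (nat_lit 11875074477) (nat_lit 1900) (nat_lit 42545601197) (nat_lit 485) (nat_lit 5) (nat_lit 484) (nat_lit 5) (nat_lit 509) (nat_lit 5) (nat_lit 663) (nat_lit 656) (nat_lit 241)))) (XT.nd (nat_lit 156) (nat_lit 0) (nat_lit 76) (XT.nd (nat_lit 78) (nat_lit 0) (nat_lit 0) (XT.lf (nat_lit 0) (nat_lit 23680119969) (nat_lit 1824) (nat_lit 21772716085) (nat_lit 1900) (nat_lit 19567006686) (nat_lit 485) (nat_lit 5) (nat_lit 509) (nat_lit 5) (nat_lit 510) (nat_lit 5) (nat_lit 664) (nat_lit 656) (nat_lit 240)) (XT.lf (nat_lit 76)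 (nat_lit 11601451022) (nat_lit 0) (nat_lit 14130941807) (nat_lit 1900) (nat_lit 39953107885) (nat_lit 486) (nat_lit 5) (nat_lit 485) (nat_lit 5) (nat_lit 510) (nat_lit 5) (nat_lit 665) (nat_lit 656) (nat_lit 239))) (XT.nd (nat_lit 78) (nat_lit 0) (nat_lit 0) (XT.lf (nat_lit 0) (nat_lit 28088055690) (nat_lit 1824) (nat_lit 20540234678) (nat_lit 1900) (nat_lit 17730934599) (nat_lit 486) (nat_lit 5) (nat_lit 510) (nat_lit 5) (nat_lit 511) (nat_lit 5) (nat_lit 666) (nat_lit 656) (nat_lit 238)) (XT.lf (nat_lit 76) (nat_lit 13761087274) (nat_lit 0) (nat_lit 16912269359) (nat_lit 1900) (nat_lit 36369416588) (nat_lit 487) (nat_lit 5) (nat_lit 486) (nat_lit 5) (nat_lit 511) (nat_lit 5) (nat_lit 667) (nat_lit 656) (nat_lit 237))))) (XT.nd (nat_lit 80574) (nat_lit 0) (nat_lit 76) (XT.nd (nat_lit 80418) (nat_lit 0) (nat_lit 0) (XT.nd (nat_lit 80340) (nat_lit 456) (nat_lit 0) (XT.lf (nat_lit 0) (nat_lit 33548949794) (nat_lit 1824) (nat_lit 18811791970) (nat_lit 1900)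 (nat_lit 15374478966) (nat_lit 487) (nat_lit 5) (nat_lit 511) (nat_lit 5) (nat_lit 512) (nat_lit 5) (nat_lit 668) (nat_lit 656) (nat_lit 236)) (XT.lf (nat_lit 0) (nat_lit 7905966214) (nat_lit 1900) (nat_lit 11348665150) (nat_lit 1900) (nat_lit 11348665150) (nat_lit 481) (nat_lit 3) (nat_lit 506) (nat_lit 3) (nat_lit 506) (nat_lit 5) (nat_lit 657) (nat_lit 657) (nat_lit 246))) (XT.nd (nat_lit 78) (nat_lit 0) (nat_lit 76) (XT.lf (nat_lit 76) (nat_lit 7886224661) (nat_lit 0) (nat_lit 8152621163) (nat_lit 1900) (nat_lit 45778436724) (nat_lit 482) (nat_lit 5) (nat_lit 481) (nat_lit 3) (nat_lit 506) (nat_lit 5) (nat_lit 658) (nat_lit 657) (nat_lit 245)) (XT.lf (nat_lit 0) (nat_lit 16571260817) (nat_lit 1824) (nat_lit 23197383641) (nat_lit 1900) (nat_lit 22665522143) (nat_lit 482) (nat_lit 5) (nat_lit 506) (nat_lit 5) (nat_lit 507) (nat_lit 5) (nat_lit 659) (nat_lit 657) (nat_lit 244)))) (XT.nd (nat_lit 156) (nat_lit 0) (nat_lit 76) (XT.nd (nat_lit 78) (nat_lit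 0) (nat_lit 76) (XT.lf (nat_lit 76) (nat_lit 8204330177) (nat_lit 0) (nat_lit 9016800284) (nat_lit 1900) (nat_lit 45840121763) (nat_lit 483) (nat_lit 5) (nat_lit 482) (nat_lit 5) (nat_lit 507) (nat_lit 5) (nat_lit 660) (nat_lit 657) (nat_lit 243)) (XT.lf (nat_lit 0) (nat_lit 18185362744) (nat_lit 1824) (nat_lit 23295636701) (nat_lit 1900) (nat_lit 22213852821) (nat_lit 483) (nat_lit 5) (nat_lit 507) (nat_lit 5) (nat_lit 508) (nat_lit 5) (nat_lit 661) (nat_lit 657) (nat_lit 242))) (XT.nd (nat_lit 78) (nat_lit 0) (nat_lit 76) (XT.lf (nat_lit 76) (nat_lit 8954350384) (nat_lit 0) (nat_lit 10331945622) (nat_lit 1900) (nat_lit 45052479991) (nat_lit 484) (nat_lit 5) (nat_lit 483) (nat_lit 5) (nat_lit 508) (nat_lit 5) (nat_lit 662) (nat_lit 657) (nat_lit 241)) (XT.lf (nat_lit 0) (nat_lit 20705385425) (nat_lit 1824) (nat_lit 22967830638) (nat_lit 1900) (nat_lit 21316439402) (nat_lit 484) (nat_lit 5) (nat_lit 508) (nat_lit 5) (nat_lit 509) (nat_lit 5) (nat_lit 663)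 (nat_lit 657) (nat_lit 240))))))) (XT.nd (nat_lit 162162) (nat_lit 0) (nat_lit 0) (XT.nd (nat_lit 81042) (nat_lit 0) (nat_lit 0) (XT.nd (nat_lit 80730) (nat_lit 228) (nat_lit 0) (XT.nd (nat_lit 156) (nat_lit 0) (nat_lit 76) (XT.nd (nat_lit 78) (nat_lit 0) (nat_lit 76) (XT.lf (nat_lit 76) (nat_lit 10161694122) (nat_lit 0) (nat_lit 12125143779) (nat_lit 1900) (nat_lit 43364035008) (nat_lit 485) (nat_lit 5) (nat_lit 484) (nat_lit 5) (nat_lit 509) (nat_lit 5) (nat_lit 664) (nat_lit 657) (nat_lit 239)) (XT.lf (nat_lit 0) (nat_lit 24184858493) (nat_lit 1824) (nat_lit 22188570408) (nat_lit 1900) (nat_lit 19946187033) (nat_lit 485) (nat_lit 5) (nat_lit 509) (nat_lit 5) (nat_lit 510) (nat_lit 5) (nat_lit 665) (nat_lit 657) (nat_lit 238))) (XT.nd (nat_lit 78) (nat_lit 0) (nat_lit 76) (XT.lf (nat_lit 76) (nat_lit 11852951095) (nat_lit 0) (nat_lit 14424741623) (nat_lit 1900) (nat_lit 40720904049) (nat_lit 486) (nat_lit 5) (nat_lit 485) (nat_lit 5) (nat_lit 510) (nat_lit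 5) (nat_lit 666) (nat_lit 657) (nat_lit 237)) (XT.lf (nat_lit 0) (nat_lit 28679796644) (nat_lit 1824) (nat_lit 20931277011) (nat_lit 1900) (nat_lit 18074735311) (nat_lit 486) (nat_lit 5) (nat_lit 510) (nat_lit 5) (nat_lit 511) (nat_lit 5) (nat_lit 667) (nat_lit 657) (nat_lit 236)))) (XT.nd (nat_lit 156) (nat_lit 0) (nat_lit 76) (XT.nd (nat_lit 78) (nat_lit 0) (nat_lit 0) (XT.lf (nat_lit 0) (nat_lit 8081562792) (nat_lit 1900) (nat_lit 11566724789) (nat_lit 1900) (nat_lit 11566724789) (nat_lit 481) (nat_lit 3) (nat_lit 506) (nat_lit 3) (nat_lit 506) (nat_lit 5) (nat_lit 658) (nat_lit 658) (nat_lit 244)) (XT.lf (nat_lit 76) (nat_lit 8061659197) (nat_lit 0) (nat_lit 8332347654) (nat_lit 1900) (nat_lit 46658932628) (nat_lit 482) (nat_lit 5) (nat_lit 481) (nat_lit 3) (nat_lit 506) (nat_lit 5) (nat_lit 659) (nat_lit 658) (nat_lit 243))) (XT.nd (nat_lit 78) (nat_lit 0) (nat_lit 0) (XT.lf (nat_lit 0) (nat_lit 16936289810) (nat_lit 1824) (nat_lit 23643187176) (nat_lit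 1900) (nat_lit 23102699856) (nat_lit 482) (nat_lit 5) (nat_lit 506) (nat_lit 5) (nat_lit 507) (nat_lit 5) (nat_lit 660) (nat_lit 658) (nat_lit 242)) (XT.lf (nat_lit 76) (nat_lit 8386441549) (nat_lit 0) (nat_lit 9212173428) (nat_lit 1900) (nat_lit 46723200056) (nat_lit 483) (nat_lit 5) (nat_lit 482) (nat_lit 5) (nat_lit 507) (nat_lit 5) (nat_lit 661) (nat_lit 658) (nat_lit 241))))) (XT.nd (nat_lit 312) (nat_lit 152) (nat_lit 0) (XT.nd (nat_lit 156) (nat_lit 0) (nat_lit 76) (XT.nd (nat_lit 78) (nat_lit 0) (nat_lit 0) (XT.lf (nat_lit 0) (nat_lit 18581387917) (nat_lit 1824) (nat_lit 23743133126) (nat_lit 1900) (nat_lit 22643580933) (nat_lit 483) (nat_lit 5) (nat_lit 507) (nat_lit 5) (nat_lit 508) (nat_lit 5) (nat_lit 662) (nat_lit 658) (nat_lit 240)) (XT.lf (nat_lit 76) (nat_lit 9151732541) (nat_lit 0) (nat_lit 10552092403) (nat_lit 1900) (nat_lit 45921089555) (nat_lit 484) (nat_lit 5) (nat_lit 483) (nat_lit 5) (nat_lit 508) (nat_lit 5) (nat_lit 663) (nat_lit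 658) (nat_lit 239))) (XT.nd (nat_lit 78) (nat_lit 0) (nat_lit 0) (XT.lf (nat_lit 0) (nat_lit 21150586580) (nat_lit 1824) (nat_lit 23408540319) (nat_lit 1900) (nat_lit 21729698866) (nat_lit 484) (nat_lit 5) (nat_lit 508) (nat_lit 5) (nat_lit 509) (nat_lit 5) (nat_lit 664) (nat_lit 658) (nat_lit 238)) (XT.lf (nat_lit 76) (nat_lit 10383452259) (nat_lit 0) (nat_lit 12379726443) (nat_lit 1900) (nat_lit 44200098664) (nat_lit 485) (nat_lit 5) (nat_lit 484) (nat_lit 5) (nat_lit 509) (nat_lit 5) (nat_lit 665) (nat_lit 658) (nat_lit 237)))) (XT.nd (nat_lit 80652) (nat_lit 304) (nat_lit 0) (XT.nd (nat_lit 78) (nat_lit 0) (nat_lit 0) (XT.lf (nat_lit 0) (nat_lit 24698482735) (nat_lit 1824) (nat_lit 22613502908) (nat_lit 1900) (nat_lit 20333423165) (nat_lit 485) (nat_lit 5) (nat_lit 509) (nat_lit 5) (nat_lit 510) (nat_lit 5) (nat_lit 666) (nat_lit 658) (nat_lit 236)) (XT.lf (nat_lit 76) (nat_lit 12108725084) (nat_lit 0) (nat_lit 14723983264) (nat_lit 1900) (nat_lit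 41505270234) (nat_lit 486) (nat_lit 5) (nat_lit 485) (nat_lit 5) (nat_lit 510) (nat_lit 5) (nat_lit 667) (nat_lit 658) (nat_lit 235))) (XT.nd (nat_lit 78) (nat_lit 0) (nat_lit 0) (XT.lf (nat_lit 0) (nat_lit 8259992639) (nat_lit 1900) (nat_lit 11789491750) (nat_lit 1900) (nat_lit 11789491750) (nat_lit 481) (nat_lit 3) (nat_lit 506) (nat_lit 3) (nat_lit 506) (nat_lit 5) (nat_lit 659) (nat_lit 659) (nat_lit 242)) (XT.lf (nat_lit 76) (nat_lit 8239914721) (nat_lit 0) (nat_lit 8515021200) (nat_lit 1900) (nat_lit 47558400372) (nat_lit 482) (nat_lit 5) (nat_lit 481) (nat_lit 3) (nat_lit 506) (nat_lit 5) (nat_lit 660) (nat_lit 659) (nat_lit 241)))))) (XT.nd (nat_lit 81276) (nat_lit 0) (nat_lit 0) (XT.nd (nat_lit 312) (nat_lit 76) (nat_lit 0) (XT.nd (nat_lit 156) (nat_lit 0) (nat_lit 76) (XT.nd (nat_lit 78) (nat_lit 0) (nat_lit 0) (XT.lf (nat_lit 0) (nat_lit 17307314506) (nat_lit 1824) (nat_lit 24098611340) (nat_lit 1900) (nat_lit 23549247577) (nat_lit 482) (nat_lit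 5) (nat_lit 506) (nat_lit 5) (nat_lit 507) (nat_lit 5) (nat_lit 661) (nat_lit 659) (nat_lit 240)) (XT.lf (nat_lit 76) (nat_lit 8571495226) (nat_lit 0) (nat_lit 9410870124) (nat_lit 1900) (nat_lit 47625249464) (nat_lit 483) (nat_lit 5) (nat_lit 482) (nat_lit 5) (nat_lit 507) (nat_lit 5) (nat_lit 662) (nat_lit 659) (nat_lit 239))) (XT.nd (nat_lit 78) (nat_lit 0) (nat_lit 0) (XT.lf (nat_lit 0) (nat_lit 18984078649) (nat_lit 1824) (nat_lit 24200294607) (nat_lit 1900) (nat_lit 23082468561) (nat_lit 483) (nat_lit 5) (nat_lit 507) (nat_lit 5) (nat_lit 508) (nat_lit 5) (nat_lit 663) (nat_lit 659) (nat_lit 238)) (XT.lf (nat_lit 76) (nat_lit 9352351918) (nat_lit 0) (nat_lit 10776117592) (nat_lit 1900) (nat_lit 46808330996) (nat_lit 484) (nat_lit 5) (nat_lit 483) (nat_lit 5) (nat_lit 508) (nat_lit 5) (nat_lit 664) (nat_lit 659) (nat_lit 237)))) (XT.nd (nat_lit 80808) (nat_lit 228) (nat_lit 0) (XT.nd (nat_lit 78) (nat_lit 0) (nat_lit 0) (XT.lf (nat_lit 0) (nat_lit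 21603484362) (nat_lit 1824) (nat_lit 23858788278) (nat_lit 1900) (nat_lit 22151731017) (nat_lit 484) (nat_lit 5) (nat_lit 508) (nat_lit 5) (nat_lit 509) (nat_lit 5) (nat_lit 665) (nat_lit 659) (nat_lit 236)) (XT.lf (nat_lit 76) (nat_lit 10608926238) (nat_lit 0) (nat_lit 12638931688) (nat_lit 1900) (nat_lit 45054095788) (nat_lit 485) (nat_lit 5) (nat_lit 484) (nat_lit 5) (nat_lit 509) (nat_lit 5) (nat_lit 666) (nat_lit 659) (nat_lit 235))) (XT.nd (nat_lit 78) (nat_lit 0) (nat_lit 0) (XT.lf (nat_lit 0) (nat_lit 8441338773) (nat_lit 1900) (nat_lit 12017046737) (nat_lit 1900) (nat_lit 12017046737) (nat_lit 481) (nat_lit 3) (nat_lit 506) (nat_lit 3) (nat_lit 506) (nat_lit 5) (nat_lit 660) (nat_lit 660) (nat_lit 240)) (XT.lf (nat_lit 76) (nat_lit 8421074357) (nat_lit 0) (nat_lit 8700725886) (nat_lit 1900) (nat_lit 48477166506) (nat_lit 482) (nat_lit 5) (nat_lit 481) (nat_lit 3) (nat_lit 506) (nat_lit 5) (nat_lit 661) (nat_lit 660) (nat_lit 239))))) (XT.nd (nat_lit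 81198) (nat_lit 76) (nat_lit 0) (XT.nd (nat_lit 156) (nat_lit 0) (nat_lit 76) (XT.nd (nat_lit 78) (nat_lit 0) (nat_lit 0) (XT.lf (nat_lit 0) (nat_lit 17684505491) (nat_lit 1824) (nat_lit 24563821187) (nat_lit 1900) (nat_lit 24005328380) (nat_lit 482) (nat_lit 5) (nat_lit 506) (nat_lit 5) (nat_lit 507) (nat_lit 5) (nat_lit 662) (nat_lit 660) (nat_lit 238)) (XT.lf (nat_lit 76) (nat_lit 8759577231) (nat_lit 0) (nat_lit 9612979518) (nat_lit 1900) (nat_lit 48546598559) (nat_lit 483) (nat_lit 5) (nat_lit 482) (nat_lit 5) (nat_lit 507) (nat_lit 5) (nat_lit 663) (nat_lit 660) (nat_lit 237))) (XT.nd (nat_lit 78) (nat_lit 0) (nat_lit 0) (XT.lf (nat_lit 0) (nat_lit 19393616982) (nat_lit 1824) (nat_lit 24667286677) (nat_lit 1900) (nat_lit 23530676956) (nat_lit 483) (nat_lit 5) (nat_lit 507) (nat_lit 5) (nat_lit 508) (nat_lit 5) (nat_lit 664) (nat_lit 660) (nat_lit 236)) (XT.lf (nat_lit 76) (nat_lit 9556300846) (nat_lit 0) (nat_lit 11004119126) (nat_lit 1900) (nat_lit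 47714528037) (nat_lit 484) (nat_lit 5) (nat_lit 483) (nat_lit 5) (nat_lit 508) (nat_lit 5) (nat_lit 665) (nat_lit 660) (nat_lit 235)))) (XT.nd (nat_lit 156) (nat_lit 0) (nat_lit 0) (XT.nd (nat_lit 78) (nat_lit 0) (nat_lit 76) (XT.lf (nat_lit 76) (nat_lit 8605221856) (nat_lit 0) (nat_lit 8889546498) (nat_lit 1900) (nat_lit 49415566167) (nat_lit 482) (nat_lit 5) (nat_lit 481) (nat_lit 3) (nat_lit 506) (nat_lit 5) (nat_lit 662) (nat_lit 661) (nat_lit 237)) (XT.lf (nat_lit 0) (nat_lit 18068034792) (nat_lit 1824) (nat_lit 25038986135) (nat_lit 1900) (nat_lit 24471109545) (nat_lit 482) (nat_lit 5) (nat_lit 506) (nat_lit 5) (nat_lit 507) (nat_lit 5) (nat_lit 663) (nat_lit 661) (nat_lit 236))) (XT.nd (nat_lit 81120) (nat_lit 76) (nat_lit 0) (XT.lf (nat_lit 76) (nat_lit 8950774254) (nat_lit 0) (nat_lit 9818591656) (nat_lit 1900) (nat_lit 49487584457) (nat_lit 483) (nat_lit 5) (nat_lit 482) (nat_lit 5) (nat_lit 507) (nat_lit 5) (nat_lit 664) (nat_lit 661) (nat_lit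 235)) (XT.lf (nat_lit 76) (nat_lit 8792441644) (nat_lit 0) (nat_lit 9081568585) (nat_lit 1900) (nat_lit 50373943167) (nat_lit 482) (nat_lit 5) (nat_lit 481) (nat_lit 3) (nat_lit 506) (nat_lit 5) (nat_lit 663) (nat_lit 662) (nat_lit 235))))))))

set_option maxRecDepth 10000000 in
noncomputable def Tp : PT := (PT.nd (nat_lit 21779940) (PT.nd (nat_lit 19753266) (PT.nd (nat_lit 17885712) (PT.nd (nat_lit 16181100) (PT.nd (nat_lit 14801436) (PT.nd (nat_lit 13827294) (PT.nd (nat_lit 13096980) pc0 pc1) (PT.nd (nat_lit 568152) pc2 pc3)) (PT.nd (nat_lit 730626) (PT.nd (nat_lit 405756) pc4 pc5) (PT.nd (nat_lit 324636) pc6 pc7))) (PT.nd (nat_lit 973986) (PT.nd (nat_lit 487344) (PT.nd (nat_lit 243672) pc8 pc9) (PT.nd (nat_lit 243438) pc10 pc11)) (PT.nd (nat_lit 405600) (PT.nd (nat_lit 242970) pc12 pc13) (PT.nd (nat_lit 162552) pc14 pc15)))) (PT.nd (nat_lit 1135134) (PT.nd (nat_lit 568542) (PT.nd (nat_lit 324324) (PT.nd (nat_lit 162162) pc16 pc17) (PT.nd (nat_lit 161928)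 pc18 pc19)) (PT.nd (nat_lit 323232) (PT.nd (nat_lit 161772) pc20 pc21) (PT.nd (nat_lit 82056) pc22 pc23))) (PT.nd (nat_lit 406224) (PT.nd (nat_lit 163722) (PT.nd (nat_lit 81900) pc24 pc25) (PT.nd (nat_lit 160758) pc26 pc27)) (PT.nd (nat_lit 163254) (PT.nd (nat_lit 81666) pc28 pc29) (PT.nd (nat_lit 81510) pc30 pc31))))) (PT.nd (nat_lit 1214694) (PT.nd (nat_lit 648570) (PT.nd (nat_lit 403182) (PT.nd (nat_lit 241020) (PT.nd (nat_lit 159822) pc32 pc33) (PT.nd (nat_lit 81120) pc34 pc35)) (PT.nd (nat_lit 83694) (PT.nd (nat_lit 2730) pc36 pc37) (PT.nd (nat_lit 80886) pc38 pc39))) (PT.nd (nat_lit 322452) (PT.nd (nat_lit 161382) (PT.nd (nat_lit 80730) pc40 pc41) (PT.nd (nat_lit 80574) pc42 pc43)) (PT.nd (nat_lit 83148) (PT.nd (nat_lit 2730) pc44 pc45) (PT.nd (nat_lit 80340) pc46 pc47)))) (PT.nd (nat_lit 407394) (PT.nd (nat_lit 165360) (PT.nd (nat_lit 82680) (PT.nd (nat_lit 2652) pc48 pc49) (PT.nd (nat_lit 79950) pc50 pc51)) (PT.nd (nat_lit 159666) (PT.nd (nat_lit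 79872) pc52 pc53) (PT.nd (nat_lit 2730) pc54 pc55))) (PT.nd (nat_lit 164346) (PT.nd (nat_lit 82212) (PT.nd (nat_lit 79482) pc56 pc57) (PT.nd (nat_lit 79404) pc58 pc59)) (PT.nd (nat_lit 158496) (PT.nd (nat_lit 79326) pc60 pc61) (PT.nd (nat_lit 2730) pc62 pc63)))))) (PT.nd (nat_lit 1215396) (PT.nd (nat_lit 649272) (PT.nd (nat_lit 325728) (PT.nd (nat_lit 163098) (PT.nd (nat_lit 81588) (PT.nd (nat_lit 2652) pc64 pc65) (PT.nd (nat_lit 2730) pc66 pc67)) (PT.nd (nat_lit 81354) (PT.nd (nat_lit 2730) pc68 pc69) (PT.nd (nat_lit 2730) pc70 pc71))) (PT.nd (nat_lit 162084) (PT.nd (nat_lit 81120) (PT.nd (nat_lit 78390) pc72 pc73) (PT.nd (nat_lit 2730) pc74 pc75)) (PT.nd (nat_lit 80808) (PT.nd (nat_lit 2730) pc76 pc77) (PT.nd (nat_lit 2730) pc78 pc79)))) (PT.nd (nat_lit 246636) (PT.nd (nat_lit 160914) (PT.nd (nat_lit 80496) (PT.nd (nat_lit 2652) pc80 pc81) (PT.nd (nat_lit 2730) pc82 pc83)) (PT.nd (nat_lit 5460) (PT.nd (nat_lit 2730) pc84 pc85) (PT.nd (nat_lit 77532)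 pc86 pc87))) (PT.nd (nat_lit 160056) (PT.nd (nat_lit 80106) (PT.nd (nat_lit 77376) pc88 pc89) (PT.nd (nat_lit 77220) pc90 pc91)) (PT.nd (nat_lit 79794) (PT.nd (nat_lit 2730) pc92 pc93) (PT.nd (nat_lit 2730) pc94 pc95))))) (PT.nd (nat_lit 655200) (PT.nd (nat_lit 244764) (PT.nd (nat_lit 84864) (PT.nd (nat_lit 5382) (PT.nd (nat_lit 2652) pc96 pc97) (PT.nd (nat_lit 76752) pc98 pc99)) (PT.nd (nat_lit 79248) (PT.nd (nat_lit 2730) pc100 pc101) (PT.nd (nat_lit 4290) pc102 pc103))) (PT.nd (nat_lit 166842) (PT.nd (nat_lit 81354) (PT.nd (nat_lit 5148) pc104 pc105) (PT.nd (nat_lit 79092) pc106 pc107)) (PT.nd (nat_lit 155688) (PT.nd (nat_lit 75816) pc108 pc109) (PT.nd (nat_lit 7332) pc110 pc111)))) (PT.nd (nat_lit 650676) (PT.nd (nat_lit 317694) (PT.nd (nat_lit 155844) (PT.nd (nat_lit 75192) pc112 pc113) (PT.nd (nat_lit 80808) pc114 pc115)) (PT.nd (nat_lit 162396) (PT.nd (nat_lit 81120) pc116 pc117) (PT.nd (nat_lit 81276) pc118 pc119))) (PT.nd (nat_lit 487890) (PT.nd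 (nat_lit 234780) (PT.nd (nat_lit 81978) pc120 pc121) (PT.nd (nat_lit 161382) pc122 pc123)) (PT.nd (nat_lit 394524) (PT.nd (nat_lit 162708) pc124 pc125) (PT.nd (nat_lit 174486) pc126 pc127)))))))

set_option maxRecDepth 10000000 in
noncomputable def Tx : XT := (XT.nd (nat_lit 36995868) (nat_lit 0) (nat_lit 1216) XT.nil (XT.nd (nat_lit 16809000) (nat_lit 0) (nat_lit 0) (XT.nd (nat_lit 8034312) (nat_lit 0) (nat_lit 4864) (XT.nd (nat_lit 5109936) (nat_lit 0) (nat_lit 4408) (XT.nd (nat_lit 3568422) (nat_lit 0) (nat_lit 2204) (XT.nd (nat_lit 2512848) (nat_lit 0) (nat_lit 912) (XT.nd (nat_lit 1704612) (nat_lit 0) (nat_lit 380) (XT.nd (nat_lit 1216332) (nat_lit 0) (nat_lit 152) (XT.nd (nat_lit 811590) (nat_lit 0) (nat_lit 0) (XT.nd (nat_lit 567840) (nat_lit 0) (nat_lit 0) xc0 xc1) (XT.nd (nat_lit 242346) (nat_lit 0) (nat_lit 76) xc2 xc3)) (XT.nd (nat_lit 244842) (nat_lit 0) (nat_lit 152) (XT.nd (nat_lit 161772) (nat_lit 0) (nat_lit 152) xc4 xc5) (XT.nd (nat_lit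 160836) (nat_lit 0) (nat_lit 0) xc6 xc7))) (XT.nd (nat_lit 405834) (nat_lit 0) (nat_lit 304) (XT.nd (nat_lit 242034) (nat_lit 0) (nat_lit 0) (XT.nd (nat_lit 159900) (nat_lit 0) (nat_lit 0) xc8 xc9) (XT.nd (nat_lit 81978) (nat_lit 0) (nat_lit 228) xc10 xc11)) (XT.nd (nat_lit 239928) (nat_lit 0) (nat_lit 152) (XT.nd (nat_lit 81744) (nat_lit 0) (nat_lit 0) xc12 xc13) (XT.nd (nat_lit 81276) (nat_lit 0) (nat_lit 76) xc14 xc15)))) (XT.nd (nat_lit 568464) (nat_lit 0) (nat_lit 380) (XT.nd (nat_lit 247416) (nat_lit 0) (nat_lit 76) (XT.nd (nat_lit 161928) (nat_lit 0) (nat_lit 76) (XT.nd (nat_lit 81042) (nat_lit 0) (nat_lit 76) xc16 xc17) (XT.nd (nat_lit 80652) (nat_lit 0) (nat_lit 836) xc18 xc19)) (XT.nd (nat_lit 160836) (nat_lit 0) (nat_lit 228) (XT.nd (nat_lit 80496) (nat_lit 0) (nat_lit 152) xc20 xc21) (XT.nd (nat_lit 80184) (nat_lit 0) (nat_lit 0) xc22 xc23))) (XT.nd (nat_lit 243984) (nat_lit 0) (nat_lit 532) (XT.nd (nat_lit 84708) (nat_lit 0) (nat_lit 0) (XT.nd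 (nat_lit 79872) (nat_lit 0) (nat_lit 1292) xc24 xc25) (XT.nd (nat_lit 79716) (nat_lit 0) (nat_lit 152) xc26 xc27)) (XT.nd (nat_lit 84396) (nat_lit 0) (nat_lit 0) (XT.nd (nat_lit 79560) (nat_lit 0) (nat_lit 760) xc28 xc29) (XT.nd (nat_lit 79404) (nat_lit 0) (nat_lit 0) xc30 xc31))))) (XT.nd (nat_lit 813852) (nat_lit 0) (nat_lit 988) (XT.nd (nat_lit 408798) (nat_lit 0) (nat_lit 380) (XT.nd (nat_lit 241878) (nat_lit 0) (nat_lit 228) (XT.nd (nat_lit 84006) (nat_lit 0) (nat_lit 0) (XT.nd (nat_lit 79170) (nat_lit 0) (nat_lit 2736) xc32 xc33) (XT.nd (nat_lit 79014) (nat_lit 0) (nat_lit 0) xc34 xc35)) (XT.nd (nat_lit 83538) (nat_lit 0) (nat_lit 0) (XT.nd (nat_lit 4836) (nat_lit 1976) (nat_lit 0) xc36 xc37) (XT.nd (nat_lit 78546) (nat_lit 0) (nat_lit 2736) xc38 xc39))) (XT.nd (nat_lit 239538) (nat_lit 0) (nat_lit 228) (XT.nd (nat_lit 156624) (nat_lit 0) (nat_lit 152) (XT.nd (nat_lit 78390) (nat_lit 0) (nat_lit 0) xc40 xc41) (XT.nd (nat_lit 4836) (nat_lit 5396)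 (nat_lit 0) xc42 xc43)) (XT.nd (nat_lit 82758) (nat_lit 0) (nat_lit 228) (XT.nd (nat_lit 4836) (nat_lit 912) (nat_lit 0) xc44 xc45) (XT.nd (nat_lit 77844) (nat_lit 0) (nat_lit 5396) xc46 xc47)))) (XT.nd (nat_lit 401466) (nat_lit 0) (nat_lit 456) (XT.nd (nat_lit 237432) (nat_lit 0) (nat_lit 304) (XT.nd (nat_lit 82524) (nat_lit 0) (nat_lit 0) (XT.nd (nat_lit 77688) (nat_lit 0) (nat_lit 1748) xc48 xc49) (XT.nd (nat_lit 77532) (nat_lit 0) (nat_lit 304) xc50 xc51)) (XT.nd (nat_lit 82056) (nat_lit 0) (nat_lit 152) (XT.nd (nat_lit 4836) (nat_lit 10412) (nat_lit 0) xc52 xc53) (XT.nd (nat_lit 4836) (nat_lit 6992) (nat_lit 0) xc54 xc55))) (XT.nd (nat_lit 163332) (nat_lit 0) (nat_lit 304) (XT.nd (nat_lit 81744) (nat_lit 0) (nat_lit 304) (XT.nd (nat_lit 4836) (nat_lit 4484) (nat_lit 0) xc56 xc57) (XT.nd (nat_lit 4836) (nat_lit 2888) (nat_lit 0) xc58 xc59)) (XT.nd (nat_lit 81432) (nat_lit 0) (nat_lit 380) (XT.nd (nat_lit 4836) (nat_lit 1976) (nat_lit 0) xc60 xc61)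 (XT.nd (nat_lit 4836) (nat_lit 1064) (nat_lit 0) xc62 xc63)))))) (XT.nd (nat_lit 1378962) (nat_lit 0) (nat_lit 456) (XT.nd (nat_lit 650364) (nat_lit 0) (nat_lit 1292) (XT.nd (nat_lit 324558) (nat_lit 0) (nat_lit 456) (XT.nd (nat_lit 162240) (nat_lit 0) (nat_lit 228) (XT.nd (nat_lit 81198) (nat_lit 0) (nat_lit 228) (XT.nd (nat_lit 4836) (nat_lit 760) (nat_lit 0) xc64 xc65) (XT.nd (nat_lit 4836) (nat_lit 532) (nat_lit 0) xc66 xc67)) (XT.nd (nat_lit 81120) (nat_lit 0) (nat_lit 228) (XT.nd (nat_lit 4836) (nat_lit 1064) (nat_lit 0) xc68 xc69) (XT.nd (nat_lit 4836) (nat_lit 1064) (nat_lit 0) xc70 xc71))) (XT.nd (nat_lit 162630) (nat_lit 0) (nat_lit 532) (XT.nd (nat_lit 81276) (nat_lit 0) (nat_lit 304) (XT.nd (nat_lit 4836) (nat_lit 1368) (nat_lit 0) xc72 xc73) (XT.nd (nat_lit 4836) (nat_lit 988) (nat_lit 0) xc74 xc75)) (XT.nd (nat_lit 81510) (nat_lit 0) (nat_lit 0) (XT.nd (nat_lit 4836) (nat_lit 532) (nat_lit 0) xc76 xc77) (XT.nd (nat_lit 76752) (nat_lit 0)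 (nat_lit 16112) xc78 xc79)))) (XT.nd (nat_lit 327132) (nat_lit 0) (nat_lit 836) (XT.nd (nat_lit 163410) (nat_lit 0) (nat_lit 228) (XT.nd (nat_lit 81666) (nat_lit 0) (nat_lit 228) (XT.nd (nat_lit 76830) (nat_lit 0) (nat_lit 13376) xc80 xc81) (XT.nd (nat_lit 76908) (nat_lit 0) (nat_lit 10868) xc82 xc83)) (XT.nd (nat_lit 81822) (nat_lit 0) (nat_lit 228) (XT.nd (nat_lit 76986) (nat_lit 0) (nat_lit 8360) xc84 xc85) (XT.nd (nat_lit 77064) (nat_lit 0) (nat_lit 5928) xc86 xc87))) (XT.nd (nat_lit 164190) (nat_lit 0) (nat_lit 228) (XT.nd (nat_lit 82056) (nat_lit 0) (nat_lit 0) (XT.nd (nat_lit 77220) (nat_lit 0) (nat_lit 2888) xc88 xc89) (XT.nd (nat_lit 77298) (nat_lit 0) (nat_lit 608) xc90 xc91)) (XT.nd (nat_lit 154830) (nat_lit 0) (nat_lit 380) (XT.nd (nat_lit 77376) (nat_lit 0) (nat_lit 304) xc92 xc93) (XT.nd (nat_lit 4836) (nat_lit 9044) (nat_lit 0) xc94 xc95))))) (XT.nd (nat_lit 736086) (nat_lit 2508) (nat_lit 0) (XT.nd (nat_lit 330486) (nat_lit 0) (nat_lit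 988) (XT.nd (nat_lit 165048) (nat_lit 0) (nat_lit 380) (XT.nd (nat_lit 82446) (nat_lit 0) (nat_lit 304) (XT.nd (nat_lit 4836) (nat_lit 4712) (nat_lit 0) xc96 xc97) (XT.nd (nat_lit 4836) (nat_lit 684) (nat_lit 0) xc98 xc99)) (XT.nd (nat_lit 82680) (nat_lit 0) (nat_lit 304) (XT.nd (nat_lit 77844) (nat_lit 0) (nat_lit 7448) xc100 xc101) (XT.nd (nat_lit 77922) (nat_lit 0) (nat_lit 2052) xc102 xc103))) (XT.nd (nat_lit 239148) (nat_lit 0) (nat_lit 684) (XT.nd (nat_lit 156078) (nat_lit 0) (nat_lit 380) (XT.nd (nat_lit 78000) (nat_lit 0) (nat_lit 0) xc104 xc105) (XT.nd (nat_lit 4836) (nat_lit 6916) (nat_lit 0) xc106 xc107)) (XT.nd (nat_lit 83148) (nat_lit 0) (nat_lit 0) (XT.nd (nat_lit 4836) (nat_lit 380) (nat_lit 0) xc108 xc109) (XT.nd (nat_lit 78390) (nat_lit 0) (nat_lit 3420) xc110 xc111)))) (XT.nd (nat_lit 408720) (nat_lit 532) (nat_lit 0) (XT.nd (nat_lit 240474) (nat_lit 3952) (nat_lit 0) (XT.nd (nat_lit 157014) (nat_lit 0) (nat_lit 456) (XT.nd (nat_lit 78468)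 (nat_lit 0) (nat_lit 456) xc112 xc113) (XT.nd (nat_lit 4836) (nat_lit 4940) (nat_lit 0) xc114 xc115)) (XT.nd (nat_lit 83616) (nat_lit 4712) (nat_lit 0) (XT.nd (nat_lit 78780) (nat_lit 0) (nat_lit 5548) xc116 xc117) (XT.nd (nat_lit 78468) (nat_lit 0) (nat_lit 304) xc118 xc119))) (XT.nd (nat_lit 236730) (nat_lit 0) (nat_lit 0) (XT.nd (nat_lit 154440) (nat_lit 0) (nat_lit 0) (XT.nd (nat_lit 76752) (nat_lit 228) (nat_lit 0) xc120 xc121) (XT.nd (nat_lit 4836) (nat_lit 10792) (nat_lit 0) xc122 xc123)) (XT.nd (nat_lit 82056) (nat_lit 0) (nat_lit 0) (XT.nd (nat_lit 4836) (nat_lit 7220) (nat_lit 0) xc124 xc125) (XT.nd (nat_lit 5070) (nat_lit 3876) (nat_lit 0) xc126 xc127))))))) (XT.nd (nat_lit 2848872) (nat_lit 0) (nat_lit 4180) (XT.nd (nat_lit 1381302) (nat_lit 0) (nat_lit 1064) (XT.nd (nat_lit 653874) (nat_lit 0) (nat_lit 0) (XT.nd (nat_lit 326976) (nat_lit 0) (nat_lit 304) (XT.nd (nat_lit 163566) (nat_lit 0) (nat_lit 228) (XT.nd (nat_lit 81744) (nat_lit 0) (nat_lit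 228) (XT.nd (nat_lit 5070) (nat_lit 2508) (nat_lit 0) xc128 xc129) (XT.nd (nat_lit 5070) (nat_lit 1064) (nat_lit 0) xc130 xc131)) (XT.nd (nat_lit 81822) (nat_lit 0) (nat_lit 0) (XT.nd (nat_lit 76986) (nat_lit 0) (nat_lit 14364) xc132 xc133) (XT.nd (nat_lit 76752) (nat_lit 0) (nat_lit 12616) xc134 xc135))) (XT.nd (nat_lit 163332) (nat_lit 0) (nat_lit 228) (XT.nd (nat_lit 81666) (nat_lit 0) (nat_lit 0) (XT.nd (nat_lit 76830) (nat_lit 0) (nat_lit 10944) xc136 xc137) (XT.nd (nat_lit 76830) (nat_lit 0) (nat_lit 9500) xc138 xc139)) (XT.nd (nat_lit 81744) (nat_lit 0) (nat_lit 0) (XT.nd (nat_lit 76908) (nat_lit 0) (nat_lit 7524) xc140 xc141) (XT.nd (nat_lit 76908) (nat_lit 0) (nat_lit 5852) xc142 xc143)))) (XT.nd (nat_lit 399594) (nat_lit 0) (nat_lit 532) (XT.nd (nat_lit 163644) (nat_lit 0) (nat_lit 228) (XT.nd (nat_lit 81822) (nat_lit 532) (nat_lit 0) (XT.nd (nat_lit 76986) (nat_lit 0) (nat_lit 4408) xc144 xc145) (XT.nd (nat_lit 76986) (nat_lit 0) (nat_lit 3192)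 xc146 xc147)) (XT.nd (nat_lit 81822) (nat_lit 0) (nat_lit 76) (XT.nd (nat_lit 76986) (nat_lit 0) (nat_lit 1672) xc148 xc149) (XT.nd (nat_lit 77064) (nat_lit 0) (nat_lit 0) xc150 xc151))) (XT.nd (nat_lit 163722) (nat_lit 0) (nat_lit 228) (XT.nd (nat_lit 81822) (nat_lit 0) (nat_lit 0) (XT.nd (nat_lit 4836) (nat_lit 12920) (nat_lit 0) xc152 xc153) (XT.nd (nat_lit 4836) (nat_lit 10716) (nat_lit 0) xc154 xc155)) (XT.nd (nat_lit 81978) (nat_lit 0) (nat_lit 304) (XT.nd (nat_lit 4836) (nat_lit 8132) (nat_lit 0) xc156 xc157) (XT.nd (nat_lit 4836) (nat_lit 5320) (nat_lit 0) xc158 xc159))))) (XT.nd (nat_lit 730860) (nat_lit 0) (nat_lit 1444) (XT.nd (nat_lit 328380) (nat_lit 0) (nat_lit 608) (XT.nd (nat_lit 164034) (nat_lit 0) (nat_lit 228) (XT.nd (nat_lit 81978) (nat_lit 0) (nat_lit 0) (XT.nd (nat_lit 4836) (nat_lit 3116) (nat_lit 0) xc160 xc161) (XT.nd (nat_lit 4836) (nat_lit 1140) (nat_lit 0) xc162 xc163)) (XT.nd (nat_lit 82134) (nat_lit 0) (nat_lit 0) (XT.nd (nat_lit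 77298) (nat_lit 0) (nat_lit 11020) xc164 xc165) (XT.nd (nat_lit 77376) (nat_lit 0) (nat_lit 7600) xc166 xc167))) (XT.nd (nat_lit 164658) (nat_lit 0) (nat_lit 228) (XT.nd (nat_lit 82290) (nat_lit 0) (nat_lit 228) (XT.nd (nat_lit 77454) (nat_lit 0) (nat_lit 3952) xc168 xc169) (XT.nd (nat_lit 77532) (nat_lit 0) (nat_lit 608) xc170 xc171)) (XT.nd (nat_lit 155220) (nat_lit 0) (nat_lit 304) (XT.nd (nat_lit 77610) (nat_lit 0) (nat_lit 0) xc172 xc173) (XT.nd (nat_lit 4836) (nat_lit 8056) (nat_lit 0) xc174 xc175)))) (XT.nd (nat_lit 404196) (nat_lit 0) (nat_lit 988) (XT.nd (nat_lit 165282) (nat_lit 0) (nat_lit 304) (XT.nd (nat_lit 82602) (nat_lit 0) (nat_lit 0) (XT.nd (nat_lit 4836) (nat_lit 3192) (nat_lit 0) xc176 xc177) (XT.nd (nat_lit 77844) (nat_lit 0) (nat_lit 10868) xc178 xc179)) (XT.nd (nat_lit 82758) (nat_lit 0) (nat_lit 0) (XT.nd (nat_lit 77922) (nat_lit 0) (nat_lit 4788) xc180 xc181) (XT.nd (nat_lit 78000) (nat_lit 0) (nat_lit 380) xc182 xc183))) (XT.nd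 (nat_lit 166062) (nat_lit 0) (nat_lit 304) (XT.nd (nat_lit 82992) (nat_lit 0) (nat_lit 0) (XT.nd (nat_lit 4836) (nat_lit 9880) (nat_lit 0) xc184 xc185) (XT.nd (nat_lit 4836) (nat_lit 3724) (nat_lit 0) xc186 xc187)) (XT.nd (nat_lit 83148) (nat_lit 0) (nat_lit 76) (XT.nd (nat_lit 78312) (nat_lit 0) (nat_lit 7448) xc188 xc189) (XT.nd (nat_lit 78390) (nat_lit 0) (nat_lit 608) xc190 xc191)))))) (XT.nd (nat_lit 1943994) (nat_lit 0) (nat_lit 6080) (XT.nd (nat_lit 891696) (nat_lit 0) (nat_lit 2584) (XT.nd (nat_lit 481650) (nat_lit 0) (nat_lit 1444) (XT.nd (nat_lit 240474) (nat_lit 0) (nat_lit 760) (XT.nd (nat_lit 157014) (nat_lit 0) (nat_lit 304) (XT.nd (nat_lit 78468) (nat_lit 0) (nat_lit 304) xc192 xc193) (XT.nd (nat_lit 4836) (nat_lit 2280) (nat_lit 0) xc194 xc195)) (XT.nd (nat_lit 83538) (nat_lit 0) (nat_lit 304) (XT.nd (nat_lit 78702) (nat_lit 0) (nat_lit 3116) xc196 xc197) (XT.nd (nat_lit 78780) (nat_lit 0) (nat_lit 0) xc198 xc199))) (XT.nd (nat_lit 167622)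 (nat_lit 0) (nat_lit 380) (XT.nd (nat_lit 83772) (nat_lit 0) (nat_lit 76) (XT.nd (nat_lit 4836) (nat_lit 2432) (nat_lit 0) xc200 xc201) (XT.nd (nat_lit 79014) (nat_lit 0) (nat_lit 1900) xc202 xc203)) (XT.nd (nat_lit 158262) (nat_lit 0) (nat_lit 380) (XT.nd (nat_lit 79092) (nat_lit 0) (nat_lit 380) xc204 xc205) (XT.nd (nat_lit 79248) (nat_lit 0) (nat_lit 5928) xc206 xc207)))) (XT.nd (nat_lit 486798) (nat_lit 0) (nat_lit 1292) (XT.nd (nat_lit 243048) (nat_lit 0) (nat_lit 836) (XT.nd (nat_lit 158730) (nat_lit 0) (nat_lit 456) (XT.nd (nat_lit 79326) (nat_lit 0) (nat_lit 76) xc208 xc209) (XT.nd (nat_lit 4836) (nat_lit 1672) (nat_lit 0) xc210 xc211)) (XT.nd (nat_lit 159198) (nat_lit 0) (nat_lit 456) (XT.nd (nat_lit 79560) (nat_lit 0) (nat_lit 0) xc212 xc213) (XT.nd (nat_lit 4836) (nat_lit 1748) (nat_lit 0) xc214 xc215))) (XT.nd (nat_lit 244530) (nat_lit 0) (nat_lit 1292) (XT.nd (nat_lit 159666) (nat_lit 0) (nat_lit 836) (XT.nd (nat_lit 79794) (nat_lit 0) (nat_lit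 380) xc216 xc217) (XT.nd (nat_lit 80028) (nat_lit 0) (nat_lit 4484) xc218 xc219)) (XT.nd (nat_lit 160290) (nat_lit 0) (nat_lit 456) (XT.nd (nat_lit 80106) (nat_lit 0) (nat_lit 0) xc220 xc221) (XT.nd (nat_lit 80262) (nat_lit 0) (nat_lit 456) xc222 xc223))))) (XT.nd (nat_lit 1221402) (nat_lit 0) (nat_lit 6232) (XT.nd (nat_lit 569790) (nat_lit 0) (nat_lit 2584) (XT.nd (nat_lit 246402) (nat_lit 0) (nat_lit 1520) (XT.nd (nat_lit 85254) (nat_lit 0) (nat_lit 532) (XT.nd (nat_lit 80418) (nat_lit 0) (nat_lit 3800) xc224 xc225) (XT.nd (nat_lit 80496) (nat_lit 0) (nat_lit 456) xc226 xc227)) (XT.nd (nat_lit 161538) (nat_lit 0) (nat_lit 532) (XT.nd (nat_lit 80730) (nat_lit 0) (nat_lit 0) xc228 xc229) (XT.nd (nat_lit 80886) (nat_lit 0) (nat_lit 0) xc230 xc231))) (XT.nd (nat_lit 324948) (nat_lit 0) (nat_lit 1748) (XT.nd (nat_lit 162318) (nat_lit 0) (nat_lit 1216) (XT.nd (nat_lit 81120) (nat_lit 0) (nat_lit 532) xc232 xc233) (XT.nd (nat_lit 81276) (nat_lit 0) (nat_lit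 0) xc234 xc235)) (XT.nd (nat_lit 163098) (nat_lit 0) (nat_lit 1216) (XT.nd (nat_lit 81510) (nat_lit 0) (nat_lit 608) xc236 xc237) (XT.nd (nat_lit 81666) (nat_lit 0) (nat_lit 684) xc238 xc239)))) (XT.nd (nat_lit 892242) (nat_lit 0) (nat_lit 6536) (XT.nd (nat_lit 405678) (nat_lit 0) (nat_lit 2736) (XT.nd (nat_lit 241176) (nat_lit 0) (nat_lit 1976) (XT.nd (nat_lit 81900) (nat_lit 0) (nat_lit 608) xc240 xc241) (XT.nd (nat_lit 82212) (nat_lit 0) (nat_lit 76) xc242 xc243)) (XT.nd (nat_lit 242736) (nat_lit 0) (nat_lit 2204) (XT.nd (nat_lit 160134) (nat_lit 0) (nat_lit 684) xc244 xc245) (XT.nd (nat_lit 82758) (nat_lit 0) (nat_lit 76) xc246 xc247))) (XT.nd (nat_lit 569322) (nat_lit 0) (nat_lit 4408) (XT.nd (nat_lit 244686) (nat_lit 0) (nat_lit 1672) (XT.nd (nat_lit 161382) (nat_lit 0) (nat_lit 836) xc248 xc249) (XT.nd (nat_lit 162084) (nat_lit 0) (nat_lit 1824) xc250 xc251)) (XT.nd (nat_lit 405990) (nat_lit 0) (nat_lit 3040) (XT.nd (nat_lit 242268) (nat_lit 0)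 (nat_lit 1900) xc252 xc253) (XT.nd (nat_lit 324090) (nat_lit 0) (nat_lit 0) xc254 xc255)))))))) XT.nil))

set_option maxRecDepth 10000000 in
noncomputable def Te : XT := XT.nil

set_option maxRecDepth 10000000 in
noncomputable def Tz : ZL := (ZL.cons (nat_lit 76) (nat_lit 3) (nat_lit 295387336326582660986) (ZL.cons (nat_lit 152) (nat_lit 6) (nat_lit 584999950582609527332) (ZL.cons (nat_lit 836) (nat_lit 3) (nat_lit 111726329456226079090) (ZL.cons (nat_lit 912) (nat_lit 6) (nat_lit 221386456571054189636) (ZL.cons (nat_lit 988) (nat_lit 6) (nat_lit 219364077345816438730) (ZL.cons (nat_lit 1064) (nat_lit 3) (nat_lit 109660962642465601294) (ZL.cons (nat_lit 1216) (nat_lit 6) (nat_lit 217301250536073932806) (ZL.cons (nat_lit 1292) (nat_lit 6) (nat_lit 215323639903012240186) (ZL.cons (nat_lit 1368) (nat_lit 3) (nat_lit 107641157176562376886) (ZL.cons (nat_lit 1520) (nat_lit 6) (nat_lit 213306477057289313716) (ZL.cons (nat_lit 1596) (nat_lit 6) (nat_lit 211372963810412383056)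 (ZL.cons (nat_lit 1672) (nat_lit 3) (nat_lit 105666224282712325637) (ZL.cons (nat_lit 1748) (nat_lit 6) (nat_lit 209481016372004990446) (ZL.cons (nat_lit 1824) (nat_lit 6) (nat_lit 209400780298597913782) (ZL.cons (nat_lit 1900) (nat_lit 6) (nat_lit 207510714739841718200) (ZL.cons (nat_lit 1976) (nat_lit 3) (nat_lit 103735496955711186659) (ZL.cons (nat_lit 2052) (nat_lit 6) (nat_lit 205661510686976160138) (ZL.cons (nat_lit 2128) (nat_lit 6) (nat_lit 205582847869910398706) (ZL.cons (nat_lit 2204) (nat_lit 6) (nat_lit 203735601724633946034) (ZL.cons (nat_lit 2280) (nat_lit 3) (nat_lit 101848329867993764742) (ZL.cons (nat_lit 2356) (nat_lit 6) (nat_lit 201928531065339965716) (ZL.cons (nat_lit 2432) (nat_lit 6) (nat_lit 201851410656451964312) (ZL.cons (nat_lit 2508) (nat_lit 6) (nat_lit 200046377004213689240) (ZL.cons (nat_lit 2584) (nat_lit 3) (nat_lit 100004099291986052193) (ZL.cons (nat_lit 2660) (nat_lit 6) (nat_lit 198280850922938493182) (ZL.cons (nat_lit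 2736) (nat_lit 6) (nat_lit 198205242678930648666) (ZL.cons (nat_lit 2888) (nat_lit 6) (nat_lit 196441835899796208348) (ZL.cons (nat_lit 2964) (nat_lit 3) (nat_lit 98202203038014974343) (ZL.cons (nat_lit 3040) (nat_lit 6) (nat_lit 194717286714498534628) (ZL.cons (nat_lit 3116) (nat_lit 6) (nat_lit 194643160985079079222) (ZL.cons (nat_lit 3192) (nat_lit 6) (nat_lit 193030918829239471560) (ZL.cons (nat_lit 3268) (nat_lit 6) (nat_lit 192920816721728647774) (ZL.cons (nat_lit 3344) (nat_lit 3) (nat_lit 96442060408037726015) (ZL.cons (nat_lit 3420) (nat_lit 6) (nat_lit 191236697856855771824) (ZL.cons (nat_lit 3496) (nat_lit 6) (nat_lit 191164025573111207700) (ZL.cons (nat_lit 3572) (nat_lit 6) (nat_lit 189590143951689912984) (ZL.cons (nat_lit 3648) (nat_lit 6) (nat_lit 189482200709032242608) (ZL.cons (nat_lit 3724) (nat_lit 3) (nat_lit 94723112165470437114) (ZL.cons (nat_lit 3800) (nat_lit 6) (nat_lit 187837986684676172844) (ZL.cons (nat_lit 3876) (nat_lit 6)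 (nat_lit 187766739347671698212) (ZL.cons (nat_lit 3952) (nat_lit 6) (nat_lit 186230738710229525442) (ZL.cons (nat_lit 4028) (nat_lit 6) (nat_lit 186124912001741613306) (ZL.cons (nat_lit 4104) (nat_lit 3) (nat_lit 93044820521414253527) (ZL.cons (nat_lit 4256) (nat_lit 6) (nat_lit 184520098439289470460) (ZL.cons (nat_lit 4332) (nat_lit 6) (nat_lit 184450248108892926704) (ZL.cons (nat_lit 4408) (nat_lit 6) (nat_lit 182951669321663327656) (ZL.cons (nat_lit 4484) (nat_lit 6) (nat_lit 182847917646675178504) (ZL.cons (nat_lit 4560) (nat_lit 3) (nat_lit 91406669137595870500) (ZL.cons (nat_lit 4712) (nat_lit 6) (nat_lit 181282021291288118240) (ZL.cons (nat_lit 4788) (nat_lit 6) (nat_lit 181213540575213075340) (ZL.cons (nat_lit 4864) (nat_lit 6) (nat_lit 179751944965729633334) (ZL.cons (nat_lit 4940) (nat_lit 6) (nat_lit 179650227637309879264) (ZL.cons (nat_lit 5016) (nat_lit 3) (nat_lit 89808163146359136934) (ZL.cons (nat_lit 5092) (nat_lit 6) (nat_lit 178257088640068132228)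 (ZL.cons (nat_lit 5168) (nat_lit 6) (nat_lit 178122786397584935832) (ZL.cons (nat_lit 5244) (nat_lit 6) (nat_lit 178055648440648619266) (ZL.cons (nat_lit 5320) (nat_lit 6) (nat_lit 176630617859473647030) (ZL.cons (nat_lit 5396) (nat_lit 6) (nat_lit 176530894988473888138) (ZL.cons (nat_lit 5472) (nat_lit 3) (nat_lit 88248829188064588484) (ZL.cons (nat_lit 5548) (nat_lit 6) (nat_lit 175173136858843420196) (ZL.cons (nat_lit 5624) (nat_lit 6) (nat_lit 175041467993663815886) (ZL.cons (nat_lit 5700) (nat_lit 6) (nat_lit 174975646467255662390) (ZL.cons (nat_lit 5776) (nat_lit 6) (nat_lit 173749771834517537590) (ZL.cons (nat_lit 5852) (nat_lit 6) (nat_lit 173586783367200829932) (ZL.cons (nat_lit 5928) (nat_lit 6) (nat_lit 173489015846612831018) (ZL.cons (nat_lit 6004) (nat_lit 3) (nat_lit 86728215466274694346) (ZL.cons (nat_lit 6080) (nat_lit 6) (nat_lit 172166270644525533024) (ZL.cons (nat_lit 6156) (nat_lit 6) (nat_lit 172037183521800430762) (ZL.cons (nat_lit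 6232) (nat_lit 6) (nat_lit 171972652613557143018) (ZL.cons (nat_lit 6308) (nat_lit 6) (nat_lit 170779372761825111322) (ZL.cons (nat_lit 6384) (nat_lit 6) (nat_lit 170619580146808731264) (ZL.cons (nat_lit 6460) (nat_lit 6) (nat_lit 170523729636428340172) (ZL.cons (nat_lit 6536) (nat_lit 3) (nat_lit 85245891821124247377) (ZL.cons (nat_lit 6612) (nat_lit 6) (nat_lit 169235649798745578924) (ZL.cons (nat_lit 6688) (nat_lit 6) (nat_lit 169109093796073910036) (ZL.cons (nat_lit 6764) (nat_lit 6) (nat_lit 169045828199756961270) (ZL.cons (nat_lit 6840) (nat_lit 6) (nat_lit 167884849759827419558) (ZL.cons (nat_lit 6916) (nat_lit 6) (nat_lit 167728190333340772442) (ZL.cons (nat_lit 6992) (nat_lit 6) (nat_lit 167634219244732545880) (ZL.cons (nat_lit 7068) (nat_lit 3) (nat_lit 83801449821297721266) (ZL.cons (nat_lit 7144) (nat_lit 6) (nat_lit 166380477717459228120) (ZL.cons (nat_lit 7220) (nat_lit 6) (nat_lit 166256403205036023330) (ZL.cons (nat_lit 7296) (nat_lit 6)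 (nat_lit 166194378110607642186) (ZL.cons (nat_lit 7372) (nat_lit 6) (nat_lit 165065427433677950974) (ZL.cons (nat_lit 7448) (nat_lit 6) (nat_lit 164911839760651826350) (ZL.cons (nat_lit 7524) (nat_lit 6) (nat_lit 164819711242408466978) (ZL.cons (nat_lit 7600) (nat_lit 3) (nat_lit 82394502875058594591) (ZL.cons (nat_lit 7676) (nat_lit 6) (nat_lit 163782523776003301284) (ZL.cons (nat_lit 7752) (nat_lit 6) (nat_lit 163600001631797843492) (ZL.cons (nat_lit 7828) (nat_lit 6) (nat_lit 163478359952951564286) (ZL.cons (nat_lit 7904) (nat_lit 6) (nat_lit 163417551036845308262) (ZL.cons (nat_lit 7980) (nat_lit 6) (nat_lit 162320374372149033980) (ZL.cons (nat_lit 8056) (nat_lit 6) (nat_lit 162169798222123421606) (ZL.cons (nat_lit 8132) (nat_lit 6) (nat_lit 162079476145414245748) (ZL.cons (nat_lit 8208) (nat_lit 3) (nat_lit 81024686360799633760) (ZL.cons (nat_lit 8284) (nat_lit 6) (nat_lit 161072456167093770830) (ZL.cons (nat_lit 8360) (nat_lit 6) (nat_lit 160893512888460969072)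 (ZL.cons (nat_lit 8436) (nat_lit 6) (nat_lit 160774256340572460046) (ZL.cons (nat_lit 8512) (nat_lit 6) (nat_lit 160714639756154561984) (ZL.cons (nat_lit 8588) (nat_lit 6) (nat_lit 159649003447911790042) (ZL.cons (nat_lit 8664) (nat_lit 6) (nat_lit 159501379771416091632) (ZL.cons (nat_lit 8740) (nat_lit 6) (nat_lit 159412828715818860402) (ZL.cons (nat_lit 8816) (nat_lit 3) (nat_lit 79691657777607970284) (ZL.cons (nat_lit 8892) (nat_lit 6) (nat_lit 158435781857558022088) (ZL.cons (nat_lit 8968) (nat_lit 6) (nat_lit 158260347270663118404) (ZL.cons (nat_lit 9044) (nat_lit 6) (nat_lit 158143429086458697790) (ZL.cons (nat_lit 9120) (nat_lit 6) (nat_lit 158084981454676444788) (ZL.cons (nat_lit 9196) (nat_lit 6) (nat_lit 157253372344226977460) (ZL.cons (nat_lit 9272) (nat_lit 6) (nat_lit 157050672158901480366) (ZL.cons (nat_lit 9348) (nat_lit 6) (nat_lit 156905943064297854478) (ZL.cons (nat_lit 9424) (nat_lit 6) (nat_lit 156819128303908412092) (ZL.cons (nat_lit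 9500) (nat_lit 3) (nat_lit 78395096916364539462) (ZL.cons (nat_lit 9576) (nat_lit 6) (nat_lit 155871880053734408252) (ZL.cons (nat_lit 9652) (nat_lit 6) (nat_lit 155699885360700188954) (ZL.cons (nat_lit 9728) (nat_lit 6) (nat_lit 155585259689911541294) (ZL.cons (nat_lit 9804) (nat_lit 6) (nat_lit 155527958090125018742) (ZL.cons (nat_lit 9880) (nat_lit 6) (nat_lit 154723508683748111054) (ZL.cons (nat_lit 9956) (nat_lit 6) (nat_lit 154524783011860368808) (ZL.cons (nat_lit 10032) (nat_lit 6) (nat_lit 154382891742641127738) (ZL.cons (nat_lit 10108) (nat_lit 6) (nat_lit 154297779232455399912) (ZL.cons (nat_lit 10184) (nat_lit 3) (nat_lit 77134706051924105264) (ZL.cons (nat_lit 10260) (nat_lit 6) (nat_lit 153380175193327868614) (ZL.cons (nat_lit 10336) (nat_lit 6) (nat_lit 153211552945255104596) (ZL.cons (nat_lit 10412) (nat_lit 6) (nat_lit 153099174836638783360) (ZL.cons (nat_lit 10488) (nat_lit 6) (nat_lit 153042996797632388702) (ZL.cons (nat_lit 10564) (nat_lit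 6) (nat_lit 152265613039291499160) (ZL.cons (nat_lit 10640) (nat_lit 6) (nat_lit 152070783949205477348) (ZL.cons (nat_lit 10716) (nat_lit 6) (nat_lit 151931674861735633164) (ZL.cons (nat_lit 10792) (nat_lit 6) (nat_lit 151848231224298645096) (ZL.cons (nat_lit 10868) (nat_lit 3) (nat_lit 75910210156949719911) (ZL.cons (nat_lit 10944) (nat_lit 6) (nat_lit 151180659466553599122) (ZL.cons (nat_lit 11020) (nat_lit 6) (nat_lit 150960137394101638298) (ZL.cons (nat_lit 11096) (nat_lit 6) (nat_lit 150794821464618536320) (ZL.cons (nat_lit 11172) (nat_lit 6) (nat_lit 150684646848328025304) (ZL.cons (nat_lit 11248) (nat_lit 6) (nat_lit 150629570339498226620) (ZL.cons (nat_lit 11324) (nat_lit 6) (nat_lit 149879177732274919272) (ZL.cons (nat_lit 11400) (nat_lit 6) (nat_lit 149688168820425878282) (ZL.cons (nat_lit 11476) (nat_lit 6) (nat_lit 149551787362122109472) (ZL.cons (nat_lit 11552) (nat_lit 6) (nat_lit 149469979874438787840) (ZL.cons (nat_lit 11628) (nat_lit 3)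 (nat_lit 74721357138004097215) (ZL.cons (nat_lit 11704) (nat_lit 6) (nat_lit 148827481057975584306) (ZL.cons (nat_lit 11780) (nat_lit 6) (nat_lit 148611282947728563890) (ZL.cons (nat_lit 11856) (nat_lit 6) (nat_lit 148449208507058856068) (ZL.cons (nat_lit 11932) (nat_lit 6) (nat_lit 148341194177362276642) (ZL.cons (nat_lit 12008) (nat_lit 6) (nat_lit 148287197600078160284) (ZL.cons (nat_lit 12084) (nat_lit 6) (nat_lit 147563741538341221648) (ZL.cons (nat_lit 12160) (nat_lit 6) (nat_lit 147376477899273534400) (ZL.cons (nat_lit 12236) (nat_lit 6) (nat_lit 147242770587211015962) (ZL.cons (nat_lit 12312) (nat_lit 6) (nat_lit 147162567167913641810) (ZL.cons (nat_lit 12388) (nat_lit 3) (nat_lit 73567918094530059431) (ZL.cons (nat_lit 12464) (nat_lit 6) (nat_lit 146545133791711150636) (ZL.cons (nat_lit 12540) (nat_lit 6) (nat_lit 146333174860096424738) (ZL.cons (nat_lit 12616) (nat_lit 6) (nat_lit 146174278349635926874) (ZL.cons (nat_lit 12692) (nat_lit 6) (nat_lit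 146068381947972613710) (ZL.cons (nat_lit 12768) (nat_lit 6) (nat_lit 146015444127105832968) (ZL.cons (nat_lit 12844) (nat_lit 6) (nat_lit 145555060253820064554) (ZL.cons (nat_lit 12920) (nat_lit 6) (nat_lit 145318890251080790956) (ZL.cons (nat_lit 12996) (nat_lit 6) (nat_lit 145135298448073254442) (ZL.cons (nat_lit 13072) (nat_lit 6) (nat_lit 145004212848011961852) (ZL.cons (nat_lit 13148) (nat_lit 6) (nat_lit 144925582044779242098) (ZL.cons (nat_lit 13224) (nat_lit 3) (nat_lit 72449687601382992152) (ZL.cons (nat_lit 13300) (nat_lit 6) (nat_lit 144333226313556430850) (ZL.cons (nat_lit 13376) (nat_lit 6) (nat_lit 144125423439424346636) (ZL.cons (nat_lit 13452) (nat_lit 6) (nat_lit 143969642546816015396) (ZL.cons (nat_lit 13528) (nat_lit 6) (nat_lit 143865822545185316216) (ZL.cons (nat_lit 13604) (nat_lit 6) (nat_lit 143813922720806119410) (ZL.cons (nat_lit 13680) (nat_lit 6) (nat_lit 143375796512645883884) (ZL.cons (nat_lit 13756) (nat_lit 6) (nat_lit 143144257294274047028)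 (ZL.cons (nat_lit 13832) (nat_lit 6) (nat_lit 142964265330541168088) (ZL.cons (nat_lit 13908) (nat_lit 6) (nat_lit 142835750036363430258) (ZL.cons (nat_lit 13984) (nat_lit 6) (nat_lit 142758661013586254026) (ZL.cons (nat_lit 14060) (nat_lit 3) (nat_lit 71366484015610157507) (ZL.cons (nat_lit 14136) (nat_lit 6) (nat_lit 142191415241585041764) (ZL.cons (nat_lit 14212) (nat_lit 6) (nat_lit 141987686933612410182) (ZL.cons (nat_lit 14288) (nat_lit 6) (nat_lit 141834960568310124652) (ZL.cons (nat_lit 14364) (nat_lit 6) (nat_lit 141733176252985909770) (ZL.cons (nat_lit 14440) (nat_lit 6) (nat_lit 141682294072221991332) (ZL.cons (nat_lit 14516) (nat_lit 6) (nat_lit 141266523617807256734) (ZL.cons (nat_lit 14592) (nat_lit 6) (nat_lit 141039524384109377460) (ZL.cons (nat_lit 14668) (nat_lit 6) (nat_lit 140863061674567339288) (ZL.cons (nat_lit 14744) (nat_lit 6) (nat_lit 140737066288118576706) (ZL.cons (nat_lit 14820) (nat_lit 6) (nat_lit 140661488814807619618) (ZL.cons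 (nat_lit 14896) (nat_lit 3) (nat_lit 70318149808204820096) (ZL.cons (nat_lit 14972) (nat_lit 6) (nat_lit 140369219720343132018) (ZL.cons (nat_lit 15048) (nat_lit 6) (nat_lit 140119405853581284420) (ZL.cons (nat_lit 15124) (nat_lit 6) (nat_lit 139919672218313998556) (ZL.cons (nat_lit 15200) (nat_lit 6) (nat_lit 139769940487625483332) (ZL.cons (nat_lit 15276) (nat_lit 6) (nat_lit 139670151943189978544) (ZL.cons (nat_lit 15352) (nat_lit 6) (nat_lit 139620267452244960468) (ZL.cons (nat_lit 15428) (nat_lit 6) (nat_lit 139226970511231845532) (ZL.cons (nat_lit 15504) (nat_lit 6) (nat_lit 139004422242900591344) (ZL.cons (nat_lit 15580) (nat_lit 6) (nat_lit 138831419586486828428) (ZL.cons (nat_lit 15656) (nat_lit 6) (nat_lit 138707894697811570998) (ZL.cons (nat_lit 15732) (nat_lit 6) (nat_lit 138633799135742005222) (ZL.cons (nat_lit 15808) (nat_lit 3) (nat_lit 69304551921597483286) (ZL.cons (nat_lit 15884) (nat_lit 6) (nat_lit 138361868382417002196) (ZL.cons (nat_lit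 15960) (nat_lit 6) (nat_lit 138116952826768132004) (ZL.cons (nat_lit 16036) (nat_lit 6) (nat_lit 137921135537290400764) (ZL.cons (nat_lit 16112) (nat_lit 6) (nat_lit 137774339722889895642) (ZL.cons (nat_lit 16188) (nat_lit 6) (nat_lit 137676507816580577224) (ZL.cons (nat_lit 16264) (nat_lit 6) (nat_lit 137627601452908990874) (ZL.cons (nat_lit 16340) (nat_lit 6) (nat_lit 137523760211399964278) (ZL.cons (nat_lit 16416) (nat_lit 6) (nat_lit 137256915942694607806) (ZL.cons (nat_lit 16492) (nat_lit 6) (nat_lit 137038731365899260562) (ZL.cons (nat_lit 16568) (nat_lit 6) (nat_lit 136869120918434787116) (ZL.cons (nat_lit 16644) (nat_lit 6) (nat_lit 136748018086400221006) (ZL.cons (nat_lit 16720) (nat_lit 6) (nat_lit 136675375378488882014) (ZL.cons (nat_lit 16796) (nat_lit 3) (nat_lit 68325582153682167157) (ZL.cons (nat_lit 16872) (nat_lit 6) (nat_lit 136423974321313715408) (ZL.cons (nat_lit 16948) (nat_lit 6) (nat_lit 136183861031461881884) (ZL.cons (nat_lit 17024)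 (nat_lit 6) (nat_lit 135991883296679792434) (ZL.cons (nat_lit 17100) (nat_lit 6) (nat_lit 135847965831581258000) (ZL.cons (nat_lit 17176) (nat_lit 6) (nat_lit 135752052197944671316) (ZL.cons (nat_lit 17252) (nat_lit 6) (nat_lit 135704104782580370974) (ZL.cons (nat_lit 17328) (nat_lit 6) (nat_lit 135617801318852364262) (ZL.cons (nat_lit 17404) (nat_lit 6) (nat_lit 135356189290709857916) (ZL.cons (nat_lit 17480) (nat_lit 6) (nat_lit 135142282842871282186) (ZL.cons (nat_lit 17556) (nat_lit 6) (nat_lit 134975998090455131748) (ZL.cons (nat_lit 17632) (nat_lit 6) (nat_lit 134857269823754576740) (ZL.cons (nat_lit 17708) (nat_lit 6) (nat_lit 134786051482665028706) (ZL.cons (nat_lit 17784) (nat_lit 3) (nat_lit 67381157569212638032) (ZL.cons (nat_lit 17860) (nat_lit 6) (nat_lit 134838080789035079328) (ZL.cons (nat_lit 17936) (nat_lit 6) (nat_lit 134555391566489952570) (ZL.cons (nat_lit 18012) (nat_lit 6) (nat_lit 134319986380360704018) (ZL.cons (nat_lit 18088) (nat_lit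 6) (nat_lit 134131772914888067300) (ZL.cons (nat_lit 18164) (nat_lit 6) (nat_lit 133990677360869896288) (ZL.cons (nat_lit 18240) (nat_lit 6) (nat_lit 133896644386716379930) (ZL.cons (nat_lit 18316) (nat_lit 6) (nat_lit 133849637116751379596) (ZL.cons (nat_lit 18392) (nat_lit 6) (nat_lit 133781153820478942352) (ZL.cons (nat_lit 18468) (nat_lit 6) (nat_lit 133524671439947073388) (ZL.cons (nat_lit 18544) (nat_lit 6) (nat_lit 133314959236183763848) (ZL.cons (nat_lit 18620) (nat_lit 6) (nat_lit 133151934969109106556) (ZL.cons (nat_lit 18696) (nat_lit 6) (nat_lit 133035534707637974194) (ZL.cons (nat_lit 18772) (nat_lit 6) (nat_lit 132965712804609005536) (ZL.cons (nat_lit 18848) (nat_lit 3) (nat_lit 66471220939441878922) (ZL.cons (nat_lit 18924) (nat_lit 6) (nat_lit 133033172430031332750) (ZL.cons (nat_lit 19000) (nat_lit 6) (nat_lit 132756026133418463378) (ZL.cons (nat_lit 19076) (nat_lit 6) (nat_lit 132525236735252533426) (ZL.cons (nat_lit 19152) (nat_lit 6)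 (nat_lit 132340713729887203312) (ZL.cons (nat_lit 19228) (nat_lit 6) (nat_lit 132202384755359584670) (ZL.cons (nat_lit 19304) (nat_lit 6) (nat_lit 132110195565013000008) (ZL.cons (nat_lit 19380) (nat_lit 6) (nat_lit 132064110006223783992) (ZL.cons (nat_lit 19456) (nat_lit 6) (nat_lit 132311154069111654112) (ZL.cons (nat_lit 19532) (nat_lit 6) (nat_lit 132013749031242901990) (ZL.cons (nat_lit 19608) (nat_lit 6) (nat_lit 131762295716995971630) (ZL.cons (nat_lit 19684) (nat_lit 6) (nat_lit 131556695517228021104) (ZL.cons (nat_lit 19760) (nat_lit 6) (nat_lit 131396867804409729640) (ZL.cons (nat_lit 19836) (nat_lit 6) (nat_lit 131282749901006658698) (ZL.cons (nat_lit 19912) (nat_lit 6) (nat_lit 131214297054899826678) (ZL.cons (nat_lit 19988) (nat_lit 3) (nat_lit 65595741210917929177) (ZL.cons (nat_lit 20064) (nat_lit 6) (nat_lit 131614815593264643822) (ZL.cons (nat_lit 20140) (nat_lit 6) (nat_lit 131297549044360712532) (ZL.cons (nat_lit 20216) (nat_lit 6) (nat_lit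 131025836988857899422) (ZL.cons (nat_lit 20292) (nat_lit 6) (nat_lit 130799572873008948488) (ZL.cons (nat_lit 20368) (nat_lit 6) (nat_lit 130618667965788036612) (ZL.cons (nat_lit 20444) (nat_lit 6) (nat_lit 130483051324094292848) (ZL.cons (nat_lit 20520) (nat_lit 6) (nat_lit 130392669764930974548) (ZL.cons (nat_lit 20596) (nat_lit 6) (nat_lit 130347487844549390220) (ZL.cons (nat_lit 20672) (nat_lit 6) (nat_lit 130607145310031941202) (ZL.cons (nat_lit 20748) (nat_lit 6) (nat_lit 130315571743493948924) (ZL.cons (nat_lit 20824) (nat_lit 6) (nat_lit 130069048886389115240) (ZL.cons (nat_lit 20900) (nat_lit 6) (nat_lit 129867480063087202956) (ZL.cons (nat_lit 20976) (nat_lit 6) (nat_lit 129710786226990838780) (ZL.cons (nat_lit 21052) (nat_lit 6) (nat_lit 129598905929536847658) (ZL.cons (nat_lit 21128) (nat_lit 6) (nat_lit 129531795296098777050) (ZL.cons (nat_lit 21204) (nat_lit 3) (nat_lit 64754714004390580523) (ZL.cons (nat_lit 21280) (nat_lit 6) (nat_lit 129942267081694106128)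 (ZL.cons (nat_lit 21356) (nat_lit 6) (nat_lit 129631221445513781334) (ZL.cons (nat_lit 21432) (nat_lit 6) (nat_lit 129364837077373768482) (ZL.cons (nat_lit 21508) (nat_lit 6) (nat_lit 129143009512815973448) (ZL.cons (nat_lit 21584) (nat_lit 6) (nat_lit 128965651760638608864) (ZL.cons (nat_lit 21660) (nat_lit 6) (nat_lit 128832694268781997330) (ZL.cons (nat_lit 21736) (nat_lit 6) (nat_lit 128744084897053253900) (ZL.cons (nat_lit 21812) (nat_lit 6) (nat_lit 128699788896679151616) (ZL.cons (nat_lit 21888) (nat_lit 6) (nat_lit 129302653622787074830) (ZL.cons (nat_lit 21964) (nat_lit 6) (nat_lit 128972517722251522078) (ZL.cons (nat_lit 22040) (nat_lit 6) (nat_lit 128686661284469176710) (ZL.cons (nat_lit 22116) (nat_lit 6) (nat_lit 128444972208876202508) (ZL.cons (nat_lit 22192) (nat_lit 6) (nat_lit 128247355715442955174) (ZL.cons (nat_lit 22268) (nat_lit 6) (nat_lit 128093734307505343232) (ZL.cons (nat_lit 22344) (nat_lit 6) (nat_lit 127984047741373979390)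 (ZL.cons (nat_lit 22420) (nat_lit 6) (nat_lit 127918253002709204284) (ZL.cons (nat_lit 22496) (nat_lit 3) (nat_lit 63948162144826359002) (ZL.cons (nat_lit 22572) (nat_lit 6) (nat_lit 128339202258521578110) (ZL.cons (nat_lit 22648) (nat_lit 6) (nat_lit 128034255556384004784) (ZL.cons (nat_lit 22724) (nat_lit 6) (nat_lit 127773094411148698066) (ZL.cons (nat_lit 22800) (nat_lit 6) (nat_lit 127555616406680271564) (ZL.cons (nat_lit 22876) (nat_lit 6) (nat_lit 127381736257486776872) (ZL.cons (nat_lit 22952) (nat_lit 6) (nat_lit 127251385775274412622) (ZL.cons (nat_lit 23028) (nat_lit 6) (nat_lit 127164513842207017104) (ZL.cons (nat_lit 23104) (nat_lit 6) (nat_lit 127121086390859858002) (ZL.cons (nat_lit 23180) (nat_lit 6) (nat_lit 127731026695318565142) (ZL.cons (nat_lit 23256) (nat_lit 6) (nat_lit 127407364047734689896) (ZL.cons (nat_lit 23332) (nat_lit 6) (nat_lit 127127112638144155220) (ZL.cons (nat_lit 23408) (nat_lit 6) (nat_lit 126890162564033396202) (ZL.cons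 (nat_lit 23484) (nat_lit 6) (nat_lit 126696420903804722342) (ZL.cons (nat_lit 23560) (nat_lit 6) (nat_lit 126545811680336475342) (ZL.cons (nat_lit 23636) (nat_lit 6) (nat_lit 126438275831188079416) (ZL.cons (nat_lit 23712) (nat_lit 6) (nat_lit 126373771185438299902) (ZL.cons (nat_lit 23788) (nat_lit 3) (nat_lit 63176136223573813540) (ZL.cons (nat_lit 23864) (nat_lit 6) (nat_lit 127147752532421619246) (ZL.cons (nat_lit 23940) (nat_lit 6) (nat_lit 126805740918713918588) (ZL.cons (nat_lit 24016) (nat_lit 6) (nat_lit 126506773563677081992) (ZL.cons (nat_lit 24092) (nat_lit 6) (nat_lit 126250733225211095016) (ZL.cons (nat_lit 24168) (nat_lit 6) (nat_lit 126037519495340088640) (ZL.cons (nat_lit 24244) (nat_lit 6) (nat_lit 125867048760836662472) (ZL.cons (nat_lit 24320) (nat_lit 6) (nat_lit 125739254170432383796) (ZL.cons (nat_lit 24396) (nat_lit 6) (nat_lit 125654085608601603874) (ZL.cons (nat_lit 24472) (nat_lit 6) (nat_lit 125611509675908310640) (ZL.cons (nat_lit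 24548) (nat_lit 6) (nat_lit 126589151034864898482) (ZL.cons (nat_lit 24624) (nat_lit 6) (nat_lit 126229150238682859186) (ZL.cons (nat_lit 24700) (nat_lit 6) (nat_lit 125911833917522197178) (ZL.cons (nat_lit 24776) (nat_lit 6) (nat_lit 125637077633609908282) (ZL.cons (nat_lit 24852) (nat_lit 6) (nat_lit 125404773639383673948) (ZL.cons (nat_lit 24928) (nat_lit 6) (nat_lit 125214830835237915264) (ZL.cons (nat_lit 25004) (nat_lit 6) (nat_lit 125067174733798457420) (ZL.cons (nat_lit 25080) (nat_lit 6) (nat_lit 124961747430711794748) (ZL.cons (nat_lit 25156) (nat_lit 6) (nat_lit 124898507581937501106) (ZL.cons (nat_lit 25232) (nat_lit 3) (nat_lit 62438715193767440347) (ZL.cons (nat_lit 25308) (nat_lit 6) (nat_lit 125677365893649342644) (ZL.cons (nat_lit 25384) (nat_lit 6) (nat_lit 125342060390014341998) (ZL.cons (nat_lit 25460) (nat_lit 6) (nat_lit 125048955139978227690) (ZL.cons (nat_lit 25536) (nat_lit 6) (nat_lit 124797935200305691436) (ZL.cons (nat_lit 25612)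 (nat_lit 6) (nat_lit 124588902131804704794) (ZL.cons (nat_lit 25688) (nat_lit 6) (nat_lit 124421773960722914434) (ZL.cons (nat_lit 25764) (nat_lit 6) (nat_lit 124296485146601072594) (ZL.cons (nat_lit 25840) (nat_lit 6) (nat_lit 124212986556570896202) (ZL.cons (nat_lit 25916) (nat_lit 6) (nat_lit 124171245446087275382) (ZL.cons (nat_lit 25992) (nat_lit 6) (nat_lit 125150171497595708762) (ZL.cons (nat_lit 26068) (nat_lit 6) (nat_lit 124797229540554493764) (ZL.cons (nat_lit 26144) (nat_lit 6) (nat_lit 124486135108044040818) (ZL.cons (nat_lit 26220) (nat_lit 6) (nat_lit 124216766202247679152) (ZL.cons (nat_lit 26296) (nat_lit 6) (nat_lit 123989017188300390590) (ZL.cons (nat_lit 26372) (nat_lit 6) (nat_lit 123802798752863372272) (ZL.cons (nat_lit 26448) (nat_lit 6) (nat_lit 123658037869099197916) (ZL.cons (nat_lit 26524) (nat_lit 6) (nat_lit 123554677768033842356) (ZL.cons (nat_lit 26600) (nat_lit 6) (nat_lit 123492677916294338786) (ZL.cons (nat_lit 26676)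 (nat_lit 3) (nat_lit 61736007000106669189) (ZL.cons (nat_lit 26752) (nat_lit 6) (nat_lit 124647360307621544350) (ZL.cons (nat_lit 26828) (nat_lit 6) (nat_lit 124277127709986001556) (ZL.cons (nat_lit 26904) (nat_lit 6) (nat_lit 123948396824069334258) (ZL.cons (nat_lit 26980) (nat_lit 6) (nat_lit 123661038735798633954) (ZL.cons (nat_lit 27056) (nat_lit 6) (nat_lit 123414940755727519980) (ZL.cons (nat_lit 27132) (nat_lit 6) (nat_lit 123210006374844199742) (ZL.cons (nat_lit 27208) (nat_lit 6) (nat_lit 123046155226724797428) (ZL.cons (nat_lit 27284) (nat_lit 6) (nat_lit 122923323056017109352) (ZL.cons (nat_lit 27360) (nat_lit 6) (nat_lit 122841461693242426614) (ZL.cons (nat_lit 27436) (nat_lit 6) (nat_lit 122800539035905543456) (ZL.cons (nat_lit 27512) (nat_lit 6) (nat_lit 124168735142868036010) (ZL.cons (nat_lit 27588) (nat_lit 6) (nat_lit 123781550936806681652) (ZL.cons (nat_lit 27664) (nat_lit 6) (nat_lit 123435529410295686558) (ZL.cons (nat_lit 27740) (nat_lit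 6) (nat_lit 123130534868618771902) (ZL.cons (nat_lit 27816) (nat_lit 6) (nat_lit 122866447706073319290) (ZL.cons (nat_lit 27892) (nat_lit 6) (nat_lit 122643164359066173640) (ZL.cons (nat_lit 27968) (nat_lit 6) (nat_lit 122460597265500469406) (ZL.cons (nat_lit 28044) (nat_lit 6) (nat_lit 122318674830437553372) (ZL.cons (nat_lit 28120) (nat_lit 6) (nat_lit 122217341398020538118) (ZL.cons (nat_lit 28196) (nat_lit 6) (nat_lit 122156557229648475792) (ZL.cons (nat_lit 28272) (nat_lit 3) (nat_lit 61068149244196296521) (ZL.cons (nat_lit 28348) (nat_lit 6) (nat_lit 123310304877183914710) (ZL.cons (nat_lit 28424) (nat_lit 6) (nat_lit 122947331742247108052) (ZL.cons (nat_lit 28500) (nat_lit 6) (nat_lit 122625046559975865600) (ZL.cons (nat_lit 28576) (nat_lit 6) (nat_lit 122343322944024198636) (ZL.cons (nat_lit 28652) (nat_lit 6) (nat_lit 122102050414542714348) (ZL.cons (nat_lit 28728) (nat_lit 6) (nat_lit 121901134354853184702) (ZL.cons (nat_lit 28804) (nat_lit 6)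 (nat_lit 121740495974343966748) (ZL.cons (nat_lit 28880) (nat_lit 6) (nat_lit 121620072277571723536) (ZL.cons (nat_lit 28956) (nat_lit 6) (nat_lit 121539816039557328694) (ZL.cons (nat_lit 29032) (nat_lit 6) (nat_lit 121499695787266266776) (ZL.cons (nat_lit 29108) (nat_lit 6) (nat_lit 122863204728741378074) (ZL.cons (nat_lit 29184) (nat_lit 6) (nat_lit 122483612369857697334) (ZL.cons (nat_lit 29260) (nat_lit 6) (nat_lit 122144375579160643318) (ZL.cons (nat_lit 29336) (nat_lit 6) (nat_lit 121845361322614648558) (ZL.cons (nat_lit 29412) (nat_lit 6) (nat_lit 121586452339726949918) (ZL.cons (nat_lit 29488) (nat_lit 6) (nat_lit 121367547097563081634) (ZL.cons (nat_lit 29564) (nat_lit 6) (nat_lit 121188559750930038268) (ZL.cons (nat_lit 29640) (nat_lit 6) (nat_lit 121049420108711493136) (ZL.cons (nat_lit 29716) (nat_lit 6) (nat_lit 120950073606341870336) (ZL.cons (nat_lit 29792) (nat_lit 6) (nat_lit 120890481284408475902) (ZL.cons (nat_lit 29868) (nat_lit 3)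 (nat_lit 60435309886686648367) (ZL.cons (nat_lit 29944) (nat_lit 6) (nat_lit 122440075158087525654) (ZL.cons (nat_lit 30020) (nat_lit 6) (nat_lit 122044189442393184048) (ZL.cons (nat_lit 30096) (nat_lit 6) (nat_lit 121688333427749255950) (ZL.cons (nat_lit 30172) (nat_lit 6) (nat_lit 121372367562777449626) (ZL.cons (nat_lit 30248) (nat_lit 6) (nat_lit 121096167939295423190) (ZL.cons (nat_lit 30324) (nat_lit 6) (nat_lit 120859626243725340554) (ZL.cons (nat_lit 30400) (nat_lit 6) (nat_lit 120662649714617958550) (ZL.cons (nat_lit 30476) (nat_lit 6) (nat_lit 120505161106275588006) (ZL.cons (nat_lit 30552) (nat_lit 6) (nat_lit 120387098658459663286) (ZL.cons (nat_lit 30628) (nat_lit 6) (nat_lit 120308416072171040894) (ZL.cons (nat_lit 30704) (nat_lit 6) (nat_lit 120269082491493529210) (ZL.cons (nat_lit 30780) (nat_lit 6) (nat_lit 122040750232057395156) (ZL.cons (nat_lit 30856) (nat_lit 6) (nat_lit 121628890637136915446) (ZL.cons (nat_lit 30932) (nat_lit 6) (nat_lit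 121256741265682326482) (ZL.cons (nat_lit 31008) (nat_lit 6) (nat_lit 120924156176763646076) (ZL.cons (nat_lit 31084) (nat_lit 6) (nat_lit 120631004944855808076) (ZL.cons (nat_lit 31160) (nat_lit 6) (nat_lit 120377172608691397644) (ZL.cons (nat_lit 31236) (nat_lit 6) (nat_lit 120162559626177801288) (ZL.cons (nat_lit 31312) (nat_lit 6) (nat_lit 119987081835361092106) (ZL.cons (nat_lit 31388) (nat_lit 6) (nat_lit 119850670421421341974) (ZL.cons (nat_lit 31464) (nat_lit 6) (nat_lit 119753271889686417662) (ZL.cons (nat_lit 31540) (nat_lit 6) (nat_lit 119694848044653678020) (ZL.cons (nat_lit 31616) (nat_lit 3) (nat_lit 59837687987505672752) (ZL.cons (nat_lit 31692) (nat_lit 6) (nat_lit 121665073352640778684) (ZL.cons (nat_lit 31768) (nat_lit 6) (nat_lit 121237553091812320442) (ZL.cons (nat_lit 31844) (nat_lit 6) (nat_lit 120849429841131593374) (ZL.cons (nat_lit 31920) (nat_lit 6) (nat_lit 120500551395402252102) (ZL.cons (nat_lit 31996) (nat_lit 6) (nat_lit 120190780939547540020)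 (ZL.cons (nat_lit 32072) (nat_lit 6) (nat_lit 119919996994957318024) (ZL.cons (nat_lit 32148) (nat_lit 6) (nat_lit 119688093371849393872) (ZL.cons (nat_lit 32224) (nat_lit 6) (nat_lit 119494979127626470338) (ZL.cons (nat_lit 32300) (nat_lit 6) (nat_lit 119340578531212381568) (ZL.cons (nat_lit 32376) (nat_lit 6) (nat_lit 119224831033353631844) (ZL.cons (nat_lit 32452) (nat_lit 6) (nat_lit 119147691242874590282) (ZL.cons (nat_lit 32528) (nat_lit 6) (nat_lit 119109128908877029808) (ZL.cons (nat_lit 32604) (nat_lit 6) (nat_lit 120870023340715350172) (ZL.cons (nat_lit 32680) (nat_lit 6) (nat_lit 120466239424126644572) (ZL.cons (nat_lit 32756) (nat_lit 6) (nat_lit 120101387099171165196) (ZL.cons (nat_lit 32832) (nat_lit 6) (nat_lit 119775323286505792248) (ZL.cons (nat_lit 32908) (nat_lit 6) (nat_lit 119487920117968696170) (ZL.cons (nat_lit 32984) (nat_lit 6) (nat_lit 119239064886434960454) (ZL.cons (nat_lit 33060) (nat_lit 6) (nat_lit 119028660001617709124)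 (ZL.cons (nat_lit 33136) (nat_lit 6) (nat_lit 118856622951797406002) (ZL.cons (nat_lit 33212) (nat_lit 6) (nat_lit 118722886271464317640) (ZL.cons (nat_lit 33288) (nat_lit 6) (nat_lit 118627397514861450666) (ZL.cons (nat_lit 33364) (nat_lit 6) (nat_lit 118570119235417588272) (ZL.cons (nat_lit 33440) (nat_lit 3) (nat_lit 59275514485531180157) (ZL.cons (nat_lit 33516) (nat_lit 6) (nat_lit 120526157254531848964) (ZL.cons (nat_lit 33592) (nat_lit 6) (nat_lit 120107019743915713430) (ZL.cons (nat_lit 33668) (nat_lit 6) (nat_lit 119726506753052255522) (ZL.cons (nat_lit 33744) (nat_lit 6) (nat_lit 119384469061160744470) (ZL.cons (nat_lit 33820) (nat_lit 6) (nat_lit 119080772535812987526) (ZL.cons (nat_lit 33896) (nat_lit 6) (nat_lit 118815298080332377728) (ZL.cons (nat_lit 33972) (nat_lit 6) (nat_lit 118587941587089314834) (ZL.cons (nat_lit 34048) (nat_lit 6) (nat_lit 118398613896674683916) (ZL.cons (nat_lit 34124) (nat_lit 6) (nat_lit 118247240762935381202) (ZL.cons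 (nat_lit 34200) (nat_lit 6) (nat_lit 118133762823858175590) (ZL.cons (nat_lit 34276) (nat_lit 6) (nat_lit 118058135578290487784) (ZL.cons (nat_lit 34352) (nat_lit 6) (nat_lit 118020329368488957906) (ZL.cons (nat_lit 34428) (nat_lit 6) (nat_lit 120205819983816254658) (ZL.cons (nat_lit 34504) (nat_lit 6) (nat_lit 119771629930035972130) (ZL.cons (nat_lit 34580) (nat_lit 6) (nat_lit 119375763345145084288) (ZL.cons (nat_lit 34656) (nat_lit 6) (nat_lit 119018064987345594704) (ZL.cons (nat_lit 34732) (nat_lit 6) (nat_lit 118698394582771699656) (ZL.cons (nat_lit 34808) (nat_lit 6) (nat_lit 118416626770480428992) (ZL.cons (nat_lit 34884) (nat_lit 6) (nat_lit 118172651053290492016) (ZL.cons (nat_lit 34960) (nat_lit 6) (nat_lit 117966371754450049534) (ZL.cons (nat_lit 35036) (nat_lit 6) (nat_lit 117797707980116419024) (ZL.cons (nat_lit 35112) (nat_lit 6) (nat_lit 117666593587632999060) (ZL.cons (nat_lit 35188) (nat_lit 6) (nat_lit 117572977159590972616) (ZL.cons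 (nat_lit 35264) (nat_lit 6) (nat_lit 117516821983665617326) (ZL.cons (nat_lit 35340) (nat_lit 3) (nat_lit 58749053019109657703) (ZL.cons (nat_lit 35416) (nat_lit 6) (nat_lit 119384770682835011880) (ZL.cons (nat_lit 35492) (nat_lit 6) (nat_lit 119635238576675118692) (ZL.cons (nat_lit 35568) (nat_lit 6) (nat_lit 119908885906109463104) (ZL.cons (nat_lit 35644) (nat_lit 6) (nat_lit 119459938457070212934) (ZL.cons (nat_lit 35720) (nat_lit 6) (nat_lit 119049019329015178098) (ZL.cons (nat_lit 35796) (nat_lit 6) (nat_lit 118675967377188258580) (ZL.cons (nat_lit 35872) (nat_lit 6) (nat_lit 118340636306706385000) (ZL.cons (nat_lit 35948) (nat_lit 6) (nat_lit 118042894615188976232) (ZL.cons (nat_lit 36024) (nat_lit 6) (nat_lit 117782625541188378390) (ZL.cons (nat_lit 36100) (nat_lit 6) (nat_lit 117559727018401061826) (ZL.cons (nat_lit 36176) (nat_lit 6) (nat_lit 117374111635641619752) (ZL.cons (nat_lit 36252) (nat_lit 6) (nat_lit 117225706602563871992) (ZL.cons (nat_lit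 36328) (nat_lit 6) (nat_lit 117114453721115631196) (ZL.cons (nat_lit 36404) (nat_lit 6) (nat_lit 117040309362715937268) (ZL.cons (nat_lit 36480) (nat_lit 6) (nat_lit 117003244451145809936) (ZL.cons (nat_lit 36556) (nat_lit 3) (nat_lit 58760693927333494616) (ZL.cons (nat_lit 36632) (nat_lit 6) (nat_lit 117532795801187633424) (ZL.cons (nat_lit 36708) (nat_lit 6) (nat_lit 117567024114454083896) (ZL.cons (nat_lit 36784) (nat_lit 6) (nat_lit 117624086217334288282) (ZL.cons (nat_lit 36860) (nat_lit 6) (nat_lit 117704004487123493718) (ZL.cons (nat_lit 36936) (nat_lit 6) (nat_lit 117806810264319656754) (ZL.cons (nat_lit 37012) (nat_lit 6) (nat_lit 117932543864913834708) (ZL.cons (nat_lit 37088) (nat_lit 6) (nat_lit 118081254596200378242) (ZL.cons (nat_lit 37164) (nat_lit 6) (nat_lit 118253000776113125214) (ZL.cons (nat_lit 37240) (nat_lit 6) (nat_lit 118447849756095178660) (ZL.cons (nat_lit 37316) (nat_lit 6) (nat_lit 118665877947511237428) (ZL.cons (nat_lit 37392)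 (nat_lit 6) (nat_lit 118907170851612837224) (ZL.cons (nat_lit 37468) (nat_lit 6) (nat_lit 119171823093068253190) (ZL.cons (nat_lit 37544) (nat_lit 6) (nat_lit 118746146569754250712) (ZL.cons (nat_lit 37620) (nat_lit 6) (nat_lit 118358042074763184200) (ZL.cons (nat_lit 37696) (nat_lit 6) (nat_lit 118007357410253880686) (ZL.cons (nat_lit 37772) (nat_lit 6) (nat_lit 117693955052828493386) (ZL.cons (nat_lit 37848) (nat_lit 6) (nat_lit 117417712099601757440) (ZL.cons (nat_lit 37924) (nat_lit 6) (nat_lit 117178520220003780010) (ZL.cons (nat_lit 38000) (nat_lit 6) (nat_lit 116976285613297463854) (ZL.cons (nat_lit 38076) (nat_lit 6) (nat_lit 116810928971793904530) (ZL.cons (nat_lit 38152) (nat_lit 6) (nat_lit 116682385449751335938) (ZL.cons (nat_lit 38228) (nat_lit 6) (nat_lit 116590604637945427658) (ZL.cons (nat_lit 38304) (nat_lit 6) (nat_lit 116535550543900961688) (ZL.cons (nat_lit 38380) (nat_lit 3) (nat_lit 58258600788888568138) (ZL.cons (nat_lit 38456) (nat_lit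 6) (nat_lit 116939646840957458466) (ZL.cons (nat_lit 38532) (nat_lit 6) (nat_lit 116962690892929159732) (ZL.cons (nat_lit 38608) (nat_lit 6) (nat_lit 117008788033755688422) (ZL.cons (nat_lit 38684) (nat_lit 6) (nat_lit 117077956340747172590) (ZL.cons (nat_lit 38760) (nat_lit 6) (nat_lit 117170222938729883404) (ZL.cons (nat_lit 38836) (nat_lit 6) (nat_lit 117285624010683421922) (ZL.cons (nat_lit 38912) (nat_lit 6) (nat_lit 117424204811930122872) (ZL.cons (nat_lit 38988) (nat_lit 6) (nat_lit 117586019687882239860) (ZL.cons (nat_lit 39064) (nat_lit 6) (nat_lit 117771132095353871754) (ZL.cons (nat_lit 39140) (nat_lit 6) (nat_lit 117979614627445987822) (ZL.cons (nat_lit 39216) (nat_lit 6) (nat_lit 118211549042014310464) (ZL.cons (nat_lit 39292) (nat_lit 6) (nat_lit 118467026293731219414) (ZL.cons (nat_lit 39368) (nat_lit 6) (nat_lit 118064164403481185260) (ZL.cons (nat_lit 39444) (nat_lit 6) (nat_lit 117698427195807734752) (ZL.cons (nat_lit 39520) (nat_lit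 6) (nat_lit 117369671244354917518) (ZL.cons (nat_lit 39596) (nat_lit 6) (nat_lit 117077767625220203040) (ZL.cons (nat_lit 39672) (nat_lit 6) (nat_lit 116822601866396087506) (ZL.cons (nat_lit 39748) (nat_lit 6) (nat_lit 116604073902879110484) (ZL.cons (nat_lit 39824) (nat_lit 6) (nat_lit 116422098037428677078) (ZL.cons (nat_lit 39900) (nat_lit 6) (nat_lit 116276602906960296922) (ZL.cons (nat_lit 39976) (nat_lit 6) (nat_lit 116167531454560060846) (ZL.cons (nat_lit 40052) (nat_lit 6) (nat_lit 116094840907109380524) (ZL.cons (nat_lit 40128) (nat_lit 6) (nat_lit 116058502758511216474) (ZL.cons (nat_lit 40204) (nat_lit 3) (nat_lit 58190360230155948012) (ZL.cons (nat_lit 40280) (nat_lit 6) (nat_lit 116392356565762953098) (ZL.cons (nat_lit 40356) (nat_lit 6) (nat_lit 116427269445294732582) (ZL.cons (nat_lit 40432) (nat_lit 6) (nat_lit 116485472790232541054) (ZL.cons (nat_lit 40508) (nat_lit 6) (nat_lit 116566989425417530600) (ZL.cons (nat_lit 40584) (nat_lit 6)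 (nat_lit 116671851318157616896) (ZL.cons (nat_lit 40660) (nat_lit 6) (nat_lit 116800099590763678410) (ZL.cons (nat_lit 40736) (nat_lit 6) (nat_lit 116951784536675952814) (ZL.cons (nat_lit 40812) (nat_lit 6) (nat_lit 117126965640186954724) (ZL.cons (nat_lit 40888) (nat_lit 6) (nat_lit 117325711599768649240) (ZL.cons (nat_lit 40964) (nat_lit 6) (nat_lit 117548100355013029182) (ZL.cons (nat_lit 41040) (nat_lit 6) (nat_lit 117794219117196660978) (ZL.cons (nat_lit 41116) (nat_lit 6) (nat_lit 117413724514264242828) (ZL.cons (nat_lit 41192) (nat_lit 6) (nat_lit 117069916019647278600) (ZL.cons (nat_lit 41268) (nat_lit 6) (nat_lit 116762658806485134188) (ZL.cons (nat_lit 41344) (nat_lit 6) (nat_lit 116491832381753040122) (ZL.cons (nat_lit 41420) (nat_lit 6) (nat_lit 116257330539009924996) (ZL.cons (nat_lit 41496) (nat_lit 6) (nat_lit 116059061316748830724) (ZL.cons (nat_lit 41572) (nat_lit 6) (nat_lit 115896946962333576486) (ZL.cons (nat_lit 41648) (nat_lit 6)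 (nat_lit 115770923901507528846) (ZL.cons (nat_lit 41724) (nat_lit 6) (nat_lit 115680942713462520728) (ZL.cons (nat_lit 41800) (nat_lit 6) (nat_lit 115626968111458142326) (ZL.cons (nat_lit 41876) (nat_lit 3) (nat_lit 57804489464491901844) (ZL.cons (nat_lit 41952) (nat_lit 6) (nat_lit 115855797472435006660) (ZL.cons (nat_lit 42028) (nat_lit 6) (nat_lit 115879302405446141952) (ZL.cons (nat_lit 42104) (nat_lit 6) (nat_lit 115926321489089201218) (ZL.cons (nat_lit 42180) (nat_lit 6) (nat_lit 115996873162220515068) (ZL.cons (nat_lit 42256) (nat_lit 6) (nat_lit 116090985092162880096) (ZL.cons (nat_lit 42332) (nat_lit 6) (nat_lit 116208694185555489388) (ZL.cons (nat_lit 42408) (nat_lit 6) (nat_lit 116350046602827124356) (ZL.cons (nat_lit 42484) (nat_lit 6) (nat_lit 116515097776298283682) (ZL.cons (nat_lit 42560) (nat_lit 6) (nat_lit 116703912431919348214) (ZL.cons (nat_lit 42636) (nat_lit 6) (nat_lit 116916564614653306604) (ZL.cons (nat_lit 42712) (nat_lit 6) (nat_lit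 117153137717512995700) (ZL.cons (nat_lit 42788) (nat_lit 6) (nat_lit 116794571827637063830) (ZL.cons (nat_lit 42864) (nat_lit 6) (nat_lit 116472262071310772424) (ZL.cons (nat_lit 42940) (nat_lit 6) (nat_lit 116186082052551248424) (ZL.cons (nat_lit 43016) (nat_lit 6) (nat_lit 115935919543900154766) (ZL.cons (nat_lit 43092) (nat_lit 6) (nat_lit 115721676442412922390) (ZL.cons (nat_lit 43168) (nat_lit 6) (nat_lit 115543268731187007286) (ZL.cons (nat_lit 43244) (nat_lit 6) (nat_lit 115400626446414085564) (ZL.cons (nat_lit 43320) (nat_lit 6) (nat_lit 115293693649943265882) (ZL.cons (nat_lit 43396) (nat_lit 6) (nat_lit 115222428407344559684) (ZL.cons (nat_lit 43472) (nat_lit 6) (nat_lit 115186802771464006694) (ZL.cons (nat_lit 43548) (nat_lit 3) (nat_lit 57676401598807301788) (ZL.cons (nat_lit 43624) (nat_lit 6) (nat_lit 115364672025174681794) (ZL.cons (nat_lit 43700) (nat_lit 6) (nat_lit 115400283162297096868) (ZL.cons (nat_lit 43776) (nat_lit 6) (nat_lit 115459650574133661512)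 (ZL.cons (nat_lit 43852) (nat_lit 6) (nat_lit 115542797542022350844) (ZL.cons (nat_lit 43928) (nat_lit 6) (nat_lit 115649756672617238868) (ZL.cons (nat_lit 44004) (nat_lit 6) (nat_lit 115780569910675421614) (ZL.cons (nat_lit 44080) (nat_lit 6) (nat_lit 115935288555505941504) (ZL.cons (nat_lit 44156) (nat_lit 6) (nat_lit 116113973281087163452) (ZL.cons (nat_lit 44232) (nat_lit 6) (nat_lit 116316694159860491858) (ZL.cons (nat_lit 44308) (nat_lit 6) (nat_lit 116543530690209759402) (ZL.cons (nat_lit 44384) (nat_lit 6) (nat_lit 116206463538624500354) (ZL.cons (nat_lit 44460) (nat_lit 6) (nat_lit 115905230976700829360) (ZL.cons (nat_lit 44536) (nat_lit 6) (nat_lit 115639714874022305768) (ZL.cons (nat_lit 44612) (nat_lit 6) (nat_lit 115409811106627094860) (ZL.cons (nat_lit 44688) (nat_lit 6) (nat_lit 115215429516175041652) (ZL.cons (nat_lit 44764) (nat_lit 6) (nat_lit 115056493874591459064) (ZL.cons (nat_lit 44840) (nat_lit 6) (nat_lit 114932941854173765300)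 (ZL.cons (nat_lit 44916) (nat_lit 6) (nat_lit 114844725003149247538) (ZL.cons (nat_lit 44992) (nat_lit 6) (nat_lit 114791808726674366752) (ZL.cons (nat_lit 45068) (nat_lit 3) (nat_lit 57387086136634076200) (ZL.cons (nat_lit 45144) (nat_lit 6) (nat_lit 114883176488644951532) (ZL.cons (nat_lit 45220) (nat_lit 6) (nat_lit 114907151520316309532) (ZL.cons (nat_lit 45296) (nat_lit 6) (nat_lit 114955110985632229984) (ZL.cons (nat_lit 45372) (nat_lit 6) (nat_lit 115027073692226170110) (ZL.cons (nat_lit 45448) (nat_lit 6) (nat_lit 115123067860767382438) (ZL.cons (nat_lit 45524) (nat_lit 6) (nat_lit 115243131136027843916) (ZL.cons (nat_lit 45600) (nat_lit 6) (nat_lit 115387310601644911584) (ZL.cons (nat_lit 45676) (nat_lit 6) (nat_lit 115555662798585494096) (ZL.cons (nat_lit 45752) (nat_lit 6) (nat_lit 115748253747318979918) (ZL.cons (nat_lit 45828) (nat_lit 6) (nat_lit 115965158973707617478) (ZL.cons (nat_lit 45904) (nat_lit 6) (nat_lit 115649169016524978842) (ZL.cons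 (nat_lit 45980) (nat_lit 6) (nat_lit 115368600370682308256) (ZL.cons (nat_lit 46056) (nat_lit 6) (nat_lit 115123343009259667414) (ZL.cons (nat_lit 46132) (nat_lit 6) (nat_lit 114913300752899635674) (ZL.cons (nat_lit 46208) (nat_lit 6) (nat_lit 114738391232089914982) (ZL.cons (nat_lit 46284) (nat_lit 6) (nat_lit 114598545854861560352) (ZL.cons (nat_lit 46360) (nat_lit 6) (nat_lit 114493709779890168508) (ZL.cons (nat_lit 46436) (nat_lit 6) (nat_lit 114423841894989476158) (ZL.cons (nat_lit 46512) (nat_lit 6) (nat_lit 114388914800988934010) (ZL.cons (nat_lit 46588) (nat_lit 3) (nat_lit 57217313487038959950) (ZL.cons (nat_lit 46664) (nat_lit 6) (nat_lit 114446733178189199682) (ZL.cons (nat_lit 46740) (nat_lit 6) (nat_lit 114483056538054063060) (ZL.cons (nat_lit 46816) (nat_lit 6) (nat_lit 114543611298127358994) (ZL.cons (nat_lit 46892) (nat_lit 6) (nat_lit 114628421205373822116) (ZL.cons (nat_lit 46968) (nat_lit 6) (nat_lit 114737519518580607898) (ZL.cons (nat_lit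 47044) (nat_lit 6) (nat_lit 114870949021399954298) (ZL.cons (nat_lit 47120) (nat_lit 6) (nat_lit 115028762039127084588) (ZL.cons (nat_lit 47196) (nat_lit 6) (nat_lit 115211020459219930974) (ZL.cons (nat_lit 47272) (nat_lit 6) (nat_lit 115417795755568725950) (ZL.cons (nat_lit 47348) (nat_lit 6) (nat_lit 115122469714467087722) (ZL.cons (nat_lit 47424) (nat_lit 6) (nat_lit 114862159809880299886) (ZL.cons (nat_lit 47500) (nat_lit 6) (nat_lit 114636763959492838212) (ZL.cons (nat_lit 47576) (nat_lit 6) (nat_lit 114446193772775138988) (ZL.cons (nat_lit 47652) (nat_lit 6) (nat_lit 114290374516320646254) (ZL.cons (nat_lit 47728) (nat_lit 6) (nat_lit 114169245084538593544) (ZL.cons (nat_lit 47804) (nat_lit 6) (nat_lit 114082757975691027112) (ZL.cons (nat_lit 47880) (nat_lit 6) (nat_lit 114030879273264673400) (ZL.cons (nat_lit 47956) (nat_lit 3) (nat_lit 57006794316335172802) (ZL.cons (nat_lit 48032) (nat_lit 6) (nat_lit 114018847579703168458) (ZL.cons (nat_lit 48108)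 (nat_lit 6) (nat_lit 114043302112007953618) (ZL.cons (nat_lit 48184) (nat_lit 6) (nat_lit 114092220766630192478) (ZL.cons (nat_lit 48260) (nat_lit 6) (nat_lit 114165622727356011408) (ZL.cons (nat_lit 48336) (nat_lit 6) (nat_lit 114263536779268047984) (ZL.cons (nat_lit 48412) (nat_lit 6) (nat_lit 114386001320033718688) (ZL.cons (nat_lit 48488) (nat_lit 6) (nat_lit 114533064374963127710) (ZL.cons (nat_lit 48564) (nat_lit 6) (nat_lit 114704783615842521874) (ZL.cons (nat_lit 48640) (nat_lit 6) (nat_lit 114901226383550677414) (ZL.cons (nat_lit 48716) (nat_lit 6) (nat_lit 114626159083704921936) (ZL.cons (nat_lit 48792) (nat_lit 6) (nat_lit 114385710690153313268) (ZL.cons (nat_lit 48868) (nat_lit 6) (nat_lit 114179786909408184110) (ZL.cons (nat_lit 48944) (nat_lit 6) (nat_lit 114008306987045712844) (ZL.cons (nat_lit 49020) (nat_lit 6) (nat_lit 113871203676037522030) (ZL.cons (nat_lit 49096) (nat_lit 6) (nat_lit 113768423210379294732) (ZL.cons (nat_lit 49172)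 (nat_lit 6) (nat_lit 113699925284006066938) (ZL.cons (nat_lit 49248) (nat_lit 6) (nat_lit 113665683034985927578) (ZL.cons (nat_lit 49324) (nat_lit 3) (nat_lit 56811663463292149883) (ZL.cons (nat_lit 49400) (nat_lit 6) (nat_lit 113635675254777805144) (ZL.cons (nat_lit 49476) (nat_lit 6) (nat_lit 113672725081839965786) (ZL.cons (nat_lit 49552) (nat_lit 6) (nat_lit 113734490937114727642) (ZL.cons (nat_lit 49628) (nat_lit 6) (nat_lit 113820997042506120026) (ZL.cons (nat_lit 49704) (nat_lit 6) (nat_lit 113932277321977041524) (ZL.cons (nat_lit 49780) (nat_lit 6) (nat_lit 114068375414852774850) (ZL.cons (nat_lit 49856) (nat_lit 6) (nat_lit 114229344692934447746) (ZL.cons (nat_lit 49932) (nat_lit 6) (nat_lit 114415248281429151064) (ZL.cons (nat_lit 50008) (nat_lit 6) (nat_lit 114160042492618574754) (ZL.cons (nat_lit 50084) (nat_lit 6) (nat_lit 113939066168709298602) (ZL.cons (nat_lit 50160) (nat_lit 6) (nat_lit 113752232652319397402) (ZL.cons (nat_lit 50236) (nat_lit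 6) (nat_lit 113599468675403228056) (ZL.cons (nat_lit 50312) (nat_lit 6) (nat_lit 113480714330518862654) (ZL.cons (nat_lit 50388) (nat_lit 6) (nat_lit 113395923047334973994) (ZL.cons (nat_lit 50464) (nat_lit 6) (nat_lit 113345061574367960552) (ZL.cons (nat_lit 50540) (nat_lit 3) (nat_lit 56664054982971074494) (ZL.cons (nat_lit 50616) (nat_lit 6) (nat_lit 113260016112694115620) (ZL.cons (nat_lit 50692) (nat_lit 6) (nat_lit 113284959735644996480) (ZL.cons (nat_lit 50768) (nat_lit 6) (nat_lit 113334856763359680118) (ZL.cons (nat_lit 50844) (nat_lit 6) (nat_lit 113409726763300015428) (ZL.cons (nat_lit 50920) (nat_lit 6) (nat_lit 113509599096250292734) (ZL.cons (nat_lit 50996) (nat_lit 6) (nat_lit 113634512927831276854) (ZL.cons (nat_lit 51072) (nat_lit 6) (nat_lit 113784517243859274054) (ZL.cons (nat_lit 51148) (nat_lit 6) (nat_lit 113959670869556256104) (ZL.cons (nat_lit 51224) (nat_lit 6) (nat_lit 113723937150388012310) (ZL.cons (nat_lit 51300) (nat_lit 6)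 (nat_lit 113522051090833964116) (ZL.cons (nat_lit 51376) (nat_lit 6) (nat_lit 113353933519890364836) (ZL.cons (nat_lit 51452) (nat_lit 6) (nat_lit 113219518509098020902) (ZL.cons (nat_lit 51528) (nat_lit 6) (nat_lit 113118753346687994138) (ZL.cons (nat_lit 51604) (nat_lit 6) (nat_lit 113051598516910319830) (ZL.cons (nat_lit 51680) (nat_lit 6) (nat_lit 113018027684537634184) (ZL.cons (nat_lit 51756) (nat_lit 3) (nat_lit 56458088684223131995) (ZL.cons (nat_lit 51832) (nat_lit 6) (nat_lit 112928772663203639472) (ZL.cons (nat_lit 51908) (nat_lit 6) (nat_lit 112966563486807043328) (ZL.cons (nat_lit 51984) (nat_lit 6) (nat_lit 113029564659187300420) (ZL.cons (nat_lit 52060) (nat_lit 6) (nat_lit 113117800886686520652) (ZL.cons (nat_lit 52136) (nat_lit 6) (nat_lit 113231306771746860580) (ZL.cons (nat_lit 52212) (nat_lit 6) (nat_lit 113370126826480108574) (ZL.cons (nat_lit 52288) (nat_lit 6) (nat_lit 113534315490123414928) (ZL.cons (nat_lit 52364) (nat_lit 6) (nat_lit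 113317672035310399092) (ZL.cons (nat_lit 52440) (nat_lit 6) (nat_lit 113134501921202652818) (ZL.cons (nat_lit 52516) (nat_lit 6) (nat_lit 112984733316382878950) (ZL.cons (nat_lit 52592) (nat_lit 6) (nat_lit 112868307488064873654) (ZL.cons (nat_lit 52668) (nat_lit 6) (nat_lit 112785178779061061242) (ZL.cons (nat_lit 52744) (nat_lit 6) (nat_lit 112735314589877714730) (ZL.cons (nat_lit 52820) (nat_lit 3) (nat_lit 56359347682965420324) (ZL.cons (nat_lit 52896) (nat_lit 6) (nat_lit 112604024183311015800) (ZL.cons (nat_lit 52972) (nat_lit 6) (nat_lit 112629466678720914278) (ZL.cons (nat_lit 53048) (nat_lit 6) (nat_lit 112680361646989891588) (ZL.cons (nat_lit 53124) (nat_lit 6) (nat_lit 112756729046929033602) (ZL.cons (nat_lit 53200) (nat_lit 6) (nat_lit 112858598826538316456) (ZL.cons (nat_lit 53276) (nat_lit 6) (nat_lit 112986010934750920258) (ZL.cons (nat_lit 53352) (nat_lit 6) (nat_lit 113139015337099477406) (ZL.cons (nat_lit 53428) (nat_lit 6) (nat_lit 112941087827732763490)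 (ZL.cons (nat_lit 53504) (nat_lit 6) (nat_lit 112776266679748842628) (ZL.cons (nat_lit 53580) (nat_lit 6) (nat_lit 112644487257403407398) (ZL.cons (nat_lit 53656) (nat_lit 6) (nat_lit 112545697882491616454) (ZL.cons (nat_lit 53732) (nat_lit 6) (nat_lit 112479859814082131838) (ZL.cons (nat_lit 53808) (nat_lit 6) (nat_lit 112446947233324596890) (ZL.cons (nat_lit 53884) (nat_lit 3) (nat_lit 56155293471811034765) (ZL.cons (nat_lit 53960) (nat_lit 6) (nat_lit 112323434144274592526) (ZL.cons (nat_lit 54036) (nat_lit 6) (nat_lit 112361980784350064458) (ZL.cons (nat_lit 54112) (nat_lit 6) (nat_lit 112426241980177926690) (ZL.cons (nat_lit 54188) (nat_lit 6) (nat_lit 112516242932227131326) (ZL.cons (nat_lit 54264) (nat_lit 6) (nat_lit 112632018934988678054) (ZL.cons (nat_lit 54340) (nat_lit 6) (nat_lit 112773615390816591010) (ZL.cons (nat_lit 54416) (nat_lit 6) (nat_lit 112594036847573702506) (ZL.cons (nat_lit 54492) (nat_lit 6) (nat_lit 112447204882064120282) (ZL.cons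 (nat_lit 54568) (nat_lit 6) (nat_lit 112333061913124899404) (ZL.cons (nat_lit 54644) (nat_lit 6) (nat_lit 112251563178807436256) (ZL.cons (nat_lit 54720) (nat_lit 6) (nat_lit 112202676718823763204) (ZL.cons (nat_lit 54796) (nat_lit 3) (nat_lit 56093191681006551169) (ZL.cons (nat_lit 54872) (nat_lit 6) (nat_lit 112048345870709471668) (ZL.cons (nat_lit 54948) (nat_lit 6) (nat_lit 112074297216027568118) (ZL.cons (nat_lit 55024) (nat_lit 6) (nat_lit 112126210083661924972) (ZL.cons (nat_lit 55100) (nat_lit 6) (nat_lit 112204104831599849826) (ZL.cons (nat_lit 55176) (nat_lit 6) (nat_lit 112308012006801318336) (ZL.cons (nat_lit 55252) (nat_lit 6) (nat_lit 112437972357178174218) (ZL.cons (nat_lit 55328) (nat_lit 6) (nat_lit 112276382996409624352) (ZL.cons (nat_lit 55404) (nat_lit 6) (nat_lit 112147187484306256480) (ZL.cons (nat_lit 55480) (nat_lit 6) (nat_lit 112050335155961363398) (ZL.cons (nat_lit 55556) (nat_lit 6) (nat_lit 111985788030069711814) (ZL.cons (nat_lit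 55632) (nat_lit 6) (nat_lit 111953520794032912844) (ZL.cons (nat_lit 55708) (nat_lit 3) (nat_lit 55902046990135606222) (ZL.cons (nat_lit 55784) (nat_lit 6) (nat_lit 111817198124936785898) (ZL.cons (nat_lit 55860) (nat_lit 6) (nat_lit 111856515697813767270) (ZL.cons (nat_lit 55936) (nat_lit 6) (nat_lit 111922062117558186746) (ZL.cons (nat_lit 56012) (nat_lit 6) (nat_lit 112013863088648375474) (ZL.cons (nat_lit 56088) (nat_lit 6) (nat_lit 112131954611465153138) (ZL.cons (nat_lit 56164) (nat_lit 6) (nat_lit 111988001704102817624) (ZL.cons (nat_lit 56240) (nat_lit 6) (nat_lit 111876096832593777548) (ZL.cons (nat_lit 56316) (nat_lit 6) (nat_lit 111796196112674696030) (ZL.cons (nat_lit 56392) (nat_lit 6) (nat_lit 111748268210729918528) (ZL.cons (nat_lit 56468) (nat_lit 3) (nat_lit 55866147165751890212) (ZL.cons (nat_lit 56544) (nat_lit 6) (nat_lit 111590582687904741026) (ZL.cons (nat_lit 56620) (nat_lit 6) (nat_lit 111617053060129199402) (ZL.cons (nat_lit 56696)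 (nat_lit 6) (nat_lit 111670004185116243396) (ZL.cons (nat_lit 56772) (nat_lit 6) (nat_lit 111749456828012926746) (ZL.cons (nat_lit 56848) (nat_lit 6) (nat_lit 111855442146718424628) (ZL.cons (nat_lit 56924) (nat_lit 6) (nat_lit 111728779879950416910) (ZL.cons (nat_lit 57000) (nat_lit 6) (nat_lit 111633826616867188398) (ZL.cons (nat_lit 57076) (nat_lit 6) (nat_lit 111570545120894980962) (ZL.cons (nat_lit 57152) (nat_lit 6) (nat_lit 111538910575760864326) (ZL.cons (nat_lit 57228) (nat_lit 3) (nat_lit 55697181018066298702) (ZL.cons (nat_lit 57304) (nat_lit 6) (nat_lit 111407728263691482326) (ZL.cons (nat_lit 57380) (nat_lit 6) (nat_lit 111447832188026003324) (ZL.cons (nat_lit 57456) (nat_lit 6) (nat_lit 111514689536165311192) (ZL.cons (nat_lit 57532) (nat_lit 6) (nat_lit 111608326526677303696) (ZL.cons (nat_lit 57608) (nat_lit 6) (nat_lit 111498615868335107542) (ZL.cons (nat_lit 57684) (nat_lit 6) (nat_lit 111420281829198753112) (ZL.cons (nat_lit 57760) (nat_lit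 6) (nat_lit 111373293690037206542) (ZL.cons (nat_lit 57836) (nat_lit 3) (nat_lit 55678816512064614005) (ZL.cons (nat_lit 57912) (nat_lit 6) (nat_lit 111228459220345150268) (ZL.cons (nat_lit 57988) (nat_lit 6) (nat_lit 111255459000014097812) (ZL.cons (nat_lit 58064) (nat_lit 6) (nat_lit 111309469147500882684) (ZL.cons (nat_lit 58140) (nat_lit 6) (nat_lit 111390510843255499706) (ZL.cons (nat_lit 58216) (nat_lit 6) (nat_lit 111297419408860177634) (ZL.cons (nat_lit 58292) (nat_lit 6) (nat_lit 111235378726534484070) (ZL.cons (nat_lit 58368) (nat_lit 6) (nat_lit 111204364466599075604) (ZL.cons (nat_lit 58444) (nat_lit 3) (nat_lit 55539587814252288607) (ZL.cons (nat_lit 58520) (nat_lit 6) (nat_lit 111092809180614639836) (ZL.cons (nat_lit 58596) (nat_lit 6) (nat_lit 111133715183435851254) (ZL.cons (nat_lit 58672) (nat_lit 6) (nat_lit 111201909678537945280) (ZL.cons (nat_lit 58748) (nat_lit 6) (nat_lit 111125111600953284074) (ZL.cons (nat_lit 58824) (nat_lit 6)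 (nat_lit 111079044797853728614) (ZL.cons (nat_lit 58900) (nat_lit 3) (nat_lit 55531845601913149340) (ZL.cons (nat_lit 58976) (nat_lit 6) (nat_lit 110959818945584727648) (ZL.cons (nat_lit 59052) (nat_lit 6) (nat_lit 110987358720847054144) (ZL.cons (nat_lit 59128) (nat_lit 6) (nat_lit 111042449071283574716) (ZL.cons (nat_lit 59204) (nat_lit 6) (nat_lit 110981624872925051614) (ZL.cons (nat_lit 59280) (nat_lit 6) (nat_lit 110951218735733474686) (ZL.cons (nat_lit 59356) (nat_lit 3) (nat_lit 55428218070945508093) (ZL.cons (nat_lit 59432) (nat_lit 6) (nat_lit 110870342365043280060) (ZL.cons (nat_lit 59508) (nat_lit 6) (nat_lit 110912066487920915710) (ZL.cons (nat_lit 59584) (nat_lit 6) (nat_lit 110866902955470371140) (ZL.cons (nat_lit 59660) (nat_lit 3) (nat_lit 55425925206153112073) (ZL.cons (nat_lit 59736) (nat_lit 6) (nat_lit 110782620227257547130) (ZL.cons (nat_lit 59812) (nat_lit 6) (nat_lit 110810710798025120158) (ZL.cons (nat_lit 59888) (nat_lit 6) (nat_lit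 110780900859602005522) (ZL.cons (nat_lit 59964) (nat_lit 3) (nat_lit 55362078953325754004) (ZL.cons (nat_lit 60040) (nat_lit 6) (nat_lit 110738342254266817162) (ZL.cons (nat_lit 60116) (nat_lit 3) (nat_lit 55361792429503924760) (ZL.cons (nat_lit 60192) (nat_lit 6) (nat_lit 110694932476824925034) (ZL.cons (nat_lit 60268) (nat_lit 1) (nat_lit 18446744073709551617) ZL.nil))))))))))))))))))))))))))))))))))))))))))))))))))))))))))))))))))))))))))))))))))))))))))))))))))))))))))))))))))))))))))))))))))))))))))))))))))))))))))))))))))))))))))))))))))))))))))))))))))))))))))))))))))))))))))))))))))))))))))))))))))))))))))))))))))))))))))))))))))))))))))))))))))))))))))))))))))))))))))))))))))))))))))))))))))))))))))))))))))))))))))))))))))))))))))))))))))))))))))))))))))))))))))))))))))))))))))))))))))))))))))))))))))))))))))))))))))))))))))))))))))))))))))))))))))))))))))))))))))))))))))))))))))))))))))))))))))))))))))))))))))))))))))))))))))))))))))))))))))))))))))))))))))))))))))))))))))))))))))))))))))))))))))))))))))))))))))))))))))))))))))))))))))))))))))))))))))))))))))))))))))))))))))))))))))))))))))))))))))))))))))))))))))))))))))))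

noncomputable def vl : XL := ⟨(nat_lit 0), (nat_lit 76), (nat_lit 37314629), (nat_lit 152), (nat_lit 82733088), (nat_lit 152), (nat_lit 82733088), (nat_lit 1), (nat_lit 4), (nat_lit 2), (nat_lit 5), (nat_lit 2), (nat_lit 4), (nat_lit 0), (nat_lit 0), (nat_lit 0)⟩

noncomputable def cp0 : Nat := (nat_lit 20709746994332566078323595722638184809324789809186718069933571632910950339066808078586061432701366292846315279501390027796973581478283975000141769811887809102628989646657296517623323621490833340937668316027829316026692326082082583443929765175181544419848321110783867486124470311554166699690306665954680560443956400479723304564415925867650847073333017896989294630942914593757118782375528943752348470446351927470040053850723430071849324412239825694343000981300240646619784687259495383390193534816239714209529356174018337059781700407608465497354703291786340007722514456427622249542981285186446916266225089814849473739739517111394760290648789640187192370620643167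413128654807836160183500131036447709077454445839067720839731375230479634649875919207652460989418577822974443714203578794450631793862441505303092005961169433269798251834273047693769251465261346961022841730568660136506084671697841949962990476050705648140186135488712329176142272446863717093636433695047290914594729039777342488507417818048992218247508391764422029469221611363694069195604961035634980459617752734553829362708089447829302732750627834466259589501298277824066885777261759129416135908024822246449271660428042915324510191923518939633697275523046295373750581086391888432367658323907125875695653201932612448931559067815002728173477446326117224129028050920979816879051016672004662106966770639924871447424838868610937785874634558851803767907574429586549898770100741621342939521066547092126227466252384246633538680403604016105142492265600668137437507393467437182173073324273581705200504382689673173826714766897986199068334241758088193375464913517134710761108182683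348332690252726217877881617568369985422376445670651888473244966233734876821181328564551129454991618873970844560445995544676078693196139843242486612405075215748988924964490606264403718461221913685974340757536674053515625438695362575050567108836259848919961596569256073253380708760397976453703858692937159825488597261633842793192049818159453584998757777892050971391095422445784075162198889337779537105708031403116916807420974971085770236523237109960024660201329019921638108488708664477292190562971382417101219460473167025612708135320400771896318780269293311392522283071115024605020298941827036267621250481214126221504579521271778587032520776554057382223478405099588098285924372040276609143583528131314431871260523805213317128802460988783387539187183535196736557039741484945978947787039445293733755077091206785395100036443232380674843463210311113944736860365274223713942290393899543804259119927678263410450644624386058769992390320026071067484454732715024016867422660397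725624407109534729626827658654953590770317999665191310694814101941593103920359896285930460263241565133049862823233096751967230725090070870028354098165210983407561720476745635516082655804173545283126575219259584290532959530103999915985273398706874708938770419608359459562963327233711695021784667885046097035594612977609868960395913402069791832457400295978253407724938888156678525477204518943025049510488598830700232952568266797714946869537842367049165046057067467301429622982373782313493777367868342644038765500908479789674216420011698809065757270785126537466748030782641288150433893985795458056106451795906083750327931038353476027843867443490529596999936481618586854250174199926721653168397881527653686340923696434538393999790451271048857543590004028382314907380347932294955844341704844275739287692174262676787760810304721735918516566801161058662572260456342764744718584124539087266029989918548967757975116317206714904559916107901145824857718195345182940121720869156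683286268359860563586135997185427447664431209134837052717643519927895553530887423298326198868652267168532176078027311974827071813032283660256283911282348137456573757668000970952802500368301567701499240257571455252082119334739278115714641748265473855065399392114865061710645852199675377548600846186114920490205088092229449858870440341816163415862249505880131030434770148453571083049573062892844412811329048332917790882182616562772552852815632598385795718515787581923772019450819246002948146868200336454933195402549697126787308161980447860258125741074411124004189101659861730422472975580123797105011451422927750599241536146962168575433943891534576404453323145293607293266052300289081407626166001757899701644661214414545503768192253364250741974511604697457078783138281523927354077698612496475895843751386924277106364524866793972524277373790024042853607229437236771232918761027567931474707835508548057165300923632498099880293943041430869941580605721336180704354836284794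087191396598059559394536910480975194605011753684019321143987403975780563321099972748670947172376446173187203860429414447399364304092758072782877031134866684424302691346084814149756841525873568375073801953175033458099405838042662917738053999664040289822495710187241868411156263613142408701286020991903303299112845738469483658900334500289265097329700141993620281182307496261407025404216276193197732070989632691833670129186539180253033963161723785010598432116104504964392257229152344040091788586400888280393202510329507178438454519986536421536044056842829353953555931915957367314113926503834503519456449236513382245418914219355835826482111489596295615772887903532687642217778444881018753895606764230978639590842527122313656521291260543833592040689012814386812773579964096860674406346863535970976796936648013081190650670035666115031854030234591984564661944288762433564109001921303311560573050460079449399755734388370437507547037512724736240608174698627859351785659014132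415904126297042348122972069419020488646119251054097870791909496284736347726062244654245654901372787193646602799876205671841669333688833177487649983108800664147145177696229908141445417332977829122266657968884094365117982019488917063817239299769412800481447856943651386828447655399937482159005259550385916796056245750962924949040413720710218819662867373560840505387145441804014553697359817214322180623676419845570516395192850152871267179722596681476049819001953535951090076368853064041061401468131655700824470578967767349636801735733780459900285718410012962862779717191527731937027335194917287807134457236908933382692278300881111063873840863932062602241482497644624375898685318858082416273748089566206420846519528470417714709202531920553929766583862995045233242807616497682271841401036445691933250672487896212989819360539689483873614115373059286419932575808470724391360193892737985821222494772822278184546610955761506641522827732002215193805297564040132191095521577748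385238608098179437962316763143837162243662415435078589954983085476881736649083033078763899106579790807778539113426832904661703353306801808151438760329905613793420817983727955494383694658077157545627027974969063432682776338082205145851366738035001973005775800475927386610558805978011451286755457532850226181520063766299683859929413552642238520379211957972502359587142273819106667803470813473203265778876664845267921460557876424171836324536477790846861662248886910750593057904869568381307360451675893614896346517820629577512037492017733206668890114638754842714806190991066990055164160634183560345133583089816952735532822456677175926850513254169607304053495115413034038733633344116404890163773245495635262118950177533268377421546294264408828927578331240513153546662097009579764473359936711689615343111494143434278953728227144310181874147182964084182220742434704666896297820181106551175473480379403099077552135311310229521590723203764513689753697695358980944590134909118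411564834416298414619515658623750676735667616142234383113062352865491869666883397009535035566991497507452146960515188885043949336197889385564055199138123391002559610111449368471479546840916077755968287032519522719730301387192603464548694513233182983259842331539874696782415983942812660423395954721465179361962664326319228247378123912527607450211554089718213014432937058686340696191047074397479271773594286360837042253945915783912452221102462573547034422440410838910466441803393906595819126766376952975682287318866268765388730144009278851020312064663518182901521071477501563200802804696776571059172899553807999613205900453240839725987096291668843907611380765723989946438972984282942470629042469221432419376530444185715016406842834879864543295307299692075952345222014026588348474521210952840185110681807158352064357591401710508380808580572626389167789833194491172160709368257003145486387750908789882532226815049196855228508079756448299625089261259777359935993845134444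668455613304591343526540613175986010180192937060264853618276021835542850191576506236133623269251875198748651480527582215548899347218540512334634964535874715952808044697337825969216041327651367123959384240235084513683247371759464466443319245790063748414581714847891229845779901372115420206444802358770183910807724452228688754160646226768376394931641517847877362865788050160941933377870492197817785745044031252734697705856707435268083068567319604763427891454104697390905642874974692213834973242163834915810696810239383963831119849317774714608286523373177321401108383204876024096857326096167164488740104331544660995895531422635110642506566171101975426940417446313247121604853857297379719453571342166329125259265806340447911992615523960080577790664185777716058654970447323186894949597364292097032075348356698642080999433534443374498853317887995252830964046833631404387284391904872191340282512228643397098260415410937676347999252597226789228135539670798571586472400977975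886172193464656635357222104777310506153333215664881716050817368409625208924583106996945106342903188837163984361329105970885981422519722389722125707113103013832202589020159236851300933137178695663243805495210461780995560325649492132953303189787979733346413637194851245023802559570946028686264325633075620350706872148741551297606940638473086689919648280867788600432952010903276961084019010097899687379070270961877880537031910645725491482320369005248174064727112883630414089641048764623716803392368720427136349088031757055614075972410439169483554032666997609179597599615337680749162889173650866948266332485909040017324075868648097526815020191247224729986228344207019916494495515367957713518504396649904346382948573606714732606454772522800501555824276069379187545497816742231248344225045635321529896804161310968901004776261539201417482534382794331209999564414386305777015981238340740640675020985302499815738955201283465209875436437110712006122327062588348062863141519386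545657501170732490150403821147898830946699833946151946259594785677286758453365108359733913773669307297030188350362970184052546964325346187292259069926126117380535969448007650488107711309115993653994061419108987686994193571049213260513402990431788610729170396413504373469674214595804045177425921473042271090634770031883629245588860645746699498799343731551502962713537246625324828617940475712934871658676962071282012016898518189882454965121952794494809292689270177051520988284516630324532451348426446683952857140282656659304550650870650961308644293719739010429264319725401137236622852618557646760443166852538599424962511591914378052500381396111066705663365098761596123444279200205389888530912907210375411842025009902705258451407976095200020196145266492152243602199478083321050792351646023485605973910056299028668967979672708009558704339091687215258151953185591487941931958636591099739288843792907892954790306659077057637321198313635426748249427703008462195875058662015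113042014887574600017773919328122899442975032489018287232241707195136111125710877857747858342921147600819908826926980352766967969989904228845790128271857100478778043546324300925576808188154470135772624318096746707933141200158166421936918882156467328735582949794706961184939438980372470976120234825352554337109107195933306685506497981537329569681706901485903876699958966006972338277312622548628400810513544323915989133977481212139426797026077833546011723273569708778002117362729249046767329142779629294551367384558500617059140556593083848924794162931570921961574456946210551385302742387028838868589235088941109593469036439042654277175998496139514160326960551305208878028789284345504434348566348522226550381569504729093224532276925535769602358182633572824103354573190580509214543725932425902001466304830784006647839029522604969184693947346529519557691974675167329653663100349034907524967266542183290502680785715688036469003087293037473083697429317578619297588202653365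243938907673766399767676224276591192025867700574421136070214025488488961299953140039998350318758514586971076437346984963223077074072007491323960366058933221014488873163584129569778419510361609228275502934657746092648649716969300720205343435010938812306130209441044279123683334009319168579922955304302600768547893639351122655873342772110189153338896952232702093910557683698732017969036520562452035501262116337636556419497693972605145922549362813628886028922280559182820862362823396269572364936333417096925335257808654671513743117254208225392916597466802752573503786141873717600539619793492877852386045464910698113682371423071889645009764382537876090954110108601622058305431128146281833254770136826609830278534636480778095998315296732466325579493563848120147531226742000510708615001754823881357102238330381379981631594173763504558554567796329449542342525541372821757164282552497660097908835435410777885180569024493495442426545790115288875224187542289592006328482392544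388013870863821449603872306647070666176181876791616444580631139594288511638411145547310771311086252674975940489262759431224039236860313094017592454816606355065930999899177094685381669470796738427819351389613901541450199396521215817435697022465770135155714947601628966290971155675057418587494863694219307087004268728441267038960303111637345187515740127243832579211690240470054418557532894761030749462561998826725149117432244758773061492060964032383152082043108911652614033087109494597791717021153525468443630252540667086558493673768816273337542141186163577156130270910714762281316561618965418747778107241536991271911532331786225280871803159808345404624455764900088807595994148985418675166930625402204277165009846025575388106264121605211355703802151168118468487439007819151214922688266425402470448509427253632048218706142705039457800843444740326438777384029168391424982831809164931869199492487244302462776180032096009733909674153505529313280809888159210032014488466047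305876796964669801674962853851390017291884087571970578973412311717200660651030252401547762959725019477827928716146676326318908175212311263373236846223457727912979275802339721673281233862073718126844405123187929694423649413167166554412242751882154770765739331372638932305316337559751464514285653737896047448088175600078636907526308960661618972649203336790767951005282302732463828745101207643407087490856826678455922658882630902449264653043977698851564037121342528899231556728426003500852766630569717813673197880362341094200317746920760187189447421641808887562438349760782681568309557105547822448390137387802057660857666988340751771955677097649661090777150529394766386976960021929305095004513627929453068052703855323558196181314199098054388592982609402435650030707703375799361154698703470078166280889770437025246583483368275894638079344363238373280687727463096943184021825863642907156440630912546860925024503087481602954277960288174059506895931799540402569282967032950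516534613095622078647403791458125941452708661292603764724810326164694351523746508488034421710619246203959220448700753801939517564751791019855577766745489958069296262689772464065183777640403493055139899325023509534804821279817301915154502954944689658245903775425651854787886601494718008672183497735264644157883324167655727896880718312895989330750633913890764960912359304995461232200711392115553701346730163783221163541781390327335863663105273463419468355119458069004417717085607136380434947140827801041962961553038537878694860383261003061762145154177120612316277206952161163822748614534618117316711052441578201593953798676014477739817026737015502224196103385947622374699644450285932294864994970465488505799146271526206354450838923754675799013709126478676807016550457439439171917778968140799156209885756415883904601303979084862573655685078905889195220239754014221294713270104921568398784573449688480531811627764315560712602994586022953581022025132997870567645347065129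967487669081767467140802460203018044404217031823818988769997255805349191264363490361790586712772809511012199623463000392409072996315033646190230742279634604935387422432113773174821730712202195252391051387615869209413202666187322707404524618613104565787011723102205240221413720392576816854775844554701149107146778797018692997658751457808579490315178040454395677082561100806213455295804265938588708185049050516419311230973657102696966416940794674805195174674988038817676692301675286212114449805589794971798900323041708431820742722010799887053628027896914956069030428307761570448810719224686108297756563354023473579425148317484761822721820327866673420662032840703456504459258603289058658647894767563652855123807241456598922363738239076898024923902930881200096945870152872363078328507630287954102525726958421516365656558733318315529676933638034144833265554898212405623088279982718006015211143446259653064029492393973581161805968199207033762409381240477782345263530779489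6634431335713002873768333286852791235403321636580270615723738353866663378015335189464691644462129466772735596368421995935332675634881715311368440045945016098172848975340909371428338091583761957102893441636147725964730390188193509461384194693245498787813045081743667639655832066889218007752934753048090836560337580379529117829549162255385212714392188041865055579043013531298739785454289159787897925842053473801465721261430232481381645036058087465026033974923842840130152326271343444265739446780139611848658047468694537764325629472289846664448261111575563754986187225744395875923549956282817994085957314621779561847443961556492276255630836713370818522070083393033391905912245395408449334181071726555567580108681140713775911254779325417350952874915375391638757960004930847166860184257959927432482459782619231893629573303011123196256399348412389124294786217090699417805896630557498495800123766646970740469239737802695078154562562957195953311622916183093124623310901265167692541053578965032497448277655877874759964492590921813787888987025128179492349589579876583423186245318985308438528)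

noncomputable def cp1 : Nat := (nat_lit 217780340237040378965125286936922415508539281406289623130290633393511848691742172975775925786894401421732924641551891349873460367808558835127139453961850322605531256605841426487056188488004791517843854306016022155013681573334287148589662422365105086057184712875938000560220863502868545123349276076029253125004857262335886876427537622727453227741393449405632645267059551563515998763568980578180454594900571259366821649444272646518159859798983109436730785031128720360886461884089251159441836229668303021800932989756029288205463016921658704573005918633174955910012788495227661679862733013641460194069150566732863838793814343030886222962366844256633944500228183540348995036156294696079148120134936459842357588320551057185919435058343140422405189604848797428155711575615327761328481583105950860322729242124306375606182623380319231600285825365409791723061755013534609724789672506850672198035774720480573806447590031492086740814325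216898256135240543631787667361641591595617151972938546270442781734519056820502132578108265411078332391743495464985840690389256046942335681056751005331658293051258173054113031763916925626607923081006295810513230098535305344857058872905833518456836416888023782960919879058715413760243080572074476987108935130181086297497704105670496939578608609033446817607388968293471382943982491114794836467663210119333212935038633285000429444611137138800208620398401151010479819830571407501334800620402555358761323299094609250947507324398982149384915398076890179656885661363944778999749392863815232511317302090718979977513574270308908622990717217514645360334057092077768593512977820961678318893648912743359383161779729628244735414925548365819206156446697416287137533722251187172956978415840490655903482668367911093426079818575617397005674573874084798982866468339809125700389754022128061735808966603087021011628738840788370817617097687798027209055413367550103831089419165268378816543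136768673387545346366108129732327307248038405859390589329520969768520334371577709257310801893078706298455098665282395099118515604973620270098247299548974933091746410471813000049290591146893240667876664734619682334827417883206294264967414758236562669859218066123271928281428044612513964226992280610511078381117370052187825872074457326144605309900962509598605182640807087066299652204029683937223074855486513184090133781155523319569213048419238333372643501218669067882046185279693252366530170505961113311808463828461114684976403149849725450483696412737060301954184638133484252456722922933714848406209718019789553402913780688561655412800573965323167984014145769049069640033007751840464189411611865848290903654847401158185504521419074381810990355139547543667603903654471857384218321821174540753907760783743136925684081338400387559043023843041771090639527272435617326724172105527777399091831122988361010926365879540277697737479493038985206063377398670519287531279384455309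652981200116351056440999980320105539535943407263501125457578316978235052126500547385791525853060735367593650823001779668317997137781880888312686627956689531190154780637030624613736583860888406829186713802909255711449786806497949123349753679976679479108838442739941113089729689389561694495133495798051535133421115980365602121072159605856940358021943452105254927843447440692944214861319820553164509617148540155682395849965066273016560804053435724528480140535921344417026514959325583034406790384705660747020892372103539191751731696243156902372625254949903535705070708473420634845058610084521967141988398032359569392099991166894964199914631364479903715623377009457928611669448323455351676465923888580317382237885329532225356966432980848780094986043006312516677858296663794931020556300869557654025489639822445258871328062359934687034089022053665960095407783484347948710389232376656926089355498853540901735212177406115639896605941569659001812704360902101978076359630190982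264781905189017715895601665023054296111819403624007221871012781838579247592287143461727306993870207829347397240811042745848482480196533796943254627120725041670829100993566641334338525164523681651334320177092545342235324650078683646576552689984465842776809135089590487254233845524240758557965943494422445620902786777923750692465647623217051460385214001764500305348622401051148052301481793856006531055425475370772846715229512521593803411480619358111738323029540724477750235641374746316187019764447747310738661606126975739346698219273934841745801440132821652874924887258775425055456264472808295343008257853680069771581259290799924850995687887299582246878318072236414356514104831401230936043238759597506564396264489123691938532886743340100819275402160042296857469010851624080672353565417149913636605865795481170753257954015142279434754109826304173910728133447953037660528951610238537690713800144636364458482355958630012903634131800825933066771576768514266549391129775334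842706863293225178824363747847808021985718408750103026093870022035232445149324944966967157626201065445818139867361858254562090875405279144320576080046507269367231184244047391970147437391840524785263149652809672865571637592898636187888788660657806483065521214248779927500286973784828209988024252749705085963601628262242863479106090128890686871107137178069526722009561293559416078598409697480931516421988914815283668389673047984744756833655231165087832193219509097357146754265111612036719838337847949546288497545299211182425820070166020858141812552747144022571705254015914890466980934193042835827640138867842354785688742252558380362705956166816161386384494749290915518461051609850879662950385365303877079758532318985867185961150922769691746240090869471915812876787813397907672517625544912982385608346888289614523978464450908133377378661352368964479425654413656021485141558806634836192268186920456613336830886581940553964893632221282931830142659313505900402073873427607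326330061023366886940860866916566941551820247675484573729458563669422726985503582112631705714922923097483272969348537288843600975018836504677338476027783162224021458457863671471098877132039772270754695068646805564082638299654183897922176144716046317598531093861412912543527571541859616178022792363103998467191015925211557213590041350938444905119073693533993185419443495260774476299762669704392209563247631762850434216761285192858587250392912399009768979172046026301787040989389568469832433798586929928841490255429163367803090490676251729617249705254894347135189187368836693781921611775966614034805903911806717230009338828801716756639589848528984689663997398992458138489424347622519804846293197652202279595921860432851931630150109420881448522322520309865698494044294671457558174258996271776110346047914900226524190820882951506080629418130896720416923050404437594379429830833692852893226511196770105706210669973354912150608445621976870105054797727704423397083663609776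789535608922375971071779798209173532415664032776887317958008181398514900667739745349986068893639719598770626982006872563337872433431049048729674168362583498565071349783888715259480785915513116610003718544605443406680842209882498058789302167333373402299403091890737103137576997824381159029064743702942042911192945411839821563744116475423679661615187194567601470678046098456651446047292947676137313300102315754418506747731085549516731282236538665429222509422006112378223240955656046380356415692613880976631937890944784268732391347742771329747114188459071761601330776326344414252723481455764794298678659141585596650640304007650654371986569333677987466467393273606409938695400782731743688997008602275507239194181408577241059945010363686140573478159707503979503144477645711596248382623504310588389681255141990136908859300841597554135517406612943020824571117910869162880796594910213883688091445581836259192568716888360674996841266801675734620994845418385023605346881117831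942881749943556148400671221046928798296805940837222478260272317409072851573484935262434789431506762690199405175271491098825680115985684239262440531100388587113510464955196583809185551981592274607390793733366712966480623966568193079921560279269024611958201120215954536174809810491704361241302183417901639032947391289107952332270493939258261045628603578489987276811391642536025080377301105391119654919391657599716721717917828475649197639072969293920750943245498715106938486941613951526381053411003902148936220961157983450960121461555844479787313644452519472982931074169822535755178647575231038159125175675491131923744123159920397115877946032615937289705193425068807403855678294330029772111736076311219077172624208408953452826367572564744691857414568831985053576868976199442166022273706284437335797127578065809486659553795291915298504231493972653935101404905266925505778136089603245489851633367402480605694293987495027175199130595317344965274276509565078655470246288844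791814884209374638903689945005305861717635693540707373201607213803052078422487081607175863039203721125694396575769073447048825761256403303767759872181408847178526591737410245980349810763765499210206864179542588495297481735548141795822745472090186898757030337592652203772254187556522118206898512971062203922950647321995026874015074714771264436506280712347665762436869156004638751540350079696045885282973882690632757182837385308670736058433696163793766000036685474190426224039445827832758407691985035513843197727898049167386842239109950729139127081124770745787843454236860478436525725857983958293012547729567312532855766998991323089941930424368741115643620238184398810217295765143982579528069687696849848157108548966689770425495498671537344504482377966213665886471325088038969375675390121864846620188125496450323257120741294327498600523870294181426846870217990437559248912747787657955610694218690997924170640617628208448077725278544881689982427623870542899051097569617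127585073118835793135626830423892676956665471963289652499390663497130934117255149539504697535379894482002844918527635488851858484904511226261338596734285746613583562855880023345072774201652490149824771168450709866346519265402614468451543639338860993801598694687663383895166067673024107782998273944707603745568635387374162973070017434924087989853964609946790709319364137225902567245123427486140223828645920017493584250175489668125993537775470775429275403844739434279431181146374233783939109435780063478784976415134804661206726455071640358465919724200495271670590323118815683390876648645442342847923190857130676949487073292381254819463933449494384491698719021280396511458819185139025493297238235008099019965942371815728512272201767877822140304429090391582527731136221165735319732723259121044637072231105272800447397515483287412950818081606797318529427902466411481323520348215644712855597392920502518319479595096171567320365967349136721779417638290533065288113327848826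338366294684745480737727522912236213962711968862375460596625780332058025117414062511645587123306449852126490996807180707561597859223922491715628396352416740831211130836330004015078932889529984685438818832892973859130879703507927941032935809650264852522350197775587717430804258676150918228107111347498212646972921094915200383714401610158084283091037186399190184482424162616728177871056691725785287432165673951205164790438140380150724384491825775870881051224212696580546606110647744532519340411965677888665544360000975748589086119530383654520822616483881916441175291157870085989586835626261860927877663770239029417740316119975957046899576394102009754562467432378344852461473180666146445252092865038715281613180832070822059727155892116504875331779444353882869786051939775446356381725324495741945522071834881285677413168313193325407258289475225704747664289963721775595275510465677336380474688502197744555236244200602238609660144683990819729703734436265093571680871443931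422250360572831657891485257693734362942032389720584930493006367261093553935857220208698692507175632608634032872695594977306757860254213848963317048663205346586266445131243248415097961870471639645819582278367226055972115167905371444894753023912408563215212941051648674942104305669270211747337313183793698401717433521356924937119732518488727556569801300213140080624441789327332896754138333274231342360373560391683014159072656916857973295499607080816310193653935101939266108241343630464665860591027173266055353729346133024749325837140925531452094401299583418729297925449221049582298504986044156086148110785251376042676042635899487688385288564307341804477381684987057537124984375473783452126633680689284352361584286104690426247203670246292527680742679875637668946415131140573995816459377375182989578722469038016286324191198341032968896583360556306075462535257836668931627809668298780234228570603479138366998035706149771628569265348588617642277825006292444442006773083888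912017584411816995996429630350490107536844215355671695464254355367989160495372099244110251195020732814965051899656253196195734135277008330800078031453558585488586945345936821221070600785181360781021081215912097495954715509397947839726391001909030475360353553729061857995266533210057562818788773818620569222201832896136892117895378772411557583610341656842320027584496684797764727407397928097015041585107624648746019399330756717905033985131819806669443556487447751319740961989177729406116560521132875219531995127168710490991481343437452463947127917622045095790977613474899626894074982395225233600320110366239495207746900247621958686057278016163386165887094835593603958466943829403432107832841848542315509049914951082898631751333188742256423503475490014521854402950359823170459519537257530214417703348086762419225441365256777976970148731491519367475084695112152484143158003222244466204513287096615372659646872491573886941216581082724701378590782830461263793515639121153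482702151975471079786079811135184242114694751809526448394732574430781228651199479625025352387855689477879053400005875014124752178321872355891148201621580323727108671458136616133504097059631736713234734403628498155701419954869162189822074985687991377433084474729969112746907531395993262434252188440412419786027046682025662480033608130998329639070943979221155910780286330632397453070549350217686440444395694634936370823987462245858102045476331069033749705228950764308778167348303449917617153816296473920738492054988128470631842557463336138552356041393387148995778084570177577021567114684056614212979453619847006812061237478507983720725946833455376219296055971977140299596353046668692022335294964648358557000443316389389696252885380434711555270256574648584960536535784227428013978468173871246279671576792595325835892953817148569233926298265389546872606309558603437392231795053837319452049450777907270580358501816646676967570255884874573308821060283590554706222909825268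497682804199018472460086300153230290579248149635369529976083600567356519707637773503436427858440473631967821279230617988922912647265005096554486327499980168683095961078214218435220879950709574400075134872889194722451088185830746471859146119213101492728885940187237170887341661242357921233798907663194121407874065323012951706306519748565782250775492583412760123313724672542937933057878534957519087289169315118817896501010345137649808375833580669983423968333660179893536374572682942599803867459931076753612468546963890685972722400369334962449787503317955496651595410993212439250415565777663931230858680225105165757339726699044597480443527214945083112110222228624373823786189588539358816294679355023905056653418408295652579432511352908563288675125624001474395010292079849595069328521190027081400744230754222059660743869331537906843350983962381614652310821000252968948666109967492153542087193925144950123430783896759877921954931822272589975902273545294597348486531188517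198916212130357924226596375473514735975792921989849104936581367378423424295074029686758447200573436337658492323353991369074091900659938797018045433716303516620768851767901240057897883362309223886463616921867996986214816787042325360701631333196040417282334119861608336073898914842626868449855696509961262069384965050948470456238338711966600954984056521131102312552640518567502026705162965818006124802224765794876966661461757235792253236039093507441419464347764694921694599146555366111584165962619098361932737492962999047857975188391602106216282500496574469788157493837799544113290560581596105277665993679213721911773535921574611926948349690013001073296478349644634031491596496719183855170783818106531715604686182962976683314761174293435594125777047028506230911285922177139031577458362189154281091589231491622272030060846407646387809705559012519723399382702062314036145992792896647364543865846156092616062166499157028117048531677207816020957241503999201867255221787142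207475825681392049655114571885958019641596513625314557980481102882689075475276794975693042736308292257419312365170488617297553943819803124769149875779190497369002244511833524106602407987757951279298310152892104514912230642797974513842324964591168759915332227918143400919366329663159013738645268848150111832196580462900805168576474333967406355607738148504516049129651688934160776599795600507972196122298851626981628646555766223605143830539353438682906148065351057227035988909491853740563503139896469745321649323543447361671694270958242979472652236254350642851987176871196815464762936629633859163985289062531841357152209642123083635311174839150003309828467908022703624274252151947597815560921397350080888029009564582775137928358119307535651187572887007439632619279520306257318238180316929810281962083210297053027177446145514683167655592990119046289760503066478791441161070122932388739578250483222052967633809969930590502790118836532849030074159532750163892467978007605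846974457203421189649698901934486389223584481494624685176113217445590878853872976581815584779959059066140071932510958045342438521811286549180630537454973723240535121104866555800608762882793379655704715449477522086360641591632533753891712130294893235192936250659162625659531564370665184918852372331995576309092442474317443191035176392155130846932275441893653047385031270580922223197317175368708652274118578818695808629059218644299045824429730623227386858231355645838437816112062693979524597488766038080296230475096008397999431208144189063954115641961570413932091703576744470199082017019149614100152299003606815419911720782902621602887175466877622587695502865188719882176432826719711180828444670218194304764431238912433776937120839967167891048856539693244875610240539970393020116976694198401769460074221410872899665920)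

noncomputable def rc0 : Nat := (nat_lit 197748354320297046329713481432813858192760348159735227387298410366496137204685388574692680752903436053571419685878310528046227986384470899026460476492186284718398326382944361895605219020084726274359852042677415844110773172546983692488677833990751945768393573879058491322224938509979655585189190109028818894224397958248037145523143567179264037146801121742999833953878511774036280519035109389303343295978517983435461308086622421666993754396031040724650578236469780362237741836600441336576058964250851616791475582726756105332198838579131486904886540901884113461799034786016018613920494638977959596955099169429827347233832984221052312412112982142198034258571724993859677104884761024245692828339383741890768198684556116912493963292304172661797868670197371287481760106483269629161086998499003120661702467754338596269217774138471946951795417579760386279946096935423870038185247566476700809657395336058473246959118230098960465238183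543684986364387919454659352459563565161055215769092677060631261120117548365092609170888035033495409446729622421525937172944506105141937980473223577304475008028580521251970232517926094130495852803874327786306604536655879648062341145780498696349676968410782535325668792320004837172906632698597390370860890421584051139994228000886971639622763054182256554674279137492882630096621501784406663848269519053564988232557977567030471791575012439504726723703517878586045469027874659353853377389023112008431547071580262519722765788776895042628275157701599736913687204392986970512625589654997124387637159230356602846180223031326659981741900692958982558425103572167694926399557397282345049686824153204816349815753185819181116243625532688539897944319359055991843968549813924631636616950542556036968936051811776871995019713808633227447589347078617149748196248716398145453186034039122147601146509001864932717260827341290549108612259291132738745240575795370563716061130262076871299788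173691151187932439578481617389582377728432806163974536511582566413128351901138685747178234812736286475567450200066291630979342538152608058957613322541342232278547696541840853331248734157709522681881566346584609903065420455192294931829458084505585246950713685278105130042010158631521933029368568614492314235870399195156269664646484783237322082058402680543514548503703866043315698900323214022823669700813834660152630422424723604879626082813802445063686417529287733608203774040950973674399482764219671610315157658310793003808824141416251749074239236692944452822273261437038457434342840481695085077974355401692121671382427072177416406414553174329262581269964071045278057359287814631562290732597342615919528029129917540166544133350398531928000679802084663188474130700807790036182598977627727083164552126134003065379780833788306714778442293523490020797781479888428269386786614505415837331397640098496664421989041425020016512371862487089983829263466513811465826818884329768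807896102729293638972777823026560798310947151697589872485873554813373329011988326883863059395032404208338025719679015016780162440682802884411623041624488922296031056492429455634661627680505177848535315787419629604953594569311101657564857377842048010398999304112980722923813913241927957644739788788951606446923223591593500861162855719471879251793588967667800771226921305140615978493868106047801040807931825937634822453294464300089476621077184404694313018646722013519572237704489350709332464811402069925148909535383296228729814217004887969098521041938592117639931478340082070455126228871120985556243868118023658946124032590415681062580834254786266422876951602796025705226610752698799704444957825045170315233305328991883880305878840224144437456129432061593753476506611817529713536699821285103815469709579127679339037596520062519438747186352860419534693510892090058115702721230117200969028843292646761707467771055963116478510863948108699898309939181370717046977607896959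629612473245267887277883300467003347704649751874041335937034963968911196722020000407189136004571680648085945624001246493439485380214812801397001355808109111480058109573042257448860192666435920738193736228076642700484410126192040744894274622764133773874130573140563905874871863737907015470503396095348683293963888903172247842662242541452920601930334435799477436697961070953630301665274755611140874682839401089927703787143678991803622946208232959058483932975233940735481435019289103159248234384546360396729599139044777742732360695872000126598163310404938704733391454155735975387709054187261387347437513595204838673673175722775111804107886186324102669674869176706658929651387953516910407543886869810721134723196490116470420309698813074837840130808207562117503005032377203602328660360447288294194476536720989479081883705203502096750219942783038496434750845430378325107318326548183301898428049343874728189182024861021328336119335976409600730039066390681515100181198961572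360697695376352216279866140651138126677884259448245577035746013088024879247175539676490799527652270603276894543080670393823179938232438384545072081154908397302490959726955900711659855854487893004774630871671835643440249062107057069095923749423878246998018927250591616623195719725968627376325264104054226715581060567914280916985129841987957722263693371328301001041137688606030770307812268715786586803842886974398379630573409540464332042221357095984392250700603512624445049516241792126847122133250725654793789746477098636120943951906310180647031056886815009871268260930121715322414040124011390951930287618674003423489367927920326694848780269714203372270817473814874683587187015092660339115028175201552785102705550785515417399941364734027647993474415476890907847197035295016618552872097340484901310512671251790462175453654850921789989537721949711289348103170510872292658270165559259961456368213893911680894381751450489071115074923711096559163930006965337739531959839539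524414249412560577535667547242531016999177218547748228117976735107258041113124272246251172031283170134491090251338392020023123681056789153015876498111573769595142169273102410812287401742678181181158470362257933948242368579235708137846969978097340361406088221486867571483780129158392852789274898478807132700088367029893639555079970951076037051647698421222087720175973470294211068240577856374837229040530010429514735487153612893972524338139682660760453444602108003328797637561610040795943595646706989309329120671745262812751395862044718438265758759593269588047225862839148739746257803487581528703268198522409029755665303894336930650404468519684805323611621923510372817793978037604567798700160474354662517347845140017671408615567182747777918970190484092586340465576021685329207296576325699610458039616400657948907876647637962632114261444479191414831295101474007380297328990543690270212560087307307472254340163107415976424593088611405252703054835454395848369703874385317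968200145430029371831561035826732418949486332113480945915250484314612440738390387724669252103865010988529331326588993856618834472783398987720545642400601635642828026277981316593299059113004168811631743620780257517358177785769295646831791297968468940372328425671524254879808851479409982702858073795022073146762308199039297558645457737019401944244319074403959131005478809114954780115572502508083231612196671552651573406021447973079673440505972073763494658532370897429479174934110920511329251611446298544378878607566121063923678170347055237633421881715039262252995689008654441236575889044678737948900776629741938604401291608643596162689663482875272132864208771551108315209092267719768917884261023333662767275271112177741155248632488810739424000210389801272487347068249476542513923835239716964447898917417586343378737601911636642264591658930832447469051454999828204414950566691629485674385180192718096136241181461912073541192511510421063378026120903481134786802045851233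005461767769328163165572793476833184787845416471474759866340346183899852965653814399404355588413611224451308683769448568527374150709106331554679233841539183114828211142570443747522503257807158570155978276044454531932644666366074520121495839715346881318089532526748371562155458201964717029270323116976303161229857573309751046515771547447493824861688072927119512579523967851413953516798583815927360222004339490993074532586182761406383502628315887410462711514667445961768041293401552520500197481209354769682664858098161457617272403102191175882114819246650119471685336740935366240512826714465054290858963611492789701294849199364228972557877070876386693641839844720984631254335797919432833623192776861782147379689553594663882462675902942017397533112657887980648704408843798605591094792035984575049209689693771710866374922410925045023736974983393195460577341383561454533461976906175065093975892042212444771048097609852284153557074253531705326759966458580360924955925359229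185086749924641371379513400298485346810952886098203365965345697289355174837440044835814193206191801562117313467986754460351037205481137713958099744024753989856324615400674559610362540860411812787224804462518037587000644323847896314202964017532598980096881547066244301050227730362212187314728813916703004058402187424706279503289189097217671888468719200342644666394769611930367360076492717477477763773611407319909833456655383276960009480037905126364943089380220129900255867336038010945000751534240646728215370094508129581967817972207420429602399964595690435043730006051731868862074146639915795201374621182855919417839332111415578301010920021462515890769703548916729659731327244078731814868899783034126369677131074728115493466113565910921343930852389569886532617259291271400029381111942735490838314242822323374321199897056611234185961409860925689939015992223009371649915749955041206889075719318566951675304571552918646385189246365627637190133790300286597859693654277997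231864802109903031708090377219828391754553325141711639322765209537297244056804185149220077314402421015884273450783167957645768673173278762103065190390374227939713656490985713837920898862630112784611517094503495034287747476614218469484776352424356845435721698581071978152286018114183956869399331894613237880582133192828644145178895403239402022295448062468770881612626195884131863056779270707840788522556347048645240660335868589471233543408602425136411147521824357757649709715969067827302684105323786162963080016516864701743179184126176102164865197633406476244658351100079764881996225185477209575335852959716697918114697089276671353487108895406877483930823381331868100044995836970516463076827764529167529105062471725399145736553444420668025740368830106492032195596276494194408608272694385787884808263565890676856646154789330652801099864407416370290073497007529052273491500271768403724406668033150377921110281017034359091486879466760229927533848149542388169056422528451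283149137793089922674466349122817116705867657327272503312942336826529607994547915906688000575838889823453145346090164389891810391036100008458841524760523874429750213706191718563140131409920656566769205857204781695385462595689996438820614702481388412379937216217875733961479538136158618737218138393106963040240944223323597341342031675512915338027349615241290721039381955732969773395423746302886183447881919573422087704553632248958618120759706505995018604823228637773873686226014864045924627121665360067804015675972397314133989501760671522737144249079201069532170491909710131160648058245588176983847389445753225600806648805656582024812991806317637109683215820697445549464920320101938921145555839965555608244950935395575558950134725664109426412760248813270491326174083212425104730031370901719575176993437553644076011977196826165797597635179778568624846593412404763313763876738753144188080616957815142975602013037977785710714805153851786553046880926602804475742841673514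565923182373080566166405611270534857096867665272281393665058865767695483816844485989877009936871016028950337770179154142475595321575347486616412372560152391566792056428320144050739444777340235549266204589412405744783485651117162354009627426571795140136222852948133602018283227398562085220140265920709077128294076578437779137588761403816692084351897096706847411226361898404035120045353085250181713381757444022281499923491350865409133319681227831216193476282091514322999349155509982014903876607725180822570579354552750957423814478235085540948630231437510465442769099195505333509888228292175626425756528711240825739452957497393950870038890188898375135862221254204260347756304374904417201176009576232943604353792250446141771130514267671522071573067293556502576331859667714242352150778307557405091576724160772198281487575296119679442987156648523227081882845663023866237467148619711778008971742546889535470761409412727357072938881567240186697831141981875261542386433271421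491506343962775567448490737041738198692929353652169535393989935519802701916089901913107438051639469884016689205915202955279214710796646728639482685444287468366497516309711342436931197500932869209380549615683001310420272312543107552117502888660619822285533563330440327252530181129995198272785306080814223124562382241979134289118387682020495317237614722800163903119372546964450895499598156796182332281008695617596522638163983369586908802712516704103946509954070587390609304133165789076056289475812370296094584411607777369081993802355831264631900791025155291097660957895509060455457256515976077322540141441743864370121324960567893876388314957730375868209279284440593052696797957198743010058088354103548371390385831528680976859803174857675016984263409371325056891654124353421036900832384362965219289694264058333732240465430518854758041649113030885721569059279332565979129633792495499194721991212223688516160755909134564524098539171855820772781921413608619148625238678450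163615991423089279358177526455348257333112254724981129268914104359702578149065066467318380609019617059155546507126547154456345729756974410043403791537433141780692681872383523044955784052819514186611651535384405209572408327454874156572241094360947021195944756377184229868348267043996881594991901589229488990138340713728801504307840549128894936077309717670153571380579480084299179057359776835365994359522128706549349463165976738700056366247272773218504024939858262236836432152198715426172114887658338618480174204571422754842210850656501394678275850995538309712657197318224622746723474881754207472594883681811114199746527400977668056080473038615692477503357474191081187844385189890942597513548529506719250033984664707010405431434489433429425375889835277262263751638189029039357527114980578968136285722103019065058200159397369724948485083085637014380437886516172438866726312875573273612522753180744117965146233991663554770206122389951636963338297369823716021431778312381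172553106706805803835431634650020672740681453032645463137391477486645625485029371129236656819632528229156974882346355142440194722057554845650160459119884271778777790190301694719021321603607948302820498252898755075792324404625303574745554773343029025127890902054698077482139007108063284229605327936201064267354960466248020408768375701474779301764695315006229081356834004407518904959000422998440979486846894575942570833754564937084583211962811718407559305984980263405428415678626355129691072329835920601652905040732603108685016447331053313832268183573630157813231644404453915718835442939777957484657226389515104589480398765617392713276463549808117487552054760478124267486862789498964973779261702332072140394936264934265733074220224323315643454497995501098644946069981378152814770539727268574552237781902733345648617352521659068757788088906672310412064944197632781518974105546647375550064668777057842964703143070847822432709532121109199906939939352545295609017046372980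308487314189081821373438088658738821428770206550662527106413680523814741918864205835329442754306094114080685481241540518541659270745427845864603473609764213164066004782511906687997518426634814617882400653422991845043124367498904256128517793807396648728860132991987167474554688255783495181545161532110173544232069684024403670222138793534712825146752926568337646669009235401571112656689794107036606146710800583680349065090698342223635881059133520690926916639613462293794977941626952080317946805293771478115622966216026487036356612216776064177922944372957073595865072190488776490628226480256840292675504994402750220916390546229258977835369904256134438898107705613808350508836775084906892375045924058582866751156693936222671998954727877419674010623214349182502818893316715493200689314590452028030501452682286467692081849832351964698940861065832563310239787805712688576663731234277508490940999465123873203734841739335925517742801714968911582822946655008637757945930549905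022247393606005935366047148338493888295946528086412677648855230630938859610904683217388886263030662597816323292047041253081320732771186506344335138669833656025368389130413158826600308158640097631688767880334366270847578403561536351700097306717554558384835882857856369987374112454740690090509603717057807025848362099920092181744570036986813847314478826620614437940436676956997878585927742860935803722231897852981246413607459688705450701603748281308764539474250396050379650188182483913549208755596275016417216963008982997182102703006537093772844547654742943161621849354208852381863458896965190647759297119130670178740127377641846887740222005285865156801133091653646792760007692891362174769224637027546717176459917393094108068239739038559211016593151353580740379802085552918318833822100362512113402644818014873019294460982239799983424853792182069310884806443949991291726999151679339761705472445941379636243462018432654803759812467620538543488112839941953539790273825375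270362954859780869750263543488899187319164101775545197870994005052631051004490300267659036687886371913992414784494642991949654424673882164994128978075263020742850790039303985199474135224515538269765015509744213173202815400367159380027429191038828533354897029055553112399025512804555761671864693446117600878946530659542599132526799192834798243154444643308614138693859734464783838250164345059170597180270823393626248335762783054600555634615033371502906952836149741038223833671507204465879103175998649385659454382770295011161629620570548870504165798265774256873057131653185340153059242236127809835881014125928807343188193426326855339783612719477392397586627699377959461247978271435584778217178698370824824382544399477994251252488871231995914823154835258570014150157829660251006290896574067476953413858806054252160483328)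

noncomputable def rc1 : Nat := (nat_lit 197812741310145103916496421884979046189966252250296837672610552026912600429835842767908683131990100936850592335200316883559790612793120571687354628954018254621893523097959885794247471390907584300086650167045382334336723377270670323047773415427413897328794510809634232787432690878580115254329623280362387665177958477644813258167959933851860261294333960578341493920869705519635561393782355276876514462440280705307715574408526990004459386301211794375102452346336708243930342266696480496898373283549271130764495868776266773284738233655000761903309432845789858261608242689770591842397808128236903886408266945520805031463418015526114868788626155565903380978750207406735239356631208043335482799148893527599779221595439048406774312299572131290877321586816840186864225792671392946245173524259061737400454580187345133184064609921728853055110494147336519191104376139595465671012840060782282862921244724100166115748182910733915906162418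121870851656750486640700736005222643757137812737526822979752204524538531972994233282376142962058638614592476794780494230513082076809494633726364235093200950921168316756438881808750115868508772291626569705055186012040015036206129157992804069505656433039653022125888666623394441213847367288894967417736896749042164876975687097609884769662223539310390803725608943520649488510507183546454326967894920825698515414243769165677805801968047882138652732440807381706941902072766276406809127508229496808477850537889595152151833784600260388875519050909317117728857754131353517026792642832840066742473860940794661888321867920425892772648469545010701463399902121730233541791132977005488517661402183955475365380544835466436384380698853315517936460181284878330781084070863087252656720400191359118552349354045552475877744907773431604463571092713103443354609588942129900444907173180525124743561950132679663784505412455135135179847200038159972340807158304446570064125224544812965889096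588833688150469756233924773082877226638229582205836442933841361481788869477387965841716966722966309338716087262791279684058492102399884679263506811473871802715678252565829601657919741264296820175863724118247851127940423313301315006628303106644757191739421647940577787707753364916299380717672953206367796467563043055477294468913615960960726235157330888955707455399785756691597671082679187686239205821189050149239099844449289773144519419809986860588766719754225329081361814267922888994876423163751630317791600015639715604156188315248983873207083747774628913422423645784969462913720433775308558231791250179534626656247778417361685961231832318496301244871979086617769704588320048419028318364374897168144116175492912620637451435091028112966346317558153839089688170021412868330251443033451226113995753609828551554978695416474442142860020065195930757012012039066930837029834120543424527750927381877939438411553852845112760717120887967872818312902199360792965718560614925575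277091567345831533594844875116480553700946296673889584115687347424774063673321233525340527077648928393380918018688528788572481150714231709187443780517391831911147856032881019085761634799261028617242898517682583055535455589407550706898934910932235913196125277832801553723755873989342646511008292843285747334355121566697482026460145550820961945563215529459273947182963280853697944927735999487379416639159140698210540542474571288280442465351159066732426084560054915978401569074224501678595468162075182071982542061033620413488372264457876909575265455304276745847095437817963034080573170213107378675209101771552777554727411056420007639856092347679597995392389629347474791596525291044581826204047537455744008120303691875827179249244542432284674898708582836711882330542867257960596475044630466211383174814931486564746384619827480943077539509829432736000999370087429652659425498324576719093659689714062058450336282983257979059515675293201826776080887254065973252544031795079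148328705034958074620156425956972851398490866702668005215246903245648472176534601612176266438954083785026965419023845783652357661034554544903135862581876574658709433577980807594023545535600613330266263609352074319785749559123597460408933413704920595481408747770513286384795894350224795821408322463276359092875836929611034158475001154435827333529734120618284549975238996341412623586577560249189261377110056345053774911037559616371504593231680218320557608456985451744638287076809087045894318247136057652406501511789225380894516396548180058500706060911719073130964827668530681077191208362535148082068585063955140491766187490892554993227953200802233326268726626636076126776470098629966693221914242168562994855143544479269625629423951536547463095759233979370299447888476583215125420854154715592510346265248175280536020557764681593197397541018729075780540954331867402243290277462506814752822631860764385224759171894027368981627523677065485069922257509123562443165669329652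045058297298621871452925299133657401298673410509823387431821447638827605738744419263227885217053421728853066225203273139168658728775367789058673442299410082359237624489004103250383219488076264190400146038784740723702899200721807955074801404700929772486646488164999376947730799270792912037164431499732062655746863684933739547989329506372556300992688404283451608273354669718858685952533688969676433231015186092042817297982365319219115391605289616190724089468024398950534955833404301360129542208481309507044750041403020375991391946159223917192867710341839866715204736159872878360465803688154736106888489215986529961509528504086640982545333990971777507833866995051918786389783559860539433906686720628185794182834534931422688822971378775851235622055044260745480759549791846834402503380324343724516731398079468353816218481446462814174290134877156862224354311502506645790817259430343517885305908589090218726033050549225026854528882599235228439645119622583769347235624800184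728022430222804457422644426808569321832541702508032219087959521048261262373801834826425629382717462186647359380297847260784674929595606694866382371544355427717686114534636673031762231116362622066668409077436069901307222244504787137293841551747933068294982390079807010571514420079390184499871973081973268436632979262161785197552499812101129084165452658350422166792473334112533519390218069541510490465691485993426536236939500073668560633329809908844069460581118089458173994028441917179528560645200602778929198757932520982940549647334366848212157696661796166257814388088993722113632447549237783291854237417121258266323797021989460976579249130735891533040932120175802120657774921846597037999093362497238752454981931864308415007030857664028905552609439949965542309044302180670618493846168995655857900998035988076549052775142272848359855398989559371374483900208744315026774660032154361624164531609496331532817231451444867015426063013331209744397669514643203025359808641491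777357229872146139058563291599179465324413419261347536369796669618897431151426676013510575386097541405986734653422083556861056389234918405648935463009719730314955177379253320598180355641285495057989726677908237265665547410913431271248171319502728337994751254093445019536497010274609813630372362747118783729523175957099971698021589167410971600928238547708750669865993220683151711281428329634429482700152557496454853276838078850067227772630118465590442576037912355939959983144863269323434719912527246425546587501001562270023769347881504461733392789533387378997360070888240862203028698395871853415696434135288671656961661575462038698807159579731600210872072097689857171596993967919273914093836999393211652639853237936790922358927615181063226858372195869437652977092796900671464290041113031254912122206076933818219374097039173475554187104506061674625867128003732905483005852167545254144785681165512133988803302061276891455598492210937583693962275610190559134631599420536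229892895407556321540525048634192017605911263115182320312766266985878628721169143839114728647765638649402580335328735885039434702149176302654652927217421480767580308167410582528072522777943974727683981507125246423483680086483230993880593400860993293675920029030448250250752071411727894066248039674883964805682253430000079877757567864145077710597124703796517578985435507171421811349600980981634528138994077876263765553984738854051213466370081855980655583144001987182783647712869730566142707713731065359627490355163904111865311871947384352110451866523627437305456850444724403973448143961812965450235493790664271615041051027939649762304578419778693589294430788479514730141850468243832747553327625787538971922048806060148687299073726316959189022147895885318852680439294378083040273370829932853199911676114659517711600738916553799617753385764072887282955284449405865838534971270500684408837861987565223075868902363148424397468184643399252740466515123432892250579128282821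504126327177924951992089598063316192298302278879584108893587796273284918116945495970298107398779080544182219748196883281376719341822681174606413760830859305890435151580435512592603918933014184512005474425713921406120508575257882937637187542794542153411212877831638505222607523035852856967656781619615595047543229914981613780158266104394626510378804808392568952771834232435787364661952040870569875804613741698391493165324148789737831667396840274868170997466047767435554331398277107004376254533785882400732834846780988367531845436464891434466169848018143194049658289226469832346618192609486710796573765219923868975777299811660781534995882429375839123647970654909192461347602726759005983956266868713512442008602817795007839750050665591605094368888052487704995526670158171823382392236516002220489403948859749084709215259500666356133964504250822326843180931829722656267662674772109573151660335846710505571031398812943630369800532927839512494968208189392940209494393782828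627075336502893090726986332691125220360925873349424261480637069162918009065149072097673731304123449501209409144684525122736527297565758824660542087875946768228755396732390479642467226608093685592250545720110800495064636569166387044004063103651804640121673763516699156954211980969393973685438964783219958464747497802858426821080322878700726362521195711509164108088291615664534154348212548429983793190799177582177222504412306304064192389380288700183069033546689934349364437753544713316158741772428852699079889743573661850870614846617537764562703566987588616052066884750653624737180916443202300026544200907618016620699307814240848817612786608171470331257726119513919813668646326927012002445292538742160813728700481445068400392568717372396427278733911012991448919571915780184652687969363764256671665511208327480256880167695226158074559202347926857599586887035209497345757749703725266222788186739108937213559863667723173514831645968928506250779104468004901162468051476368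895492069975880499394679356196382211126733799499167108086385271157280394506201865046510338163557386032712341788607927654184672818751251562317136784023577733271179868278663121007381062005335523627072317363604773395869063257235825273446806738101785450356039578303307400526591156535285156484355203804520431239855325017403244959714245035930008494995624209821012244188967729870923176290321406968662680573588633006045926122193126946310183041173121046289247138604725006569830834470060660761885282599315826495646257999022549204755584333977495837824709966434552310788337344455848506113521264312443128286521339116583213254374198057244619770718271441985733184797862004933097814031191776638137732705215965931792442570995272939603275108772381297251884936310660668961114991847791850402103703044051643705974940140023294820132533069376927191727945979831568495806676447244741057647986899041592481743114465506911654473299107550738163402529164294018960119665229701360659914842972686094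433266131079336199340732045621953943360049879004822309456573127065045518420981834888518890676093560818116759774743315671715243193127455708929955495893009331326419758949543257695205354706883969050664386156151597158542601304083892518420351068218929722492608352247341943424218284859785106214197972332135393841754664365633617294134105659734789052201961775460202049549394180280792957898790304412481496001006823544702708732001750147742405640576317201534575642058105587564911870292108233284467563000567457980955960919094236241725400908588206526492786037081832605118200784379104105955754930179864679331371413063956165493183231404932797970403288099298624041637540321959918636501360802489899453569573295806876273552176082150254322661276304606132817732894123243760897054564880028284753545850606449893313109328492661529463496609972543582011592453628558775825723366331805249127303134221525308291593902719170518472427356191730821271597135738005226479542413595824697761113667560720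790670731509566995081889975131084770228735161138643262998635592153761741795920943235163416079749763830955866198214743994602093160995522493817443295045696737688538428513234216757751776853479987862703576356380209989973670748042497891842214963352490566226017278830025373967742817959982898325217195441542353758761442824359046393513959518470709814943180103346917533853595820847747116650176341078217881327202654364230847182865110378312553845342992115874372794466374595130670114189654992210550514465405860356536866351103043853773035508266760847205880376772113884398211990008606139876130832015820657432226465914747712667282024813138400851066298695324108874622336498533074756163062704151659635506676687194608026038799973259530701447047071173332979010358285986073254537336470936604520706423463661371004785986621736764379617129788416794489637577186727537555273243618566865836922034027474678575377578323605676061517146540357892776970989939705182687124250568013273948986997783380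390933387972634177075575489840643929318136284192861177112792144610832661027978635139415385252019189010193385628935747485899608763263519163108300433951828645942934988976040460855248262781189279607837307131775375319303324191438872644725483657068786041976282513117387883268948876252858359977693814545613669920021923931519577526610553922537862746873526180428308960715394042444238496582988615916015895447699576873923142684958900862614652057686287303533754623401987071980576370815085993772597654246788755836439487238116331362991478108945470194179810155984885015505064130094011952843495470974243862205590091498973810427023499080387712329826507036385515346612526015093368245067648219017307964934818795920848199135681655107534520231405746760588536504096661314799255514089134542388895999291310758672169779201601343538274655611188434816892081480320002657643330546223276294340679204134440495963716843601221860943132417816331166128477795826242197030381406329061198969603360214242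193183218673863510149154054680328331296061193213465770642563491143388547920133596240579275025733197723228993518921247610450537915022608306472790714237847779082557589236772459507797707981912857370609193480594698452687794797375049386023535823261931906128892508577614616047071913504722168551960342393084011842062214984336488362717358033522780997193759673451672983372912476880871610413157326016596466622347952207033041529575801706977481744857812141713636422257287311410096804367368188198837260466193003923119313677667331781347355953536365558980973754702554175321605792097526823774684121465633952885992547604736969055381870668531344420256288300148497464290070502933229652606225625208127035604686133841489065999594658772235120619444204781971121606372939155309243240677165781591238343657372798594477458110935106824539907158539549085658215843516753251762784276349308996552640138268801697501021244577813969112640490439955128043072672247459745709418071796962532173760370288373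732334080016079304041810501122771881772149464553690644389022890592734655315495203472143569666622198838347168901642283215500487500205261081234912514812817049777239601217518232842851326872869180951803939654558732779925706649367085856981764168388063562582212179658207217523371746707765254425172603412161607700865562147682862526717784541162788798421681539312140846318906620918247952625613826093133959720849429381310676182540090852868670290858890663366252522582060908081150867237476179785431902432934033055018425968669257010224158942277095214098839802467348720967903621492471754917504547679283410011035170960775457155060755763291081325375253390075362312227503128931513342474671663168371902430239176573051890886906800033627404575025474771203188691742977562451057231500691892142858959610629384949072264224193040538688401063206165903704645748132084626459065710680333796380362162921642264938038094981847854280127944969583204292303809257801688910701891813662859930856411768845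616547509007078872430443770054160056080666487470854584115481803107266319747853517171275919333763165453003507796013514653599844384513066713418269882900224803841189174131879557666745290722926512843395960384948694708362346964967641087887781205839524045462767503715797346352662078278598220709312269224365020092596864725134013339754606139602595340987309798802431154700977043602735316768535030191781792561343424036032778923806266974977170372209238739853447518874701991909222820273049635973402615778063946523438245181595238212901133935825562046567752888928380012288520298485115452518317869067962588937567416462602398623171055178168565518716116167329445299343301064194654525694158927673976679214933520754080594773651372298376182196791533565554250641358911409374905371798050568697125831853156796507362184344831802969790947062101840208538261861545334028716103555986745597792590578257623418040079874139170679029717191148000851366542857549144489617900831267038073817130376218979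780460441026717784173204051855601651867861544127256243760599370525122609880572875956924152684782531142570291176214668051671689945872413110785610669442387989122322799043778904667874854423229231991258134018583058379825272441705709577328998320252930513637466004031465997265387549613634520962299544002691341046863605939570560330339392279873066100922468495719114006284658438265817429224950052640412032822449203804535809770483225543360113061734870069993034784511632865307257877785487330593764894480925563467596977268763338592793929993039335699187492618071709071829952299816499062421864374202604199052767772240070221800063345996917124589537030338625910296786529384551005159097001759487951084911163491019968029834164018672593112217517328603847538958564940851373238782673178075951581193409223532980068305348055273756598206464)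

noncomputable def rc2 : Nat := (nat_lit 198390066284563746929411591644227773775709242528237111609271566353315520203603328551059341413267529937923440674743524490540702301707268710036855766207419720441999474712518225398310652386494337781115957538240944246859776777717828912600732984798030751136928157347823854154557119307896650641037338780040383983652138641655812375053522186034853176846752232979398492343694115055328142085097575644723230047637111549980284037284358215149252931247475962345921823180235370814168420433045666003212724525336038939290151165543219282220724509730090058019735858892262707049325856322660153065400475204486679381971313704563701914110967890415629132505024138316603522189948835882570437158100248622282169636941516897117703757958234885982242463764728172035247378389057209481371892434160270867457172684508399008887780994560823007619497235865452930863857714586800733910006725149976695221969460568439781526312451556194113052904367888757183295482873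249964158550572885997574152633401239333468509447093413274521253328212970488815587233629234812845638667836927606881117912406584879240583062174976299975487222051539111053215467354182810336626055644147596336871424418767448256826384568007538569242172452272408053630508358925859068344441121440574877161138953550456411373834550551204627886963498987526962385919172449332952763615725182887143994491989641446075293475030710444446125804385396695493062196607802941122680957014204434565326106162267210737163303689774782611186547870562784627620187747901224353869350860060177160306569858814656523276350169851401057787517432370493929118040216890297352515508465484267425821665941140040292485267515466233415011894939663517019386385174861502598651956085255954284668829379066527818492014028977018104864884100690261762728881238299903010104352789874589375759362356595456469452485866821018492704747853735004654945365442300101496956698078157729948092501277096144105534755422256912999314800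528683285914825795193603344192295865718237727890376405706778507866887028222073455737971963951470944511062490966141838406168506535896115555987420523782264430265099439603395958611596379596326579617261941803786555791821956436469078330843919883225594823022509744739238933492012591034238498597373758880856644207591156826157474976229823137201758103239502856223347008475538597971256565158945492882955970430190123851214352718865370080282685205339141873200269014480888870993333202575762048076920397073712129111522396389385619269509784781698698326071984104743213315860502279651946799087764649692088082029734294614655642091958866352318512344378171577032103869878591528181007033453416884115985846240573010403826254887642742400979141399215575559172682768609552860137351487893394488233683503715678739236204012493497913065442934411504081232956917468263141579793802436563965916753232653735004226832947993502053468884210771045466215435582329710317093386146378415576528532858697079445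134284514964236260974661516854235374749130191081559033613295599955669080644270721949414539271030230321366942961780257656144117348383004811336455536564654547860163447730876920512168639714589732982186453666015030285811008352942147577524313684172266299510819028545991579353645756484896804146262523780460879217077213652902359127130489262506087423204887458378363177132761925540369458126847896004752933177418010731774798706034067338249472829094293649885277472468088269398700471964097144009719903364044082056499651835579339755287567038255343491689297433214520041568503733025266643884836271101243341362001664568198527770327661220403697342480742336269845815755422088465714457498055183842535410558023474731426347893400029460208945227830125141575857368406155737664082984444077300348790844888282129250231296914206069128045322309875803262926425277864605837335091397471627374734803687681294872570828049812644525266273316878124445868345530412930704955526469290619972538017232677548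740484558590451777712082282341807183156513861005892657116851576802680724833665280428726460730123981031632971029396200289855588239232519571488744503179289367963913478961590996282165497406077879062386653924348404889100144045822415012844986978080789993195393852818251119467519402982235051937630125705785449598069614549539680765458944513380573194364779132643716993433220541522510252537262963522693760613704395132131139594899348434906798793562830621056514346122454987406756546788514244033117074329990577361602426252837118656179261356728655085754530013221064400578926757467256506897964398902244949804556757171438977522634178662134985637430675203636181355246320185362718283575691204153442130033651906609611266571553736105620801118996251958138893404244478857661911826372134895275046348616541293770914256284813918657543601683132667150639624121305959875493079833752535824282319490117505896914437448253138289266009907451907207006683898965280580261566573239924779879735486060721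612991083497666782958185479555883540698945343627930815633854406655746169923241973774607075982275429904458071442213584649009783391551030077661095778724435273457420880555075306782074852919173109884327789862045951149250086472354936583285450295983917296554055325815813095690281149076013676574989931486225630916431853430236612719076051588176873026348716526067137738012867483302167712307898089782326933051571124629826915169803928270723072149414342595017077878340215493025907877434355625896192709211042748147110252872613425113866868212140199514460196604680012688075061179486210001158598715772109390817277513647461914411194320223381769493969538160042186041849943153745482977258436836256506543726970244808393487885153949176984521084806297143122355825393646015229995236388030052874137132859078257321823707898543988400304060956770110264476355819755516300146801818487876655362540339175211124575330712333505159961302450360020509553443526268357268599630764498586438043434143965327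030898054216726868258260346795950780501349144702379561978994615907135155027552835019628739325688784742404680760692787346724789603863399919662292873023179116231751290072179909658772968523792204389538185330072414281534337971669679208604850067416336220305687205806812679879377498845278217038352523071980036338579162765372403278207360775213319592457375476433915118538897911323681667824033028486731618858832344857421434810939984371031051359967357563183106858441842340924752856523428545666942446786891136267306043017422773667497053452847023083124034233201931337853573738810347325891562302535579017167859212375465161533127929839194805444448786459162423389474167496741378455747884177988120147248082695552085269708414042236701217042397750854177571016948040949796714534593365066220634124166407954108135514922947646476800373395251424261971303306411883749092435903383175428986190945431790856825375943780925326324717216987655662290504613605242500204280746056018703099391775521021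146740922764275890785063914882317646451856172079857839646240691773410543861230595802515651454901730311553837189562534908460525927391085926050455937729112593993994445969356013675768108139657153702744103981692341116978953351800645138346855565401462260693951550272190303562457025493575676726428868262228034206641272248809417217616078694784048830162370984338267942997777646255761244928688176075036900504602528168850220327395283406539109172389241607861610011693580136316438641811204748276254486219842250097940258606705761433200676109943823204777724877414221623556210129265590066937878359582538385968150495847502565880488038444346908965574410370007223334415718521577550582413637123210132396984685641754118534771173240405484424953014370927343104582221671678194462929463469548613061385099311708918574017512657672502565955008043205028385469725315620749374228621121793812038271476223396929805387570994106929168343944491027313784948662632184909739821697412732364430912381857641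135201658982618912517134340892201251218374128726577170320618533471299518771078538728127609000288261727332018593283109629711770701607802726172406428782341276564824850075274307390566000447386874392215520385891338279891541002373231330156752180612501438371577994634683090515464317241462793470351936370380207283259441500921114145572941078765112362950511558028272096165264543777546673120151125473966508136520333882270902292523524616632007920445881750956161374201926024425872023173054257486836794570335433582185198509235105050806238120729509630879645751365021053105785061883663056309439589799261177402107045276235846115418059298561841579281147106575224506092310900547380172703686775718885769720701304749763048168498904073739528456387677920530900975949208638396353615130308626903774857290167335098222493254763440344203983218090733430379219800540353753813000557374660539576781615448440594403156542667826232393622267494243308830638439393792694509744938048677683109921333076596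524210183758248171777909664986725010501360904611220813966677823360678457003925601695022872225309556960097391909687344990023472509691008929345433383702101591062568771313665818628123430282477201809128144328038438145638732430060701598138096722069602550840926910820229303230579074400455010306522670677390848596187436218385396963821391719203846159172924199290437796264279586580405386231376744927760430622210648883928476752120418145397654498077600002363495320772194302901047019965114196520981828415097813854357265436201705231335419067485203251939868546586388483973164482525820822965042700277901404504551736169137150699348600675046545548996699650447144245279151766295519306745901195265407306773687006317676986517808924408742927847365916103360633166058767685276552526763504255375151610928156085215092231575579725576456269504770021471888350277696570751801202199348939290542622274444291125710889304626201574096161344422366458485179395196637886667860941244009002149773007731105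577403979310623556718684608856339113822326824432550044861185058985650993245515805090657270013436383302915522561235492666673500893385567074657117699930639104657296700524974470668173740279196230721486522492568264526545876311373887838540713830656564302253414184541156521894981993483381763398077638563262791053146101913324096835153194147844466536352429129451347102873976812505691264503292452655728530615562953945645550271684466565887299871126991638017746125632379414154522326710110680827203932255731120929437332907198066437724121569444905814649300694680315284478017202615723072285403279133731676570615834308020974122973529436991455507453231235394853355618778681147643511392227603711730884959077988253195150737429236073855251893268567935451003205972766132811087524079402603748941616387974750254508097945498908850118599843516872271335873416144471305565490248463711273565171869288185228861644950585778432517559688188400749926524041038704166257971186410567981266438169313619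632469032990537284750877298968253244937178439029479532134423396372004771983946492775288021084032953732269419920431474607719558650846316289490875965457975440540631703548304320441756060415138175479417874929342270029313229333971818919208775617390590877208993282746010810121396996856106498546013744829592898512647910342991882345576120623490242900195400362542708733958031108549329629173151012194153985885136146167023996149567276363936907188160249637443752827981738367881146901489529785066825928947892944121048711711941786497603302411640268534602081360728661794755628605500528498684667155309288271335703478672792241358486752290750032952201907200957170591719190629189198927785113084723039396151876201610751967698281929905127839141946206374959167006009114112003433311292034402931074536514789433484610378669479197281837103975116658144392598589128777802780713394114324916185828564530870694784740721731253295809414618152017905892591591622602371665563910739189790404533145545631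776032090585277894910484695418323759032982294161774629983964073278096075012863617843828180418284637640838439048458911183042587637728163663323928814427540613139513377515243022779128041564059849117941373405469548784346047707157593972074485419026303843519825182462793267884961483662495341368447564887139124447467694408725565115502742258608064241133957811225560113418979865652946283188774569163409737193222631611336422133630894895246896789585509421454753225553169207118068555224820128033648449708089309036015030202975929528894615908301253257288787682828490670548620337609403217073389434588158870527084746932292919629246045850038595624556343747957064967750570079987444534899552421966455574517965133769679150986941937283639170201911720511757005923652671843249251122131954208835046101213523005998226350434237800298407684390651384712858462035776826106510345687921477911945197764314132410809032689852711360337283545339699794881858386635406114289399316469701019494822776318578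390032529157586021124160088321810221537999837025059691683247183497200086900266700068255981051489618396964882681544539005537324472012821458445969642317415377912725354931749880828644744977854614699385482349283162255338115673251627453777770510255056684048446749334592128302136931286027631610337989577390902767876622060335324891561870513295669223684978727152599200423105991997176785979592778508399529549923930561067070466066379865504728129543219867457156829708039955197123180169605652345344278239802258264315736181185122315052163449223798110319123167058758967860408887822328383845902478316893986171808599947063153740404137338447621632338529946121513797100211942349245998680871959608809455461634180379965195270594088956623809922663454779433811599203755407979872535050835360431501303423963912173824822875458657438520203692115776474204411185580524934091201382345501436917538513062280358311938517760616115796909197364157612375958297936386926585971471490909274418379047876319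567555656495116633579132901286267623144953059127049776745292470106833390050733500389054102270075618439273320949831810312900398686040548251435702687509618334332108873492598641755156663728309312410889390694433806565107322074302010096213452470429026306765322703077280044748291154616780054806794241840869908818314386626017473717978240627290769657191871670183887830676040343397426859595488910324686938714006841970019382780218858524735709259710381117150886807142765370544428602319055477522321549219506551960117662519963004145088184910759003947386477097368553818497508181502238383743343347786540033206140767194880564131397635191850724606641426678105395660661936449117509488877754360673758051003838731843649967171560217253739236881541731952094880434648460523090836391177943801837244937313442030582021776064413931671294129314507214438497052850745777798944208289467909294195149538772971682980375232286159901944644746847608776971523874005368151307497785269481998156485087515851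160470224298912224230619155344222458756335622685050981258120985740936817083855814893521922832529388376429660874898620549619277804665143139026836291165085533716893897557160691895650159454101155209335992388101081195082168612930915072699212348181392635883344844285485729690499479300946872477905838867065272884032362561303508494449081064025641262338101700636691728800929450343753842958825011819310115778704432333719113740449978032681528570534411107251219403710796206089000400599784946585310771940485962773378300433387673171461151831073799761348088264896097117260824516616553601138435166017537106662090981255677807902532936002658977835783022133775241544264366215518769670122104019293399901844915740734245292889760226409736069608180593707379635700260272872441630739936391607707998900416536624265741206617290677972596523126462247381980826257236064292336652388181703343539447858796847135792370915938676005130266117767943233287975953520405383095831408365150273675070062773800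722984706438350184642087460018587389048135754397487563671777306860014469342976826281508768980932256851292643737703385239908477556721676664620167722703699891715276176207969975690162664727448302930263549535516931436786635536101735591262095612696333689218350466867697667657472276052445266522092784276944892647770005038106707962088329500849742336261290819781155679988313209139607476740404101162002537345750843931261802388865456688670464189422143319552121589557132846119870984511932237238531066565762252801240575685204795023737651472959570609152042382298034522652094802017433708219445367409156236040916706941157032525566515433521402406783312931829717770478015431165068279546729534318692714848213088191564888307267673362817679935710499150903945862039729429760150803473138446303819060607009097851139859935839474542566563587808275286331996780242562494251041646688815579229928118418326278647340001939052576402712826279944857705185223375006434263997959507099058865720694936056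584393388471781958195970646392240201832979955058477145626215146080877006781177004807048799951453030728465526988233164701688425996405688820775851960842759315058539709815148709306431702505272165615226293286732502654482533993082969237601548494860998085344752394336246128544820181984584312621057835954303271574316875578441136742595568560725403633423859784912107978034793339692993596687648962121262443763672567623368984760873332500149814275111070524402335657442856213196075665987629604482178588752249147601362777549955689330436701533468649666588544153169494721273084523545857970666456901055199723580164194409981991021881386732445751088599618224787607685161302429851765286562198085814072364471706863186013309409390415000515473946479950437831367046531588847778152622702319024470542769946127684126393045466325680828886488812305545519727521555378625193301243444669828937421691406068354784397124797446284813857633732815350184046076020213681105015917083548169542310447023923762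540320972001679281215693880373729711658603748230924277747470818007387014281282296923676441273811258894133444919799073622814360675486854489853815229512937704401782591386935130269343432737635151450864112728647657704947041626332261793092338705976482780772210184016373451084317486438184760492385506989339421244818652218488862363754896291704120785164100054048329645112129081344927730946414641911517326370123350329004026756748505213057748437909178140544134024925563064009369721358899591496896777862027055289763328120455684512118705785550911932625632130779029712498788833675964928390393932225931693522562763999251041533980696978837235847357577491104114678860316453854832323764742124589696030296208186035520018992299559982420741875854780604222132822080983343787343864234061278974092179809586342156715316427543299917342572544)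

noncomputable def rc3 : Nat := (nat_lit 198968431604482566492547646220919475592398970560214418135168929636666369565772653054217258025302668735587872495556793553844670210469428436189030475258066801290135432138492565463365631024766182266333363166676947771540532805405600530233609055313856804523545778734917218502174309412781967317601680430401680711637193554386040031765550380923972378577860787681754083787536016655032158795211250815268511066602034782212029075046837573959956364205006240426429544153211635146272322966358808272603263424692927193158514547843480410115955760016618785906025223026884659843948017621729411806362152912695411781490616826230195748880933418519413421186770213560740692168562355105572052583859813383331515534050532887597205165897717715312318395141743311274960806540149927863242248194394570357593414752724122349449190972746798875199087433945678481860094245999380824632710777904026804452447352714477922068429254676050116104208808099038198362951859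126601691580552436887438343282551139930694441393498182992661629426920140092206308931531553699078451463712571981626859282155396223043579263574649990731278852411655786758423679571556499673561685737094788807147253689190850088021949312796023619762161320591353099043683644993020549815721567252465650301958618615010749426947567952047610539819668198833976617307611392904531517690570524824150795063977379502549356504547931088660616993319798747451876601026129412696914740679255579278776519113036545074896481286427197203155638916765754189537432661627593164760293921250076171212174411077031311829390490290740140132516008461140183726412386458161411389338466347664226606955591479073271358090471137196086100953691765612282873193255439833993286776876021503639386681076062281196881709530838170918867902231332406059474364594706354092486673288190481959521217766992202834324044874430151569250552945721797578191741600419738052230538672152963134767073582460336085075903071965166197764525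758933736145509142530490419468401642533584806189376625822813704698719127533082870972688757199469777923902023526101222747394128994997081981198931938790642405580014987578927262081986551192654262465380347870548208026937978748567631460842645940093592628929397215813568547088805456221843836506454702638597978806383212841491094683589571396862604230397448179502994621887287769533898848641682889844126451274343042281175035470164281401139594470585277857266677426433996503400993899124866275230408803049315699554708039758851951074543361915072831477283230064072941266316170842696085481024079816678592682059005738898731252239910648757181632603947196996940591488185500201592939331755394487021950260725129888773937848358018337911293503211889168105410652154388754054580803962685105669853026569853081081603273970606689263879465941913950847838209253426921361539730391987329814989103651932312777340937411495536641848131923210292618438118912249020520072351353721735369014246534602873059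212458375382032131055257695025974202572118967185413535668338278295517565797514202899744918368904664230788615934715498391175324095532241699901107405173794704674297636446822542417347125675294751886888916605444798655490993682863918148018465347579502145285566984816008735527234984821988123655300781791105295465285116937962126226120824330080579393331359698089268402427376837958112346720659475214946683932003519765318333397940382010156300440712979064704292614802902843513301601400079780066528465497281291256355824610373967665623804563081270975743217117828619313049439999191510203522838951627910074458348550712386370117912057892794745169273875397399338493927983232970606043386915146994347587161942241051241268442604502533415465906715896070448016723057407692367063116235063487409036854763910311438098785539669683010231233451156124265722066392730751642580821131905244019554762762856832869274853864067711994797972779457820121237977864521210218309355308318220113136852193663666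115051774737081595835385371259209982811544127370044450217899856148982834580111388690611627421602162635505309677363460872124167712404153659996389388348645440219428332865269328437191337171070640199212629494645234218153355886116490035862482505236552968841922786350880544589242204327650671355834989599424484929601624535772642406557956998011258480522658002972285288391611241227015245610824232506295682670129246696365541814360093288066894157860821121293048162275207352342969147812773554440489543905090257666889187087169512852296651594186246656210850978136857904052613602310223705378562125689958899308499451586303924028753003374850075274727834485388340417826557330834865369246591292460831524906290330665027978871849241188144832499079930636366392815254850655349735057606695708790542947371110536255401164782101732037414810367745463032527077057191098266836639988232775516348147697567945027003466313018925668215163190847423541018270438646256637848783147912899799873699097102256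827662318266137436672289402844666206149441824713119186849552639630956574527340002266473736594301149335178528000121686598584816717584703084572613328911313397077116418636008542419318720322971462104122945814250807645731553220772667997078304486777162960117114998396009247233010232868861849018692084881580316050209169363323051366718927641725578260456818118912163771000624489320349119638359548598606102033038095378520845783593690184196658480955408571758227410808026561368015128925449193792635582580882448628449213544129810897365610379562385266032179096146656380047241833692097056030716984776343398008428320626846161579838821643888052754196975676590089235168850175172824440673166468781932201587852005205588472460195227118960029297578262259963917130503442518601644421543400542422995790948495980871736759236552886508131337331529683531736650941716436848413242994330696948747649689816218887920855431313776408728536121384713550317710377626432423122710793147142112882167214362368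348432185090395458327342567234221739318580396199653694281596270758462094682731165372980622210953958474117198861036018316561487625503741252320981720173299113118146731643322247863705034304944262099481800830617066366169758666270401678157417835321747643166547333463984988375803698780960726800033329760589706891071520706152386007459568182867565249482963396951229594440796402268858764485102178090299607570470841505850450927685028948022460845766610620291531631347217341353754246529812047295309507044129562312897574211488381485036088747549695601126362355245581726109963033363959450068542997341164369445871270354959941136493104886591135957772414759602342078568677350140517996216141078387042073419412737751806356985832180631478929999772969251867775656136843340653764670082945717524439699806998547789532823205713877977656067925681196252429602125340529668014930802133168956630852373853709354223497950128494626724337939924066374223276719107270185061433958134434199357551476156826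469701377258011201142750980740698838205116112085657275774012169433053195245571205604809256264186172558216056961703160588214083564465278864453689130771410376248937801415177241736369389384135411553813068570146889575542266251836362113440531268424484618062409222194746665433865270689357080238338572081147328790560063116147350880915861240996169883703206912243745969092503904290069706997038264428529178006944234474940869054260143010597343825381141834384063920401293067709952664809643665656875800332724814850388480858116564011949995096760793810917989288382110011011038665960286652500218895113374595123519226359080768484555346315404921759528481833284593058840579535763100347251775213650441204475067031195084513964909526055170249217250556313801717587599771438738979832746343785917708012012188677484782773058973590016218011295979294025044826711700376161920880589783177319292608786001189149482645232109113361904500144788447119828460684564960742765720211980006343709537987363951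279809006249942949925131138006428531681430846437240554954890924271073959571449486511217492397317466012407244507896005199751765161566565228886599122428598919800243296267190286475946947040733203241249346600539640589555506565074047369185996117567850929741860301385399939820289471596105616931941435265109311589502983236413171218311833323724727710673189436417238611045154558479692483398725345928913193843717413961507720270617563279492123876780783500807753950562762166645012602921327011500952499729861438505981986432820889503707614923389874423448537221600150727445970944128049386694094953402759829052672878173044320198854045609281334700159603274332544415893288470750147912935800279231102295715996782147467221774153144836023509234302064028367352135301277855000383355888698515723600008530603121848250560964220210541986112247417558192980619034502801960340642867669225303668743935976813357611452813857139140117705669820106189535353117750345810040106079983661272256193785293123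590069383593114874939517724474640528334017056947295650733734484234044929181036040383060181449601163643293532167835384666584014089488766267542481159042895412369141813479166622808135672174685215333103897207059306223399383046195028513171660076393255994749908383984813824959442005677636167108288670234855054638415155719547719449285851909364294049724114071400077869918689681344127764880517353139657386490115521703833730133964809974831516837037440140088627924203175327452010562217823377106585855353849798550030500776264494362180800719026375504326747702028604407874153228633668842806605685359323998237461467168342561744646296918236298984655243256980017168971355610883040209494022808253367237164329075737015737576690273214550409350359741578342942677559483879876511218199616966952198823323185909349460958520755128009580990360268438653059897937256142171251134993665333479931768078014690279881482298267736176275001778373040701562668721466015403224885605282798281871233178294343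214763626090232687641883753022344386042043762199623475480679332196646536763197064454719358172588207247764467951647552307883633753923837501793545091912151146548707930745265913309040793235812968692446274188186328632937942248359610965651931178330365217303465655877951496467555401190119458914749374700418381038464995718850253193111684508465717925933775931343527064520961295873773858274099026914595543827257305085356834116622344879820133433283753852446922730009509198831631005677183507241846930513243571846951100835444791506166191208210285254115929347638066235531920727233864099999611101266773029706847219054686558654415356669225066336997496197115219976395050948612446612494305299567857880023790951549093761201590737759241001286133272450642549130010063509520269316741361673254912073589475702239760194486368724949588677723100263503253446255825720507003804899913818899802036826901018191328913862285592898812656869759167203812836702640628959301909582709771065537012387846167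962895852283304399876730948181058169921378295594047162928018961080993453952703548279931483454523194713236608465235080557889275566948045951739667429757137296758183451164890332983923481500327644366614450669382267555548302158610008555074761575302676181805507258680323966301064279113795580526870436377197835739659365236528504338597426833260227579270109527476840711154172609838728416659253608177026990331331022086600758943394877625582460813576936230280355742052493327461709512403235704234496223973163933851997170635857768679762184186385052099821314761552914324085695864121126416936852347710666866767390862498003824554023373908167248567028117128027562895462535606662808632527948201700135820531162703552559705157870905423935970286365941341973872814077124511904721791067792890179164019747342759536232631647516950294176647231693372123229601808165473372265209554710491891846617072717065175677902742199661307358576593960896610778054074650114479268323400726714886994746313567811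690571038131584795060979724759054308800756393959655877832888775497902376942556186966544310358669786549321798174908180407812250736833655499022817240715144101355885779333061916284676676458752372326092194871500545045017341420172569660152752183004281939875767096700761715289943496997360618244301978100935437944670987120096930904882457873292944664390074325794152093462600775355931396626603076650620152498947730956153639734966222316409593580997675601895251395750546313914941005204520999019101455649067678633877048854703342852508580775903721153987543918590840683189691338912133436683856328043079921509231594028342206756421278655582892902718821265140124473444074704405615863239727028532425520588159385391299643825957508954698274459740551816199374714410101466756893122484086786729084359870106588280525467329345767412000599833706665137423027811381114565825959816346787334103064929451432128020480951691152238185525774418475815896089686598248372386026176707626574895409992855656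737093917404512417829583688836477923264943284759171159209120788308466473976330661528288250611058811717269682470558062068114127353839345974197185506304051558386182322703528190791739944230031694200573884702110663479939062291068723555420159620118514996552805755309578764115208388286239124347156390381806610923335426652885607818841386405713385085938803845116555345646700812560019059778958983154773035867210532635508448945695799566870244368665603053818029349650685262880638763952950389126908139789721777832500266412934690907966064326988045208907744992622254085723069715323588394179693322450259410349901955827262213716572157946299116493446156682378996415070462635178465397174779837935005217706256236521941743835422095001418517701861981615733497461429229289660542192749456237300460469698285728432243762723280055266192372524300654223659874963806195782935468814981301786515384153520448858174541500726053650078053729594217413674331296428032997954019182582968423847038112342486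796619116211256140892526452164730678665928112243937728075040628819772460924361519353918090618378124529491322300856885639120069993261719855019806105248577730400719306406765204458281148997174994610507332541144276139930634410745124796814752053219323028500553784374502564716677248465289248410865136182961843488227674797846887952884800719346769350751354565519315698304559308940986955358036602321286174855365956099189772842436231601682944464406098069366029126387071055578601181206598927573314771417485490086675765323065150025411205595988937333298904370546791664535030974721120110187431937815447254055513892997902662394826325118307376231318970728293475132906853144156446662363266062936746478059089267271130321898341754971497199763927518235085219796756629672150898971575296433176697956045614362784250736539989482503512897188384717528178244403552917239245936194323271986100879148584300668561103478402957276176862212542872088112269029358674912213219516527747276640385875729960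388223439798988661018217049096618313974416591188642733804654547710634115616730113968026602854848755219498294710200480142817123385021576212395005949040568763451317936666776958176831502215868622824110408779761294350359470399212405244589760076114160903215089062554533450658327373223678453883807994997082824315999516671194413666196018241063218818339280838957686552568424778332165405667933364402136283675636088390589863748038648837758907629151621257922308005211118591010139255246664090493707717308424481507834394322212134125079198856078192287018356687617318880355591398093052785435892656653728094151490127929411622475780254688534981999235917747987510870776089399557240009489705102229080091110373160322406990916190150454148610877838727671503978790770356943689233782753026889493145703210611603633863521997783115415651580324518752348199977820864914777913272370413866674748266983978928408341229016781297996490376911308120439912458546203679877187450675329908814357011201556254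442141363742991662797143337678299883913173349891640194518912240756482764662135389556290905105849787978755849864994444138352653095906669345413272407670760364919937374859110878213452268687639515911826853409562596397637008942301106889015417770375727440372103690228521985240722341243621173085112903516421169227929218517941380193355630962227065482063038575477157303328339544699021272571248265099201503612106425052839592301805197049688752158323037365596336398058939776820991803714121393784731080762936763757948395154110621318401910438711801689529777300420323200017205310873095837756150343743742413027995517890810737585253986130727934650002906416312332852936458155747992282650034063105971907066664050733296278728300408981784415312698273500844238883101576688650017568498512754223037203230881469666134149811862321079877525319803167909254431997454927987808656330274334336088551354964995158292946987768967676374639859338780740147661237609436000231649274032231474250911847212909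371624480915687639586732239822217816388138189634653483090917485466153084684131784744840343676934369182492099619836422611540095389585968464413243932245847137751585214135867335142161650536684626865198366087307263633055681895963766169798581859585301424172304381149449966408563984799107453679808113638729040217663755063877737159986138088435705798444057057635452184082922672304314327162473493917956759555447688003089317282657573389271815399958621287647322179043876651783571363074180410428991065748210714069958202492046822238060723308526544361951731472828211963380140798868443561792382952926730287504116292055887346464707604152258226573971979263643048466555482979170810163194757113181972992752829163213517362879150899523943406983114320019305140002656592003066272239034771483702888634593190078059085530366027907935041380604650445188353459868675897543441492538430906577643084218908103308249723007244200427824503382723118236450595611050568690794564509131238296924015411014614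227905708968181066594495121919422018692133513792536600342830274835029502178332501337486003899567179002692828029720594027524258133891739194937531721485593186393193772431263458804721864317623629097377548823121959284692854181473923724128056340243987431858322897065547202954692577209875954471959377306170970288520621212225201615721854142381384046655239367817355084542170107103218972345058929580481704716832746404470680704401390539313544658199371549148618142979109168018016834369840206024670562272306476568393171283321628368373379350481571434359137739988093487025815170944833975821722456474848094690538061869936920903908110976147035157966130473958313571087871569422223899885007825237838577163346656146592655010724606485252900152140382262457280791169512063890014219276057232371012810947586346920351302885030386248091435008)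

noncomputable def rc4 : Nat := (nat_lit 199542827205754487965958054091996005864120118370334319355235185648215593128425050464589704614110508236243991633655625920457969526146721635888732500960973518362850339114168729842340733344341799262876499579683439858446086330376386038880570499523432751717106930861017977743408155309493219300806756384906985192176925411148318830032513896163931298676217603223213420841251541284439342572665486918079916324209186941856169531245691111437405483061429687489261685944763549430790319677046818965710871918033492780317546581457736367362378116784230743217463310800511449333098097607600277982232434377153626865712794712341867814288542397223622083852395882378014072528147528583850109675987808670041435233978914183920813172635130026143082687128124104215815991270855184278807340374693593319502953029296987037192578566997840122947830049950725210487009668653691850340982769749241658400865249685877964859245762091937522476144451425298967686233780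197895695327396634499667204884598094412040097933680896057328924485839633619196483940726870708721432152704487492885005083028260990783286887360135178005690565068798171267724656973433875126885328332353938428959550413169745726150572465575824489755702327376107971196220764281222790085142766459999178105784403138212286465522347946545755622072042418185448913651078085732688671513136392322000939046204126319031747098951969092477121725261296345661228163479844341339353680225302999209855331107198364984059755541216241325962563593361416121738013425511565021630411279345249959059168361633581040152811625405572264950556052425604191494641162674020607243756129559266568425351459757513982018823015081341788314908668771735746679283193844709020292031758497144173727323357893828233520629483323239675631526944135610686362745254496451170912289658024542299389320860924946715302116906488198461617956238663982368761738512324366277807120192868057907697745602957866731854345794537547419984358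797108179816371091655567350608892786214333406621635597598399903669250026459200308207839379296540102474072637904681692658383592295003842722844725088502279892542643411549676769988551858996643535669309384316837684170427280640859210876669945131983883237073590125119083286490499485568645095695538884058335187617894757737456894767040039608459881689004557599722900118505928229624544532334842783115768270490217380167949288639415739503900363627651290770938094303412239359024781669437181546951659516394375589585064528202127463138954081958894612206268238474335500834603360013102539347829894682509772162162056663251063251188125747851243691424355268361607508512599706324737692344130273956816026863096984083846840099587245911781229130254550430948615119339365623869584880594053846992831494077575711898423594726477752955305454931337737933611326728399460243603959336114679431954254586082532830657268235579883126662786578067314823356088241692479102891457670926448720451866854708963352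703938170211600848005627039364410387904456293713970359253981731064104667983318715935214267328120286338601931296557973964487731506201260556338028075167863597042827739803603562867514612871075940792079085495388743805479024749221135161950562993634353685521947555259334719076779662559607354841130998666371507689601571075741481432156696712775499426790463012738831637009458529707594955875362308777776248484791504759360760650120476787370914384549521504794137201889919835778191366762133551264357197166180459472240394119414800949142890943345134913488152883456487413308315324187923394849338362727868442916871735392328621984697876035774736951572711558072271635258363651203655522072922170659374048721500656304170179624972880445330345986048681187356251138038473179630160243374466661771956157343942001202192642720170999567021387386129903730948836996569758948303806376224851682599028564194704575566514943692362447429031976215437349593786970872012240455166964292502473449125639252243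356113217225527577182558768997849543780796432063124976010825049016020496672186060060388084007715447595347439800555027404552711798187720891570377358444024233635275379982440169673040374962029490880429850919378960727404651722903625810085225265200730702289315801660526726162545786681393728028993323821478220313943722369089836079141579074754458547180493847584741525454375086403596469030000039248378635471078783606000440650396926697788603497775841357887616553733223283925607840142253414657364815015707381910443752243949453269875635404798851428381242420915673730662459528582899315281130326929468841637780816757862840508733865582626338105334953026310574495473647180356598376550438792740814949355112066694307182378032703703953775891760332815452407936533987354005938485092665978165156374756402280905753302874746283744536150405630783722716258055638497064076131452771533319617242338661147265204395335135147193239704489528868400404354843156635034479788933273731057714896079333166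471319681906980532736182627334806119696527135291142658830953274388554337833566493533756939066520079559912054054756967644113758444844625423373643421777035611839108218595635363916963040635201229140697044361374359879506623748328398063860003698105977061881834932967707251822175138285762974283897094275021833641551303034996423253776695362812873771786686169016647281897646211561947237350636560279276439064311785284415955434731398573879767793537993029016073619779733363310010893074809955340884058826403623283674486431914296165360455460572632491412953307404393932705477248707340676163474931087260535401759148427348611961610130663172769923986117368814031871201811710362759370466864042579885987356708665621318398227533298894185334855896837070213343455129389576832618952627291885693416451321831109995374924522086671914210110730884620868269568786264976199624225882265335962280377975964177854347733482057084535707362587424172162546918943582203603270202738856531272844481779220106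845576020191704805794833882728278869071103486239974697874288925050192333779789653729042049883557258563538503528368158207603762200246395882422735138974351257888515484583764543130484662949453900000919811010095562185367403540709063862547196114803328824119936774611712611784727069581324883238497059190292693956640941691409318018757034981611697464655596878030159690752123709711359285994411080620980702067434109281167003095999697616825850112623273648437207144756041148397380655400311453497495961525130672458265248712931756618705763652217173343418173550559397956760675884285449020912269023899192824321077386828985807074777321945748976609512285434987268064221983936168688828175842165691635333930270419988930448011555390942301779641826073954600694841638068548388612023892299456000776326884124805543145729522973055324852039129157929129034440902180327427779306432371117139665033892895495613707015271129054966426853793053760774782650753416622515455355688594704655032433482796107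472451125896615712727801119184692172452104873050311619291601724835108088242062162107866597648684991388305736300078536194586597707340840124054451168278445997878538918702559402064489521553471304872237902207103388345086319051925272439097279871041332511567670975643573379638102057364616067586559617687886879935197190851319271375649167890165755400749970749427551709394609237486006480187724806873071050835494929995666185784125740798326328631922613580366222295023431888432939153159723099748603700501406836664686462783780914239861911745662925529752298521794810644991646071528597810241084795379877948867697554978650639177977124761109235017317237728250298793084248944860667452203223884495664241359154134481211690536553548349835499901938961821757397578594736853017547040901297991524543408768388745885675765900589330005602555565112474411588073441913550989871105063769721558121633339282770850888082552106837063061628087860795669921961967337532720828000950845649181709958885676119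568242972088947784459802674861452248403314794701124773630560811618447204813618957908239391252194008327727553733496069090421593113293794064161764082533409678317927188398136905351566719951772126203550140257038850921013266165721273871141543028040736409844559710964732426864317839050358418496437389312020087585400810752604812793142513986175638031534057154195441951730649732324220819364898700460218497935090057150720458108881491429418687800522789444237899044800445587285831060446959991662672730584179732066248810380596722311050803069766891588961314247862812120609592642338875473416508041439846239076434196332374539821201817501132160883955764518615024896759451115103134518613802775768388159529792776841688166368032127647832460623831358749001009420942087211719372490204139965396461423766438440530030856755618162193470332385813858880592680008128797181138205007255359267225872873292737233803335080766819821332908009810537827156534735186343485254387860944784897245518148587430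569157087417702246342381865748968131058238553284107181995705384539294413764089785575910152764166650322948090168046635654534806188780070052313767495786860068243747759357607101815946003046640343677064868165961143060061667184379880583506623953442639101514821257704637467322152544659947147783856556481793363495457831033031350578777225332835636061043837015971924044246324874503768688057050760141836608958765052028581780152493773950631860403083473478203132741939182023482506640205914222265236854066204809279750644430228793066315923550449296048945888181685571082716339405022615105958168599877880368763867668698755959660610211635347522076580640215781576214129565963374561501302509512148156624809663068080676612721069395280020859748211997299835814571913575866413252827027792912949067984612772158187507403975289230008566364590980438445259798092059230250000184457321245349569843045742728006530233292213252747268905603925510841266507963044333700466100047984277015110119820313041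632114059181903376520281476093092262898571919982106584135522275892062210545783704424051378053419166732808348722385926109486557438582362097545343964401681561346112058086744577636793013917345658966186268097092418415221026169158612016678743423637381099971397144678194491233114581735824902798076802540886016923222752120686131531226220710970527060346510540108914345330675825516277106917539748007913552366044059306450453480020193190091616129214018217980393578083697757360245598727008829741718578692412581759780625282308376777676990529620038625509842646448155539834635329706087849046007466352847674170036436544575729959883217549588763481953176065917411751714130447080797445861996525558762995458236259354348833780716273586135045793414672465274350038229051881459758105069192372449249215465536239622491071093012467043808360613770516525168982580146327400429434578685092316211416743918884341178877340115270712241913445928467432158943759864563447361394304164842226221878815665670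664632862364772768173974370710529259960659772100403367736888637695546323851430128371157183477028804751685568765543169495748028528219774089326912342463422452665339311292454934140431044511100256759576996239759837886499655626583373142091053046074571103228776374769594948115480898428535575694807278404403437521022764018937359853294433614859874965554095078078289902573125917477672326010517443158215897938344258338147883328493091689355500173264044955514531368828550153579427904714343466205769884364098504953115881823982862066362450924975175001481953293216539353527553898106399367372214010142677748855079678706717939949241308948478906091811995537013079070450715886251828358697910770802255989554860774082645848677922505336244942707382261162754531281610784425257683778554722869543093150151542927564591331043828047288442906859195049188459785376700208481015165923015526317410966952582251818264717959497438102453946041430378276191283391479373338901872824290423540757349941116886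118632102216638828141480111728606766275707197743445303824260154590931629092644480619631212323629424489064820377673821115544525093206337831651656491483375498514133084163817356833794005041524573032927241007523206948010964366753629086966161956896784952064983839165775225339703282969260437786927114527570123697145822326759912614819072644139825789763942387131233964878048813501104891387330418871356378852528945765059341133416234340229705051063432811167103718124301603036567336308367454746708135715426769176652632656790740536311977641421039694411916198838947693416693921665211659168296927511974759649553945638559680537546173735586716426354502903284666034461317914132583580755895255548634160216547653106880010926559635756643638416268405230028809601637670256878979263959088423943492439701637558597577611018893939565748100731125523256387797219872144083957260983358038745861799409986068104861683729001238329636569680176213752398130385803416364333804885434359788414029330423414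560789630014332532697345149146083127502289875781262607647302718985159109436834632886246228956948342642571226417688789715233426691843454468172428814531349751385701468275802793905543549772276976007833027229698847405619266917724050950128497730592301711573077435856359260187004977627417131284809757065689458923865821146655654361247340437367050400994715611086869351245683195284496501930178275934451582432215016668694046134354948987589439268279812665024249170988320065297777450913239456325868121180585265425061207950971456795905174299607842233256285465106792059555990613711820949363933961820537415386566100649597097406211244787132312633673379926873719796097076839312689391816323039144651943821502542024971391855690651532467073704762609881832512068339802250753661019384194454484882703164819133076867479385496722317066993133954105067612883693539266516764213787553395648240149287520116611437840940388694752167864951654858920558031763334770232356298198641658159732898942698410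113892116542541379626515907079231195432634673680410544208646269609159066088023624387898314884202233729839742821702756831093581176201699771573194448916617482752351855070436898660220255446737799685862864615278889597161688985848850043887468523830648565244215608147196774381912081993661674453397631081298843608512509159228318947899019986434332532454902153712459898169127496980418240807214224736264371368558445859998835966319372467269495046322934178223243188453646726864441004356387891414837139072283527723436596678906806786096519232851149857948148586550474789353970908523484957643285810045559926042799435733633298898419737342036604922111950449949581240639349166788879866722994536300365159502042930732222772442275451498747287450976508441638976078910874063739943047972194901672342147243742844113037610304554557777164940310678093864326990626307953699469126038283823037034647367545722764380543793387074061421225136103267320970250678908840498773719161913931258377507060790116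344367517090909251262587573799739357437611668140461498366597293618889746707929450621783897286159730161130398587179011266477747029028891210467866889384007717156318881800938522863990153439066464684763190877719560336474880197793020926536160015812824347875912901225737402193110644412488080180731059295454703737297846964500364223914526606821424969322837420278630579701603433361288265113055636495673520880825934817428508909879584162353548769164324225705134595504377596827304365056801614232863910849985519945694041364416473975361111762752510799013944420955978669349224551132922992732193374266874543543061704038057778479415002094573930380617061610301576274767267563208546647497354535922694685093281909746567626514971809159775163329308145598900174943982625943221137607853005062751464606516773534168088937057881739912016535468416205102056758543033774504869972137082512537867751099687902712173380458232456801153534136619822113916642415876852781709912975167816380659624037830684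849296727729630854982437378780676101548476274061711826127088437154896296664410733971152148397792080586131459628487542765475707055917437546439573704272475609959297789855091824678212528901810096764508295636371492593653072612730859271674150640383496558718024845537345098925803646856818885781338164457780676334467174539831170135776334056725313029619454897008601463849187004305772581848787014628256660877046339979413857254293440276858700823165053267062195666621215782969199891572673501056701048041039403300797509952537206300055868649330917240378118532280581256349510609803909148757618773973437422539346440954862394798477011254926209871621510381040072741131575846833531261884392155900415004747772822050471901604080127092009155368463328680081873157811766022704939136382945188752861799333228555646344413929902474210879166369720200624723275770840158031986816465831303286130774467311428952673233758750115808276560715196365952738902068146785434113738393158958188958189673032282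897882367152958327082298155179382772984730210707018620337639486417229341631654407240234266941688952477345360510333014646063313408052747700819395234053819611297034149084068273155413612051725932582790779859910032926481408085690844188980970457830126162645055380652575796061320592241030805033462626753769044123862384612048931813745175533003187124393251938618092810534905184107304180132245320793891217218894905432108216087258077278515346039762718765587040742596873980502299876378962260900185480581600102256919615542947850035454737017861293847513443098721434337292295727696340966628929928675060994894437187088832827556423583813846047771804748969785439676318259815472435196337536098415067205978452820749572449846990961078441902917441074406934767024461762658777686934233397376240173913598280653618562953644173766046230078511128965194333206882536997966837752672051148518030054592546807726822170102418245192111790254274854416990035743384662536948264237057254002121575558241931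751469028334317417863703166288973950607338140927952406902963239406063627561788800575472080933392130841140409531601743053743569539288780853600482159187856559900003991976020569899597436097001729216796385024161308585678513026405799412379383528887149412624347606770747271664393645122048339665932161251103519173758509152895501720961172605716201797779674878014063423914156787534856578487183350076589746565332701175311087485979510591868545005782340766827416344995591518464574583228171524378162230711145087011196126031887488489266042191071519030189178779360503767787272936513404447140676180633292779293227443836462772910438518002563088708331899357610631674033404826731225155914973638270970621154631532189633051323022605011625079451018302044363236527216266952897713781941353620262961636347585836744249041088319819237658984448)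

noncomputable def rc5 : Nat := (nat_lit 200113987981189951023931781336763649740818520743060027971723106716530245818501215439376487803984415641294229722009311739411621340073039816538674402454738831399720999769635502948023372903042763674047937061117659177572225500423379756200675894983491666777510160372123382803972955465169937398045125025063989653863899937431002726535529780400219980487918862061134945478215775123117356693706692760314405143475551906621648958040480443388369779349971744847638010562205091010514101470668278354747048008190989030678754452253714768918151606679690016368530217330608259282636906397077973350142058907939690671875334535269907773570100475032600043523593923803976287882539614775659517878493683313653704897147946886917752773479062626326981690581239794309699326961782416041946811704657331171474094727602641132722904643036851307394600644870295683536701842221765073195984016380917230933259944371607550592795807597316102027663920365835151092118627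465701752371371293721736872119278178270936724494875122359164562359686493033677060602443630849075542451467693312034655958320945668522860746080987072528447487417828047074469000325996708296121243098585051776901591432518299965420343075017530729705821160312609808694160591557432513918244562761950281311015820328779441675109768677152501686350075432690614727926198925509976292519254956855182895612822233674367289236798661632784665820423561253010061877026445904095564216110371048604844405159157421299997807523172742301463874561656083566847185677547290073139155139684578271625584199238434747631631215152570379140921584121639140053750165979671738278125233004242302109507157732497879128003119723712422548312310012745027172404773352309206490655493910186114671066330569825438905956551200084545378319810316867135890546055281616606423398546112507164686530321011692893964002658819127101237527850499673190134591772768684993352700896562094586175360426028051373010099401746841062012043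087144327401553229897337863610700353706404756236397544095420697162090278778823092837168523754426951979815168486599328023824474546813522023464032071623562337531621510321348223086036413715336252312622989974833056135963918049475162923292979055715309843126876111704597674483320639764003508327797250310537614204806608512250460741486110727769796158227545970715704919824126218076735291545618961251465256278437770392290548000184675388840116318055724132496547989720278857572283451778953482711187677385969137504106486915449764985303396793772335303702783646371745306418682869858306032369366941193738263304212572200558387973055980736417341347863744695167671645858591729928511685394493881767945014367024257517110396850575763984224273162554943406356851135748735345754306031286188102423085178530756142153628076850329723479461507814506622596264822544005995679187893568185343506498100216149890077596453195252574647742870668284265543318277840392696565622290857562549133551386694619757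386200505214529158537541044137484995410222734607086352419576701570710747226694196943347295486702684206030501543622975388367011422047487724552489175652397852259375512027152645302736315122351566530638814662246325564364335838604257900420330884372290565482184848570200282670743070848329594392909808968507129472364810331607646514095360338813656837281205673946777994011824126966786864550360176840567915857381337352032858290093441432023415779847950324919059305106204698336996110861530099106932462361505070579715504926461836294143908703821941253161034667223658179635406689106973865174574301071328044825786245923416093799240868159174018566430176375880426782085451901281223246683233701489231252588612448390303530265260830033366970692410041116936793805163984785560829422196139347782336284540990820587498152528002487220611164997431298988355393534441043748924632411383943927150949479499200250826387219129065867493462417335294769053444305106715613280052725103216707255796940608643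921681344304544391743318592198707592703917635603442790841182303457869018086725535453990491604283327873349002497830089190518962940618706323589504517968732695917623266874270726590072301260301915656903939431777693599022429183756095116293819986263900752436929601064505703211865975335576087195829967980864981865261959564818006585770066838185616586829976488573761670739267222361639404108229636606265525867647828798147750503693811903008275387730607860356911595508799314644533498905441175128243494625499453222854909491562661612386218742029733705469590554134103205333388315465830183798495065862211560585771125579380123449444002612253494996533055152281601812471815088573049811795000866161663472096158918830471272302293783828726638511756899274097792732055743818363845053508266121622756558666118458955606636857319291347862306014573291871693617942362844729320656125770494144128829902107337314638629758614192352584738733529503979124131927334564493264823189945745163357139505476874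571248212134240793094580610872349302474019491464906048503196946437881850999431226548672811828083108594840328211834899375155334068662515275875416336977500300896045198749002479994718945265096519579695015534024251228292474333309427736358191882957454740625905619263149251632053915749703595803493693467773373865696164042210641943044257450187142529575866706585793374181159857457319067634826053531429385645513711528575314959556275609988821400963777132312137392484229755805024765199821543253411190358056722474470840936431967378999409348229428229369122427823637538792648990751077409030326872612578370899469829717278238607434722334875529849321688492936940507178830840531132428637843230813043207514460995300366926147673072225953947091014075096558940284267757111697243796148988081529337579686924701456404067772352016324787576701756819928201949792148886988511172612009652051213014162765791062445480569780821235041547583232196703620280670191313901772884422338393304456031872186983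058402712457230553326256410192666043519297767941168908816017719619859079348981252530092360841500001104444147625632223240932908472384160756886493773356550284644197671490742788153640378081254737210916991076633773165510053236930924722090186742511873537787301473073240113695700480201325108186202608254860660187715009109567498159425432430414693991818130257909637610725629522290546800919724636564134188395006174697710651348251365763742582305687680658914233810844905550284946307056553307787423775419175118558041838331230383109175330399799824877621528218316525902018134822527261036072735552868603259962824349963605709604634717992929937704187374789059066220409717183690317945440659261806399102609572460311853664654540913052307046129373132040197323848104479570870271213524492255319101870418021333781411260701462643934110183772583328134977263950884071703905978104126047050861788154258478093823448810964171447573529378762262963660139653239026198712977528345844262217296360385410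409468994785393027052545249294954175712691192238617767979958319542657175022287424045642642153575936574520929420209198295325505702130626429555663496107036465739966439647357825910722285576770283801054250015966929419115978740853608180214086748200588606645565851514237858984176793463951660677963490696659389630867933715251860404032141211565089457141008692442518312809183379841130041217484796896584797909581254064226089462767408456592996334774204912662420353051892149307001333165762144957461081694206832262692668110998217926067470420248752074791004204479910176769689665508459235380395605734034779149088021712112152311479749431622590312464969288597131690005403932789666030011993377967213005848412078626431265127156781964579240128150631786399307768653238703684543643773316480449771105557397744796387674282415649796068252306161483564321274071348882208649781220437617363113261521351664449543940756258243285965223124000465483033563428485485017121710472731229449599836614260738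695349300951182240130345117521457372562234705450589941789963844081934685937414573487739930706651452126690927637780807466359094415186367766632817756889158422957147212446494912323748330874713748344773644786272442966643655134266458824490577663968155410486269799486731082754896712965536594528592332175601693501106033942740565758254717625753810073778912835514042688233958240118038050958152592774813630987281748289302694203760695096896238523290825152567335727567653404204085623466769545646917706854171813908355083615589792906184409854251611762271046242006605173523840853046826110395460300736407687779610453053895384458588707644491677881682832415078377432048290208761679413671296658583681538595522891532964301008985725627323825735140361157578377883230482386585214128274995373753241038517297776770628109904384656047250425571778745734023299586945088274560649287151643984811983995559977678645264458702573281625606142215733114630837031677601210599008073362381617634812829232225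827399755591257114420490317971631185717219864185443575491219292744287963245717611873120222124014154526580612579543656136934513357641692779592538223060441881791342649481955856772724308569882330289647844570929680939408461380220974611845058133758730305568595243445472188205918540794159605473312012445512774181993112245483251708340279649306444749847097879270388243875522658725411302317260125986124803524640656039173850759030011486299125462450181673120902321347908929564146651086740762367188009135504204790164174726124433872148779395686590830141301670125922492248956736764004771287861250939877960223786300392953072794251719359593359785086510412773731712621569494146157362113665206057887971277658519850959453831720285613412372446445817277646260714480428751885066700752865277700397139397024867350478741497007703869937262519184914009987427195497603764838085045939846684264237431849110461047700433079993625714701686676563297270431271088996578061774306454867929320581851790477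715406536979784781400462946832113433317960874646000967660664743245840444998275101488501246746583454436301348025963073125751650067127707769832831001965728933837261929445293448704769455332497922192194143655999147969126792401560557170577722161844519911501192065804283968736902100256248841363578743782894535538312113878015879771810310923478811714591240301635597268285893381634710334229488843515921349878546016532192879085921222455172332785984100869485532427001379559884077154689018892540410178726831876837710779580970661616884889853628091979939612648966024914288462227931236021474831207655468103263102333921077094465979452367671342194878699589648928250938443347066803784946112140405883262994673775071961681635539253182362475188921849310443553060538965827663932855670104760586846598222409938837584588769048267060261584091793365047156317498034335593726017863280641200008533179605828148565407372623823782249837003718081539850515298363661339518404621676942841015292201043329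810367965828052714086799003652652511095860844505209470506598042642317298020083433268638588719969610124248131256242126889456331519851128196096927927537123833207431591345374696228578347938593412493523572056520653146224790200235152992118571332257932895437821160364773148362536760249279797887022445155465769583676733832640766151184183559167101297850387188089299856715419242316652148898737395148769934175616781709631630024063754519076622607538956273350867593581877149651103113151682294105020387011570773948715450259573208920251358250899982426016030116321620879318838461492677344369691654737156388948518334059200003002463714661747915179748314198895348258456955168311040897094651157706293355409654990788904220892117936741522736830849322105844901721531778915545802299392788576488805723970347677069793108898114340822603374180788214726653101320311337967469683808609196664075026630531295982949084301619402100971393051857388330941579401124038072762647289162748973913133795039019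898286928408873530387234745184937982142772957702628874488096881097383489766173000877874478245585636153517208072922697899707964239138197128586199311163791024852540042105138189283209432724299408764142635768831722093815210329634977255423158670784432321043043433370419250968767405747821185131997632503252193097698937519987443406556130429801744845578245815519989779581307621218965026026596008852652018080051215395316997502516142376345960516019557967612595702628839501559958164900320550973021710573275009133987508532410123778216605000925028544247316989727225125030858130566811936051791891320789161178760125543108539085629567874321966376181064519568023475182455618215547646734166870911129574618354598040972950517407129382412967915069867481502452879093687526802085593290566741927853456392307198846525098265924760296335573092013263336921863241303680653140709587147435601672587165965589896045903416543589361335708362895284702217648288252800095432032827160913044563778439035424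461749724957355108228219614336994574061006830170006006324256480905237901247038462983010427621308248261863926488439368317628210824098157316790970866113605247925988974163476698328449236463345640335629437623653440984772382229262525896130213152759918197635816045360115101404105209750543808613634488653477147593507977608623755486717799726279634385794526857459814359240217071513268655447846732388014989372365943065664523167141843391873015323290675875626675808351679846672454700626147763366161902834485976921152247592502603041790531878210755416152890647681992624328987849204145771115348611713616339090495483428661900210240675517599733163998808183621156489014262039325273713782028427154558862786449925855854694460706176513911956572906146739454900037236642462855175029317244782201768801025215587204674827364586299131239987527350854398299371236444117830027989944224934409385723078953950449547459603730792068896501750341441499833335701922142077957007846322234074398978091813496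365946845084103884187979912670043126676531075836419008553053257567645209749211736392261229096656761407748682435697699177814901175540490167452591816274632953591125953955259553393833605298486582448951959291058906452143412023699778071463500918784197297090697792947088483528787594269755931958151905511822833613563353646930607094452120309150587191965037153333780182033392007301518423119204318017665607324517714284741073036355826555883295173751675829614631459840152629102634259164700988145372511046992770311779846452509089855169227589145824640279769453447796630492031718141823806802231525662148585919621246680170075014660500852979502495620992995266884296055863441783477904236022127983376065527702263079746880944876452185691517356641489997570567978277421993018738454685047896959656284297437179754447401005495749762488941160998805486836748311551934509426055575778707877497385356303318922918981311878635993530329171421282937548085413633504800096937697016157341298722449553192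601423250097159954953105771430177077380409498206624541984507403416415904265637006445962201545167286289942326791173703502946283574592180217783560375560213165588616422490768994753314823862465988614611991422958500357047033376088031988809150762832489628632017809070369948574894402016484054938381038372329654163594927292842216223353131109997593222916667837212740025685252819673353278689147538207634631019637143772066983737759390062588288746514651523601610881547880353743375320613795471289605455274589552412855520728239101021925278963160502876757774593175127560936232871642860436722570197080701553312797184623802614467392110028035138888776987331629202445547693817492398195293383514076883469600315775254197103062742384686523846306654322739982965643948404990979912334324260143723865146820127246322875797263117181949272517187688996409084689650132499659704576474144594809786672950291624235985686762674331994862392340189159057724349838781144126945487659491298061190252440063283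511641538884488453035128205389299111744802407327644546599460509312011994565430465639025913798970310920159030370672407994887836545209208701559764284496125513364026686329619568884376004215653009858817858975872543868047715624616100406670891830744698850501291181448834561601514372510809914347462280020945147954511775608327352938114667910612922332188803164037862004977734715172527087504006928723752579158377982297133113953267756569155598982605734906461266710061007615710783294768434589770527259945414985627796141697314598254224168222559918767994118492616037466067098786401405217203813292372558776976220696735994408545674127951316625187739200286584739733138096513485265200022974157874838780874455580499691403101177025321988759222616957976189517463132382427965364733721167308767260453892784125595086711240507369748918205663942965526831964581284996250306947146907847725654597662192073003604161987720254676018437807249671197877536498481764937225893224693851006514858231230436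933387210017101156208430981334825290190888770821655734925908937298618658256067585074213833627639613952866467854776406474991883445454129077192433423361624806072547209466947608147544563083640280444939448735403587983921338953280728836397906419365319037456550189309902222793902289792554586496938906672670351393825283979618833605200442402905751089996673942059118038558968848369292790712361676931592640254651463749935259581589716808235969513282851047965251773759281221225146048431285304289484193080963752179284298351164209502122041556503851154606109352769624636135540646727762009935528000131176588953411287259003845523935968795535643065615231880858378331971804577374623132042245944036591148217061426136469519014807467683587018027967260079278230785625071105103911139703715346143226981768684036008649708638536681052485327459497995480047931960905986941290829019894619893309486550338194711239877775052625979514589665817889901173418533278871767523198139472910979359725537745507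059659825609637292101252422415128482916302937972472992568053005626887721149662943853309408657126037953709027186259234559723423073331572742246583919198649051451564865228599460238259102158901604816620262507491853066304835148193529934095986177880777766220568052102635058483916298561365043632230287187666607892545195081426908221843680194965134196506254544197573753293123275841477634339991066222938863449526451807242641404933423455718405243172514059865854495478766183426881595481160792943154350776874154691770159035268440496946465629506971741712980261400052173309443870858639694022724535798309597124073225178468343430926819263320991644207430480842658588458171360320441424587784389113359552202804228451677860064131934573456499478198089648114263988914990442938759866258603254613919757318879504271085682295512780968592146432)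

noncomputable def rc6 : Nat := (nat_lit 200682100279647945197079471765108004085212379875969689091054573345840857788333835593251965441306971226820814868545225208341060172952942628556386650553249914670604221240669213409920903837591751570348845406127103891554862159006783562504360621775204169629311207753138337737565259813325411168616862407781066064596869853618548625195139168393720917617107844246582748650192912407719975884023244067287419750582782189413485306476710143089054267367604031415617241615709670748405088683103299822869440197983580090739244798281723340390432771560119125302581097019528669280119286497702467222230461081088996131217251699592279125085054790075182479731676006718077202693031330926044024477624675884986857118492933593071855404731686764614926856086171341267291330018095100803303481748817441935856687584760115618498938377243539368510957461944862289937976109691874297597567477741535842655140923568357438410505243892024856183261667662783923711371476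391668947735471979538299777539283444322368665519965524014686158750463502146771057108458197984686801228117236045590429710513452527598803296470761884016291477006942705832455222480364692801855084268174454200480725384437509927228017024034057732713247415412381726951800869341151896072441471769401597814781249690444958847598758041411286316768153817906687784621668922817591164902518758843138381783873743752005624295995492683575239547074185354672002872368843300619901551434459866643683039402721192476844626336555212136479888452078680090691861829562004455275901086683227697346514646410358517125435859779804257009832353976772747695144735936762357327071267409084166377545774345564568754414970778548111531617743798341152941777714106435456448472156113001844766956040778983534863535656771384759428067086599290294723614840176559375422141254187770485694077270008757847689523969096342368875669242523523894876518883752478124376247158746708818556149356579387030226581207050885424381568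931620091228500909589123672243354165323867651880000462279338760494932187111074482698870780904510481435295930507282249154296378815970255085751799188405808298489427570884594826886978069251486615629498115477343203686857326023770864470709260559620980651265008914021537803942588792629503385547730814505388634739545674328878891879260963469567673214248933456748406601122206347971814621793661308675415973786281840285457238977262595993633353463532908204624719679226241218329017076972451790897664046721820133014462804638566045371873926352776174679847095730518874013912413223334975138145584640935778402559433110151091730214905630649772214049261980445680392874899032325982620509125711268511555747364087047524653010663439539000578498192181317133755268006545871624374570608086643447957350804454270015931147111924724393143569138538696283320764261791244976694264731890900622042910501122853791197142055559303877975358989359109605857636249100974744346130872676496468397822459408934722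702509547873787863076960194387109421656318754259527904935196427553723055226022535273039239880423412997366101394857336578937548442419457134851258108762615868644469339287543283231118956903688361449980652963561985418981149630637004364265472058714628131320629955509152110659634080186824978440809774580002565427879717806090156225066371046431752034849285859293394474426257282220984860360585380333443570413873692202542508199202311003318879529764867603433638419966465563531504181472340927312746643149490868620636083739549896283209516623461311167193770024407456429745308165462691788762246584941007124882687110646448247355677667095113598916195168310379970104244793746433626765904022965849901746077479463364890742998731325186139617517542286404030525041690191802970957604989850461454828112327641751390331976894667210411811586041501570728784784707298668400248565086087081957052716169668620487619197819955529857199988522041867399844696870319509864592829382552809290639961361530864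404358257878327976258697011992959758321079174287695355909119504804548357762759096736819273420566592266936633202413892597167966218833375019959242463359814337589240812137289475138197788275442771881261241093265725961812130009855469058363420053637763136441528343632240199959436397697631042448955410786913670013392248102646738668781527910232673293053983293046515561599358838229837371155752724914191026511771279566138837962177272042460558965084692584698063768110884678744510509005259616148541997540349141273851723606275434218921264111853398731019788621657922166765038666425500383318917113733765901345775571596685929566557440958696778346986421740774409325985493399430294343255179128758068782670849084219071505749554751477734310911706336585711830510673354869732197318481776634767061513642782028409171107096194379986981172293889269881699833103203623242743625093853265874350332836258119528297212543271883978495596348285536445950332292115599437203403226138943772337178088259167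119939330327127465468829616248499807039972660332727551327080155505621987663681856059678977796156602428323059673262957798661493845142912442237913583743703905886584031897388544477100617249947635987538847789299265279268604511043622972755289909498643108041271005048873486853133385905119170502029787495725965945810342781913373075516169476475622478244204458777549932284058325620129088614700330166391533099321585120368042450978104190434429785365430214045518159111334442151697339847399569533262071784597930267984399176804145734131519022847054682754281948838879777283653980944759869276742879224158868211750771753937298196682154562041251208792621051904126034791521836334024775265307221458505063136823253327386285188912258539427758559555157892657169666277762767159922091562392203366360132133043755470204940056473057366192505263245871574180290344667565740170827815391204433741088802949318039883388992399788093308847845338979353744233271854656960876229600319691164751232903762917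895464708822584201636930952524865537011482957439243933318845247949867305264035867772626268658250532366029268767080410251246798643441565552998092609505663307248076727568304341045087763474538458670099895007768039656607918196857565431600607448873890377358218836055643315522816515643043178934277770770837605911807471430962833387726923046594331162614706189367831224597648400400273216795880945493596147092607148418232014069913718871931070797901990423063997896514888786611865050067161050642066455670799794481817376026162264754980012309648993519138132932722300073329033813586088680070477506552926121771817032474920764261786903062080809522775603346040339784431732039232153578648956483706256101110453150731054728444483177530284827415138186105651756659946258016515950816121510855902273959317784512865761541518746873904626631979365549724005485335905818513137463354021021330058778627496217533386745184587745056529494951937026904754081227387957933678710958620172672842322376170558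406170716490983797553164056532697901536810183868886762275489534551342987504189246772667176252834342944629546790058567866589953019763215260992132954794853577834075902028709611009989447021658724123893451653487637845945015556515600980237250650092132179857527334883373481900927155735042974368806040925453632749377714626964984169204736317113516831575735067066858480127017565544943073811516944155984102436133366707112806726270071942624485523234556499548658994108765882294307833046176745023931050202105421863758932314322648975660034193502677393757770084765812805145428997474654198572159034285431112076429357383159903256680114202149440196372779784665735416911435619065195788438061751917610545620154100126564081970476431741601949564223073436668702757531789465825324343107488039687254532419749291979860045741511604145106086497309346803377191914324522576309146835774224592646839560769979944596790836292693614632367122342626652748420823688128770320321868811543057236608914036956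141418491781204658782439703060403845938695879447233325871436270627726757700219453895893816545095877700073738517534937621978323553590672321099205298814018490380433814562913368507689548970291386843123263051126615997282979116840225859795165903216511277258633278595889470150475761942263098151060167117910373701098638887951250947568259000019155619987969528352976461833677339391030143659186214324133684231895161752952843840738695182038888924497268051509439176600369891174864186557624250062660395963499828844584361160542766295209396167147708971872754194006165405906545402987965299474791388927097516504005203509359356893440993579946992824157637888071750067527592518247149251659524696340617256647301915229563536528993467766500067096222726769296243350826974620225448069095794358392053127900522054318053527665702473500546600621006624162866262274032333397218326370901080439235861662088065682588924322807652421525651009679756577930163949592731155119371377710692190312843531216078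332235485443619165957891814083977159419600758945700398787265904423594019803036204175652142161486586871124725380499291117503754721888636023071457894182913493371804890122458102580655577127521881381686310371240842503934647324487978179761431913984494802090840698204785479522386789368694584812961815694979845140439054451235537025904121254802708777825133942912077668564211137361899024397886840367567604938620679106312030589423105800997029043266266766392212940111934717388915626860709672183736949754825948205808195393235007667299965883026196974073032002432778149612932524445231341162737999285494174369179464086537137942429899570275771618988248162043633349704160342831519580985518704055954522321255121476350846843243828159345734428540596775032394010453273891024531282797986484763171980905722262623025137468714461795466541928743497654917356236015050423094530265944798012974808420615636273486073545627102006052548855513082669168855160571983973683550815855166866218482618924947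152723066742529656315554163398709217271703015281233658773074585604168850754229046633438965569487519213729568790331653653498848295257495931537991982260915055707909324351406961605141983023474107439864191862576605685731330427436727052003844669762417884525309454283440033365176408621733951375399050445077222507503685583993500870992801167390983470468815689931116077129710968307624590290046301587041872351773366169660571691610560188605563939817659169790672962219555460037076987839724833348603318611008499911637107768227218973777074578419090969658581386539358017576544548650819041707991067762302119041225057088883910314243849730762659121936703330402961298865172680384520509718536265256499200554391343315991555227246992597599473693537686606632518913937511139655789212640615667010371742333680541021329266938273517979099543056547790709705872525747378631059239865480905679200478483364415039396032705479945115021056535350793836928370746296371196971544123019464627466966109939963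727548940285011584043337499671645111372747121451725539554377956654115897690860673051235760608485173137223352134594703006844797079795185951057405198746766680487830163989463508675032949424871736898607394388939319349469993262694419321498174910221820418324489697145181821061717602426861146563490383554871881431456466744804144484475223496745001043818334589412049839104589134307165327935042614458752148614374944214938974545638074041714589972968279966124821511174027780974854689132348656167782347020861748813669407669599207460125908689959889967460542560935436123141646778857344894837068829104753419302183923993770711557857629522400465675154073428438445892847864693679694484870116481203164735109709571586824089866625030784537096251924761761299618469364649505654379570076356990239640323637879416731601997758358296259086010255722337341832495869378714723970363398511928212929160126165874492057782356423699147727277015319212809899112565536224693649967816798803436000587021976338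568165806806370032825843808346346603346818915028770487304241310636336227156436048545104578334886283644656383149981075427915341166555829474601014355659026248834454562764674517979962185155178763507178955581941655984487655683512865544108367583598430710222590671237736475620376873908790739824077852710902367733544156134157008895968457138310430780952047557247190295662063018406131186502019824037680614149395637695495092500214443640996189181288929882218152417233207598445089288505116558651191805121050197939107900499859875589769933837829212987348186210090048788797796617391509421009590061244415288044759092873222704440370390485373326757444088716906242931828486665687964233015742281999662459511436771101476140628202024577947863041860136823372011962459042013657552116453757688064319668709414412147077816870129139706192300760779906622053319392497505581095941504017247359810735593206916058684480697324510639216528481381417624420563065052818794921238381539234560290140237992506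271402113403844375502982177379537615449493023448772110694651982066059822710385715644210722081637223344103877539417102141299728522780340606802581318292176195210917569507707158906314869708189516861593435996071655580470537829050672634980500246510159114849006370415928462332002121044288475941511975461819620314857490635492979726996322097653841768786866872324751272128470465477803010871964088213058111001696631810387646012283436506588413773002139434733493314760409847532513597322909224473090197221006218631116624180772263440998250544846386856001088340568450221363713462034344914015476887257231742866260144581379873951927887798281298453923393510329279572548011099056792868846882258250207753394701981534340932884870348165930156097969926937687160655326827856753941810364872978025927984768279826273985991503216341404466130121273009956158258916757076473653676176188517646120546342746574651861573115104423425932340675859315829569982106874684867152801990740733426589838497863202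961122353850122387883585766884181495094091911801585671859330345375948913633997913322897102892799243833106781761314615972747896464794673314053805378938551417845976157661440059138575735793720727470124248218835868636319772147176930127988823249946498938345653883417043056381072383110012976600782186282583743102869962499735113997267919278319399690995528524408682537558058176690168349330113905834515321338109062423091353667060214797508491496027826980849311200052372767794526963028519935230596874675432390980311289213461075067370300556554675159589964974145020313869157527135708566275449781867464641649828851136924458484918574040065152831659126836112149777464698139443364523778763060402238066383938814426297857144017553732018607180269297376024751033529459809535476843766373226913698874248214327925926610574517501713974277516335966659483843645200749388658898061936245643761747563266220303041379602019350569332816393000423997813138830884509743011990207284466429194807190248504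017899940198250020791604887894131964895993160462021799807163986462483595608313898775198305650320218470847211358746914679153910569416510884791332451636998414978035778423402697395898984644164807839482115960102285196071698943723757864955722610945457230633150695993043758603751631887295572352037236683367019866447727918000720899688832995735772678299486472262137608643026954914473486705369417186385484542770596177129678119483923728287702261738530426992984472097129381866394823507340155839887078506037345029036644407233864514223413474334166798017789667011379413801447442752072468747705926204155806516686638400622640294160442852868776905804557775740127043054199972399037893075148092736538423721808404346926406042347334180966570615607978209699309544236138218716283085603908275528752525305347887060621872930871486963147986664795163737681721679627816911164465157151232936154514698953183827499714589845787863525993258483418967763586748187478140538179576774586394135939944784066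151148612724530109986712491833684085363459534406903933798864009452794195244239743752424542225485723815533963145030627048033907030567283214197293133372877118617343322441667266931521867153704793186829418374958154725663347300135215133992563368425728993574371756054988259760168251751375417275123551065516152069161692199422771141957718514634148521091799753648598389624424480598472206730269008585550706789411579357053316343822951556748594768394297200439321007662565667136910169226428082724355373919212525958258451921543067760473077210844789121458216751416479408096087961548165900670173117222786365432155753050566432673239911694129654847998660561662177766351808566484230955978276168927880744273180428168820646939188936294896670617645491036780540024332270684372521471205727162544025982997744634662568599914875941909647702617077774035014919094308416114289800301399921123096133041512838750358661104410023308111602011122964560474254820163005541928215445118041227911260712827729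963379774639173514755832408209567238633323743644941412060082162547690251835688718040445885137945388455984470804522389121364576861296062787971369613443007212961527797106590604253179032276491415209538951857390548058091697064666099900316797405990043890637862873673964325761890054886805016407093880891295397985893515886959357817126700733071893355433942609971111407000785500064169729341375243716465461349150649365520313525951456751450277976929277992335029403136103375768894639883681094142431426096781516107137629636630124954508815284809180302802885426459349890782714122591428289181422046226598208054524150726900407783405044508699881422797128130684757908479670905646623217435638293851704170153516205398929668020534810053214504292321989878063242026065652276859149437394985639622482876046015535047113154731051978912728808327449875060718398492541224917691723604004117608698155680460857990288001901711074341023192547712240688597558186260553712380443668149442330161901307727080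053738570446037037667451796413808667284162086414375683329589298100646381382649426137363634394758275696477417297258107549769806872301101449154485429314989738394501502149290505286425828892258491180310062901369459797246980301053627967367727961360831635307410019487674347020643133970736840998037814065632705277106255180891656793016117907067380608764971593469862129472238229086275034597497110548564700121726678804364310072488686953963884468801735962310597145418758066035942325735344294617203628034692546259695735643387339620594450074456802470248845449342695108817728923051684631622209505525814683839450291577642693580233098401503642937279712541554707849590068396089947262427513908170992757102884913470507951327950449037260308094037545337625390003212238806769779078431906138556841428246441296876478820965871820827543994368)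

noncomputable def rc7 : Nat := (nat_lit 201247662933167192423849223727918641863935731489941088520621151447470586322302229995471473842486099295183242491321033599000297459750621131387301901527195510420910910638232746870360701437977556759283517919243111100168719569933400036175930300438274823653417877720247511448354941672790710872044766386241443281070838874199658806375482471850526681705255600872040561112311502213549729201279575514261564046350409139966064218003438326240979059489131785640098762423888409701780076476111922280713335479012277408146135722181456422889495773787829055887611576374371303970070786493004666778577227271679937448123201397771264286613280983739334208439244654386348128901188603093171893480302323814288974073706457088663319737278606891429247386256957394772705266542153724558617629555001066906292415909207363626145643386538714663096444837331084705380585297951029050883654545022339203557610161259213503065774289822950625820899148301808700291022492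928290380429740709962617643163409416935513549275009346323747816556390681129100904622244837199976848398831356566442140530117805959899604573451502587959977142624512259020058636093687561544902399174364361935725895321718582737508956379324791142848090193751590390223421086266972689532763881537346190082315424919196917420037558291796411045512360700660501220522890584598180763103568858030109109712186869794063384436506916219085740185775535776619884228373347170529176649540630346450463065312505923130607622877434720102835205223604682425626886644526436537850008766286084271721446534985736222113696876699001022949860933481679015478762186974122236014242132795076274231882443986158677246142882886815440826465628044831834572742522834897512215423248037110083253044411144697301554791890160097693602330244238282042533895270029216870043009146250234567367951544336144374800837551638245287796409495227397642134131373172465216080512312085193441041659713163667476224793532542027826367121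439750176602645819578083824834310394847433379322361331635059623032871683524055452408236807595412412581481626728542851639291560223763115112889391474807238284746772486482453388706409932356781459652084319515769153392117039911632588465644699218700465218974389954836700818121193225631443185505730748509572979763160215477825369979201862612371675158067902740571790297920315690983216786460510335589116534126318191102376132013347526863770885070668279565072492220978262903749596504476456907886567549545840383651754256783591097217774169129777245800214799912177401319709144134778128334553021930445393076426271675952387427471124448988663392544778937523919658843086067441247634117090712041979617750371198336862388013471724687054564295282095303317266453842262790403367838967878798739534936733545820868411925513856181623364812682528560074147464240933282103261421289499343510706087718059783267320875932840789357895433624060721568753164880238010133004123092082954675970559346620606255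138528941902483566781843818609823789664116673373322648825735317769642492288029933376169547517668841941892120151000422560568509235123868181576795936150323244166817017252675630991469088265669145329097691768969626210716384053421825024857565128270157548776920850629522957329023549888849191632213796935320829580022589052759829419394129434565676455542173825136123266350793733427354022329908959615711856219729475357783211536768580988474253781914127049686078242268238502609596878104313472140282427604814135838869754031166613446990155964986178813295472835367645754095701875543255387835945915977503504701939798065718426314589440277569498780211853057898526427846127741596297650667448134348005622652952888051009355121223164936915432694807825986276856883811818004242709611005503466425191553445809789674569509495358394329475895940112167889392188909755133407414619691668252761092895406769375822339992401083706905126452571030630922845378509400808066351383571798355406864329644893089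082086078715117041973403791688050673981276253646135210501702537792215137964497786477250389241536788672466818458931058999315140536197746400042894895998001889512089963525084456952318542692446351453480730448646331309195532856995663297779062132822170482942550810671835269083559079845084312674855158904729627129212878167878598056202393877559811415923741057198740549187341576846536598553142725233616562385367913401161382947392792963781183397099549688119327309617743634793000371214805718297405042641150223048458729172190484256913923422690793846922216113696393857976850250186964937435065090181869345569431928669640573488250440299073137642467275417884072321332593067429311779829460016579794530921599319992250379786472070090293047447184139950374008991916411396865900510995071521535677172023716981381862036557086561070864159757220588723358492479383513892267136002184563745978772742635985378933505731684021117948420008929987555761000678018244895971319841466419587564006465010121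275511528871418980019808638269717617065082148702368030051022478422903800659266042065605422020213284626551347918545579568062466900889509628596407435526131395634123969805582641663440501852372446115014390298902475032515635414535579491263263902189547335108563393760191307235448988222905177275187446373445287226992664254209277077961022756035278300984057389593200882117116105584611633319707870457794770916983241322504573048066465478823818165566982303411652953776850436537561045021530085626391958245996936423083062235914011020720195294727923196950762050775640075511370743250787996438127125991764395789370501265628690569859842199323605641593324466137807036769875810177839105104591517150110781029011989036071809079597453570292242228070086820886740717858452975158678199254235346931445632998308718920645455059103893198823886671883099906845086455378575225994955010606215588166520986612501649327175583906549678607410694593844671926363263192748203687329289945540986630904649885654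943420420388645211063031383873889612444606462455684722914360711997919420162744323571789704909843287564588716427746903570892940069368237788558945799132267315717018380176801629003605489512614315739106910023247138532921683047453784219684478366013270025957449101778554657753199769273435036936157432207052043635496380113879471922729154991655509474558292659004037131708473379030077709609156834384488152054280213362767453266276111181871313421085380148515634159065992827620020208932619038919869667854257498725174142279673874293476737250771459458969198765719944259507201364676749426543201428808805451511117952285352241568861463270277056696945932241742053650273272597189557371102341519707743091524912818868173084382288135924150912336362077587069198045223608409175104772460701237039536867612951174358703967537938304610816001734996682508928855758154511408355017816778764723460090849052769789264449161728090080225292309964491043048292666711829392875017451150577134899365477466385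133560594153927107823588636547822543991791234367925194073194536007285934756803967279999563455057951844627669043502022725240656352288986369049539009175125443037571040142851913483938330155347052203679791708182441239574734608603404581511743080900916491243653713922882221999734281951544191841909957491192700200257785358141723493664051307902846285105637176701382374307601632178321431064235670538802274254678798815372069818651127216912566429300873057022680307129760552052621389918367384867070776690965395056492284116698004543528553312006392879587467262835467507062228754285413310722579364654734047166339132083636334361433596594406843258070698984526206100863434594658615963411836965574224659138210633281420367806782610035872338478870071005566452524422812938414050065501567795346103996241653869473977947101205475599319668890696610034600509543188283814386655688779331805493777823397180782012011892224837143733871325354798183483765798889152615426559844255921624813581779687570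080836031923709267421929830969657188183941917106068763426765024161567207342269456639436024458227260938418739668051639938633083803771729626018762067355703060394103987295451707045428222801049455118101573891108317417809850020463362290818732841191179550097031637058313670195704105458977785501918656536740430745640897838798670613769436364547751035614575919255208175554098295082231655707573146869028929302948690989278029564685684938718008540794999839326311335802077186754434162907187882872676883069571154593877117004537969547866174690533275773775679587171282443621030105692158686927144969764557853172570708910292949045849645230837884902137598329777360683479397060831221778268639075359650465436257271659278860601162392358777797731148255426807576054780458691575211803143978663265192242192126434272116098700419785282741820696682319430413377974513322876198989817860146196892133349306989311004283718245450949723594794771433410460377087248604343393400331240960948895033092847602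075419956005698513647293508911552904464141833279270730571633419772510224371057057294186844406462234702471138007331284002355103765525845870659468086299072485308291772875507736544825994997717428737691670177229233527532893212357148832379158281149999021342907882108509732377294112590311916685271373170389271411865311200528393509102188189279747544662325436608861087470223551355442933618537612960145419067559174383007695136888259933228594959544783805875790234329498081696969910943252058866340720005092501599425548952726221009059103672859066176770501577216794158065167351893644668154128473378614649968565375765414828150498404583093455740814323986270293301010787627878309422278864799200305108298378197905554954764794079014292327104448757700605374809746739077641625288533095636511390441138228727431736091464208322272766635424115633273255258466709386249836949547166630381752234942276808406104013026045957083228224227057853420938440007131323582994995519318032365469650716880128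905656633084737589989224595945098662090926612616252152789370895817345900915197803405942208839462297820871515641301648338443493602056526530449781119809402724472190959729168024741809742483516568489728026356275169018355584917538101730472456442729823341631314287322805401807868111448294532306322675461346249935861791616443008938444641857025763660196870638699600488339738471263816870417980848667491284068402021623263562140795234584362734961919178062534389860963614651573782661528140575789240185999485391636747092123711064224355687684893139092759910213852854076883592352165262006996034572885756241995531286424131221428689956866618489025941485938362022812125592673948009120856639979116950914986106480625971635337971112911330264727772425056202318582183671107504934463020406832716210503598873069631116439602812619478230747990553755339873694368445409837432130863291202273074359032446320395945958117509332022068245446237275468490167946405205216006842137083914468516166390294016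029365460424460485832053981824516411847270681389458363836004313415746283762652246186637296150560357794460221624282945907456780149162098230480694753319549193080607326253623223120563977922470032214065243510498311170263454432969533637523654612438119700394702736280584986512426771942036491516658903446545819690647955991439913294946438063625126838346388644716383517509146783054310041479571183430744354209982417609410940400236916499860438690798902058071189439829074528879373252670296372951841669963289674438374583289198805873116855583685128732730147539717658626213163572866922891474621291714031515142756991943234986392353442306627762849509889756852940351179627626824648643244507827678199781563803524978109817398867209803511676747043170422523009325739430011123370104310056092447137820029801603037938754391450350969589020221834614730174650955610394913100049681110278914980607124078756821835082286278909266698371076893338413047227282138969571444676988896724278936494063296471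201740828155158242183529547554006869873075546129705479578554684187151913896147094667220313474644537119817457592086722849532327879341395807238208406695807290218581355804361550838648903792964019542099812849725091543332283791102042058416816050022765860859712941973160334928831515059572172299717674782442326015693412493585761844208491544712985494826557397555167142430908531226813830511273912146623121851138086716676384628424620304768740840583666189446063762273537157402700043546536082865431617211842894853380400491874222195766461882408408539571662880843366280926523077082467035566375329990777898974502361316590025660783486052160062872366421411410414417480681618222541387993480613930686008145481419524692042990342546936988982103952225715912684716492172333986630711865038647468997980871891397535710494016065369763513434774280660190674626571387994287791796217580888193641082092445621308454456452781590164258284125869236144579710509904871026649551558377262690758094666590479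972897537667300433393665103849214090671266646642306393502078912970858428796634671402659968406036564146135947758806333598218591085835128025243516220562194959154219912532205467780958401023606590349146896616739387090895995458085518491851229051170160544468886011164677107648172319817521707843012440941467325921245138330803198977471030114855734241706741595636028647302014977001264263502794897288718099665464552457529249931230396809476168847837188406655984700510179125412043021702951987566046877336114619798273963631103692772845215075220391792616108777661340197813722025341697863070357956993918031536440062626291734709094541618098013252510412179615708364553152280768848579785796285665799198172036399308609995185464411803822655627902920278983418908309729280343315351073544468167358791796400715142349918115060956373039505918321622512742033986052547812695496572536638744622056496447364172362145538241770576613317896366964423573697808211741145987895171438946818338076722014404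640334790314224408030149668068314303500789160811258132551093926031679913974889319067832323140794520468126921302092447855257631254668784087583050573561988855975557307010480251101968301820276619519741494278363474380444834295915728455523206115720946180813017818599151302166993778421481767206937639821750888981887501020567322123424065712197814772876587586266111892413607305231543121838836979322040355991626501939672082349891280688784515490870740353831879982696335463976424094100477251625916639959447635125397536374992756895904688230674196426204009672916720339692481236785034507713097192283443334358190067372618193055690097296145238272337204072610375475186007776850426514534603520285909866810988078796009886430623387364707824062622933683089369195755834820121678765403913684009942612018043500384453736147682226413998437381689996937954698741333062908671154272160535323981857892535361372219394356935269235192564896165959764971526932520372320845925824406645494631843715133450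785687393110242734840913143865256137964354373692085455012739301603118643904639892813288029149948450433562453799189805649430845689947668679653286815171129995371548403071250736122511628601925031449005074602952772044477430707176318724480331063908434567694658119025384544254527078593810670093732897054372850907247135378727780251073098016227421826236857767090288415394253499905385052172653376674656792422783885435245429852675592354267488962742165326349178592358192572077474571222747681579026423250289483092179745159073614543196133299493193780198630241916023093691546832541422586955718517046610533089516604656138824724480441496699915708557069506607582391752020809343672009556806089175712435178785146223638385071078010758977779015057514362753738720179700017667044136684379106988768709426402169147052429494338237992674895105791338012324031572803313216284183505332148346294042143872219630708866524482927335777717050963768342212299731101532091807035786711595550017588085981210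345923576588761869360236742267020452960708071418540923875461036068561125639682308012567859732043168058796542797986239200662825726615154571880702724153242578538272171818708778171664735267021540620078410481831848126966002277298836506598105015612924014397909764339630372290376114867430355059446771998128596711867228006315429011058870734905404148448163670522972750477759762613959074086501657743476464898002859945072778860504929061334764455782396829549061408524498053660938894433139529461523551432209411232972604297957380349475907442156437309770035880157247814523151783422946891252960937972155347614686516441806238149712228889544952810744618011375687621763599723725671752030823448059723834892577937956317499644959594483652819406402064202354122176676551883591142167391529622221602098485932522340170049318773630325112251869316691885769401901138442838306350300626665768210665449937040566536786872823216756912349107779533652273599273069302468447140678426836003687839341072213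446637797404794716085431298654637277932923950041726137406181294577421757326492250317576916826988929054015983211512314115598939270579523572194629371425335966518710799090257057972778519964248980626193687110123941876716555462413804160644464100977758166288250248537273887035765121789854261677750827502590508423241846383906818583921327752071285634289528909807011542297728442351531985203365739824006670647299164692577722343511832735262631396779870526072887009206417401049931174830030201697397458089322850191836219687373436390031029202949177600957117396540073940117580085361305340375918981866362135364191422533055057243528419637144220007355692266984628331829159619941003677663453217491638805676045647319804811882357841827400681073096814444830772284710491548042446880146566804452723937157779813119469243834775781995965708291616542612255964023033757219581726508952981731368721227539060633371657838226681247166376987637061684850466647603738029279406697820695276947102029895703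117204884532786557254362915575874264041376356577563464213344368428478544307282943136760556151562983421204049703774414464818230662223648486471915745055143498233562658814995335860039421663371485839636451235100874210572322869341147526833691945679688033199480253494927992245817643188748927784015374874939220281928326729498104555956891749085396433285806232310809489891908263749150049311903291483729893655045697152744686162264586088630860889072053804631669597604701870646478768693077887253069919378571966636172856838385092174883350942170530359147776320808315610267879010038697690684123595445535323835939240745934670377277849722433419633585294771759749820151404001614969346915218569284926118498923800598710458194571249537226366533204949044688822959681563619790159885031544543691071324182666365176950268772517000271322152960)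

noncomputable def rc8 : Nat := (nat_lit 201810761496418416425229230155843491103571993259580485365827040015197169862801867173254226082625361738570880752051261230795805418476653068967023564960838788985175565473643165197420643107828822067086968177532274447026213282694003930012700951124256020371473957228178479132735015615353608321874336572822000054243253767250053936407936134037945274653308955271292029034922504973079255421740550856261734657343484954198344140055915381232456091015517555808104464440040843013081006300268400743711248312934256161290498723264377193450352253568419365737609533554284251432029461629707069268000223799347921478477309641968149965867042379286884052920081274664344031623355911551252110626774507686305557127576604369369107864299184822059694661909851607621094339767330687666614219303707036703583218915543576069081554885367666911816312374308313757379677040703369788442351932260762477405601848616970051413793972588922040972515725782681381895268858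429995849955518466401252269836717390368062056802795228029877574297477676396406612153268066631043407637815012257201120537068421345350882057165861377972838605814794227120666995812638626372629658772790185016958965661036192689020741280554126037845128616319204064574659255967715048158027605237390139947984296217223576999364471051888053125630617639023119016082120781230854118089250560899231347397588163230128608985354318262816021809995920972688030965805974653607780665101746568217051313436124709090862293087846912220170521254095855566036017185258314085105636465769239191170469609834275649481278071190884480071990879246224724507643427970138753334545451208649556096110305345544961425274271826873208549049353875350771159254094420447729429158711292384999024879799883809195524633973968525928910407457389548387330904319777940303168521485231462196860973215255891538049861131372216988618171151130025823217314525580501073686569644166442478842035857168507607564987623403294509631303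072963627535853123873023649742067109113221875087464823769346441584345577405947832924766411000426475682451379518255994066896744947743835452424772529285651297353108636818790479707729749957521306909380568489314971563199554348208139725465910928016384897170651843435962792419201654066664934323069236213050030196967616439241510033877850635254763532545660262261656045753823252764227019277475975447922310243132463806450202083501744295622309382284671340466329886563464449400278475155197724242101680547201067971466502734916484391816559151391169857034267359085352546209163596187112546720150742869549431086334148498131061877872113792423618265894773351781504883325216265910411233659763365869277794225164424749255172861922233834390138826293238162143858726894900162690618111191042269038763036578600049634142965971683260249687524473236855965177483835806242007044299639779913336339703670650835312514514827195213614177120411947830581996929735980968107372817426584855208174192507665206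982012951745503019663765807022841135455023438335428901671179998251908074642199285012181208878754917443211020060091902086905783059490844743484335541688350241478720224582511051995129202774614908734550372015890247244132197715726409823203971606041021181748013556899426842919003002382891551355540478620701767394766041072382159865775272283528413267843556128621506418672215581673199372638400456858040650144543015170808465338212664159311612049688476598605967680255126164077823618770269341769084720143979445534072314010172961856181440530749390486701301004037717387514436187251689313369882846916506814944433580282114104769412801566857788430987497987502267770187762532553804469510116664999697639626391742375332968073556465378471213121576518746750216363411785275123753765844183582378174665840403339554299096303634091601630592550727443548876239228476370264004526811516113223476646809439744542707917365246768151642873741085254557677942604051692141067515498351829514238294972502387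373279162695562722499011450854600566302034364857393578084706427876968485178695005044379642742827987244841009785089314901930159161490484878955982521990846268022369950427112704277473796544872771464313545229493564803824489150507460742576863590742969442818165382620449022752447979584679695987164661391044065921724263595694211571879566731211907890355397605091215795537134559324712326872046427433715857012777349975353400789624166671535919838727332256821348733125485194412826115856930331865871238420614055966504079373102046138748396629269515129619203342838246406868129224008224145190834929423943542030470136682568015486747814090046529438116077088098443802467417101531929731650123114955664383471039279233684270756915515108817935326028179671338317987303700932361151702799879816642282953671197454713128625778663150272478995813733022315560553674143290909706412056883039110185618908676955749780741612398270051891453827873162014873772614686827606153322408673869578192745061459327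618417915138560745139400627158292725715984481349919820559820694680669447711273427388528491523147349891074726859549245600335482533162837271579312174234333343283883301245383085510336125782400531932228469983810336942596194184844661257774022819931383335373574905290324008317572438258059553733023729865323187868081273532761142765014632953098157183042719672519402696849658753671036803858119483072820128885002505568440259710973854566389689947634355786063063636375861726020534852503277073811364406461554617788030632109546903088695899560018553229426293736015195595024918042478509638552853146560873286902552751377574004363449278500097117973330983374971509924203758880960518424894871538141979604906700394903147044930081775060048973849816649289446590514851138827912347186897496097473231684182126816163361906654513513437655581072877539443299502282344304764227730036455385277812860242010671211469489389482513123412797497716921453003804079655483525631775365016507592323909158220354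438228539315083625118593918623503304893271639031976104349656808109851381327698574687460771272135440607553101133127331630693345306651732305907347809183893636580617508233718944161524110830937021475081410333309238978114765676137613922985847169187328456528426521373325583120169207916665366603537016465138758191302626292745191156842789768894718133738880635070241826571056010803186136300217876123647088048798264680163589681312613138652040779620042123665805684765927596316125273106970901707022505831349137624286001331008771909676535202628769712192111249108887303877965521366848986603859149806874873219753526684928807296170515329103443802445372453203780677277145179268962201936860368848538772888716370268990020566741326918987568555703388305849432889141799079438451211891558194326892378808180662918416201083450767513819464742026099101621376772955736277652972026104262244847661183243887746030341486806812863029870330984577882442057086434192608453748237225546706167474416271014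258613819326387304260347213892381189087867224827200291697626577443253705148576011848536471161866876222504558391953769191680959085189909432609828658949777713155089037567251239847614888715398899041936105066659638119070249260017042692685283923777338296309482974454774312434196483529200578932803141442868992398766413536422146267002534294520214088166182208071701382371317640206814174422440252216528424120911857336499150187573457481157544696336820609725668049247355347674486663809875614425276707075960933285118812836562202010391237322196765130624731580773234507282926395432672542189489240177464157136444542802844707595543780186335367043114096388795892119434414396305727382901525767486791899680482040789245568290069512214613412571326225283154451526863819627984016099131884630832816281892846797351398698288373353905532724081668720821262785998966411714115104465818730749383476791375908507827073584303497206750260964756141554281224400095926934757162960533288642364589229796396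198102542384961336234248765528288766959972956455121660104114511382743955841578944587402388475149923844256710727041338095770937052050055426512337288434252961701428027965263101775984027962339473710295702222424433381782340372855595835889017220748609228670742345399954117243360762459023346316531887193215395753394869148696705038257093171866428648776987374470900517276562530748090268538439873530334368736397934600702130381560358745506609450942092584334777346198242477839585446956581482299776574602658880108016892160806199021283808600337391556035015027991434319198476329528196187702440165445122748794270707851285126333489305710635646038891826771605266674466135702982912284897785721385577403460786146635874139979783018173516044921683239857609353954483424291117647547086203063874523808726949342073687344929449495738321282883724082440209509874494784107562335276080850975101403668558486927723851282429272559450769062714122217905490587515523624257596389854772982284353856116764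673506339897888873647828810774038296628601950030021710866333094110125990538629253036502540757492158068004120867808160764496227544469163415780546667846757506099064252110682976355333809366184780699369665595048746021276572001138406153207315839043968145013273559134806056654906472484308415676692696648598602276678637083678679452675537824382850195415447492514071957212263503893161077196853209729795536734858831340402054167493748694680939016471422170698407837932691223205646481333658587824931289425694605097553878345586072794653040161180113002844332395813194007826115276875426279316687434986801608292525364088761161415579234747671573612215548582804834406100902186263372215189623735842320938596669467328916996213258665073005817054804408640714066091387180029541185543645253076700196516922402240794358033912219168262713115257452432438859219295355402925194613492621935772597295740044723111487550964026328616988653039197065430366931381350198290718348310237850468000737037322739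265238508964910191308485750987848039815357334855776158370501930875627123923146693709596788321189538751784570037091062375742763166719188604126054899432285990660487017166997186016924488563824386711068263528288282384835184731697470486532750274422976450620488847123024696620414569170753368581551086265748861034171661090840967228269733417884098630875343877112566457209645326542417660296243268299803334095641538038665493786095636240202639378611219553821668456616102843086094360432282090970173115680300750312565486600070112325203276292374385787508689574231102919413443104734986346928938087710146193877838703993269363082154800303983015981763100059739420531720081418937053496885741879960102718805811119287409010562019274379967140722091338118208931881319778147496177975843207587817376162247370000962215726790707457359908574298121175860204616380437478140944014632763909703177852416013562513966681124924934588294814634000451104319574991184988326407823390345134008738776519662171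221512031675268854976797171902321872707303269003415333066461081627566193780828351250900694898984258882674593263496288485722848610391128226249062874446030444817318084237057196275840153240365890162004060973138662587313207084416732649043347292769682959656993191883725777339488137028489432330632008409199116238780677184812459296601060683024078326544203245322231407340368611316117907065398085468890120430318390355919732674969703664631427164745535519927657295020654085466044736455244831056874130910059992687717401475262630311417911059301510310321380322771822393736778671651048647562242268830074827198147474397019294467740152302467896299935149900681436681543772292034239852153764101571239698644264312377458592216664098645511122101124967261342249041567726780989022960952512506523974514287907403060365754981532099304583533074936992481643781528649164906552383178392426447391015352577789327057153490284831931861841488681190520958582386489899406768814936572633035605078546939520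783694453491282107991325316595654605008793246401755869754790742843820546523691822442894968237002702333700543291501823488707902613207767474383857041397185486061616903135159577761626582817091857477872268001722481118494616441292012651568893472490300411225449654525805282422126234511513695421546664076954139979982396265150065589843838422112550419499139238916084685644668225352594026095007988213323143460920553311444817926723515267088610909907131068137507254262169114306600791372098558331617734286175023148204055849291652698514570549708594169245878022597469290255657331050002271833132171779104716651983819770420103083414046781139136682553151620706902999308528392321104700824718384853050723316344594361707092349052482516082845829303536425952885204489330559618841090132684870018283777160911649051925919896603360194384746275516154225506868383260380202723952404973180129810503322971710650210501192602376000894606974131338269960460058251358232573857282849284246277869495827306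310530138282598956823793064290865367504541051970398405531480932051487675982331105795437367739037574830398639048636925051603898242026374638460433502232763374392410836862058051514932765286345280920406769003162840153213112345182792443166783110375742623278301218213164204312037186429749516218713870031942147960355354128586091486832026195268603445706892363721968123401453250137952263710521764282262170551979001196859171625537538757488229052119595392131140025413242245634220976944128207654536831437335099014932433965819570283020634166137367102086975020344743231200162506416984919908895316368412683923214016713050346652302213395591275907632444970830545541251548364664758791507498732942503282425102027442058919326574614241644763093698491454712862508010857577568249036235106092907498964446955645640107261928340920594257083578279652699361276331847592581072153187122136660522548446682582095768132846660458199708356748280770953263417914523315081584130936133228253405501614500809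318320358519360319783436116999490716083162627723788620706915286104359269671325946504724450851059197232776208526752620713746114814362115639562335607834742639083503907660830168742886731649290918324970355641374745674232734912460830570839615609915379666764604544909982427178414957879773332626010007111598291158462935988344162376251075734910155745564233235314472890840099027110548936515157701496400665242708364698871232830515754474425745519226936003397585193678334653263816563262545549816679132638336505488008165752614440077007919911055973590122756432428614028011028009919057126691131904707904246700613693733383678737915007656243629357217727012404736240874278365551987215691825271383287980370770287982288315001513787814625160709570042407561738998825078577816123964426723419565733828273413476297390273412721863109448624526211551714303056376936413690803177971909286193390695475688726231712032128563079789161979768025768941766315531951998286166311893460354329959137442420286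308168567527071657274029448132137231162597717391266882463895064245365736910942061918938597920161868373833406363094907566790484091458369062707024677296925698725155193014810662294279586155476538906495928538326214769281686978479077840354087024002036253039435678365350723719540740437118452960167207201879111012740327773237364140645228639045743140628712380864813056160696730078495107425260322028261605634317140336429322402174437588987355476997389771265682406085387662541845537096993307457517200151986976187490907820627771101449481048167994293966785843853594380273408673808153980034277735989961413293908283604588655426306632628895204388422423816883423965159951337886148982331435661376217594253512890052195108005759679030884552153809574588581019305484832376399401789496373098526191654053208131858776799650420161762438843957649729339853715321060665143925437316188702946701193622607880544692390227896996601722492004589123135647579967461865989467629183217317330194979205300972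115456444079650101429057203185582690453018738412455295599414317078668620678444148928467750301383874989809308998115681290160241736614906548407442901323577539591034051045770183543074643846498975235210796505036444368682780951439138737219085372728712403462288726900340518336482234544901235745795745645108282628684993771855963224427087612595517573658491995506884615671628061516786810541504506979219500358136030562057036132335733561919452500820555271515831372258648909400971256011846185862486734938444263235160103129141456120458671396113338231550855522140102170411157679430567798046780999211728526013140106725273168809503299196335302584786795805761488665704682196740298852201632889103699400831453047157407036556683606679477553329993534192859652823681165164484573045671371699862842162574179515845745295515345386292691581368005647358617162150375417054479138892343562795457927667283631116392414974608174492729500571156076796957248323860995464722906779721898162444185566325990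398181253213200641889253363106117267521395735848785543237979667336889494879338779891677196741361834895874811559539327185256317745707091742510449305158404859921922683335217585489965413149177530447332412762640896937743960083057041953467869874085844057928384364351013923869444255197233476053419148340360982407783527847134952382409865137157078492234611055388250667064601275126173913034898693418781543240594361821579837041725188792071588200208362700298878395804902645527071938317842324320831316482774507378283792737696639801568083807153020453523604556091964124903657480134102462958365520922947796241114119499654262991521709301841131383355635515526756241536670948633141064008073316300072882590380356772567099643882086580348421191162076422220542081716315042061234953697416037131108636636179846190642364709776785677191792656700790904446548673460838708752467288694623374008692689431601892420085539622915517668841435509024135524613143728414936772787105946747634798214163700310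709130058626590603818131201441861370612367720586857805463272437039278351978687452555876958513475218926731333258732215364791380592416365327604429916650837445817616888445655407437582966559705677049085795372380634414261654903777887223507053161890343466291968495288387591907766282175408608644763291103786936526572107714775639729307278856596829055783431746589272912189773904109710751085464692070003742157205802965092969911097874781681833583349672373398569347301040454242471337918066659158698350534112735742200020200072659012595476247522804609906726490435109424314237003621045086482125933012030050411822256847322677493132188531851754734982918296436712837632154670799523372789265716839301940278636566866287006334166959100833053393306486327945235350315768679180881146454234952277241088934648214374034004393073771804522184704)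

noncomputable def rc9 : Nat := (nat_lit 202371479444179914219434832296219092911342486364727367839923227129482240080481606431079839472332353766504476067535044939613863625481827683490348641452507050135033039974181818283602396812656424407649113640354732196268240170939921697404101467669755902521256384525871625982986576336577264188329049333318232586583159267536581400214377822851104535247557059019835317198153540344371095733264971747644240289059888663011271935380990336984983422431851936782177824665747132503878425644630193986658504877176949518517424075993183566682787530037455983106285921642068412183312622183170497786373205692955984162723490846757656750451329963126613958627992021273529641477326103276005271248887054285406520931238923331151559505772224876723844923858791027198969681351973673059499760800038778715226772659798244499733616921692325989069583478646132069685500393092029860830244755742442217514187639357368134692010536705592246000364640700087954420369254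807989949036361908747179262250655865693248817807647069847762018679746259241392531427808925614216214051579743544240142596186374658992927961980359442271837094807416223750270526200939423191471904048453666095152748536917828471774796570461351486699551223329207588831351967284120675422797954649959576214929374490936841308607444167344243778956654021006684358971840334904364549023519114684659471807433901663864405079888919705173600307158069971263143413571893832626079890483449011854310814342352401116274788147140419274385837551680418927813511359638715574072077345462423766393096950080253478198430049705463793092794013565840557232707633623836244769368284963346906452455761193985928714747643112311672290274006306943745881626749268090687739707998551068104537606442053146542141051728252294189871949389931291412919673579777569816714247705492339180374275992680230224366049039887706982313045608664728341947313036463552391603948849414343349540257724704873225327002437273470545530030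197939948555761928697050908480528893059696162843973518126909118838010464782063910605229416267013327101172717742530531796559480649475011744251793678303970998711312303050688323183465240322803022915088479866074784499733027545803388507466175666805252701172393774616501647788142060603433060030981641616297618359810317878282656385710297872149887580985252778317671249911841780974943582456238683797459085252184455946473999283833952315339578211830154235230601066674035972272278270962129556311689954668031062924366346042169562482329735184505903075110991309823826244511226402268452127304726118580011796288786712458846692844278512709840845539393018981022562882111132323045536067088090195220301769477267512707008678948510484931428001965382951292800150195547417051538046719499065633930442586658659806996309728419444749196979537450184694176106406286122189360517772613758065144536173143800169262334236498415481366394447270936398945729927383372920066758053137290727731799642223611632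632252552241165939344238469495473101791043405515779923339904853608460700821200279870702381393256177983504309022152675749158286841129006770047133486180838534398746676261018925646090729331913027266648292749852601345311321104259899841026869580349804609299642854854536787700839471536531973762265803547068117112334681617918295520286917298038900893489048773292373779877247616588935125168476241635942007445990294958784922307393475572316455532108997529778540800975107692123694217315904043306993443715207981669579417955124595089408703332547173360003693948089915069905088121215391218151707845075480938581467896130411431822290875583955857694701843343188133789556897003762159361013116348481590310087148555764211603363374883624798172044467519830950306524270309917635201347155724633408193636507838328412584523693540142637480226039244033233219126467915340677131745020080667826063818855459345528539929913715598364362465667527900119466595882841968005470621049712212578290450973914831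928312912019342417075807458361452654054263348256198353588615543110251758758347269041857263841731350269831098591667876579768937417362843762348842328998905439507082562213077645460197345606354832987306241782208265342494094657343301247512986953760768628338409512448206059873845670796590707792349880646360854356363266546549365394822488212058034958134711254298566022895647213246391468122441566541984330361059740361572822058626026691975046624647885721199069755223978686634437507510626042558823571091947426661425012453131594257803824557911759729117847968897952245443410662069145785477951580433418532768663730677763294956386980302324599889516153755075164438752747479693079838517757456916605953858457146928030292775903833718507929493418847406997717341835180974139670212596523915479012787622934334325190646890962773327033485735164912971850464234956191405095763049436616567416046816707050584272715382284558980818463146457733242534668632861451785009819368463331122041451712712262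157326148435725843609083853325394891012223440828733000005470119907632571576075189442879923908332512112603063550949738697636267595964081629840000521849111352482027301978915203063892330791649879450325949584014448884014233655266877028992214465610948435263187124597854350416275900736206264616607172648456500050866922363417007106112032247747497773136580980054869595649325872510141309657728151516201861641459900872008246667120168132157789493138798919869647077549531868657144160203267491024428910140185644147227143617184072247772080979588056973928170433870658854572376548755618649535777283080360150607321823414976409294052324435259673785597023599219047679383059589666474329096133081870174442679788217502996378332447769414259123489372924938466801656569097030694487659243404579907019430091966350016538345280013162718102191424889593525332542798848394209008027490299842316261493025915471316998045587399485757006854463903220219244366431339478988740101632739940288473699813045303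918981814194965113945901811100150709046739138392538576963024315372320735036163687499895774850013549214028459510495958870275533615434450063543778564381947872676522592618579884107978856464033290180816418962827945885757736209087345547365125447206716047420838680010559353630569131693880478601451060081486323670273122192883376890603785118145990867616620729930500823382674586244139246906565445170870931266421301479005951241000117672967107725156174514159253016571985634232599772644188521069044226914788737108322215973213513110006418329954452192608537604357484980166017092340620983620192593896230378965966135896466852498885304983187680768017719877775964144500980725814308882041361615475252094447231217301108699926011897512883134763876960559981613605026965817567740114553818605390555034433872831052124525421795272630149831838153153093067312606652396006883246045559100068181106792361668028315644293509687720347749910813798726751450057448459255659012587658446275650912591211170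353124031830792546682081994809832051870596461683488802685727567818932980536558717024724797045774534856181947560271994608444475700214842704180829751987782245152507807433392089258534115692243757780750094014514012750448143821449255183440329599204874110438332784005775741882924802718353455921272693659751775984311929001032988377368076876316914551389444741152995640579473169323170119967049671817287325418040607195587320626517287312072634713209363618884530653221315118344172518774911747105390786837555432641388986951874756969651245435634622853268970917160294611953370845957185669192190691414697451932368040549579339044038542968401177098425434995597591123655017867910710838723691433276854975694658303533356265006816295088342791950772623127607445331226962146915802754341822893350774701773187615682609296328136002957405502419620240966363952261334661490147725513545074432476914153763477050851842415879660571097464993028697894201951706610138038416575037778058101679859696011983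586401067473988510631616089683066048331563524399648674578570792149612657234184292343227414860514553135038762909831973293760501603674917802268933605105723386909751097066785493600587034389023068867642632996793197710197992957500136556079963914731052116906231625338875439986614914205427417983637690128770000083138203423339611842918283176374052934635606855517782063121979329848363889582333351993902138559598443625702872335262749615114216215084086201262581272723804218036691262881308156702563735652560573589653896239865636169727645349282399194567313853234991410774616156650130902241656680018136620387641522950598428171782302663031076200853324178649101036433396211222827764368423205326659126371785058771639040026751870415353000064824671324645318786288712809581898829453952008638036750289660045894079212563658674951315935837218559485717607871006789130226197181283458967111218050642705115840272063079734330632165410804545763020502811330940455961434716669622244101894417489984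890185551615474949477304164292733341314905816739748375526028940029928940096393129947083777048416114557268936527662269778141930434771687087703943801421058091562506513633803751417231385530395011242703725576059553105585855892486124067316058329324025217111546949546920160409780718901101680101009179157020726784869115351862554131187364378759378959053099352807960879550945816891504873586386167401926249704317013613607607292449576877472801586660369262692546963654512895419875007686987608935228864196576819496806088820192339470917744295272198723110240716704461455633798363436107899465049614665461273380225978438373593796352275202314169338403212414235436870560578229496902497788771079316122102297827072610871497935078314979399165087077293582843916412089053431093528859036446903850170312125103681875291689974331795156838354907641994273974795600774697799307906823547782068198706925901810695895710805141515262457545898307322059435935560390684866446603374069347062801735733599615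275602956053796245563673132196691430684725034723016554353404736405457377515999424562775132937365924274673745657770411689121067630733944860803833334772224589374948300153249580066874919756935544052667832517171217743817197851574501000342802851569644717988464756020079339823305312156704794666390239071484520399045493956035047722312449978581505616328596553156217436900166253793963460175161251529783156117481642395443196772719102119194870801563163735721602676171591884178264986826435080540443565374734507054701439586348551066124172317408764876625375652556762711945870032425319446541410626641452147313633631775158766350327661069550213189455859116572299827385794107927383667344134471093377439935468486171551002704305999846669619498693011450615541906434733069963562221686306830446764536362761499708490172356021326266557238341651106549552040268608958219827783574028254236321962447905686297420255850057584990861221650302658444209479436055035809996214997250370379399936171437908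616803116678221970711508583651196484523924966435531965111394944486968732616054711581124591030367629172106260907485633507064291798044774987761588920952502490760876195879598671850730851659568298530309075021818043764533978847333024338930085392168142886441543471992825418766012899918556904767895379782706254164934056948382310354506590112977733344274965047970411294475968438734604772806834589791004320780388996150343439030356257093003596331757342217301169136034438166435723934173446031831502809969081883173316412777136295530822863079177155141286302571829162301309932549558673076701506398009631201705401226587286612675813539639228819326363664570495082542729260710584439559473404892204040212077799157860071198365630572606911140937775696484689355652833589584051292528899202298361856754574568244822737360495572982326134070332044995723933732684801911989446062749063554826300931402258113703667264452995054508965759856640527283378058549428445449503425036884985808443094948452390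349087631589692475474657048989267706864134944177404636422615671757267021947618780128118887402581189482515145219587076320642469846442567863319193239540351864845185124365290387469069553731215570671852491389259367219386194361514929738003049113116014037719790453548005225134466915364319242464504414069561111744524526743923100851626858186346480587022308968130295585652316083416187059404144369532145434329152284151812691080345318609767024052759581819886296082417396039113079355352631701864932414458000084978046779652463958457570592837321769659085641054577905499066241826336811428906098979846933109733690807858874193122843081831078386371701486229901693848285244592033981474881257075973985820535996291137909760214195455985400405237745107300021987124052716999048030054144155520819177012765229478975872170735614113489400967247079756233167257874664225440458475198551023924521431845667110892303096869059056875477282305718093142756603326189825526109638394943643393390085501560477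268165572089772556333838392822631196257209127985288728626790459535256552721372592079644327853962382420519181780822106767423748767072743178019467726822945530753068792952989943025651524462685345951581778240174131336167720809422271869927149161235985366254701965305501334394846884463401027571500443925677873143242487111327585046711618318694429268168515026699339130464083871492677444709823517182795256875684021258316921459307674218182745813372356135386548931621361353457383015503759645018649857843425693177523361128837740346708370020721705398933838216913022573143623112731896457041598770490848929092949837852553170806936080958017204182358521393105594070517582811812623991404736238906876595391856933130534638308874146202997873560667118074192733669345094766914308259069275202937433779388434842706584504493622465193479749948463817891543195195028739903712438957528168786680608824663140689312868672169537861862486043310499182139080058276038480176444078557978967451055021296824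829960344045960975912713820880210931771056740170660378526535539830518370387704699303063140100937642797535555373472400754578878311606293065086209164066772734447442721213181586460826000906060245515236742995750783675229186227913255399126669560102398084217434398457454978113496191952551514980477139997364037833515859638843987629558742950618840131135461322042447743456361867200013130507326217883293351095473150950037577783157526175478623844775204533530920548927677721232897872042074828769049537622408501438007059179412191415802796605734421549430698290445825363314500349973247529118962484402594347268510729409810655755133352419321076590552433925649094065093252948869412329794722908047374056021015187200486327413702267637457852939341012554313770107110429732180489570057290403289818694962033106127412286047010482120738625676738813725466865451596363617814777060028502297039963580118193917171866409552919067801777735551877555173318810362181526617657604134630622774295649268017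852803119350139535419926501844919127948056464071641063615164602751919298192589461971529081852522147418864859800529434855010040566555852074010854604225906415580283718156938729521886281243679728935679299287142832603886527135386202206561661813268257536210798343165076754208740689359838591575079828447346757244229103024302917275528280588590297996883816954134235456186756092756628997622530421634985328071439155863459070478274772683225094808448899164746743383713976913611784305572111589073103879096599020103890999714603397856889911887070314838686189282691547665216544386785561860276840940903277532269140464251798076669748282283253840180153634551533464935617590272206721863466436520500554392430958007667435542174251283182396791206654066342151318806874203051791170289586900585591660848803265676463371150402612544437441716632091141081888759146081149272844817840483336808282407535051360078340840242891872452002436425545196488288268302252650833715443609939268160201774363957527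015768797344299276471954206252172354647361468063627736809472020901668965091036786033640254196548973652142831448258637426946409861566877085443393990192416434177251901747442367369529271547717383772555866520926237831410635782470860185730808931541891432743943131439609852804443631501719790720077520720381878643591315888604063922820667562496134491080739686625984299492746549545896160282786414069717816749004907113918356965790108607003478814404824880881515998688371404318770110031122143679183681734493629602191816122877832993771492465591047466505298720149183206699059854240230889820991360698317203824994187863559888995282743536311288450564011330461215578914502042185165272061663811757398618473848477782639067888606867652793831548843190510267472316746195867059101849682982370123711529658967300072366948645585684228595089548023112905208651121495722632125315729379029131417830607009010092780603235298903765035646703404033301425036261485448130177340623902887335256084592537300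698782624494106749085668676590187583995285467728619431579258334298825563131697131075539026228127674706837609690207109172485940445548652770402226602550369631164251721845514277866358978238063627335118641207198678081602321533180204454299842448339284246615938832428734152910756077845635211096500175706751245455698109486995121283447755485258884073773537963721793749980101259098857314271988006367949677841995627321247560525037594199312327428652183398896276444089422474673540274955092285689267500491509149369852515388560713178686646771393961942187966784956041825237879441654303723609586555116886485958478148871294167073023366936262323716749605219237327757592237160978077966905597406093034354964105702793530026055639560957758692414207183849946460297058841826001194066674270638194283404034988511599868812500502198179205295105712315200427401569992531623793173685100639478953910109581682346664596077630666719441973346558396079329206031251271588926572200141013937076512412964950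000389225919780855314768257807650555455934675371279347630457356191371622083269318798573305021276030820600501532090454784628955858796430826047104238559629347150368321769150624717272746442552447536074406693050948959851602122603330508643530269188206927828878181280290118740935407555095954198840517839900495947032674698231705761814889474307701209398979463038430719843035799965914082347821688456698907384118155385319321451325364642888678000188274152452616639744563917120357747669485895394537392604696745788446072402840503531107253658200978813434947638098056767625770483579486453815461449428243161897621230772523649504674842974400788434193319370349616901656950582308048517233821814886621988126978746187473069271539205485212624254658995977953585142181337575466387102918086063663392535172446916333817062885614305464977195008)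

noncomputable def rc10 : Nat := (nat_lit 20292976948935365878441960969645445561510902747995299366507959040180782281103375960491703219270648069390169946987203473602315943394036897611892775728508962214495785133752688815294334390260437728365624807483489946109016925113752473759756905240788718740841356572583446200404239075152470404445049035529978915433369940163989288515062793163092278257873578976625039908064173351841344130657834266152523488992380923605123621844325886199058128128487271293773314684415104942243174332715625472278948031650918767980941001352767419463029225289822220997127089153592657381960667489097017961343412490722156020721133340511405774543582827575503136147563654057058479560792989946354212385649351894597130130695433768584446201130307829947932855965123673432140329244233437944746009803052579880408192694063314011931418263749088485005876145621096432988989748470838818586207951877737007932010808485643811413823352625843724312972113245651784802352685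235182879187608886633566830967112652676537347457768259075449913695615269801058545791600059932554889865100766621357536178265614426433923417819258882436090024829398331162427352338734443026670054442357133345353425561361252819778898636906582359908781852459302417764684302101080431811984521691569034764569316254565557340033753632182916707656441480354183559446486467870964872646103189496588052791843509823917462212272295820682096182620852968907969439698077505642275496433185399507639437602429494885036507884807455143044781069502473024781284030447871105048206387818255780216910694729037399114830053147874036682889315763621397313540007320263725769002212515239132177465514353194727996003389642855846199600303008777125656525361645674627061054609817898390717965868073529315518920934042359662834687587142614757024811028907928112983912942141990318239871196411955134358390159993468771947505563106665955030542932922763108967111787291077124270471239941948552526704539919407562748033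187515422187448833039724261380595095013772506159115746312298134048340606431552967108393790192004243439160841299475190982177346688941630636417841758745102302125874741848536904435036841107421994391914462566176955108777273152259469783972901705788339059607916734737214824312937574896866187939931831172725124737161402975752714650025724923705509546592397749427533413493216276186577620412392681049119036304977296172718907366316506079170443845923705063998336676298891564652866099934611124191064689057366322848797236690849045123024977071726270693443183541437827383586996587645769543322161936556672722554542602074730046517899148975584477125452586795990683635913720901819201540410867830409360646704138334362033195647749746271806099236955572855399498047787684307207017770392434776141820771304732685661645143968228973497466346130420248041278816107003255248566137788555732006919577570863347095432715842873476838824045807355336571663476450284914892315390087583389363504814474499534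053606668069728151883852031866737536618986177839061957985114269626322164734626301399332102631442967194797755049729870068651892578787630298720805475727542084084478755293718552206026651283231365340283493028716863822504610192798332838175155443715409560945054013175052516029817998168452237961385903633732152272891815740115822662916699726981760012981653806085759146264369474093122454532994847192645249065027064939732769563753962074309134394141740284737450156039328090313457929484446397820794630194105936766615424952454942621017358897138453511937700525704279388360110987799644345650393232199528298806674171774971454579476420095965917496707652032678761705995709705127472624872927924309064559664761610989455776534660829367929367745616318751964280442376657862035870751398872038039277568159209085651889047617865757009617537266485155701567281996678110691283219799414435273808509422277368825055356630210826191404384097873666586052660785663052281726088556852194512164981695604448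502023542749583433643693464725298083154572984672416002975146440517882955317446970366047098851143834611431110491359559510098821998029159579188804620826039336783196831757600656501469067628306557890694008244528496936659762430007300404062585951878656273024789888942770748137782693942219007417428699037960574105022792057091690075279697476013620341653691889749885583355144653119706961038985363183794255224016383041264450302508823970265205604937134302409831601291535755984687605045757410958267621039041557063182737943321558403666553246232519066278392136650169702531858294283641944240148370708244185690695648557115824609693879083390665583535058294094650061724004392064720878263861071883678980848042112572197961025744928193392341222156764676276584507638951451112504211160611031039787623941951783284471524838878400678255887562842410867298734722432054515096936577806758242008494932952332626482126510128276080363812154805459693212806202415391076457675072713262587126381319391191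561949454164041962569026421983911083587260624253610904300773835398540388826704158468859739107871438434010877165982294805459039741419021913866227493700436862535577986411451742590376328293949992448002728805901033973804729118284792152163976524200671995257020256001970754608746740230330869744049373360182240322196380498252671559645234005765806337685317934272893005245112605704192710651298899211645016684959668350216890408322515448377269287892569757656585415667147509160529241741817264787440026906658725950280947784518090325292497578528913916491276107962912878104114766251933954312960130747938829348300817121784915566096410969761232507273287169057630335078250184776731968676375391003536127853828232708788371761973098460541753345094390860606566460844798604959955814838035645420879281887240951766690689056044374943289504188515291148279899270412335421856782173902900763708882579908366692570425878716415558988246886837028899290812099218698449847346580455175449191602797928633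209924461065992442145146314056760817151871199982728270659580410993885016153807839274695735211232238832630876139867386970795228996718372354161293483145331437800357532396937178203894594719615442461818232126426676372734330336078982684354976635671776847406621169418941482794711370950878761043192375797266502453914342770693318836557671955219733125102851774268301343271149598638160152315492873243273101982053016472759396550859693606925920989757129370026531566576036096269618710000609124545536904259763549932658032567354751325392377917479625571628367739626261737360930190601294926865148121171574001864826253408613063285512111361445124593759840603742119253339905150821279290572698671063771043391630751304218972031151414065146068030066367555022779784125209043003510110824874500018398325667098525900451866811036710054588015913270740368286480471044559943541764308945976163046048712089255041085984012629547423628887649600586664450125431303846555561794998336064854010778620303848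572765921523310420671750446126472822936104772860117151449015299334213817330665477866931975735567209047359684119711518830980891404425325167043598758822468896553037275592846961763524279402333778359559181732351267723405683590874984555728235749512009930390965996663391385163366876161009250638247943868747653710971133321196032824716257972889834617652746524641677627535446403356061577895336925141772373985612704949462663410691622803372496604048667486196819385699589416316710841318086073148950665074451720117261391981521037432918015670969861242557436218582174437463631462386265855419414265421377974495945950649204309887534366857335793373003715636407495020165310049720710429120312215326132877458964211253744481543478848326648852873978518505859887702748055745938328950556407576474135809614154307294932246195773122915304784896563026138074609994439023537141347881540770159922735191863394526320167314790604202233253093935361073758172385819728535557925768849311456386664209351583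915014012102169585586053283828340201157982112511471838343240473079049361849769671528022437083377988793035462316545778660630238980479045254417681515014599445552450040015590487963750417091381726615892517796967904513380593262700766039820519230067238436951811086645807860261219334778419292440542739628599842256893384684765905727550501344462923194284404158261894739071360353243925978146629988274182554249473835079865239635226956572660172231823520316199427780434318427029556918515648184860745008373532433426976751035067805063872541519642107004486776868423255083865950304967680607203886378430845687239980488399454640948571019159634252019345855367264346358542312419579647188150404431922794244096925920476036901113564724341744453918222587464224635925286054431425159627892314848584659134061293893958980122613040934579246097129517665786598727073487161724351927443274371532021442152581748313064548457344551526995143119864700282556138962935438692315375137380485572859235606355761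483588029518224705496694090957243499426003275245720255817087233984186681471604144551079269070166982477466009248603824298593576923083964002691862745744344035702578365820984733622656525250432931082996060364615766792723624299023732148181846659805470436910385785522095058466306276091086053485275562614839815319125424272644295824140069028016888415758835094954355905629446806785284932155617356770408635065810703053773107252010966978004055873390584593402677702985309770909645825664940521203377866390357663275447866774890820226517316802215383397865394851781761741813832502634456031782262418833255047302711667583153530818334384023331688039473259951564668631819862709164192011139905908433012696582659617665200194923406222596787258110522641059500951720748736433586979391990176828943638962085610097622802337112440021443855114779733843828856029257528626846870546507429555617003505171413931614462327032402758245721599009723091736472305791480601669737305333649387749956457717173685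496185027697430001976868550180511863629380073373476575149430245045923600923182719105191380406752598081626364989145083943702659028529135801486990895638115750171692903071910791753945423038099048949508838000371826440104234642025708239651461520263359583250167770032983712511770082745142652048730677253192730852591382294860388469343087764275121603684457139461707464720079344588946108971589243569742400081263684717729368974723005170500934870099264843937223506185122048504331681312696534300841392636404863778722000642345037984906508206639689539054836227316472714094466416717769871723412771958387978418025222000542727264969155685477416133962829719580535755104382604990260459886902242876771132972087393455359427273412758981564045318677106968612117969117235076098721441117938317969415922716234512705383630033758199880958987268711753066795186035703764624674386751766042511663667830554219933140466541635966353993821132164198189365780177934837642180830222864114857305461866288881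826690587556810315392332327574814223139266127279676896355672673395054000731761963115361979213435796624500329512905973559527640430303334825318306574833647701071128954467225784454006954315635622587675012384164735938381449085235354715838184967182823056288612707351234916402352378082615296488693793961467311658574395919963604585234794287346617165364017285779710659476696147259652872053551957341161215937874695083331310189435700838008677019040845958951100079847353099975288633312928096912061143013976000907674791929919965184948638746924869448251069596502963596536388097078661808410085352743453044108097669459006089219864879479381425869392437681496976618652557473778156472138249882482406977742556403622342716875352659329277691729105830637599208804463747331445675980666664943755833423003998919978710020185244668045553918113819900931101701560909260555807457089796451544840565254137347057691643686678684141008552221185679369609773512696146460204831474623839225403353731667655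598772404491895501110423444573576234442155030326444913306763358738373167849720569913719293145135840171738524215115773702612793877860571761751227247268101752433717487741371983426562426672003548187168357416101293170673725062328197506917021938133166303369791140012244132968625897076480087316877718249440444809646361086493665698473942404081243626811597764637528101274276310472678329643032382774497933611424900947360766993034380307100694379150471179643478524174539239584437596974570646895504202438273992090844137917253971569299423941162884543602995305317535431767326020475612534372947332135948479675901795201956817989289009000986403251781267262005361616785614237351729234097052694972421913081011021261956959183336155955993157673922770404789527930875054882155132996705374378507089995577838428000712327058658740504866495109294952588661310855142787686212869471860703300370739597908158723674106719325219113577644821714923253698556179443562455680630290732625090579640454608491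109679492291748165800730146123266421278324534459287047586966625057029154727677462439134014181811508106644760340188917517362981583856447534430866555118399647065647399127477877480207503985147183021428302639857699696893322725561161501510902052926189127991376026072120930113637396098409830126045817611401002235606656759148310474949645760772231340038025849691242327304706807672020309844874856623546679113700849236793288225911901496792802456304999419658946269523451301452102785911314124518748525360641173576059634044319637262709788183013320049088077570329749842890591874048578798678338762186504132960108321601958524930004465303684709881907475226099880439882054644678538324539201576604276448131879446206327353789655477460762313397604776614142605597450076088806832774541064625676915217515762270953023373534855022367490323169289794002658704004630289526139809646808321871332652830966219254409830889580886130784256554339879256669518733382946581851246154156470041709189944823901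047853647272657990792717873740813890242105884577487930100151844040007028021064849480737636585369068014971011787486854392353809276122583202961879834931462733053707561426303906595222861121952218646122293769118439462817225668830260944175386338223073119275378978979250979402899867494255761983971056688989721358803173720851927399088444288264985977877728850026916011180816795496922201135246821297892791203110472613286893451746584543787239403838139798284821793925457187926584975058493431480829884689866214981920431647250624632444602772192090209444934311887952635082852839684792859576516903327357695755183138921981232899284817519004609818409182070214552015779394858309786527261602698761921259354304449379046734499716996081986376647364193960494309132296266695842956552811263347616730185743690434904137013033564125386931056055919553902349224108577692244011643199144341831071066114340608845781347231517717075856863984892406245693106133908109405527630590870122923293136252483611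359321277918081043143537704255754436504006502929086285560181081231870224608285333886354392007867655468813419391695432397173853736496889040047884962054511460432299415772540578165732405912473391601012145201830543827875721469209131060996343477661147333259503480567173417696397856545978413264205460544328815085056237774117342508298199964703936771910925208753420067236533403826999954089869803619873354767423040136748259476761592766813657005804323535587494522770413505428009231416059724640722580867101922478353700918840976011375687944841379111043653400697833108264241779576862954456594363991889197933884978568828359501611409023417827444911777454709190007339953933372372299957952960358989181871045548637423666572180666435614908694719295082298129310340803799985206274364264526355554330196161202195779226173289062562275069900933767376276642085505554019920272297329406067695305014177248017198727965225490206754922684879572015904635041494186021706469361899200314941214433660492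495448277389231983601445192346723605964981252943920380125843280633631260751649272517377347807780727368198253855960546546614323988372261802563639358977835020276917683975220158233300679121777475446241160444002625842403005242720969537976259817538893579178324754873658642236411518812391774433641846477665055389449575290730650671511969051723858294948050088635090616471688661008716756329267159144298619519777871841746920928909502313754294148381978379714836767892455781436643702529444282695417454722224212069093498592595271015085159600838416975526736171058405503923487752321887802939317011073139721280385404543781756486142187938892260673051956839508870411513901438803803482718426020909912303107786976612808561714443820657277484401118835997226230818940690513111575453289088272568017815264463045382280867141050973128074463655316582104961409102758803226891085762018444537272328562915045926691403767931381875085857094980508470868182015717097655581078769980786943491305827225237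814488010409717365849148098474525573506205658761656842842761520576166421658797835772634406353487711166879075910197823094688101592934061557283612386726530396665395333606459971048431445364831880782001053355974206787086488786632144421547551031629605122176942875095173152037785345529431675188288069100282132817420632976327874539361538757291623966579144168403778794817503659312739437997232742046416035179128552959307220251175884944971761167808060474127786698119871689874366090814231859643774043153768915075717803781744358580610196965527762942670374496114427815253292612963092209023461580042748626548997889240452222116627154670080649970107240640901780815683628127042315557586049537231285509208627478516362292560630644351687332010742316536782458540471079054944958325948070075204955640729240798851321066533225800585603139016259918909856464509910512890278492912064921029389209178342812401853555450751631650108732696383399844587267474689268958862881674712903167975959478299666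4943519622810043725786366167001817218297427314654880963706221368313271343353323870771200324365453054507143945245373263337761190936005474050298180484439129793741445158031535816765026954413917871741515580794712606930847563073848518499511106808068617211648752597289712706925610785803266958575109257197339952019801171517857092758203354207550812040114322656082910224525604823214025643976038327726812719541332103898920767259909335001373183311558371941854488769115779192266076225457085616272146373821046645208091680296786900721906573743404968870243968827059503042585449401609624596707556558565885924079202743386354840798043027058265976033049497855867222954247846342279147404738606391021521779823005330366912261479282934844970514098651487857922834925268081938118386675345997795428910344413508051586494176581850623914648010752)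

noncomputable def rc11 : Nat := (nat_lit 20348558302873564136255965059202997230825207440835840292708898194460897951913847356330839370678211720913777507994091220403415843778070439575285386174920173385342163747861689253615100869400219498529264660365802037480024830374493724597190844172013748599480256606338332144468042772044302753302078185160415733989664732750452637653297377685335494746949396939791012378253789878323184771444103393190276834288360931798811844158262669471266150594448406146681245972831567500008136869022735914804894088655518908189661080010267971779789300550176945834533793838266483763009661756181689518902061336410730824388932128059421741492089955148087098526264106870394789208199159763076590403923880184804176473311402134779488007311655497619871224089085130797160058655448247533167153339742937222730912512731614568322235966458811739769043729954311776150862743867475411205090592519011353852336871044856434964916868805572426785741169969787085094507954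886895438108670305249811642610520026597002929027527310403619662229963762332676390527813609580826265584305347871264879763844577219952472973366628282062176966491272200515276291292180891395930337324524168085012275235729726237730515393279660408083914921482032769566574750595632237872594819668823858189789109974202651452263558551152733964605958479056637312630451987767246456281171561996672562950712658971715273734293360517349910577916027878433183421948410354322959878221403306070745060127979061582641004483870436333231088686415210831168452812954157298402205626302699843713837851214839563014397326011082709705140088718435671688862126879589047038575443677037346094851879232922593076897441795188920182550253152153907930083138689729190330003899123757536660712051168270202212658368576210705461695270449062294774051188234646086256578637824778449360304194869028994741406478826304276968979192205031163596438830067846071321762963166474927703284576247590930923424440327207477543966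737350001840050278137127496158164404912803787119351171756661005395299302789878113689492108273117069949675730142412441252588413119191049026397327768048179972595905712326985227623500714739487748808396831837678518577576503795624687865122746368895421119093214618374124853499766470865821469499846151223710390918575333666697872767742790861065252444531065634880530185090596356209530314535812050782114668876226681932093784808898496208288049629017798288564020799321799014821098398662693855536687476951051336942344643801174277797491915603148345058898098124913271793269670056715626276754443593655593191239689657230707196767990512736732221522158791064075477450608685228624595968746169136702280043689014477341277362670558797181742214492139484049987346498202793558896892935790298855048569171106878562496425449970064061051069320793872320210321197864515448264104402710801090250202096481853353748995427633048537047073017220093680804833394850439988424866719091118132921364509732711010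529697111433893065805359952647657908259293715431506819392364506450204486254595100847524608141012779736065923539390136459996069626733790728828171614079580076321705106368542225199126034378204840569895474709214301651741739971759531832226015371927397970497151857290070852150241010719461733875885054805780897759457831493098278291090539910111267675465178334525785428826091962129064925055472375256936385831738596351917321587492852375532034838778794673846115012766603442981064427545083264970386198066873132655645628628225783988830974770180463578990053944324404471319889240490596166970753741944075309910824354457135474642326399098929467094568482163172691273394747723562933141497312516541231816603426904252367478602618567295497321821097652667915758600049624558659238557356659078969521829647627247147381843074600278627393304636821557596308209845747469996813456633690564168497369213750145472976099102585721571189167159554077426910903879882760872549566775350544808210454088021702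632114528686135769370154826497018936054610560246208354195884125732963580880018755671113125402654493106194095098063821626867805937430646827601269764363378382889787367985624393101950880567485839302020773688447781793735816845549854730450386873878793438617726485238845438922993687450353002303493465065961972767859814739261589749382338506033805248570638973858609973740503970042458882463151328887655437611535240498875196884458231579572057489055503487867775285203231788006579613499698000600962366025127028916841724009288639890339500617114528054169385565822558726787465728879899530794758667857945586207990493784194460931307907425897207478218814114787629474651245119213997677810745230944681742101554279529901544375791527199962883790076172450032482935940048893731697659311069117885543540800379170134728650679273456748207379585496694966892423885262519578993031795824861915700360849885260266404111207202790851949669765522684371769756111269530010252258288311739756723709698559292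429444929765761340384570999256465115703268930575281378006943355749638306600066329388852245109945820093999254248332054314457582092003400886625431833164631089634112211313621284960488485164945237653447191409160389626297112428590623837650928397000832434341048734818806424898099412104616767809670373625877458481097921169196359747692900155499573883154429342488811630944616264753689739736623933189673544267658886776818863732697661615896939493975133941034795560664753745098423275405114963504246734058330409338773795752178563608672314886145379015231216631941985891434095232370740385979638451471572723562711492719596836829204400886506672089288737725252911019544006204740629160346467948564240047955286167231484538498817956722052422378153493408851776890533144880340077078231442509268794959544307735782716674615863662054894079719830361203598588884954250421722476361466607717987790124794753750218443913030054185171363833872925184485979135460380246759071977782907987517422960682530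590918615051659698475343769201773094070290523345311952159896430973412658987909340950163492000535297052480868065838011714723291267632620833321029430318478804534141220506108456839260966282833486986986757238534764130223956214968445622205996566591752997027061942605501707805309714755566739867740106380456533922309748003160096348346748268781334976791190008467419250590626839343133420201695836324804516779092129603520507709032623882323778691699334217490985395792986049629229524944543008836213762060723503658861724756248174979744392780507683476098452311234722772397059199060196823765322938747156099195488384938026068324621932064271071807580591764978342420195585387347080379296499841933636551824756636469268843003792928505269798197540250912018172977563167326507478258962681675560764857767604100675852199107624332009449100279377077121171955243072103107016571116559677202218500868938483229315198081146531436250982982763132780339031524209565367035293244691287116030590655585171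417984244654871036124156639496027656546089696206546180308149182502032264424829873498895190360644518328081923718351282457288266980907461177123660563041015343255521478389541207133432191122530181555685515621622580315591457848491726123917043609649777215274030975483441275945691521871783655535197076523217237919859917423658713550919106614746398014355815446396274474125054923652716032492835828392579014373697086903448739419076454320501098559354214964533955315531111517065135105601591906083254419072209051950119710567272073876637965010146189354420751784259426299676130153583835485429289381111925401450142758042446060002254818645978604336776869023676558163503004128065354558355827378253122965477692845334880280394249739940121117459655850829797603142752689848477835524781083075498723545344582547954375230230370500273509513452350601107148930392183093806395582992394577537094731316013511540296948116693246109173268019059580923370966877179286315309682475593943851141400340933017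037093200957692972503895363959222945614177476170463920509865586441315006617383558437637811949028126184230223952590176761265383791772953503848548077412572864301347602561333026903331424277480042300131678408081920220194760837843902455810393264279084162168137911286402948587984948050087435887362312130855225677260819605511158255746547191869371263441072173805785362895375788295721931016279511369827817932144327419880940763156690230946446471834708345686835800430224080835141787495101727438502067175154129843017800303167092671211712744393374624075147179208676729492055481915564999311956531659002249034540730216146064077482102119042774016131176227605720659694716129505814199043445629074251003346378841025782310442383269228332348588864729708733206503826584417828623550496194185144724320548389949725950053707501313336347996588922964918911980754381232858456216345216067341824863763404335594111838688832900183850030422605243188034928308905164564578412147160283999369980739914505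693027754189414713986252911616692990967849508556400567960649888426101452226959071544317354947758857214023693327883915212215289358123966874685700798265484819948702759915322110224947117948405218408644809279293048557280375013299348381361798804514137411853532167553384620669755778174933493823626338585173792972660517622275244254306889082334855398721748395379271358695611877392515404550344050771961234966491226845859551851815494539502905972417934915085414307690932487967917223936235340386907681388864488548943376865703027460019639305296290397846868715931215828220650305784215211457065447625407997454706031624248488095599008666172400263040334264313165357033684651291262717254130700834583109441549975750945604908274946903333118756853913868949610299429713541854847712710954032755316822886702256866837919358572607294224011381669221700603919480310160358595263306064318464137101003601465921536728735112223287908983350356540600557794715593601682525831876587588471855818696217321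917745767302118379191285600354020187308759715247732681972641739911810164834059919552223654912437089707452677629563780310288802657536495717367911454572796133763069986030772087369876960900718869329144636683220510198159011596285304425127538732980751568785019399822876913257166445283309136003265648248790034476549052748860887968356040821089476085012002667841988166438920826727284629878316532246835948711513222348176622374001842072535745553329311836890285746400957555144311384181581978408647524626026104123144679970229589251671518738018833464935176332745100030640478637456972378376860494363798413326115210028942610960405627076107397123161056485402456538554464148228187210334846621048243947289480074320842899838140999065305329749936801806389940769600238006970100247644460259366025209577928655877384780153071717021472504055901928401139880741258397517783822193707720466852339276954313377278043087363160896180792654532365034916374165604386792701968930502088487041011255730821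241676825853705643009658218139021599455365168718281728017508158246746856487331532394498897726007400189634318848481895092750693338990876433784304519929325033250824102006528251347154355742045155859769901283451354283251550556819636836897432428028014877727931978551426819593444677574554603692694145865064738135328809498198478908861117325157654450288608628190265838735468550948747251919410370000365563249938528729574447396342013551145964803924207501893308051494212539630233429167397012639045981764033666907383622029742391208278796340025653456037249835678454652324058253196664828638048190316007831328560500154889910760860727644584456509032279886584052313308252840084261280747162947001598649238533345889795423963889579321353913535054432242381787602505855321695192243930175633438372272956737472160218383453013517286991324904206404993647659908648078509250775578478857860443981501520839316437259155440597316082425737794296084250140658417247037220088123982713404358967524333691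585568056414609434415052076523064645495924347862884741926908111365941455209005276473017344083353709131217485270697923533803379946706213783221766051396378486763188330149636477597430911689237196743960738012561442198341170342956950694559104356336642948776793342735153895744552584126964244663097476980900953274695102916508624997736269644960464038646752544143634031311686672056379596195292115347495912435659654007482682489014788531459872973191541950515380191176725995179603595893205436313054194693900390972296354554322054440914015962721975949171406565842819932780964886363074764363027912460382487367220456247361915449799633849563605854659270863752305716937197117492116088104010224872633663639453320310362901835962142890670420790270098814542721265631890902646848899379538335071721143679512801671260542972479852348695056631991686932491917019609108475684322827512883575436939905091995765221437222725689534284079450489234894416233625026778219658300890803200798182513326198798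565233330240570209079564255197138795748670705200510396528685585058662538260727444663846088946408449457449734542548773578382191415922888780177986709434601446015962820215584550409629473593764270496882837411849603423649526823334033912502482982490504143553078172506862935408966573971010741611837438996755894823672232986588370784053173254306050291611481950911997481873045943098622358665662738608418565442518573187878146916091640878984896874552392178265358495948845878420105746888820907291058681963901002621125978665556493974635628595933707625126871300512882834312697500967779818286562095852844764704126041427675867266407673611885731639351614334232050005093864663265686645115248813252728736141259312730579996811541982178303944703373320042275570706928828066921171011500682185899894017025591886071623121632784432863338380014970404891594350425189518940432214778003389954022898188797957504033282167221546982946984046519581373224244328097711627237406160959477028199657960319948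153668157952958398413745859003549150105713152349567447262583392388511517569714215719863575923559530809959626067349140920253754960870185541967576173952705975586589401780520807491998140344922220291508162593835970179606648232916923849115919224442215729554602090533171649670358953474724636616345830352340627700206266581247089494844769224172552298016549836621724760299000245034083799375052304063299534041982563729594498711982482347543014481686634841060129402022803979866805675274177343355506554209501913602868739208067181006292552465934672183396964616891423478470132513438090559865183972797334691407708661211242124828492682312038084951039908716496921322558857227878128778905790635809299301400267715694782458680013277619078081422977814798247692088347566797941272815210558561350579490481031721280546049903386274740330684201504235953902840216042473245612748194520316825213148038149725208772501311212587994698962637087025719978445888712488354691977539712207051426197508664604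718925041866266595563248478393318209329374739720952896731970274736803166021460144998350644831447445739935050753860760647144273425651462840320603322710944775968106787583201666719484862613950715385195562146714195471965339712511853506400043937547926188980027294425137647908288459765959302454841157547726421107179939826921034024036305788372117554857674454316757256283834098233311147006265338329052723173041410885214468852896853955634324075696966818192693346672235256247491142642142973015638896333200230560633176619725874003602472235156184270663762555959865645346220784507995223100295958557777929766935867455985277561364159578506156466630976702533399988296371365155256986597939850910593484193639627996468015983361502058312777384936494285942804404422898179660005249874098338837579948079658623708189900753610073980887063149295483708475630156447440161058853619409218736846980512421555018446957431935287951701428779266049043280414347793602615003659975425157338965500150775610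543745430505733746286672130460719005233626864016028290697208372231394797542253374604695376041542005278660772490664580612794956609103079128379620653474712968672777268911023937776021332347283694212937681824572843561981315961146765967570483269158727844548793781427427848686854151643182176475109061546746448533321158393679417714419373371280456340785043053859435434370361585372101229710606630519440479497533949267475007863145953350787927142894352104969054113979925374971539713783207143047816989103509285850117232235467317544149033304929180595130983277950035786537599347537958228113777453514291428714547262955667037775141171376178118656132815642753948925846009058623049433778323935970114097887649903692404283320029333313259616029673879045751384464458370964792843014256393181922503115807130954150366181878818675899654648862697780890756760875149681424516324308860971747173198432628104884636778214804160730020408915502007249271360739964779090319968184797041265880829466211442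854156559047137634570247622566613303871177271101420991458499968520237865817202453284166928926065693085443533686604550462300462245306179310874489791776033875306808520462312632566513653365877219934664395513804252321152104679193725474586544650974655143956816918826081563134665143466061268719083681331196143970424605463856789363400847081167199188021496635088351031317356720336124003603839409194197556667622628697207846312404016700352773052631050659849714472553047129862905504070778171137996553912081449548361014490918768223410938743562665577240751387842652656912080084900898217089040278195951756703624452074129840568044249138205796893541264101223534368281532623804742520586137060518578877928848474769934523870983265416601323468064559558556160463401374820082767650564956609169914049763653252089518001485717835503743622833397393929344785655505162611414852655504605253028324067777085767582986160382101835115081023033858230859532360552653462641126600446089976775380522388363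7004683486782910581492913429959504265788389670632283673279265236191514252022049016712403652328785736712164188289714276877890041720150287131495850932115446267042647167814075645539972872046876405179313137728242689078772453803640225139078807709846442626936854293946152469777690562287435299943607940511491934513082838097207951650289163013124508199988211712020360119505237956255580094340799163406078997066199198467399536946030271400678701921582853758578338130704632577886295489927281386456446073976709118403185926986782647159081698673258901116001525483959736072066468081663631699503540643572092068071776530125904412806828413901668385120417939577160177446055207021527207072564816963693621694436680799379815691563345113861100403772166432754015962369526114617944729503297345997507010937001022811087394212815292714460959997952)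

noncomputable def rc12 : Nat := (nat_lit 20403884605198790771717373309217216087913021130533195351688159637786240179887427924455776960902586646089541170216552651727634056134051930992675364322698180389014905126011841731389137889819015906165832868619708661020049377321571559519981589860296595279093283312255994077770870284895194869320569204251744960241988369265300101813487144872589222016382990986580888448122301173188226586634516745282816632921980424387708967848920419728537087602529204074617264271913982828571859150099673269281172009585734095127402011105363003207037068741313033826881798137580907040546564393516962088743560157744185813775813179737509730867475257083938608744294232407499661867515269449110790680301968104370352914901522858840630583523919582960215443750889709833183918181527934190845888270374433628556839507465986381733772615806078713757659000427742960404002709281153430551788240123864895551131293900998629016255088965486890849194827806108847590121201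746689248190881884133975591315501291878641277946356998584167356016280481800902906703662576345709396892677587344215593575754557108221690939507871949366040410366039768657765942781081932154389399693858488174668685141503402856340395312063831994985063132661350700291826117701280147897485293489238218999697432443871934037649395990549097315950179361690092043007643332003746013597908653750376070322759999510554423023086852212231499388335031420020965491055569925466200196751173428927408553966122392533516672408735984089109574902010783490358693390100894047564089476540691647767238463071642894406717716895941823441445032296299780545467132761041455618409446195259392886974237699711965841244326754838479380545196379936658722058262145336906718988778699301584571706594217896747254701888292354927659717602209681732935575779981552531916003433726891449707808342431889564190339567127917190414119667620599536724713785708919785236173488159150394403351659344000662659542212767190239290764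757896691977263023664545206792496540040992433484551973581076135101657479624937554791162744779030861139692352158551325996154372801424854811423496477419346223563031662797014987144361926225476764229037895688017927955436785989544416948953258321296040315357338714058106910265014792445713798134661862926058739582175337164011465522175247713388030468725714669807474986294329767002737921919982548772029319311379565805579283320225402628694444809063616986090826871665749113539195892978015991174258913823889008517514306770453413437003862860069496716438282210928915948489649342076658881372110855301276233384397185248488265853524502262896090525267277119797023976878980924884593325091252546091690636387395852190567788816616322570668481271065469314017097484342641599730946703459681525164372325375145202627460432138046766882368623940346599516220129467338287949202326705954254736691434619150385776495998570034484589114218400784120732051352883414956630471233591979972589398829591553237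550882567260964341728225125155037076161014708625180128999059881526553676117312689470517949136611452094042318360178601175856698496394360609561503069362566159683237118637722127987631236960582669203342452357298897447006605888403620154772568274486792297578500795737254541924492888282788846130049298138580226140357755608568328374091724102341158166869767009108407893907901367847031952038768489346731367223493390761890965085362643184245560581799498224240270807019528387003994221800340603561365576748434715175991239843706111739406919051617051941864915428540202794089880534633351637549249392172213631884779339575406548114269864564584604897783522872227596056284730370791289095952782860546536003206200320480956373232748228198193728231684504354993990356230497036971258286547788125206047859395146009411342995566460409542410165980211296265742525698628361640348294740353474263859805112408605645716881389518018364219860290270937907482118173482963902620471851620715777248068268031981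883106863500070661648535844048290205370619187586376577667052458854733679924296792979680523620543823261947413577057687426415252539813488322709504645795077532112215977694839140751478630264440724088515424491721464141302639726994184213736306355200762269250259495064043172882726489943221129215190264152412847248792149361163640900034402812305720976641600757858230228579411187612224401643279996568580643553130854542745485408849741425365008334262626618700624822924186226157991873294116670966522186717114325327182171010029583543745737081072937423849663832168249582291020859752313579338344553616103974940000647239955506868131536523028979760999303698794935603376797333177195022353548840025767564595506114469787555232338780411044536864586728895755346325960204060780633636387040706456865149437857300056116365532719370874432294270761960176232536159405564346424527239233153233777862051988376424670421156111168682906129719519497112696419015498137645755780208163685023406157561600782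378617836343981397660315502508358827312193449876254592273517613039684437509380502736091547463642169378028127897900280280277782499392598431080335293042943494584127205113114244797214424919704990051930607239474389498036741327693758118886248434830181988923840867272872064690590720837959616689328145950552088467743868414523282846195377380156377659570140613302566843215079749270546478508548052050275834946664985229564305898569521107121086767928197693416523366034089230627905764618024322781934012119665929890687890198237229905041671921070635272337546621617666961006337032243676015699604516533401104368393148057198318233348140419269431235002456877251246049161251177286186271758148569044758444348223684337677992195012967479559058000115643252601683883912547926263283965475021327910445305983126257246184329111399814741479691780875857764606037353853837349455034849850614969540820486147047959910479366983885732581529847418333677318621839499362849154577941073899247034631922834977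838283525118604791736945877331103710592281651725748619915481788201321538779124437891623882774136684932330932535958436733852786178726757013519383372797568630385629139595049559885513858431854576151244445575951215734336465932591189137328357304703553833029511735836837755382105915145196970753111808670993019203139671023268970447662439903793454954366844186876204165469901700485831391903720132017637904190726482216973239926826084849155399864601789033625281453702158711405433162902009547761837455503946098280015165835523951337891990150016295949357233220305606030871422329796992648423435671213441046325655463390701256748419607745071997661781331395085193086900570497730570995319100992753050593224537445710419737932745131743094967915958373405425376287778656722398850943035342143865468548422070530754067163522101683451403884011342867392455749357571664781430805866602935878923190247824501435370329981837425822955855847163220564874611031754634438827267230387457196808674145851909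638493293107790161859958791743615350197669025889619235859600860441727214953654045968547539496674283468330161999804513726947372629754061459395178463391095270365413636271107444936775612395201573769401846045682216964365100101308004420016111047212417583359304741252936031757250213404834063511912701597210625513466043024612564367176895199837650280787784126236319879907840179468058837061645142022814801356411205527772176889642295872413311849154683193807421483106453449235216717524050928717990431543653714580133330692800689118179519828428158110022746625796002112562463033655843027264429911575381567223359799868148150154166269311329425493446985728453041458456597846669802999354219018412836148886133012757924460156650697575480894870867989717118858323794486048516691850728271003759762309801276784302286758415969406205886437606785879031560216145485274779718539902455253329604962646696501182682086014169030242580246067509094055114287776895700179896519386474326065372809625151102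970305420548165787486018351329267045540895534433619407518844609969036175311676524350549828834078090206385048260891105372753141991374378847760790926533683339536442278729254425993901116233233518039010267317600760244837298213149021046717800677036493586351674173128756863200557086394446105994881743381605171378843478499439001617041760097770476744227859442329992195297223301323841499639842086002412079333922882941390163041154295282927842055982130723724720573871698144835958222552104009325950219987129512666172643284579185838130456121675513960666931532641327354492210127091753680291906557057324365050107939399751618614918392300616345171455670626252361866791664475839209510868260557460936911737771150425534324563919447897440885776221116864214317462366328810810189758850656116941861273866851133745204878216641941114735309131147174001533928637693956075078674026739068475129961636395378756436171964539080716360278862935249348952495123324920290968011028731020098998008613824416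711439317897690118176101816116801010003690945491998471142585041910876051325882514049173168142546866738080262843119026620276405915977856440142686216280268578462032733885802008918361531638581796201519210427013297691649605512683193486600556127398709023844091558735789357860583903804526554520259177890877430427747294505898864802885160453166036139642561747968483616916265498046687159508568794787015681395762952686304778652959051091417087600647261360450184952130415296599300561472003879486083384500640014342609675622229843217286664707646469289440669947020431816893329890679521397443760541973382648575239251356097056960635979020442541968459800297968267411216005205617343040047972205608882201298284663967034331712544731732522809449146751181034944710335032764988752431102756509309464235348915150302507421617823369414238976916463417782618924298361489588163338731346279751372126397911112087761882392464186817402782789614246692156030907404798230619715951104016902231472984205008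142233404436752745733789830469905709747647093837092751510919021237984279026807882393019522756103446137726555823536209451140169772032623800812138676413026669346944936334198096151761282771650985224692559465807461854198491593952256582198130749912981292604788611978377058733195310638452014381566138431893213687593746249611596538366815244573711867412176409348728490476548526852246423492497977861575336223214751908216765516908162546423852766711226294110986948015331025634444350313475397828151742750744905358989507999774017829091577808886638070181441008597354461740761301758169140287822609028914714841848996100761864334854113791680101500591322378414049430810970852083808916418803369474861197807591752412195449849992034899066805520293191096998118474299437262750858906395410803509891699564609921666389567806115938185868728345821768878318613195747288832442978862145051017059831963649569109964672400731414485355688090055873411862263968706405266351391534779741284226906269342154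611149960883925191978382061198307961385457315799766904807293722749912606188445908525553427570022415113714308924290508223105119833162506122525195737786437920195975356398171818712254529124424037860373943022148228989505265185250298544568548906143312094593700725638176488934883468602062641916759697106331126272234167227367853659237697533313567130504472589361215419513331185786528443996970984778304059766266301916254862940949597115106126971586408472028631580675231262951328999557809414611113390338562735200546139381513573761799754901611566540541582187978413779218651160136974232641940931768215029632898855981000893337008539436491720223916897694927336979361064253839159082739157877857018054382775756833586371978868575928391721826351604368237634349312868758641583331827287525184215519631534210726569522875433477653161760451523695795785301941183263727145561429223290862963348350086109753474290750105303892864012001597609428076310809997959834879053008635152810715340642538492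474212398108116568616133460752007493672043634939874496530546851620244074828214329615748926299386211962335336031085679089899455813156347176854859003282453138958721270746486506491658258955027221985725565832147712006244755825849485939134214238382382390485730944923152300999617039719563428375164028722258710525240371316131493650976624555144446160346747566690819322969464072037097042981104792161024918547779071665732133171173155192231062734156632952057743692018820007157398986582383340991190417423846457473231073718328699907186341412797282612630623608007916629163400732427100559058766422452895195564636393331229202494700105303181441624215612747918247472062369793216765340038080147963269976576650213621902041458520563779667838962655856516775848518947215096197421773836925467537925640188659046126517699596663721582523029302304883647444170494289186210841692093610508875386661778649290646679410545812994535854088420675560058236249294703569368466400351434220648144484985762128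069757073730077674278165624724056080390986093039565030353795707699735111519021073010474651510836626192348624143247069875243894509506511268904603473318287591081790325874270069925601414532467525438535335483007561257759797974985321458425552789771474821838064410532679067336049711765905168104006084445497188661596424456678485281763770395748188111485212165202271543067638390452454712900107214782655778345945830286434334241651669879035930603712192678487713645171423887405598807552627429441424300141722014476518778498721576649874967633375945991897015160683293366593455837333078036146285980122138347509227917092180129712351128476304593015638157673204886800445233155359893715942107353291729079883594089318758009520727278019263475233200013735058334704496398357638487844108256425945676059050628319608752193023672623540797145692353944178195219015481346028296342837860996251266637416391337154989685742741123564462936222128483413289117286356719660367595878007625270661808891985266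723092890111351845506985272901414304902421397715049373262823590374173362153434499510960699170069848550071623257305584589278457454765502313924705752806292771952066454274875740228091694490309940928397338486210971608383324571904202006148823067549470838707644546034358174980080425331466282215112301930040854865892463422808006661174289103270138953576667845364974068840291475698954921885684472518017834783923533647987994052531983322217540634519375191128159750711259679811170294211805959987226284221470950188434709784875613009283369714690393938245290809863730087927821155074799392461528124586025574959062380430987723249719716861030950094959195524761240159643083930184613375835976621451171630977572023184707294509727818572859929001231052631027635625675512167735531757717123131314890799938593525442552040185388080493440658841390959387771039020006830508264670624773239124560352700606928736059700704401689467256446098463708439698094861170503523543122988967520926386367946959745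303433024290460150860730744810665625280608620388138935745429972515174424859991492550117329257750329667060185983661186111124471913547868475113110654838457821772896753632441177221739102777459931486330747827209600866553293165104022466327414767993145759294871633619223419941728192128783638319438836087165169071035312004945439057809042975481246216856595478094046709443739991191953035444901153314027326418864139094043579874547927550683166735988840169674047224553350256742823648224039957472782842401444504413645739460983362375841072734038314813101535268036574235874680294662853603482585801012080237934164143206354180289867905862973533955790284836064275068360543017815569855269592845099968883946043954387332088842235806427875317030179819900658591558570069453559878649803911453886677204390216152855550539546052971917459151861442264147752060108301629700362644057238028437531880370113815061633118677147331628883961986741554081587041791733905817802657878893119343515274454568483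280238951264695807385143582703843178402597168420867103801567942241048074631317137921280110135380742261276024631459359901295781386561653257426237719060986670749075348882944980983583689801370111664764545180175055533859314072471616840770262254850513901878901237575947738095651657146051438473758940192672167179097569786842212619304152116086163196251507354461174521870743821593790607560035153926103944061874422531981043128387008740843058529813100890671548535391332498363623858732531854734986694589284539275803406140153803640203969540618314803589939038743956226326075787505000319649168261985243175934979607763432280391957691274401290542415366271303045064673849085863691395469310259226990306963354401219943944103055755685188957888050582991822704357394466851844678800043713054460401820716890655989006972204678473266316072237891771971534167958777190491557003390380845844731601574873301016531482404638788838335094309345632768188568031111514503993816430697313984434694796242309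745376972497535721831572065859585206807612725868779523140228099977439606222918043260958759630689780099469716742748095871337912403862941988176007714822493366022172333199764958427035722995209042722231387714980782245832722576860737038501688465397034982507411402341771302087492068680240914049301191992011067409404318315261037078455989581486414772205426839912756776342889832531765620437326101347082736156297853869269054902669727143075391058118384194046431178592046675784502875775847434446275072344925637061219741285280266851800054363047960243657324013884132342793167315636055928826669413337926365447182908028758299504869029262029633290688900074064828827022164934763633787081598230440121700329474968139218697153278829395056120443358179807150884219046351312574224073293816174776161897828646294899796586198267316869059668444373115364872329267730402192994638064643413062843855324165046083759795289421792638271765329678619314412914891337861412781088389334018519794927598664911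8131979149410430682292890624536325904617612876695519038291858751665158406162785866110175465385072368234742506161930855671818218805505909307078557129154880513797162325089599684709313274637801988411426369288652307012134204003235937894906321686030880735438191207981741889554583192754962525860554378027463655272882966665104632182844505985447831830519212549446914190284435301140465989239790416876027449636714597744214463959048782223641869251559266937863247879507436342977849551137982503929596681562635296834343171880581862151139575852957028704632381008393504172693234835670920716325149884722775388284816112593527658318935525769036863383333116935554800759167891895807583336418215359712594879233046300040212896984338908137147016398712925839264602405730199125064713895386507192759884706446813342472729300255953933662538432512)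

noncomputable def rc13 : Nat := (nat_lit 20458948244783906600255696576940637512094325444444246552813402445780023435944187878821094521485995507476662228322951579052318587102381361073044497699391557585321910779211864846602283473230010113175669830920046523648043679700470752203260916480975902483927959951726144065870577520122345839026168084355088917721158750958031866079608066140747317317202601886522023186997294891890880723083082530868612098928966037413320440815024108857244163051018181187200675399641597276080786247624350772749192877105695798581864299174754694448697438468632906817506151808660167689919300275534999154937117428839180656709326261594626729378409273672411872537389900180608527395483492375208247228550179520055723480749129019321635144404387202769190581459352198496588534320982525260093655336644399708210016060779700828667359199920264495627559712249045516669979688214560630813492334852542792110532414340841901273049868120832661958569850973717163349320137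032675722442867576903836292311880957590213662444033605782617477920359627316196763057513561488758270891749276692563087376218485563620413517358364146795325388024969967797617537302886161173723531902213517427933220748405076988828320137174813937474904602532703313381240347797910963072176352743407924677090808993596583093477551768524328347017479321206171092394797121923911961331872846098488250013329347183226494501547679024524903018412769710040481532897525547633004803290164024574846724826769527319091220106180858865768044641285570334060001654109250939314497986727503128647065658478338293446429476889547180865015473965617782218213685453125996433725503052164146136602051556077726334924861100024652880294299267817919367007507323786448530661025768710392205551022845875938783609760931436508333987676362715485292610605155057813870726303772798105320530624664833649406841591927084969876695009788358386187564031050319291825594300218909884499649091495418240217681581075850760310601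084652932585417977198438226490129162054654373328428085782932914738764095751147619701001492591808963752034438367475256636903100517248675521452323503197080490196911350166333395751680099541530377664672983511943807194701531743999281196987631522172717928318299474752442399251044039931215960591028825968796772500400029628126151676990850477713995675002553253858416041506038889287431164394382910087926992444702637427689887109349014233962884359344105897291593274881275960931444649597293081916017907650001671681004263254748321696143576849441402280986165310886419350974110083174788160208424984393105373699961236124720618371524768448530735945173846901403269193771370105890682822854794734386905887763490016557173059295896780409834129020256440901117166035736150930969503494780359162877400994751151173172518321636045948994404466689354315553598773760123749536199979297577594907026249726778240376622426467259122011362620027632291651588400511112046377595999241931183004739503373046036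478607141046857985526304455989209005317666945516686281137799734406335134029721803174375962601013092650797739458241546702006075120523197160416896550587770519484606444931917893067739182916432336075479547028046806251641696872416426562248317636283537954756833578277425738119158682355413883594121738403586227525270279111113139769247659657853084329083284097835496800396839838101857645445742720309750676636963810611940287075289703087993110831732250094750918965959750799329913107674373846647096364176019514699828523612351436897635900876695371041956204434894141759918506576376483219906763319238483497317286326944029065342537827265344015057567901859203273524767934190821868921970906372263815666108230296905616914736242039272966487036755956661268020039305870714902234914643217450444350741742735559224121309013220937839833750831504054543819504497703359693533924201588754762799888440287428607594254978654141859485286968146282799408850805910812331235823168358520908525517433048607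019333909644748862848526964916530964510000162002102248401805231404699760453342156660904798554450700379967373777270269525649703392394625153478767274685346038650598681285830256242890375111245495689765148148295667585707530234588431017407740949391226975484824809865391105221040043296374683043163410091319055888932009764642198435803442349917563976695290499552239271987536786064252800288733910503346437282125268111265225031541581906998471738680234342461822379880119865648321484674063945690655866332396861090581875315973906491234349579486658607603738378050755031003504080449067360411845707190935222624085718185267896926277478257396551107499064347247490075948882230161381726442050308901824404987570936450520195700959716180074328944802317514015126459284188694812198256496628618933294952243421122745979750985410031231538161461413656458086716074313791650494546491515456875097902904381410502712547601624295867348589975817835550949833978578598702719605059357443269260420965549816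602689689308019888024020110360763787462925254370473031186796064725673583108668848986992151526010972247336353935724087104809129029702411042251969053342148658673455039312479784028112587128621160000462936190685260992702450827104532800899551176989326868292050749525634963618056045026432117859040509302627152793184605987765326803756039888777197745882128411043498179062527129049048340301048193439595223986257811091641838518401819211804475831907076647841619034991906055134336340442380383719618851635648025830249973673123323720599476665641962868040926655643348776903534546124394496298214674061957897370672716590753450303956224187100775712594351341757831758246134401945972188621410632492802512580485521778035865016602642152596853086588698876394973054783118063982984516481021791847953351164193729211490564747787811026522138904547446266560516578957367509635489882342388442815772058001361291155806316340920099840118527644480097888027834339975753435203345296804798262819427132385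180004562397479244046788284826852060076076754206421033378577998723766148782018550104337109810069741295253295919740938696098922640609208848264272712738557634235474490927359463937221311054522253321135692851626231503906748025527038134688932462521920803103850798937769003386006821166393103425027973722970029584031876011905985679927892268023735814435322725722681991088268417965970391762048933026422532928082515779424307094856361209258755642322397065405210521460990777130196600824155290373730229141376477789257869143444501749556117252637450836000120190582976349440984414839099694399301476723129559537794554314033854682920998649958444254061245540671460237275687787491673650643585650153484478158937990667919887948619517715291382525818072775864941068630581047840299246041864050928132681056096398846269268197409874764218510181719349633446992165203370320717589822287769020377745463515702350475111501907082794504682050784919833796931826789355299984599032400795201591644221464151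139438796341007979243149305011157130299260854732720394725112842240494514641761519249269560144600981302268573057862718448599777909517168034743105874667254712095119395206835767263686756939019570115718002511254944399574203370068363752637160820885652262592309799355664541962287010257097616886761008630376497791125271272931466698740019865913886345321091272025651947819989514780672765141575039057941431354644931073966526237256447532879661561671681964580768412670762828470197764308284690823489707181353550815130038209820170079949362429577887013286556340316175881591809039544478050028280928494248776160519603006960244620427422388324769636307126006217876714303990263029382920434949351373087304767788543379304367900240329440706582140393924766410930951727243166382588386903335144409322066968686424185425252246400289093222938817105021312938595804248032206124525873594689573929501197646469781330643482319956226641715911771410552972135521570444606240184966959438662115653671324878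464349773113547644767495281179294693161482052100076426394357164402368195313302698658080676867365323703768433789639038073386460021461407183722004138901251941973585232205610014232644562723474427568498613884946762701560475796229385724953398532725427738702151253145794751008449433970825815861154612978440083008608187036017653312112702221830296099036325497679352593493034920821815744116917718413933194171731290646192886277675324181711293913253942795553370840751968473518560071907115038657752092767785973735514257098225556828620535080954942850417684404599061973290187687743385370685985569886046351118707939312116350749388058179906804248031676600209761646954003307194545535952440862020508153995118156681819019193331568850563372973136517569174971270065473874063928885728969386829945102754767510232047164753099164365748409545283811454219451155209815002397684165039329075351460868026526889319508256902652728466403113593859069349285488922061031905902369259286319831324997933649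242854960921186837013123790693451909802949469921797527979875334760003534936521975819010189136905332393916535599854804612813893024416166708547264886195460680201395654517915647406500839165918716136230575187173794696564019874524494057548745531099690729197919744723058474005442591382495960567319577253778236243913575339335030317066536239846701368431882708853110749918984577729817209024594205374762726462038444515048256399699448390958937591698561899212281325779581442684665532283075831242715564801523672413610651275317026102143044833943931889799730763903532707736333452529379756746597434842383891430906485971072912343634234741805979602690388559493825581319714502614790547414964586762066431361180029280871528381301201990671939171181834142488632504529973331137736223515315395213415719627306981911159242713937120693006159424111158678732806399625871735548309616532555438325031080731326973478226854413080334896612585630185926274515683502352822970463716265448393185307170435238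942281111979126454711444073247535321603864606499185149263902934427375127006210344974081151414143210561973876351378673248111242182467776227694451871735421104341205603404651794941385287978632796120796865338797006570406301731079044592510425588967273596923685962444622453448214589167639063981905419662751679833962371085366810577809703162247786192789729071673578089833422396247772580907818164667642310712782874384654001365524430480750099697274391543488772577918372183729087667184096305562304467120815494953022378422999181848322789717968457045185375338287667381794565339752575472280951228112989073800272766751019258165525278040538669819394445438248095959579285637955232065425473484081917164270979116204665919401591376359103770889381323426592749535460572343091492839158993314760546235937628822367698169738907217949719622204552212695934636170440738591686949068413299669305356180618370811958382356247953248047482689263589443616941455999193583868817891718294247381698551017462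789870153081705557458168136528069237506261763040788330051112804656759729119812641766491263018610064286385784886559187896727255530108528516042027633571356114103658972680002489725537750508214798578603284302012099407337227829891478857624908483798084768576525399956493697233498212879317405140680437167593845780155020479866307474129125885346922324214614009903308401684057428568499769807482597793894145430683711875038866407323414310426112191182575846816604597046858389131232291926372693126702474037893174865301487190065075672960798634163365587760084281452396389170342881854441858670610750481589046422154303346149327521792977902711617998014737216583343606372567546577432756822694252837867221784950850741269436176815241932632689746633669108895720293949083162592279728173996194746724238753159887086233538536086556920550803366860093005233024136549777169996358645050402406196510161210721379099785485308419643694392387898718376799670513227695446583506204551587417654589030235219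980450322012703811026621728740270397768603904878425384209523675363251194398788580024151437737167543617358163783279716320773395010562474910514875352302677719356352416709192920895875064300170204796315993231052966018758619145724693832830922222369774364356487598191151309946382428130550446722973449505463024493163718891644702926294373191128944577996407542343692230980541042476988102926167032404803879799105169331733439138542668917676725408535525642143572982023993449351020406574354296058785298133279311343946313635491875632198021540662736116942993344654516178122495940777590727558827933766723770074215351314076632895606820185734630123433083901912125705793966212604466613305320473063148577180694032845410072040781459462960551024755679281568134860077329470551963980629469147129174383377428956758611567461503071683059817868220016180166392419480611177526620133377495964108330742217569710040293328714735995719104407661824613789006676687358603015475950560348349277237643477127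712398932255637962699349976001951579448666315425279951392456489448159871237927257329287895271454740651026816055204878321977976532333783390650128249514390942641909761363808104566430836540282753997939952771059845417595793275331587451125281215609566889745519943973550962894462035384248962122419545063018831366794106048625855351980307783552813151288371021448453379939384792428927582557868825283544634236082456194337395942446370803176821502085746831549040491438073627005796048791945663415275427603044464864504787620252839136626414082033954565404970917076122689047812421218856297610033757942066472199902042960669081445899655747138738659900107234661915246245497156968768057181816879699665023145669053904933059810020179355799606900268547027243839866443668956095198644713530411492225734472258291580227341501964188974935849175381616449836478411538758622297438434784681304191928269757751206977602911461909641118996137517449871095013291396941857966285145691884011754955582165494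163100597699029237220183565470804866209755818027192973638387720692847371559173093946560481094542374981141710759535429969164493686189696488046432202208014255178286762497704814595409040954082429277714590619970074227328805888718724656878932893372529847349195392645667070585810247935215521671322642058873643939048466653295611305848047038650481524894418197583615256042786003580962242914665423389518976144688368682410467260189969239183421608545126324308311694553116828520876018116547176432950213669317667042664344769479975301035425802954794281787400504150069925871946017861316980239605182775376406581901125850021062701201255250270686330875804534687871725773575593017577000853676929161799574084540704027829086439965963465064450285769003500470751556449377171303402766577678622094780895865160450905317053046185237143097970426932851667386908558001458803269902282515756722610268402617630823245368764902491990272634651253259829166201541112135979764799808210038718359541358882658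365928157577778100219830736296454541940188722395268247803256023387588637882595740390294984931984804881701097851938939458546763161917397467908433228831930507804829624439960569015164077334051386754218145686709761524935884325113438613420334706254919840802119183829209704078225984181414721306978552969492208948915570789931819415473588663151413564984354689366395204203771565598428820822631974311890239180275303445479131745251201002615065622711630548115343743046019980516539747176921106145888638668783684396467578380702152942089517427545515483350191545198256842356628647165373135923555294814125702285385375531451380668702851383122145972418008085029818821193060669766336900331009805169810821580848599730841251571007402710280480423511236109774478360848087569612455072503308168461982393797296709664462121104753063687487216739936831889302228554159654168474753456744171333214390028864517243323022662319652556481315482609528017793071411050435623129216786291668869264883677991337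597241477699584378496214285019038599574495582573891645878745995912642143696523175959345444911169891488945266877069178948236193025990866614848339728443831392203903546098411374034578590380227205693478117386854744702646530002437974597369081267252272476947278632854665183061464375475681511845020951332432562853530668844958051043518620266063087704361426268039494016295868759914348869415520675847529617449389357699227147273252876430278578763232548281387600790674610545574651193785501155174885614524005690814998504836157955162969700419578146663315586168023935034322693740990573384288466311994988413015133420482437438702603218858411857223606134252573865507533713958604280594226695345489528590736337178944217231974789334015295674946728393724566165072458037946565507884486069558829150343940381731454726804107834689784293838659841490598084442819129962809152269445693881431736107002764767453761782640214908924184647363901012004676499241764729815330707774355932130513738592563967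914734754820995239502421460592128963984796867045050700183987278994203130649456730075189805047610558667820530075797365230530339766061170565918526097317582896586446823176225795516297112706174698307942747209857198527121004605668875466566701644053924097022852107233429460575412296472925802846021698536071234112371954618579373613438557805463274139527531071493496348342706242793247811099204076966743819431832582286061657723795770986562539245852198813951363996341040467800015882703265053150132760560153167557168264229182331055866160044452862385156749578343931068245782655443803834449936112521571930659417153442707654410209215946055458176458283548019811585139246066502591806068303583813540208538060366783936489309489602347961108650041895156984002533322791557017692246391261933379049508537939876217256264621667247192224116634601266309209296717690534474251201711835867648281509421444945845865155325638850114430229814554980018868599768515146244801245930052857133301773147269528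5848708230179903337057438526069749233641945225765296501492888198847698441266692178383915608185509592088055348426019151494759391807438853532712619095452060687687683741287576872176815501705659586781742202602707338955890670651422844674880720141281485780046471209255376514102047886067694828338528548353418802860320770451537081809711337967120039766468902293946671231021416502976196748627855381898009276970198063423344639311843509260439717417369334921675819510589140038103270459787537078085283274982304693495142566485846634034653202593802029533934605593358464616369397128317677444733486134533394832830328416990882949767540420179398512898011946199377520679967012638224252467850001400253661848630399675057833238774994541028335301015204223019051840546259800741719440416975885757699239184135180612868283881574963886382859157504)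

noncomputable def rc14 : Nat := (nat_lit 20513741003855691403702118157685615728075266607691510181346625365267248235237866490949581004142264753579140346225844897076378191572245287066037016064726293718954232829889719614899061094986306449443375352736056161988741722774783067728695419721710586993817494801891841912341873189731221639626261358808550207474024117673511224374267733730841967551582928590216310704466883273326707622389738294353734473304829464193264347385417402319183319535324727815807917502696350798624134774889600994972703498933413889850646160651669034816846649664171667749103177503459557491993566437132915082057515744740462625393538860125788618955432038613693408315278776563217110174219087716131306644960132404491413159048693259207729888731022124892687918652756540371265037563522757346302697793320258815560739948881350858027808463399402594267296634863303740928992216126064255699373878020561390884772256746479526665178862917100341260795579170997541089156764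365483329259083127741101837068792844892811909247004799633157423870103794467734293902082456174969384875835931098443668724414561901544407383037194722651381712604627039147889629850166260166715534663806066536465288588313121041420023790828104689593178979496911930670157985848331102124984401143237239766929669746527346946278311991970545375371675655593592258214449096376873564148951621408064929158384255835010286136113540362895765857044939774936425601930927116875404293164312037772758612333583797243277804749516561315723826089061462007563340961978224649121213181109041914886268262066811948408123804220791197116034158977460030690214025178908093567501178673357998342529211020963769100911496101959661226557716756824549624876798630708011618894561948233350931716321966196925859211456098224116798455496704700276534742236936119988106435238993846769475326339757170644514586348520486020214968810625101079002362647768562065269671449389716732123671292018960449603220330129589573765776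735773028896976098631099268859547513135679811346731309383098300853828371474786529067613317441757079993868284055749627862084695536236109536247322094041870099276510000013140296673917136471628073950085942098199321209495628818859055227484703477046520453163158854726287815948326820103308143958954920198433092655997288971450116368330004350473949664720115066472438307138895676214975848171560763611752755635567171594271108837295115727775145437801159270603572014099043618012567525323522246198387204939985853982235641183579863260238522849939487085347417940990098872423611643736761896065442963556183227937347371964313395173654338970584957314572603618289422245857301366926503838631881403715052703879121640806000651705740771675136556808000260662316862756191195563014626612289164548221405122051910188742520547962257083368542107129354101119507501978767186360199415668388960854534945393981591587859448698596758679651910280352595268989365713419729448279506114144582821367115211328056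527727488695715893490832494497328136748900288845973274660830856472946193284613808697615124504513109694176961763546335080081640920837534637499825789328666762144885551884794533017772212325030055976087308450744902654144893337175163033822948465685685843395038764406389626721029217506404379685344265481532774045788988111530573620065299066231306590590262834826541251046014327878445834698087578513149242518012831041064708538807015225231214390788110936505626769809969546139180629751084618792492810889904595512664877406672783504659381486775631814831988029912723714236686757013908899218289384555864809679227972652839691145258233959658033701899662724239046254924932034842838171437863596435764612701218040648757376835086829837988981074041443734743608557165218568444409146491504674834277376777045582819717227975799860620160848963271546049459326776572747697359790111927512758311974415784219958660778964643085278440002300559094172827267122959171220015317623264154418194207775315608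478573547864616224313175653758446145417052827869314582454233551597896425240378775741455773520984129358854919237822784924338124089530503961248302001645015936748355414415128255012513374463181274753142396600789930394692256663885737120726619694971536545187211002752439482068236473917517130107195364438606365283367663694513417873210997599966311457607847853997011078052566836473685597708915431089662008672329176753359573599603497792883656410464024898937094144918000997786322618382519398975176796947699160446568592700015494087062424852677494274637690225831657646501677211154866426206777440924349696778418555761338841389428443264139034340422273852634115672504672803731366297065807519675875390219148305740793556933201712823297883622872431148649521157631160185346805155136544830250109842882442623588616798259186450953410691182086963805572765237440428176279902116328554350447549098841256834474639442736016570137626799111760811311311225201395865018647811656341683897706242621623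048793804405134928591594591474755316753819508607891223705113243816345827093823024156071848549125487154038682491933018225332994367441093035179831674330150185410178845420946922149711453721277306589622460346342777305941491122918234799070960112866968853123385303217556873332606562457565514171871611688139453737658131199182867838355743562355748361447234055634171867120960262633300773176321940780791113349647975239146367432790047274615662975818941776901938562565031087868710957283117606657739523065528314450325901038756580878453441563987561506678257927826697999369479616874535537722655489286173487455623952755979954313852679265296979070734867132022217996577891517543431226259440825570807067958280988078455462702962146172524953599116852125322102855767873088260592498073815858058407517552538145435178241090582970653366039259303039299433678597601646154671546614249266861744499376031894968632396845184708068677311764187617034874641540652463036061689194542421463575520403584076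629632725475091688105026598966434512524933861264264883800407879484081451089466172507294626011451940699462593873105308108723452842392484308527199242896798416995296418322612475205590883217386749504572214485451208086027515932290778373193569741030288729759939793519701128168689330057683924105545037309998167273729688242846255005842818540995250755826952301046587643729472299124399257216793301848480564847543049584407479362928748634871622628771868217661763515243829628384815465568513301694372617405461930805632322540128441525775808190491494844646541410669753775048610491490905771196680635364313963912858762844324324197986192939929170121614152808628197903293540411227432613415961251945214818444739728819879138466602712895250978344869065652115190863789488105447025492043965630840020990901356269749852067237026860990720449685505821818776705011731640488290557254701472811017134918920025830473075254479962638175987509481170159815958520994858988964806060994421286517933824733359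699966008457632264768840195352318590694394118788338557386219520281908435128441189469087225153030346297131809883200211712073041801913352568882311425974808427032577203871634033636145887363048456176312744053556295946974702090765943923483182262934474621007330102683420562623530329113974097535319080185141691852855885758523982044583602753843591552951430506565943084416457014911989336949835888005456548838541839004530321788956335212075416889632203917876640229558976498792976408630274737388415055575878661747832249427877278571551109092944138373452742485701814105888101548121600284889968669203192856104044572455882881046673809795730244551797576983449157459889445350515064108637957246481574284999342789870412325026236504222839326885902925062189331847341782726633981253911407110401245588442851210002517383842137521758131290606236687053103369371825124950960842331819911580944502815515090561562297432641083919542282538990844137027850451670625612413324147262477042849876306614602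390515854709902855881241100041680546122073968261001880116194282883006693239173097532155128513279871192886821434576482951437377255553762904286464743698157459022190458337001178241933534241259614766925629092420802684548085184354993476412142153762541626327508823321915656114984541524655323400478093617294470860723648828616794678934874079087375303034793554659662482379587057083242689183075113988048467674055017656576054788810481827703609284069431469762384175732858722691656928571365185856989563450287677502274937841269309339337276792107433047878412725398237593919484061480542078061264457756865521103868946826793915573372038556622306066914392133053543962395356162596114781554607300296074052546728129808940456923876778092952004912028125834771726972490366530638736012810520956243793305090285682789966912159289798058366070478215659350448960929503677389654789919482254180501315826531795928088004333046304407581201775477687780669305299699969005883075501895093594394398975902599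464026546221834568986315234671839565930321137714568575684653178861110870842330684672968125650332071593821250454265093824251525279189727964257966381884633679064118251929446370779361443248930894551607679439040433154471987086908510912893833093361349629652112021420354327578534072784187954661604813688881446381611820588994913813699398761993658689805644515760767329317352186204565055008347107631007422213654687740612317110327666391380497964521053654230367068167854262966585210041419723136101085953979227234459184829059920122970387031090673016067917382282029764141039285140064861397315579715340472408270539097662716568829183306080410930592258584737349479217131190651812589279542436365807722284635085041741178333972877781163392609872915605742082824510278120098966986836063482165791146864076689274508168006673691121255776907470128059401553898546986657548021892169465315211134745039712369413225988333626171569019141946252473929552000322273072625743311882090655858760999460998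701977269243781854199485994588351361984211384434916477981731231968705974568002074807045053378973535723927921800641661946106704348759694554523109742399109030186238906424219961520521683008451201799958535228125240688095200698369598581073215379284486129332645841821859178373846709709066823293833703990408913826623255178947221902600111546820610752734450705481468004620917173066601707513322971377491929670320033335669751899860263938848242479331829929274461539191938410881135608903875427153114171825435513459177340270422129189481926660928862268750768221711487147776654080387192055057574679775263919095327301860066068687262996521416896930663335011859638867425000064419515399129877232106170463984848059312246116909428841796965233651429885555574725359382208572854691896423681901688611952938002817433039338382892309571182032249821121662432375385592882768399121864452368415184374254817471799219805857833651661364904907680918482704444590294744568950792371556743593968044743070603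280988699299409704466715619192611708292188933653006657986479115620809328630765100316490588541118549732844261907123089267854752587745185099102789930539023172045049918944275119567961267530205476646237508345282002989343292496500914921327054178352005679706262508012354930017336672062631253297495220352114983646112093762634916530150052582613805358192209849558028932359657511515526178653226819860335398313869120175694210406507457524675066719641944378139145173681934679873271340791169136204708997894174287735232762369943143942644536298084164376804392117817333636073347242311611523904463985444917898421410447266413426393119835424186217258184822198434011082405674437309544837713868548196685567079629572147117282231696373027803453189412169326601808987403763498513398609890869715271274087697386882719256689806768105634290982098705106182531420932947406404008888460521990128723664022019368404253566150935852950227422594563729643417135929124031067865392641484686681718725533440957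681553261594845839859677413562993188514269570667186466323617303641990041031365377523286130111665523234204807620884351632294726327704777284347610807859022868217316021844511608192927286142773082520247184603352953141632368872750822630219726272107016575730735584919101501891322275621650397064655687991765241399244241126473588642743526006533445299724800435122233475713617859724016684984636437893942291044505531516732117837098666493141212772238005340981731796798572225722480422640276854474316317341132717552825845667140092967028003264975598558970300634144846688188975277571555696271656672608858341718617484113356530223205599233601010402646098097357415645074699655505166247378527499093241764563057503250245280007195917113594589481448112778474015960826990600043524264232874855034380978063983622706028247482431513543838114931863116625401498777155905616364051120015220487789998111708263524756409023876239769565125768228246732976301040397806354093283264553687529367039624768287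249207979849115728549312402295101556962024433858996139415349656691045858676011684084658230693719259521598697787908419623710752130938247110942463583234088227057631994260933908220408122117880679487132070267835846583620400116369731664867698362989811591223778399029222752618024411792767448305987319833086043937259427849675613889160364197497889605261586651066283936325355482408873817390449315722901621376929516932998811318068333206166649106832612368178747079319187929037683124392049555636955628819232800727474288772890766419154999878613940716803878380733991111822133612809527777778472411881783306365261092954774321109523777806309038579112510181716430206424556943272756124884555088816968996607918071029067717154733357015554114667965747588841318790630202193687197763888168653197300188117378013555443946363704636074893310800242441482274191197754953978930292724010360079525548634987246772918308636741214963775138243248935830044439282396202240161295788308576620363599392297113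382834967643815335936592784867050323345309731232841128685661306319039738633654725485984190355289271142142021759889483365713300605043204740840148034334900063355075760665109305866458892655389008251157789186044567374536253406874314729779370462761723341670837324980584178764675832186600066659441801415197553324138966455703431318408396653769399352520332786240045091210202646100772062230080645990251643944575614530405649901398177561506423245189160572835577073066454907397817768853991114042309362200237351886376446739791721161530247477803584242163958556511790380525637975061107311686329696105232952651535214690230083690907276978488574071554407088909777565997106419709513807838201848332437619586369191402236512019784608958823230491336627534101666297936487750918468634374655089573568961660811353912178528078175511422820457152143601240872168455180454564767314414735137508515167341908446302460472034889977626587767327881896261628686018102136574648015154829945336147533461221472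175483583150422414914281843499730128626115705001044611575036784203288457778018475323018770764091113780522292042806846840199529385776092246311570772171492559054808573859627794096051518553150705986416067413414024125857149485712203413390102313858267632336154070315647708985441364352188785764042458805586431528286406765280977486522623004126232508879648136762735356940028939069695134247842690386163817783190472159161110170328709384712618532832085113562186331062574675519303037725824878084723550788022233150557263508036278104513186422304030970530447127327184368321204054077485138952886749027960425198428053763512256665867560900296785075850997602860710586806153914873179310342959895443358742308687383629259294316746598752130055654503238177573505642745633519149331115968795545194360516931172942221260477838954256314656443665725410222437428465661063831976032058567091800055094365293897604916275592499521828146719930176048613834681732907411598687261686899100692892393594598270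450521760236174236833310457645910858129382616299279254173918163867422582122916568072624866778519699162162658682160239086509996486923469394351092711998593970026834960705034334085647246739910940989239674548842711366515080234111782120753504057416334416564433377444578175531899083785812222096860536231571506389989893841360293920103444512537831655715899965215938045348046667098819145118039774303906641993208014970489455668007226929591137489009073869477154087272680456795820984640002223900247603590021791826878647185848031738232195854382170653694452662343289770434835465930284913552663266308476658480583668643162699425847826210948164617593694482637017650603449549137080395382541230051229049439848989421164586410372794201951690513627560900701419714361448302322044698691032531310119153483811836009108911216491198881097860308277433696469427302650346306354052894774801132141797822471031809996450473533176541939868283894272533772646431853521754261422958129914154461652531790649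786156276848846020156111073857852442987131431667573080012586362050429496525538360722987896886022020121617971194808797250204294070108794762069837296392105777080779835959135376102444764086643368099275502008677051608892290705106323897033944954875085704454478435523067034496081891144707803915128193832688307021864824368518432297798686960007426047641490045739036265561999452197708715663898665523896456949308522112146645562658646323372845433066531711696201211944972547134828700305128467900351962126758677919989752197574386172984247054679160764804781981211696606666165044495916005211800671092295504282657775919315742844858546781880932405146446865014676289411264153001344674561450343317278496140878762061846168151673593202883432479722424740321359908471517939547417054119016526610177670540259201694163735652301786535027894219188828988141467292353427695107683784480426656164888396746412531092593565911064808394972687870584357398906703198720845395963446469454774288744867003096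3949429713354987218629916319384790013517592869078499774160009711938449922250911510077555841185702055494522761130704436311150767618124181501286215673661741471142033968986039585509547864445529547663166220325285240032638622039957548397396399102934423132175364263912598020995386735292029948430502751758833131718285154403166671328780819371139711139980845416585269153744034005675226877528913359117570214058535167420473175508028211179236913701950495114854981006154479350964756097494401891108104150437783471619634229779483768539400303907292958814972884792078231539216345033115186872508514662290642071684254238438004416803352593244231986212447475258021665337214830529406180594239633921153668765439997276301651636028529312484005075046505839525710236048184134412492536722747843202282793936361781989412218310916662590058262429696)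

noncomputable def rc15 : Nat := (nat_lit 20568255463111906359297325848515680179336355926264945981920877726128140465016325237555991663824854564741060180047210087161830985029967197527182739978239980580132141221812762791549445579542021562471024272441772321336905094432964491701811940158847630081987807837488865738932143120138309201543273342720159515028631273819067200399783480106885754056155937796870124074616949304589723295222056868453031529620954958136738898779045067750612442778196933341315741784662408918302385775796538234425961379257667332836698610420938531623206580282380056039560792915417208592706669521481828184721513149392902753554928084124293134258745256833812290471020712896910133900789206141562060848244388356784902100898935521010889275051989028343474081694746419425141595956052004236127558004007644141531919737656763147790602309043361308696853787758867173831682611441447412106784917993896638552020733353035009627793298764973502209975296460905375450172444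305092057648803438246395096540342322285531483892354672551083703631014802028154784784005224681555954593175381000895594019935011938839923282015081494262012151153885485368083665411451874506311611796927151499447611608471311417477642057462305017613462822736560044604597569043263204332308626902620460396304852604103357990843356337151786148411512003308127500235330069839825434897944594178663804630011082121711474389905099221107070112712013840479431221633724954074267020806413582838791873833049308570588837123192137435983666019755959249174222427718477864033265543266419540063251426743594524102833290290778872654716386514094585032327675310720178162810096280684601579930964457950563679873064795148362367486860373763363884127798752994101990356836589964416792288990904725061505628505026378414744512848668859891110211399176288375157477423134884281286365219353964583061720170977130330397300644914374876822802122747926652523675675068724066883949300048660920891439764913555296231880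056032471163918625331220672891223096684262762188790020407138313323715630792416170508121656378452287412604841491040169368471504114759219177076141324681865045066054262054785642475988632822216961243495388609805250938909846076233049109054000801013554078497239143798018576548617301515200154892143245507539997777225070961340475849081842294190221634828013848261301687029250328960717395870034487359998207951105516473093389769752175498082473890352797998244774181426313279215407434200764460647359634014127579589265191175566022834718859962113362576568769520967604152943009453605354073694026300122077391037747692836654374435882025068769037650961271332358856236675525984238024390451868019735272648536365578011487350701780351501678550178616832363293591787432348508308762202673933889547159743729849733969358865807882419390363132655236160894331033020473174010346229773904101410182419364128347270416432448249833284778916487523098429301764446276222430870275711634476724663955800193384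371299064126222783589551515584600668250480127301931984626177412497483231933412703888978077492717894117776926327582991585430512432760538429503763577888615448144224236334286206949755130439940244631058217487059951261251591305581236090306430924163501667636046618817476775167127797237693219893571816717094824657853086831258081446516245125805481707193350927126109015576341546639873198180433594498192609941560281494865397024865565334499366326370633473812016598120328888157689504304980301755772331631732059004422555738905034146386090392732121628444510407962718453567104169009756968432801470121729529119529904452708267268478290469166806542228863391063547186742531083605303198412551093541766362165361415667763316056022727904833757197087395276010187143657738118997528417233489691710691251889322162643353050004451486005851863753517012349691588816310201613294682757279615326221018461128014464555685832777919515679421914149032432739912142878898745003852567398685232905897029444080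675680610845900780501998561533495457207744358531672975677764573201602319054006015119335741338181966419706339959239225396843378811721067577481017624889699759722153850226855844333624143775867413131967969278291524520407805633365513964422201632856037268529266146847454435619134969915493576845170394104704578134818179396089755307125453500903898799845080323575633288394544201602728196102245036204884180143341919872452490037609614271025134568846923531643981006164784376085432554191273781861875893245711085538546409026259737020195439042975779575801932362300535870346877802172932156276480541213603710588075484555700204172933281139207305771574182063634840778105651699845196323107954805797754319912476954457267935789088625771497419203194866089385707913038204996767799006407802849943028417499573237827159924268523292111633197179808747909430974549726677473454565863941320949324337358216607230196074522219769367921035064876734225443446077957168038452894621349253314367015387079819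232387231748680004595752170712442147963783095312628158906135292633015904287884231529607245748404700458733758505361063907217651618474381826874329929805479643937374992237758872331760802897150482754397811131595092954842794335694622622518287753516953494699087187643038457422148465052972706038971512248793387675871183512689001093070617135141509506213381673589401289848273021425123569592004004162205433124069483349770182885329007814454901303146095219208241334104833951084362485613948726759055710927415077265015596594084048856203389255565807178891212233926657811276211308177665817702598074064659227826644084872142976252370416900250850099957020163200544259111587943318441634872793805052257735720070644966966487633787890222423836752538070894190686366401150665280227429217399795277228152715666000734970119324789551470091453446306122696839038800697863880115961361590844571063747357162068253606646730845463729927399018032282275040026739162195714667106087688293496768373612954489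875755460308382716886787931284629713735703161923876213485151299144233479421615465429807416569340829966202381401372314322374622969661329698860702443403340571498643835481659731377698347083790526444200682744233190567185474863358564018660231924149364447645866108618733690483387333581088393577172691329446610991794785941908094072406155201917184549597446681478829340413790459528543499396490197173976442561540599782153621778772758231528157410138972526186003375189187383152199605196954089424186643840436101808379004328179519466231448968719928969912260145851505016855616241670109534995998999666490295075225255971977860305307378742233665285332385197761020990016868284957491031332443903219849784688520978220282393783064920188467698040988514509948657174897616981082341326675465545304206390616154397803440542816805790172235475488955621967142751643422348000524794923779075106698406877287175973910997751771608062057245006631507597895013074284988848354072017504990312488114153229229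254264499893896750462399516187423769621484481661327225269947987760882550628213768389943549306915587643244817779646998885908140610082105422978234356015301012837389940691044044156626097699286892611531462984906243819342308940910022959664218304557161566366457691270273180458625088657070901829125864687123976862500772477288632201553884134895797093741248860372476439650285525744173061355619001929284939844955699118514958237032097172459307586869517879498923466201360189576028749886057739696375596779655812482814342396684595283257228759609073713070568903897214800560535717082951558389307173923250240947420072028676769207153346111358496436690579287067860533314261843294300868390264509832526719596619383160083659043007585307540081357818153034446229284577721155157600890785799672693909334683370341666728057292564181652155429967436589341722658589581176712734319483057143682117699308361237947858796418456595963043482162276228397042326104463001402508129325157150392630389022701624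682681161365246883539558393579155767495546204295752500824827364303643154056530059759598005118953304206775778625205814125427366309723293860060305613164284687702587355804522039532494385852836655423377724274267745600560896357856276728143864177123595747693913159077860631483777315527269113653441892102760054040008455646784671006525084081926020932508719441411758808166772886304514910176519768583963761818766835990876550108824232703627123967477311906433931946526933657171796761545598896862817232862268821788704612370947727384182473790401850527063020830778385415780471798328676510023921071784432233991073651092313113807350847994147399806389357382753471229734871027088935131275502628291557483255776753027604543528572469832926121028496699539578546507153947103670394139440304481515887699585624367693823900115470467605202903680429148917305743146663639690083218948054866293888827497586729835038260466465304663563820985098695022463972005105654604830603660343091378363655731388348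520657121523110890509472983945394827854073981569516973389960876650028538395056946635516859524389946379329203433150873689246861749756160795588042127580646065837588819424629205194341024735424256276746778542873568046788035839674573332919465824566521803480729818630349953332825351016384631984945394852231006097337156743263919218790813433794167049126049348819242145712862960128150964964159222150150166052016796231839034062592168269253816639877846672809758960265512826508786886522976814496836907551227773369617016095114215181816862612247763948414735736747172132197948680529888598075953010657060144080726954600185116192087192117910764597700862366254081750243585311848387987634732963561800178857890077871960087661574818461312679552583544567100979204727110005982975531322845398105314218485503447658019496501924252411260972246704718827383750909409934864154892022992495175773110109642418724761209289804299911626488365546862535015391851436501825372309657335584255297180161359796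964025937695149743966750147910188696250458209670741181441020183241259190073946169155930717591254074322442995196128568300202050413178929734087561519588816795652057734930994543089226175012492591684757018844820623655412636184567915835693234770792304842032796862608540077676632425681307449253654777746118961829170347443612087396696618331078525726309273493534352670904593694560883790787604550610472411108670055716527203441720310266181796380444997212492756360081538366261906779733777163328850837515142156870779988569237610440985543678555806713313512760122017043097972111334859367570262113548573570776581309371866851627495410426012527371742449868032381876535508103549711122553562057227642662339213044478768274126088799529329155851677029281096049232114452160558673203796785742934313238586213654728254935014890838586019430901965761848984403002805659070063838859380701889251739487153413390614845425363330587676163946657211113837580947172749953304478924600661598069013017523027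269067324117733920900634983627021786615942642898788134841172234099904818410812229044415376700190821695404048641299835227898125290103278091896307143699936192941001911437976299703002020587422281975728994706694123106778290466819087839255091273597145339145709311064611625701576802424375111777940225121806433634588033435620316339165617446264752107620283135038282221220140419447929147433003417800332168060503149427780126501598825867369144888459510366869031093762662131715136408821900415274843783736824393004483805352494795204426957587992279235169996544084644241952901874304952170026890188271090283828679031093085977730892074403911606975908978802155870979634577779885983321518373320390618286335568983801190718069522220749452275105819371041024147457545677620491553614406317734739458623197348147050876682841472147853987477956266074228880340986487504701531701019802203780481452898804064134846779737362703943771587115116285003868827679637038798564382444706011876573616858206132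641745731765183535066627306288638726769129631469387102472007491387943740546332576557761847751890970709023681094992615330789653262199756133905529985793249755385116965359673253892514988562154400999368905659017626775595716323399752096346023243319522485736386416024663710518509047509322085474357076511270863925235217602465358588476846654611243780971154227182637909192547905256283311525289391882731758723602579216923645166855630492341723715958199267646264969836988229659832707851690441875796901191142413788456693783336288727231472406687017084931585600965713229745611288247514970502780447432860801920390641083477673260141194801319037555994418760150726380425066109756709101226193922403150923314248098722676260210639509650787042433891802426783842503477235700008752109451882541055272103213145280898272289719455874155432706160219697142624893192426980874419711047125451726314030060236773596763593637499100357232554853301874256802793294087530423287399734576793803905194248512708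718106911619101796771379200242328861944497256694899066165080255902096279618319909569997232458970447755357488285618849044683600313278448229843024975783379087388723022556589046485863635762883802438759507843294060915838936591671065766103143891915627649537289344216227497218007253625677557501992340875848851449759484258818267205028062164480384980382466888907279451964809546606372258955178886693787513873373429761312138205821639218630658767792269539576705566675675484571500291471349597768391549768645245189408705403288838073542521297452350287925989361162146042398725516585404261913347282810366974322928296036988852879779062684272432068402251034747359964750118438333406680530758543515294397883919992346964186635204572019115078286048031526058225961945389998635231451895845086484919679874477646991622143050845649807045051755513413473511040340582175145161494623550964543032240224567693599267062835323256443838094577972132622524824512827826831755021010466830955221657177530014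836413056387257066433375498845325073301423875989277455451400504024960962337846738725423307652129713291255615917473530856378314389093761440213569919788199742089417107364264536634386574547456813460376608744955743295954672551284678044832039911977415654983330143197908755618355979779669005511545654761353292740098322841044631113995920576687582436237766971075054429271453709063807779497755464812739683210663534390015203355746072577424404782445393881302848190617296439412928429618190222831116708329606477357462623012322372611989129320370897990958854024233135047792395617178476324109942615749475246450810922836281885468329736002122508094430157135567538480191950877037908490975548756401581473948631798459627637761212805197411395317859444723480551155202269797571762087602382409172064613990606806286927564787406624740127185594069569687035055286934548706898112957095609885781857526139129588035756307752711542259958013068468553553839099501317329648377235896944943428259709120068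604964038141396498090418435317758608335862395936355797990482819134934171082639133326465128902016502969380153280460807860437391531619065344787930608366273441016962432130149435899071464360971914763831228068780230561914759346361294626266762069176522129579535566717298393347937303378093447439620407578027616923148248507220951235783939884754415334658363691384465843304863689595011535290171499496903816176194816188720044170985446494848876276875867028737697149856683974225699739805204132208709818236818544541560648640178544270597877288727299953862629075120942825071381152591899529866973421798861852124369887425702693829139795691284468566523437506123212563602135649805337998008580527918584411118745678859113280606889171509686319788640589894096900532051491185262036349631643488917946379453640866450452997745653754967846772715775799272665336912038547077190410079679621047573596907542550112043413729012704605879437703935700415955771227715001192438880975489287946311506973884074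363930252842724104636753434527011961732990795853152853428261019976322825639474451562170515698308806054185019134643760522584318611562851079236684950755761125794509313812122955063714771059660245584181853069845500825335257082966812884395183587291389590418626143618331751511452142386230091355879750121003258323692412314185269543851964266357049776199040798133425225750863972029506484870838386564092248114494785566322846702220566733612489453667464344814942069046706631407764267212318104256121012900544753163811918863361674185633466194164746347444941754299826985718971718365362946612797480244121883234858433622840242708887949341644803999664295187987169714253781900281367816336065429194019123983973790812649197231324987533533831778542699237924641558673145014345161770891863334868979220051426413841152097417086770860772605911831819922256099003792235136149665552690260013727699213476562123550263474435203118180303292211047913300654007561010610810904036644796550105383968590268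077026118911340535201882702737140529239852905952023086237377533728128846181179659712596190020741835555852357502218388297061302136783540022857621235961837108508781044794965898113932274314452065310145454276815575191153917487062322545967757429426061849351804297450227418687990253108950866862449484404472565141875161807278292058798438355650831874584344706761527739652652812902845778039779977390518990491649947985399780899257640347555088590751772314692889090050563983848086228984592065524656113026975449941219386240747791643436184216050845610909274117887307441648955852087543113162818285020364115782788143003869550004237903913868579080930970953657731012360007066975514327564075514780415652646138070557689927874814249510499379683348403846357949636766706002328589212948019345307759544583616455266591826822217408389870439441190847348091588243403166130396916238798707633896563341401318902116647287139454738474725089969564757091327588201357374806514141131153833927817167048606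6966957368655923738354795328581285945771126716708437417718383102631398255778587784646021043824700784617827588064811606204119209801251439307162797206787538832657551062041144073742053449932822555267089366980672099613180254386340003153290356562639958659124053897465843461210864079945643117173984488239049439838225835800617222661168238713914763000809808696320875656338742198960850658596434361005432428004018717567124992245192045636240890037215832146438640803744376361137391236006676287799119171742348344426241122939938962884122643959072961056736531679319439615232317504157496266388596150316659585703930582727440400013411652278225655531233939030388956291853938511917808154650479420279310556252815618806650536640181047785538881726228467969219484444872139727106899625895036042293641999305386171100962466341615831671254286336)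

noncomputable def rc16 : Nat := (nat_lit 20622483883474704957480848631438424542929256615301279835079000048491087528935914374153519515189506974755323873091741062298817475624962289423726615957660584405207231879931335987848473284711170377183682268341341553026401941747547182136796629249401346705297322204543017715306163734865971374117393067844649432874716417989965903085107912521814721634588798789702439803347676457171196828830485974558350165585806816209207628282672321580344812123666352268600665502466762844190667831341209231995312561688476916815755043299866713913873867885578564914019165234126882032872839308676350787486974644388057920235992621260734302020672556471402857212099251998238996118310812172841845932567551511929216837315755603797791133234255886788618097012785316512329665520958512568920899667207430206925576636505811566060594241396327933466105236601350877209703999642464326344855901739073232955701407611700427536796683715721282751823146610067065144389907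206133635807064583804980804678621821844164965969997136894277511517680389009711625904174864386311644966193099844779131920104754542786351656891478462391399605639272062140727741229434764019567187390522153224900052594359646739902397524038204286742912578680881340728621504081558318479241331389261607035694814700512821967827554741833550511733807591910296279405097652177839308671567376978051037567096665199910902042023451022546372287969681044437493027574771275186118713332399854047247032984631624616816449710038975525489237956488053623029041086105448496464272128644262149243037849139306269826922522038466034328154582624516975803290579402865239731071812277811585744389804107735200381681419384676464263593894731101291807869011111315041708896563663344814670372416901023385114748631811962193052363053421704237636307715332876943153933621412733809501680666508464354622577268380074966705759961019812021773101884185917461310029448752219226608928244711293921157871694730067725086412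010553688949792319171895988247829414361375737071752740298727125726134754832684283924724450300727262349017807176718530855472778542827247635007987379119969343094830348594501184818550883881687671088362829315466412073952379682208915390094387252071695750438773995802809658409395027235379948901196199817444075093210176560347837146419802085183138513440007631398040449064903730476139624464860345064315700910075890794781988736542089433094231816662873203032321974829010966755591964337123154359784339709043245836749596157345220471534308866108957912852648461563348772808517730715856995006211901075891232969313913577818867416748466438185233486767079059110843887611612423465419057231782436144883448187102773054355416685275740381108941459750618816624470324853235657429036369914919508170028238861152079621537957700172008460804042066961631425716440944195628263679381716693126795707283588593952111890367083032942652809506295060972852926145512123853064543037458159456331299230190597125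840128328061038450864671007831797620634016126121771699349817242930853575354681942483839399425748693663905528957243514158672797671655661535306236174149255156068693425337783733807151379118146046540129722340299842591924303779249901114024239406143213134954284001562735900485402489588263320664426396849070482312036595408097508075424664099446130159805814307736902819843754095280782151399470310802569775454448967017422884174701359511810942918373627924799587021777980057611200582488473442275104187203048314767365272627635002248350992999835520956375266079027617351838474545464383659458816355599997031108018392580959186851871055631317486298655462388908117259427724576124313874914633405405958363850935607001553986954489516250775733653102083369123847404261992359270161800634653087977243921374999238251805542594714160313574243321891159263818093352806062440419803628316401724710933578721687096809564079259566002179484788056057024820169182186064472080222004210823055840749101537753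128189445711829924261719686167668975132435762838084348552344076062315844781158380243195564855496022782064921674548878813409670511025316139132423691134815372024719242374594172357726186792130224471137663583627621584935142925829626404541560848402879590329143376643022777594946571342180646542034964308246689904822438198926744630118459959176276743168974337775899986814387242110027149709303080659732665537197877991623005323476595756870598770163472642707075545623328309663695355030474262433401847820676491010264552325000876513631594543014824508876687124202902116470083367613086274020302976641225071815899585635391878933015807352667711852703209857078151330658226347820823985207663340445021782140827023495710217441336299191204380994134810006199860616363191083087168949185867663408355294889231995022565883537740506964215188734085547489417373256104883642898900501294908217671217764978242401545154160435064547248954687295451437381586106485807000521147805882287034640109741106918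911435437655180546012187769898112825775627764989411447788018062957706820060359388100393871630610019531333058638959566545703569487981246954170345224827552457719615850137933241204675380918143357574768280415222368535853350798117755804256332011225116793044254906814964032889779368215573699541375755105111348274354006503719812696836938095012715036324955288311768557691450322763282172179465684703405541271976937226667713217996753537003112350940819907374684873403321379200103174883066048557551733616798193233735083500020916329994506524058351351932426144906992361921624126893328270616235645746803131004410283855929256490938378048399347080452733590682216164168727371795466039712437128352239993696163133549751649147454604636786321935366516141859213168959892250101528769549029668339557740115846774147189164971846583015871493790689773324942679233928339656080079795739524093449921089727622021922140042492896995656432615779482863732032947101722991517531777613639487222852428947691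587862482565305333496090033920757254745363934840726753720540731253976006982943432924780632981448005880693077097253369719227421719963880304062189732265204535315091537921709026713989536465669099759794518362969570711641548064284710042456942857510314779379338629373347483609294860247787656886861703461355801409079374588593325890973679636857890557192573506925247625742353569613753503629870513354256961753754349297440637955930267998604309914669094552883875333715975372981837347598262722521676580327536487961892642020919211299943084390780063637568375312496636153733428568714495165996258055946348231256919333474978307998155295967256886142002683477882636211791582321384876798252748307379059266109568396344966064471932059513444849385132613177536755324567269315892990399779236144489154857863980570785081204978038466275866044826907474841441099920013727219378551444607780415042820950369705186751025279572481285434919744672720281422239443080911446239145973266014914786925497332093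621405631171012202094750164882756246798676004941230289236463870204639213120380972359943659834826937080054470914364715016234988623724175708334045309571387711837415110152253159934461560490491632602014443956208460969942613503668441342312757195135185387725690850236271157407580559366437930325229257088291436715355848200667665868374265971368163550820212301731684661903233923424441014559075452533131999494438634557078123823642112605253327770100500491526135654729273108057872255363073424886923549110121630624100211433213319073372797623947825042589631312702917464709782508116181333679915124337355971743498655970713807876632610125374115070913534409831685472381890295344472685018390204808634954772815268071482140685342874018192568646057490261191495222163914658231493507853177083455493890518823597616466079323604929751618436660716369700650360736943370094810556058674891246440773260329979066802236740195300165326325666920088574852028294411362849549809107473323020111366581777985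214714786818207430603568441706001821800963960508551692542161337919212273546387860589638927348273417537485764686055565054065884618551665002873408070607219743893142519248598618317370803638248655225425636296685469082942595114242573038500395603777452462591191165679572752606050476786502729098461431871370569571831328893223994001299564381307363587530357843063975704209175045442602418747062437841876423335189964432349878096064069199856120948546706325757561416659414286368009937039812493063217530337270464936775268505609440752852381350450347888921690168619429327995535177526893536578579812292805879852239488031900219585850410747076222492305199493001046956846699472045096974521939486307864269352254396680212981453816979793844742544646352479579252217793753496409755471313700578399870921799195584583594947600429287506406729187431962142611839644320173953384449276070925501596294287017021430112401115990482905881653056501429756835060690556518107827195647729509594008965287422032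532529130419431364727710730061322457905576275573269176175653906383042879852626142880824251143368663285865460933462706837076707368768707351495633837860087537408341066134442291689490540749322812082332148241231168254744085080621055294474041047980374577613893811003122605435818377521629144982911319362595505890002447438600094154094732378442748300407364690225866802661550528578986895032665402168148367118178815591630387471951313125575013259010931116637490143027715688609049380886332901643398375569021763359746466778199702473550700176684222120318441810788698843320199730422070458694615518328775317539246048996448238885951224427176662833558175304178024607319785767694881350288591007853548241190420501377466557157794340882675100455966706124918625442564772011401039304573946218549915984764672811394389615110472339992273385075226028579534901748354257965974166402170378472025745621560260273983909170907340620792308865962607645442130792811876191417595119903399861218666500645529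987357214489930569327370895329297719246994674881717248267352986671508483603369126916146722301830110727031474201341266898091353194375734265683653954018595825743697070207335307614137001292889609308977759538477505498257422654515384416346164656803800674476286986035671267511381893864298028001986896930155467580364988757906655289345152057436927512200953188113486770057754534364097062718943323671373268592727672433865177279028759817949169133166843930666939129970538935834707213843676668008221862072883268558224579914607092150087036625295383874053300878375120955490074251931844038004496621150608161968432044931510092475617248842112010727673184304284458750799941826034796315089571006055604352986700351574663009837017584894531678962761124687019007981571338202908066822180835088820718147354726702659898353366715966550071361206826968296063238786626880485884001935047883230640443333821937149473928494331135276605992338894291302675381733355028728456785178735770101639218231567738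553206484474647809837300555944405111587739739079130512486829549648182664324100951401346056620974795060886818151017864764410094970959973663132066921580300285442569567535609881147822719224960079869547607068057390732975362334297559535683615967161305831023487096883781788007614108635285810407607517909831109614579182491950143441982556697924995699244516836403727032293654902642025731051257412635704754259127282703499783535682197089869970059288495627564050317285435725240647606874999482424174541815437299733024153658409699360311447653491919117784949290411361984231231794284703127252813907657959635574429726016599383183071158483157838719156292815689127249570692211374411549828264062500572244627672464336775713208017506448863279090476684615577279964080124938988257991147450450425512402484065540666688477801076533223597822883963519479662997402149209574851675010991338756212631200878329196838701027763990650300471659529158909313694367241253611553368472178909677001385419307048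240255987609322918663126329049211746895282442826002942025616639101925883870753191213809283076470041009944298773365349162506989038354740326545864765049648994426951368422629288456737082575769578746138108807642040257466854918355907430600925623069949798499713436557527266540633179855649036172780497395798074702131480973659729105996552858012438868015704274019394542753596125893516681646590127698899553793530033705486436246466026182091810209429701671632357294035550982000725835204930407101962926514364779738557458167302359445215870363094085196540915385111473611404175551794040032931516016381221604222530412597617013274091556501558326414162484153461578688049689509118614403364353425901736704583245241176160868488556985073846401295690479394081105340519112225703529120236024651600954642886315137284715343814669166332193255471132924845812138497126603327419344968954971747299324999575876221246781428152339409920298543708139087401182369278821969853610109537474942866136004208539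359281770525563482853239784065890608140737996351743520924988425412512196552144856302689082729719317232796258148443600940404655708196009542293672468589859390927214028531774808627020117683184575985789319568198641914644880105686944005045547671483884814573663996255429518684103509549780348216010882602222021621663408347614217137669339311727789607103083676266915899062134800103175321456878032825313592866875386227540861118988457189056188114124151241888931719766310537555657568552957478247780760355123765461580008933246595727270562733867041910421280803712557039717253445194048072927337187646511785463499304145427866999128554970852380541340808398268003001608198957052893596874373902061942788705014140714584600715352044290328871610672291958663621050410300754258595002364248007460074850610814487334757420670396947026274403210105770734050093268906955327051543228210520548829862028829157401410608076471602226580808539250005815702592858980747402442824599727669055266149302007905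382241526095615251294604045574411445462820675444258622949231825754790151555002337960200787713358491225095629170859479008293417056120370522218430054749796445442170998764494752363206798869796057881076147667707734983987672250307103145986007532816436551297704043429558968902158649885681428078673249727254439778601106961948865578044055894529725418152465430233572177082839036722928773934173602038803637308204265456631645177128110906908027109291134624792673901262879994332422078901862763661654234011601590230989373044510907233179827184872927238671037926375626759594329084857088135984149343506152723632105148305427772389879877001107856994383700048387526410238892583674490888420436554545056357868114362611218147246741437461176641859801189501351541320142731571538250127353454408209265410226980179537481988674455312866761552458787786833986116421434513201635363645928682065430592542515148609637585233832720134597506461312687459106258529308526499077294460913092214792845634221160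149413078723754555344370949679267508692950321486085796308668610353678530665916408811647824886513652557983059775390695416148126780881131434913873643373444502781062781566880251535985379856782484564130064510979416291995833999814637659874820804225026843648561415011156615873976089031730148573387636033498550897602185012527812948268893803864394850727936006678580802555847245867082995861780626278936925740360275559597213713602820893678356023987730727828385551283835416184489742270448081258314950528142786475293691669345279879811424914994126340615668819312319542026975756563531469136901534804465958988589282042986134874064650968694243726186516913606004961486395604725335798861446761526063757180722213462149587637805161082217004066905380946488912890501397757089289976717077183366458181031221097114140331922275400136562355144724618919176837282582309974197617052824766868473952024555453501563602456329356561312818453298708585898121240585579531018560847921325139169678958335566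919094400031342743484439635742034894870671201474615855674166933953151611216199622817758368424435168865225943454209655575893917608881054895625559927284681289013343746310692910327542565317676173472777418064135765618973194189811509327443969950891290219358704200131887412047002823934606108974750233890301712014154169470577625601459562586371119206820434797735032181871029746514296456067956504069222680470050713049958581508342024103315494406539547305200041781820013532434436256295735378219216517596363187407401409556440906491134983685059067408559162720841411220806124199576543776419759606413821763799681708306990618320996553456532514288012065829533521506528421608842591375729788424059811079702677937306757680738682835601540919534038609321087847073926277978751638405367479638170633952283988104530038489470022973912749755415731967577954741218293281024203062742639760600500764940196400447713787291856717471272823018717357952279194352422231643955636511150735656572374233637838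276671515397682384519360939237334010832921941666033585478898506141675711566792416807557377485784681169475697036544859293558756091012698536556249954963227031948098968524524934356690782448479805183208609425159086742833305828139030331560873233710779439973719240982220432311763764474712660179671784255954170130719880104750426304745382985305350296478955941657432531272380962905180536661070007008877770108959062719768987349714014510377098603903602076156243450789197005718358130870489001750517747380299266525792717208283847421411358625625515300087966002962295625780981458994579004363249150775878592593591626604176404745528337817120969801279997673444508644595459798841464558281494965191194905951604916726275237113658385799702287308631284028210773503771070163535977146785885902035383672267773566608417227431106139712810102422562476798041641956016924711192559654481271633586001866588517003337227048263875425516481889631145296494778615893605551233233075799761644915177663359513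1858554341725770583494665136413335924093558000205933311246199094200941525453316943601128320384229625043609281351701579051431592018697560722994063017059230081840144244951128758177265348485102469481508831467303187298378983691160365110886599698921704065073416830409734132018424822667107086173833198132744063345815763721205556413534199562800420350020325089046681624695367242561074153403715860088592103455968757620625191216996505393252217537192632952722684326490250938887976413371968120260222845218135615146623830412034582724929979366068375118332132455774705563731998315777052084848729617255206163736718500221911838009972255485310432233208346306649752524033447678687211951540810345847687541413584924374756372135921636525885188315778243775196840870431152325885352698548026493829596105304106361724231276902077357272466456576)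

noncomputable def rc17 : Nat := (nat_lit 20676418649002929389105134671521904008060281555669318470844902230866463741139734576506840982070011645188699296677406967908501202282006722802735158290323330421670123606055923205477877115694250231853602379205938027192075335888741150924146806729477606712514606261522990022899403911053542956432375961340166144341948287963897435480892874744829058888133491454228004676307194449232065172803812753288184832406832476580423737739066991471994860952765756558035962485722389489595901187435051436197867209480701233294807891751763103031656085026483764798378690988902047363542617043673248596902197592937076109995070004056801945968345987519424784412924185111781639085101557574646316034467607351713905581662907463963089965145903975869190078278476632748320479834816157161535781144364061812713021117250089388903164954988841239729247404651708449707286140442516285177082817774338521660361475489380478036299498702484014287584366807885984912921878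537702448869779023492817961866203916729013369368123305784404890493894842594665007582718854102125636764101187143808053575388443586850065184547729180057692829295298142189329942435852897315497568877012787327396091236226550586358445702866449393045080386468076508315381080418006242640638144772077456450933882857172634397979868656476897521027155575288942778793448233510101703021527784756388493039394660740667508548060478432762120549225035658236824659745410958044667218276416560845481169146299596614920612195565900216026413936937837972902790592932237541964239057347685285785084517504088191698352326388509668536708202660873786389143133285344967228816892178762629365869381567378220158217087207927753190703100066894752187845771430330893207649807736567639689890192030137467134325529940560041350273992488436278053603279305839386673488280667412295253212383306956604405333568687211097122484137294520619845915349069160806638167203689060604634644917274203129945202914512781544370977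278881647803160571330647706504614904879457589248998742771608761785560773403227262333215852610284039156521683038343543097995440247936608789900149043930216808300314257456591180625815961692009150852658270227986225623731374219230220313771054871257035859465069742593534397510349452626873038818476042553383840119669131935537076944605062757115902261923821670291818820898606303490751893038338388712318985014990296540921262477421228862877732543724601625787845439652004248257961260163049052727159023145512749222824701629832407574167411197341442583406708536302543464902974239760639747859481387153579290639278293912620822622537851138867934398536928917325547483635207019171003814986292821370570140901394593769704317280634629955405181361617512970993197447810519954226405836251540122873271223022250748147341702507678860489337935200898072343480031261020367287749009962707709227549470014611660363119733169464091400845028788892575467619803222807224143019087530615455137835399851553587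082767605225592212374630014033214728945053963923347329873747751070344193417841573640982251639400299952706806807442404426272435512465773721496432995747140883149697040722704920035574699598566138147980038890156663047790561338524268100681413505819920216690555969314145386113207493542163887747789171236796640979972584280109451280489906440729146006276496667604051713368502700533709193958779609260507876214342633429454721216977915076871106474193983495293910352200531855013916091092258288765858156979815976539038259615607707333448984644426496872231110134276267198662344594897322939428994469612782151354401709762570587344333362720362137282056125794741117154122213603196796895681078839813200593406774293948609021005079359856734080586146172055829476160215223182006113018410293385465419021365862454904852898676212817273770099945055862820118006262220522202146626055624015470843282856954379873357016438510927403419001702513118414279771629424961162767525062921528285782426941422842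898166329975896892711066718516028148938865323258887707346925938549440269679544634915379790808224977542670967633186295885423573383955846942569400832143560265694401160080018073852788278800055775677112564965358072350993441976874051465988033577453183752341575816522304619662109944005372469979882828206672072271988943563548171920391355268846836648312944245431720280416310098316761302613795974950177214880746117870305689201846163443396241599391967763395145921963439622957397428164963038542062475341597617779051007898669477469339561301349679301010067055966975641509933769614403959962020577926237883544236036453131382599396898859122264172670222471406210535881207843313900979078041852182760414427239954639214511160113361799057406229113723521146280634483558791871858640304318573628094672196510152251373612150977544320961710177205046753278536474130885050502463568612917093336404978569326984433581962807052424383948757756913268295814285357106941366644311558740272972531402893714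442377920466157153857038382871650082048448882458604718797002755076361413144582541529628235798633936670908822561647263384607146585118256513617713941896341312904550514216084217784358038720832112324410331146283169843559051405890984179631396157960406117835382170987680177683338465678578972369903515621365505716935508812085392365524988849760211603245574835505598160906987968825312279561213150408799779164590550606357676318921200558321933070330926014460269125089281265708269189984048966426098960409058437323752701179258280715079158281086015656765960365628667889991482435077475740352212948648305746690108105314975270379901406790332044911314885280001404248201176566849193356292073710379154082666974627956301190990438160076747676161499528533246501723843469761538336497828536709388757221470163545553436183309318767283260180758482101837284412970487146813457049584445495140653187391120833297180790482606803333279543489581018361963445009278340483893043215785181100647114130542763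658198062338103162298789573624697721361632992332429748731338476891529597202195625232284025914382214190300330660034780919066796213968680643922558406565779105684805078566446285434109324049623748601118509598286961915367051237445886142322730781934156740109787858617161325558284024402754913766346849690787020208570712875847375838257487176770161253414878714860466083597762441999535795613336416206875708453001701996139451575350436249386265342501028183104445232973851058409281389999392306924490584315627816462269822883446093521357691399742511824032593820138368268949088045587184596091428706745416665447843894872635494878607807350905455882515001009117900896403736272487493146028059635126652790508995859010253110353077448541184706993263735358016266899375233194324882586167908514717922561146429846972603602695523706641281753282975369931835713057901074258803151885698522696915723888363044755910784347494879208492913795554119415977510537937624959836553307172643847306962479543523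006420409121786079615757000641673551090904483298457663060426305597248073203979021847939888255078132517561038990624656498647490168358392629038960602669704436950913433148948938144240129561879647572083827446335665912203458891718910764438900116889409721960436361706752635210440146753045664769955110323088643097027707939457984893756115555776143466214752281663408773046831269281069803102752089617825922484475263987076289566984138015801543131771395387548266992436769099854571932657359483950716217029762428234817670692466557792491217892324775686254881413230361914757126787164454287379854868579633880409419034008162159666498674520582073714676870334572360374284030880507896322542746802260450584180039737726747562639086626044905937561613292450823952850865360422019715289410658472549032344262745663702090268668986192626093114302394430629606427770781497764158086571875181150524213367217241006388109360319349975588050309553903484045664268908870282647670299473008018065953317574321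452844363627046976160011900560053499895311013009619374182514173223180337623820810531986884381036315763889941047097499256367777807972630625317170871967156841107631866506361466255743105295279819358866042571200915400681804646542577716609137950278673143516913832720376693992281587495311707690780499823064808724966718588314972843758439852874138015347090736010437135947914738059903218992849313367046507675274357762542976464982834585439302488040220572916858426439264064230477478734308322864830632093249863201269264895558607258731195015180132770072161193894754244252458041749441003581939242687402588731673610326068805782663620790023975941293674983379618676668760881147744181544921016561416173050002128034599464914105006186526039618609421898002932522086956236231534837290677171658893870298679766294434627522684495240532751212987095690893009744635233304061006502506367679765937762552267488869747899301347091188018917880635201978274038770175539696345003279095984288250663763701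117423153578389316174480688875779415645063319110951745913334760655299953212819454744664172240495501195994278761446593263106713959828119853644049784003700882319896009517939100252918591689355813145422433213196437774454770845614138798729350766083344694072228761932665546681157546258303051703894376467987784183195705108168251921182039184133336376467365083867477692800840192387432603433678838575433191666768711992737810143838452729608949293572578037492946919325714104517128250937549624440492238581943529193337243644315930636931031005320783606933722164342645133450959641758372705148311292892424035725834412207004975934496711485632933641007144113761052736833724436561558677202436313135191574268323942818763982181453895282912840291492815963028439991556774476771653188796516031192411842542898814023599203788180560125945695539634247724118142205381737911770580484715337802217631248306712374254806223373379499949769247586863639092155761544981300580899017475051868325839275620862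239041014448971519611684009732213589625541368726280776902639002623919861771353061118867179818287220683227071984636152342397095774352024568562187276040788010451281729190839140407338617168842872471293152519130463776333491491798291740181754196071633683199945855110490860152148396432934921826392991715764562509265426952110544352540169564200029659054525804955633474049662740808135699216673214475665471220391408293168083120943753592413889820350864383087269798330435223921112157848156493431633129493585772793962363408391646921084617562369161879830584140594960824568649092400186620910488859248549189713978324427835021340712370945518660295678872889919961465676923593976259832350212264307097583032440478234163700502805806241066056729846422137514035487108850921645975770678609816421810228128126749503451076262779072441633532078810609480140740388938566508003539879810868781308102961363088265549782312419411162718318820787668591136593744306231889048436172345751557165432785096785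643499212950530002111445159517096358324471697668101057458672042701201818983344635326103378755418179263564827072915654226385963817062559526491258810662049600741118993619574297002823360253690168452535280051070065145409912065922721496180864476437890245588860416530629939825830836944503630325011975562859627749976315202604070544478710704741472273377764192229115449167801811840163531012823989748307696090804009672461429531143163816093077551388964259037026746151144647272758347095995162665685914399236682848809341755876362813775517717611879144919814140330014468012230272108513970875694908014252848880518194657388745284798781055650845971273698864243647497480171281179652834278309900967709205294885637134397691448936980533525416512316980169919252060093341456449739101105338689753397205803386557929170225125029928348923374323388225022064021037559488072011012529227507977850968412496758261760029621928515046418486438339202488572110631206812536625712990221994084966977269730760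383171004464413766236313365336776553057274069292755104381699094331680048342473049116180720933470122065470248810384122955293370429193676639924566887898463796865395177431674955832895734862805193956152323553812082424959802254768272495863177234438003720509757847241176571662984204862003492966512619076052987320942226260147460623443479853827880205934465402968001613499375272821543964720591157779081698906759712574064780821229257350192459606586867800095964805329167890761353536231157956781196357472130546498104125088537686125379402957367147808051192899401392024651933086248202662411372650752512029226927296883460221837128497072567928784807778770938801402016893667876642092503268454826567564470984266936312687766128008979503358070663652098448282439468771706159102400003829474918189700876833513147727423358285221435747620391075105082638236651817982478469584545450628641368469949800129692964992762246427545601132646390287611984971445456336312297768942486732635770411953155801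563928770182281345373852308527956227920673160317359594097484518922336917260188672749973610179483109372863873779313580807157752030931042144732038218836799765901297721117983971100547567018753245868031616542405929156688240867193594716817047039554646351566561558494727948325052230043160433426247093497816145441753548810676210615021858316663138724445047171020823601902780718187448595366999757496601868575159863083603319695340216683984611761287299068589299484146528223894411089631353408557061803899546662498389069580540562347572473448206866190581663177292804182193537408099164974550792997152106512870914325633612334909152752191180571047378331876046016098893852664707460178545312580122189749846457112220229389159344312879265175060009673550326606327834005031639087843112689637259311817881794195169330189784554839157698344547323148905605191253119059245908530696642456081522727648751657582848425500905421059686189261754893620220218180620717335919810914255272635968697103589745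098604498152550036811544106847733468905166438298863996150661013509133395988913738097723395746813194516841055776440522435241797739199359098834689282949676401764299609675269286852864888228921172853702243845792191709600578267501309751658812744335695325274343291562574923312031442408519697352411801202518493050188506626711585830528925367217375396003174778086160661344845808870391899043222371921753596077907973123505461212201090249384660397933772650204043225794543232176283283555926412709222397468131039044228970240924971034297932403485104552566025815688565996864633961369423660109322574727872749115814206027359221681213654725089509999110777019597179314073051175226272227171350257316940315149582341070451041729794913865786743310264067284580715224877718686664269597551311451730747025207128308419515783388638907444538526219342034985159370207668842160754860416178129278153397695840732783734155402817286346983458820982027994389646588643122964044074885168265947068008385036067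274291979026768253247886637279728934267424875849290005301257150980243386797176251022307575762974669193980064811773509027682279360229251743618968880776414181312041736809973056239635245248318285787775460466926143851186207389170133396775214594861280378577504298316810065422211104965143648424422517442436339680636657861913087495687164261400357537921735197072718524945193586390679485783146089088347462538152816794994398153353154333260996680201314691280508837866086454395379480582213214366701722136542179465664787292025106170014555621783710841871298121664300093205060069470529959398534077359538772714687789656392974329556029241474733972863663638949685223170135148578812090041086210727647801615290606080165175021979516938804841387246683849097560247781806409068878998964118938236273045556385733753372490747602755067634924157746174715687356601515430457622172772609481941465645102207750816774583303355760074535956877706257827423138583807966865207977630145840168560486014417950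078594248724145387859400999148889117009791739246747305052064626771170219397092675942717574205801372458618175827173879198726731849740182051243098273919808440696123089528339321094495331621949481060798963015410640437645347061148358760265970410929341097133625721395619912115762279192176989147471323062300185177284151609219834109175943042917953281991784415725766263705247650975052541005928932528723769736620901680737104537916613105964312773952496391165008382518192672093985810707015755463844455553089762713718396379357078688744015839849048874844417535355546861988533777688369662624647321054480893226762196260823196625576486865202317249784751528157914094602189320688777044711012478298098369920183122135464491015082620836533664525856156353792090335414819595795890870911042118561053763077384164124177139271610387008252378757764880695988715195135237796796203069752250187218449187603620157287101597412332928225683028435281856246074517491503219298076056314355953504078677354408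467511406372970653744114261079459792126489768422455259198132819809473538677095557982356536090169430865050229810790677352790708363495674466291414773072140792967304565351412675681463029664412938327938754343674651334069296676174805501212174943473374648404559160396599636597458038873673902645206420671536613548625844567214097897681836290317730013646426964295328949511884511205015053527898273366643584164235483811823029578216938125151343754908974560774230087284083662138329877830500942169986775308593439987675814751313135600767022771958014675499775518103250608388550029632620483279146940765719605098878035316750012946790644142596352394403990048640224824306076384885004488124400615017342605165484244647811922816674880022999336917623839850380780755708682799337100597826253448462207394882078621438110250245594749208600471404278495821908825196723611023670251291042100005645462380217073980851922501735962445034864542842686468891160859079764074558825243163674039867451327380901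4269793193369703392206930690959969628806317633953856332632200345427680468974806598345732163276341024846378125454464309878018549985382011474320661303385083838196651189963713899319371252507125776616511860278098156647429694240301111307075530355715854582561952655038614961177212478376802949766918981209126332212903644790681638721088655311710441571165602438035971437614331530693195000522583396754472713711817207852254485253753560078070352002798091271406022667289227637117473030718043622766354626428785735595688532532121814145510522539736476654322451129533322092116772348659578972674384906838113771110868987740876341465748375042856717949280793384660659962751803032485059292158863993650405000432492767480644319572880334994038052618724691359317552639793081067671276946435045816596663143441759348421367373816921584347161559040)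

noncomputable def rc18 : Nat := (nat_lit 20730053009259387661546535155917133228603660426043849954964217616349289149101545282833694116094773049949222620709226270457221957338834012456102064438537794734090989094494528420852770333389168985570619352336152425653205651843319023878388818363091914049209148743967193678444963717208637804377680262973851367219394543273994143602420375100936920909163256035786513498682290719429968113594361315538113679790957691976618102730648980816045144255626173463816747588253437194353591893930348234603576532315274629016214366760247513830640089727305337306464831191650453715696613069764606066344928020831189163015052321997986460440721525888579774508379348671245606201723659119371128456484362661604948080841522976298216777010237676397782193336944209831532273639357867345204996796415399171154955701544583627219778415619907170364848634454867896815031802169925403556526679654790829850954866608363284776425872769043289780084856335107122691576077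162247331323629484925485904733934894808344712649675968364038410155315852018816807211337634942313547143536241461032115714820158429810898406689616506413961417436588201182073968317955633615876994796972134083736226958649384974505863522970585017996801991795867090060820288806287517055098464094187360321417385969015683942803979115766705544413539888296126937621353974902970771148770120767869532815269503278376710723500663788044281921825249844198628529919443137543327410106185674020017794776192207219551332722875950156744945326726279216525692710083612528827664837501764452137271465752154163289526823027462887565684266923093602489621918121000647072572936256381275079353007978509421217446186625575277465174104506162137614605111608754465368450521972121383154773562452368018892306304555792407441262613201675639113533011939962193470692232026673573668436175875547606239642064372186797583244587647171400882070041177906028113312926655941273315621790867469400755413488725025874674846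807447416638687646412945937229551805571675439837392624667325326248905013702514844804118414411480387037909234613546814622414132343469752863019099148995878638095932447952185055162035196952582454316651123833781771724701940385414609230019943132297671613171691234351593386926074073626087553967934389387541619079002754789085155917760392682892699291361797650742948982603203047815874007720060556142632083221571261320715057232228251069077678733441018800013166974636962617734648422307691917672888761962456638717299904672371736068220767774308869942781182601497347958827887174663189825567729942257253047916359334749736656966951796131653594554601036752515261697795870176445863122744067177944084447484658757214139144191161854573226989357634154335191458143868590306008560319234693490274780563676680565263237948946720661911927214255283359068145281664783264476288215501330187082884128627882106886780041124764698131561535241268429584601773208756557758875666039434782401505504947197541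195711499993232528323723164206859080044276556989309679245422039354858201921702669328194416625983335520351692711373519707598067870895337462795167623048468486138743402346455886786787435743115105321961142810537490990765841582801833181689599830313446500379935314107078396944094229178428977201126920816383214414470365989373566524701148613264887134408632462265545774291617611488506586252545463124084344286871688947728422623585739426182370364116819764326222802786806525009214661167966771571513743899654742269257922781886680370885655077781247152939742673716551307001488327201145775472445140447129933154617646584021723325769943741991037414485567761158132816508520066072241803592714472113187778477757789240825280379234129020245044598870819101928615356899574734382346209791530319176305467254660907940755769517585664101697745423281185759849856188814068079228294276504845578385396657948371931195108731057053260157373849662137938539135473004186759687816295612551694631516421951816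209983206628073126157416476475839717203157142469713677518430015705414077449618995314810059512795869589653045154429496546312736939436169316180403416117919941019543071018507889780645689067454449728616525898649143362986666612999762580232132454872014264679507032471984922240150471742670531070568083803155305503234124829208126040375933361651621665682035604911624739482869765800458452041017807176049687527279144852054733329444723776515260318082917941390624886660866250509183957885624879365035508634820748612775964395754072447670037705585832829460369734629730002682429182725827530835270743999394136614252252022511332183401829580612364224454954309242799066693539284243389794001211764143127056748403032702172652359511632313613679525035073995842580299195080157574886707433958041436430960628975637862352325801660259291038490213246622325161786466773453532480420743744038478440158044573637216470738243680911934580225530719055656307690934153627468597205191464289755314734899046811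616698933036745685585287990462308814382796470025303670062291291374576680820205785237557392195915007284986325211979062627816009981753515303237709660738297249715037293067714147358999383836930478179066114126959294871892157106143232446167127897579554885019418245784581073461369744759706359916970912183184539192017055353175668182185351300110769735069084828188103547741172612440916990228239709947223232823354996503055272339519371034087788415957316935562764554474815840589470767566727826038698444836621429389611017762576236581134923910789481248219995242126669128662074387931243053939626674315479722695521272959237041351353550770454814187169336641602139051255200324063677292696580242120805982803556685803317632563938382859936076117598928135166308350334305265453517276826406596858112611617973729795336864863207129329330863980397648455026066999369082170376042319607207777566622225453427662173793687836524045876451124186046349106624350742766827645688922044545432602756745239296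913814325583808561390348539403076410598458423264092745877558238534681375591959298718057721435242837997404281773075542429327452998594942138434556985063912349402767877176543055729698895209172169393811375048374531954360056438007016410918907423607842157129227824356934898939922999304535007945002404557817370178143105514002378926089011246135449842010566452610984394581265282078698318516955958335435866906353764547143597525760751374480472037829917536379549949261047896228408542756839723267161141367340170921830391113978115020422112932122002655437341964085263607999513072204805682333725650023049274965387927153566977485338446209482702512905413062134628882087940926425594659049478079337746259364726139270077439605593467444353503757935633101666973507888786189663030347547223209226644050187478065334168432321919208353983948678600632574818511364045011281968696143454698242119962201659619739678533906144516542288753395053370892950125755439795815779177975012522938199370055709980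965232671959305518730707734028905661134383338857348625270534321952135487855578984185643165035007400895081692723940882408113244838935834836859813697302336820416593983260664764236159948415939684575053654929591890883794407664394867841048516468456127592642595309187287199296678062009540214058699369507501607110443820980379911025242116667468026352572924729318996461488136771225088418335738229952362939568610121555852950751179733235157154730842385300508180605393747707652910092621704703850792930092353244376902290710690424040326081731382153359432705379094444712868039622458820452761242837789982018809230586510649755227306309284610496678986925659541724134564370598801872975777816742269345603085475862822575782696186776324576508613490163584145940050308810113588489944855307481352178701963215894190231572424130907522891411607938318901717429012357297837998796338793776872699863364856122676403209723770531924176543895358625175781361880360881523977643832864258107620230449413535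673446678929513402861204202599822926195203083477216402472588095727449835861417016136460622958914099329918951272318133315019034491533176223757379818083871120652399603822562363635910175895588039038886473967746208473520620819087229537605399133250459220848125175799140105667048120342379318821333047771839488559911131062246341751999350800537948032617427572008660401112849975576411203294639227554422951200636134036188709109467130273173878092329545997149862199271093648001763267237054854686937016782128482624969234687236750482602270367576805860914779328475438022577917863676658334686723219752253394555330848918879759677893817727307061215880444878751382167624262538492011574478170830492075431290295116732680374637262785388350629987114095192008823228103486592931420226450456093324245410030770740161009698943230784687375227275675117759714323470348894994444368517891591858080025754408874024940532981711861318886015847542995704712399122075911535848713073141463199464757200654126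474363239894102550928015082353233480971135440499667260717990286239343954725588816606825652817864704823510719459327450442531163129064033720413183513698285792725160155562246442184419490264411015760138075755748515744223982666283190808643605135009438660177030231577335528599551739578757239643809168821840608919964240556503602868722909975949075131201173607737925778542743839509188960361246414095088072924662485743735147679799535348211505052258670575771932877539956842283714611065820610967356009983509442663649268893599176086467982187488596192415899094401639371429371331515882715121483656679499863506652314095193179846181830327499603576048569009649173755561148625471620235632459813615185370096948921778029716319130597498092871506844425754984898693625117550792205893547389533690264290331282288225736929439398451314027200471436014380555028854753666775818992679712932689838073132939186463759705893552119651861353524940998350569464840990474189068366306395678273836119008080905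161035868928687229660252113093717614526394003785804245583149858400149087553349367407047274118772569774382843176183353715977297323087235357581918464761721574463824413856166043213047283409253562932028814984213194076495198256197371886271440213357277943944661481687263940604227788229107938632751271802518593356398384771751947607105974647298398514525156678905601319152717164772970740990740988397658327674115495007711203972178361352369577776031131519946339208535147131768963068306474669793783013824290178710115004870518869902614556318157050932759386297631449576432185467500327723719264669539799679568231896904057333984051669396572917311234113599281205361045139150448681118525970660587568806547686967976196382583490883274863616252873148138358370725076842155137737036362407145263096674509190706161257734247504599227763113574266796370246789649266183842860622187340649707542634057440617148164935276914955123014362949870433577228460969854781667370455652222315148620396079713393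939209249567239758623737142781774819675540680358768070890992580247502403928787949862535900921706228939510125290299974004680865082035438839968466308740915142250515284450857589016962865461930364795478712938227734133563247124362492396138444700612889697414274406123152299518675757874201739070723556812362004286014474942135073536329696634631153078092852208516815183513516579844483676112675624567186729279874636715730084481794711933059304492325390686792009759119862998540293575984858336193684793648782500674013106351243311978033104013385539582967924388390877043826719197826369748872162585597995734929503170502097336129572599550411381892518291523885017124046639361515322649987860558431983005259715127232943475057606945302956039831144537475271489767670444524865869874745030495568257829298531263702011820490914321858378563305225047967071096108349335832122970353604844497618498713833039516954924756902867804835825140673671503601282334238135474222965496583678392781433231251701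777228613141427916803779262487518677978835141830682819152130297257838165498667969156644965027123387870786649848823457824148117875691515427072971312874331974409758585563657079574251623650985241305968639739456538232383113462072015362399058483810823055562528967945818177474566484698705142031351773371453034354355420889675291564404066469125403628419930364739566252762899407253342606729536692754434111250345993965389941199377813953296080946020879125306411159266098053331923034238868327789095406932157514145129146099787074054409101453726256963703430297708393594999566174645197343542791132292459491944438286951503353435396438427598234320240828353942868933060862291158716391021937095056691083019950648701472568408982912510380528717061021716319805757208801876750239390759024575941867407470386924565048975272600280040481029265550923021175759836853455174221819122233782056424470529179797622085065886124119724052659734574048536255034546604589510227140200914656418986130570014535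130365237146431166782458251398162219363036616297729095124069816935060358896136956836992897787585699960214189305225123383531559274231411347005290216077151841985738129465381031313260730096837055148370537406477540336328818477259747471636182912211400504782267206210504798615287412328226425304303040382682216090130950807427859236821488482829378709334412332287680216815943349210289078255369732812716867782403386867626401511173556412137013280006335854795304743983582288042248952478008580349660782308658887315540720747928114726661806199953959509474026133097656920442067307160902885525414462447970254081056682854821018016466126487717990930056082662393155506367438534430908003779902484866800210082041985323415551478010772672503389474918045025081169686509667004693686004987055312234167743320646244906795697761154618694322491468426025205812935943688637683903443049976826697741474951682711666068192946531858089190249085634506282335298237911274875694442608935051065319744250546384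925026062602323504637143551132905149488550147991963531631491087408572699891671268372741586518569024921994225755766835565015819618433206153323466522675354113730991025569898183495436576047980617165769036172687028177544012187705829552651643748383515256997212348967519146890992327244853757048372711348085373650580996706291371063583151859591700076770657251886627232147627064776638304292656720068670340422166870252760310491999244798326393175271728310841785246883520160098505965273805753505744612197400485275927490149135918406387058510832921231004536300488584571793422256910505005277282502062869149779383305611495139086589425443930748169350296342060197056790964937264453914138097342913507650304032187726273964667245321337449459862432742835802646089702692074990907094108373400604681899557357198159475297175054960670217674651123741918491057986079996164331425955911360161761721978462279331857559530237068465521235977037219694639372073230073734125443230815720568833990573921493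396557928543313525171234016352870349833913926138462236332345320437053840785520974860929640624097575211035324907149668253196991568677624639921819478797211024756633766636414143571900267812781617204130983991194346732438437180971692646356229444094997825072394277815278027897436328619144121981292401310685332522340015698222481212897484621726643578704860036800338336967422647372050515575888830274303536754239936955520322789182495954148452212537380944855827165984576148371704522296841978542092964001088693488311003941276742874734364042785090295346612316025713628082447137048701644077905891968045304463090093390406836394518266422769320846938457921857783976857524985616343857259254804194245964245965562193351391988813087777877262915151613004955315582873313272538076452169280303346729690548387404676939012511912900122652566854276522345563233800928055287917855838996597758605579290172316773153454687313939566503388966876083156280413675427255647885466373626145189896865257021004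153982111088583359427653921238984248708583228644474646974343760466448546373788775188460329379524632558824713145104517715294071130340493185943469382306344943326535562058488715629136244477097553334270662417138898667614338499559222431857819679124892308315074529290431309536441699429787233069655653397062177734949888116678322030420562510208702441014839047219578457356318891101902281527528255544073313825078228825546172126020192787494538011190846196631541438465963694402292334337447517256610578601923679262213473081461801028849692252805784748232599790931499263165163421848369567802167090279025053255393220287485784796010308222551166155678477402428055475185962243701256339627037494423534668225962445733359544794633355516842958340827198884227733701092064137320386254842317594047424366967211125988420841044634234622314420080626819272271488555749877657609561986862726206086324449012936043381455903418720994812256487907636386843716999161511524160083514566195206346495877132637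665233546262516247377011736355662645474410659683649261763213602835773163582002083651528228595074187018950075957500183261909017840381151555456135202500483430032375947494552628980673758247247728399431660285273353057198655530469505330310681737342788854501300724645147961606390407268175821978756210022384463687436714083850473261531329039140890263996075435386131190994432343567347727466956227887732893040225851911475598765609178343655674357514844874728263290292123459255111246710631458893573809048208561696967094985406452657613135676207972974149101475428506741579154215603023923087396788846245571884296450761354683295830336199969739938845737581227862590123536469803527568899987032250525789423249296627983176417407146684580751702541758275199396691378963224252005217828151818615672816516919909889851579741228928294314453082193183291093297597777738133617721813704151535697909245997324187103448619751356052236416384315915648064208778020167000105204479386522582426044432998056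6019012669704968028312744369374437080250437234521929798751489904663898707299394073077867908601234835792114850503789121240024189888614273419798750010242211090590120164964683259243746387269680522676178159154815778794860101027312668664842458695520374386470833478605352949489821559957310299668578221314238722198624948457021606950996750918184646368326579947778726838757298388650350693361232673860015596024965455085981229599335478986131746028526727105293890245080700453187004143410397880134652964343175036132972816416848059068678352048049196363574277844166751372835313793882804659915476283058972296131719415995394740268316302160943402922768103568340900124432115854174195383180852537361672301220776814115534432029825517404973774834982462702010209528354360879078368380426724865363815115040687965884138292598833203734894346240)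

noncomputable def rc19 : Nat := (nat_lit 20783379808423734292519152642894905998739383175684834339685447640086948877897616043306111490483024094628101903130621479537166916288736758496347344710872036445067629853432985411830923589389759734026154894683113846655323593797160787624124898175225134200332544794681774022702388364974276681037538443729549271083550200738062937303629687106401496033426690511645367020346405099492929072783203762935469108442685752513910142845602678069378787390899297951139466839301829963536408091246690369979653297060101497595034965320928227174934192889311036459894968812405309335450635119797060164210786461898563226387517439734565648930820089198237598603382111020878212661493201990140019000530004750424535859976502232702173001065885026624561209277332111835427284559502952677832295143958556284664855699328039481119036909071123611276030815353371668491806652379786102025315087111368052996682464491156317885388551225849586281604167606086450536613528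385465415442261263664227523655663708851378280618871122334621332113264565206518817564268842859543075402738199031470797352668977996382750613239688288860208319589076295209100283310072992679473861677606136819782142643651606190671294052277663633720252434584880044851345993202037289121870962612140625554179743659178546301292754844767401480861596779295303099781351251246949984145725064528691952378919260907920751292137820535851787125826344520655097663544062570534988249659111554289496872670840675011298588147970683638699883828219937633919236401579617689261231368946402714436562760907343406375489545760407095467754852146219665275869874560737732709605179310697290281243290505672778975342097060059633787387852646900257177030747231085620419246445034537163725092323854618234752119988387476954917201966210597127571933501956488847436394713438373731487878582441230984919275739268671121838375088573787287147326590352345887838048782125350903149753063747712459233518489264774513995738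309095234532838649555404853836118739831815126527796938657543601771788473968724629678319128940099549689081619419265157636052565374220027879775684275658055686476888389157199492544741276533230341312596657587883806625813289683207046938219992060797788895645244973817904973791495913019723751227016445181715154728155706566990038465599788707630823596824156799291185835693872759436462623658652492889501740195094429804916780630924202492486810139503722707929106890716495770768128512130634296596687693915667992867236430349949401566967762774349945101636628517849719939038412143260809500996716686273017181282659863177675462070442972972807428460027209760443963651423222379237027364582912989842522901486954393631871037941937896086107667716599577942635287530711194415929459433469301964676269933311113933127776081297849111623544822634662608416890046085894880094830200409627532892792386653012593851131083169124586059449814391035436654154589359317936188442625477984470710998437614900547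118881276347830963908294232874061771316771790222276644275525641596375399585728608327391241575915227344363510348411757539264522678045920930591865499923076495218223222171108090800940705118310754927276166342319869864381492208959083562019492945004246693084023908509583174971245326484542226043766032940727667861409067341107876426313166321092799694718730229576260389945317794476328728591633105234803232260177303679981934014475769215196116856852398661500134453094429955981680274066170255462527266039250984628245632042368381651730402288301640217109345004425165515530989177132303946540157546794957761722975689005668434566458501946066029771824558431374255729779560607718645712113839990814742405072729945686850316026741097271479217470947482805916289853078002183924043926811970624087283604319874311617329295797499260428621254604701284394163503720231836858885349062084784201068656747149280242512076606039273642781889637002912658329679733159853570825293791585852231638527308598192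533455333390576356673782720088853303696095397129776695606841382448539364860699116496347097806694284024889322377155040669772695847611180401173972634020152678193910985566595639403454120525517461333851785544609411470821904845509642740686344361079199256091309438546802857372565377747441231936464092647448076816654152944196774733399261036447318815862997377076233205025000215001726682354719236916632902572587162830304424509848001569675422675001232193038308427509745744283636968799837487227482109627378138108401262015742170426191158995971604766620640272932415892043224390038813907009201282575569243597143259925802184182518954868015513501485328205043951926478414493347903145697163541413915418499674541280751187878577689436215756210802606634308322518905363529474822330268568282374506330691545625503123382446854591222639488080430605724080622152023893998755869714106184838298628489115647500581912991838010676546283311854534337952892006344879509323770177776585644562482608958319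514584721935729483803592666753197930413478343371574135080535305546175259981071906573128897320246488990653141093507230963672107332195565231617642818604941680058927233653833193324377768835172624207926708198741462733473169439987669426854502833969300418674921498744812003398891992609217068517520117443301035723590718734091380194361108187349059827637008671949370648240803316947036565110283549224748627899192610578345642572831096723987245517255081118128828811608044305282429406188275535923385932496666722559823320046370140683152849708982011006059515533120394636630033070993623034112397841460375439316058363300683823649608688181631023547301898346005220349760267236393593998672845188542055777996842796725348909725517009302106259555930667555237023073782379484332961120089922829231472969129433230103377016931113811134071063792635062987146940435642001901639962628100743943197705166399748056189904590998435669503430163136561817296461331083566752078040893182110000373219519651469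912665987831275085898067416474156385651734725915377078809545980961541719112342685207476605852049850115871689882347377977078742374075399316134465748845907324142003686354640254267969252917926429820014771498334763258275400298561449842852642111731379436500188360468790878048775828350436560588378497374340824492926743652462325956072228139517506210727353233803027843186776232029724844210467001339217131575413687624249948359360994122421431749236182572921095795113100435250012341376747664553557308460978803915150140646397343802521652861110941937381145033492861472104393453989919030042531892948930383101401910083305851706956184121141046729305416801476428509846509774358749285316967520220423133590965144336326290792028580774646570192179895351722689204646474062922828668093459203798604591953018485453383412191859355739515975956826640200738849535539562327146102256305346692177796693151956818056381815132764458169757892522184815984656798533561656356276942887171342114168533916867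393051747555430631933641452787164456089077307189587933540072035362049917408927532541661612893457989857644602252984253758269106523320854626189427380281137942993334277132695691860681738128509162442751091034799566348501556983435255077729517134982026455343456737270705847124691719816247026412153192049084652050717582816034168944484371151274946129282787214702696250739760286324125527842839446493839003059757630649966931756598519013454474088214942001123130367924611607671759759111712341950980007014121961408295194117060284368999763376678853192749376535129258238465489917865003174820417334768482993555642220906349640012190044644678841954686160656508874690841863132428709951750928713085275138815468371796659822129300239182390346467523153326919369727861410909897849610443862887593488060856308159431203821578426545318114478005234305169952292046197357259084088807771838956597874587253763881438311237803197059736791409888574621165194153865058203824010964665914191061690375572727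658403035987843766871083502211434396100330326980962266535752124307337778145473642345426008953777109398848909786136050797230587641418495773645417513155674993088891891282322049120035416953649439028109972799109939427581049185650972684107020586698392859616332318211205531346648715693939817065074863295431794290678392820512419854687507827437052279093774821920814868936764257393627503141810550472699940174498334322917398641749466925570517283731817206621909068577091255337754580741350546876006914702147646943253310253928357328640103235325757147861543200154013765632449963204892154626036995528699307623893254256999402244882486721399454204763313234130405417048562666858663869095731907498698775636847623336622272782094021581678041841293870508671086739094977530502169336444619747327579395470537360467763133894278037703727162899995120932752087810876771935515709762150771165546622828684159270203410987974372263992045678869549505221624191513082425817068176784483754082462961208579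411628531146338586313471624248666811291392611212780243768975602418547134641470290895117855630391167006302169269335041475244642730185877146387618354117917530440127814913993793003619671319791134169739802596609299450458651187584641832007859273322254572994048437874102038223617161813803711726009307565317297483927836644000698470805323957700348702003146851457513246351897718897519440765846985421337668110391214617458988093775340052445431063950603883440993386566266090757684642443704823119090790899003416420548903653597862419001304316304004105822259168521607594808452371482642124793640754936260540365196910618928580663788151561484505256504764788539459218952327349704219961988684728217126463547166872578709939082074739650210981184473337381631582661366823723677391321349371908863396625900004756789779142247046176470936151944743325271931791258424353193388713159071318753485792890803807971489628974880731559102651212991802718540003929390893062702546607857119066505597624570356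225761727865097923604639813615092655194306646573727965489668121833881683308723263676089690049918242970698191105447662638128311337710184854371178298995384667764283909128231816459918078049522716954921778701230266127114459077714753954623198640456868034844207689624482876463409194636488515697531964046130408235992946611177836282724165325077653082034155812366927647049087153534297396174001443131266395841107429590412969934950192214612124751468773874192135066179443981749036035971367413226952565127232260462658548591112477768459008377818271755341600963225020661561718156178683879340606957889718500596115690483597639069336143207145555708357618152628470660606935864733382447967507156119055756311915085075365064321806202500140698963908401638503613601418493094702034246034485298317594968561751717045095909442171274627875108810247401157754350460618119837832715115503378997109124655970367216665422156418837751227458864182401875173787210669787091230104848819674697566317049941014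445599476396396974463186334461243036099900330959975854670466021275036851702266447551476757750492767703287107074518534240059262925456857257498111151889111569929594529346451174195323948223896855884849354146715611296016650033084860099695045977108864077570205368256220207075994750892595963580551212172523817025096071714492115534715528726864298435487373494699309764968556223827495117776313872355228372935201580355396121300351024641916430503827251086959195174007700446986528063363874892517495867687519680044938229924782963669308528360725539193633038193765209829704505687179969096118259202032278893030210101229833825022525196097224889438824423167066745646505548548675667811438636187488758163360977679231490544014952889253534864296684780763868486398231433607702100633132747400895090912055927982392753381061486171217281372016644630594443578521147037721892895294001757331645928603883508372146172160987654854957341179632534851732619123308907984101859308646079985098070738106613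524129578532941251377164413761622780573605976155909659121960305972955864459727982348961712789441323973914247009360224733063327238491170028439647159786933451986320505646648451688855647967685827116526333363779184824855513728596106293466125963150300894179818903180260402030835684051520670176236612479852039575797127760792990933491706917210110896365669880329130940780955194573307144765613661693315007446345172229139531726846877790221660628979448883606985338505637689092178462128223897342169328051670632953273427032177709115885921151051700041546093202390632580296433092468651999234040481125097498231495652672730143375126371987944074341654788186052759251070760839149268561642832523903945973798429877630928115451814247873529945573237399513658866764891170531905542217644194457199667442654229448587129886999428421968854561282542164496305377500868405492023299983347527435397919408384505223295571464281403937451988344070189262457027998819088048168343260708019228125294258870013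283044488065994516377595583456812869502860930057849955902916032971344141852609168623186424336837777091024997448960235239710855110133131991298600073684537665223045863500881408571469684835435195532989916003187548432884488286346492600891750293896716784432122729508912297471448494934585986033899185442042980336636383120199538409947469764387787182081103676420030881768833196922788734287500566026972857571544615228226335974136819960299742895993532365262531141691616114285084713215786507888720558686486244119628652649683169156024189845000264846405771564593103692683323051223452397026547974403836799943342494919628834797705812880005031169050408920891721348284163633554743732173447515121862020549917063313993175284626273863890133654740523114819094319805365456430638577375645338102644389540705918507429982276823470056349242910865453054528914984899329485910511094994107224981517798174992384211653442892720779374803407885111893974860387828336244638823539296322405869386883067405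765852030077998649881363250752324945538137304334237508668218709204856632427068511345161642425829434553199101972526701555573356418037783072029799880782319219262428046000230929154219087607049366745996337380961866840345234286639187631968915018368215120151915424007625817673200880484742782119387739564470569713498384635128576256765920916719083711832403896999120509951085447192297645750818008234578925659657145728086962254554950782568136670007677805019433711577550637972209477179800415907149159190832916913997198206802919697836956096337620786567392669596965535807311424937908000702759069505945075069082977497219388736751028509717332354276829637462358910355767429251995038532785096787800822024932949189222525344371435581839459320847700695092724488236053423194069246241702484335261888560557804868304755645572143391624423116173549890138691609531602395457838092568741364954863056362167022931238338650148516338711452099940457066310094894814045752176142207145794632412520658541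146322205508788179415224412105257654172835572168589392586864720237264384892295485854148955160131264138459808432227578003111708806795217228425989181045331856277105173795449352290719398226554345487829665590085017953688364107247340059680694292709892215830085432020533837803462765300635829857100479326415845816304352022754566707755615249400364419526892469164594971510577985593321346750489419248699174258854039796822934343875926785222675387986344439088589355406387095792213558066394424470410161552155094802896815171030438997715208175726465756786822936335825956313735151651889968423795313677802321236506377810441973581871395249044451292287036376997984636017359868491363553297130394277706662474034984773098459582408428511360805610725302793663456687447600007268886370080845082235764891011927500709268302595247100239678652637215550822742244944160241831598792678632047917240485111610812439323919104927596151715777927497175153118011360000990994202855850887890115536370075536921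064950603883515111182673532523877940394874942118273711543225242858862617087852033061320286390211168690042645669720900495045974192274199355099192035040023071797714593494150639524788578378995779646041989876903860235610658061932575929267576465784511362863594239838462589629259619024277421110873827558545293178401890255937993355462394506125247326111624139537419258784198204942088110732989843847703005403119299778684609147061736085258488755004361982250644937342738199641499222854052114492105009594300059042505162970026520424363576465681273179369322250428756657648672937451168715648266830863351816519276927649161059085618373086255074692027408422890132644276429353455601101545355700492794570746410251917418868576722636370532962677829442751353941354148984270323453576677195669894382069498018437671218788145248028326355977978519876557474085821167473804064268917799174742057627001077003343147295866465126084285770350577930910324629098703427937458295053301030730931973722080585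268518743746869658947232417391934384240360968463927098865882727263045101621862261675169641327621855848239936179464243767286718215868632168866636152977897500722546900811954240938693553636432995564981574760753075437050882603648355543277331117403773272176714739802197294305044674555748836410361332215722490650154717130668783217640044438863853062418675903361482650319123695771014697435313033927170652256818948975228082655521227541115224059814737407782572488296272007056628424374380944204945222463003194474174285675985207347556034446754000224847124821776569448534702137635794900434780210101814699021064816253388929107842027288277489088794058307003899800953499883965312355696734750904051857210361064211682842099710634104121472442827781565828761596832967384384344075522711565076380381744478802425721243482508803816915213186330311374222137655949979600489077088350784935583882120032154939763061434527983203568730754366958789271194738597133382081021706545171091438957408305562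7769755756995668816936682222559765512919701288809296230228557242646676729107798415354739883399616380827498958632736980674165024878914298433220428437786015912793153318457647293486952415774154525409423165391135093343193997090764423223999322133398817308698492538785958442185881109463379746381491933670067930629469130918397205844791977246375578461528957673631498620329219299380141719671449907272392113318161280208841101818860101798548144845704779872852989132382529532407775058794095988744726906360313189845003688727486390300924633150210455053059374880466856855109292857456537462099893831047036176978694489682375410170948711220332544299972667106449693936713486148606030447555068244031511867234936728447561544301142786106640094036447202545691679797804330646781462003211446645752806786914592431367287479904202576236399034368)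

noncomputable def rc20 : Nat := (nat_lit 20836392911518758147739510992530519893860430877483963338707521074292052084548195117649095658779410158998073276189419249601776006064315228086971487901472284543894407716195644396280807199322848079299437457440418211815470679039845412944706779845654856533329889951394329174658124310346000909262919936942937035125782845400546639794439775453213712935422484298916870172749166583722186462647186800532613705604418869374882772746302239364086116759651216420158504592101267354894620755293064717965156483197359096409960687515281503722784926347919130570824251102800886128156097212866198001070356716351813549475619410265618818654659100351175093224843316819915170784121151903023950662848862085227177028977376996082705772386065661394640659773251290438186381103870240785694835120145073223273064702201416503601922127081270746970142608539322004702890070615059234042782336622812922656648986699990738731088831660623109213192416922872106939017969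202462707892494041178929248045256457560279267442881953879600823428086596328409279021179849116981920257950414455415520584521380446856120913128404152875248382610327554636922703091638512548948730662143283474167921066569475923712946516894114008604263097671881603421747276617011132943220046486840072425395948928382000909094540066816164938964109662560280156285355481406397215892511463997218605393495110713418216916189782132241033815156120350281555443446608729216548668248611262248977838724900186414715882558709492108518353860444218058810067449794856463232909321268973905019156048767584889238632172569543692209477262379371414925903820522386941743140471146289533167758859188403107126206422075566443767164649586504685208428158608835095567662773506878404180408303214926622679865388512040025319041060358074507942454637966324094071858707962909870512706483475382287021864199556863086815181863107436744119455078955025070612688264739192301695448511055449189621174993332443666795965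624189002778094473020674524041803410773302121016959785016893979813523017109443487329491829759254915194514578649394895671252824984875595388364215134486185678121909268726581124434927583895684702895380245983984595257134980243660462004665979474832649290446057778329300843613954721361179222557592923360137475214890433726445311011661731436734647899558447178082639939285545870472623257316572474958079528609019725199948546639403391166847918629693045234629654906259993090364428023163064473673873648214938058632493848672643404657310368555837925963077528784885751039005089234625118160017308662507197529246953993889942136525108452495441053250609698516421479691409131370422219767980380967678946131130210164544895636186799101565151010270115662343831056045086492249708296390534021629310653523461570535320942761503665668971865169940474539000170350569222760461181453389984242449893555112826352910332521814526217020743046998759710039251328234547518973866466062496200533720120274992279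652742750570492529519935764660748362899898246505541577333701757032858810645658981988350172351041947270663882426395517389287035451926828247763476159156370469342888323062670717630051542182647289123850985874559410314131934317493946846961478259622842819433913910287656015714456861794146337247659607089362319302551621712069878274725852871797259709422705526880630038730025161679648638319196619829172618836024244857238607409832412420046432884020798043291464342178744323432670997111368372243154448085699890842935774863929542798554075113010442082464620750870598386514667562220573943062271203159623867079204640997441439862550100077131282900594592781360955520394260487361962473800580852988493842071045191742781017190155932317896676283681932008488151767194175636439588570707357247016772953966370235127498515947431528517317886484689476401786191996640843786362848469485861356386930672935359391420251432385078337221056777555071933624483114808417616303006780468392565897778522199252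948263177372628584890537125392021654798692056632517528757397297408782560467846513840069806407161209568717257437730012780721509452990762291433400110433651382183291116045005475452556250162029875680243996879373127295257918733088598780954572439899374412240659351624022274242322153267394250791350918873648395547725615821158272996957075542478398905638909059766875899566347838376187877935152325291056858456910546601852216382110852306941186788997170515943274000626879641888242495557340788543652967617201766339811410640409269329125908287704917895433963504387901517499174176188298914968962550453258873971628949441535868033141693177183835896187428467481990919987665450602864742529305685657519911396189537585524801401296358715766518534178608231499805400499241734673932485963698087574044670186666159806403079497316620409055186603540202222931380754461730773351878864407376437241934195719745099097111532890261897997957388995822614586172527803487627844001581197450546619398465775365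828974094456135323577860808661040286954214911239529964326497026565311639091604290818160968663511707908844706637285075519873262795390480089184236195096991490794261707314334293076319936591574155602045931093900968875583201143688495996875291983574087613533443284176060135982599207293292053772778375829950016053722596047907196704352035937095775863414837633220675889769303395324799742310230936703983501991750664080091288900932343161516815688360523572528404413909377058478518437369331163354262204015958426817872038019466843445868468359019369723901636325967542009350595048761226440643947039783548498141562788208032939539162615243417044619402992120263740488896445536398775459857882845819919934309354904497679714269454654457672076976933525149357421164972472860075432864776880195845653942693708145436369146986764675401625513981836544571280720026910076975859440511561053808371865807723171792476772826852879776518404303381106597112874040566344660457171171140536271723966933925893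608981584595507796635370173511872275280165438324529158453922055004227084651634168128701035122481857903303402579577660282871359468649525159521839284753381631865902399714080566206490684549113814353755447755816152965049036116938733814252770074738956293290498890436672483263954130293104016467062940792822670933670142705664134979793647922997220552414122246429481204685737398074513637598968630799683258576232382730047644503500303467051730696238690167809649012960768394143392438835742452519917196055331054708710610197596825440184438641717562602805990710048019902442791289685382668423608753305044571496644533992166587382650136261545650750681302716354594049012680758247729991631353047964135755097123815013559731227764880332629189169011069160352574412989519325670899364930088864217146663937342562107944898886511168116923366911344671533217817884547354980555280869601241990198893304205622469617079171425009316795994653113757617920885758722255334435232923706806751748632018279339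306433609336973035247552443046278592357210365361925471949631547817777764213696369485130323020260406831448111972531436700406409330965553454023363914086129907361698874432635183162035383525485961077437691272819677327982215292989498319296044523813415550230922467160415397432744629844226879375108986923542131138610560566939082557044256325511867271596091190780915925489952766424079376243357610175208724601128199946348126141485590393459415664839876567162317592323568937569101116064354016425487530133163388148428528153056869234230018597969824670841959235041104431539533342925916386421891850995840123954015237199911000534605525474274330062760717188510691301444134913715511742048832718045626376595775964129216821436192203731055545212737629819047036867772260187582603401212093442987510451757837746385389370794360886705358253768629752740629297830836158967314133045529519105877294375488841148685670164936908348454933484583055579039833692095988293604122550383374218860336084726884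508579454092553896282352881554041022568413529048188829228976056162973245042525153223535206312231387443098725651127272790186067379750972314651275951101781885023933652719039051982957333848605373858267052044897013093612276721983814360237537069222715545682210725826482415829054404497165542233110334943066489452574007780882211900019149854638926134191916478354826583398883021777682005836551622070541952139863126179415966815608010098092191744684358295309443937209724211040423100579898123702399651319394228942262875257262045185657313658529024353305512791062516374882690652430713837110148758588324567843059130284253789797956077322496696380079907041988129831297758905600602029720869793766597354641872008575863565501690219919492255262516616696324680370354145627246948383846622547562671908459341756557843006086041555857912596387650153740677307128154744029683586074996512963591337164854522695496481182453822830320392783273222271887062597043477485500003755401881030276786662969426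880664375632879581690756845561732514969732276324000737993668511612702085788390558853220533492913225345862124318006566312733402615614770271663132176577755364255208874542406653848340386530578172328628739202666063580520576561039821937384713378167226488111976093684637393329040194269091388934535435871164311889245731630696200469698356462797820376208968801439386934952463807218345229431856720595246519106454564162767567647069101396727326745380265944320620921205043707540012239262656742772370375792487345907813400042054985408254895824094967682592019594904414173674803121783705027525969658303274727334816503848446201548566921671327568129423691457381549277668770785662165296606456825262744915881267801855133668247715447785858666891640424253535766302627695669530210372096812300415129002944946912987662557055557592266606546516008945788732996712588849660958935577220446785744616897798780842246103705628835211698592187949733594636562061211192908452237708309106301167976879268091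832731509282550608512400148235951550329699457536752951382801687724232956195680088562667763405011371163341444499248483194366994289311094742035077398048369116791363610787674891983873790326770530410366918039041205129849667500956788546941549052263535224339926086000035959279977851431916247934104841674073889092721312927703942687902656808190572316272872500308400868037654924549372922073132674923358817816539258111316488838581260929655185888350110283169468072489971046408725502833721355667299053893556174074497491063370892509448960340934659549649366993277456346557082914313359877482632744400220105116009924698412144677163173971762430366324055651395515355957731367215744925323381163156964595385541498020341076975550378017189708279906225649631078118395077327959743194806822493982382490518891016414636693376730868807965257722413344793863414795570584260653891974084948062621937043661876992541089188526462748886017440441392891942469810410859044222868455020098883393345191002934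275737611552680037686201414133343217606501411753099386640259566837648594191397499683250980799862514181103892586741169160144629423902583569881020182771572958273440851096188478263638930182470106196639506514674314621681011565136241653670412460806938483584121650264412102493130658343375708402158911609292111531457149542464192733275606309674513364446743101338063023971364828794798478599507545464979770561934512220268062914537088865637537297198397182248352264526373240477497248443658270489487147449161174092222033964307259991594221776474564153821161777397127082799951885650564186111919085549821979435579448779965149027361925911447920021612425101768438336313731806423848191412572990827828429804236737919944779438162365571199721729973875537945541592575810265910683667660570199117458012352944185841865312786650817634969520104738329194538951286850270780069454309780990015531941679335788469310939941857057592895225470649264195022008683599888221283790213030207228010888260277843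346300800610390179576266624078607327427419485065613204228262745242233505955509529727086337590179073470075866240506105147145631975979976441072652826996227831342983417764449381186329518257271517064274242894845471362766347677101048392506743905089307098298757105456142514746860458406093670236473747280331269083976509685042996673372663016364634455534589148833041117541230659925028009994873713777782392920758741653301508779726064026281208679493085400843240567598469477001660393173295478817697241052356002410135835640524196489220873979043549858087792051920452807169340607653853593024552895725461033011183557613101086900347381422986474945262147882614094927039823453727150834721472522774755441452924530916030375456379557476325725154269340664083936618818329445541430023626736872637411261535166447099496879406205954660932082788983224238705913561758679647870462994322441683021176246203392720899576391060798985159365330694229637862636968194088686227549105943541338774741025352461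804480385146574798010594143696037425733194138224729225560177804656481071694838330402535278474557271524404868451307104592987753523302238002862300916855145834188202608707364384689820515752162002233422288365672611085805933625415316805607649928295237006770934969240843496037440999822164220854262794566323337013246334106276331702065516158039916678667777728389225094345328311680381450513521667950345348919133449083671978244198628332260381691139501277556191714199812085963112302019998786758511534100910664366534830445109749115326244503482920575190595113224746166157865162685220594994576909741886301529812467764595536350139499474654108175438662570147609849817344988021014889958959498645115614224199141142359916901871765726303142558807669326993773773280958278428796853423326055715945049035726237959084270873505128435050428243815697673868109599899035997626773320559502427527444285463509794723612200110055704060842017997566244280534685655472759635631769250910502163851495692399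556978929799795839070469137287482768026945765712871159897987677036353274058331218796623340975297266237399202773165016514549837860475204961608741446090795767807717022506112853870976176812355734888441632202618792715204133595383593374281653653604536242932064618040023417553634028219735407545829535887153365210120243345864622452111121374553401133773627162395707266570778706254472266958653486301076785206611745028431736449665474424006979460147587741714864643073911617750535337401224094471160793889023481517954496953640529145160707364455775382814228644215338700391196736140002845576581853423661490295953227587811460453662012771900155426558619339399261530155953389230976279747523966769839051311680946093261317257334318760103137130743398749627996942339069380755972787043962128821196073416914917020674022972926032984979246266415202178474864261331795963392992310075695165677912239739592595447615389169756525536220224857819828357966510173396909784070546250621365840770657483696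889546058795845036583883098542838919102202474165880046070832949637311762186709188606338397989526576886704914789199398472207424936045198498566277178719225348380220831766964769373105121142010022737336532354164657603993842865419247496572604502869829675733809142903588018361822805702511624361437741512307101630491795645033206281085033481661154072664812960045276258395458513546234947935166728202551262712667735834340993039456383466868035580435071512249906254390641883403597443063081159986632187012879592842847000368854168783273354079053227120564897874132252466026536433007387193640976682958078094578003517584862528587532796924964173667522151755680908985975682776855821728483392385265767504887439254501788094987453206065251263306838602516308505000118379689792857587314478368017142061849969832661170400223571887666745041028967599616953684187848906938142496058788254960094598627704127321747996782882668153249948603716704609293930402887544785867352870144006434157574234047249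285875418815547014878986322199070488591370083234008056979969196121908992983262298442150477584482224220873584398903857393519058715006705214007176512518809936957201952403509199627286572003704856742793389057942002654727624694549776290811914970696362184706647708263231193634265963185863653263577176925170887106152985521191090971736592436157347803380273769090994838262922680345352451575030688409415501477786424838639542442008379377890615991668278515870680463905805421374798009229658205077276315196883962951626078975695160106321256660297143138799454817580194396795018250505368126755244516522704602553555339523993256461993140980525805400909175136099637600318025809758448659443312003219686772909954508063922663588247289827407873283066346918017456010073537444512504188993577835048968361415893681520231993081235127639208880264916570005983942839678611825688530645279810032638976636850562040423899997169602597598546013778790203701197888273137139807603407087616991773690810601188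150544896283275250391133204478209670753773174230726485010485056293779328358561503537283293844657230035806683400646940258410230187002820382989439822069456776417985317096099760406844401986384068617299342751091905101353916531467583004637163890733756629002767522375354182904485250184556867842820301091756212479256825601248393349033413060048956015473497579665170249335414760175878760420887637475641679238188178103458929877189569396357535672896141332529950468143430071402114444476221233944075012837640308027621726849822346235272538343349291381172160916079292373165749164566121379957481336886739592448533563650033517077219300136929982459461318668714554282135552858912734130409076385004907135370990887904280384537729552175390039637599605423486474898824911984622513599592866343752085545483348695462710528622663506794751670053733598996256728878077966021041480866053007994060984090568636883071371011799374970486805653241049171974943366716996599912155310817308522203711873194486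0114370247932994166238672912054309904391252271932429941749244600321890523083379933139100498298476907157017863721165835528304257050537556684944138257221638032951277994792405624929857733224872446319723329642336126277271667861408351073961425542840151465407699620269148732212662101807715006241107414938475130658557302867154191967184142889040109800806223620466138047412842725611233597426966522170793732026794455522938161080632973771644446182633587546428608157101151409882793936129656983543246803124468200838972374613660599020804354281823896687458583829002779722922633302112508588853944853954598893253382263617906478406008623067300059812126268188332169632833829513727409371583723912849452580158422625864478133736082223250279107907154722538963476628243747771647980220011713494350862510808572190887860351551716613310243667968)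

noncomputable def rc21 : Nat := (nat_lit 20889086320578065069933608428460210844366664372160639134930984508238784234338451643606940112422127147634445981652334033620936215887289788360250683241807468791295888516835402525192064960057328806293050004096418303990881269910794402998914939538218706965396809787034702703006416727181278568031612138258567833200724553857224697288526829628921608981533261640079599951279395515825668267275246238643534227036980921910551225608406856603887137365757585518746560348653235824545075719307535452901788606555792814678159552950859506394334627946060500265100758302438363754180402930434750683668546675333153200246580105750201243351777486163647885201096539955998387491504952546042219715484440251240217067966446993803705539012445000754091211062168396496706063728223829768654627368832850466758256442296831788970080452042502604722649659839902859839081946076946331126147483810720639637217138264014922082258994725305115862401624693182540475853263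552586604112486705005947513408392008414965793465636841718063087761520215875103102895787286597414751652568169491527706016246715517678712897052013130061572555626893527529684550906478263952409944388689311493509874421666464462639386143186945691653897809549640605600841084182195751106576046167591803301435117493082961743258700407290785248509321318760851999125992675320240428228877231639282624604195031990067299267723066576172627927450755527502674466285330955205128675836507242182177287488960982269374319829355550055618304789921999565249997416993927191068411728009522817620341759565543515621083866153505215822395639060090000524509428302626756559649403051367786724411490053548452492078232116577615206014928689946327016306697147592580054389994933095949703499697266475348530067296800298299434629789787070904398519939973515679132196465995928138145821630866211306275186148078504668859220731021692845865286503815449709088609794282212501437474040606484724639257370013539230115982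386817148382413306897958042538450012756204494229492553729949824710490980214541182410146756040259030870166987747171121836998644388028603472323279191814673793218106097319726968498485166338040640364623930226286622060446008283664736716758723940613584576117412063486217372886834694519604925059904180765693416268840088471566500236262752570439720398077830526436743673147665787932087944696617483986938143505167887295608000254535576102742653351814103087764990338174558823244686220680611946249839499382371814043481032230412885015249207913231902956870788924320067678634291361763706238249435859865615600023110053456443498494968204483414122164516363084830625360848218673794056140771952005422570900488693459040613585433473987245119923689305576734813156424592417183885733417995602310216161864982515872172412171968424788764869805421764030859512307261317228668063594183139021030444466613146374995246835394142363691537555549900377870433400756486875768458414717427921758250165241309178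498486615292069907628028787352003832914416090796489205347689288819282488178170582025087104624802830382004603130823443487972405057585180951337186263323901439314797687097536590973800880459737811414888860238187323707444116115500631972583248206695113431692525423254524150508503550689726543194495350616630776454324821796996084290928420864013826669505959990449968794986987998204181302343116612609051815330787161568278107984235425728044034966560567377104534571513562228999230240520474991332630700513922657684214878119793569014532048388198962953316881648688351073433889304194979807703723259857186925426684475718516592520812140591475098754050137348633258180745432284125432824305205590236464282136834749103803252090170576507139181346482414839724829022909918842434115288405745501849256884008104062652253853804752785483647909349214577766164069259186053512147943651646914091006606162887281510622589481235315383194386902849425298293451877490502737479693511738248630934757506542754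213352439035786888147813650435759110786839487067666163145876351467766718234826898929088196829942447645200274487093497947856677848223728488826802549852184809874063716599300952285119377578434823259449158249232666611867350319520003409223204054782120740045239315836390884916266607686702420530420032650382825217058101084350995940674568793252455450138027515273508864176720902351456031625407287310762971752029081882978083314899840017781534439519232307441100250389349701727741387380780231714866725688921071475152725806027658219693393080863056493480520614544750185610631422272577292221076019710683509713495006874694583370986976154086489657877713673804086606701991883993011056087022640896939941317955450372003051159438062052782466632786388085852270099680706554574025653951046879686318274897852033610586484050334047214241254479013959731165700475542249407440322998479463503682579293169680915450257453976138062299855809036739463713975160874244126329574733705402287915097766181325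724987652385191024913274366078563151935749934087541780054630645416687081421350308533293548143901021341145842806463654842227199872215448983719080203804150340353864353340547593670508108376666508019805482037171226967292902429537824402501579086218379969986046383197998737393894022417781124496262707360326847621187059491471932054489489306644352203053370760974961600206417188368323435186197378816970776490726727140706732218469502403722101519203994796754538753480255721519887558969269306397382720118963502432157447118800256581612641856289641806244717786487712823143265858829880245705100375200571084618533088939704579058325613596842478514261628979031020543660139631190008355021754949984138943190055323585768338294840548879806171614066665025182901486225531395247585979028117009156722751666483228753850658582616988405711260614687713792135636536083272539707346832383385034771754451818676913925706504086919225485064043751375959693178502701430290389922530896074091739831277449360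386121381203846390628465478717989155271268390924121012293781097197561227205990415040364297297536995628052303476984649070141318646686202533642709846957758917479108004763879960165220903502706992024625698965201750844830655191945864116904478995598637513260791148457417115113088297246829866870381069094077602861065326368364803234493780393947713411666410268884373734289312915708236799657212527034708190026447782940276066925674826058209197164312335151433125740894606458269263503212532285796762084403582297820942689334491173565521876476863629096696889423565684421816972346518449112213777248862597913431348032306018696979728235586282038106597984314569438073869253802711571847593401892837745111953245239774613157340437686752721084582528544521679821025152314768597836578733608191351242771945345727271902665771660197276498836545284866516806676222952411072439857198487357142317051925526605132307425137612776531232999678121511105053135427824838869190116654739688990479899610253075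031689076552869992056369765781200316058164141030125818378972415826878293484550557804121119608175625843277750961954560835304505788487486423119419559003369200767913567636635667310899808275958832959204270872040060776404733841219237774694451759985375519192767384153441433166321737645529240336656400242690776752148963745640088758120262699905354965032938435598093662699733037447811253352729408241053077700821341177323687088914990560729820548118598011767636613128960600055793050030014440657096665439167953704435360938348947351790055172533675400128344487741767285389606975341622324723763750057875334294990607537461059075474811349291853660869954318426060599734022765764767261778055214207341924149492080727126706098035262323177422289639712751547421539671468101197518561947565182300203311682953375171893805388059938250630439752884429531668029249075291054470321670474974955263380107933085662252404873562964221631916344513629725630623799416100332423046659280621489238730414379807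690725213116213674938935000249926586221650093641003404163612042095850252778874191511442651494285132815920666109968561160010961602123328742329832947447283904133467869562942733653835617395500360922795395382578253067629314622748000378917868095283969284893659485344670088556073269587206785457081073508149029757111581111106032108953057784962676802301288756066253763503770522757223389862860643373145428844176727023541007492753209024725180725605269452258244053224862687297976956406968271346784086503087067558772097134677736185263881255077012183881042477609905316057106059875250426823694507937517732740409441495561095775202841699323214307281321309912041814628242369481187921675085326500404014671967110324696758668519343840312830357398152283208887356607478108757223063680996410434482146750945397180461247172465433669864635164315473048270612583778356440135360505321177472776572953123166008423009091902401877691300039909554421603266197118143540568039722600716625363631469949790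669152916177293597688820157209345157912094654440217703928451508800784122145374060809065238528758923580668533618073833373635199573156811963519914533914013265519675275520584049771020214516786219141001108737775827370797481068742648125049857986293217705073220331190239285649763232204771638537643083860886587015120522748850225384346276540157891218159411368673413796201016962128466195899055787618310135894982104065054027652696396759640643388715104478844379777301386213254730755419862174417173305772016291008099308272985242205081648084919491845923447330099948425278782575392190872205419529218886826044761320928119439006543657686629036760123012490234804033073939707984593731834616338073764004214845473617700143773608845363441855271668049275705022612893768110336757433711310116386371920000281665284174991470296518118944195089157658954321517512493893741700386173355371323669918900994546196688142945907079134677008531084577827114281603122878529703858503676312367421444697801464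340842877116908657610591673745583941289607782676009396530847416685508488069823244157839410318139208171049574301885446470385296611119578812174055005711055091563886026047651145074773737198753821676440298442939424517059671962493337006848927695743671343284511187576120229902804451732152572043548029768578582708016365866487646665407642619146858683564543050403630201276847097887973335579007627874124228134397488976029630107377200896633546922411788118630953005409930909598838197835696998748225039961762490383008264144322913508973092786956736896098907014270425011832611661222350320708010824122399725739593018026951984619066684037839085566655743769515322335222789803984243075167538260570440635206525368293285697195243033208116365378124384871064159761068275494809081164086070258289551974637277193880674795161816347767432180444546090762787835027866367930775954353984347209540359148232837104017144692785345155257096563696879904028275670813234518088572664201410705833650716008241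748892453189090382798959974343933866323227383489668793490151879727356918591789939988404985002018620273352384765381190576571135730380836120090551573236071499599709658083578736792344954727403640169992124486671713655895950504151737002928722542968362987418537118973394216879190291548665673518278951220333396000997734164048439386072366852296374749984737629315696776080474054633413359677949050459239909306589859884200756232685203202713906738275809491841241381915432570943451795278849270393948126873205788162665554954442515621982589777926219726198053985514130426919807216067641960132041501613933554687160494462555236378084032465326768547431820604916097928280159422984757537316540898506846837670092250902907175595045252346275270381375982016451595487872110114183350608347905992468511955740257873569839710633492570762814367837438935795068571788982294018783332892695382266717671472042051093668994382446405641422965732882769482748280304431029623298440117489478219881058799147891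067804664258364708161817549185513262049601978839729823183958269590484852273532983978415220286423703626749899430848125821095715840160700259897854939078235130696238535049038104732109697713577865167705924341273586318608548058245545436113697820453340448083096206962645334895372152913669101216856672432182355499506663579236786604767942801816248943426250650622434977169892970977548723422035135673892100825004175109573076039888730045525785546175625282660547892892269550071012571994037956005048089596745796836901818183502974933155447873299096130836628591157843179026547903178949815627141899956005969316599930730501789152097238813092719022736843943328384312246558539438518073589566397981459137251829011796949069407412346274911912200429013345986319582734440506163141063321375759292916934987842422635610163878753741530867779298731777638332922314429177285337490438509662427311078532087225613213748500282768201557546050857167910755792876881321886175724286479291273948272840596471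010944762600628995030072492509585302187239083357809583960838141396492779892645046452972033609970243513758349851527951395229758175095195353045652754377885884278767278416786747437226369261092186126191728849914855780339319678032522412639441286096062785332768799978746394496709185443035399628304915390570758721898983160063540504553000073852528080230550288266152982908595938983437206109617651746493743499499021533177948732740877951824329252912611557424031751554391592965314841047843040391506022570526752505358190889370073183785102069158497352686959106447936361695100143354229226645594659339169439982942989765074091040093876721470856154741912751860218236992448563963116865987590602492055131043125391247154828754884917687267624528236493779874298108301024025756628679217457944346882165377444816118862502228832906291396604615898401939041665499665011134004833367982757570526333807669884742956928679860543483488274424012607789516970142059023898990646822205472861013849289800819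181560679908259489654648437465364438366880825928799810458122908286750352863150362300129814978937575730122871270912678329132005327926609143748507083816638984177378575774410535945310350956651320477301517065207855235669012457603460089857674864154644385983692467018864180572212031030900250686707314930703111758952825835755090354810804885363738777002053800874329480611140299375394001748345983950415058136545004241047062315056054233602564852567495281105852341648020132128135446762851242612378944308502400133658607258394992529291386954792994691629083130372823325526754256845886411557140100284643793938208333519659189144626693051664796777188120219661865815243495977321570845306253812140593910634918615194994115865014673241759469998133149217895193722043155781655758485575610522030978608992651195511362858435852599367383857616607163973506250522014752348853994290304796694251302095717757836614054508370638116667049854386841278423852212041812249743934869931699767108457783878411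213218472152019144410346672416913790112437176842604854957280165945455295538838599758976524612570366913289126176433747491482981940111494072403069763919349961910105913867839876549941857325952255482679378791727987733175657405467128603952511366630960365224645849212262268384575586715636358960949741061428960350041128033784389585889691714570504365408354894661702564036613970589509984621662234106660170683226906101632128232010532267037698065933911940226356517607086750280843435181568253265082944343288147065824848201456226100610167049926909179448329559100093945242629454111311407547799440118273863653452177108420507178775584551317962427033778063121283508634949125437998206476385632791145475626198677176160784202366346258711983494418323898139408006445592483665642148561232419105567544040652632019753776335446349847868027367089867040779265537764039959475137168902241738589739940116112695211451065223319044830708883210705982128774342749633267754833220970451773484537629665734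256256040731341823042459238246041269553812688360762799694652946792322904795684870742468372174901490062710468875406814430501049820175142106102046352323849286156286152252019777848290066837288842026034786154516183989794180664659048142225412924024674089721698504551941528542115742821748250496693100965074579902894277665201257599256729094251173425035799783823044333533864844676505594581062927642734074006608973161037795119587245094416476697577124825913809057245711192369696930836847899079054233698649611265814217826883955690346452800434398315141419644247743991215664853793993287248338240898141634876265127497215813719695219856652829874380799970868261188006449817878908491555121445161453204605405751378424966832730691619303398995495527860878918992468366829967027311469022370995679881593609616644709219437027048557470723794210719839479270997705994580783582601833909179535231601615507761072056629681287872645880439930194420169823664608862877126308970760140168530883327124693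512750430396523245710618190990036712897891754565851947564856288989385331867246226823907710868415009119460454773740859219342941660684635521821512080797704215721837431755954896982272818553887978209534369312580873367061403664287617787364658153998368969574380356216684612999087338071164620866814524874751053557957975061215207923988942309372733601131737664218683922685696174877011992858808231312037548223313167753594869689720872740843206534520631965120357027276812054218601187624937408563098427862323909541646717435180383689845238498270282350694875058617381692700484577173193875766489948930095155967476477340483566987435227515909047835520955771386256392706538644509118121368036913973310391469355653356202781200537973038977819574641230094956410376468719324677051287403246188216220211957818332457509068774599417352609099154846477813985770744940574184721720208590501606336972961105739453943742182049738176477594373502116330975719018884859398974566685754121876342582680324180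5111945430374907495352608061764068400817895788995015003690978713620250149029379024430519936482419099720628825606843581113098243603657716051768766661784080172360076258943288059277530604195533921950302482749677632749580632137796032668278398848264162604064450957095360323928088100993374984662343460001243717947625725888975462044972258079709446542674927634564817508857797215510161700911317250997732287596640266964659092051450807827404999290589405460568369347911056838980310232264738824593473314185261121671952597007993703705032935762259025939047594374136416090558950932259469371151233712442464910441492420902483458798038037278812812519658371938625484817037261525464070048996313421790898806652226106889967581368511014500620432234517042295353985633959518662927300042240894691562381310470468500962878211569879466981883641856)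

noncomputable def rc22 : Nat := (nat_lit 20941455429936936514752255069477407573518813440736536688297526165743284458507669705057291031912527977139693324151264777518115412860431555209883783373361003989665651294108059854782896951410211606271369913287662405374948635680560811929510428886981035697266080895282295995331949283533739682645532420914519828158500585492645689476211339985445656291576328797675383068258732087076343139620224354845332769681198884912289688900183606507011644203355894028118782235466243748559605980233054626199791015621262673621046132682797048621888701600989464027412448240629662558040672114787138725083750932908857291396136146381526231335655263481198221695238469025050610798074685527391932061556315324429897366508161313819139642975908429586871419010951142849306451369521887303204494526651326262299609648922473145173579809215414500670643847549768402656204889657353739524451349718860878429789376952894929338349811976880350572446984544417675955567896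985898681391555602091371201852847732272373484939236820074086089783774513989470780256198556673849955386605153751465910621867945732706237563429048965681522676575828548446898205263555316057937139026760111725879207610712212183882406627615751895903964288020128629582371080406369608029636290975967276438094050628471982036973770750230967555396825506450597745248305909760924426734630354518252590126694022336140413544191232911824397900287437988204118453456633788698796888719059271355987069422027187284251082832455862905707328891188301081030144693564955334258151830575482961965368556164784977476236731200500435578659015327173258531255325434538173100450438716516449069907861957942656347596098445663464674550247835087882076432724912966341793960218898984861756096649878684405364186739545714662371495548715195191521940151537562470327115100783424669338464578760230131860177231555331074097791016858340465688102600218745134090895529493832477970309027365408018284487649774065879805660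528422352999388609507334550738174870669813829367232590206950080207766834245848447111557438568656267195919746512359049260206358119847760131906247195645904642361726392500502857706040694496751543498010000854782183080248485304906800243117311029666445025767305578402395309285490858981242811119722784891750290075673462291908572170292516056291359135137555378730457200308821563458533910592230667268723061593447022610145374362232452772947314211227782522566111578714369640005025686742769331943939762079831739277804902254541685943964898778453826150609349434804925864829483410693176717572400484075402073172066123278770301021244050805995433501258732211726039629724803891817482821210299228191054966709733814114486654834071162744864591091341925455448369846899095611633761229823754364373893892058277121867913428692962980418889147518577126834134456104446258092316143382019827110607118886699212644841019305933356621161874763058306815068782538045516168393995785108183556793699517088139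083209335235998598521817303274269238754130131756262580689543314127091892463193500116874297756393068388714097225102819752299260684073095251225557530755551324432378235471106142293861552227530507297805091336977661359196369074750390583178728623064183101842228621390301809044510208123145551938933035449639139538616299910283333584576609366899293017645865767992290092030274164355302886392041905597318729800202206149865344185185907208438389143861217854999586005454821052218310479920349168226320793434948915187862130293306138178759133233408862364032335370318163475767002401848470623158586738834029066176630412494405665452777549612823409944957572904153499529725261156366876206267704168020026335909939588811609955452331918333067387386749794128154460283336046378984720106353436357861632065732003566718940575372510516795828574339552912276858499311031043188746631189653512409975732773604812702014427378341532153945235294676589234485082749187077401083373389869823682399337809567517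113510396222725457141382661632288648911793939928532795122406709951128483956481183550744593335079623212052803664664037786710895593642716811303620158760055349707612126799765137920621418416137573057085489020252123313539086354237785849631206359789892067549323821319696808570156325038869140388469203343188046892554221618595986704321890476964412404152990638353895551078752671849437781043504952123749442943565371598157036130556246801783906048140493904906233396678431991350793982928814171173585798715443685975957072739408021304931026445742866781881199084539497403867435567163452956145946587646715498639225353000144539623896023387320493282352782839240990139291590752027759777492617340516727871838128998565545388629253040449704230022244718683970828742146029113293696961108169618158226617519850524058631279169719973415012524308379650998771395928652654068859099470868204193603774996979432258931361165893844141956729991170189042966214634987254426836280216265063060178182580609144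402289618251153741232573792568499955006861069406852579721300085273584865741823964904859924513281120324783906977409914911612763605637241340078988562872945257582688145217437672123965798035512127354802599169043916486577492947396511204533793344491733383275550569864207070908356248692058752391440917663589584733505848987090968108483955669105398606382923922327051195899356234410785672522415486041354651722767626409093230633279070497917955614531315083864679826070944753964522230688218484357460988503801327952346349291141414224823918592616924880228250942409235242640665654005592976545679874139309125146208142286057148501887442182628118650533163607830342384985390294072497104411790205514092457398274523927057870913102262655141622753018555933235056101855892854494943633268539538311272236212018515859018168943146254588042461011197686219939284039234748420984029207308593385808073345226306985550170497895324808426285149330213166247134198898260553087134305304029737008948823173294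761052099239132668996944561829232248908246289739053557588813970979335959757395699147244237169664246165645443514560383603867819787293083230681281937888096917001418358060741607557464899590559165440011143832460291776379479721735972005009608127013844837313891742426022205531865554533092707633533952657085019105677423708560530621795682656316813242034150338405920652873047605136202038513235295359709164620764839623950355416025151230582597721702321666121084016212594924221319688067347263096235794940900519583910439268843673327339471039419950855295324401957549319622387867847115869855436754553371677826753618619648094708386607764137229557518649412519409657214535678504362510708540131255254756360982529852445398172328860365861449017991603446176179225825630919557440580872923746915742976605763819533642087514210969418481708539697255861109065634890184041260627740540416889162352657360756316534732744339608035705723994519696082297707579834459867200896182142442193464261098230200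919342672791726444954238522262753648624673641922817854530847215809120049873300393349881213956706408089986700005178408973029311694492524139752703426633630645425417442027912606398860418693561206316864884542516546945996110005851631769099577677109352354357124148342279658006394453925095888923475496940937813576800991481587921056619596186288380190567918588316535646999690135144794079977183793534476736450164341299438775228445578510073046573532727054381222982374400601930434502386244431255769584151073950408794639320225893796877994916443970118824949139827562649181384643842271602499402073680443389282080940735225982436554289760176256414885714687526990099239096937422576308561308873673127923222508232999141942167348510272403750467612324983867873473296491720822157535403882745173603900510427761058581039891921746011179971889683692670088217909786272692308951728679543622547702023943610906598384656792839035148259372886410794838088818743383159393872162868052371328467220442930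473338825689000587811121406379338693470735849382966704214876569168324031666180037301943964218574641807246440737986924079607547909606833005829269112891849502243870902963385368109597693864513206857909560055420480119205764066788230454765209957690371312496771812029041212758430167013547007835360727382071664948707139298788846551116785018424364692576302710623199093890420836661361058389908275544502016181598709035817561563559932370277575023157502152916523268272220198857229257118769826384578636540761363879727422968650590404456558339807534504594374288012503167657587849383039817650856738600466618823089770902728064855178525275123595933857554533941978498217494015497911551952441410765949810719179488581216579640672080716602939079538328485674718151994456909218949969441435757585583052885904315928687101662365722859209474339519187225707599579363403580313140550671468599524560833725291150454486185402203971533115278424602998178556735232096925952238512888448578163260039781519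727438935389859394969174009047688744856311476322005950470960569523562877700423835221821553400604127268221480336517391332549067965296722901205158527213610107510209179034414414714132472964607148107170035789670066044469340785940954097623462899620766837566894640845042859499867195121830503327361202705744469122100229068431730282785249770777101333099825276061297491595911741347476815306965898309333621962848334620774594620142751714361700201378038819232852912475120675557389554775313382633974329368333931137932320740585023959566430089810799146239807571873628760323153254150855863568539710882971000697075688080876777845057302801081534594284870551525839841443415528841686174881862153967480498389719109251284051439010027764627026751213889120935976862958435110550486646176726790552263067955730662943711257403127298094213510529603882205598258485275990754440532378425102146066502064234376764203281189082244533469318303940698019446789446397772692686933596145932922183413735516744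210337057791629877390012951976211699273309116201746619458607118586884549520529625217170973277749998256182318141565210391557196379074158106778176322323733376942949793728783832823434242304927122243584874010781944330480727861550999199067625916518226696434269690110042709195966781022754412272161497979800204685860216706554084911004076038066431781532434902111054473545561015554875959290195167043744101894117351504945726797279127399153218183089791949996914078749377692758500497314313939191612709439873661919073923162427640968016911688838798260854693996454105585380954913308091953215696748237163107027288579876491532534981592563846557577608501695751128402394966168773242095358377235680460323465476114219572154535862039942780362182056280360972228819015087214262895213786951398707610757219027391796397783073916311883385644691325437268887008363711105654775960593672791679785997322008970840749980826150987426152326428377918677287813303358602261301009467372982611656750335895558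739772129609909035610787721508583379309057545497747740221652275671654682498530570456112750557747030534665881958184361620342584383102913337320925898026712703711593570479369761496049622597430468955611048282894351074399586083409951283985457453028574141670132448376339434635041988207202061748524044070038444987897854442825219452039327351554473096947370090887444566567127647769052555009285869923203635400560984012792600852007507271471600121192027493843324066664816828055546063254102299335849482546499147484729407504251983359205770760845106746188278860839194918233933245969992128390220049999723132739885258504119912949504160538009434684550637874325427920853993066810364359266004658341832473955465721411943350874189798927959523733976130082932209289206847268626324969938342247317296850295011965712050379023948074845526621735106507210799629975410762086906873657508292837215338678112747954571947826038690520044046097264768643733673792306785369228153445525348234100143418836162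882627906250871862369399458667242565932118340123790515888245537881073806503969353338955978522017614957181693848375315295842615229502914686980772811988174359116947080143563928137638324802940857040781150911871414713329753974046039673579977823795233845008009682523730877059652267123631314699990073733835158128434149879026115370939615903952810386100269244193743911764528715796653218929252871813326252644440780063920812273323679486556747016273618787345923732299016215762408036766454640871374030259087862121061272616385364176997918530162633469936672227830708773593188881912352567200510226515296873294250779500109575100749929244326483622643190154964446792421473852104695341939761594931326371894203488927379693453229043222209183446164028828418887456667839664810368970585200030456662647668925168318873581530480898172721557536888004401701057950983169899068680784088405464095049981719997174451896395914898388091054546195477341381028181610368619898256299869094313856445756095361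533817178344737453421488316656130386314742770377585894779694206347578122769709884667972657578564387642093329003179920579063421115860549246464653036766711790739930899620848309774000074454762071679036034619894100090023793272232311002398149988353281648208118842146524278607442913365185828814709200218246487718766338620530856560750430550649416232871993438187901471916171326844832533179320612649068320004000259358446262161498302239464774835008454417112739534033686709496389076885694865203041433266414853106859837045846109318522209570248411441272355891622807153918147075550951331806248530108891282410121087414967283538427266050816010251450045671959060751551708313566923141391459371314899653781696392790075696538540281878577134598447933056944854778584086839448983073601204104284602731081870747092610925035897565793974111370337928489574307800592260404991813191957281314181169046820135741349249813353675647157490891455650286442962437308733422820333674185950612829580465247186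868916528531501358093507441901791763568281864432872621713585637326262266610707380834798361319768471102331594245237385194497577863993768194828489615677689653400266879008872792151208886717110412545173518212324649140317967304794279036112185053112099932820291258806188168853816815557394794549005280321306652994835319162586176890951193790545194554166092870899246166176460682621984534144870825380477743970860135304280086696409690565276814606804835891381379764948495293729156116600867766413882264311321477099439519462344056438382382510174190634707503550345870953261036057448250648448831795986070674117564448663515285065476221267154031524359085656061962177776819902437047116310734737114075980040505265133523883328676130149296873543874132833692990904052798400673880164983836615193915522923370771787243922398793444826198632134049357237859944772534691401543248484456450536086531221641991624934568683426338252055451579397101820568555809469121075788918993815710311313059236782655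398111892867159252366672629455521627885797019349811818218826327654621360973505078387810286554419012739140055390764496920683533684302999837349051720045128038406794553588338911315151483567616269018354197526865058049849221245277070033309364363877041936941218401374031080722318864140184139564757857479600108494207353053405841939305159703625152769124350126499898719718416390238386014260698307917251592931835713632641054664726272473482845402407222301113363206151280231903727234022526315849578808759852814929843213532241405662079164318880888466769349642777569045734889586438759497308381562973679760561359182973400842545762116841595489963801879949902605540131137521059101151667479200769348953721544430319180646024673894448433867706922047670931008226540676256232025095319353572860197019450457635778683173816802402855132147161210518896169038339868637791857786972327035404241407888732352540375091082240512287221353118452752977049011842031429926563516878825823551941545094998142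454557481873696712025857916568968859705189280975298363281917581528299210480798682772883466063412866973860675923306070899737519799196260086422065449425049482618070356571778253216903125208765684285339637337101486175721711276360425556474759644289140757395001215136001811063125951871549909181316225094813207672978983372887456872258950957995074824275914335186785307974663875634182831887390625920232537481269647066758849775498845421999295587591084614233184027085847949963150340189018738752889874764167304665368265413627970670774486030006836396974891165613510137276590316040984128994049726554075035047707295114106427566953543425630583779726323293446019680789375514714917059439122442371947569402247466634103937937512186275768250653835941572178918786006053928800029441872877471302598919109267757633198408777606631893831671321996131190053692706389532489426580830651408849623946434080465174185265531501067332924186220161768580515780864714822186738962179374317565248211603339082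489958395032376980597729682620987742299701984878685301912759184645579182926808381144609493668517317292616972577609605861305832518264545628492567093324138611707227022058160690302955372840468316759688807165322497634721899197655306780512155155471660113359674696823955330769456161606398286949769286687203319455004037953606360124093151232247507431184202665770874726782019412363095661519778486661630541712510975785718437365503663150190529527021381777116590085995429283423334450295215044658521249962841628446239531257939182763717362946175383341418847822337405584276264809772784009035472106439519276451488510562514150038877660038763769871075987581840291528417215602112147131384180738204816747927785896621489318940950749683992883378975048760179829321396904500569152622668892649030272157585011791370097493871525650659459372165781712943471423160003400639318498692890775597598715848216531125666342590909636256017703720865553709276576038134003328266794912085855266865475192786316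0370581882937895326736608318122786004217015364248803645674068587864956197510739648709122548005379937033230365622150057143530610017865886057971633088800007659080865927259209036035734452281396832401159193291940390767005855798880598478525436089621410157270185498606518273741286286811862043170127523413633070384312225510225725502233725617708452260579186582320325229612058923436293171774077972551594963732575485816610813451732999585517117822223006918181338523000487445544267833582219060539258947775846040198511089933544187230423334769255027007236179219635577695818148227924455899379467005994530433895633789504268388631515599701154220837765182085999644712116078697545458721301361251396608878474177423384854635503331542759828080232178905436021420313513085369982607363325503750331044214243329862261320758903408885817612959744)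

noncomputable def rc23 : Nat := (nat_lit 20993495586208337984112144630245370987695572392421830296447879324906626260003265501690506275158182314096282567459397821745778971418453880174064303530398342388960041894776279056293584889163034136162873130488674159994632300169196141738492125376218786379969433098288049479944717772168015712605886913759454134241408091998415604758329974761385957594572080425837309690818980832215264958492633263093103171941902359941163200586813050255457157572549169922112324966701056010287631631279557342910892620084925208773444963533115198062090243104633678302417287768601105424820533325346559300072923372741908780516550443455748156490410569179929991301703655438067917065085167404199503941613842147069133034310586979585100003680299832058219440178202754746731020192151361098665416111623455231753087193739150077403093375617124237977980969576098656500131987574418514958602154709872513612118566981905670934267823837694912041967104271795264916242973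953790720134994306830574206630509839919464944110076493833103561551733797272224582660444565016552909283316335749478629195511276976125282637973050745855069916698780589038095826861484168675258560862976433880523540051589375408524762880969877597839823850695216292087891747064825899267616790637490999470032848624568934524104562237227007002894548023788396390260956340328649236498709885398870969491318417887509130131900090087845164114085295307112195936191935496185717164192047392995329227241932299023129787618817666784704568739991306120673761782448247585714273822041639446579800514812089682580003446854690861899354744700482421660885621460742085758968852307587531661908767913053318119888791275192813694948191488089744758475251865503889160311605070445800602037420090602581492739280392488131739750348312816239807186048060588680066422097066692428616469360281494979678095563046188593655370937541270309838120238521268433476249930758057908208362156890306981180305203576404600874361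916696302001817489534912078493502491021194276477010632035170374287840722908824126954135440601754880357520785647317802941930405377096913981813515178978692502296913390058520758310960746727561675160461191375756032035194205192519931242766449967553528782790260502141985778281396983834760571742104497875652735647045646148344323846620890748795469316002557182236464365499849848444868061996300336772659737274369165129548698946515692316494211283531585378373878403890766860518182132132246541988988413382263565432283507912380898458408439054561643592884241644285975144402552848483926879270827419343459723417702522901445903249281374036141083504296523778911716241669654140596222827309208738324088774514413728261956844761970421340394672532838243752327496474218830247760514158716446654889447907641078451353358415500680161276642159452389499641936906701086865776495156190522355306692170482992472382280295721525492078024962777010100763512230349529247075092610588876450954354528481687626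820687707131764160529648553507320889593486756454782197349132539779611035720034629207134060691193227586482962408556604885111397759623887933966133626080885391288662201012988410085077715010139160726443697669328172182116530724207470723663449343815102911458070020104904776828084192242258793175748041946952883657061524485883396295410852553339549970632134421920319331912745310971991704459244924196070796425217451810482699470451383524150933738126857653621369926252680371164369955514956052578015191489177171521700842681207691965002933012101617889550604081981939274078388230777159233230730907146844741849985153649221213947743550888336419386214979273117524347041915002300036210282811175242121082762934936226464592512231185281451022551922703381711503803729199169347105668177813059102642147559620094621379740538934035682135435563212906360005814688851214924094234365694243890376562314362830610033262516782989143497602386999749974580831182651779487878848137363035931678663095601859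750838820485861845166210955164552739143309110257850975252873657146662870286017985315741785068611015105998220579289965142475386464639398241799925455741301180222673639962026959959933851932277640790809019438021614174616169487587076570206580221050740989571131062556392965569780536644776856512555142338471699155053437914278913923716998131737347765476972478832783293244311321693688469238975029808718250701975730264366010683696721517634846218061733046385556441792492120910350897339334189884765599125283890574882766752230565827932030094008370507786227636918186556978617376999464791771398015526663703529260488624722182856789819128930102321620632875827116386965759279257952716608073067199473103377785993250539304566829240781744480217206218267761356132347159240689294319148066811863030373891545414188456072324745482875964506209831162642983530063400908498183674346031385053089098727470603451578151695088631259779740585837320996083895751339298704890644055506320382532449703713629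455193863722742562913852393831275354569588536848871626053186884566947642680237278693709536434882691958582662356505865792338615149801076613996057011966509436870995605204962439962581755278553927976876941094612436727384050525018791568088496608922966827594458020302782419269965905298856674042176442211926074985305550548520484366328447157875269116614177799488770264606844213807497013088392627667078861290712872155059821076266713292737778076780869174346525288764100953258766669139173851683500347177796589707132220386580521568191713604778767976032345834942675642047459654183329270472959994719780498045165626893153315668206771697172525622096347603825050611274517318738882503923049855841520888137122926857938384834818248396186984091081123305995171896955047591800974357322997605604804681792698494223871685086444314481607833047029880484479247479889285557553975471851181801282728234619901240389087272287710984341958225571229771321722903889555503418296271603790246182166249311033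612118511786298546928358509704766407076513145994482800478891275540629678247749308355524439814060731608978861562863920805897500211573503927605126041096756984406024182606564908743818823764637611352364620576228972693605681066003511541258047055071431151125634641761725411845421856580578067943988735114373029606374406761376758469068249566819567351512970383876976383137653256200665249264288416276080818766339216798187333840348871098023447091986602134059409619650858225445505926803078141226623473653660459498755695275715012691764245302471652954191118221097759152798311290715394563914301284194580782942609909410754651608970845840070384111705264164613145538554342019465273702224090544911702027888042607519139635184147853128245245524010575862195601949811186538784164380655888646291972450773546651631819721415937322346841707310932696004981642680190320932988680292101744687776524109795546700333428315091829183125736195360765904454981500028618977200463166075278410982291973403500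662474641141782368748909545679848705519182650435172336594912449911501700388465248006339305256576414480682823147874720386356978020385431750403114955498828359710458285421305471192277483018120443739933814100758013916209546798526373676201791142297153465108918884748604804524686534083813985177325743234950005890949272732471209416467694095301967460113629926481085964757869918953910565657528156571569653904111696200522454152497214073364741495137381553788623120237218431476948685440794076284013862900099725506858340627071322562150812650805020603072093424655508202002868105214684607533401663090399029341530717724858202417650261046468702242991828917479434409800125063661612787542709999277787516859126953092853298876283089381394448958140113182112019864724206564636593810904316325789184299443856982741851005781204296285697834423495963946232218922194640954941185536837648926954882822758868719783921915096023723009493807621332097473580530882160415192644245765226767161932751008997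606744432694441891646930980514865895787428881338208482077803379059515730513594034315550695314217631317529771178238409080247453267254746620487267734577070105065491518881197389173620188977965539970678797657748500234146012611126426473903897356631525764729223953915673242897710178517818426742634557908476892044898753713301577024306865304445039676858126573731066206598886513148307051999345769540936555654524858937010119310322020357571925754646028434732584497729569757260719505582907349181275585401405521557556866384233114772621917189754599910900728806596640813982317407367442917612653860515922000268858995363389493365059691798903596786014024271153324049513481659456291466115182838425660408009886636112693125339967897178974239526941511248897366346997285923877638937186793849304690874914627346223112770470786600960288252200203845206093352202371189895740538486981882088713966185154897232086312097171761134529019848522823544259273031511595735777703111608126556909131280526142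628145320340059135271307991007307905369404549508941695451564365796887684296243945935088691920558440682743324933661500109138243610684807039817733193923866810732729464709618699311393994512377584861324165108194230054619371641835535710065714618533964289875852211764671724648059450575389023442465395907326268205621647053589337411524489695360986116010220518802287322460758839374640255585225630610823566151897721290215913696189052105119331884710784836046735156731129068302324571295792068713957399161175817262802190166028499122971941436551067390510647198421416844150587274305175866677837221448599045732213663053868034243203199377051510574392500429168632122581092856673807137547068828769846210867827970750633646953390550334722546796873850213625664192346339862311281532187079115718480977095491790485689629403015768802271334912661726963615682739671060665217679734275783347709654676939342219529397378553853956882080643880484103273815861956982282136107634822908064622321848544810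922868584874827201516290275744926381836115193141335388234704248938625576290268272075385547005096369592687377434699741931302128943499907149864782446876222627268938677897286959275456931265935141377740465520486396145713350380037884515042967881988406617296401202908779898900882083744757482481462727329541699898409838699793611697955833455455676143360806246302202805077505025573590499153420301557253197347048572492457365398127036463940516897440081845203105621882172897621707366374492048074635387527319868033853063642988834278861908172406834204113270709933501934237674130058358903397612970670653118674079023928032374544545408466169768729184415543481705014388809270764979717719106272483650084374362705115205183416948912591443601198092119682154096821788716840018380376369746872925907515893959939710472350784548379073363751141854654424503201806968785012872288726115097106004754053192773673824747476006791755709920303234104651739291277156665582459807142439425087296478593858486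430933950066840882167315106508824127765632835216737467506776414331006818695879440658990836663993953166401146940812103913078905063319535052197460151821828990121700480537217233024280095785766735171716056960380589124463388205221719921230301920711986164926015816822540811552313003906332349606734040008767119481938785546527348749288198210921279820897855266344130719595371017396435342196034606149880920208528603052752468361180535834397315720660537946580292025777881794601865929869821692829673572911359719785420865712284764609420457646698746769911327456163210862945190356883809740712457114891532804953769518875475067007303065531010603206784704228164029665672472044970669859396171902351580282233399377913952037675107638541751348215045114998944356493764060138538543762281647387853825821706171442995519527996507856089302015514428510603096538635378868147041145510526161750312375219236164897361788890171334017644566966918415262589190466078152159275918390327275899982911463477288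917123042790809578659681436135511027857206827069409860816416004913689493545522614669437968011383265054129618218741437003959919848929818144917471348946672212182499120660130310217447877827437657162525777014542429378813710847880826654030020044180680193903610086660975664637756266245346038814403859710109704409322595515793924321882626477143399452008802945365901263899471230388742324881626215890107182624106123037251280075901752392655440518914400967138341427432877650311557595428332817974633336899765063062438805123088841036617553113108671740658804472725690646769908782123019643502398688283646863733686071812085733109798541239391294786351117210339926054201308846509635512257791994528751023438146067317972368385445852756366269293798900074985374245536850692414725825918760395710835897733166074114624554863370017085548773953603071907526127246410047166719029771670141453627712487430980214948868548084520165540676409621906351876873270952329414154082806870738549252414082473136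967176107319386695670446358384220807949901587286961984873557485553503213179513808276978698245744694703211197795024294762335501154524007670101325819738382905665053178410446213173998191322947635018288424534959693371856143773032090278469010013049367834157364995308086974979418119678550835368252132985252155548186679371444497928962364971209230379776974801283358321662804812770226312086493338854855493867200632970706790178706173972823610800308113716264369195934178495858191039269790615540274747893953858274365350914929798681148369566472552165331272542613064561531477253632527953222594227952080433116149122005486921452248983392601268048140555127464675970223544666121116190114248350407395252993284954789433947155249895608907061975831241570016481425440128639914280133599148590357934967993909754985954393615160160514656410456801072697006108660829456400359302161028753247223450023369413054979442429343161426799142290737303349455580846973433111031750232762640036391054010464556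727991070693927212831044851727537843606684010631184642662278584854947227940835663122828212523577137052132416111911365974659910306916199743317988532547320190656217559354028486062200226867903235244567906274115924780120177041755502383005846651641138047908953836196002934864198495939125056569118830956679007628820695790368311109681740705948482001979420079180770546326597020427105329486737165834458922581295967777801081487453237313505106301127368826820295660750974863845649842248872069258239454146311073987769822100169881164700115557149004695111093883646065058992998648599113097417659717155889760714342840291819794292284589067708657662566927804082502736970210367478563293511980037032651380615356621491017973098982915241689827506397438899049724869954370610941345525075545245215033880163669341196901711428961917386371029771106343890002081894905395280974278164685961350167645780086162014355324616328246112061397311214732621737396331691371829040733535549390715377138979426351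491742072332486409876025767986809563911158526272688736094903897331748350423772201750151269619785493901839690952594120844153494014933842358338468422041587847834951251113159605391291621201133853412052481731914008779688365684509223965529185586975506420264248640543698399971607269823718462052607283640843870881833377895049225985530137239146338278942820302016444140200483321943252655893657492456620751475080839207708824624276764468360686480598078733222543549407873630672454642908005846286471845423777149069611688740416532762525483241743406370114049664218105613232243141523907006365501888045439903710457879088136779838562469929298975484407458418273426836376559321367625148644102136025872381976555577412841871320401067797674972246561573453615116069788681705360085984493240360714579123405453222008896843494438509057015949101088965069324592356967457686437228411495063028942321431825094405495774763074156034209741631608231586404405379971264404544791469381416673180636736397287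229155449538430471715998748081213862175863263408184196249849293929701829646967980322614043870433498700881868422173353165395918817674271532314739623667694035427866353893847849737831178100843382901051318586511087515121588970092937274994446239571750101440623236452501022189796017960339045235863952057410416610498959307948701265884566039015507264296188199373994341314916210602736913875426172780979398412162034293607765548451115414766835596923310256913243370692373736482080199831286236212037730942999318054512588546162769972287689606160214826345316596502616689071582457487215227506147168137521168725938911815682614645047017123088651227503527484960524451001955436040576387242510864077711172542917728058206878122586035235785002346904517000850836306122475612962007393312738635206225207600257307371378216526840409719624020486427779760718641796602817173272210679701535023942240139382745190899140141291810602064384976898905549006845474568287979611573012157414049998938383458964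410419633514579015515335119948845330920973943333388591852461228672249318621730958006820903068599455908784424612579449405677520386853572095588465240985636355340791503233355438775875470822597650999760690279135627087438554874114588427904070971968407453604213554073977101362994348715398390255631098384153435379698736172313865155516528303439895067457500223126143440776953245034097116996730162095059981819803822393485550101671113793901800085428679821194596768666870042363252485125014361630490940446782908602889509065545513923488002500967060282259488742500382196452129908326909193433284231052036387020212138973254258945806309986229765569294117477037978790385011605530062545258679217013786881498526914426157233848693735598063359034740862747891413905073678076456894246347354249900255031169469922554502677707268279537372526821845285425908807976896490450258894862434028250508426005042916762628641438429647149336500869830124881183973559484847100331537179900486473106780306259451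5354380984933925747888279477924392118707099986519684185561970660215772505956184699017590042950020771167018810340986600700133496088029201563348017273483568880574741151910547524803403412619725220564173071824525107108271805121657515923183035060945281063408922761111650901781221405298875400882971693241529931104926059392060190714470124658735243636193109329664727669468429929315484223308062520053159030251575812754712048597881816188687469101454440161408920899074021310598420761040590748688014287228189830085322511781854127747012924551993446531733586782664736278305118768193472163664673206949892784051384426147946716683179314249079614752080906768783052008036987636015342001227908526850870231931986182694787301636082328183888929524241451824713279619028747341376059573671257043656830250795789524633657829911298609201364860928)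

noncomputable def rc24 : Nat := (nat_lit 21045200896537808053139300571635360095445682091474253036865228427401084514015807229484660778998565360134143119993011510474897304239686381347021844017586359808573765797821155891870711278532815509049197411388801732205220965956975336230570390476126392740760675535535937760387895436316121128311014062801274356362424311949880959589435185196925975383973202829863181027760994157104376222372644494079886099042809689380765703541062245210074418901157767733174097703413592543195553695936628043704189008101950298003068954355366840318474302193785074276132140866967379525979351142383547499075404721729131587291644496569214807734918795932775858579549710676147464660960828765298861390081214299319915338278501356366628088572250142798551015507550378408009534612186122203503659484197226691169616064126529326736350878130400663582561812435759491782394630948571822450300340154401636068592076452764350860370363177379711494032811663129223713230455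694569179906133925921181149734886459996959387543075917646130763353286025934826707090234414103704832287594262757463582452786767824126335996285217722277591899549890650921450855025504334523459410896322005115421026089877355874328954445662324360435670348678863107985531650274129710027266928760146315275702645752390284579839027728156930868977986073357923757186198159738378001254184353683045273321729961757190739889005792346480971186711526530977052916358733859873290306692581100789081453346702270862588282350063700983972406644789740645090457933526394506606789131933261858432913862371721577133206743874945554610437215848503216681767445974055589899239585144285126535376616248642241593243629898561275598928695433337863459157751155105466058197756574355480255658023421990804680792187614053314153964177014894525783615738167511015692668642580570303497610605721379238933703140636387067752630572184848031471492121973058235354414637146810336448666799485320510131649101749245042386253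712429885106594799864586738098569980767896722053141800609802872253070840769734911577948406226737085889523374535902491336875148605870103085452470843481614171799958954986441740305021449296497159577675609740741861763073912199470814828555237846574309023003154528776483362595376641927416369388377339284557363695170395528121437982529320435970608050566646064530163156654599288194491006459868836756557028135869078893154954831678849915147964281714720964745490430281612331778130901597328247183869563604241133429285466921126040125886261612422746302963189033880897704753683627246405763016083716036696420778910235036782295789312015226399298146429689117420264098539865628431825365546156247047023437351103688879216447433482935119916132556302337127241274122337873257461440992784249524018469564775517761407644470623428567347793562818571419259199055025680306330207509514807399797679034000694007709542003576932224753250791554222140821300231670621984044321669333190581359049084153712074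453611868290140100509033094232828839422631043766471850147339231612705042924187178864794507111127303970939684221300564741416940761470766508416323082465653811956587428855598915872234551468311834521471393426932751782745469130221550623197568663752982142698896296103080264862416381960207971214215325397349579225920850859814602175569424052557404040632029569609719032756478173148825666445881979808342839214441004874204710114094820007766390851261791803011900069875069619897671252397250461016520481683261925592959366551884095748663881115837731346086192368233309014509380651126890812631355684872262814662845666322549043967813436347868577562680247806946366520846696824333617907575209328679741991821121915533738733428816672105182115879998570208099403120346210151860407772959138875201528810476252971879223951868361229869552905081391269341508197289772530049044326212498127985604055907984829735919354433186521010241492130903155029273353080839174315745769663730033730234639747527723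815966335166805096511484500390398630889219364659683598042341042862096968622247134155086121773098538304538467582310028956104270023273218041250685153940953118237815195684070758627578049498188105015860536608599302783009599731454192847229948639747907839047633238128135296477789758475126287234439146922957467110035241084631529068394602301862357694892305868454404399207023506450272853694387630995483683375684667215880413597095462739875343592541479890770194040872347518722116063568644466761553706707709882506284885603974693884851036360286499267181394468878853614029948743997339427583005404415819634317618162056754908883078825625826462071982978947664270029512768071168013362377274101877591563918440672016829080270982653057816809227740382387469335609544579020828958426004406296100911146429772669089032171636083251837049732862754741220375669593289872881223843099871034718649749665349133202689276263429368428467332655243269353073804345405909153745307507164252146020945791714982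642911145193530347196212167407909466561067947174359904012615612488828262523242229944542087508744439181771189991175626812170442689506520525139627860570731198477470085018444792750487675913175575803477193091202915609964430800104799348464640048390916010335817892834541585687169582700594114543387293785064357067183681453230413140334076926303402526944822982741851056344456219841177320751565003733176453977382609524167806502156034525910796338896230697216454948462154299125730804155261597249948967063120082023815358488810578405582945249962278403339245933680084393149150146599435227090471931630796184699877661524571491719303379427215392841284345947937683543741751129565648225950692077505929315406033658939446243578195618006257581167257220624183071770764697471740765159888494377223598817371570948019889428263346336140864487332887372602181419068747375810802609885725981842505654148441687197881038219128865173789000481995699943238152537118055808337236417598867768687781947921281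972415304952921399283351938334120191782889767169805963985998860839026903416704687147680360579609406257177020592098890127324236802326264825691813823079169748198458553453124741366636420223701691329402866176431157750450761132355630045582932978493212807763772193930335592287411067096027271139943977735235689997204415106974571396060984863376127747046998895884364341580715035876057921805391312636699342830131937746086221483410675604189888146954204217337915976134918087090995214911727270134697193705555748086378216868774777936809637235828750081427618535600114959117770518660443571684454869770287074605582074870766617389023675468860830103446411554153548335535669761855690376050123453167763425393465668350277956378595272767175440807971618420974231200058668996171278959414994790364266949218213422742245223148908296178235143292352982519862240479922947738404194275277339444126664588107593179520020322953662382200148325059494378390110692003641862964597727032842441315765246858206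339050178284143803260211605561897044997127892469826280430714286328431387086367860747122302720016843491935433300932256831063921325360079822579269285056529757087467320219109947579080635922506896701043764129478818179353488364012770597992480748179718231570274131115299513175411457296109867864446297852915654392501059895624915403423401346027266440392191050895644359066103255134107545462652312652187716502359340983036926131018522248522760054064190128941191659281035938228069751643943886510373095415753188374278692524225571605617023340764943250567279256026923922919962973100838424272312447242240316877587291307059181699539922747133171010617746066815336637671866292381858491683948947225863486441448432490920328388185036785297665957158665602206545071554793955887796272441967056040962509952116159062198124219395665707239371490153621734489755412391210499495378081076850770463200289161962538574728544948568562848856241377812344715478439528216828962409212894988677589467228981322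141487702664756493123739994986342132040166264085579491639301039846837502254976864537887514942407013544667594761697381526024172705071465705120336903057493472291593923907022809117188674804205340532660711281887952990000509519837961727032328031361062832650136115825036727906475576796278860312528538146033337224043320541369271245385192666006138030787425047565854738572829513423972770393636207994532818824649626317308592160542513026021693737226610975367250132735681480179374767007351032484534706908600091723099485296078837094970552148735871601592795336082538873779885025341684751468982803835282812682108228092783614902925465282488984525585033860283811537078648924314085427451191502822135308100671911926546914693462579947392731836107268133175839270304520149323440774057077992979720415191241690944481832125868829668219793861647204907263182434690349056264636595567108985699765364389600371174290196448528794069972427067544394268991874070609649156400636396764188884558326257312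659541906161794037431238230237542753632815014927078239028810683060337857557833203618534225948376595986968441295392075742297588623648433362381512992457193979291093419067718790297610624049730121915239815079084065768081506947471246014086246394262442341064515246803463310613210763869557523177469989272938819604063244202122602285104942745569317520970430966254533211739674462859280215777276689165115367162715155550600591026545344942391729113446195649922967285338531591999862647544106414038939390889819954032045662662838973098637918195671728065923739284971181116174360429913821299628706418135491051119192006178601138549761747011625538984056857419645818708722693398661601443207004390119465349567450827800782274254434289527960267164920720785992664821369980532655358166634690127011959168318841101263298230632392677290140509938956221970712348192269656144679241876246997903442410406025770211604024148254693728944239655601163812460546287007168375012682493334690670568319530689511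330624973109743863003621132945298769141014991917238555884928079829561472934160292414776197462310968553861425980499214645779707526872158288523043995076624930144240223480071917290773644011665767490283577274232003822863992968339197239519743682237153039229988651956951236774023716455334813063209243206135925230300185326952825504688917667969461853873222800637553677054786602702861445124924829953819428151952358252428473773335977674549828068679952010962344194637453275942154107498064216764681197444449312956572920122608866648181163993391694280391274892136128895016272046876878229380264942647170040079768124918015905071503843113036335653763931422900320860815717538513594506030558566223822839956009167532997605315683242565881692095948381152156110648646079757466519322102193136125791694155046884366253030274201788584131755982306386917058411511959373524700779006779936216243383856317673420619860988907760623068363444929044800790002326726362794999386638334272061081669746485299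637608974546646783009831146974467208265644011373841840515293257330331155509626230168177779117910791556057516744514745332366853994843302519415238151557572782344252755021512111467664683255780372795933829965755164393956163856883824178973740359873251626517483133315249677305339733607091131563024614916276676665327685154249887191068451569289317544666883605520048164059436531022281128277632857242547668210483396264344780662348053252889874519668685790930861534622939657006136527738513568626796170734034109784517032439919232382495805362052800299973787174596946460087791537338761802455762697807001372637642923258523179718675308384170714005797755375775975515505149945463569818253389319517211393404475066195246952594939498705252866262542214643600903662342995313990231316965410743584160491820137669641348673817241482815522000976564776513666014424481950605641523645082284720181054695498931321296670769083041213505891781969311678222709714900293185156282974292129889765753424237204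781834554225989851926256121881096069635188817264012043241835855879591030481648002352848459253381954580883865118418249766486149990876991783851213415626399995234898931421155178971707939288591820678531991801274642152679569716880857391316974992647444752043630248941423667121307655636693396123830769962835871342484523165548952918154816277680788221994379217540143964097286895123241646819893463272487822158352309435808288848989245364190393166536206797403884536371742558500624794317386085007619048209244087542767118349270336067914554046468934089247206176982085697392089711842484660607282495387287994233481153494963593712350859026835745263021922941408917597751544777724258318797384023874283435662703311222761659998025818002913950789043812966476736148458604408884527780188761253916133328818076150573839798696309900708100645891389900430443758549527038844415174019803096587204873520373894191938896201993128124246978572000762338566418449528808292472815407221712864600581037609086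998552152796352174459347097090672795188718154534353553359772117194384564387588483098565117075212645954805252272890093720888110117511758651200567327214854265206327680844662938121323909134189109633785269183613610680666794542305931309875683502290934657866634861456963689069790071340537987375924722214610016693801090804266529951058165460508749700175996464847633624750430767589069970567842036712096073796648260531599384101243312089559506186495438594602295223212906412558155020925705987580808364212352417730144162743447124237967052049532750368731339184310973061009540096854242569749021874176283734959780794004986655037505497165200135893674393409824638205749539650722119347904782560066912004859265094885378651790620533994624400535381514423783964634206829237945781359351155954506555726007254312364738377360967791650860695866461253606757259362881550457475858028870601456595008885449133853966126934816998865952551757516426912802351824225263297166924330949670760149962432974411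276807351791586681445684207145695283262348458875779823254886278273458692106305586265922005260443326116926475401375713131608473982746002572326508162009087699515902073138895343306445732743085454942329975153013338935913923651044303554888412303721605405610219793420673438184013861853095976216103524715072360745915528416077048381250817186076726529978717980690615269206184240343657981386681626878745185063419336236728133202724164581508697399600934351566857677932638582146295484615346416848755988991940582037963148297501725624283585519509508914774697517279940303378224739747253349392960124637795750833736910871657909005348739117577480674706814132927565088375281650630163341286318906228795823528258386933374578279389571964492706652519011548416966315442124999150145852304534129828571676457182319891604779490854696208078216719006030493459764638551692708540781298885328959598780202250127662983975229478683862598747930330007576307217269792143555481314376012069091682976464982525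064100081742970241053868129994525909111961423065183803857142400064200171799654135762957025595296775635297507291192836684874818463101678529486121382618507255617110115451808595381566725788233280979750809878076665928290731649323581334094419651124682837216937155342145005712512452617977815687122845616498199036489921950268680399689835851226511993264303633070752575286504033218138647096053716101033721055953407801616086099686868513891106566799052130688930971118807926019058291802974007465714295172444823154561087540716717278509337721275979982544710905738371366859403255402096907640473948951701383618614057570267090573162555942651845301729865122230090697624528277979875591059883768541367487658969787793632253986462121839173403273695402033845410554002148005324984785009594414691804931352280545018238929794906873716145500510562623812108099250831985031067681972676565230302286236560815283991379748594681962542151883983843245855239547271478749700186676041883121686605722975435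295955736233785105145491759340160511433459768032683128787023401948217134983159814836687527918046458211664207701592054064575385166134023890315556230180135248882472449106536912077748624231155290054331775547840050314732169677101938218634909614505381893982914876141054614815806579854535855401083421853479740715599168890940894996859002598726909429046992169318662716764997541042330373821638714925742300460855174499976551838896833375287843655694056505466890196288182120138888085179812048856956274671008380062646903157487005043289445073355462373110624619979843540823442385283219334134701601661887350789433387842224472919557754469612548477751572132888221909184524891531566594266335966755399795622113731850246869440520359735426221780498918532873689855103350019518912844349215270909632711828903954811067515585087984441142667812900741571946626262694534828274259103042757386077900848534960016592416662202217157213598417947010429065782922358287526715523721643928184304617611295636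251783562991482527221055250997888619515222113610715863309277930721489464279984623667576684014886392039333034644473285239308304357756355261305014601853963205480662600048775377352481995330939171513880449058821515042672927829704427084382077108024704514613331699578895583217110157475368101728567875285568754024118581277652704362206566142727602579336866641788198750024651115416308489970038491482920011142270225910174419101720154466774846463097908071105911629413379500571241736186654107975422377883402374258398517616767451702367727952067904918413513288924577684262062408695648116408611638365459818640693502304148406169931668690702859772594309659699034864115488875446405648929684051461521031380500517954691308691395764451785938583088906179457854837527022344460025661511784744648438091360805068362628743436488779460575721061838630669274744016050251139819973041859250007549267394924324454991862221435931053917118309400906963121843749151542399175355526330347439917514841196141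0547975411253070152423419814247244673091341319779700777835243186852830478151819811197080732231686209004443186277497968902421119910595121756441486314873011334372436904374373862173880259371469137631645488764779776634440117927573288148032160762657229196133304521358796536927487427675625770279637887603438688673296707974905099608570439353289785606216655536974027973132486985045396088976055712918767420208993166265935197642058803428450700461819734036748895179880997697471444153488888415621269253382777169786919466473780369694549246306276086143535280244353914784318060721475742141006178025043123422239334525120118554904429943741401963881570718996046641195179467046903800007648872353500426184726024619174420703632452287859129977224433651182992253921136287654942729765009961363079998869960655510556634361972412076408394743808)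

noncomputable def rc25 : Nat := (nat_lit 21096566398572588160255741878288258868629163858700686835342301171440303852039355066056114547845490643826006918738921171005964062887635047278060337051364654574925686894807733002451662097828208744857434173197077547144997432248274932671574873445632803798774038166338786268584810380839048672902597022977488299197617711947692191359225227710118160058748785553588043591591648709267513793336397642839029067234430578962515125343061745755754556812475337161735623905985370446850800121996556771267168752113347186101608250010445430532524190577600910201633172604795527410835836000414963982138228818396618855885668800684551102365986137131004728541558141023068721422083364140148960765454839298975342597257027780312902503575170717405364199809483294627301656061872056119980345510074365317397727150621897735044786967815652173556925037040739751287954157265444007714050689646758537659420733397031787943880000405997613447632961398428740738196486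118026613771307807897585553571613376598387150061692419891816962391928986052585304312140415634608454995151353087276553432328871428633219213638981720948823250778230570354215311033546457760449991605932998728188040702135240076155611093405536993915931852679186210306806956504977515774275518374782125691988582229744737671300937911867174693423743039403054056498847262192339206843905925143696019826039869584857080786327263526783177754255084037616410690889108666514269177717889906759782851649871502115334485307291134042982587199006979379753930593631861835090344442070225587101389229420682626981382243995096423137524042183348147274748238000629270234489324172745862557266101756270221405495825393656401159496352776769772574053136100886079349890799087044485809161287746876488166602048728501923644422375543786215669190889769029296210139034806156342493124165135236967027294731264067294538019760055640972191407219280196511944101293935918046617096739478627677764784654298790907108491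789080432799802963857677931575515781478974054740340670191393782710821192127643333119048939273334293239822927050246205831888550284067733181852449776915011962294730899628491971958826113163769823462732934370532957780193716917815493428221308662549542375397441672711011360346773305276101943089134500693960271991879317958323762820325850525602787876449332524224308137667152204433759104815637047706600117901611397939376069852294592543981380515719041489100851767334197854145266839325508805635220875754725154850227838200996366840280310410397266908132681086714293626463960231072581922918001086062721964147604300829726989071908319136334135142494383640695559139318268168989481373977684739756933780333223480069174902411261459187970802627936920275099188751193932320541925210917670368538953421456310188088498707087008845828047025657421817529413781682571982665831730369455361046585460212505862672795936326030211002752334310595287878407315005143096436242114098163937614614121744059931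343566655630201832690550516203081371889430132480174082984215988114548587108064608905831943446693371348359557640597219433986168781760650050295373403463370781532790393300597570315665932551169975203545317684562510494361119472259364193694169659007219680225169621055630762913746065093845872710185744053738615726228753543699070006317168625979209518737698680466429430584766648075096181536517698838388531092571988896178731973477669974543882706945467958313633685416038622082773607725757730281317376011491777260031411755773568348520048439864079578808954352709782676841380219149367729192219180108611479490325743665701728945936001914472119742376151925965111718764028333099241105789696595937134174095840782755086177024533835781115730809358105415408059217446353581974437176908382360128380054984643320436049863641658420251145951705634847337065286149515900484909079597358067933184895900309530681269901581617489854285243019162708125359241257819040310570579081152466870052983156335072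054773624166098565624642448319977103878406030197687142080533506847340598266323847575470767712296086497063672096376751748703224534895035843262579343388153421152738939954210389978892655205280168318922346907528707255038572184639603153542814364902881006749901159286935885934336419254828047530530668305012041247948369661815841572963708544929720574999328745260726032253905376445465338766497387628441158319469866307979345687318051588417006540513087631037731692515285195529308158803531736343638041881377788028154063087855283431722280582268780856279950311255993228134642464038976998847051271513326674206229957826498387986715649016224323651570671740845256939312924822610053054848001412408852227365498516333314362279004901317618453909558633634230092123467753331875598310277348677096529801986169621698850976550598006461179983174261952359068474829004332573609357449845215563868314439249598143409732420347428327074268142299246300295930825607706200433257992641898886517804866342465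547387819416835177389394869347875395645075079273041818420005799044171732536937380675698701699074868046910465449548478034860544717574254165081183196436100210128618359585276479932097118780397743892060622337698755454758835190247422133825527946431053020155823512580809282834849567274808514122892123776645449532346970402018860666832964040375231725519350623519494146699582343988317130086193245504315994607140239495411935450926214940264216826958399154444139414662642121793457681250042941282931335103121401031193018267108340431223500236344760094709516143113208596810326875624149309926849691169772019818155821743071744929618106142095092211046705848654900015312152368650349440599479877168167334585412550381979209273581963613617505779251906867657814109439083397591156650379551880533787381925698909112375434975992195459502234564297606687461344626098817011054613544592874271495271786811414225556580011898059685223511839770928877019503375955923455175741564173261960567267025358150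357698032570150615513737983041436253891431193089486319018748517013848375984684454676211441677271166419488492592549020052031953825690734616794634325383310431130021665160425099336954257139451380457889181776664947419876924095313435887992601423467381540218455422218034085372820726516810600166187518365361920622478183935434326625039868050722656589010616549961865518330562714345266716335957181176150049882351269608013619684042491641097005109847087207451403336791667260644003872148755732649097176614163118110814929691452666073848551793489195527955324584894467859427075793512034948945983006374023221651762024716258986636698548754598149855151872805274100195264025265412221646428601395681736332058508987975502604391711304252960329717242886378047380609850024520932183391329713530562048116246222249808180190106362527840716549678104225932752980139922337655314609644209599530349978843805300238596538671356382814900708829895953987639596593312454588749348555880500459665562854034933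267493177606085455743339159363464480621098691721966300919506247473612118653475610490260304586013386830610324788232229477617048790112082994143652591396980275999542983147025946974868445392121958192890209243254456831683816458346137453100470341476334969363892551343178477248215852886355429892157194733388665639036493583160271768566202989564488970676450221603546651170882369016119460131153878079894410201378714158163949462740173261365785791343167825724228757842977889720028107995151812365806186564766203122324640441028594511545045716582034008338446098461496219857202427173501103197643046636814832173515817960854430737684954864338818358869942143519377440870340619284532587351398054325047242777965906200531850970188479882678187724053448633233337110479607594844342816439882760525055188964789233132212318765999603538724536346692296231634050447104490129671011493634650779856134294973509814298924954397892394597548003504934255739530654250789965504000400892463528231284316376189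005737261822814297287853907218297683938539964388125203440912143851252978971441643048997020785659823977386857394515073054213542689682718009817616419947441402087402466706889614546044129896930467848052016481884379656411417708802225134801072565431062904134499222538467987030254931002717065018801655965155432124279727969996540214104997586341815453235512348759529104355354660344752235571469712319869361291179306699326896443030904105407227366764797579383338698754065363026771761361421351561186530567558335816507859565470435978953370122960227562733993965502548225513463215881358770502949159565335065566724773890543162395753602498492098479158902409016411081647156938908744920188921299983466053921180372878379960635739172907673620937280141026497392713395271410054314861536647149269907567973322393515363904694243977746390962717160466014248636831508118983036643858136514765354391662540986210877053203450755520761671391892227771805798904122196521840910282161160284665506060686694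365233845206941368479801565577607061857113080919012632066338154622503628758852266531044115878722479191085495038369139187729900368447952172971038051685817744707038861384990120118189536149535655284100192589281275784917219823398319576726315994635552644229252895268706363148310679210897002022445679922765992137579127383894595808401335876163963383038287124859177580289941250604340452659828395807357250185036440632006737632158745675171545460893812579090212380865330377598691428695723091752451806224661529926051576554032443187594669618449493299301561169003085756791707788108780888421012034716748422768969952893452985973799819754261023440067957648877088955421701809895716032656319676349804836570942880376472256084667707826257272269324386814344103219661524956061591942010629410877885473673710704214633706394502353471659875773857787586480946891309911886272640787355478640459807820440222638913030064797203037453214830838515058258947000163819756320811081954512776183863124608054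957322152065021602014975840240386761970587054661074191457563922364212868745439374889307648570489136142028027792282034290381264895399889414555509802051834675116647013679070524200102010603675756795309767496663973064381167639806128148246859045813159894495443620386652204856301415352921799576124859446857984187372444632773680856889876470236620463088191811972615792887029269270454996770792898641391484133831819872421278679823151684440318067011417730513109268456687489606025230629063690121914601094236595729889541544000194810900619494100556414507922864855855806689597190829825551617395725577228951677456076555401861464158513465691886566187553585392427317930620087130631702797671277385006585072341573660807667342068723797681751316559305057731283197341054195571664601433200319957424802021207550342279052617394115980699872919792349033368138059806644137439465255986856928932571567959615252263567298619868747725233326766517555491910662302733222924745837459843570692294741378274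519715881602038256459148475184015196602358466623227342656905239653385907113176116879190600071941954348976942028136679899616277920933699723006199066180869106932410956187390253623156925712784603168635740077877540500527612335921985900449876374113181458618580346335481669310891807212015676219350304959556565509059214195783681703561791562514769106920193231989737548393119681011844245751150118999402188126347072773009184254781436652262594043344960865175618009385438368726669978886109548597790854149801951360075508908105017524112348491424234251829995945882102826929551907294058263736684875506017536116604673696832290127864032029217199942374309054713774177841864994528604262191435875395989630919512647532430036940805218776983546172207399253802234753466964721770920195021632744121903901932005191998243523637492238956392522213790998082403885364790281285943407272205959525661224321471595448082331718002431683092379590332641093891208080014909166511031162778902709681275156411324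968151753940671813165788055440183266390771660011604231646767957759812729206122933904185302055210702107261127115800078557226628309258810855882409422310108225973225440164849948416053743613025283272876594475866876260669542701571409460820149150751066464451326056287037405496478880672354314317309410486683505767972748703228650344816616933944386192926411352099659577544140661428893645791396871105126556972213900984948808311210614300957615049397460431030080439832887737388059873735224648075588067479278133196309684808151161020141362301505985916349444603781292631826709491709489334048250062368474233229446227625014223403857712390687175028054273805182887042127072724935479888024294115091132818089827877535791273059758884271504042056150870422061739880154642127494318387621226920529259946724123139688131624203251455160735526699494847264819778625192989217783178740879917824864186977468438752670373872545796989042301864956768637979625218476334827220721581078987697591186801166114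396022315243127945797350312433262853765426536569135298204485104764229938122005111199575517706151945373704773981713699080529502904276478711557545545416111370648601989830431264164043425331188512306206859392852367264674466261074688857093621939641650939168750911224469678463210418310496183722026334109280617890468852409817086336831798889462841734401218791717036352815438523632532148293106233985024290167347572265907665914091050766084100553858759704935561977754864349786790277843023104934453660452814982194840837329802070770265236709919999927909403083706525707770997114503993777377034086538880712314033076902756235443670051013150560623684454779617573103581799414729707792111664720181052344528292369864373558418006184059874062591066514160973097767065475985621151597482360621258757929428107977733596054181815743634280452582354948429869642568505236471710650057479854345742240427115492561159029681843456804122531900600493675518355169644419173689236897776080011940626496386250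511565509230583452895428918986244261414547932103134952532220788598049933003142596454367268456851918368487512401179110768624535260177080457865145414438591353900341941680634557242660133696192771813634600035356715971354780438032307020176851306887117925668620069534110506512330986516470714616249635209566309631417925718324064857928504768295755577541867953398436119927165338479800874621728497322428210642325552399849104560165230688488033894174444244559265788284707279188188671246809002572047685152247090558238122756283609618069792378453272407792700934245801251153379269320889618480591550976306571565730840749359827402306929191970426335897293337459681810556170061801582889687107158445431494297018901729957498630801555191954990186591264122871502882279485219058335942754818481369940414884271998159790811017267161603975015721985471351204388775083777959370996354677887395822638345730002130948289355350430633858937072442420170270144449622708558463236412300096003937779419049402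720414031585655617747454361852018115337039434116284881050743354176838493735878783310668247175493841381795946624629470342818081144887619048687750729293462092264361238607661140707907032006274235384109241078286516811210785943246437576889236335655934951975310390312151928115353734465563057001836923518652911773609260670438992190274048247979649336877807310468690406121112845536347852554034922748662062599308425398116587099058916016557600224285242773848062146150058329515103552110270012245709453319499737602626607460651608934273057824517576082646422750761168633728053634298918009373994338411176125834202974735193623447428334071151194620091621455999502079535054052635577965935983950321350947205431379838237657492659031629938191402184845671183761356338527797987237757124603380237985285265580564742987239438680772302232827963818644890501566924968504520657471590709481310521641521678602560367127988840351204480848916356721267036063299948967997078696928081287242947811145861904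952903855104324827336238689819800403751824608371872128122755594675970571905144317981440565088794695428367464825778842798970064227475040647076808945710633591396995596207902488413307567434123259205953084933572718380293980686228597713320930910400555324721873146216775251008086204282781429060533938964730745876417758485819484070557659976304439197092663000866995220164206968020268680827243355056366933552463881239348709307950591998372196654661502153873788301382052789762669191260401534529265980510140678979664844967782644908533059159310667592854700092845115307384355147716646158805249460778928653246901821929626523796940874818554898707133696432032165757338229224335836604386013519989816166189672993330317772322848278615132086911682142061968132292637971597748415988122374768572097293593103485478715202867660291982376348664739901263849730698888801344341993222964653611450143152290380850084665918316154671644610904525878993303126903445261713150923000893671988179297685166393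632634850350874646451589600068274991235965544047336308786802226181336478434583160379464614689987891992388120887158819753381392561332552955748779687782019257021594927359471627353614885745314025935392224425940312168423057323917268316087378782598597129489783935551743101316725163246315130146454543656288573746780775468645465033743382346271820290716611843552264797803721484260412458256843131793202572024468479200635328506584524454992401703851976519271514719850864750490547853838214901946934521232212099646036932201822749343801895626685679409438102351672102980713823384591874893331757512689890813309443295984777563180081634007493288942004247265041418762683562423457797166993651325663437499148235739879076752258580039402114979666234667797554902255786317657577624922773695000721175496369937776326596607694281266866522892157324289412810440112347804163172581180642135345001939270514379088953938699572483058032216238667296350747303315061628356815196315691856485115391927886428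0228973265234095195569625236900545399187683586566537195689213271346362765562664087554331484515539180702014933056989710920580474595173459731315772806046125520508704480190497047820632765817755627508090416757999749581640950566812232527187139302369753715006753284905507236718382205886315918127210429683057159557127403165704303293149842241677856983907601716862290734283537664330455549133406639867872967601093825368034649316463529017193819439849155425281215792824054666909715316779865213946233428403256667232196058651033466567401460324150970042965532254786668447315396216681887216952387357248021446225149367605408097896591384174181373348563859127753025390396216312144634473050418852390200853931128807016796097905823315678151010138159706572134269234123703855609399248713172602317394368788379987635386642898162748626864963584)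

noncomputable def rc26 : Nat := (nat_lit 21147588277900360416685943393884803374105929405410320613894306278355895046275286927429547611762885676668930614129270096659185392442821453988097954199603911509013799390416480482092318219744107783224203742371637444120677098877645860151678363018442883375150217838324882546043489360279004433160915337882406742540183934355484101042334563697855753676690776112940468076963615646318747265931996730140135295976308034906728118827274767191150528513448423333467790906149524245989123658208657533329694356167612581462803207446622151018551794677099930926399175690802424264343307485420421296099252306748880770152697773622517920203196665928961567914611562456441362900826519555965533084975308291840777385911126524673357666819222022014878556381690020562497565453137689436987156895185394756715354557373692853704856846221900445689325850538594285163090493379666866287598021800111109659365183070180669094272441756684534638137052527662137942787474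631804965999348139535579680668327034598163634080860309042928929824722132820442395505944664105691988217049993970904123366407035890448457281334835872693719314586906490964538481453920724287551713751473611843910954904195909597851598145268817979880652277409433005884798201324330606552918224193981673058131575176300345563470535754820108401871043796077254793808066507930375632817056700879988500093039781755339906517112733962853441718409702216716385773936583110899915927662569795269426951798688775769483377605364184989006422638901799952655994260198683827438353100166558488423100094791645036316043019914996902679319374526796634696539330612838967621691706596146704178502261028901820473468467689327009202021029558736075706554025496510538843632789340015097026640073107658280224133159015860256194946734491028892522796492953067781416558841605780187867376061197600125733568724001834130291077951238396095945837455403009144458863920902065267483140883333290569811020356941608274065559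087976967835187449146678967986631723586528977264189422706347033171971571176516270815773645825482048435437096206134133544510078573998402897926634730032764237561002984487387550818012794861162655419787510706646226357290428546773346511350597824025921606882273795663562552950321751658424235773220418122492687149828434773403064776401451932534975063590539232224365927236930072641128725457876173630054734593425874769417037843562155915718362928884773269692029504939595124900747546429806040591522833251676907703883840603262058689255265337484850049047384002334836403752041903072214155557722631692278840167786741181514250685482717478864226991579736263222274327677999299054008432805799070123374702663840441062317514525027657896218204458093715614689928492412926575842552687663268941667458647754856254745112414883413537077788557342443750815935458101651691928563334074740191125031276943587939138285769756291457580593870862749232139361412413873967136428577533327293089546992004277701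248076082791783701196145785280639224935474715156670177040389680736480105167165953487187220771232595362846610388913633334587389735515948325813054710967155034268177188913286090118157426522044522954759832726535700333382630739931338711813624342546354469111149594756094356800051924979796869156417364930359824998747876891962822608788400638178261865197320931170691706503579493245905814443533295185906356528584036556923210076073059946384803212395068791690852776886326557616398072490504492086168390031415441313764611587282309808696701179518307460561331477612573563199880545637007359545116742303265052789607112148951348426305755732558190009486921386777103863965951395173180067482392906876831086391454525717348961574258966502824807462262508083264399864783564831523660576430631835532755470656639568380647175374702409899379647034321168930133205866043256055408284118614681784474287801311277030934911749499785333257400941653450651867881633401471881999075260501905746210427257706952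038056272482164760707272837326078089454047509252313704275557172360394235517150934707788275747424332066286017638197536473695235509646764794238360084907281368567420795932816645645732716133672946692718080749146692894344343259066979738133531926032296962337163648301238099026024823271027329643452377833717836352109282527747493900459720152334610788170729770182435421161100369693142334013388388695071729047231027488839814812558897183018103463977833186273396072273337011613188909480899346307610426254026518793839728132205814494501214744558194863179865441572445730316469648973413906123320346624004599216136604033656456816365120261568614207767317035856601435947187137647024672850514915623962413275971648449939362121452766527771815819198737603004363912437235012626653158107726892445229573220815412432130023381012665505079131232704987772459624118510181197151616418167881779434260274434977207639248751279226375458768731073005278494044657099084844154497982450011154422773719511619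115184271177597782054130178225170717877705071233724427275103783943828005090361709818009164528506453389048947885616521934779829487085338903678637863960973302105455282677454890787494347136299183739104149926205569336398397934094938030363197955113973840190358807719589679954771971582210001706787171665934541430287567286761489488268766094139975147680767440161362889338370774165312061114359767520241582949366422142042140758389192785846295289181971166080680332458275336182368844547014641034492910293125500109579661692312550045814352797091548181895423771288188010391941540799601019188751946042985825026107873857840921826601784687873631645759857460942561899217502145507608790402432992766802447939182558101315836424856766008677308843373999485297356491468301581237068108919978923426628073328197464906461417406449107046658795846789387344770490598261052478508388405339141923312738475704343325354564357377701927060593558773947700616956454497482840028087571000722573611902688715842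860043096588236123001798141045952305929608719483997325141938334975966126811254795560196671356294640092641269360849350623095520531150213797290690720150990718309479175237337017169414968056041251471736938620140645484359537469303281293490942606355132759722405674882435912100755703960845854063293009142179700828304601053312274177097998698773603155596465537986792200692759933835132165189550880808862170681073009997160995391765771906412593375035777301712940274644933619319542973756388568783182135943514553033253369219497770827492410081866149584586583813824750559724417685547119038918043956670022930423958017316424682601631775282560442617898254013248512290191572952477248646814187969771594224860917236881538028492388972528992151878325706518404388055196609733769439292617254804708592615556214448583194514606877341432429792792379042988455692224950382712359618054792486885769797522130174818394638116019828665239807192041318359676068340346997716256271989983880124384621401059794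031117556428270639763033496253253436978320945761082625622163865924641915482690003318974947992724382301744690945597975912585507814048266223957584180873302956270995194951552084347094858118851106324297024751091612241590515947255824945705576894288548405589311066435818668887475268538976403210186689713922518496158476799549934923225227389567446936962604220370861948348579353099635632544465742609996249123549317529041538120564726291189504368212675170952117570167461150353788775313477589571657061507555026701351965941287900323547061276708226974523936722011953389879613243093003267158560345615671564517711751594032376207016435532121115723674730342661390662550910281606050427118572201285275163862282022182155868859107729460294254909457608555041273525414400049557758803728448681645143956917957631114983415481712216224978703843891385230724133621431756905366321689699647734271528670055614970954180921589682234670727095841916015199862307440862415703551173338035729773130202992743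819798843512520022063540534927615938114118082256428176166099793314883557761719460252904020586898246451570431692944954715751635033307862604837448590121585463434049996533642719020123103229194754336100167206316853163515382769646272519170110935498832966327378848196907060197088346945718027658056455182458033622025678877571893356758565252796366775197944957884632590392082471221445465591018103912828355501499226891254327687536852200307921225530348562904354029728440766843975439534443060749470953571040335402164441961347988978678251521572193364793188260846321881980452122353939457076134636951062857627305649645104646504468313938895013160861867750531998150817054832834298637239482998965517846053710027131277727306621015163380837890581498791667787951610211660910471093807171112850228533755356013495184575360849157036371382540306820115830578735533777789820266321763526801858149631848390989353237969549248901781084207595415404972188739516264919486183116379894798992369351159720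618117941893693550316982424849703634890856917581534772512417462008507912079046800431129822041139883870067732590529421215820077120559479184236785869079088796461851903425948814640132747487553896361010254885397103151601371798023526715759745354256198202473615533216078870177334797426571877224830406782934797321041703468992893719450076167362883152433168762731396557445160265654225125816471981178744242161351851792693566422436045525190299029999983571128236260881901218894569881888666617270523814153619755536763186577055134307015929940616617433041266603342967665306418125693967734886830462215680851791525696041367363019358392682326998120307859840405270396286930382012117966383776043506892939552322331899100766048410657517037744508291455783748012411443701795002810064358913476061949607561641208273076204475008400831500745441577398666617692637004241151555252406962283336433882741381334951063890056207901726645761386708736871785859254698371602258987326012116627075190653665648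903675851468304146385327302959560685765242876893561737307114066716104579362235102373022133384019771339108866082215358854560985812253814896632519185629028455462415346197381982591677478435336815904941239263913519276956539476534480740305213851575598138895898009630003891786444683048909641135159588641436040221576479830940863872605359404297166161590059783239761792264797677905546104105125813912752455936783695412143781752457258755661680969467359706900536742970890654058719824973564538881496119409602879693009104014475002701963018375710361774839317276940116289000117907620830231282413202950390188004431197160057865875955051108223197331107943391154157720590206992215557674477109605056900598876063325669169822895143791922662684100215872889909771489276180546534534876604141429946072178847631236104002206513361089620196911321635626652285139754488962531269579157644134412096598077486989043996569591166612166615255175126669576115543633531961144958419309983246437079866688642679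341524104023248372588484055101358219732896964394601013370344387526604459932337416038874260116415805472626819721292048517377593095663866248525169658082648377783325158884817541398160386961254857720628626375720821657192385967118703478916403263262467452274166508810361661616775249469638543167844309175477315445418132345933227169408373998304098320177769440023385108908185466365668230773861192906004994470743109513327618976148666882906115082845456892367719477093230933976868872336629013371273133482815330259299236860684371412605951223125741304935219999950463415397291074283450823067373880121886693506016111585039026264271321596794044604986864003741643160945342093745625361806488362909860953122420587920124647216886028080738053434877033319988797108242359432839585624183184392455035860057129964358466862041062508012866713398740362326671132210338392442013587908336443217071983862211111511498335100853621771722980010103185502774365797220820950998965988954809494339482274052588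615464151967865685728447624057617913936917097664613439618965095500874161980128936500838009261957397157712329353618575871527987850651309850332220333019094506349741563657223759583235808682151091696092223207648564215354254042122530495431011495038978556834850764608843904956342963348708829380377121419434461217548935030071578046671384087873247314787379075115038770858097291592465731199422539189036434698786010614074169938249759593680037097803345935076238378825563273109016263382526129366111607001485723391315579296287822369881260204228920872634576435127336349652071579267991870940622783459892374184292141371031442182552971335462826569016517586818974665317116662324973042089511044726578706564698860610263631399432857051399423799922986618451800472232315965062231071378429630104957055422466668418281416374226100420639547047393832475028651539175030080769845755145208197433714726693076153844833095332334990192032065732556878612859051701429822312042500302138844662635091750541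335548296187534290792449818577364458535744795624201222916485120499552982574261004862789224912293263554690029330503066943791077341082729092107358472780784787001794456088659782571886872388149811687708082175789524709209368912330864788582082869175264890601446822114500364840373929873612635692606579016706768486665337944626961003013203149017611938928160135854643317235994776536186875688867788094395083251000321254555846411533596461002796170237838976867476995220201438547118868572260789538293870326948872692562408440014002346963328225352372882621827887093056723060976222488216275630617869945285359310763677620238222593930588863385806591983300271759545095916858702104078271510336756319163477629765232401121529955586443992515353240784733653892420731392441572771730604458666036099162898335373141152802991440879580070775842882417852972151993554666092454187913556005575871011318945560574362604803843025162086317248594207831935214567874324429352035000653306526417999288575133903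560119456963621619666831046071685273273611712941483334754748576160222093818679433827093694812211116797444057942453967886984114524175821915361892248679389091824995145039480997156310742573406591201259669534207711743835438533926841620673371929032615322072655427746148520727180556528386400468857095911608595474365544149106458394478223417938038106739042727080368535261641487157927126819701986155084209598252588128401838520965655886458561661667128617918536003418558140307739988546625444834443678190694168096607930093907343257327435188243536925862389938425385326626572690759933631618021099693945444094388480470539341880535705845426385904906679011883608994649994007181731265086914311482775030830785353587201584006626600123589521290856555460022561703886798529529941501150064030133936977831659504510344363629436112156142836758804511377523364356134066811545656426447030358064033633489535059110056713843057544316385879965457619246676499724648411298006285122741306589739255572822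511782403103903075553201840672580268319946559371657200751823845211719386987070576424327162043865404756754638305182509618113603248370413284575059363479059778557580364561351139113998642883407999389342203060410039690297555524710347416568300678060324625577325254501757466453667878018335045272879999834725665767001163272839830384383843794430377413533245822316195020923032245556573560117852952574957297620920734386479779528451233553533435452401552529777735567431977659048113384984651658186127796119488342797605701320480491863518546594747799725975735823880446457109966606245055188834108120094584056356654214347524904905402762838151312643170129818058943122450637453707948137969993581012130395025944938960968654566273176987262823784108324838941303180505994780926767439020172044260735861336142536680773383345412974047563015847889967260160708247725452130198424958241666457642084643346489035329492608275188201153899642748828797452904197459557870507435114860715501168496162176795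640678714867450845429433781754998961022319733346108267999630616287156746774189648782991144516356145237231303271576065192948234750840899182165358443829604668377288502813880838845325629924314467371252715893056899147370414423305811968686219557775538999953093004318450039590120058704220554618686969050956625747233967510257961268400752556661346534731638251065972473976243379380377035930256280789417019637380067785889414015100866620478602390380030139180225026085758524684503893374925224845629310316172714202530303666275204658503875871372050123394954008575685167224264965949627491208704404130436428630092185864585428149529235031044990424675584894130552318478176549914187051383591939220235110994298133561880935310095655732684061045679386002927374670548042675269181608691245222909751801645231441820451642111996738621165316912281297150318448771048573576386316087971886947668233704745331172743109802580499362914541385116624437683549706800013847825666251236045281880298376997229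087215990318104025515553379270318473601985117262332702712659653726508541451423378205044771246435731958691788255855518737874547117759123446871574928829365311235817089279398798622240400447622857734707419875265450139945954039051113058051902850866245836797833795772582430560791756367739988162577525515470262634500142022168842550923497298590504356370089830433069647962921609250067204745052970204188893142897388652137936090787132529103904914323729034720532657451827058489399593170068139956646691001905547522157892019836486222293109534447925484275978239031956523323482964564940552166652783940436814646472366217137853340693032622097285312716756613175265319357581379670386029302456582593798831273937930459093171667863533609054520202139046000339700224838584640529275416265601644402969058386546458736898353503542696423433620195631597283198407794414969024180047651185019888613326105020902963179899440191460068230813854614889131808707052640445902587713002989797350963499963217565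2893945901660559471013406237150049478469154349286244565769566632163784197751425948873046874006698000737086682004327343476942646914698475057593108583972109563326376154831009234512913005220142677098347372776990441439768189528262065424377118892068972452187658356819092421540236948080433547333384873255385677146659949058854821646302678037266084222485085234518984051589064039204308339920779994070912068144308075459331053297402016592277346314927206190735177918193355203647450595556932613144333674302919540330726474881630920101734829203726178903353228063251939227545199959912450693277558555136218750541798769076698761835362357986701800022665087079426892225449102633151090028933294490372921424029539581816918020821381942051570949508971014933356745295315226573633093272737752310827286756795157200175434051278208908494907637760)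

noncomputable def rc27 : Nat := (nat_lit 21198261757404624239292785341673245034598118534083700415302806752755444029805941542278564966535482134873685185688106322282019650317511252774164135630455212319025047361796590621031781666553050980428805998560068207856687865945054645982997096257429277098317301392545051782829497994990430457535165633634740121876056052371106499322805791264311055233559435836413404211912266170262167661039879924296478203722189984006518927547490214440352515340762713019233992933937123477238892584742956230698627434030209523350032892670660675915224982133563791617428466963691456821637127339617247483698532083287640723559734435330478754764583428232308341731979595826428368736557317204256254221999403382314919998206967617685949024791870422576038516458861580365732590199081231648918040680302520766572811588734369724551444340193899061026534034057822759315445137734585458746705954746608063890313961057400456965151245433071825379831167721191439437277371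988354049737580953449601254017494902654798950319370005864180531553783746957377554229542838134818712821585812848185791459520524068590768171812734169282030725802740788785029253934664568696997808196740028295153508134090844774652189773532395204656312466106604242851030884074867522921298724467712014802261359739419974064878599759897509120379718694729532927855784245068545049494684097741645707265935409541739449950643651172609307138764877707717986939889329000164877639548135411560322215709350733653313102467535700869182211200580988148912423727950296646493758081551912356554502681581121594082998222998478699317120343361660738659412568590133315225981718504291537658482073550840306615915020000926470259150317982098590505375023734158184807537896375654261944321525472578135606752137075095350807828559486874054765388425459250492099917403007235444884417938097741063449216960162280167665897273925173938463318400130892840083747178972260680134391608782434183448358045668371082103094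096692693784010680208601151359036553391521615381722848703380302773382212665259696926866721378807941122448882313447567316825962008985648221156339254098719246134040889879727667459617076073044926323049564154975278631150720498439751988279957075269106099059452074306589348807088523877922031506573174364991559892343585346361602912845106496115298711716760584502423403032718877167512263382312903247080519014959165509359724235332635034908662498675755223369360310950336157101448414432889667811437106796397672706986372477050537519807069836542607475999277025828744691155999859675274823141466436600880182955939008471840233541162820755088500438412485016467418737105056621875516967523853641230283673454176182007012628390019999858948307644777376303486753776087726014931679665335285155837764862995037328957888389469821519596097326915369350756489322514009073412057600973813408248702511752189249700814611602209784202137264724305845624952462406757836468879107131075869448097661238781256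989301475667700891938437701008900665531265510596506001112203094728460389470717601212331479189983567084446680634275967861322351324378545732856805686872130591229507591950849412195619808326816176161103905803787695586663376362390760639881298386493779144123656423078954082422095423590693624603512634565962673298955450653732705871614359672681152522727010576428240292590512145742069740916929893625896808765783874881750741344431463180127446111123015162331097436464464927768978560823270883342843285253889275053210572782703637376422869925777549430741687199228360192394904741551267970532053839025841609146391858021231859401198239007794490444265326696246871831253640634042891808922695388742136959742557489902659777121516463677548379790679403117344932891928718356841716217331549434487183376234873903129356513196434165443266789319720915937607104739464206487623247235583022764341079674414152391977733717823900722004048963272627595426145806651244086418598257678122661636629989910126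379581788267675502356803017203021272381654628297074325613641890716004593228082568602306178287408337084047268083977055202129432612753116350604687101110279505762643761068788113370650669298593009755144638390364983500018704248114508265794277159579730031099674688789560974055190742812466157307737428048132110190193204803661973173546736984456812805841579159610521071237692725273786541722651131665642372096526912205070513868499398531834636034998455489762643389590151534904198725969360068557317376611437287955975071501023293996927781979896069164948983642184200541700086733977906258676953952708041351317964731775203572462018190392969925247747922966705438890982119308171406979015933192039469537421001199225820802290453745707631811690903239495976600657393993479278118292827504488993764785803893128112257518870847139870527625565634237271963238156062813414434755116557079922280491800334091435237572226283094741277078418347211190242016205142404756047109373359410584673766237495710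247085952767120635321789850676869795980022119392943461967748957379616763196244890423178241895862962929434836730932320646228233844879724899804368802818247020960809998520505965811710772781029569078870712294525264115100504411499870078267029457200012037553513541601253544176869137626914725605400930035984738595606487424855839543998738697522269267434042265621802166520100393095997406773317274509693880792199027943829677493516923147364326603697956157298681312969021700907047513983363450849637077111235884083337702678921760408216652176457365785215717389228045372057161183682667435544580595949996246053778644395375256152160656412056181421389432188021098095663460704409315380088869968476621492967626406623757250827007422941205186698871495203322039795741908211143816919255528871336408090726648650365483695914397331577666298321861763171195302155422768980602361026276797515999605526061531370218225000541778573864785725159392073490463427369911848020130186808304937829780820405992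355786255828242998925176350326472533648728742695621749381924582140241397293274699754933715879984301608649969656600889442100420392628855710413331433331816513396066877081006478749937790418123657402738580583918483307278980097054276674070487892418204474104502124579293483185037442779899279157272769180443130671803419878814032887380289945757462015069846586048753820200174132674199081355166037464744502446240159045895282860962720178798416392439894458565241859826935227545760095520917130786905853445815178374236247675618092203720808939235237650721765977928379781055391253063866735239096490968785311360406725696061703461970779414576685449045536473084637085727306738081965655118720827489947816498335105445659340080449866923808629876163815128088190169664467400378269273981874670019055293546558694519963955161557706770570838017650609596026369223691305220646910783341221353025830943933076640757698492452070215264707847676645813431967199178312032117746985530430704913743643869023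974007417626414569736490801750655937818013295744292808764780734154707531204404625464686313343778903165464906422466273356066735833848152951735470925896216064134439793113502476760870196060791289789404923850242967193475557413025152911363361652379492627074260788350865438730869713640660507296455143927934830117115949164034873731634193059119779388967638832393260910319019839007375417278341191976107236617071636629598824765263520739334330782698867767049383884531893511448316438183164109964966240012281165563178923451455348352817175574707713956440358680078071258137941285123417039538741142621226938095685055256602839193075425468068956233849737785234166531510463608743236085457840290458052663340341505098877000141174517922566396782851164947797912889560843038639799951090640932596128356473632985366466297018674896073786526375997922044183071678949052431722607898092369354221404501986300437104884517463847620768868704772581031113803252596193395428484037324901585920375271385639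858410458336641799384955941846760465563388540913536521433785096049815442015972142725776826555572232103865495339131810158399569740752184095578083040753911661330998289612407540277818962855847638677991299484052173585385033463053153077480698294106649756714452052500671212781291435269877442130383839542698948777254714625073198328630327625756409811014867514493596922462776925875078585670614809356830882356023873425987097329532750817737907932355402648389609295174501573883936913608392638168898646312961965217160182202053051367468797341816946123060508304596611535191354671554940427569619243261713678857275305385093714949032831144592293581719269815171969829070006081883744765406236826780655804152363992572396304076613008520091109083814588059436072905443436529349592617181506562546348650600391918500551658630750363272671090097661206374820957573420263233476939959469288966047139210652301723552325859666582458340948120706051440112535219035156605453735033346466814926903564788946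070912927138201492399341215075057429295487261601051162362151118434205786539355108273905827088611092657548287174083252091401547357370824125430628932766971798143292451602092867640099259786017357721168773214253506675457089138141275862031434251789668961382843426751198600462321453582665719429088001157476361948850870769822539657932038803428065333759457172262833222164432022353459317785696980104009049971950984716803568012366720588641827678300603107901245409541250035559404344129986776864187686649785017038220610205901151353443326140709732074133408274984866217202608520072883369539050092223138720726748483702392319919508339232593379350844404856968584122996000561150960444353379709919243150612625643063655283170352684852886173867982599392977893193737399210023439319130674076510437795510938980996010193984116989160231892820086149904829164141405726524419953422288195893213053661418191334890269419651933237894605549128394164963187306692836498766932382892506763212738915035337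071728025782090354644951311949496076526879944587121455254427958301048676626579008861732105641313026842402415285785769511775159200099184258632527908631452413861812067450424295325242528333291305062741357082089122029373807481275388925011417102563692864139859643649609417059120879810074319566979460527687059548143001066972675491113223750383761793755090121442406276037195476315002555062101313816513792567765790521280388777368036683014414712866731711156770456499583236986452055561525939673182073670633830822449034287401416388762858577202989957873306263393814781210945800627112188789646944022223691129099036945870587262741262883804655754258222625786074082566539885855104426579711195582693895765351735910642167139327598318688416140716928737553711051221523767724920285508813446794683076045737225622133703103880853703352590350685092457241087253815888434883542037794072859939873137196466889714649341134723155055550496339377238170373196840331987605947942830143659498898862766852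496300294574890731967348951814081314529814185145120630350262447811991328078171290309897733150456828360824044022779419988995178623932886964756804807131156720189056260955360409863208660937368275804914188108459867995401103784463381504161794204052977389862954911870615560899984606441653358464863153831166231362915626808117761027150550699798101939040403954101390759561655147557524771388233449309175361537555085211066448655994089770610496665164705786199528257239261304334533360460895680850576100791689317306823069906379731919025447119560176841193704379941456366363854144868773866823752991684533261146103734194060795964500837458103529747519968384663053141974194164723922953118210573924370976243943194419539394207027541050883906249250281873652891173172504220486712353311807371057310886510629884868973201187920538105614553816671078603693973262707371418883514191227941506775660149669472436428961516017479880581262851286306515396011788304312328933028476248233657628706608554557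542356026929302701003011815135045022115480568908126084123292086603581064758313934989793268889478976617759112205441621986409051157119627301763751985943160449021304296902187889192668838389896200951427278143739083915472396548844705214281646576838212370523682223900341795006326704946067605701539216538692057255697540332779384102609651269554952261065498333773750107837165810150841639174557344908860977511532095167395276845334859952177692521332940518051304637470115282147707621611525445388932148118085614250080208356754536484646521060419689074768079838814913607330617595543544170152338428235589302999724432927066079168015618120305613135605624738220110293593935245678115900637304139184750516342195267905873559583885133289899165968427971403278631549683592366856171830249304391282706945057303308705937646287693203219571662212887558057540242728440157300749448392949659351146175958076539649000275313129665969576045569018286633594705423816902255937865270116400658885311191184666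340275265517704567217922031715671179530217870814728738727122212953483373212006723468827786550635904594871512345591336636027391188958986646884076560870631750033227427505456237282644410469344416616936146822013156639492439058928976657787649117160738103808344538450081741866882163218844948377191628956691489957643173285598016687428972868275044877652694297008047481413331450293031278844414808092599446783956502283208848038214600466691897507157559017463142369300594137474852625985493529667908354330874110954601740969802879700696046237245424195246431171401558708370082842752525633467013900198901496933072879431408816274829496137212346277139307292086310805373006850584341605941563639367259702306399648584625138544087358393673644293244974494370132509259513129814264470815991379990907455749668144723900408335212609348129313410216291752073585193790224094067483412667103835694601258052151923283508054068466899660793319811219459734984421061863773021676409777139925624642257411167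743602285421928271639772057967421484038796325099774370471098196127572963445218594850629439971105455000533886075685010775527724682174933687287271705346536366780293161325912685194155943900343565933242956939266447406414199655580389056522241922021599877872617497507881427363598635125057037726610036814121894320970342599347138826582270964023319958203593081444877290497898040941713893514278751483307108111285462417946334523625889780629802426939924385217103265787677072581075040913614442903813808132031934342857514458537462143015468581577573955213735625256639632562002784300682858601807860848452977121370933073271700218419186026210878432103888909360314631118931526482700084355238295681775976416740710116189926080027445565805704753599789468880977685362008547729876958150750105470800944972245903785278024990203436137979525118573156702396510783733316753709783989412163545376440279669379172200405216003773005896211060393682575313765302472723993748792754178785456597883057797000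617236310952149101502487657692420653514681079187065409302735992522182160584052371039665057676231994498728479697442629448700488684195644263552519649989700180422152627611739341473212500735072223070944266941729693501504786939232677876502093573077494103785725719958020764089852173938690064540810737997526255603181676105541675198162489895238942230293130707353882439091338982446382971359379872205814751125899695714847686667832455914032128572634836281455014295157532982767742805373819253681828701055295328922880577320012649228355410286768677501819519219387521000873456435540505050905439902474990843009781765453320574593183608705141204223795235838902589757611053557392224684406136134453228251425862419930499334830565525641959407350925925178101108226263338665032461872295885096917436860134498086454896727176378487613529494225592612069777814921482739746626612856642892727913359305516312903124328426189169650127441571739653336226514062955034736366822841484520223247552001657275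240727932551457945974873458039844029962909440183770391242651737480564830887238491473241315093701280690232943606469144835344182874082867932708807594517521346406420383503170486962654834317498591800532843878493892465282047711763083823742397125143387726076258974017015956268505005352169615573335718955609224090188335964510176223359914721075387243813102404889970678005944820412715602870049678558009046558146342296898265230878701443244265872919043374044108425575868213221394092085189297489155139917288786947676817324695066224037627680742713907850096006749934469209513127398364814610279728496842294547495343514877357370760612891864007267748648550009380740077246249836017957167365976360364481055336228270006326716385516980762386759948231175214841568577609998888262802965388395852887888222288265556314207006280695528901785389380079957031352373554141717755529263959898855011354855650176782232981602042246888954950251727124290985380354417992114989833539869638638202540372850548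469703162856853661125972725632639574397113618129472098617602619045057229079577412571818230623870248222544081733802485087685531301930548941161266221459599662451923217920930357699147025133165935847818351288611640590718072287924544349943059949127396465973280720026467067394060259168116105099532265460661979996300627698384396851565136276971783643362235569182080760790604774089686828960456993716358229909412842644248882091903120407192625666939264855932750169593102405838369494787854935572739400082415459226358443567972125597963137452648741732457930206609353305905813207720465248494125268846495746872859007521420064835468496112355154013002885586783168091021695811201421393125476215522884729028326788893717541211425504799412061593139485906895187642590276548459472664649622864930433187067779844361397783354598569882232110458590238223363229733993131579230967466682816039634706183686515585226556805965062011934911495252630746067565815443701214167553039836763702388210179068836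0923336730700812180003497766862727549078666052069996622907992319365497983565218373377036517151151836278975283987439068328497480815918177547249562741828142357093982685297741301627942316420246966137482174226017363585962231474795250183391280414188520021031114239828192311962385486600360047664649204366561907330479995140548136053162401813762298468087482138201821932218705439835466704382878564348242853938775731064443304086746261771664551890483585380625777701620089282893890926231745348296961212500061320029504142104666686532673069304565584998417565693058416741740659391093793323265966401870950328114042185324481536928046582001152778515664037227016628742125349129220643547152844148757527578096361407493418437941264703325648320107705405288940480390358166874074232488985226683432410646740247054836627427356383128032641024000)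

noncomputable def rc28 : Nat := (nat_lit 21248582681504857844740468738642069101119554082450828308440958599642180721018895504030366844136524234234619026000963663162153376031000632542646014238557478882502726050204215868802068074591471471272511880178143676492779462666692554112918874906494444215558628611988821143629054241653448466653389756588721659457306540774800886016444452010493151251040143285079300096735570265555139802129400422040388401214171088053103473080491252553544572305469000356438617836991752923902289716540235165235236222472174677519035836263682306123949112534044949661734044265088616013772252783774945052916011477552224446476055462650106586163181588960823470904405580430052733982204785627660662734477752753771778896830917830023478313946095339928382325029489247439974604515965089212488282759647287082640721059868755787336225950535167619261717686854929332319689590444768450829867425910481068059259263337735736548516689311175871355307529696599387831203603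260666732667048141647032343446451060933648693068492770090600640697662941266717691759519727129597411103896381653160210964698231605051298248726060724579681627141991781172030021386985014197919635906503183935302040438326354225630182817649333865372614755592580427114760287080393791289335382328536711917569138372414045623739507569845400287113282400206034345843969615900537187952514293055949286955678561252504528322967518514937288946622262349334031126392975821758935023560455940203356768485855549440178675288638699166478629506197108219744383885758380294170433210983705331831331905608656288367063169157396268495405588306225674879994424348767269798808306377750925875956386024068482037103547346623392002674930981794265255980441463245046970294033764612265326972017380388604059300873541893614933405128605530419319204388038586533369941271730506123717817326837253050208619210815283265633416165571235590399571662507677323425676630509857319589020788225393757137093252283027958063412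967239933613265906763072311725979320027365256546847977134559617497691332727921095267290849346504856197362378507151909639001411840700999259418394446204049476055074691480990466097701005913879999259356093352179837467487872779564163692153416453148827781971009401405836215828935986850296736712172790838234953489798003160759981539449259352483833046484060203587355614625936329372525565743096594371725260410954459684321899936598028331393453992808171684420771892808905677170226438597406446799776948730565099024028918190945133443272627213793051701177375161857366129194455727009056935340448094711170045960303232731592976987836138677450054525334823661267429764191227679306729463186773907934876305309743370309126383734582781815369111528994109549823563024033797469041100354379689913970725939294623674504372969418356586832633629584680334157430708145973431767672291424918689384415075998396171129599851681368995884377975107346172963851896962527668291882183058096460184629931139323033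643864791350711712977457009971876913793875987382252196166026284490598470089528360511645486725356611382084742207647733962880815542050687741441262150233937361908642366275134679197037851018547871030391395939458421915520576487355053979557317520129105190960689988414259007524884933212102828491735500934702918593370087452234194466768280655883792688246031570677466939129382136338111210959991022285711019565645309010068494453475403730991497388947638159420661576429385120811993465372168300329550353558581024244867924591847919078936025241330555337600409620608743361315637002331930921045240489861807502068702416404093612685182153346438625704284137970784903450687560284822669839971418239390804912516908898561773613281613701529388201256472511426127004851753593735954061549791972365028341335053936728462226293447376367988595082706979904395353881132751426684359753195152705996072324218563908103008318223067749447043310315953755063185308457556143838169810672952915811746263985360024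447641393799739860320742348398086294181578452714890846422826003713107805159103521922632472310121959592053622320775601032046449764821470924637267840522395615970827817777898202137599744616596497963256732688144413501656931891942885181161711222300862115841819307070845826981691910997835331769763071843534845522961944567064550697130525740019348086808086890377609106559987779098418643257497966433456337952959407395298726662060110401058735952157942622322948639234164859720678316481071207757527578150047676754561163611238501945235184047075144108681437431507093632588133016509773582897278207134925078886280230348343807880714977817351868293417403620110426013739270221947035474773524961006147745395658369594183948038591062437481827834911543085967490198583180985149883514640738289649504304244357732576947897940930005228580492673938096233503709408470687731822447213889833026561408490500325744808070029664771790781804708125750627532356480959095920556914700165029398659854776058090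963565448135830836464873894021777087038108708849358648075960887638949285784764251460700074416206212969986529764264460850732904290144056245688386730720231270844506260007413659397922312287686165934959463670185570101043985910067995816470904975407984272375679315355651167747046823123172614576884871444310627843365412868511456813973741138532249957165775633144392462074748866350509590839164944484921872863301428052062895685924525644634328493853055907741396716427668949293335342392219983411904713506960990802023563898565752160243808335210041871809808030343430858542677956467264598293918128539571230833025756018409228984382883623988926787299626163720634514410249007385213282084449636433170921624598440232999229983485386924360092603780901269287679481466501724680242579574216568049381473580094028759479548626778331982480208923881460623963569454434544181677543726160275918834984135886662927404728263861225283380134483320865213872383309476987782344466891124269396252095696908999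985827156526426317138548617699982683589114050912934414634030553485376447214797117110654366755206939281983234330336452282333392874044607131653503755639574392749038781514994381817357148377904616787426086994960235000583081118437702587770493458424028309439677495731299998922338040448191025851991666696408811666498497409299071285959697169130425352815997653947169586497505989493645765136201238330210459708346643339385045516966631995213024088941509478632826822885376017764089784183223423443015533443379584533683931197726130482886795947686270697062311066836103114287336110746972509985914816107571864958528322920406305497772445864047379566607011859275790858669617022641344371590055936335548387769613741048503667801047216334518302422188302516620122381649392471006045773489752785515545854565916921592204157710608687194117039417553077093411060396944602734718408274459286514236792711797401197181551313870493813850163763088495105883393879402341404832043660977403441022085648241542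500390428109043900410047483333691564494917007477494665787980670051678616081606152697129519501581908226326176455920719558840339699231628829263521768671659484402653336068221706023870152572678949773576819826847868493296185500578880241300486453086103146022442595227698435283134668101381966129013310326992204304129241798059151270273008002116850862175652572893136984272591883211919461434501754634012770110160565940231422528682299563199900017245258114787522600008338754386018369326848029658694082859525010653890537972160391367340404613267103726490730124027000374539639635564150678006013040612033539381039995098796599176229436465560099259919459076893739930473434606058202635170417784373081701356316319669883578734669670880128943627266180177105261182376002458866770082506306105082201772545104810054487932998874962034834267248497069026177747610059106976416832575190570877885761983107916223638328999825748802132511894384927939837602145592327510888669608032151402841653116925709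897159516093384531482560668882990461228944893710885668670559411219332526689521204114271081748828328158938339305799259083359855279346178196362745681459887839057021642517622300677380836029016963907563412671588035785516326259038617188430744968873987857006872687878168717893839715294487589754997459477192393359442715178620476616327609509343980924081717217505702691446174310171380692742412749560014501171663301196539080487596565545817827756202827269325137123662305969583265184785622381310723537075532213008716985686264227903520879677202905021114337783545371960057172937403252574311685653746161297054358126753563784702014716824937179607413806333660829567677548499793070404863868595914074554289624485224816378805926558690910886850262555630517962506672288270231497643332367628897091923584746956155382689542700278317873408642008007884536796459860505558565756774040036420248827839758158159494655112346408497450793595370456629129995946312476696866183927169099035089233880651383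469700564399865662986035345397716845713160867203722845662876116452823362529068585603628014359911798144543662043910242845386186525334808518175694557214981707209690828969069701590487950806139626969154110143523662341087567065986325779011126845776728660796398723113094202514602856939200665315566447297009814041269657393514665920877595577394861213231480788000505087396177605174272546140394791598980150143635744971890445646732163723702555540212150886147275126430009511906709253993137983600324626141276321146321967012869414153799938623404738601530951140987297957057314577538149749047348792306411799303853730801505676040326131440785884356587144038598393354277456444723622188254814124900536519225001809875786647162075254288837563964724636700145227004666508830160943731080187639141084037300580910670476655096114554804905273484049759106644363106769769431866032616714445856231872320108795305747115463763062317404952444696922834619941725861625313369607908935875867600952190953288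203526153394499688034021271725883746499561091376345071192528668404284584359094090767022133321969211913518329353697271092866319190435694207217345908289333273942090704327285483413471491133545637021979660622113476396647146526764062291463772571186162549018757059135725975406706034827920345762457788091288636674303116496999865281884790269534422472010309960704117174822313788592021373288188813208032937549606374210744514362546712742963043137780177126824935000472675597986260510988615026809591356943675754408648059781529524110673157035218013144429325702802931834574937001551836127208485135453700025103494036717473074215040306750090583162879625534376876138617412503714402477812294056897164253193452670484610468632092689811066573440163268878666420986740533316947300963003902726871830617646715287960433483320738317625924395492121935703116994292958099978362605849971714512079261003610185511259702568154863724061434948618597921380140891147135096457213422328979815814931559398883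506096242521715411077979472589644968062431563854604624561307049249568260627233518465192082889177486525182894579514794688445247353519866519352033602240899030382295851648715320318192522201560710831769496002237411171662510471812892298755133437589448052300922445602914316928715974910114169274722770640801183516841854862337707890896605519621945711321052061479041988526755824688813452242987714814062521289601634378666310260343091525534720080061725795204119332361823445832178441219738099124218431249632289244987539748956588935578535370419910664257647629060087204771469892554451231788115712664353500153883555026604145548526890008721516796952794098170356857381781186652444735517646775563514825928869268916779688660033335495832916035371775103632079286524769590529131818089728105061751811382294073702370719360914934791005673241874794528734480942224294404532799543406036276834125985737406619139736413042497366835222841161999749991452073352920630472673670909077633739666343030100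054959646030830561117552012533227955165000171691272179990519237929371431249398166280979182012492662008172105804724816809393171408190233426447877380225701353578100642415723570979624312895095202453890577322235166394784026605594508160780177551739154146017281053309236136771919102901821137378281850945312899960266032151950131404696019909533088579254845670273093915944053847711006641768930520029615004891601788239131377567873016709066011475846231471983766352854229097181677712389077407146334346410685204591323181422221203919480024640955807832998616025301062797200962117907611347157241845502488426428087435706012066752614175123024535918309385445054043678647242700780093303062063243726640757563677368111651358577664545632697364139148329477063768543720800340567672175183652508729721429826911902808658147012786786988129132856759022498028101879852168083772371745662721371289765235500455589668309750479951846273535531617930692713652224657320341830175807820961285827623198352376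271532273665971773309937545163241537917497611309927073532161278669730367163164051553282276565045281458263187650073790634105325461442052708271874259483504004310386789949186566145673208155316667518936280226259041113413436276368625894855660127132443681511614716379048825921614626964596623141537749797738481987205238491879167828445139128368610383324498125958972881650387580178909791139921088112218865879946614234160333433813489601560487220062851519020433027362424595332902029468733019460951882846735415210094159624140920000491418839788294159016156713935309147491071995764595016382592637327422172013981660469461967137345231846865378658691499601549761605737788445570999906670554348514374258511412675012258149819557414778077121217070134872023057568390945807417635457737339368330555731668891258767850330770627950223226895549914394193077455714690757931184907524121626824143682604568385358730040525708943007058016202657560737782125142986994742271799842335249910788603091079988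625179450450489912764419044054591082803661975774004971520049573840104937187913842425856079911897156231365385750422388425144582848283098516228472652366079447062590774286827833069634215477503722953344649105038720798718083787104994033242852505096862821076350099056115169502612840937800565348031862420856295158433967094332005365535660288360394138884504026173079571078317798296137089315251813323554762943561486559919395345058593194754423142857188345396583039969876202345639762054831591796225712511524785521264932790620428838336290590427392820896848010340035632325060731247946475085453659769713901334565465408366121219306570412170560966348442918778167431439255169680122111403636314465624150512291099017975968613336065043299766423395687853354611398109891066695542095225696256551454052736260976203532174350448044289238759099424834394751669233052406948707416245029743873158595093783281676297657230107682724734027273883795465730508322112544039799565263888012961761266356546698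770375259339858250599173258052373508251514204113349990026209946868795750911184478417594156524905855550259620680045332632712939703350821157944367541222408747056001086411481668380204184640389753828274041094564535776212681732590931683371011411849508088098607369100500570575309525336974275963462381048494801405699088703888287628808213248608838838330074180379901388085896267240226013726177082663923083607877114225208896605823934036387839229570210918582519012694790523597278787460660747946473914718834315386428970739669379831394873089453436412773875482019795768193569724978935003731431895134055253971973057195069608690992872257482585187010182112755523034656172818988820250737831952798954919614288772374229653530730165861195596820905832814813512541018807301726098069666120752906883772958718950964683460430587323610575208868940302060042787264267054020838671499777597243987566451593224688250943933182574569845999923509223700167345081850234198726661661873432700044392102277500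563789183612483247949089884753161751934062167530845001009461533809528368174819013061847903831270509036476452171011769509489916049427908340644187319712556436047464231745591754915046094962202387409749658229899333335452495333228324443057588997400716596927522908667985028298086699731893609676095053403913722721744345820348923825412254932552151367061384316158880825453877968977528332948980705154144511855656721864672506438128158999627542903327177646294024425371552767851207424034758890442853824937887622703240409070532665001845986984700576178201642369666209176321374508807586218150514109232823030364666464047888123088798343711406778969421301374361321385548803954504444590019536793983210851719797649264369220464685192192053200602388685735171041066306841831832985479558050302618839218932322540409849438388796219849542110497497948142055905959152173496760748437119713118123671820400937830890956278645370958611055850903699390603903021710208814622720805914500442908566127249768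386295761492816490291027965797004102301798408023821295008154046762641434123038661322864708396304147214220718935745272717137175850190404521554743509020990564103128350694788473535736742794514550570863041823539759735487104398232264172728825423761742402989471224195196531268420032413699024890050905747739127884701653706333747088984370974512729209596189681018030241127644542275087690961778184239087567884670275104458816043001305387048580559666251667961895850875420257859697787146864796313817953183089587327933027985353948398913968342570715853654385867709822279901522236368149844171924152336469884646191054527411122517749334112196938733859986854354058811727598959799081890708525280107234280562738749030527627253289642665342683891222049827580671705349121247469262766040243759829164604114225089841515723910077520686693922114240306486623870022240219143948188439238262216922200730136237271943018337731282638052613500948703032303996173032649237563459517152168279840790526357449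1718270596601338957129440111679533650246148773776621799613480510754021058619160436229065465154679371619993285699069003265720429041963785370546854840269193965404792794269198735502677604794860541834696107660869703123401616596093486991951527551640701503064806328743479598850539739657668383825467195637472604970288570278951921929611832742054278701938450218930893791229782242300107504558688800717346057814125165991411330952204606499965389166172274961778082867556610053367984111205401294801428945203975518091834568609537524979189962036942373496459792087170199106054939597572596209428530003824793225504285559282363988213495002633234492366998094956507487118372541341869581948760988023123476594351089994019566861240912822112793878443681138048939186780759956464323606706473913208641637470125380833447236777481154738214248906752)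

noncomputable def rc29 : Nat := (nat_lit 21298548885339756865856523424115338642342452480428524003415527763252203554032443813958083071601140286591521665654186581964514248966119691755030291620286417841822031034722759811134309507668631013275034722283258843737102215724236517653706221019092537825280495528151232791137841053352707755839733323725339710284915582275159678436537291497689484313907294781699704224429625587751549365824830064934920437060494740893154963460232476553256641136371743378393985473582931032943268645380884406923347902755367922290208035083422972193849958049993491674471497576693048872070828880003380139147810552825533738660393646672364244303319331583785172513130651587072688798858646907343795321208251937062890577621163855061086370298466182894831157223344735071877000617557049483908440286597588862126799249028011522464569328438784117271832158942604353321581162147711684525414982465054407917664987595950512551012198741698335330122924988748110179514869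122280260044245421469032618591994050350660520151439145428818397852054348543582751349738838143219779441679394394054027695026633218282939844284544092497993381959898231372511753228266071144316945642591029467621946806155455820221150928055160401932016862877550150758946021525739986463290396384031904492539586251498598876807180481755844004677804826617625505975396521297508551330642520115136983449311057023057290056157952770301527027564860394789186048035894092146549092351037545105313841709164284856577512992855078744405689820418327296393591136962804799841111166717208991060524026987652929007227526079015834079411408206155546312983625411713312191415881330156342310685107097258580786384590238055081084221196581483558924093302043421898885304080923093947601641931332906968337362464125070065428387173327996902797112602985778822326520119721377074488407706547563401486515253528469863674926353956835247551341610686696291362683782302092252514426348825913457655715807342062737573821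960967949139687336973309839810271549378775523767488756213876443325507843195835214275325553343992607784062397920557954841352056347369114388619533547280977362973128604697669671689025072695043039241620517523132709501086681261477024777812950904733110494982348838994790213487156463707135203079668059209076816551021371097736442422979643307656631511028194945907945382599856909513517406560921094018630406759506872863713665823109415504634758200091621760613550238232817798254866241760206301534566478876518021166031222034142105194767824326116577055509491037083300939140509109435556661213798126960819594201268179678103496925051367970087989615273724361091121954518901744216316454871734166395054158516336322071230671613087529759726942137093777961296077646536502157120773923880717350478270044842729150364846537452738162833227894074371683027870795922432565863876027797465539184405332644697631389720244769738232900131806810351960901446003577458669360087313978758199206664485398216151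749143262760002843307290591780296648581883190419187484748526709210215175256974562411442075297261509749813307750396271988758392584661281883790888336142107481596115191136421854390296542333253094981810254100306944204368285532683483716893804281861693321856565053982810389012698531365083386971712950641626255812877009738453658569216328420395580227724251757798458278073385750020805849191579156703114927810937844777505632586136680927361318080234559149346277701412531632954705378869166751243269732510050701740636706322174643687484817779729522297890538882883032987853103178760970614851863819626815414799481154290634322461236366586801762757843844154027425506705022479302665588621277730624156667240342690811595328615618291898107253872361833078631194204651478951239427012415954325893196181768247910092743256201764795074135181902965760586380667893531388908926044009040999329216545332290941130760635854943523173433474488934473179359010662791900154975451975392623825158481357527254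188530079933343640989016305242920890818108118621679092910698891276504321876406491765301496402105936083720035362460620325905966358022527474766543661790831351520568691588248274402955782702147663683939713205388555617806742164344229242848149105983014486141182923436943914329228853266562188968445325738896526857415232492613633143101992983610980162283578329392321936526719146860604648798367179312636965792646621829401173138630521220412427656083292835075362679940267246460337128795450767553280002764858361907758007924448635194603854790755440263751006772330006486004663644712840354500416684614172789389230931977964693317660507535609968745466144397097055895086076347612233379706054777325449509529373608330411917674148125730161976489788017876590834962464703472074747707779227687397771141170788256620235467069108241979982152180983139006170874836783917714442755954213897382361575052939515013671260957281956273594346955149911768760430526258700160330430714757766896034141789838375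586143747452603590808724296606137233902391364934337696291138468415973702832022592433600103435664476762037696300376319928821655911663212401121357288833018050089790911196593911096984396747404413889575140858343479043123526698171214900434164805248751186208672649659660717222889642785488294562160969161316812041641046665216258733110021099106337116241046246659889160084806221284607939321941687747680767813626003174890452252030458324891081752284785243269287165817079952254721676391722338687638409754074293455103777879103097331892495102027431117153690104193153677733958754886006537898245481038675466500763970104325088579998274884788286557110319077645504326840094573833866115747937318589711202286225375817927476625149988460997489752274809283599689652692630915729515770653996545914720910065893698152094466381603030085338694588142667368434474428179057719435327046600554345163558281813457708404475035498728440860398841342097897177420041131485800883164994032262977643003699248537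998433725155117042429712210394630641013421940894386500949194401027879170034897502521693244926715382643090767547289969379328665980985910940512068000617969550406867072690092781204438575938761349541210717028932405641889527545469828629234919781331579704601879773658642215170395139399570005220277370272576885132456594561997099197253972032273397296983189988393605780041553102939272561856809852055474053616510620577140513421636960594115371932811030555597625859088302564105102425647135689338094028005368626261936198635143347427264375697157841924113891537564826297365152578729111862080219423248650531463419707765747160295793196434368673621975228873938915600854706169035652846302066157374516081092035562571722132924284603335393113609270950063550899417918340191171209722464484685846311777423836812099041550611358612608020204492293642463433002576362551851663432992048850974643061449558168903708400755331784028093812345510894528607675242491695066727350883686050195525342183396078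678726564034065774018320107106428928473143125106713072719868513215691340051976246173456336574954125626031829444087145938850843850409178123981914234916981008230613370101240090820201267637238569737391720402907729113846704778473766696525058283402336902991577704490528820999192527723499353154637299109891853354961029886511790889418855579140542577024189742273832443627149318027658931099184094244995470271778763727610575132340173134872625418416186600877281036333425701936723693289843775911179920592520114222247456379178158185485689330567318615657661721443632620759971916943719607401903457194802959079117739844271793271189234455904895466720216251089515515358048831408881772638364673954407299404331694943378115748067800151978897704161121506870608446616451159356357018729572491339238675355612301106473660173625456956594439562471747578799299157155316191316845584901706107064452563998968829053480900458623871853275232052063334799383417882797636811642709237577833130097961797082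547442030499768906007067043962665885783806230457520584679001121734128845570411384139301915144608014925968904960302723899500442012599392838377272243119089628210311292511995095130605746807164311603912736122981223076185926978908901433085892020063244075122527543336789068214201270898812861604594810065021020143840222510654557081893406658799061078899977703164861193332866881233204562316796009467768588273377483861988671559057486938859386201828580246875767206149127220099887675264265691223499307910660949734115940361725158562840247485461365209807055028537223748643605275984254954804263582405736826700435580262683454370018940297160379943566912497806433195657322468872079021032962341146561582701531865316871927012683025603023545521457512170270422460518772747362449364946456106226957612582029256490659255921216780190828044581213393089624399631702969277029526781417547965878226290424061863513189876005808692223549302486358618044527173790049862810532517596749322052892857319471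831925391051300321921089323365540788324990911454999002152408683197382736284396329838140240192775822270014659368974731272470963193896882803760698000247536775158973927089848608367020936668168909673756799945682407188329374890056709526391295402046429230965463638408702507682262205024084341009995177445207593794035997174694613366259197351071054264169649420641086661427538973894206200190688256455674372184943502999706878867489391159224159457552525177979902393909136573896559748635913161045920860909771120035039077280720540569469324672440550966531670909218637127667261391303898176389745350079533115392625750870385770040464202275306097684359945793786383638895667814661617640935601705515535225983914810017255010998020513330211604433402674865541510803114138284229018520048138941667291940876957354066759500352624924104892388381686892414998391257464548462356984765854337368681444453441202823938463013810143633516492325018016817107631030627413132405936601058682614975879303076657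898947444628427758401016115703503621054837512528234571070289509229987662269184197632247486800067601061920569278341905040325681734373555922497766542472716603371520080203401152162293971108544080965330688752056635769252449770951698600425017326202012818546779094145855737431058988499858016674499837900436352417610731877406243690834343252990376207154640139204001791153405816832451885132140369178702790525600070535279929489025832841300395500587889650074697509967120294526080599376827778675746894510033831000245749757997910878582981278335416241344302571565494099920676050750767654980011021303461062293826053446466803682235371260957772459914705199593739709225332748029423314836835972686719875689768846895916219558479337645206205582223935113814829875960494337898181878580730602583268079557256188409615925728330693961626151753941323609186799574072752940494985182980812357907273854521567693325691029175575004217930112906114751620233371157354526647734286264424162129098431050951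448859926581870020990918640655794107160696345661877269416938865701527193392346437288970446614624365474251391445381500787453547270754916476583332731798033136799012690995938989348189904698269179911852712368591757231881281268808627641967300643562265981154773398847491148157861464568925244801802164469946908958062455885041236723795809418754292183263961899942991561164479072136282603779174554042037982679064339247023099168476796551350656883437810423020246609107098064126775686972705739856239336161022342849875111653029456420649499752638702615397719633620895678404544081767978793250010273518962210085692283756222091594792855754210507592417567303173093336188474951995424273765787367872721156641717395661767163190188425439854600069156766607082691666170115247127775149525879201111790650714890092008553240024240387932647069137251263910386662709557563295823019054807776900699758964997751400421431698106691120064958510461032433251234127046360646082186039968390026857791772707873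106326512579744289987420414431672358034452397401815928646711982442183392041995090772010507256832934649209317664632194019940026657242321720533549634442445501488788896757464326838688775146077977698388251830752889477222715423237865292369002264624579804055701624999110219682919831174519152070361580106537085169607476991373081468699902568403937067759435116706004764192018963510638931132765942470865974613062338406264759029858799775100853890046663907279925832288511636029722153968027755705349181402801700518348937377134386974361099067014383302332970633516566982915042483731705931196705702518254831080269285306225125487580038015800407360514087261793594644328558773413056960165291622609624680532797707417516367940833288915753839363292907785842193680004560994780817065036739821899346132084125473558938594489530310155870385895288523126917770126173688879589884488197013737412470067275004294555390684804362854254652702009959211627135284557394306208999297828385844366810279830940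655939408330195173900299329152102850721241612078980861359011232920577931760501768270952073831449616528142890390937919456062247442772459255739996319676005780780477182923342038201252907900017091028670021751539359169033096860582736876268543256049513488952566640164470231826456352341157504094486314032833064224188287667654327895390372466194063618950772250676221163811853564760312902369255820079600967164350028975012542599433347130493541088789201291578462141398236470122847384015689470840662029415137852864806451836903259240617679783647106511200093970224781021919039501135200615467418851554808439087473675894362993877902410478743904954698924965249836154010891444471469144949191740917555919263034194506127259812213201100284563106306033213302133595685112102612839018199606277326224874409685476834336814821817317093893480621079543415084814171993646987930622676902643345852118436009123294976551140899477108967175695488439929964550041642634373415665256608546555643040075971816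437369158569140948949237011138609241530091156575867248383973256151743192777579339040039825746859904989310428104090893135389689909133902450224671091778931830079705521096136660520529701295339437709558518303255581837626427493388295625818206606272797076116397431920083874649390032601057352306846042801263287883122234439546304822717542304373635402570080386931828840743701056214167169555048117994746851587854791831988306196784979105286323835080760131346040846347193950553839939898988304393283312450268482822501826171557632917817402477232334120624117896381375672029135314017264897664823027292330858893620135873582079767910510456845715608805320341695101950251992613044020725500722560201235263954072878709591368257383601306082291951410370199550445716644902768170551285877371884279579994713575468549649938857252383837437503270498894526846129209959358203776563996452513437547132739314694379584859545822512724122432873457317206227460739733299313249331269637840727283562081307391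230289957242295000592753117159320359192780879176101384196962262608698534848110586580394103918915964968089813540884226260853028170197606880223190982550918385333830376367540422976795603091775084410748332272295131663546378561606533317595064494284314468127763366789514552912137412951999811609222880959172414251909829774245923901147360068398397078342013116065478146450081151414991798065342267467558352045960183153893080868155268232654742202863090461758666643202903397385321306422262996707359098023584084954334992813754886988907391129848362953123493734918941068099865636523660091405561387627437468412834319283082169873481446063418932661657003403539166500987835780632465261708223467622162027509391698057346965640491775259616532190537027302351438378142532780296112574893052159107666476958906372899481289098870717288716068577429009914724351220913866904925078185263599724822173565587699503418279503372380446953840406077523209652603358542617607474491301057532092514027098303464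117239410695584415484708467050069913319974562848832226246083134962930358320787730892755829911022157134581794216628681293666903317156186510233814161359872198441522511675903226553635312304228743949842317019163030284138765705236117753985150315232830192153152495955285163169246664422579644751577100128343390020515005339839924214225885064584848574718514419117221905486442250435049332982234456470717711467150930165245063294193545125622140472767523979061312004153077429881432185889518904478028302591323097832402425795964501307801725434629632023792971573799386335405161266248263141297562519767554889346386574534896487865192714055495475241827242900401668981786057509364672669738234052942688292913280140819077562058505664457305117755295656484426472021688774470761872532533507441094514016047563257892899810931468610031637245758097595537170713231478767838659182851006237686993490443682144666505492545812193863754970574900935192698296243963246135304739207604328935201346205947780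581732914141253163993412975625194300785516973137199250539269505044915333358405484272421553599075913606185112183561554387666622055290992694236645193733981330610618005630508801383926241126181349099265432555000687860597309774819502948323967004025622528601537006221305540460990504172868764745097965328587229219925352594105561287262836270332378449600553981368957565247045462774263496444851081226405099633044645713301553463483054160924195924945568783384818198406720171247584596487255437611053369966787188012775928822490218006522108469395026912634173865588892128014464598801924878465797999944439041470655439557252338690688198062505053593489007301944081796484607630378134243698273191643003553967009706044898437825617824086238456236877852087277280061786047476224634943693693892537978062447627932132710973116456430724985528530570018174629934855377770506411398647555886302369012227026962597128249924882707610957203444702931842441221398138597953016706473499757038708753837195171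1781618480934565978554667651492887406757131389321391236392822855170499180439921998859413648635608415008191542247415061063250885574959590958125587787490378371682276130675904540414094864815125623171776480409422943638206546104163715344916854121808567953012991468546068955349690701292411503518140212607363101421659244867723484038413118638558698855855976040295749585900730024709086319269862106132721338174984471141964370927885051498893453242785728350529880164076264240179804362673740637306171576559091671201791636180060262349523702840847327327729472788523573442947748790888336011627535990569482656977140521589222233204358226410156002602274202416484037835167407653637947118680083645989090897431574277345732446499120106418519047800937972064778261731940168355405062406850320249819297578333078754968318179810283694813205233664)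

noncomputable def rc30 : Nat := (nat_lit 21348157133950444307086905983744860864901182620060111930065378763237695138797927260651672788049246074947652314234153369073951284129939269349508617109341201870248132959333533636864869575912303483623237388728164079210703518964815197191456984194417274327117370894600072945009404974276223702089037347320115393834055626551514957430318204039225263405687370992272789152845189372080785780379958141514136699233619364732863057981059444788649281544281126704759385591793085781983952201758650178400474926535922882482379652387825232307650438092480026984894543481522152114457955526581319416316255659082534654772770351016552754905630885525721554755358009161751951433208578295460886677149744736285533474973180736222346290336512640021030907380296036027007447654024660756073654461336271742271165443515298904884178819769670228942477159886388132720953386060115501492871185655644191918637581536411958649826799642870442581094249123643356789909324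561343193254303985540107186574553755806129494023513621121270100450368019595278313104036186615455682035327380877515806821620339522109530287746925368864915399459631111467585287531689529625321005142348307506500895325439954368748795926233491057497241681180585327826831618758704655293546738192664650179365855639335365653350892867423098451832127552522245419961931873507787823782835251500325118910269301892393965481645454152355138282843389171649768159615496819250024795818792288311806506284985510846744459047545900080940287293582387703535794475348933608189354479648316006653485348902622362137969620308693542445985614395320997614643171492584875161301391171398303323178417507345774086155440292045101006785204826443263859821464266404461263094685823217896047094719626549641650695496444242296634246702950141104246203878131453417638509250945052618986811239759933514637669218784922031289402388180105701842866434646179176290257786917878431503885842995682204808589902192932141444686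283278552555200842950797325237094940374696066277257224451615804716629633588588161618492274299303650864796033631067797618431230217922861153398230950432562890361778748914132345345154987673992622503164399324357828579824892672931530575313349681795806048879851456698961181289957190199610595373505077032691742702613439284092564042439847936923078195961472491139398298863826729642155910440573290249607258488579684659319806335475857329570824065266652700374009186397478413623579535959852129986744034088103575177239266623998867399894509172386727827190211902601362103748667263156850986690622926837528073731011008854918302193181694570693790421840907663488300476522651909433653772351474489268262959322453371107263490292414845604453071297192979403360235455368551610154008911240804360333614136033175410925737724956907387010882871393296796486235956324201686894641360344444511717345478422424916759203012971256395960299022779993095301526731360680318378299624295372632179683669623107359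146948231575960518773432296798051666387134720901659046753286111228360375737167663143359674513566486696025536131747880296517650911952499789677007056913951145603765319993682537466316291636322355756341953670287036994626468766613632740598115899338768207248033262626650719442289736525574591982542424240770609032192630258443787887216449582527634858990322598788504646602790898587710866842303066266082939805554675223957606914186365441965170193811250186527525286310201447751474132785352562785201272943508851061724953429575192461703264734992996831032246071561826754200558145872747599488000667471516100368019145686922151518934195105926683882253054933052740614409551010946461926193579794826854797881737492264426079339631779027846326746159571671388764283498898930599516158595654940441907322823902164936772219625405564572197318466968023472102210655183854097288719562487884377446786058531213540869592385047760757941026435261569870853528633961813163023642908903578816400855094066962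869004893689522946529572319160946825486847335770146959271472081954816996211715911656366741760781600323873161068901880843934546985275460436246511915428069680996042422568423527159328088853133390295243399030051719249038694998430842744957243694613145242020969974800645988672396116595637269107384543183190660423111343472217280978850540418990666221723401108305253512016669779282998891385825915695606449699003078235592721640749156128863778539096778058611572683168835953775342651574634186525625898867463258009703315024032871914655958298729716770233844562539004959813171283636530941784123006827992529705765314239589723817328042739977435965607056894317532256975678967617135148566870095457196799051925241859181834535928937125297631143415198547807376571154081820030769920602909752858443774134425500957597892916212273614818198499532818191489453965477486862025707344164406280789214410928990422600288957926642268918082282863815102379953903864689000604525059971200295341580895410211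985951799303519941259933743913818429346482759936382914038917268791015854427502016122780569390806980927779612542840965332850698392739552464410817959817792031526013617701957293624088215308148260936559956673747726954166910000247666085550241865097978648715391349122696862151064365124348773906981641320057178363657899228593367046583364305765088186145140082509928329465740653246807878561336218892664949065195733985291912730779542169546366268942956926684560772591089667739697736837269375237045610792951991683809511880697828147901462271934733987830205790529454062380188929231943146629892157465078349651815893590354230407536178745226359436974422258351799424838499431478369230666674353216310680000935533817095207411437256296505996032502097076275170321265366075985677670778942375084459201447310048334647419763817979512326453598221250717682545731445287421097489334499199791841347155047066711584122618816898306958617307279540520341679810835989389212257339354654051882508530043928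538103933079444291077341925425639609588467732274675635325075826194802602037506024508784068636755899290734818090853551419811040102397624464281664067109619754832660184590084096568852144391738997127690090139105415566320179550443941772625313084449400837640866093607283932791288409218370470711815713227411544776528991682427276296573648015005680412815980488790100545430331131276037561754024928677802614157605369869792320163391762082323925120899398970305054045783668874078275632385671264431159065204668694779120981716433188279059406673723659324633054646393304058738973850896058382328678861982895053196132408742267435342076534405735027383492025646032713416133026958801154769919096774862860729840211770927155643272875575915869043294637703070689889928624196194434937868056408450235672452371820269783300713515271926308842993086196605221887197450712067562187958143923708607889567112738343724491239748629390003379091196004776395528541318041496874213009714905086487540454100789715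336464988237335872431079306191647842414478600717563369865308451830538536799506127941580761803091699873963554462103404969555798416754405538362771414072502239003363064070404031511191900857364457796982299606898120043635866848716569794520931293483870242164948280329188947308897193040483386305732463333465235521971961730746429457638928463251291413119829893343462710072803534392728399440447176830760531066125925422095070732499602277730601004336485884042804154191991172035589827067449125117436989902626619197031828388274121369396665975425802099379827440994934780668665136397620597657703495645401612281910530967474470769938234779102953450931873145163877122266222965947457266641094785823120517224773053277997796936886949147084361307142706030055729411040351739355375182447580876199209302292286565363824944270580025743427426713214995258892964764085530392490508074868532670951605297609272231932983536807332087602922096247280605369847458182552388464791535780314663090451227479791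095076662453709560952233733671886493454886854543284182774780614571420855129461752281266579555798836258820277381652673998366518898792353685124682455666213388667723447221868195985086659906104762671289833964336999959608730009451724638100160261225203061825528408872227793404014514621305212815315336393583461619806912538221028529775124323669450220561567295449981451148347254124394660729479092788028310301663850770417436292776346667969690180124243808597203535339948849891740903305615121839092977064052040913496328631007816345519511753630887092825569589546893277817561802142497253392211311682177289706033394961472882552460758023817394616162494215074097591891941685835122595269351682365873315371183419219813412017801403959946012714752939012860203672367410796204581461188030336770645507858557318829643722888240647304343449869112317184871361563534212693625296354317025472777591846281676286479641344448352640879882220314292956878670601834537119072219646429217128281404660254714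054109408918498328711065440865942971166488754368146498660797303719792927993106860892623864530502481587686745827421210686104990814122528266896615496384475967926731945053816098579488604889337446297280080538432314520367597559604726524746654369201825694343959299669417046195749884553615178527471581733445713650970322305692431105778216243958588520090240811254877825914014056647425036373060881444900437653370144886811998873772850940424999485460301444386421445203946672377603381475835205579710625677057907939424224885281766814019492835028546731070778169882721043579370009642149824464099940682242923921034750478408165611726131084702470241551384506377060161313918911900611010764332172045976468380578606450587080938636094391450011300869272470786703943169498596241049683171242373074614484148267087877909018546303728843045468090286453084051358603481382685073813372085048176151993551396902877426126927745444262736505511946552686737555637848784593269582680240909743545900351900645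170099157266372270137737411184745626275930426633141758390009135197786984747874515503727102081684315823201215477426158570297272538117340683475838523961777765727538860980570899008950315656954139465747864550445692200002934326789689692732882884845471060570501552166071868244545691865256848853953945987152807850881278100565039294428713652314572706172563378226226547920728130708623722469336782233443873731625374784118439325463938880696626021266257142304615580727180196019072387099564656168213214681332765074844947135027520573060205529334312976438061890347282311982822427933975138130620670268318453539378619920358111427837738374852128189623348375731811025746082900519999251239761165351810350753397565562443543482065671898569896739018693866371899471124771484232711396606401944659710895342805056411125537761115882010477505167672142201282731182335819453995116545362435195816455921292163663323995112759156119420130191026740550988792807229815907030499974810423672163003235363455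644379525188820175219495173483176841808869961368068610310582413685127573653822031962695521605596254123880309864774303542894101339913942729238117959845692970350616384525403933747659569164781742119514763069379576642628111470106535559013950686402991764255732331218919129902774037909502646719901845706456206724168027626744472476938596401544749374428523360964785174152628680768181991823116811295800226918535559380789267654847323426061787415965502206418331509427151420096820352581718073500467556101510454982131780834573587802519257104089746599456585172174315569554128349291051473180456360776456524622552420578879425859844674396972578098981918954550267560986869386183211247284715168136423311992509299919782512549586759419449472309640899274023463707203254265294104365152525217024213307246086987366540547351252647660219004508134190150193905156162678691450050917448673787168421155029934058012297387465694809598652309466101383874218024747786880821321210448215289428611534179990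295061493588654184392242642243389714539129529096630625841823820216930592921519772039938411195298884227384035011989379003417148016724516847169991856931292433081164452034858286511820741716821038302658541112239940214915562520378167586037700690074193308958201426506339888813720883197713946409476121527280889680180045113418213659577492350057629469986330713187405193292099521365874244243169165396123859303501400562090403458435441042755006589607874136298952871698276135045438303884743761710383845726510455919729796038462398601257118425314857544447837988387614962552847221760502538429666333928434302972957600287077963311355253750163140008989071998010389639774252765886706351473738346982011353395337213415436432056623216522380709077807843992879169907184783612483101234972552716877860800243727460077050072704199410104584027537946414476150867110426677341037879281175733659155250244798970980702390539570978752120806662701605843471800459657477161847222624831617308129850896990641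646333181002311002330610884673763292998196653481583057269042895507765172989585916098479866342522191348399210118057533012057918039615503100516581972009951378311444251008259350357912977540728015877112521910073886941769036781651461135029638163938686769571352956656533899100105850468874546247693956151787291735845957719284906461744521670608792375576845210713285914612309326850184657416961845791794086654868407551096438981061718400897858715910316568754680446893808106955660552396134282934919189038197206207510094685865696538819991975520853416866487320688652678719596277840095615239829081049516537527007028878802440949541744586706994827496124247085898785508888299967988128807324229623629208198992616082997826358976253606323168698099077988179561887901219919472327010096054529192641546310437802426838236559621931626669455657892936861571338330870135740414735807585575782779113086050597167273922664710386199108274454992871859137359162837268485963892229039690081947253059152061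589739440631195493237897435702294503535020775606508556122894333171182965187936289447931888199002120850790817297931711858401921246213387344750922162302899613026425283275576888092638694958727903245470626290378107690175671767256039492427994506771131159911197034242815809991778679522083864890147715703906607587868307022990552440616122488303220521871990660068134362738890606670287596904592176438851905734249408366503576694891131871491227022864600906998775943784200230862285359576585707027052378464042024194929676796196664427263546575225034253752977200282106169379441191622630965237117121385837774311689708902238487626063307231952240305780707721418585183967178686686043093878854540173338679751861192505575230718134618983127154074068405891192465654195585419097571254587072083928943355296105732379229328018457684889640448371099376395805671379747171369492081363023216690405585363669942090551060837410461720945343730680086027421178130534256623619236843296981842005828513953610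908752922728436529954406218400709197886842888739450769722594176978973656890263579863241496090908624897591204354777972474583757704279641307806638160191889876371709108966763459659574691837481734681703302700259914545795082291336065262514048427231379788105499045308463089139372828755091822263832899760043985027358634712319587833989371104668396824613552603405063561710368568074431256075080916310092946237143601253129598448389390952446478681613174977710627134252512980070278817287168788777651587035751395652557619614317419752510575605603319058757085566854521629513229689433249488845251423893921385303115071384770170974324836485237821036964343866515240813159103371340454110551851364882605783475829399213654794939449379525770788314831195243166623467823803881999327285397428532247105995012052420241358822983867579453677331123416950697296651848223050114948964755123121911651442405397946701858577537806272790846250428411093132505043967902406920495808049094051492777986186664236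004708196909668765370507064187807513401077820660032399804407112061068520457343949151101842622781745035910253401461271459635216850639818582995713930813720623798404027676124509121559598615461760780567351105833963585189189769179756019344098581970058879719770330508896467045434708424667458644396448196053392248897417526307127078102268367251868425773608907761959891216549620854444625069629907445113039642721694433503295702074536080462253575404300078459872927348591144202956960749342786528094353794647174161521831444889900276862475068735798414261502468555677964450516087493195927652491557590577669339911883112882098887396010195516220258282969745947195838201113491292091713639632210754689482748825193626451819108140876095109117792805095265197709400353084295498184507965517615935241884476451331226195063405905941246304122143732794783764706042319865079711207107959249625295684818140436637394964020344951312000634800372437781342890023358351512318127048717381785729158958874169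709594784414455381517782504128401266017252913025823698306197531320537829846368537511059576751190065413068520058398018040962312720370923837226405170066691852081753522946022590869593171715688877866526238290617985966140495148419675643300293901061258569358206556388839509973971341169859350213380784212200145511867617637292921659130041164948183914541397804114457908200365566168660490019206608221786425386529748068175300478439383053076648340941464680859301050789289109487635637314103660366219675705912008206792469796541391080324225343623724560890885444019968793000791371530262291274054111227563204426766600252490586872504235176868556751155679487620781758983530372436672037853116171133209142506614220262061964128668442224908728948748239457446232292870610232597742779884414059016123434606642714955634943245132968996598963357586417475709310865985124331498745690981918835430427601051376218268584820256363071788818946560922962547347493517345166086097056531641024813523339596243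7735079481572465667477983671871524954479741804940147385270048228616369083741906766050073965888556648074058961414986761391085178654727217187993433050509230632735675587670204929059756662668563177103808976021849852240357029913247188247769409140560618646095467372242179365407736864690731663582248246846231362147775003657336921728144931530926125257985997310430510420009439619272927703792809581043513471251563594427874870314813130989374519828795940722873311428512880946700656663464081319025231064046209412422626008762100670407908435898633343223573592087745616427605724205718385131447075399798455766057394571330527295964738165329805509146718390838956149852281869531907410154509099587425282172005644318093902133868372196754911913405854333529658986754120933423472808412373759088171643536724502176234600612834870392281158909952)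

noncomputable def rc31 : Nat := (nat_lit 21397403931604307534119085296964790844407558655699400696712630674709362277327366344763751152884595241625018099829840047830615512290986009771607233531971777542066469800493852547716150833490069317349952731043076061776733453312372568218987577621712758382823353011226861361408561607058656505097668538313201424352914891252265522801957187111318489145495821590912862591669813067494728441357195178360697255666951692940493495503951930431299261436491276571439697407843500334895942536471022522067723184731512214677488269061514314533242639806418034176234014201245059537729341858558490896338061016216859593199737059883231106883788973589700025980773036223081748614222510097553392763979901852581481616367990565528598184935219264708152942224985847566392476178413059149917315300313213225157413488334660365074968404910959182419225022772455209835202277990535972847787281699601206021890051087385205400616280398626663670735099331292575450661813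990979572816932511528029905251419213799775312267896333562569302824344420061900310198403345507050457309473448681038246326444479285768013311330291706907291720426869384208414036836950827297093539453600835109894596401940913592305841054515976792466600649002930169117249060635443299675647679578790701467698670796594852599899833385461065089942705569698227371200800201826269447595794751055748462065540068771888617518338686895453323620108749631624508867767492468764016429134759232580473590306470553256944763148179987903895667158865286325872254221318301750254584304126050304747578201525000578018892268110595023759536478041472263666613665084888558189865774351034952338551526822055938812817242047052653224415555195214376954611337450545291639801810344922534342933231173087569697652356004791033490272688862898051432534717562237336739965588521177683121685476244282380268093119063193452112721568021002263296635803305253197303882239371658301986870715726381329281013249604445442086168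908880024360700298479012071254548695889965870631469522708886707594429289061905869830504465207605703845047918957600503020111784829628552632431177316130507676828658548864019468493115481595787577364827429527005457032133354819822416873669602508286166349956724704133691540212923360604762778726985105262960043838909721421635666093174078948440903379778359544403325696642522669239358522975313903086489681727919604534639390699690666469715313411052535317554871319611998413481677697882191121485218273633956527593369599499806935992371008553206364657882680894912945481292060521160995146470426329291987860022024160699483577043140110161312811800837863300353230443016919896863157364670584908459893461303236184611836661582358728154591294458999372006351361037643312770427751331229690102338774574094497768849160453879879127081293101143217332592291037202902179874141831169250563887011954033091480948904052813394171099742473810522448964337498518100267062647917161255075033288214936146870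679789243498737320681945060224482661515327619943447091753686102043812584645029893127741170799037911997318632269298527254631929984700344315364839967287110153065720878493639527645594607898209524800047354496442506286364441252165926636028606927445211586250987975056071315293116512670585230658641119609837956620613310884396823651625560921243799809256431089344831870773161003686625817014786707485639600005066469907513907771581753039397347527933815629212031329260799708352297964321441779507599900626785899795206189862248897532089779479679596608210493798703804627050003015294942074982940811731733966965226516372439404634364288939815180414494450497613160996493632047562883780006994031814134957013325498642600009978011188887556614618713372491328870287211642686358567121223412301120376061951978724036722719090921212040922815702647340826626448044306442869052829849637421276334217069636639513439354278934766091893611991380036933132181576694797201402761108722550688918054813034093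851995059226094227656266515405723375742119338593145628117540461608893621474423943711278496277905509806018595224336033684221243547042418111133120601423749649563096333420698706310483512859269383349742422634524794312347862319720709235036994212409502894975106208969398820028440902005840904524618870733366866919063775034753757985615296148306228015355153147681565322988936812400775899671018018422859927383060824239951933230576688568567842430352727556652384288998046628541862229931357354362698993129669845396271854313256508991389876478615554516343784895581322054158404671649620567292530557859017581562950002971444731783726178806660560473833940794344334166026220039559670148605995390186773292924067398330283510543201277659211830305686096082055793863857731504099742008592496227741385278543676733805843069513806796177916977004148004686588338808109534163955827694167678328941932228417953759126510749160673072921224295404034778011246621689070564398375109366219924440730284002815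315446624163879317627942950886145125316015320685573280372918003016895460436153522401984859920871844930481909537027459813910152494807303262724395961117314112504354490323381316800314971580750633366875558590725833704003308746962109956800252300374728222472026315257077946295588710987929914287432456043096166453445288318223371389037549261111535963037374523294725637866009939209432457273900579270674435883756519251706207159031555721343685457691778521370364611641254039888107525883686544298864324028673442595524960745020479200701507767952347179479437171522573291962955012804489095801824370579120296451988299200414288809498552095282416628141252523805478935769278531491006370402876744975633667871757899080941526251150986334267537628150179951544906490855476010928498649084708643013064822395167176285187710791400443700859809769945357597783893318051518847135850282414279976320957211661616869384491012243385552379456689157600587993149771662457010037185915404794189988685072113014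411159566261383687908970045639835962422227423072929495317466949538306662102530798523250044522463092905524065674721930892286836875892163810803381890942480019607205372765591457315755124602419677527172494951147674692487128816132410872381805954670834786697056603054325160515727024587535994669367449309151408597232059705242455140405645869792300251703657241957247506843792236840396398397895951853491318088956175691984381595156353896454169109464646356378451766859787879403523266606482966848113138216818740977952045506871095621715606101960280099994082819102722076002310030710480700662529232291147637672154097732853004131102902748660506368062209784480157873997547141568781711094713329992684600852729481586698934887813751007353421822508298416445768548464743549588211477721882308690756503932518495948675262213022523062948953831046900731090844893854336301868327822325313112607258614183832581405644614936575862347802666923620747405898007242432476135583431453836463401206328963054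357383625935808576991437594079740366656309754189881533882526915416536225151121604182417792278461782762107246982621044471410221719922619477705537397147161327281655692606038309424200204478334892364208145449724157192915464337841803691338302609898817712672695450154824295303877038342185258168715909188176886450653070607386102401776528773381462184573551046275848427377766388745788904784990543361555344108047745833829191733200442310624680323911846402646524953874166968480609535499438811498230463665524566743546186302506196852146073041802714375605383339241754698200803010466671795175193011323112958872516832997423762167008407135149489492464406335042429770930758574569170610652171535596233442857685202847050008186483994335949396695458021410479771410289490872169735645608787764475403651380890696475776422558332746836912099204257435306514847815091978314891912600345774606199018417375228629970434660903923383672441362691345003136370271736181063629701158750330394639978763317216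996562856264811439129807907799370891357517292875322720947491802943268842946922669066412039806779602313417673943361209063648668513278527771358904548785349895212707641564397219990552767427798919176801142207852148059571785649433492071392019407835746757547439034630572070691676303360634624603466875766020745164756975267598530368959058551325475604819554277208291473208297753550300167999010263411665259857087164811121105363905194324956098027300109951031881462496653344934164169204756683575699540991213598757694383624387568311251513597719669807522725075702917304156891132153316631646741656057115652733449813223843984220414403632712508666566756760190823968817555118658885315416039580185802152309938608814956858300135851269973701446705257194992056916925468843748991298302079816127141382095991075364929535412577668095229882577906437488097074921392282429062590487815599125231316838567412016614736949262617073584725291124670003247336690114708329925561221455332482540118780865070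031922621693765562980645430545281496858119720689671601477125247215782847099341639373661998052753501693976678147687873297022635941414353663005122684925209678122720449491675136367062003324078062040887531316078480993934571466129174826634022193467780723168103122473643553974654912908972006697066142681755636184037347820767754787148126063039316274999473842499734186945464567869938378769466117511483225100095252215908149314722092996156155906048149162199410474716849004850236074084310625704922941906499959252847015066917686478064242104002873208554031449766472209450742075365287789338418968952791752255132845834575311519542954734030317577089665723319888987367845149349681762315136436831768551742778763675874564637221652709163822488343381610690215452367965735030894965285428287737224741313987372391142985612277503103260863942701263686483425082169806260247164591174605335805237898421087717551980073500893410949469936125037339647988618659355655723889213455042151339470903914394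589664057026308083811196561399104483255019860851617072370020709637070389594815352294704070967466936506918096025574481892410610509036382824374264690914906903166692779556157631759882884526690131150749273015307931228277964419595423502072096921951872836800352369236739874339450284210021255312154376215656633408750200227306139368524788785679396779269140434634773776334543318466199347448203199182822452697879656388625294247939325902854284368245146340744829090501532896233935629234870114994501919688260034286599846567699171350407454841903665323295419567045357850432858860619804072526071463960828544555628081391982118413996663874325252183412767117024118033518920295147545367594405733545905659671248862556124545567739199063257306841599248982705321844242636215449453121281041497594079367743288920535311057246133444923249059746859399157437134295626299784378534495806106379908178793291982519891082518177427597676136657466886774918847697062652556545756148544874885173087907933525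192175964926050659385922440882104417748706692585069800513896534506732095969914967685307418467442941541793113739409347144053684783028217193819627843222664510800599771558309024662137604484940909225851958975685694281573908981829468910127584469234824889334571028107744944101932035671495092868821564053658730517844329611150904772027259173674662398032301989671584102539222523708909887745190457174312548230329812196569127115446346204363892568808455207507206435298259626131110198231531315120089862907467614579851160474753355456059620636579320076900758636743765106185705508582600942011636661138307349464810753883989149849357116381561792479570748087587451223809954145140370295994406535020890165758307162643159029869706984736622718298840566649262771205682125728683429792653841582573479240494890110571752052885902301870710050440105947452023236699616059188675479224466607883026206214950066712998673650426255293669026425533834625667863049000985725263529932051667214441999870214774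411965057806115819211566280132918422368372121214139198594288419945189000825030265062519054523206766378350409985067539169214195799072493387620424981248396072559205694771013785689023693152460727329733428525966320862131556317696521720447885413208143450813072259922405454076173801184247658507931701168021456595300757019876002274992511456636835561592274263187448752158643373271486276956961508307079049320144130169347397107864812416085594002232792698715595984486682135170922536049822013490712889439845368815418995256970830470932277834063437595557714882859853915967876193081756237486452775900684539961193357482738751245685718400587512750413197633911339865818033134659939877199961000248661410694347352839536420987939887700239395211526416250265134497703093727577271425950410379044929082215442216370535134509667020354204760493542948658832652762519229997425314160391579948708670342675226288050587716301711223543047408624163018035908603740346932691909858145406226524577532061115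904328163672531676488898345509416480119946730944756866093078013522159023402476863164561692968237589609230781320205850039819284570200210789715930679135705328780893907042267083736570169692980080489789676785992404340108485387447730247683472732643930048861263101627650694397539430790270043306971641948132525842883694929590867042045269566020466515048813691385649806858606716603640802868970335247899753334977634425449713999799045853100445159333993015243936786084161212564403423180435261287906464972933783726449687244434373328537902606069547816268230339294083986367304239678345828818927003294910597638268042095754130520654764435144210288353631975172810682540029654965208181575326565484207488584996242221031550653063350489937662287221566191208352299814237111987541847644648951003865546131605203515273753398191326268527734854003723207287589913649471280724981130820999934915866291034223512222253946911926123356674631725948666242322771333656271866849709536542362510312391691280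500898020444939215323961024821601696648555156344579200749787410695635095168215197651805096211188341287521156485483409468186806122654925724387117976042516942815437722138167373783180118245521115547168922780148193121132539751979266840601628079791778685957514555059859968482306964754438033390882550087576305161306284951775447833855754788288545375124622928794779930649982869729219410230778613526642056831232252453376662911328608165835113069569740494141642680340543398832960760526644380945293442453927570754635881310691739136381762452672946357580685761908648016527918796966690553982894060529830076567745259176338433257902448471419985521024530613935121181049748415485488096583590610488041937088156436883891808141136598106531389376831686137755003360263029092985540358336621149771993532871934651409837018633677013983639578716086417571460487933859522558401541972089919569223491482873733664563116292273481046528783029473045405559791901721082405391004848537341239707986022477283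077475386075287336466641840808267960466580711645286722109269199430195782243460924165415269483599244709790295008539118674352397806940774584269797711710773984428471288028785494772585572793687222131681189873070808333418001271288111576024977089315028837191545870528802154134599395673504428379096899471143399994637486622461768189988323403729161886776158574030930963545916177939537704935919864580911715872354458780144123781129240164981557750124120308701012692702337525263821180357786981685573722540216111512406871055072140011142123182296393702134879300902761697494063581831648939530175364492008541995839209387557466258840627967128039818379001781470388444353782643100998416952388351101527754078889492240645627090551530184056824479311429497257070961096584543296747011548839972925224641603289518254549114174810198917828825881176971029083814650192360411096776863350330921921008676860031213178358344835264793130491821181308989871688519696043946422058642749627755453148185089417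246972540952197103775996583912323581515433503997105386229467410154419542165667333802781576169509058082772615921661411348007567924515555882171757514031802164583606519791701110088329730794216738818438272808419556997144633263575451771474166435454836924667095592850426076271253189499283157847781194838131735287226219730937031125075034447955384394176694024651526674589997975817815533212043301439651502885471980500318545234463168066125704650409646928260267178389534262609668880115698228109782969056891362875916776993565291787232490674438013867686319031977494716400427376118878862409406410544483199018987867898091052130559712292288739586149496317990838097384210168763332788922274617308755557548994469653762865176054810686945890655075922877559714713468704866342525914831569356550368912613350087934071537322809623594802174500920733236292220166420626748493422084677120768856636229685914942748884891794334055428621564797296387272466103737317930708873430613156571153872055644507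159194591475637450779742532692492652830147121420195593338833932801590572714567591213573405217090780164117541102772433661275370074684366986311948068029623814420822665395163171959958811254248457328223058373516504917588723245365779896815393007250850682610962419397711258134863532120901057575129388743326057694012528405974349402959931658904972939564147013807769028107439306925246735775266676030467759018935365272262185036891655699069141652935130429690134329506223668913031817177196493681420156464000538124432397669929855932315923784319225781895227589361364853400454936720416987169084511518088275154916225575620468805917548133527118694993568399998238018587402350506717950890414436205429041277684270781478462814912134411780731325327821060354771984150222402207497076810932027624617970149671488089794728561850245808196235357385647251941992610159914227469773337793668552622416354485653608023987435350868010853839413022389982965454023068292150178083690883323603782062063574738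3897630649432042084923132284865415388467772118120705613319948740264280987628054137166871747871607212462395874463628584302037502232570125245158944881028431175226795690814050734721518085149317107120567849966265927299891498909704655052724462566748021804705011416879838805845171050229935699173820554832838703816974973676613122740931540314542466565880846305101170894702292538410709314088682715903243356474396266893462793115724945917730904134150873377135346019136653511025062040336681982516112050320024064294149959737653909722892294722496503160757287846983662106508431376614875900700176787725853842045003974619198217663942172518880751839276043690161891281877193906201019567362329777313630705582601372688694880453787812751975055352072726015908513443663154431283986996615385716387180316573241339989028309951032922748886188032)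

noncomputable def rc32 : Nat := (nat_lit 21446285242836240781647207429019372804063088152997962940552788763776187578438848868866966847035661841805802825690330807952025803803757835710661078945373858622272448765782536585149979243146662041688285384289328374728694175745833424072696646489383786729435514705758612390908237854529151217059360981920856153711611101251846471790501481789494909967544839141738977429725765646419973874031555165185011577051259935290821692712546042918359003631464157209297079349328082297981857263027804358595751081290280754215352211621458078771646517416299241200287336339195884677148758667457876301807949401685842142160436350357370917058595381940776597802577249993850559449975354631603106051402593171004091723426680354065111227603466612815345491406796444218883176511529397855738407019155605526422770055938384345884006989517627060545232827448905582858956979730354224732338777289009556972035450846116472223970978345876741677471070802019318995129284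814220576617296571794301996979145759060509524724577558678185571467075895575420741098260977263320796697034737630058138485800042779491272128523793574082592613928430332298119503263872680489221836438242873907307467007640564368730676949102436419773066152348689540431098820306832702996717098341296716309320488467203771286156315720989135478901021600765932568367508968460400672247606181355900536995361221275643924920030846727197541230478831049814797555156184339497436397214225340718478896260746475363926272356221986686278491986561637294399246217386295460467567932336406761025840659600127883207401517796386768306118655381010305613509238829330592478707109145700576811870459237219793096362228633194486544969155173917552517644576356132558788187477325066903074708328894773544208872730345182115134767432495750778049821169312208790147594511212478794108053996512594638299317411249082857180424290764673055550956529635550445891990752594603089852431210402251903382498382444720849871368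543671829548889685507507501699419238031297221341973390174093583944127904650637434410409127675897449106278652723610399223674359626283232435022849504142773097991490744375300876656207705447801028981441729077643935718105660708067183205290979667970427888473714627040432348647153571882710053252267153240671990762320375808523649043044241590916559562862855499079066734146399869684292516421340460920727314531938749627342727863170329447291989806354973589647460185336556701266763763553318168900328944765350063297166992286106196411269123500830859054456328633617586937119059227670328759444646623784092264760672748487580657106341148049832585994070412023196029782581426728129705240733560729545258714240028591512444955852399684288218325582580794487985419895788364814454211589249952136712386131598181339467052333867121239852561508145847642767763543616330282549150560746428212463431696314267180289604096821411112783396076483769991223472667934928255981060959101944386076341966440319327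066712243872650146961434164351822212286530006484865721086061042437479753305467991468517719812921802773602699329461013463441533691233697264444065575804730736591784299084159921800707791462648134074085674693491818736108926070689571583165362297761144230761971263627390395613523621189249833348332193588627785732122901290724898571725507848272909769381657931330601996816399703548654255738395125800674743474913644422850527313961103266169480896445877382260940448695972036595769375291879180156126977308012723843724625595291593913006910685445997163909254448361207919633757650773132479268061787290038400462950745505747020739656251494754271765172728649314454963090460279958675441555833595294131656131063304783464974798379471738039136583389543351648136998962619139375686680334351993449407385915412795894966760565182029098297904632222111755722187001766273745004475939488260276795342642630280488151051021527095084578476829770298079337198821234964491188398259041451311228174669806298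698561430894420940791884248303925543307888388095459867986710879960723998365343620198876690831007018757964178515006757190350034986231041747100044436921452533532023541793393601739917823355451724096354127880467568942169437925342053734247432588411136525443641293238828950892362315720345727008463355297160036927464591800272961678562728182463143818154527072972533471118694663689659278682193370718167171308335341699447038902998684718458537898877374650056090768245283386144136352159888606897515270806669864319005555256158242106637754599294539965585897236773239621229677526970094749743397789976418184478683531917394866884880697204244334647156138487769162431936452369296892233405803019226478060826520193483508352197180824437608577416798556801307488950279819469945584297433283366710329453053880083000228557501052772496387641939014592315544519713906920660616646168657189123161567858616059873490670562551603013434319831405586138598777584376327366599127856451603048505569026867017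872936530660952522520160728415626704044588927814207391534972084520689193680759443452584487764577998304754246464495082890179720439708127683674329926331188068485931699799539297487076545168199995399512475854824762652314177575726590128396081436600161235046790230784105733392041844130532951138324122587251934737424591858039295022783919354249042583505784668909308310073006370562813416615762753973731571569941770117380520351136734469765122934695877113166759003597351736402322399464790944607400433953459327023380908185232565730834953637946260269933567493587682585638960274014399405272595074941343858666334672067269710177203327212658174808927854297840823436606474557267056053321312588648289509114094914126104226323801138588577290657228370144398444901458689183527351937788003498445336535082193415662865259503623864678188227826020727837453710162035679703380559437721645604321014555038443280640717515636003831472345816218924951819696902592090822264696811075870154484150334253754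714622846833262966213113641492544541657569494148634894465972076308803232343438745010586602479517592631783736649586744070716115129664274045085249861414727996055924737359786236662040536678846705659933565116102457421633799182731004910844505068270099257593550343807678366171703685513217548551596963184139497921357972330244301926030402065025123099166629927737690192162201134694478348564704769470702789047423386718140921181116925513254848919826459311460250718571550806449954881884389496022619580915592572029485773599936398021649155368715932760257909782678414433997689990046787303247926916833627268523576520616763180262689283405893626654968572703320862043600302252153989542588911929706914513794185057623721420816609563769113773591876069072093906004115093931640954576758454616816467065966847613177479153375765877486479906040736698801153181489550492930048750578200779040160868166055553640575183323533929431609328086186936856710840987216465593006883881471517879616496932532778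713446199698832520236235610340695396665291744784566001799248931909798563292459258132200704063165492970273260190616607378447525401850127136848033159040260940263497550206443727562716842557438010039594281076029315419373653035052203110872707081309882073457290841263412590777720251680943063373154118845331595872316062554239208817459932452843766919942972189573927602721589067864372868759011625325592252996993540438441146570871151548800501588599653638692356776287472980880050658625074840768841117381378962657238407964270717395075764706073700971166161175852043876558511091320385141034080080741447121003913425129891326805144314957076606431997732932836836771241713029084163842429250986361795270772793462546605170628266059971550226155755828820163111457982302122913414924799214319800827068953931829683216075821225060155174889875468825755885794298340758067565507028221952569267052003952137392527280902247060169571448861074382618929127345556543152263947210062506856533430448127101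069448536185283602115653725516085286224274553959506962852964111505411565190684792642619012356102812590575014129840861470171860239009395166125717187705486621104387437496793108413853626507672159119352628143974100043620177707834188812085898236628460131637884965280035394286536385416967903320625230691307631131715990441043287791129470472305921380182915215900557315151895988790878887234220164379757979293574015921021968405053541014055779146344567010584394264230105856351912840055369210623014655456412153757706226572959896171380335322597848833369344237209875724805677768311471140299191654339268869304064166705958364122771946261235900888524031448153069160957840301864832832036939535165081824662508583369722516421688976552986499837838211045646386076910774960049393584858309779103696805798791752677387042769682243420366663867014377455258835655298464889093272480756409271235249239659890189018694816005968925846323138005018995310856397996219257080770434368869223141026201144267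806326076348326432981751993003775088641506088987701326840125189849771970291240113506013027567105407715137932820719716530863022718335104581953090905086573136475089855211495556657005541375345162773417664681490884205228657497415806122561324325229118649810484883462339036351731097940257573896364095396463453947772482220129049317290556307143213526523725450330887979645066822689257318328515932429640712366015013075044262244368309186772439464134359155584840226192163730656683585888850424127759206893511820980669394626179344482416603367568027732280786136477082617611727433027039246316807894363634669953766444127370252819269691518827608426793564328915997482950279404286996325526696398172249766514594968065749207309041724378472623105108454261389643868455976391693230576974051720768465893780085713263251080379779498110992421168209908550425279179664242717019841972614157693785483847682578580282325722904647986864392660215902519817405632989527082265618764338376922329675938219913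812029851009364334537632886353915243539989682031322847440412210953272611723461092748385715561166082097174639598410491015455253060583200249439443375192957084380261522947645218917335974532615309755169969971287275622167231842103440844117536526529258079156784603240086846626318805379957868889748507091524460503936420075210923514377851823677152102742694098990804777804001487768845566480752821612395826255412813645570958337729103168053019203087626314127263719892079247975058093665977767971562473901215896948370029450561263703862363386274159576628837894385203087724210918609969862878334434777470873537242374002132823210862085714393799594595120881317708175845992224529657607618473618739892250232338290455050547824359689975482664597734738497354124694840773471293211145945741561591436786446617777556184104562698928864005170345702214196759131719856228582410840397343775564646259483526121899466644775040173600569798609703092440654902675778143346000704571333260339997129848979392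694234026041031396998207925272377469211870791511893540309456674146392491903751374085508399175822913071873097049053689432403795149830785901250188056038236758621827565522094771651985478801040798739404653447659939449203849253356220221973426483631615285343846849008540291056226450935145129547897627492549516640405942636798608249100267475041339455885925146408326442747354624097853349901804902501318587329422590012739266642143275487385642648216076116192355423985567988744432136966585305500060263314824138635690416370565367331421449539411888789232662065814768553591544093744663109389182339124488140454690474863398770449297199439471762229725512980281469481839197718133833414843385506429228626138337458854210453632820469596891884039384297272634181756608463907093761144848892825591458759030505999051823157115272875429725660556609491945596143039290139996312613059519117162101589508649476670111034178655452018992202594213433858455372013154025851642192399988727774417531663561375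095168201324125849911217961549037558109522691998542711092483488848131155914439995241379616315787793642358060816468089808983011142839564765905050994527082184554562326556966708304837549674652284962127130628190274721859896179449470828510059863063410388960317345464106674351282633585257062598508079276037200082019412342170345380205053201086624054093756171439103720747327470060214680853524735725967098211713731675866199178356340278599716104862631825479044919098283241281739243164066527606901988383732474161906657474658465666966703955237842130784575311566150936413116284049578580891721012018922103662322124526793738666594909796010181002981903162780707754544145230557261664297488156540169394807035079606243473296000766614438665791379091235773969567820746816188800927221616892459543115765320704918847829370803622135599651648992859108200984034366946850680651625915083296096550213417895084288755491072436791907297885321197057297151625145142913803544826706532415524897966739817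517262646409087693275654818142595500322460636260099931292951039175048121003872978887666707203187433008578903765681542462347362010780736526673191657872040495534997077491866341491519911012476063139352563148842713009330090234311885389756734238397222371852340735498264068978389900172044134966206529847367864043814345202389368213527614186314755339823490443739128865000189087504207798953697067775281584337660770683724955019654280937732234694247504833143084319677436924962062673310084788556991553226621034425051125224190437906755889484873580116749897494474001440355015841892181735529204946260465301491998117998295960611914116712386889729930163115595132281494976532586537814975308803043382299830660851759789109385058497656333275878666213699319453005754663504213409919045864100776036453587882758694859715832547887009694165183012730181071786464589765072353062952273984238307879527440414616010751972990914816933420086154935538164675438805163557263575821818479904897658965549362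762273716213202134667158131865381634720531514273351562068796285220315056763263430644966853463465409374613214951313875366850378260804625931226995753371322098416855566955866605323850631947965077046947509734389764561302216965275417697551387994287377270686491871789132119854680640104504671398670825952329471752329233943131616117424074526054162817179169847713192469339990399835960900329768665419011081518762573450205269912326909131054448836362664399335237645327698962909882148692652755004309932801458476360609801669074475788915014846735901314060966497629007068151797932490333959265379682258226605349971363714364067816494410834112338208688904406513928786145988777246243998024921183988364393319539519984074587111776860287560221141380921496477817869379385523346561347218888362378334958286175799742106432814098660508545036772732724342023733309661250343246401932620948686537240558095383374676118483497975929299271494837117922680294541026395594353404570318177200451389835371733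768193369320749814401962288589286609099769580624231361822635216526987204131270735501693262666716701726715891483121360760359167380664518974807172030828248287003544169772735185780095399596648718351586010641659384705433064253588634679589978670972435817500378096885557633344965305723765086815990822450113939345704424825560194642260680993442329471268860855400960929590413125052045837306360026476290593461008164963875920576177355505413116058210132481630035540396915126869771480192688388073719514898144831458265750499186294846765576486154612232460568462107434611212854599993578162842651293513748097688271515012168704578253149160076246510418072693792201887614036358527334067121599457228676778813390463161006151916236766137322763680358576870581686339821485582109601223675126668159589921121270860839955423523816004170372282092692872141114540572962440312537014569312559605715128383217695513521759631619265822337336010559161538980868950675367403677152894555014718617027540979890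755282692935735701686853938067118705090699128672088218465177522955933253577389163194659955935657311721661352877479412911049110913464834087949634503795383087589895417731789411469540446644246554829497786631162282563113172264142386131236137083068927979155489595363310960105757299403556203887223127818228620332406073590178203155918202995724329935538177668019700270117418615306071187149787947107613745875581938491687864424397857374400554850604131773165575275473055007380885204679475386376536900636098119103216176206185079208136436671109739655475858264038692587954430403029160381668207855733090755929690116161764068342303892742649247751415518392319611145210523738731701883890047204477225404302463324956951442818844032869143158328971464569017464507646724146637481453568116676705580974141785692436315197985053310401726148789104433216889761220235130996024813888911885751324450277397247393068374494920649019228303825866139142816634512796977177559201593023232193137126103960655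495734140507625669455650714973828981487214837793276063763748662701867117580129665195434459803637058923181444972790225459734587222563494501588020142492397733704537325642944833640970956027584047722050295296573156078782172145691705222852343143673161337337742313318618072376436564759635828308930858223013962224200146093705796949947619292093609708770613073906404496446899666770678537725698588841468977908973382198299275733122730574737909765027127230114066772866139438132940625974269986769029549477174046493976576883378055687230054644610016387770654154097142859133481551374423106690124960153661089166533900223548404974298043364077228622944672480894875027508801920148980302930011341109180262261112138120768261028973887309923440489655507063337677305654466754354124209188107215933139056611332117060302565380432595561656251306160950866709888096570532578593537760738925680364132976124688516870630747680808392829251324493097070841280428137597903143932267415560107260502914626195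1449599176489294494848359570683936723829957316604385636210860766980382555193312429463155897041414339411773513454245862761739938356787530869264217468436383583013223684075139197844420993347681828576690644130820430985251707577233977595912156688086176304231447787966056820670191230834005714025964460188252138146361964259525649108212475691069097753069932912736867977480310395962291835923328561734998407199767072008910699077272274438819537568535256981792651565430051879893987804540895758897618501349213362741067737557409588923127493570397772672577649674369426780918214244014256067176168450501955450116070562996432055075913498878365658790136503581246644894179182662288459078311174086151386447441919684934967273136546140405777264837574568817085157042923032442922145961015182135524260296931627375082056478432146168047428698112)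

noncomputable def rc33 : Nat := (nat_lit 21494799222090874898297890414590458606386737018007039063630099817906152384289148339206414748252310915952960842139989989427975828287523258776017746700952037665300035866064915070387616420030652485113610619649582498400374854982648898115936265459807331294432231931766269491163567023369195188300041565468066230337813220499220150246066076055034164855557147295238850112250983777460692549577692565975304315079401497299761320581515415171970411832763308138678675483576983465259676580831680223554404949148062088014627386838929624524893669862795274827631036237906681679444115736555702412858881137555093738905971816533903115000645985785471138269262114270886144014945842026202492509733229046798770233402838649808525783378904628632312892132108191018737113750612246746367865988501502688330294003912376340317222584859527592733030277417737665301567403828012869331700594381906106649084522004246187104431695536644186077784199058926659911842577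706629784514243480999807758084686046191103857678098777896265445974455428472819061930066369448943324523376665282946014226141108687401685477467253798299753909526092410104191635569011795681828405390903115801838124409442222814178128412068514025851455508139067599792685378252428436845521673131346808118397860510493207864886804671627190362676664265109248537003300515340200937691130069368670317490037362378152129835572196322428465421013004468821284922201901211540449422039801630608287271485857430374186273410902794080899654314516918430573606864971370355146209341114129078098805758114645702926110483455789302276612505372677060223836238467537161706812762242634486860208119559488915059397381399894435799828011453708197668385016687137139494708670687418953089623755940222060753619787180265144094463849181699174210010278096510259839486522727663538823965569138591970988337650328779508758820110134180972898065793588685092595715373757179912045100651960541510927241928174616495023915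784498078099327231171063487856566098345786227408141308570215566527009331379910091832664666653548605404945697007583932562396487417884295616564623141125090235222020713055087839416239565296205452430450549355268548422633502665001918756336373477661607622918287641960242025096175507349576054092118528992666961369323136031701620464702101487771034487260553551984590578085995165051394895140270225366072959496381088775919387804469328710838561922907638288279368645248567208021366188653577787138187754613611558827426343968805055677612173215255786927186408521751213333833385603252276802498223209780411315911085301504154770795957964848855432140049577251201974703449043391281886852829125677024639410522004802847910209191723574186662427716111433036963479456749097308787412998091388424278493314709408864325672042909141632283681926274160937653611364894525669624937578249950990558653553734110601067210026967683953319255468379982500616941511666586950765398491061556353003441945345437843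246303933843207332030980308554929400223238857716379657015889824474773523626547369094436931598486231953731786510205618913677372979085634729138048632398083563805092521561524044311467273446178400079560440593761271936982725050091666582817523404483594703545911258473200698920663576245533177820853418945781209631292199807760464299737554590850956278166743598318155277548176482992602190874648316618078116004786265732885649900535096193780366501828753739939083329309921206600606629829465991320977305948201057207830871937733833645551272091949924656837798167746447861334418026962987889039892325946650723920957819666970242203669768405635763799438803722218673936964359981701493660292815896379410235592260491279533502140555949801347453915362041554218232204106804009511909267156675210226037434756432940925076368784524701823654073398452613926793613219808509982741504953646626929005858662249182385499913289990568258458278566747046155970550724810992046779735790601540853473554975169928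406705953057846724460840495325779632629365833871103166487042799913919005448058489543547644747489690743012497220365632649422045793755983723047004305959268124745592142271351348470950035233647477229617335373421153260227569520079374117931462735666821373457935667844088821551835679326152958438827067916442128876791916409741886215339809120085928911152187056260397763190934924677008376661621243074807272692172760967731710804512323842425112792090560830177000830084382657362831504891816537013830703024237968804181161753596056831524044105001268736911323406274690488310418083627610155527473149608576152312421021786311072472423183406874628384577950607804583319479459889621732597096048008741143264195104576071841906292689816955832217734396495146751975481851388644412353315968891100891309941966060927551743233679372696125928578641438836100299763465036948884008341048479260284726679969008253117328676934415648677724081127315465351487878644594478009423694426951522422196359724845381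881681976575607720005255203178121024126762310125772789499316677832599519846511087328739454787928639806823952563561428142851600301954838340994454564485780518700140956762936090457482047554886266864670522476991388220112801106541381655037161668208757165517366650193107558162005962108926523864160524030494213818535383518883574216112868021184172200486523264679790890876369015559303977159423810631418964756031612972363340348156466319005372616914206791893673719854942603804475490682602795442731114423929058036896915246196991012136022728159314539233396200400794815418506921834666158332469289822635698173840013473984740929774918267673413172400103945237622187263346262333372632330623748399802086670773184334151091467681060207239323560278107125699827678253736348528876729705749936887733898524913489483684108925997921698442241977270997114066776636900674350808031077938337426076870593874396322580195617603137774391236253316881494649936511380042498984651261064443699150384503080477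767509467763942497144766867495636184934223108006274286192517096515895547411332497574021707784344746320986762882513140712423456638158271312876642947414247771982463634460727151665318787594186553045577162436811458154801615764660558820718144641502587428853546314340515637334394364133519342723567737868870190071844859820542512112710613088405097448992088622744722512417398512879615923933334080346195724843493513387716794304307004974277789156765856128917035986932113511545138061962134646473725531888638188486694845831863510437344162066776582019589423664893449244648556064072019406148244103124853417566295476969046710224960802212169325008271892225421894699947120728736892360060357002105143110817439134983259232635456139731914186928472279818606160094200102678975478932958897034887311284318866083401321699748289345832981278539406446242674152782895953366793452480573217278802783202627773012095922188455294936295688292973586317833746204467194350736714106443789798343559206241416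503062459209693358433311374273563459586356373934854328541036003708261815327972866872436920534484550001492957105048315302394105567250087180465974238212920750676422966943958110883533277606930386858178071603596434121290903346272739613606710125524185857575496989123024334246060371357509539006549330035814728888196838294953330234671151748368618185108086479626178431558218178033869833591513561240640280174106980874803185747089951178162720188849464329411448497010797200704117462669707221977916033260080463147686982844813438042097034750706021871029213110488035939050600781208991427171044371883075983917181834532142502203297176030510449088265404972855434827600160080632608399542098631117403495292756272197981035959381181172482808497851749526661675031946452236987771835075327571043018589745035319473199724335840310122764893029880792150712722536927363963595436167021907023380505236951500688251338166606094101868536872898323240621111159796414561664290412733604816984714711110385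902545382934292474502845940400672539523902192348564045753000458761736753796962944459707882631184037100376180861409365111378150556472262764401548487687762802564717577292296015731606480278383304470219523362815416371942495285423683428362107646233979409139896681177261382666532072627447548803638411087052678141131118952797539957511321776945092478556123130321874100458672212344036146005866664352914681585865768214151031239291064885605474886216733885776060150582527490350973316209702409708291737305483300015386924175002251926314650630048199224843589497653566515044564636245509606122527404696482827313213957601257130130668549266319525150074193350765430625941300465500370570020776443754630047822709522998674851890654848193495326560862893478930477380604407912983574542856692526929992080385776225619539120859491675477646666195518999646230144641521903177172836773640706191463573039547051407532027821889812282256963109356985305507192365557556217431078886801428829494912096440412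189609168975157210781703016010713003046054100615110377343726572737419065111473812518480929059876640958879235342595416294733043278045105968941909955948275857195212859216016357711699730933453189281798573130593618951427334818437937530567211877778852460679077043383162067036232722046018138217064551572018153562923311689715808938429550943005598956214206672362803103806317698927695266711710511831528584174806392044680481956914647066383302336677503995379698728114257490531756765455862028151259338565640369605661371830184731402295032710204109075042961397829194421590548991358844910904154276733633212514559215316976569442295055535039775144015123208166595912091870540898929730094263883580460258281359916374450325236018963669223196669289012989516042946725401806018634899971931435127909330187457317988367250160269414763323794548787700102529934189702106161257229702976063255246571276122908416385322584847933925909433905928993662489684709620276885298753606261462799612777335227767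488320796825495485351712878681223318867207079679936488075030092232426091307815129154679543422837165684069862375394815085583004795717412660493105627404378900093456825010777380903501879225351143468283319476813803868788607654212673043835456317919995934667873801223041568788116890238157185711783376034576048422863862224815180279752417042226488175910038569860524812850751145241880853435357838113623777862206896565641845001932754532630784320271201674183317691680732844796278956094602804165569730159886130548146414571783755899113871617680803626735363094069264136991389055570394241737688159751662683230529313982650349666956032069446225853264680819101505393488765182510720399081856637389499118278708146342123393363109326824939636597931165431186191312236291952185109457507696804479801626110653546407329234161532420453592882704496877919181985642952107587170018801680534701419639407260393934245172039264358169033266907914536401360926862378230627561026784462689925684074298145006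557653566082967373687258156767232713938856499189350264104258251097081038356265541135252763623539657638638094739863103684666154019550304057450543908375747058814355972102804014154541021474076761808561215471624085582005114063557381775317344208962626984486280506526231985585857642003932676322240316699716340742971569435121106945080048599571115714568691338578734162781387490571667580000225384188461373220373093338373089995797603736519197382254614322814652079130841634265979337143861731157866662855718205846333277293785273351063234901113501505522740862050678171829949662225272529054782131161790296813054358004161455934260606104076067960757460317577546673218467704223970307519813972935234537121000095663165734780531439550663839782435706684397650499857751065167585636815513967593149978020411237067479349582482227474768452996671994676274571506964075423765286376856403144339763265820268406107161217257914573037996583122943028249486533421395966211293554067086353560536542949136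385582513612576070096999747944756006701911036354995564262802958627026322866660079136543763476870420427813459425268558935390006912856964252656266674292725119459864593230319296142803554266186451848868234218358043102553540063837169533041734471001844993527373348081837197309394454748951491435485627999995994532694102087467059623622354956197917036317287828542333839649320338434468265195054030916493112047484261860305414254449359049103463893058904350290819499434895302860908000675269097658467710540393710206016845098746128605315200303508161192392465960887720265787503668935124221243951207393145656786754627141905821722252629103111551891485577114973126635182619512959585123835324711702252246190179482921290693779481794774409164762778912629337138934826801354760831052573564574291342394540821779462247170824973519991030417253216155226863780730713835750395953831726506411338657818968036027452272481007821055832726133255807936755603153898583198370403321981126461947147975816620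504387349829943718789028108794460752125012387368556616503493642218577392806613165769703584636858356412638238816395123898779676428380226810082731535631179504225847089682215879033997759074304957795337668143023772681139723618464619899525985539028823662884863793328311102419576699841621973760130014571427620718214215875847393605076073818249414824662597911067582703398388624531350112944279500052228935342848784309910598737956037282488278614937329826261377560189699945486943146268379039759833408885509773610558586242889484372378249612885293476666000757772783493306219706304054772540905096214122147698362885318588429509194914313437383868886784849895875333702903408654597660045553641800796544877522544890760872265598872069580928512729250369666796666967045424468804337105084742903495015932800016201555999669136578161400391107576441607594877093739125292038598351314280698849878890952163527485137894925150025337135329421256153424254550252152735268970882106783112044038708505317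962703250650124169184447010147664055038844934060978759501589041807520702745860845108620853739790387056113590976775109380387996099226746497830280927403898530750619681678358444843630245564064749817653707181135956541572078556148578303986707614961043947635588804614228113938648609893359041679174340584179982498862579314827555437902039138144208492995200772710430546377671466513359698033503310057520724171245247102286707509044421209193841482148723311247270710273851797358107768020492164995747925295533276514986540545154075060349754987233868985297556435516333453534551736290632892231359539111574076692360977544371217655343396895899416807568054411184201454918367054758090662424752039873548274945815577451186232755808445550494834546907234362474178538712758352424309486838632037319586434985315272549818579257896194368029749566555310231057217426707248486147960535171159970671468412017116261677208663108448421739623632805093098177604503157318852620415596014251725524813908532542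068644252605631866167538520719004730354326879513812964773978612939733894876997987145746092531470091833205017344895009502584703655920848886662723919056713402081103538247597471916773922494935947999064215829678394550374474514175755330513763582528400094608203221883367119374033588519480809491472420134770390182997059786372454583898584652813387507949461909492020956263991047929690651196046233329987483553166756012271444604428277046193702210673053443246242739132123954565540491630134444582185192251748513189112928751303343300664194655065598922391315500227052302447699065200200850759209555009815070705729160963451044156068828988211725046287881108475246581845119733118872317665675350307765908396490893864330833743924543360033880233342433600363263005115808694549494961325687014043062244415520504160437836165152665969114792206625913266318388726146896709735783478661820809520961231128920775239848853854404535251260677500210445260531025999487492528961413807323520612814688324355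154997442011871813995341559505014663714159345300442045770639151719291211771671599784491857898016447957995620626340691185543631053460143461093197972600391727895156897787145812621995410120443216335541963728575130063726104629988401029946404659350225946544993297905160308190321690481688348436598826375342638515670203585002753805123226140439929470836748756927428413311839808399579680470183141550930875359640815366246454068056905835071857717093643476068829337163099838222524891137101649018300389725826399186611858826528228945559665279122587954261398090128059288351501654081254584283949763572018645095642712796771597241167032334822881787090206087700079066216972737217637221768994102515454358373103370372824210661879361502530462871227949349045948005183718431555146979042395002734096023871874567240153664510389547063642733285759850959974881547962913419303876772346299664441322382909936241653803137138807872136353672699921586234368579636582166616344354181588343639346715242796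586368194300779967092043993302754191765942125089463089458137874807229872648515402305156860623366751516188722513919324121357345937999031073172102002524892275175773862776963800069306612944749839343750920921367157294027736005511555771370611312164576755797358363356235747207627786258931433932917256877662935445690124599675302526770084989938866962867633483380984376436141580075877242063315889100063216666956196533125193846429590798100308862005027442932898622312107726113176306942061799095614196566589022829798078569055040094563982224747542841986431873688233412867720278576406099449856753092924349058930493670402920178162306530133660987239519982196373598216949098326538467409571935429185050519133193716881142133309287151132080357778241578544993167152819577524061312142423380213178646441557899308151332018729136544975010829946009481029206796105086076144620259364975457989217797668869339894284096220095754438017871380971932984480383511002624175123150593363295767220210780309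7370066847733978370146145695994455224221489481348835927128889975027934774898984223770499509298637535212772294670643049462428391529988341321960974219590907039126905648480333757765925733156411438447382764077470010238678932952473539052551980329756799069076324768382928325004699962590091177935450474832250495578081550113883016009790702865506850007874762760464191001798018237444947275128638378381102172812701832379665819348317889818376920925414604259241628880780549859067408581808121164454719961916303635792694338680753311324063772554781597694944681259895571469715332924324932514978336650418664706781204152055883902348851201006718726107557769263565949895509236529154297523555176540681464033696315324361342936995020731001676680915854868391128652747380446921317128792833752002646153712870197352001969864123541332463460548608)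

noncomputable def rc34 : Nat := (nat_lit 21542942978945377022823585731830964321828107437908335363871548632723206100258619446025821049305654798090934722519427488095327243474394013364779930291649077495495703965389577518967385964975566861150497338634338897968204551448196177791573369458022072822273015635534291605612931496406140168473069639738946940849791242572247215500064865609669631339190024697576175622805728273176465333985432158366529496032416280382771590189400524501532730811199033373507862585376346282103992864563607205996442834948928118611720671288611421105583181420565627387177707256818570148141272993184611527734832723533739500366044853309345174919437754347504491702410389167392620767400183736217428890989210886792776348253759939132300021014475798741947431101692861624201365463381612672617844398992758008877410574181075892776271079242607315418655513970372619346350490656501877138467541070241419792203336232576823108243826855994344545318590462070365752675103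391876614248257400851943104548535002425094038740431027996732440735664847259817763868929716998720106957824232609932054966043747326456737139324891524982975253302624894305746241607701907042974669598167506102760468601605676687648151766328675286095063829603271823110158649506693484798498827488744470211733477550255839825173073521998851504383609327017746886353398468679876054459082440656888271381335645466113114233515810898323443024759353781995047933755632420545787486293754175724013868313994325967049549869038305562836395646440257349849575079943305887819215839693403692521332724963628459261901998880545455647413832174797497347265161683842601442431621654366864323558579764063176224878568731543115748520989895022342796085354125695038237834636620522484616517745360896162644914191644234887326589945656968722122143179998515596315398166956585922944838675799042827244251864800278524436729388897247569272083246334086971166279058635835797716147284504227946153616843086853500105412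098314482919786123718260890754561744120543336213387529904578301957579677794179699547508728887045701785114794522878948953804235818585696131359435589975235452389915890177864270592330561322586180479657853186125672821232261509278741633142294787596518822779220837649613280366571626959016764806553014872534338350189972709205158277187972630636196482826563682191079679862411053865865827597513715650104979564360383919327438793692255103425108530424941973770796575336826239204290347046209469263004785479066822936117250868908298575178826828440306776625378229324057523935905569997282512672885311614065680700465508139566529593659116031271851683033673901840653807044135218844421187718016811016910111337403867346504739085074527307032053540110800096185954491049555188458320044731833532019270680985606843759294424151863559069783432504011923047672996933685196473036601562178852198467582010621939241823121762644550392511942720022937793624668237765436025371780208631911933627982690594564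052920696425642937089627840875470319087546573243493808226872120266048827730263486708463129036726749782891046202302012805588814525758362635368509195727506873668959005536756020765285378469783577221046513290424808422954940913594123656469577622828445959644168603427331517854834811071926533439026978261432924851578891326223649179119122965912456446456075034579828540635707824970421888143166349567334734438031616504624674424783164203723824551954172874839574358588404353783560618258220930981499083456614260215764739737489325537722562369141857344764853216202144186899835312469109923471661813598598655819550627591998978454600571590738770294093815331348167032730224691519591125412257541847166776806639137274558897979477431099012283608768227495115591595318991534032782067683799488062489766135436362368650451192947117581273891853539838343747619122185850371756546282011429008072599321449431826191657219809753837480102844959496440948112581021423272014554386602250390851001854332529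232349008671619023123097679859999416372727540271681021203193631928330813869374890044535809647899469130072503282161269416992622646775055021775978131173893537489386222129385735500265870534237907714138045332606129764902928636321556741830413018684245718087575225602020383380067955232105806546559511916954424907851958266829323320509582175109174072328437305637072757296288435119860416015495719462208564588471660052604665075160502753140747336453606041300803434161368571163296108965309390372514221087438637099066337492298795056563385758301860128303907737631618391793743043989226987349328382513622561318242180146779913494756269267222147142229176635559446453130529285810602824983775108182489210779398642919924845631545216997213899093817561309108263179345465214589538122825361600688742527321607810412099202952251602831918034321645200166820079738059157174834860690164666895038724847760199587045371868610620853749452247966424745596430670161679924656339714332474353162361962938080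299905205196694792919403091708140933921487104425772287239050406376871644101134375599155204021690457019052286865153065368041585758986117709682505117484338754923452347226735462146397922948726329098065632131136549606555767207392123556971248254450043258779034739801115775742044114146868493367093931492692121751271956562176306051050972332446324532139834476130040022425112035316598945562480952392269294558398214693817724139493937712682134891759385883508801684887207206756977106594165983103854675901783815583748982947544754561716583285682063661793598957813115051210457098105314750012675389236641303481861622057356052054907204478223902130914915655188062835553418280159828332416159454175674248501356094656204391560246793809239902958626974417310244504492955032860278837449885447951953799389760176163894967621990318921642998975487749231493574664767990353430443082256586135968365854382805088922301786677537194061931686970092318748244870429244727052152484001335084930405434530004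851351287453525439471821593791110751694780316070855166299845707158774308868970456940914876782464479977475937668577773046295280337826791556093331392539522482804783358537658017085673862506009888309321051547067511663307801169874600612402241223992155001655427157185701039907740149750029856251890909678217666930840129103867812265478077086725317093670304394159098411846710658166684399448240036651809267591881915651563544233650568877615746234547330612629667676288385969354089630362557599382926377722948378746384538219424087486447609508416687211606317322865525886026481284288630756402066743533831691694252697877608275173083363285634852641827908102524545955500439462650858260660351849696970157418805017964718368427119179244292748444448770698042058031584647945638772171236802971780511899929848991285596142876854706781107273437658258772199634364478085818166853289366667131303295298824903134563201900009037951022132229389374186439498499069142812781230995208139715056313791993707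871358574473604140548437357925878835158069377102419825669909902908383632056051344893957813986709434234663518073767506311326381220406807610172847310074908275552448359038046478992345750577484303458407607852170501504034711351397880825796863612015609638570827603459780926902274443326567976960926777900473385186715867808514720061483766359801958609885878296425783150209547856126533176457950743859479590620323971001671099978410601162066449853277999511498109378050415290342226056793162525149428489736144166498422042471247265442791344238154561004888347845171564658584038102433801504397521622170153385208582998521847637339295228694031311984986893002487326198071475205551657147342449217826669795362876726304014059169407810996307218731634354167726322458515516522774569737197510939566614707396138211932438604731915163596112737415464681192770869173420828009591467236061103624371070497633636040124208261825587572794039572902990618464598896825635260207051075409947947036099065466816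250636877252496525947657851891151006014047801709177450675791674999672886090475705637145879082765296010370493198223023207886861230234395051754946182598753607356249582986579338950326250363075714090977147488479910264575207468366098981220712217159127826771231194224061281888094689593425652759168401438427910653476355094165125760759958262816092602724194875716112400584189788151782750152592424404293584641020428506990360484469532370649406198664151338046105921780581181625309398864934244922320140251347311309359162315006075795976814660150444560683743964284769742600216766248639916556315044718418147066870759636567185312189702225288051243177001524792981566321011517573064811559200805972279932139940939553794882540530132385517047484632005645567553177786067613356770035853099333032577929852114283222020421205713903659279964361605748803231871840268528312681928251232771469067812195065482703446455034872241037715904338662467145903544416919434064159503138864093216017702880562438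087480028499162267479533642192884176116481497629254515487640966452676071261977311942648301896796416325831891545120735675210905431413370609289830267238294805511966285630728212283816204141098527891233461534077834109049940919582529092712564793911354472608842240038783150399986152451826176535993584794994044646905361195809880760861228233004673646883559606419831376101211533007955246893416784497071887172870702580988174815414169936966305177090285160215164685473709673477359137884990607388837746912745808806021317633770178140401719277279611532504358627742793012234333149784202451133617408400489807486414400817137054462268757257095070874972002065542704792535307586887731931375602091731358223122496323891548128927491106088996649688824822963500210105232651768670413512205424855675834697915618304193049781690899393168607092806877022157539841704764409721773686362048228907214761544263482858568619272932518042743450119636789184156813327973298440103713629687863212957862042287425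225528173708470726494923727898928300283842725462060853939037688904117151560034925618775337489073270172507893012465195828213106525472900608592569201638451146120299162061324242222952841496099851350412955430277026779994869882786072426103433777038744994847880861106483739440589192476130178193075654077755755918217594914036564715133066536578508691050895686454631560974060309124106141843789634796351474096927494691277491479153471887641298618517054288072759670820430203562072063418369878186927294390928953267611442053908967535666997021283004092925849468978570088554629251733784699757080144979936623160552672152226699546491241802922483671276464614538568059864521663648632560971047481402211926574647534711648399624993252709631085988746063927754778452983743899920098950231386282808444020279452613980980964887132071162929772473153100526429222937017850283045208345548076662225960298640704424426828411271020703965048107876794997092747378415599542943876063864991965969560816445643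094627367940618832484735600364917539758651404176063606818311823168092201338539607457033521353707239436851500505597157621332294272533272501961876484916970706230560688785462356619680775279653842779366994672163963872935506494857996522192790249514541327945154790754320995034173727605947323860510770463032242649112727852151686997615385121132527955251185784487604738865013339680547719375539867049972755829960800565626078588522801346918918954610528126821289360119481297184526109724503016059366982146290185932317876119918807616162143311451974906825151104718826565405791141449283883498865556011244164662944670573889377519283276823931263031341635656930332715071769200883509416730219364068828731059707639573870282611816197497997368394511764992505997625322180119060515056384259042498165087577541925541188975914490163759215242045265763731129702554241729543718041563152363836661707015319180037494368661962500758862231958024118477872699178911450715470386330466743201313086717806051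036637506811110008258192926343819757795652467265858330203375148794450421769983404556354349970818879485119825121946567142847465525876604970197661306584841002645657734596441510088014063920371839527470645013258984316216628802857047223061968063445918632371801967564517250707182763143526935277289541425176168750228569554298278566518851224972200654227395945389873869417114448658152965409764197706835570186781731053478244733044919686078670348971740290903672323026146418070927738571776436929862900801608207033471469126835486756209031411585530953890280128384132208984863831521329117764931105590308176929982702498631053809875027019438865144796763464254045234629398137958169277343201019370714026565017197946244432452281345156890597092119162469266606019982686938103631333973659888823200235471333286965195983669560198845033541270420708488111320218281387841765180964669994604986790820094153098431091494273267297168743707083511069256977676555312826000566704821907844849994772276072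819459130458834095014010627575679307208532441952861648446334624027256900646955194406840789887128608583474720658629332909709181978667052342592811154991861948530217866534032928349260842625592423188508833441406614336642842720837702429696017910475507454917680306934594203205052865947353636027472865811776221012242570738963369243149134304790082010154240334720021253226832359914324320344444545058646988520209953060183391690384802118680233935234124818607420827216539765892686398980758476203004571286780319055825701753917173954117910448094447788084086030540234803054814749112089014081739272940588185818224030023115593831809048436369102408020999590657638290522430901690735202774620656342405377338439455007612353338509871226929028097099528142367804010889111842303704352807984838437316439270485440146823759182499984423844844853996866129580362818150350637781210196091752867782865027411076539736278554689461634383362796914433134400751092537960072437727303411799690965509601513425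850238616541400324192743721769918660795692518569298969958487039782690598921158924161664455233372530717609579713505011413535467449987244237769267818394744510132552243942219598884291485368907930220582716950787080227454662326246647693136623399154553867707410419997082999686097139098795466480816014467408839180744752100906058936583604714012008318730580193632805979383604665880141595509057355933124662321648585598447414397092654842765524820720611888880394874125592682469885829569517600779005475510466141836920865566068625024383924239348701604325083295816046950058466889404913452011672360790516881139321355334151642362465859001852444005604916206614210307434515320611821493928379393627626693004032635649417912192019677840900848506340588710666272957714194126203532993777190265525781701176200795385522591521821545514158784551126440739206897978023094455634580136010044063330875523472177730532668811679030159729539516148689223402435962231394729478343414924396189685627156951511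545010728606505363585284830016941581660750106549044579005177531414623809091255396697732775430863348763010807749823174594322797175788100768261141044014403891373054546717701623491587971747962087121096532001937508843598992788157686062564911967970987083389794284352561942466701788878852904821532037308636574447439777194824091201129644993963473109723204179642113879626886956852014328852990499896235461354840593333797482722381773982126325047808753625672797923490299186449543318379586803094434844988950035386554598784504364382156480242726015632390939588842635218692785524284612554468501226623764922432239473247238647211544328267948428400139433028909951285154812337877999656202413903743731437494387040431286974654445452314874915623692244478385111732637723515310840838314215529585396779001984108904514331516757693109974247908299150560676713505149616306285199746140436048376833365623731944452437160694690172195412353740814571458663835462316416091746630959437432599767151660639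481710498786184102342686138581754194642705449824896235206160937718139562858760370787976088270713997053702723707320475658645841177513911363739356038374153532645355347768670458792556134925412018531323049372700216576691171161371091461717865113314352893879313335829007112821228820361780825298683696766998330600802961492968728277938059637628297838875634958905010497085487539904218554296558857466171691577597723177194924503761035491118633430009350241244928769785887883423826030977667958334322390208014871095515774074669982054464468692803746086089829447635828098869619119101247448958702926161599647166139974023120712507163920781275804923138568975062768183093594501604573645813558610863980998536237864188985457837746109872154265405334285121375151273877823773900720478240331166718728283785778720156862299248419366695635293833319942452813568529345600092374273235368493507611647460019371431612388386602555086668231334699029233136256823899355349182477888700414665965978963645776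036018893485092831031722696195758109316561155218878913963026736744714737787332166318518556400411263837806750403400482123728315286441986914170516202745293051541048132652051341221818083478170441753891386073280330248164636187856921682820319327637615877690143169869941522995734156188774465729977377263740890571840802235674972867138055603626729166479726853061364794967224091754363700745055694448851836694459135240337649801960205482364332822541004811065397200498988613126801622732561116368078028238846854324959268891936456772505291919145299037095902053538593502052682903037907524905491420545140110351475025230758604679614376717031822152637585910357869026506105006844279222785673901671778997067613775138664980667297559564087100972149544022115777678654119144276384236343245195020976109868365031400946143593886410618910540556679625795330543382200826771216997755831494780312924466041927408540415679028125279791470234257290710306823873776747719756333961714181295108477643870215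3093894731083962060934872924861529599117694755182798909670970590230127291775290028286352890504294721586013928190899285058133332955181754162552830705017128328812790551342453815859041857502486423669399851647667415333596669516828669146251394662851774847567656605064204339260358249761378034947379188597676331842895670459223725404486174594018473250018890702647558181018929906031715080392562723505737078594114764894086320000710054002012815861218711814941702095771572501085480902250878612272589056022301917150681714249812945261309209955829958783498766174145998750010187700609905480441450084708066484866518095915678710478244536159221765613637065043941945938550151942085166482285395842384840507644017478423697712217417097596805021172605179890351522323815249934996165317238903461410494658417395357904647493596912354829375897600)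

noncomputable def rc35 : Nat := (nat_lit 21590714030991800937751623730852040795263265690853128026636356443790829352824357055689695352907807881693735554934933416404189829548516880147419852020381045719074224680086063962544110055745389529658452468429452622748215563910313623174290891201743434434216412455211103720816403923986256776111766671533090150966834505664557202855665660098073154131953544716841308345566134166579965189817459540166486451192641500926836154780136155774727184547964553580498466763660523661165339792274901745477491076788768368895322236434324533519887206953981713906482614421983014217989916307410404549979543252197520770348137372256090837181446074386368167284829696378429932335815673657529442950810800352033375988173439439902851263672151466189584324667142683109501904488160262117688043723962992094302021653587180108505656820288999024997098945311980983390434995155691412168353437430503562485698494507838557180108433553531305678954399689343404783035200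117176293728101740089138682342165401009216487229767874763083200840346452126856643709492911640247357460053730293035620404961093532856959754855239285105276738327598441368471702519381220866853581189280044851857474159077570911211318323227136582188989118976923775523099557699770781409249915605698499057737740314755027002275098696452143534282567428246123782642197937646066373785935861590102708735159921782532142521246655054741433742051612868267281363972437610415274082386884953318120632015571712668970413691686679219612382043207276632529435432139715830784988176215020693385774596233661986500679130296907222743025117237228015514526349842066496149846193369089151625769284126129955123751830385035091649574296347819316596963649970377102804199645697051027073470231615850138598123672326956688842636527772455887796636353371691382762968725144106424049590257447835882613236025812950120284560367274966878197924997910698570720522411357431799160272053824499881231886284303942820358730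975935351955415070846264146051447183317420032568003324246589168203183519192850915836926772662305648135519210241688481152000113686998864496917022509578268878970744747017758923180980951623136676784274404261431329360987602122765257195166105488504622081217307947250727895139205904586268772481443462584930956802262815417574000465198965281060493085835435300973389375641937818602667993515888319177824765316143353905495119756644707630219682011951205464096678475508674230984991291634663468734025036069938494086296309520457224954014257682589987470495051408402337032296959085596340631708275344805587660253320625910238908638255755578833360187386767519790223545791100206568783976275386191939485039523733944253719200494331252151349421873350538942046408097469332576910536464127308220661149466617711718876517779538916428343602191753601771424295286714145818094671722074001524422452316119795378265035895440611549437899900707500798314818009760041733654419343511094957597267245357811001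008207087403957851297208660798844783201057731697135798083965687918072975841583375892668808314682744406040792297077164485949245130527148340883682607607734179698063947879881154336418610775849597875519359946290767425357528057756387257113605739954852071645447268132003444271538788356694273073419909958715399432961685975026288776648279780461928255273758755915756456950974544603199379886195923315043175364374733127164489231403200611680228929619568991931926648874561514316904308362663387089473809616959467450434598388569962945972430090095144995187613903251640011156224555058067864949610248727409959631582033387839889444186991123884508668431247827575153970367472322466058270820209938996729669808863813912478232113270128731598844674307951758334668318465258744930319703298120517324328827324806156163871372314662917630915024043877235731337484341154035702548189840206652673933723936347820205045642308676435581154761563339301665133606269224615291868604727922890027182986463328549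979874903168958714301029654922524755501293137679215000993827512390651690503863426198361197367783714197021933746771454721350121337275136178565389180446570606370057873850250608769383102009978365072626792784585959253491089654663322156125731122310971405575333198202706492775142810353810702336846412567401967070801675904417882678491168838658456615362356846543887304326882288489121709388547070057042597650158188448355590832436758390122061668407724477776197520658166186969124314495287921459913619795494385804372451447433426040241560181418908674853616547858002051999951073688442331651673388722139037490712000964203239587854757265109254787055256323112942981651021722269208299318054836241972926462263488012593814474420010913762507862238654058837763539393736651656585746080721169818625129872860059812903201119934218066752345131667835085418045762037784958819452408567057653031726482566945425078177417559215799968596463541712396621261170886704605383455626932342719710520299476123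054455968316279495064931953328418293734994273518859092815058272440222462721177017967166150496415006743782450806986625742126066212739186749222699949689021388811372287169940177743269818265459489426135178139971842707572020107310235105177824240835824955631914243211849725713566244554465202268046659462029595167759699100886060212268224561783793598915751741268332540368232705051314453177888165412675821064085503992464787094142047224283740463349733155233139486363225783065582021710172286211216521727615898543109622863598338456576364638323856114311769528931485735263255713659546237415175461080162140654389610752108728103835059883623072984196856971816017896647240188543929817271708991013443739532047312719017512768510046319350025178770879012341188186324826209488221722583373270218824233444750287421262834619222118604171178231852266306455631158567475848384605904132073835832906397346525473712063954615346734323848547741476884360693319153478402574571455165327978077132989251139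312738137885235829902705343594048569835549575102052040053973970256106764321511990351639108051447193018461133433313103248306558065207229716448281173993965768082543041408239000558480844173663366907488421491827638100406470895794914898380768307075784280951656181634112551736664655095292783199630955434557474311726876602667923076490405465212451920736887209061301500599813443516453945769518063294719959734757860179609377885127016729229375523682819475743169075881951275819927679490377154360437601038383682135002084818937902213945645298328580170663252195366553183141699842528215606661633365568757530912457280792808803504508663063996614506751649862648556426695789354561093006488822768495620145900238139535665686913929844707074620785405510133344306746346356506840160127078848208705115507903866252217201106821420767898193045738297006491958915473198719271651305316570947972567909334659135008435725676825530429605105611349782749565453371240911686732771713093088167487238650930400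989961223071078319039920577176166785848685970968134761601709586575804037213095827118759042829828219902476267320180957698972454676246445707733313516515995814520825573325385270435616756079798841289982606104421295230550902905258681713720595762259982081781021194707286160112768791678331705669189316053793970768421392847056385569010730900261292783738850651512192558651119136353228641429402681163958113198150942103323565574022675059159764608252300690575630947937836260901374147583914424544701856911645894231753761982256184122952543230204328324788088471507204718383951504461027396392157215282723210937515883227051183916950521139682739169661255773010509854481611330569325120537404468028339413205772670707283202489075962006758077008392969001223184354439209268707221481858830471670120879246289578055998481325330536821524115274471776043547932446175535912555439227473009675843086429896183237830105854271604318437438591856799207080152121229253782769626092074028300253704603984654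355013435057447857996235051590996351410640245970010608845845533622375953079074946899753656782258398210090612110239225166776253791861501691042675756354847550705334298792779881559569545991637930049329519975416613719641097314205381924067636183027065840701766542828076662783170546732791043204151536097461037332047391575171110038315024859905972219617605162000643501215091385026799368745367996508692004245983017035055473143762449046086265402047881058611599930919363773649550532730500828861786931530799826596325505543544364872051977136380841954501627074805314325067279009026302915361808589624845778866903278528847476837185833216108679960989455102789394828733065735469818578223390025031269682947448790940548563659698219316277292217933298483542754536366047467484985475470771460843244895626420655918585304768792940130158996537182357573550667674070793068921810552782423202438099250151699739467219979677482135301687221131926055247096388319955143981600258903730791532082557671603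828107262667909750390769739761890357132426581474532151412960412970430345649496589756515044644918732993407128798390845273296740008486378118403682082042363885022605290029924458053854235254847549254999397656427549932168610854078351233292211028553972026874015307076243792159976981327017736434934339104666871444225255721672329049327215867334694462325113310994557055850127567676876252032854404440083824025432523936035295590680573620462794132588762340009319716150254195955835034944453205187114633705945627904906677942585328229188443124027529508186292338147136559167246428097979691417025415251945575994583810836407896828276012640347895221984836864502606880672918898455820255440061195277582399441068398427066730991252326002587738250586851239701162383307294132516724003050002137184572415210734465836106649391174870406207887007526448739640572193608884756735712312790323582845767680965392951945457459285693372321055830950065921293982847960347943423661233360328045701098342312241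968023807293337579161439237400631825271492111369288746517640712974791377993930197293781869374573480157077693553783060843565526759497943081927480643578179433768568392498017954097096759390101126332313871003136608465119704315687721286046797412504717952993891146014971662072732546597721870875928896797472143380851317594405654823916667390205316158470542253859714396077940499607640236391321798129844435204288815596879835835408341165503438617867548341300278082252558672236017332357528720477939339473775315195430457421823454856480293386191632217118749463700182900802977103758677900786829361672751385188852574869629473236313910430012061700143989323956301478082949573626591587895183870706754159650661289969562308507661471569593664975746760213608860342966584571370000104701960186217496053332607653617973234457116398501978287693242854011313472354050065071550695841451820891430385575298305512635903668419772928506859355809342266761083468097442754307878665192211110179266729463973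187424350757217409402611843187218908590422862486174077102820694473235617248620028667683848456260571213539721698139872350745226568565011730888021414905437898780461260228973108285761418346702688592768764106942650899145464224382908096718970516464536687717035420514485521451127564375031904492764059979176203365738054890484007033372192741344406180489719970673112135449465255377874637506341206799707662236703346027202850483491370031541667564696375025112567438024219001176910974478496371485397845770635194094934494768839713283919329825356800617209031505860416299816247206013567962168091423035054296621867285457098417756805908818597236292791467412053922732737523006111220410665813166448318710053632317516686348242365122432565285816305017784557450256560581585977302173670891344980005218281409132400941014015593778248118338498740940410776184854633679253388283616237258640957531410633089784947970729114472387765918281585037456465745189781546687961168465259289241940471474029218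130902138147870370754893904468769414281437625662589242179793135759887587356933563758068595051029327172097222977073235911909655515847231076968337252402876737811182854143959026601600682790298818175548094915849819073167382185978328284346891098290773812689837915287608476034885744940002689109076173310442869150913540441258922736388814999368816735142686442281221867153361155058182369227767528952945348754067476216939809767802323037929917427672617799851097238503017449156019278923399769530273228073324238100632383528935618726780580064334145702512142055660550683765443708811348381953487975572980159410629258355805695957130862262392082848767699267184599360067488598426142656487426608501034471926914552279480443224033091398409908912738075220358678960701476570420292884840007673553485699454401656303943189748368789259755579964010938891148400339019164597380926908010769193400698713122941911841832506563501020654579919461694302919439670175765747865424419924664796564136681161313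674224474229189815717208255225483023005651187741702545194994746059779532346625751641916822104777753806587744885940124507076452853479464693619385438053896513954809079808278867687904566079255650521714938351096705562204753080050414627735121683036156723421441437707025780740956192965673163426591350966336222408438906013899528618437444003413760737790633442131649452578178938419064622204107266412449397212483868549077014042364179268597155232940213159453472485516203282295986396429498824814917529789933644475490612870975132579772101988471130548577342676170757710602037417394112414554903464280489731748902610429731572993541583778887067776501920916232653684398002647312186484232652012926791526882645745022702135179687646385976567379640334153282438314407841012031050866787773745289319944326153963287023272646757770465270240790552124994239627317121998093611885025505973596466391003141824559250478329042627292401043249488713644598134730648956514563917950926271678152030965851587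131405655390858972684481621888019332632435066140513997152658820949056064460041160189971216561334879189024794180001596454364478506960357380149097659999371704490203116346023526484534737063759995415195959389481888265846322442174265533278228681281919215853796402098636630153642599588722227840593760220960796681651258284463218012780338695190626927713533830209653317275476385673106606483791134505978402801341643616352565352164043066484417336004633476132198756785765655106632676064075728258261207652170357075629957455075429461875743960718934763343828945998091416298979872356486539866888387167589850239181923586228456993352320418014060690020927823637795882247833280779542080597067960546538653301546970932496755715541183152039696141846591542249651895058155272299353070546577276980988327304079985517865547240420672151028891713305225646401191761331304182267853305332665740768542862169340018566062171067620552756189964152093018053454720636731263384959010261581443390801999821380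149625671383991713367488661238022223044918993080401454945368016020311324583163532187624306008377612001786304429162271167837019951363433747370386252729284870804541581124039779648002554369774271200167157283860063268411885006352434402855532727545689875397248637255372375593224129476771038729534801330238823743233813811280105544057299864918193175701786547849502215078344905811736561879198315302634580085711713178692273979574283961078057151139826186025933060138934295506914849575648109526261738311784399498940896194984976146238240204904906637228577188969637307201523934024723578368291236382091885233448258075356061144013033828705739472759659035365174831183940863111207927114126850530371882662431831503360898326178267533261447799714536088192830117354585221979220310832782253459719060655936766614685688104545331097571272948528690592735603662061030827539626936466590948519663830105823460317740715653306002599246803683699439983536441125462947162364210226458126855185491054840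308919134433094846715539138465391177638237628826289404005343797552663684748222944094961939702885951569813208774715159376515288317788317242408864811464616973119776308820001974472062841948359836446230253545637886495599499886945985361657473123145377577013199754318366759253226193174500986648227022318028252673259216474690924628149877780015097934451549330420566941032369683971529476300185552336943806392644936321112538804292351368522465270927424154808046576998318205839820524160366212606658434714485476647486593155660429102398187234567520959070515068763777086365788865013467518721946717783021119726571644070818849626022566717948394811363634937593275928590390465044617446525086773709700761586067261226624456618782841374304789554546660600819375447734412137401372079512884579724347296539112511153129720401951696306362733581658517672150964688952149349789486931931386963005571299316005306005196493393009027666724545164900137468531981330530498823798862270788633338513812535363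434898198139901558682726686403694912044482695083443174889146225789519007984714250365708242365484194520056175352623948084748312614363672729913418008654836183831868389167601634620680672554610846137401821073760596512401615982195780766962682183482012892384168521683398271415345137184142115849532849310432556579389355452155920655417687161974160851959361227845674140716350616590570886691266994968576132751995454400381843265531902016922210911117199028893504887631345444276686305280923176347017080192124056803466700913534916738702585143516551273527809957366517957038430677054898856419089710797534624731512472850579042398114625491625888420158856446019296688271686515603784567108342613081311199771649584452217373894996584935330110354850180713745552581618474804923701844802718906898021879740747261503189116686485334409238816876123270500270915742405994547097861491878770811159087656423802061040361096962814136705657648574583671829020740570469322184313077934484331180901195603930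9404978147207448494582473131813441709913631679962315779344562708447700976524500707824315032912504585853608184469179660714842729132380882535345499952341516015024838907063799080894050498472989807909239894972757809826313609252644366293855569913249030527298309150839451002534567468492661882898798450655500659416936731195682778156012669377118943769523839963082713602659807433325186705250671491289221304236868935483678016133184053496317606624460866514940348270792255564334260946737071573864961254573458616767413020124339647113564623945141684252282266645672988527003061946066338031130013048360761871776788984166521716801491978167463942945203598384518510182769446125846949505892669624449753799547906718345887068312207660298789648519206120447484613851968068647390451896938645209479494679457595771199224819498067498379643977728)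

noncomputable def rc36 : Nat := (nat_lit 21638109321961857213505603495396216539153481626499670911086462891248667832715787873302929812340386806550909290906028822750297374976468169786005118167922917545990223900975077730598763328194441522208436111803140299164464350016088546403975159466827829174650138042738587829074249676054166259672134010025105987238171127159695017908908083871027613698563123154830280453049240319956524867765034207209596672278803777176325333099424560722540793757430617325591750047138844227156451205426467529388351970876868251327129599006145630253485860270516152512560883623790291755257062277689346392874498818435944992312882545754864078932369870775529430987561658707563095560522691009611021327923700417248908430058584152922389868603937708314813042086485295649221223552061647695611815692562630261182561077815100832876268008646288239533835196640403947606304748005225714800429585689163385749913709194759584352503600075637945983243211656651625216437004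472517964086041459916396087866648534396806945143394775120978649289876612233885642916185343418443755695124599896422819420984460138626571725589413052834316731719546404504252062318291329126589462419332766382435139676112734385795942548325195693304627891184188995824089430683708860152359209832290057200386496182557440086565750496251878133033454158611914630948747943608391245055384079464437941313032862069756896444159376995599805567961000259427377519598926684022524664968765686333700689858548473855954160504224942187773767580709926785363379760468149909587559870038038447495772655077615811139281860989454804033454535134341458477459100915149132681377125306415028716602005839306392619889958695795664880445976482036515483002059318520272626867851306792601215814255540770783669018540034640359495564981440533279230394161217635057228714577285210935921840063074492772556144870629914655223423500387153954941478872092012439265521615759637878411162095857086133465439776907590007419275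364123415584889685599598335580578608326025125072918391070937668519095931738242124990863376557057131379271293966338556390751593226451886243299782010617845720169972530737496559815235308679598848262409257355547363466359592436992546797414649356498218430824495798873457501034863925883997341208566941469127777635703068775228917314659790975066199738466757955962799793311026826390634218510363174613549398981489766608627806147570721328985271432775158785233305432754887249179931003916135179618419805295783610813669333922954941390035129523321254375517676991532666292778182434260843336368044954992639418485685986997513725320081230380016752850054688202454106065040298604456913910762868315889625344379693120472195721051624778977908061968471828163801040216420202331716652164514851771275209330508520142772589966523480058351607494140088118936749145193536503795079547910875108506566909577549367352267817850865906702810495298348115474230383139089203785443427224619824202839684360632632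630549306485485979395315573070721589324090518712338218884019400092014095742456811123142986036629459604766597038990741018528158039883795457108824812222283153187147459509429715977708274840235084076858813650272327131756518397231946350030803639690815963338316697582328081895468147404923966791988350797093673864723803609577268392478357900950987277323884602387244648040623759640648727355674404536972232838298889158773681065807206208812706398191566589548715894736022254013603048169592081760093757369943458765666664774265885209095232845210743269562326126845098623157351130137344261533975741819683412523096197089077357690597453524779170888914863812840132408098607271597005978734294777431469639463771731899019093091925271694084876122985882988196606696061743083274333938116022923730075215303075250648045387691706076257986923895360203518090470695355340984624327550842674244747129275558140318271104972385774823228166871846166877501998972207203586086959096985110039428365820534347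536757248437729984565223856069983704768143811937967720207135744827214674232215176882311216956751878160560943926368639200499241388592074643986443414361652412654251640040845420043011085935115386324139481069662429387462958391157505848529859661979564569609396381428963248800797108961482180602648541092990753582952812198103571595104563689140476199745414341400228048014997481945490566156856976231628437770551293494379658901564447068516586193568759512759903996270353025132776380088776259155307420062967295303363485584531056867870492029972258817081413079650151914577958704639140826606154936579803246110701687080817815449138898072706009490632703056475169320702060957634870776392744838672811992127587054849275256895878250317679890495543877797350099459038738340579944499133570283977943316175284554549923068547537809476938706105279230955660240687788845399937582612014683622001523305498600603014582023662580773542298423707028007532410592561394947694588408845362734549765163804382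825526785063984418808369832714362769470088890826495974796510565012922618212048254129769103190854607341087430782898271005135694805184306934656163466227507873929033739249987882161668737354932301196400205378737186700171458376833481240152128640185291565388043994397765413454236453030003364896156870932734197300716800100158169958478454042446256201275763756374196932167282043865897276069432425611313494327795714229236427402056033995088104424388961428252250198740655695741539213205880126550215023130651578282764743572960854088224513299545562302369756991565260192461949031481565763013650472844264531441245483763228307471002246994327734103834713987754795381803524470714046102062051832896276358425315897452769952257321352762880475604240511825932294796577221791851905686134753112638361610012962193802997057377088652426897141475801393671107377071261450827746015360852477815170804656661256502121243776757268058331885026625906013581740080371538270086815744235321229054550415404741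811408188316521926640380801432709401260011503564660959008529760959148639611563606422313047468926423008046399966613117160595003682546678128584973521724219425420205525458273954483714234962468399933597702273020724275427407417161976958335615008951324436233747034890401266292272814638879049077667017934446971480425741681096406742243164469805310976334123047850954708339100848895886566553086204459901129930414275446369388056652797801129493660777780949942207188230773126497568122974149525964654595687482952062760355417844600042980467493894196570109287469475183985038454131414919976704966364320515826069316502431226963621121041044179504205510505733799889173341880500616498840120675160158085291483028331991122245125662651674943583251899714910681339952804122431094918090989744203372428713545514545849667790254249535766932437059930759359937080013168468104146755613103212429865765924073498567277643765103860365125250140754881539829297946730715439759908019321685603604589435696937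981974537644446039279477475346614706630763895067447086401763241140372341109620022649555611029988133685777132802513420897615935466608775306268077138784076987360937215371421488892523972409388383417774547804486348216947356561860034342821618573036936726149039997660490862708958511983787365518238150532298145622609467777811465634295724197573223716182050504001514325147438189906323906794309628040694433235181801064483703228110807784281779643551901069152992932739566114973523024677862499984039706054232646788781243811638468047320047591165229065401197790236276897710819180331873649057971492777467477286950464897365023937931821377091578427273420431767604365786547774180403675863156100016852032932167148280010130177333681311969659466563316001336990365781054430974994794946207183058407231870886783661205885140716121943050847761395609338574803617983398990408863129529441242909120581886706049120890270810813202367687256355327723505286115247218450735814740410346601761974277300460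387809288730360350714587130210426146147535380814073958628048614984930355110339397672856534768090103231404653122947475812126961693685847544131847337543250478844840614201551820213343100776525339303054638311626882582436808148251433547543769006941264207514513602586622384719980570824623354855553613797690292907641448879117981987745595408841173076322177052468232547118818600971788518159012940869839748590643160125885607600375164167872873018498621742576995967460588733070852935194906748540501693433780388151383090943035775339834053768023389752541978371603201574392275792566701407881986515395664528594299811281796287770000575470706049191991285523457332868916219763068129648307965557351226346198080565630439754549441371733255465816422829194757982175145178561207276049231663270024043804274766259904648485658679213345441755260923454367391369885658158863467162186213177668276826017771231607129954794737700794577128165447465596586095540695586205041142324977614562295183039437243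622279881869264237967743516095000924317057252935941951728707714660899773724045956500691661678901295203563992528082799331992223452269486382679069171056980775697086452929762372692628849823790184149083864450024099654629097823501937328986846619810174496289173160046467262118869060911883186717775756564307837277690280947052407767628849484548841463412051865184302716347252581646294795879109649186126380319755213582163009253089371461696743341388666418283297051504466321136558952325033730960445888943886603441812858973520613622234579782044962791720334797567626285013475300694281459234084083347334273088716156156221024322436685500813036181183899491054021323546490404416907581427931092247271078052327102849425954334014212888824058384404708298990003235945896544626389131875342789728591537412925110796423983708830420012721028420736972219080860558330124633449867930175935151250187778243854543257992033910218384488018486251207755649663982762130284040577027222463886080813629350753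951220492247780537768811757882428889689227245485865591870360925255431011716583945910790363303385539411405683413607503000520964670009006847433060597199271417249599130406522977693212481429979857702062162671742519581502317143240888352755866583715694948906257881123213270061999229216847042438924487464593420621525611437928579631009017719088933141916284615539229908854264939581780315191421622377762542426519889336146068361494641574891939305032506616727973979002437940690066826321210747315195736714912264375319202763715570495985180485247494430851319619929803088422108942140639383423084942277140561569383652370109294895403697159992609709599968760905415911122605889590680101952317650277896481016821767666868889964849294491897625403536023164525947758540046253016657011262034428930826061941339610523993283631635346218456880900191451583279333611796661864346058153538958663630018191757265987217374820634331878542057718000655502923322679312266306007832271202885982171189354681758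236873465208294033117806511653949726812625641914981503416513926379442126930216149675377399174338191843987254189956303075206066404118005380000933186156438659039295838400314490592233494060396696164136635601724309184475124708608424811139051910388180282189655374092838123680056187975055116381176054252669748278698848160901107687448984244517072801890226174966054356933885898804712369049947079578838969003392281180226186942963627985631727186635628455035772397548075856417296402984161196354951220914454966387018583921298432453492212637488481969962425024934295972025590641458702216017628399615380710503915525596400004371491602739870456027601570690512511450323494043333923407033518903094993125870523088514371647329787343811184049792209985807690252215583811611379484111960241283883068002831126240946770681371594231680655788853830167192352489643048591671657021103399550100094988393815518368339902779151951893482505755153419044541562552863970121340233637608631682892833564443748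924796622769150458471695945523629554914289412304168642760971978963577118586366841305689063087436651623888072444395073064798932371857436230754367893496111161533846932590938513232352139541317169360855669646961988866922528409508183767181213230077553236561510537673453095337032259617129190863461458325720505974356871802787157584670580229368876492204749543049695958494343729621493085764511745050091614846828118378103257541076794525392841199096747035887513765146507838150598115720900157089521391387685065944162713203127979762448194942261411841392529963528036345141936668029654297416957683719191121401239355422564403079389745283532638475173910265227328388454013437053789597009026483222990267108351163213085321567478547468782487351540376455672285536439463849795421987221018565070274096917457911108080610989411006924153755973336857291567984465810972817283871353633011757536352332410123795690011617318038390016016606782202802783294840517727778693196901736857689266924118927957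227484285129211505243426294970836244061167020351555724378721320322351106844896628975688849634379190494993075095386465175868511025480716170962941466193154051030416080923866376782065417474211812042121077105206087549703548935808054909325236776599684652094732506798509337138955095478473218342776513747124548456289773582309864085490381251070524024239488729168917276798949049964947882812481745413966898591004538999955763256667596565678408032947173160877111548009547186553591699737346609405740386416713139041007897368724757155505499192488609022682397295780054785396950948026300996246630729000459426243072822645767953154332944702304151427456825023344740343474822967238334467638275484776706675410890010516456605820758007066004739982566542341236437253870237234215476864288630194019895983163583660615886729356289295063781281973864107358519278432685774195099704489915256821260235396836211998256165133427232395818135133806742400100713099891021137521656942894276289740242454873899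380795742778542929895955769948703597648349019829045834896438766915576693946619775029236178670448100690076432753952567407656744526263622780317479657373346910496925370723804632981922493447128004934307427401901552041252723370328378113244039218184669535256862910443396053052135815711126362744322263306189696624850071579828348398695156024684961375538627488645153420399592160503288861401140958517760984774804461697436563424064166493981235901651047560698269482968349531880728538377206594664202745682161869554703130766536672297792534501720993773770828862875298305413732308641744061686306913566856575250029152560317196382437457043496321223583514632745058040402093263296404661823682733437926052449590014366424759825768900569552660544578538857149436407487270150958026155158378769804383173682468014125159708862309105506445939940036451197056244575288761762180479530021038279338883286264445362756875441271311836826796436272544558116809957446431657286143698526837158173962520682375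425729471577576655510927760046908306232604628569731921687883767956122955838900587534074955519557881461000816533091570045682613679756009141540226611428256735181505700022350963513840883757775057091044223157546595827684800950120944108004016343276458188013699050119921696943189574918236051763111267029708280501060509156693946659462020545415726908975280715780281257934974247366898053002863715860044808297965408897552014392198695577943148918978057178119882567403533804421235295975010889786124733396175962464266970977752735536189282722014250332694999931422403696505404487363519638577468589535441325087970403150343048773206279750012418452183164247554172749081779419522144761394176159171125831114255390258561022416657882563840632438314318632107190220141164547079458851828388938632627354616562604050102794241841937388780597367868430540508056154803003341289716113897428208178871640779703115323877126579220973743689824660531074244207591768822225058478977585778602578650138354482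642449034379352316443069219200425792553490246945352010314336956346701470024600090706583767845968035838187516912467132005395327818631267964277316470076093967546633868062411827028983098111753448212390247087534700127332682108328856778553355768760748647828564709517808986042911443710425750369953660017646787447442781746174488034008073579508895264367237265743266123073631569102546896250409378289285967366098576547329445479059567737271761038455836202682460217653242781881216183614961408686082125804910371775326300582034097308833587484302820117705786257150425260432780306226499939431173074818191557937512768468597490044024344507665976030831240510847415122373693470912944427430338536659511092384727116703911854567608406185599802511233151784469190244875035799553511995328300089138448323400114104899214768114390513154223123640049701296978410483595870614727028269948701540592682312264205879721474736261143733904904317429966186206392083553666275076544134570044437155811556410076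366186036514570665364628720499512246424241575128961841971391187357481244811862228445463780867989351982900292292881855996286798641715530277032830568923153370589530748375142215736759521078306595190624590413447401734615436910928385370148669823359018865105684278525487733604546144118169705577196432651675841427063160254433663129131809045081387729072941960609360314646986735520066045108977121478262636346608251532812457245115824243985947624395211581061148903172308630048517881617881167599858943679496207020372868586780005580556671822358143495927428387696105204143423678314744014265897029850902581883117083524992559614611611592583496833694224322183212468553304407355652788975265131799331504307237875638061042075508232699608674664256514966571713780476394397607419364193163354295596554030778317355834914576952629157548309707864842218731309777995566040832111804696022365088414005239212978652915071032928364583210480974598813120246359257657647594893446901888656576256318247972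6179337005762595023072815972860392139492642819475853512000273824145264050885519486001526239493059303949962561184879441395903682074368678700580068068527658592496270933628905288548974015487442116914160241732710876917359779764798227605967507319215734505540877390395493012467143044376334164173999641264964818955053703265779931599464102031627315536825896082303651163366159013465075643043818158871582516756147082587865255501719588975229062836632431967805302186877247075548458105447439129938020904806702071472255125618149071550688026321321785360971549459406357558232928481660252774444516643362117058844503560849985038112681916338158098877530584854072939440861084842594869239236202421413843716216651734203960740395701318219354399070717350835389772627654172479939114314798586224474665738405183088968798291210478652250233241600)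

noncomputable def rc37 : Nat := (nat_lit 21685128224565017484772921693423197181465115009093415768772355176116120636642024843918397266891320728355657760528617559421523388744328475034402768381325042774645211280889842064774113609673129619186210719532044306697610153634356997303684226067542249454413131217038513795421516504903648340620789129961460608470162733586678283655598441183216480864778589327438666873927656719011321525854777578031671176835124234524806861750929181420408582563178632108609793207163354919099998317354766456105676614585975432293630175704126894749983554566607389133206007057364974019273474192193816770866286071473066694081258410322835807281270460347357992167187547122986064003419065823515107822767364646012432912562697007258329754383657298679226251966288969819792164020011443593151191966448347843279788859081750385292830988091126262234884569714822371039166324958354130676859601581607754143572870245287555037101221017213104576786323089039380677671777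352375150069874289521150664007330236240209354422665338139749090859344508369225860639730637881482303469446874393370093487670729481857347106546728187742912459017869317450780802270577577660085460535108520296171314239626747106621515686861906919019589575672558409066617465770526654757316950686734760124145649630899935073184593280027614498499614351941661088822166094502997571981708034651426951061693690601560506700271991334846307677844558056649746110997722903637087224743477299658285899508108307440995614592196365399323051774723758342665970459715712134487034581100829401965545400222346675126770948430414961490121480603555538675600044954707433781646315966030324422169739750776383383365706112355970000413381699595128222511551664035195994555488801501817180450803942591804832301135175776771045656482383036814740343023698371190764200225674405434602770070549211478016222334897258407970074153898322094355059696846119605137498905301403937709403704601961475395339115109994309465971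256108915993807503654910192188955936998275546159309445719541322605983992484611728872530234731353241576738324305457077113969850639186791494863142054237057483996525474417390833385759743877994706130093379438358883501421264372967266343930893419987379466882313924260068020695173610990774604537625014667844422073036240787735884812517151984082687625733518662716937246769744262780569260225959285785661947130270622169934940637592537252373602783542616313232776875651097524633263510706127493056394411003205962772982609304947480821052463514129569702626761515158411224067534733677311005840768826436295329941139615561250874366353256561378086628281900952401597516594894496171234448992097934845531470102919033128725222752353305204706337435786589183679717196594376777468546835697051316091705117008407779841031482816818789281353903178146485517990178290467637610488939680075870535572965691967517885348689862025550031433761178538530605399576852433923802319258380494932033664052432447999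204613154989033489742147800468027040283741131610424175149762243621778511603909627707054475476470948512535193560220751217039267970046179040522027649150713220881790466728758765945469282337989357116861248810104031705186387205055504999799073930122714436745350400091319235692889262853605180442352546361573957558933090480729863761109891228073880751961577856687485188286327188428284896863274056731246029373522666604030721768867637099137326809053321999550534562657480209610003782207145287870006622645490171493886531532350531278285498309771418278709996124169303783378080189234777352668534993489512690168195516974060393265898202737226977666843362184332095630627337344935018169630588806252081762969198952011480788722556902480897704027940888051784343869458713623439074147272761683788324384818602272654926845042374104675318591414242327061162101054624123422004765931172702344609791028141131159536302825701214449127821792385277590797508673921237744589556404945250519525273418300244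156397416904569165106300742757692431190186025446686582277889228153510184302579707467301123844497298894698774744189075037779437015658692928659582100215976058398796387964789698536564756712321376845769988861069804241399265927096047071992224727843746858115173254419345154014427933813742089196172054572890987089384794509094460448116560921868464903882605004344867864911223492463200026094048220509114488234409579018261038752183466196619262769535655215923863144021669692215991016364050360803669132066305147974791055565354036757362300625679095049231093341453121941966733261477156890830758364594876586621218675117592000328289763785077800301517890267199573827077348410505003703253730433935926648080302485919016349752621631370411504288618098905291187957528377247943371530347734085071702628751567734043823818015929080222109400186844392509752072825312970520230279278927529473130187365431211023582485766385808126418257163432171396732839143489435678160550719578158602666320067067133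800864037392068795825942245666766160199174527413643108049750052598235404848163845016039666981116467853306264140592059493148334261925786967857231640313469699410425429014947596022842177966850289840552223492362416739228740774453981873974155627409598466270201964323188127231641082706591241080272536758304767396602105268336294153502249737923398523213284186307330995349891381075884727279630244628432969708018730080300308166021494958363936781519646084008628703963255880335478193717085638682031411518005691571713686314062648340049283655157822822353318053907223494340098140381735486864864462284851289848072343143159047326531596183162707164507767929089734169225467995723594163808540130590872526467329410774442911597829058830105797104102642012862345466686442864722719715640680509185523067160624852182411288755813861054862252024229186535069099004639785441122372867935380398067086963650647534561072919071954857057249773275774794308826377802192573665704172110236937837004673869855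468461736816551884076699393447904454454058297817234218804477475811325297733628955043807323879755813396596777272248035951392778525352082131435174430051203264277572746811258794057322019145887536844101958787784775952831091601109617682739559634791237519724970383054539597080917794306631308920827800241199358984950480764858377517547939263430234415477177954944493956519719655198084375945602843847520305614067260322285216667590815344673175237159798331357262474897532604252607649421001771221719340123340915056012718507037004071406612208986886140234208719137419363182789210857539100652975741864908874648362277492530091401540563741384525371349817617585697240528449691764002353385212372896728644557125907287857996140638457970998367221998398995778549964343961346225999419247744590522538563663768206503335662614286382655986589955549091172194184543242498651652554170093339095881842235246866101796141255963368277890754092792899496138046155094500525765811537235628028631518665633846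771621152735283108066919028563069785156203656040795639504239148383217998036743054230652938259746993832442321266880952927504042909458120203670734133658769815454760155642843415184128231002063116430179609489728125514310990734371144706216902721707714566585767824745096455663422324705337067402663371690399770114057525728254980898618871345414554227208477912306737591687945326336636677199077162149663028340312261944107271784429508869396044659863012136393771921137189589612934972149420063920666875432510062449296402315778114039682212614359098766022085156834957628300127312423254429296339794779010398428463589570031069408784918270370362208758150861712703857105950512349267899577128406532356490720298352986308089636830843835581799711553973597954072663366542609644933401295546855452212307570603370042217613040252965765995232993475709409087078804128731125719888849566633054770161485860795359855347680554642362734686357300764351406797508954452494784096471563273467815837348003474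114008007112990267986976715784620891350949517885720955792631515445928679024711589489051029723998684451897037459897247071204810972674720768494940976387156979636431983490121580504570921199540639633943858571347142300068422647507165067615177633313577685410924674874011135507109172037707025135375148530510799521040299479305833975710028298490636386768613461955375188050447844093292761134680014138939780147077388237037137865720663852490785105814529459344843200187771578077358916806066237357606120179486025611293143468256226571693033218453290489770968815773714511092050405465528551252953980419663391346119906169660980096047540808847447533690475733030057878837552815954956741226220343318485482992720156219523435192494030502091220097287606624571169377074843617292545347603146774762370639615892449064382863444955254489526667045736769332263418693372093147550311170604071396769923594860916716933777365715646568962218062658449191224395218434531317591477325485878431983206959721127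438993668564962583953948215351950982500798832212718466659786229106453070898342197432993265812783345473822465374784645084529910937707363272814966899954876043727019042390999649356548068039930897087949229078794701624948782143532522526243081548074961266211143547021544656600891250554030410185358294383948384946436502474654202732883150336547810154295333316660453562248065456890706911779541976132963859930930073840226425453489961819545057201109690923059554177309370925145837612960607467240332643464450593655514109423002001788631346025437011074893455185684065021620306917963334366766917104731044428258288898229098839420627054113928859823769811961391071413151649412562504873969597803951025611635520319994109598556598054060900869397158257303791234430995232675001144483204873442086929726262777770314209788517219987639634537151842335744029018535489613262135085066078503739412915941483154021674966367501773914300709387876935161883496349754905573282239299226645369164308430223794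470446896443178616565103366446512456716521436503368900016469050755721383598144091924533599309710558400129273548898640561810408652724170287986966742956895237996277600222423718311119138848262871688328113031000763122807652906532713407528264043448841784132375333623131610782145316849771076366716942712772122315344166938401860600627195962222964531044641091369198408560766933787571788460174381560421118527777466369479978976323578135264505485553894994524706373511268897695550139164533320411321120988309985075479923805871976528374077316752905506123141502087712087969047769012462574116332598319653580394179877694293263284383584721548815863541913442297620198905044387341651362209955616144995790507393102329175204262838771417617035429594445155551538001091611148556453175465710367475767095678717215122961874380217285702364408987293242822012265863314843619823725691551981704766750044498583345675314281743375546307920980622915955207826918267796680268710382879548824053632277571847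323767592210659277654635691339062786190307658995502147767438671976424499683979345977328003794045304669432256683938634878996351814864444791319003809132268101892699657019678307082672811478932722766967993675281904721883000457723491227488006398180121665005826375004859599203309133189881816289842325246636109773991344264299345631642685491656541731338837305724340983377249189550712881845627011393015912913591614887019273404866893497843239425693442973432914259086235685824168741822255848430920896900599452838333344671780940975318321332917054224243355359368842167382058833758037800399770792234941515996806994294614033862973727075982848983413090005639441880331878172193029724559970389042323178919904337352279050663241610215916452707213167623338705206331722221317647533265635772086240983686794377666130905982133181351125536500877287635898395044105503615010544114998142418379774394852540060254350909149790850390331256370546841997640421397559594492211760285616374966493808359464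797869563871733661473293499621753040051113071359284513824053214155845080843898366961161812935119472042181072687455209573626075476161443133820798285729517708766526814634049423442716335838357120932175308896362895135535080307302863081859055113148408308372145625158779068189840222703199293545073996015168383355326906795217804249993342155532882167761097798132333933182686127153629934073163341705374720623866182606889274207813197799107488542946622637454093622160116632333018446692857412086334038660013976381461285935448888992793196491161210991979528295085609201300011481733280114681625526217423566594873966034924794472873279404469985028415512867202951981488801304423674210097760664076896362334937486261893296557048554154467458528675635952813082013754692641852576864756043123645682976692619543095336014575342412659086114243129537046824626611659488139274618884405850025752810771722490659845439576261744284823801317455071329478941312740258956640399649006308394299382434360320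843754371751604537858661124906803453412336123958179661442658775329797095541990934666344191163761561025803193750337251327146738977886251626293889486251485238592297782392661386586947343397931344075904057961547808621377816780082980802974143522570397533936773581551137793806363038517043518752620709624361551945779062428821915032547372760993968388030797663070971478021122362382512320263610347659468390143468801576599451797156758872169755476789607029834892293459382238951814010428940782204529722780089323527961845346480936012819350000378448797543207088458966305200053400090909645699930235494471312040382259745308188502326071957907918747617540552858203149424650997884747975968635338173821493626962249433482193202574670675186056324359741077524028918962022398155501772491771278919260181208626989462567064256779997603691255948452794558115888816999859026038244940932362018868679955343203392256590667688425619380281619130554611124394300409872669817247364683573682135967362797213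179898148930433907875140567761165543163072043944667723975350006995216608814030818328000449270167419525794703207872980624203523859745887960648896444106017830583153166435047991697070512040063751215544777125345454420328426313443600640691534443075269714075584717518914400204460289345966255979974814782623262734317518212938884744950289135354866199931107960540265356173541721884589180307339458284138545056604305344185092508573113447152825830808080078147929753653346171490556361111484763430164721276600689324133106305298054440079798062527232530381144718851583794842402320999817855625668825735338007540995679005258311517468688242736818085388152361428337167876712956526511434816732343559141318444946007039793302777414046636653000700277346507050446338407498888202344132598638157867540501141459612565497976295601217860002840672808229017854786871130397489242867595168647142981390657226874080594770143633488038815932540076139449717475606823848920423159140993872801142088497034603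861203604954879419068348731985012896432970576660221108892153576860459586647048191903058444305796492232201917984366971035086543376822135198843760517702641977289497128964029254986493755766258807842968022881265965582978649251913147003411938343116754973517363071745488239008196703580489070426769346857938943353148820206868977345127486541262738406408242729691382589533651662769820793687311887269193228537655592942930478486956798054720776241685613322254785763492869549993283396226082707274575324791579666260477320034024313544848268962279775615659076543767745872738928372409123759350898667535573777158472840795009857245652131487753865413352216278370712881059829642567056803016437319483015599449433434618536618898052310390221841470936041477571267259561549223674727504434355905588900276774398484685834209687253860742200273591418463971010197985765067717422542667013064453202645779159275383117141249483219467661030239871424307747628184450551747183548527791267848598592288078735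367934612213208539145944663274080202205342740123546772743944192610278727177354114705444061032988961054205259679941736810620250898745595411098015751900756423971848705314660199650281514433509386782396975855392059630077715732944795378877506011895067555139662916373249841603516550707739282761100273447541134528292699812477281273645901140192012302659349423193848272960606744895760058595525850461168384337427466132647791279072791593212815861693252770140912878821987143302722708354052172425488910480882144968243009199579281247824192963328225167752125203553136039333741046238706849692162457602435631244520257439997298705594677669799267820755423036198460272544019266927692388958585802823783188149858157170606846939026474475948643018091449763814296276665608619412844764054003493017387738475322589894083385727935186534440615312288436680199854114922611083294367971761504881316311753845404221818797398203108736842194199779348897013635711654472617749394124855869644116142963377764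205149473191954692368057319246579510916565435462310077753740811586971899081047981613954014420187330743761330565075294339938869659993019197264658212182386124671864580135222262991308179825842869831418194451986995756823115834112609253442726548145037053778905893177191749350369132513593938607119364390222052675522622765765180017512473455576884565332670822648650690910378659993532130157298130738748776054402269034616626120082558567242041986192243041971061468524688983558685937084812191053088203065452195358598730752416236700659998801038123703812505808035793546840642921191865728919470844426686488469487776866202923832474529645558949884284914120801420428523725336873572597001439362796610686248494244792861134361523512335796804812713281386341418646441632996280797895545403546554847775534780114545419877469562611489220491527111605179643873008767998979148776439387282341085726339901293194244316865813207770588713436291821565519300147363192377907590407385562082852664294375327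7460323324216145752148188035917203869493833798077600095442814448309649312979024588972890132897403469639379878282720707525634086635751393036736324804868962608360809680156770658008667600235558347410853515626842381750247102281984792575326152111536541100078086858852782928878628537905227361164375122792454396588567209671155138183626823021472410584567588035201226146040956948029420342218946873037432312656546969183646851623185198678450269152412059801582932774152226522468460950695434424161041686014273810981367436765383719036389210187498450851108748071064870813558081396382399727734113824803740527342857816184814159777838168799763579635352714625000131977480888065782995304157096976846849431683948700213271836487451640922146764745958621263751450953121474783609182846080310564760104128799976898763873302755232260933732532224)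

noncomputable def rc38 : Nat := (nat_lit 21731770206405579879975410453454360524428184118949006769396243879417987252465801463371587130691143072012246916421677835236028968825978210808135647824539150127893108259520044943473836205603545813276268922714631424962216521040315326808186487988576877711203679623281318220872909408570972926069982802559645822145067573464301593415700345608516173554981616916267670742843802114120785553925956853191543222847635112951805888328464447594947964359110386326938068760793110177202693966301677277922776906416581099665099072977232728662795067175956629988951712468610383529453781126449442679334460876629305526018204418788445969616305913955432557706999066012678828764163453120764181351403719730933375142966307149938765570691486273559151437826089418993608184256609066064540570705322735161184161090368776844437608765614560082528688708496304248019332790659154311452433110456894693367330921337672831928159199989192020786265444675457937097048828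885134208519272503754631317341758319057512531836878510266595900167135943328896859439020444656954920564646990672867505126970266029983978688884167292004196386325110427226240351540981032509545831080898981628921026935189358304605300880959445490697902480225266398010270434616684742982474862458537375607626945067987082130624059381488883969979465581097598359411451225674636857226711496768974490408469865838377141009216728244169475020295464939585166039422928582171746387275921921857298783199818883558544345798124410059981127565762609675530140774982319157864844364635778452468679047905459815264521212898970802318695968523177520164965649610906738740343024349982197271752274334958137166906928245601315103289758402925920774265637390371645928652964804797207442306490487025273610012414932424559923772030829987989733512541175687275638457809757364198291563948585624229611780211845026739520796728613399503996708208265870090287597187765957100757790385674630533151937514648751306681815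051413338367185583538648834883175015378592601286778787314804879700438996770055735113032006337116246351505370912659463485813169678289924387494359777717031064266615483818458236792898887780297467408577035979430523153303037185857513544334221594603814831702128668458466132499200896661134057213231046203662795417216620896099538196147292764919863282822419033768329564533647902853468659207263693447178659376462895159634148769476935272693794942500101258598264498389448570438956489237106806117722217086289406399090213090592829705051058642754426872802240347308902786498469595641674517309382768863304375606983485424778771182647956327515125153627939255014325500812160387312624767740562834908197866734115540372332780570575372229412017574362869586582481289178192724837360292079404162786504495833303772640328233167620846818304189894108367436818730045289721439938598898438059673964406313105354957686544867343859606049333356608926995927759899037955794373604162738481537654037137462784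067766567963229984470693854238945902688408033110862339184516731345205480467766352198802843910645122125716185254490370202143987514067938188136415550105260287102959395720732411145343339850576285057294391059312507353966877355265683063467359855625807282446479310576024624333411860854333746429265386987189468852595907796799950713660890177009493067567739115499665999759791408065418302430216204455407822908830099782313612372190373108793678167078803249155007609824923108402017921914991700395454835118310399600605901569792325529776017792694584440498545118528534235512857614333507394799620843276362311130845066859527199140442378534612067770181022321227620973834836147741631566085366864721962632356980693297712582574383209858520721241137682128556580475337525793463978802106274400121675949765275728569475891444187142952775732500140149320835600411901210126683439832865994546837290163285120732669406385077120923521017983338768810698489325793011322162832090690656645792100033093760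452556507372872288513759449343393739813625005121155541499051862095463202221666093860084021511251727388358761344222686285710640067422322485452615660588036180700698319831260706248334590049720131306383850614964768075880327835299456655784036907362052246042918430859137207701473031522192765570861299935479202982175446784038482697552970903173121104864681331744645632675276288730654619721377680104511054680923293450648715926887806874156674778970545232854354177766772162965645521292975447125409694025112595830829877341375799450473725746363123006193947723679527994546637265164459515165260160213409490241838746490371840081869012242073884164771167088818649192177862728752704653629661893912797919689184818668630639781390172755292115416034020389796191385635829577104870665362779800069057946263660465166022962384142019618519316237776179437416218293855483202766271361391563208003287518101791812578546300290490566453471190850697635577508826160575156932474043555873497256019708683544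627688281492084986701539879201118768858268171560317545370024009683623854625123946918397811121934878347455488923497701023483001576921038527010722106919669416666142281359998690583971266786032222524194549261919900450708944841658839472924513210026839804308776636427954251830588011949602713428932874084293698191088777723929091324912558454112791639532958555229229378379218034806276990653732542394901638173595456967702862839932501887621437510728429659289202781676727468196576596469344128444335311906442178844965627173357473697752873442881331759641271960460516106603521211354727564179438837176400608582796411182123947268924811845086815244098662804573208229019504188145689480931145274242682789736885260546196217114819207574094194173184529741717918922286916048565419442258499190153974152476503690230767063816151008797857492978803754358220035532809664442171472471656446644249402473075802750355218096106823777356805840753586447805057782768553000842390726148416731519475701521326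168885028832159579201205248687709766748660358106243395576351618480678159288056475095987884350986238066200788505160419677207520210570614043028178970359143792901822328054541219338311459466313113759849745576716842809353132600989619284687019351886942363204296167367608190184868846646132229338077811239376193094257269230344972732209088611153638759619206987258260488574168039883834786878587142677835685506715643232313213007774738304510262996627092211853199956908871198410469556098112962386484444570325812168105039018953540118420171944854466910407381216872682210936981699005395998995428731241475107036440883770485726285856983800449545264833085024680942742244731313076893299487794819777313512545685328498976606307360049370549129618393178728086335424986598291874255924061183605424144201427630509349729241488735317736170430325002365788749406690168193748722877315229227599643634562193067109655437963601615000350613739519492072221138865202385202370639736101528444199529389790993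319493247424276892759530586800911369996893225791924524846367318823886534251365193038332947513057413017106746476659364883146217418290956837077928773216145589067478678217238383854427755507517851282886662172197452955960920533931651992632994996004226063634403496907766442540584735728521775268031975182222896297175378858586257112006460465706077510691155894818702135121369147081824964631147995336402804984508404777869232819737498328822311958198591972105579726747934010976344660553843654880577193532583138758895107418391845851069293362833050082957161012757360809628390121999586238726181929034314079763015579499115921152278701674277433492370396673608834079918331425466258663050867105598655075184503197544475392707708488241620068456630110101132862246708117112056788483095377697095290907623743344919797220812880119416240823116802834396612413482494936155736376972324406571623134981652063522010212330126161533574815319698500172881078424103155302967479576770632606741473572044163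115662858165712093752517595057922594781850500394116341632412056784740127367056062948019454392974810017231711857896283625008488621855972259554108117589587782267949483784677999238382433072531739210832002910281687493044120891338059312647620051539704017088797873964887493642523016038956828925853853650222969309055854996297251917989261926291631454304730437199412439542319245110917157721052408459899052400679615266945085618245263278764345811326400335969332431944691339335336398448450022583501061215264837763684606853769380827811329500423736847848842443789505993937755718055599849230475700118978219202013999066076337116507845862029324173417803324756733302300538369898774988396533587305436281963744540430700678697513350332255928949898632100046349305772370844574377553370072068398222457035479185331108027098012350542392565719084554756987925384776378315096827304725849019962757959424908467210246233442579621103228156818221627171191969378256939328210268602685477360623905980573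254864917821253569433356626687488732011221505414472703312488609114918313201568675317604008674265426267410814384352889572394842583329860740117250525713472850956129731911229960235547957440177099695261644287855518215137875808289471715355040034329411853799099856773634155459763840030145393169730402541927071280327406585154428414986904773740883708480581631321215321511879868239463903065872993831232933721937844163114680149689395380897512427354928551721550753119074079569281032595826609561751937835049824494495569389271660843234352044844521530693282829309445570149713359329336826685117669156128556226704962431345019390937025055103916136985183119031124085944467872234694429363818311397845991639677819336992114216192817189856085138494214552322497222611432291005952007382392837609873475220703160786986463892057880169583450944400752205960178441383458019854608976177314863283971574551843932045218703272495867276944166517810457692252676825937450521453372065263954818379557820975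711549320780069337533425245480771152619854148442924121175629274766838600638432690047393096244708616185675380836034068258339068702897268773617632394815603932880862959147109983788328744866762582069375766199937281221897460222791867358426106607835515136323714955963100756865898057254140413497842323144324891574649973529140978406894274370701993472765770934136623097545830355009530855561897595830895057048236535454251447238048278869381449754092516953999210831828524357603958537738658190352465800043487486275659689369495943776222419055135618809379282767347532595109558096676189206285714011989937779063073521865427945769495114746556855702263747513441597798519880330952257603532995928785745113769710714793651070268102120300495760104210277156993674964267313217738787475114352754746389959839079944937997462683966507622194222079155076513035266049385417945207301431056737516118942607351065457029063359205817072795305549691406097775068315430460053528947880583895556374307147755159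128257911273164925936348475145607757439177699458484071536513179176815927020544086264555230223878787452116380739600890277979442483395453236417274012289502969461242695039579077934683007159368944730267892124386892374078038608331746876737851072252011896788139400361398584717302416667294454614011932391361107737120659605772103917126657205900779360465263668761712205599472394757371750458968723401913679302778257292799477693651241130162854985892627090794846140382673272515315174200131759547886549828978411567504990433483093141549772412042404712636791943331121093395948270859638553942428633806903217137570380503314189881719417725239552577353601832466477399351135431743266367465782865943717638471855307630569069852738529796269369889695195657188722647670668702312357717853448307108890716733806308820570433976335165349719797445704295499392708504805293718803557117265357266013313874061117080143313774774116223972793651963446306550541413665968748028877978043109161839297865643440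224469631871180707906820224029344130461166807565472735229741882717304576736124150251445164246164535387910792512587538579679231406049525914198278891759233832585301258820188095077135936769672439659537115630041523539917908619701337284495004115044640035286723175093543410821015581355473717335414466740850631104782952863663455237676793950253520831453180905696285363734773281038478049121618354852537537467277167384473694373864022600665933685889444319650396614734454413255908020745853246620971085536237770183372941620217345580125562118807954408903851365192911723258570829857927126409248580612614943068583270204021941653844829202315171811034703739998951627665498393075581129923168164403051263127739486789328316336784876261828157533916239869909981785377145324947279280490075855648484723770686567607782891206219760609375980250421736575034049050910300649921888877238822546889601719074851453423109275892457919543979145377139059244309472672871958164405147937657366920974569926215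620227575694774408282204310346409673452322857523021868636365152712833697630205406285075331887689637009743337814981020349160332801258528341195223619062365925675301364456772201300091311870142123911171909098157794104619842189897634957434835770365445325476142766685667716780174242122084930624070948496009165557596723058461776973233814840345075132089661014804307554346266073259118395899122356332970650753284114925965522598256838720460577842206710101092614053902997380607100829987402992035500589962658800199083464051569902202932746727752258303239471279976507306834092957622189804546279571754996946035551644579151924599050445037358613114960529918710328230799196031393086191873775641168671072648339138814746386692983864973904320464867726084161333730272012472295673133100392876316009451323781919489110916256914381428479323563941300784974953975509640628471717400482922015339420880342176892690920920333909464056080487563960599841971612576731193782197923981094543194926627837569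758268820881596452720626417846556568709065704565069437136777346741124836369387935278774361178443756548606259318934038516140898686522316814796786440235239945451538345858699318387995344412003166895671499366957358641892462808348115442123131698730218187786119829257599224974945058433648113910534096719339328307248987657057239747573679246568169224469198284280102291324377284352079402990534037785769388060454196559149996977973050332666954594451639294204633796720263600238865560911672696188694392120220852258400595276537114717829815704031051237722585341572435126914404606713787738440308157221248887591970924039408494092512088663459700382535914275134558242882292105558002133612379188075640415736945375748718816328662500165139709080564979180035857281378855499747200178106348804762031044361137466497777728982382080209623477633781471704032512217689991720237754596685989573562696353571541517588557598036993564817485673975519350421151416966292699575717120156035588887349979252741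756562300768299005164435767584508498581915002053384678006068526530448261515083587075643687474296793612648072946724391192406214601397021131969483090122720887417192720227350880281017788974360030670321268551474089755416164000836965745167190553720258584692387935096533668208715088105060382239986898018757850244111246678046611912683232492603527947012347559669296993127659821425024451398196721600101184614361660852131130083633602862425877590118548670279225285794595544664514299009298422345515179007244695712425660950543608551020867241775277153691508188096898262034883839139898684641813041890511299362544697677844650002659384203265313232589679360739088206830767435327786663984333539514500221881848317604083489886815203761815758897361878713815175882814360492982900381808753707720952234342068753929136527529701246037530432041875739204288739826510103431830169508754753096642725764396115904373435345551433594744076126805441710747436775785953507423184763817222881360338349172854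040572589327675489902923881565200339231177236155505506726070055545236484552650076644904057631391526169572816678384704604452830933363744590675904960211011301550198512366831788605621804857450547442877757353413657739582580056706126348030982262407085146745782771546013129767795604357691976656752828975949538270490656688475285702188037110653752420624630883822109787777523863131479175836375606333336192329823079600127475233360535864819667170419600062844099817139732270125504168068421008590973579863277418720890702953152629577262029875326576899481744693924380935559503882472364302483484364934966716831545483936087102067734399383852740095789082670042774768356372714889415034405601890570981901309835861597249101052842423139064463053383995462004349141716779177614227907836498734642895277333358193272979290821433439110209501911858639611133144483701844100581501011370781791922472222592063431957302594023271282644772479955283248359020982206980273008261635257415926113489095773075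524022716143065924289101676505563699069213364839157421133495635298392761950850636635858669991007052342707502698890615452686111932188016106279296552693555985625856839940774944421904685332245777651086550815270087892245891779104817243100295959980055229044430853493990688817938399300155819387551107521803127292421186790762540492679626191914513178779442853962989406441042958282899713828966927531861670981293713319582551094336385823065869975395822743005827262651874546560022419122649483393124943224282859613464346536759334010283062087357970314218512878318888838241587334923961860816376159440122067662222604875064021114262226284647725050090893350989810683958031843331265265479053362228148277770537308772688403215518122605909975159472778111831697842299845060334491710906131761667726476784668376899122915212352726304441058955970636748931071762203770440182010327376424158679805425262554465481049366466053975921363866863873004503188617277165209459580414298633372189057201106891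6946155492599678112268661391997085161543302819392370421482025000109207002687925207218199510142666664596299738047484888678003348031198901358449171717167902835532606957861378606699234283769708968779418974786848980284215693292193553382554982506325179066747897727251156727177945985708535036027182877688230277374535008135898387890322806896687297648149117773658320200460705971797189545034515100724608401893303966768067077344977033687872041389493196866346857998811739135817815210651979674136822387285146084536772370063487008351136252685491043894167953400272010888559790662192082199010507797163965436078230301049896186906290636971452793969457105433738607398390815800321676925813553016934055516735366373097440751708829887536238761984464149249721780808432213772575368059525452120239846107348652972947617428821154200860997189632)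

noncomputable def rc39 : Nat := (nat_lit 21778034023704037896512528693692241550853928140628962313029063339351184869174217297577592578689440142173292464155189134987346036780855883512713945396185032260553125660584142648705618848800479151784385430601602215501368157333428714858966242236510508605718471287593800056022086350286854512334927607602925312500485726233588687642753762272745322774139344940563264526705955156351599876356898057818045459490057125936682164944427264651815985979898310943673078503112872036088646188408925115944183622966830302180093298975602928820546301692165870457300591863317495591001278849522766167986273301364146019406915056673286383879381434303088622296236684425663394450022818354034899503615629469607914812013493645984235758832055105718591943505834314042240518960484879742815571157561532776132848158310595086032272924212430637560618262338031923160028582536540979172306175501353460972478967250685067219803577472048057380644759003149208674081432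521689825613524054363178766736164159159561715197293854627044278173451905682050213257810826541107833239174349546498584069038925604694233568105675100533165829305125817305411303176391692562660792308100629581051323009853530534485705887290583351845683641688802378296091987905871541376024308057207447698710893513018108629749770410567049693957860860903344681760738896829347138294398249111479483646766321011933321293503863328500042944461113713880020862039840115101047981983057140750133480062040255535876132329909460925094750732439898214938491539807689017965688566136394477899974939286381523251131730209071897997751357427030890862299071721751464536033405709207776859351297782096167831889364891274335938316177972962824473541492554836581920615644669741628713753372225118717295697841584049065590348266836791109342607981857561739700567457387408479898286646833980912570038975402212806173580896660308702101162873884078837081761709768779802720905541336755010383108941916526837881654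313676867338754534636610812973232730724803840585939058932952096976852033437157770925731080189307870629845509866528239509911851560497362027009824729954897493309174641047181300004929059114689324066787666473461968233482741788320629426496741475823656266985921806612327192828142804461251396422699228061051107838111737005218782587207445732614460530990096250959860518264080708706629965220402968393722307485548651318409013378115552331956921304841923833337264350121866906788204618527969325236653017050596111331180846382846111468497640314984972545048369641273706030195418463813348425245672292293371484840620971801978955340291378068856165541280057396532316798401414576904906964003300775184046418941161186584829090365484740115818550452141907438181099035513954754366760390365447185738421832182117454075390776078374313692568408133840038755904302384304177109063952727243561732672417210552777739909183112298836101092636587954027769773747949303898520606337739867051928753127938445530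965298120011635105644099998032010553953594340726350112545757831697823505212650054738579152585306073536759365082300177966831799713778188088831268662795668953119015478063703062461373658386088840682918671380290925571144978680649794912334975367997667947910883844273994111308972968938956169449513349579805153513342111598036560212107215960585694035802194345210525492784344744069294421486131982055316450961714854015568239584996506627301656080405343572452848014053592134441702651495932558303440679038470566074702089237210353919175173169624315690237262525494990353570507070847342063484505861008452196714198839803235956939209999116689496419991463136447990371562337700945792861166944832345535167646592388858031738223788532953222535696643298084878009498604300631251667785829666379493102055630086955765402548963982244525887132806235993468703408902205366596009540778348434794871038923237665692608935549885354090173521217740611563989660594156965900181270436090210197807635963019098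226478190518901771589560166502305429611181940362400722187101278183857924759228714346172730699387020782934739724081104274584848248019653379694325462712072504167082910099356664133433852516452368165133432017709254534223532465007868364657655268998446584277680913508959048725423384552424075855796594349442244562090278677792375069246564762321705146038521400176450030534862240105114805230148179385600653105542547537077284671522951252159380341148061935811173832302954072447775023564137474631618701976444774731073866160612697573934669821927393484174580144013282165287492488725877542505545626447280829534300825785368006977158125929079992485099568788729958224687831807223641435651410483140123093604323875959750656439626448912369193853288674334010081927540216004229685746901085162408067235356541714991363660586579548117075325795401514227943475410982630417391072813344795303766052895161023853769071380014463636445848235595863001290363413180082593306677157676851426654939112977533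484270686329322517882436374784780802198571840875010302609387002203523244514932494496696715762620106544581813986736185825456209087540527914432057608004650726936723118424404739197014743739184052478526314965280967286557163759289863618788878866065780648306552121424877992750028697378482820998802425274970508596360162826224286347910609012889068687110713717806952672200956129355941607859840969748093151642198891481528366838967304798474475683365523116508783219321950909735714675426511161203671983833784794954628849754529921118242582007016602085814181255274714402257170525401591489046698093419304283582764013886784235478568874225255838036270595616681616138638449474929091551846105160985087966295038536530387707975853231898586718596115092276969174624009086947191581287678781339790767251762554491298238560834688828961452397846445090813337737866135236896447942565441365602148514155880663483619226818692045661333683088658194055396489363222128293183014265931350590040207387342760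732633006102336688694086086691656694155182024767548457372945856366942272698550358211263170571492292309748327296934853728884360097501883650467733847602778316222402145845786367147109887713203977227075469506864680556408263829965418389792217614471604631759853109386141291254352757154185961617802279236310399846719101592521155721359004135093844490511907369353399318541944349526077447629976266970439220956324763176285043421676128519285858725039291239900976897917204602630178704098938956846983243379858692992884149025542916336780309049067625172961724970525489434713518918736883669378192161177596661403480590391180671723000933882880171675663958984852898468966399739899245813848942434762251980484629319765220227959592186043285193163015010942088144852232252030986569849404429467145755817425899627177611034604791490022652419082088295150608062941813089672041692305040443759437942983083369285289322651119677010570621066997335491215060844562197687010505479772770442339708366360977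678953560892237597107177979820917353241566403277688731795800818139851490066773974534998606889363971959877062698200687256333787243343104904872967416836258349856507134978388871525948078591551311661000371854460544340668084220988249805878930216733337340229940309189073710313757699782438115902906474370294204291119294541183982156374411647542367966161518719456760147067804609845665144604729294767613731330010231575441850674773108554951673128223653866542922250942200611237822324095565604638035641569261388097663193789094478426873239134774277132974711418845907176160133077632634441425272348145576479429867865914158559665064030400765065437198656933367798746646739327360640993869540078273174368899700860227550723919418140857724105994501036368614057347815970750397950314447764571159624838262350431058838968125514199013690885930084159755413551740661294302082457111791086916288079659491021388368809144558183625919256871688836067499684126680167573462099484541838502360534688111783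194288174994355614840067122104692879829680594083722247826027231740907285157348493526243478943150676269019940517527149109882568011598568423926244053110038858711351046495519658380918555198159227460739079373336671296648062396656819307992156027926902461195820112021595453617480981049170436124130218341790163903294739128910795233227049393925826104562860357848998727681139164253602508037730110539111965491939165759971672171791782847564919763907296929392075094324549871510693848694161395152638105341100390214893622096115798345096012146155584447978731364445251947298293107416982253575517864757523103815912517567549113192374412315992039711587794603261593728970519342506880740385567829433002977211173607631121907717262420840895345282636757256474469185741456883198505357686897619944216602227370628443733579712757806580948665955379529191529850423149397265393510140490526692550577813608960324548985163336740248060569429398749502717519913059531734496527427650956507865547024628884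479181488420937463890368994500530586171763569354070737320160721380305207842248708160717586303920372112569439657576907344704882576125640330376775987218140884717852659173741024598034981076376549921020686417954258849529748173554814179582274547209018689875703033759265220377225418755652211820689851297106220392295064732199502687401507471477126443650628071234766576243686915600463875154035007969604588528297388269063275718283738530867073605843369616379376600003668547419042622403944582783275840769198503551384319772789804916738684223910995072913912708112477074578784345423686047843652572585798395829301254772956731253285576699899132308994193042436874111564362023818439881021729576514398257952806968769684984815710854896668977042549549867153734450448237796621366588647132508803896937567539012186484662018812549645032325712074129432749860052387029418142684687021799043755924891274778765795561069421869099792417064061762820844807772527854488168998242762387054289905109756961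712758507311883579313562683042389267695666547196328965249939066349713093411725514953950469753537989448200284491852763548885185848490451122626133859673428574661358356285588002334507277420165249014982477116845070986634651926540261446845154363933886099380159869468766338389516606767302410778299827394470760374556863538737416297307001743492408798985396460994679070931936413722590256724512342748614022382864592001749358425017548966812599353777547077542927540384473943427943118114637423378393910943578006347878497641513480466120672645507164035846591972420049527167059032311881568339087664864544234284792319085713067694948707329238125481946393344949438449169871902128039651145881918513902549329723823500809901996594237181572851227220176787782214030442909039158252773113622116573531973272325912104463707223110527280044739751548328741295081808160679731852942790246641148132352034821564471285559739292050251831947959509617156732036596734913672177941763829053306528811332784882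633836629468474548073772752291223621396271196886237546059662578033205802511741406251164558712330644985212649099680718070756159785922392249171562839635241674083121113083633000401507893288952998468543881883289297385913087970350792794103293580965026485252235019777558771743080425867615091822810711134749821264697292109491520038371440161015808428309103718639919018448242416261672817787105669172578528743216567395120516479043814038015072438449182577587088105122421269658054660611064774453251934041196567788866554436000097574858908611953038365452082261648388191644117529115787008598958683562626186092787766377023902941774031611997595704689957639410200975456246743237834485246147318066614644525209286503871528161318083207082205972715589211650487533177944435388286978605193977544635638172532449574194552207183488128567741316831319332540725828947522570474766428996372177559527551046567733638047468850219774455523624420060223860966014468399081972970373443626509357168087144393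142225036057283165789148525769373436294203238972058493049300636726109355393585722020869869250717563260863403287269559497730675786025421384896331704866320534658626644513124324841509796187047163964581958227836722605597211516790537144489475302391240856321521294105164867494210430566927021174733731318379369840171743352135692493711973251848872755656980130021314008062444178932733289675413833327423134236037356039168301415907265691685797329549960708081631019365393510193926610824134363046466586059102717326605535372934613302474932583714092553145209440129958341872929792544922104958229850498604415608614811078525137604267604263589948768838528856430734180447738168498705753712498437547378345212663368068928435236158428610469042624720367024629252768074267987563766894641513114057399581645937737518298957872246903801628632419119834103296889658336055630607546253525783666893162780966829878023422857060347913836699803570614977162856926534858861764227782500629244444200677308388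891201758441181699599642963035049010753684421535567169546425435536798916049537209924411025119502073281496505189965625319619573413527700833080007803145355858548858694534593682122107060078518136078102108121591209749595471550939794783972639100190903047536035355372906185799526653321005756281878877381862056922220183289613689211789537877241155758361034165684232002758449668479776472740739792809701504158510762464874601939933075671790503398513181980666944355648744775131974096198917772940611656052113287521953199512716871049099148134343745246394712791762204509579097761347489962689407498239522523360032011036623949520774690024762195868605727801616338616588709483559360395846694382940343210783284184854231550904991495108289863175133318874225642350347549001452185440295035982317045951953725753021441770334808676241922544136525677797697014873149151936747508469511215248414315800322224446620451328709661537265964687249157388694121658108272470137859078283046126379351563912115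348270215197547107978607981113518424211469475180952644839473257443078122865119947962502535238785568947787905340000587501412475217832187235589114820162158032372710867145813661613350409705963173671323473440362849815570141995486916218982207498568799137743308447472996911274690753139599326243425218844041241978602704668202566248003360813099832963907094397922115591078028633063239745307054935021768644044439569463493637082398746224585810204547633106903374970522895076430877816734830344991761715381629647392073849205498812847063184255746333613855235604139338714899577808457017757702156711468405661421297945361984700681206123747850798372072594683345537621929605597197714029959635304666869202233529496464835855700044331638938969625288538043471155527025657464858496053653578422742801397846817387124627967157679259532583589295381714856923392629826538954687260630955860343739223179505383731945204945077790727058035850181664667696757025588487457330882106028359055470622290982526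849768280419901847246008630015323029057924814963536952997608360056735651970763777350343642785844047363196782127923061798892291264726500509655448632749998016868309596107821421843522087995070957440007513487288919472245108818583074647185914611921310149272888594018723717088734166124235792123379890766319412140787406532301295170630651974856578225077549258341276012331372467254293793305787853495751908728916931511881789650101034513764980837583358066998342396833366017989353637457268294259980386745993107675361246854696389068597272240036933496244978750331795549665159541099321243925041556577766393123085868022510516575733972669904459748044352721494508311211022222862437382378618958853935881629467935502390505665341840829565257943251135290856328867512562400147439501029207984959506932852119002708140074423075422205966074386933153790684335098396238161465231082100025296894866610996749215354208719392514495012343078389675987792195493182227258997590227354529459734848653118851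719891621213035792422659637547351473597579292198984910493658136737842342429507402968675844720057343633765849232335399136907409190065993879701804543371630351662076885176790124005789788336230922388646361692186799698621481678704232536070163133319604041728233411986160833607389891484262686844985569650996126206938496505094847045623833871196660095498405652113110231255264051856750202670516296581800612480222476579487696666146175723579225323603909350744141946434776469492169459914655536611158416596261909836193273749296299904785797518839160210621628250049657446978815749383779954411329056058159610527766599367921372191177353592157461192694834969001300107329647834964463403149159649671918385517078381810653171560468618296297668331476117429343559412577704702850623091128592217713903157745836218915428109158923149162227203006084640764638780970555901251972339938270206231403614599279289664736454386584615609261606216649915702811704853167720781602095724150399920186725522178714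220747582568139204965511457188595801964159651362531455798048110288268907547527679497569304273630829225741931236517048861729755394381980312476914987577919049736900224451183352410660240798775795127929831015289210451491223064279797451384232496459116875991533222791814340091936632966315901373864526884815011183219658046290080516857647433396740635560773814850451604912965168893416077659979560050797219612229885162698162864655576622360514383053935343868290614806535105722703598890949185374056350313989646974532164932354344736167169427095824297947265223625435064285198717687119681546476293662963385916398528906253184135715220964212308363531117483915000330982846790802270362427425215194759781556092139735008088802900956458277513792835811930753565118757288700743963261927952030625731823818031692981028196208321029705302717744614551468316765559299011904628976050306647879144116107012293238873957825048322205296763380996993059050279011883653284903007415953275016389246797800760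5846974457203421189649698901934486389223584481494624685176113217445590878853872976581815584779959059066140071932510958045342438521811286549180630537454973723240535121104866555800608762882793379655704715449477522086360641591632533753891712130294893235192936250659162625659531564370665184918852372331995576309092442474317443191035176392155130846932275441893653047385031270580922223197317175368708652274118578818695808629059218644299045824429730623227386858231355645838437816112062693979524597488766038080296230475096008397999431208144189063954115641961570413932091703576744470199082017019149614100152299003606815419911720782902621602887175466877622587695502865188719882176432826719711180828444670218194304764431238912433776937120839967167891048856539693244875610240539970393020116976694198401769460074221410872899665920)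

end Vale.Agent.Lib.P154.PChain.BB.S8
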